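import Mathlib

/-! # Row 202, B1: global solutions of linear ODEs, jointly continuous in a compact parameter
(helper514) -/

set_option autoImplicit false
set_option linter.unusedSectionVars false
set_option linter.unusedVariables false

open Set Filter Topology MeasureTheory
open scoped Nat

namespace Crest.Agent.R202.LinODE

variable {X : Type*} [TopologicalSpace X] [CompactSpace X]
  {F : Type*} [NormedAddCommGroup F] [NormedSpace ℝ F] [CompleteSpace F]

/-- Picard iterates of the homogeneous linear equation. -/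
noncomputable def pic (A : X → ℝ → F →L[ℝ] F) (t0 : ℝ) (x0 : X → F) : ℕ → X → ℝ → F
  | 0 => fun κ _ => x0 κ
  | n + 1 => fun κ t => ∫ s in t0..t, A κ s (pic A t0 x0 n κ s)

theorem continuous_pic {A : X → ℝ → F →L[ℝ] F} (hA : Continuous (Function.uncurry A)) (t0 : ℝ)
    {x0 : X → F} (hx : Continuous x0) (n : ℕ) :
    Continuous (Function.uncurry (pic A t0 x0 n)) := by
  induction n with
  | zero => exact hx.comp continuous_fst
  | succ n ih =>
    have h1 : Continuous (Function.uncurry fun (p : X) (s : ℝ) => A p s (pic A t0 x0 n p s)) :=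
      hA.clm_apply ih
    have h2 : Continuous fun p : (X × ℝ) × ℝ => A p.1.1 p.2 (pic A t0 x0 n p.1.1 p.2) :=
      h1.comp ((continuous_fst.comp continuous_fst).prodMk continuous_snd)
    exact intervalIntegral.continuous_parametric_intervalIntegral_of_continuous
      (f := fun (p : X × ℝ) (s : ℝ) => A p.1 s (pic A t0 x0 n p.1 s)) h2 continuous_snd

theorem exists_bound {A : X → ℝ → F →L[ℝ] F} (hA : Continuous (Function.uncurry A)) (t0 R : ℝ) :
    ∃ M, 0 ≤ M ∧ ∀ κ, ∀ t ∈ Icc (t0 - R) (t0 + R), ‖A κ t‖ ≤ M := by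
  have hK : IsCompact ((univ : Set X) ×ˢ Icc (t0 - R) (t0 + R)) := isCompact_univ.prod isCompact_Icc
  obtain ⟨M, hM⟩ := (hK.bddAbove_image (f := fun p : X × ℝ => ‖A p.1 p.2‖)
    (hA.norm.continuousOn))
  refine ⟨max M 0, le_max_right _ _, fun κ t ht => ?_⟩
  exact (hM ⟨(κ, t), ⟨mem_univ _, ht⟩, rfl⟩).trans (le_max_left _ _)

theorem norm_pic_le {A : X → ℝ → F →L[ℝ] F} (hA : Continuous (Function.uncurry A)) (t0 : ℝ)
    {x0 : X → F} (hx : Continuous x0) {R M D : ℝ} (hM0 : 0 ≤ M)
    (hM : ∀ κ, ∀ t ∈ Icc (t0 - R) (t0 + R), ‖A κ t‖ ≤ M) (hD : ∀ κ, ‖x0 κ‖ ≤ D)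
    (n : ℕ) (κ : X) (t : ℝ) (ht : t ∈ Icc (t0 - R) (t0 + R)) :
    ‖pic A t0 x0 n κ t‖ ≤ D * ((M * |t - t0|) ^ n / n !) := by
  induction n generalizing t with
  | zero => simpa [pic] using hD κ
  | succ n ih =>
    have hD0 : 0 ≤ D := (norm_nonneg _).trans (hD κ)
    have hsub : ∀ s ∈ Set.uIcc t0 t, s ∈ Icc (t0 - R) (t0 + R) := by
      intro s hs
      have hR : t0 ∈ Icc (t0 - R) (t0 + R) := by
        constructor <;> linarith [ht.1, ht.2]
      exact (Set.uIcc_subset_Icc hR ht) hs
    have hle : ‖pic A t0 x0 (n + 1) κ t‖ ≤ |∫ s in t0..t, M * (D * ((M * |s - t0|) ^ n / n !))| := by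
      refine intervalIntegral.norm_integral_le_abs_of_norm_le ?_ ?_
      · refine (MeasureTheory.ae_restrict_iff' measurableSet_uIoc).2 (Filter.Eventually.of_forall ?_)
        intro s hs
        have hs' := hsub s (Set.uIoc_subset_uIcc hs)
        calc ‖A κ s (pic A t0 x0 n κ s)‖ ≤ ‖A κ s‖ * ‖pic A t0 x0 n κ s‖ :=
              (A κ s).le_opNorm _
          _ ≤ M * (D * ((M * |s - t0|) ^ n / n !)) :=
              mul_le_mul (hM κ s hs') (ih s hs') (norm_nonneg _) hM0
      · apply Continuous.intervalIntegrable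
        fun_prop
    refine hle.trans ?_
    have hcomp : (∫ s in t0..t, M * (D * ((M * |s - t0|) ^ n / n !)))
        = M ^ (n + 1) * D / n ! * ∫ s in t0..t, |s - t0| ^ n := by
      rw [← intervalIntegral.integral_const_mul]
      congr 1
      funext s
      rw [mul_pow]
      ring
    have habs : |∫ s in t0..t, |s - t0| ^ n| = |t - t0| ^ (n + 1) / (n + 1) := by
      rcases le_total t0 t with h | h
      · have : (∫ s in t0..t, |s - t0| ^ n) = ∫ s in t0..t, (s - t0) ^ n := by
          refine intervalIntegral.integral_congr fun s hs => ?_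
          rw [Set.uIcc_of_le h] at hs
          simp only [abs_of_nonneg (sub_nonneg.2 hs.1)]
        rw [this]
        have h3 : (∫ s in t0..t, (s - t0) ^ n) = (t - t0) ^ (n + 1) / (n + 1) := by
          rw [intervalIntegral.integral_comp_sub_right (fun x => x ^ n) t0]
          simp
        rw [h3, abs_of_nonneg (sub_nonneg.2 h), abs_of_nonneg]
        exact div_nonneg (pow_nonneg (sub_nonneg.2 h) _) (by positivity)
      · have : (∫ s in t0..t, |s - t0| ^ n) = ∫ s in t0..t, (t0 - s) ^ n := by
          refine intervalIntegral.integral_congr fun s hs => ?_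
          rw [Set.uIcc_of_ge h] at hs
          simp only [abs_of_nonpos (sub_nonpos.2 hs.2), neg_sub]
        rw [this]
        have h3 : (∫ s in t0..t, (t0 - s) ^ n) = -((t0 - t) ^ (n + 1) / (n + 1)) := by
          rw [intervalIntegral.integral_comp_sub_left (fun x => x ^ n) t0]
          rw [integral_pow]
          simp
          ring
        rw [h3, abs_neg, abs_of_nonpos (sub_nonpos.2 h), neg_sub, abs_of_nonneg]
        exact div_nonneg (pow_nonneg (sub_nonneg.2 h) _) (by positivity)
    rw [hcomp, abs_mul, habs, abs_of_nonneg (by positivity)]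
    have hf : ((n + 1)! : ℝ) = (n + 1) * n ! := by
      rw [Nat.factorial_succ]; push_cast; ring
    rw [hf, mul_pow]
    have h1 : (0:ℝ) < n ! := by positivity
    have h2 : (0:ℝ) < (n:ℝ) + 1 := by positivity
    apply le_of_eq
    field_simp

/-- Global solutions of a linear ODE, jointly continuous in time and a compact parameter. -/
theorem exists_flow {A : X → ℝ → F →L[ℝ] F} (hA : Continuous (Function.uncurry A)) (t0 : ℝ)
    {x0 : X → F} (hx : Continuous x0) :
    ∃ S : X → ℝ → F, Continuous (Function.uncurry S) ∧ (∀ κ, S κ t0 = x0 κ) ∧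
      ∀ κ t, HasDerivAt (S κ) (A κ t (S κ t)) t := by
  obtain ⟨D, hD⟩ : ∃ D, ∀ κ, ‖x0 κ‖ ≤ D := by
    obtain ⟨D, hD⟩ := (isCompact_univ (X := X)).bddAbove_image (f := fun κ => ‖x0 κ‖)
      hx.norm.continuousOn
    exact ⟨D, fun κ => hD ⟨κ, mem_univ _, rfl⟩⟩
  set S : X → ℝ → F := fun κ t => ∑' n, pic A t0 x0 n κ t with hS
  -- summability bounds
  have hbd : ∀ R : ℝ, ∃ u : ℕ → ℝ, Summable u ∧ ∀ n κ, ∀ t ∈ Icc (t0 - R) (t0 + R),
      ‖pic A t0 x0 n κ t‖ ≤ u n := by
    intro R
    obtain ⟨M, hM0, hM⟩ := exists_bound hA t0 R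
    refine ⟨fun n => |D| * ((M * |R|) ^ n / n !), ?_, ?_⟩
    · exact (Real.summable_pow_div_factorial _).mul_left _
    · intro n κ t ht
      refine (norm_pic_le hA t0 hx hM0 hM hD n κ t ht).trans ?_
      have h1 : |t - t0| ≤ |R| := by
        rw [abs_le]
        have := le_abs_self R
        constructor <;> linarith [ht.1, ht.2]
      have h2 : (M * |t - t0|) ^ n ≤ (M * |R|) ^ n :=
        pow_le_pow_left₀ (by positivity) (mul_le_mul_of_nonneg_left h1 hM0) n
      have h3 : (M * |t - t0|) ^ n / n ! ≤ (M * |R|) ^ n / n ! := by gcongr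
      exact mul_le_mul (le_abs_self D) h3 (by positivity) (abs_nonneg D)
  have hsumm : ∀ κ t, Summable fun n => pic A t0 x0 n κ t := by
    intro κ t
    obtain ⟨u, hu, hb⟩ := hbd (|t - t0|)
    refine Summable.of_norm_bounded hu fun n => hb n κ t ?_
    have := abs_le.1 (le_refl |t - t0|)
    constructor <;> linarith [this.1, this.2]
  have hcont : Continuous (Function.uncurry S) := by
    rw [continuous_iff_continuousAt]
    rintro ⟨κ, t⟩
    obtain ⟨u, hu, hb⟩ := hbd (|t - t0| + 1)
    have hon : ContinuousOn (fun p : X × ℝ => ∑' n, pic A t0 x0 n p.1 p.2)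
        (univ ×ˢ Icc (t0 - (|t - t0| + 1)) (t0 + (|t - t0| + 1))) := by
      refine continuousOn_tsum (fun n => (continuous_pic hA t0 hx n).continuousOn) hu ?_
      rintro n ⟨κ', t'⟩ ⟨_, ht'⟩
      exact hb n κ' t' ht'
    refine (hon.continuousAt ?_)
    refine prod_mem_nhds univ_mem (Icc_mem_nhds ?_ ?_)
    · linarith [neg_abs_le (t - t0)]
    · linarith [le_abs_self (t - t0)]
  have hS0 : ∀ κ, S κ t0 = x0 κ := by
    intro κ
    rw [hS]
    simp only
    rw [tsum_eq_single 0]
    · rfl
    · intro n hn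
      obtain ⟨m, rfl⟩ := Nat.exists_eq_succ_of_ne_zero hn
      simp [pic]
  refine ⟨S, hcont, hS0, fun κ t => ?_⟩
  have hAS : Continuous fun s => A κ s (S κ s) :=
    (hA.comp (continuous_const.prodMk continuous_id)).clm_apply
      (hcont.comp (continuous_const.prodMk continuous_id))
  have hint : ∀ t, S κ t = x0 κ + ∫ s in t0..t, A κ s (S κ s) := by
    intro t
    obtain ⟨u, hu, hb⟩ := hbd (|t - t0|)
    obtain ⟨M, hM0, hM⟩ := exists_bound hA t0 (|t - t0|)
    have hsub : ∀ s ∈ Set.uIcc t0 t, s ∈ Icc (t0 - |t - t0|) (t0 + |t - t0|) := by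
      intro s hs
      have h1 : t0 ∈ Icc (t0 - |t - t0|) (t0 + |t - t0|) := by
        constructor <;> linarith [abs_nonneg (t - t0)]
      have h2 : t ∈ Icc (t0 - |t - t0|) (t0 + |t - t0|) := by
        constructor <;> linarith [neg_abs_le (t - t0), le_abs_self (t - t0)]
      exact (Set.uIcc_subset_Icc h1 h2) hs
    have hsum : HasSum (fun n => ∫ s in t0..t, A κ s (pic A t0 x0 n κ s))
        (∫ s in t0..t, A κ s (S κ s)) := by
      refine intervalIntegral.hasSum_integral_of_dominated_convergence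
        (fun n _ => M * u n) ?_ ?_ ?_ ?_ ?_
      · intro n
        exact (((hA.comp (continuous_const.prodMk continuous_id)).clm_apply
          ((continuous_pic hA t0 hx n).comp (continuous_const.prodMk continuous_id))).aestronglyMeasurable)
      · intro n
        refine Filter.Eventually.of_forall fun s hs => ?_
        have hs' := hsub s (Set.uIoc_subset_uIcc hs)
        exact ((A κ s).le_opNorm _).trans
          (mul_le_mul (hM κ s hs') (hb n κ s hs') (norm_nonneg _) hM0)
      · exact Filter.Eventually.of_forall fun s _ => hu.mul_left M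
      · exact (continuous_const).intervalIntegrable _ _
      · refine Filter.Eventually.of_forall fun s _ => ?_
        exact ((hsumm κ s).hasSum).mapL (A κ s)
    have h1 : S κ t = pic A t0 x0 0 κ t + ∑' n, pic A t0 x0 (n + 1) κ t :=
      (hsumm κ t).tsum_eq_zero_add
    rw [h1]
    congr 1
    exact hsum.tsum_eq
  have hd : HasDerivAt (fun t => x0 κ + ∫ s in t0..t, A κ s (S κ s)) (A κ t (S κ t)) t := by
    have := intervalIntegral.integral_hasDerivAt_right (a := t0) (b := t)
      (hAS.intervalIntegrable _ _) (hAS.stronglyMeasurableAtFilter _ _) hAS.continuousAt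
    exact this.const_add _
  exact hd.congr_of_eventuallyEq (Filter.Eventually.of_forall hint)

end Crest.Agent.R202.LinODE
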