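import Mathlib
import Crest.Agent.R332.FullTop

/-! # Poincaré–Miranda theorem (row 202, helper206) -/

set_option autoImplicit false

open Set
open scoped InnerProductSpace

namespace Crest.Agent.R202

/-- **Poincaré–Miranda**, cube `[-1,1]^ι`, non-strict boundary conditions. -/
theorem poincare_miranda {ι : Type*} [Fintype ι]
    (f : (ι → ℝ) → ι → ℝ)
    (hf : ContinuousOn f (Set.pi Set.univ fun _ => Set.Icc (-1 : ℝ) 1))
    (hpos : ∀ x ∈ Set.pi (Set.univ : Set ι) (fun _ => Set.Icc (-1 : ℝ) 1), ∀ i, x i = 1 → 0 ≤ f x i)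
    (hneg : ∀ x ∈ Set.pi (Set.univ : Set ι) (fun _ => Set.Icc (-1 : ℝ) 1), ∀ i, x i = -1 → f x i ≤ 0) :
    ∃ x ∈ Set.pi (Set.univ : Set ι) (fun _ => Set.Icc (-1 : ℝ) 1), ∀ i, f x i = 0 := by
  classical
  set e : EuclideanSpace ℝ ι ≃L[ℝ] (ι → ℝ) := EuclideanSpace.equiv ι ℝ with he
  set Q : Set (ι → ℝ) := Set.pi (Set.univ : Set ι) (fun _ => Set.Icc (-1 : ℝ) 1) with hQ
  set C : Set (EuclideanSpace ℝ ι) := e ⁻¹' Q with hC
  have hQc : IsCompact Q := isCompact_univ_pi fun _ => isCompact_Icc
  have hQconv : Convex ℝ Q := convex_pi fun _ _ => convex_Icc _ _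
  have hCc : IsCompact C := by
    have : C = e.symm '' Q := by
      rw [hC]
      exact (e.symm.toEquiv.image_eq_preimage_symm Q).symm
    rw [this]
    exact hQc.image e.symm.continuous
  have hCconv : Convex ℝ C := hQconv.linear_preimage (e : EuclideanSpace ℝ ι →ₗ[ℝ] (ι → ℝ))
  have h0 : (0 : ι → ℝ) ∈ Q := by
    intro i _
    constructor <;> simp
  have hCne : C.Nonempty := ⟨0, by
    change e 0 ∈ Q
    rw [map_zero]; exact h0⟩
  set T : EuclideanSpace ℝ ι → EuclideanSpace ℝ ι := fun x => e.symm (f (e x)) with hT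
  have hTc : ContinuousOn T C := by
    refine e.symm.continuous.comp_continuousOn ?_
    exact hf.comp e.continuous.continuousOn (fun x hx => hx)
  obtain ⟨x, hxC, hx⟩ := Crest.Agent.R332.Full.hartman_stampacchia C hCne hCc hCconv T hTc
  refine ⟨e x, hxC, fun i => ?_⟩
  have key : ∀ t ∈ Set.Icc (-1 : ℝ) 1, 0 ≤ f (e x) i * (t - e x i) := by
    intro t ht
    have hy : e.symm (Function.update (e x) i t) ∈ C := by
      change e (e.symm (Function.update (e x) i t)) ∈ Q
      rw [e.apply_symm_apply]
      intro j _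
      by_cases hj : j = i
      · subst hj; simpa using ht
      · rw [Function.update_of_ne hj]; exact hxC j (mem_univ j)
    have h1 := hx _ hy
    have h2 : ⟪T x, e.symm (Function.update (e x) i t) - x⟫_ℝ = f (e x) i * (t - e x i) := by
      rw [PiLp.inner_apply]
      rw [Finset.sum_eq_single i]
      · simp [hT, he, mul_comm]
      · intro j _ hj
        have : (e.symm (Function.update (e x) i t) - x).ofLp j = 0 := by
          simp [he, Function.update_of_ne hj]
        rw [this]; simp
      · intro h; exact absurd (Finset.mem_univ i) h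
    rwa [h2] at h1
  have hxi : e x i ∈ Set.Icc (-1 : ℝ) 1 := hxC i (mem_univ i)
  by_contra hne
  rcases lt_or_gt_of_ne hne with hlt | hgt
  · -- f < 0: then x i = -1 is excluded by key with t = 1 unless x i = 1
    have h1 := key 1 ⟨by norm_num, le_refl _⟩
    have h3 : e x i = 1 := by
      have : 1 - e x i ≤ 0 := by
        by_contra hc
        push Not at hc
        have := mul_neg_of_neg_of_pos hlt hc
        linarith
      linarith [hxi.2]
    have := hpos (e x) hxC i h3
    linarith
  · have h1 := key (-1) ⟨le_refl _, by norm_num⟩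
    have h3 : e x i = -1 := by
      have : 0 ≤ -1 - e x i := by
        by_contra hc
        push Not at hc
        have := mul_neg_of_pos_of_neg hgt hc
        linarith
      linarith [hxi.1]
    have := hneg (e x) hxC i h3
    linarith

end Crest.Agent.R202
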