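/-
R202, part B0 (helper846): polar integration and the divergence theorem on spheres
(differential form) in `ℝⁿ`.
-/
import Crest.Prelude.Def_CoordMetric

set_option autoImplicit false

open MeasureTheory Set Filter Topology Metric
open scoped ContDiff
open Crest.GeometryTopology.CoordMetric

noncomputable section

namespace Crest.Agent.R202.SphDiv

variable {n : ℕ}

local notation "EE" => EuclideanSpace ℝ (Fin n)

/-- unit sphere -/
abbrev Sph (n : ℕ) : Type := sphere (0 : EuclideanSpace ℝ (Fin n)) 1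

/-- surface measure -/
def sig (n : ℕ) : Measure (Sph n) := (volume : Measure (EuclideanSpace ℝ (Fin n))).toSphere

instance : IsFiniteMeasure (sig n) := by unfold sig; infer_instance

/-- POLAR INTEGRATION -/
theorem polar (hn : 0 < n) (f : EE → ℝ) (hf : Integrable f) :
    ∫ x, f x = ∫ r in Ioi (0 : ℝ), r ^ (n - 1) * ∫ z : Sph n, f (r • (z : EE)) ∂(sig n) := by
  haveI : Nonempty (Fin n) := ⟨⟨0, hn⟩⟩
  haveI : Nontrivial EE := inferInstance
  set ν : Measure (Ioi (0 : ℝ)) := Measure.volumeIoiPow (Module.finrank ℝ EE - 1) with hν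
  have hdim : Module.finrank ℝ EE = n := by simp
  set F : Sph n × Ioi (0 : ℝ) → ℝ := fun p => f ((p.2 : ℝ) • (p.1 : EE)) with hF
  have hcomp : ∀ x : ({0}ᶜ : Set EE), F (homeomorphUnitSphereProd EE x) = f x := by
    intro x
    simp only [hF, homeomorphUnitSphereProd_apply_snd_coe, homeomorphUnitSphereProd_apply_fst_coe]
    have hx : ‖(x : EE)‖ ≠ 0 := norm_ne_zero_iff.2 x.2
    rw [smul_smul, mul_inv_cancel₀ hx, one_smul]
  have hmp := (volume : Measure EE).measurePreserving_homeomorphUnitSphereProd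
  have hemb : MeasurableEmbedding (homeomorphUnitSphereProd EE) :=
    Homeomorph.measurableEmbedding _
  have hFint : Integrable F ((sig n).prod ν) := by
    have h1 : Integrable (fun x : ({0}ᶜ : Set EE) => f x)
        ((volume : Measure EE).comap (↑)) := by
      have := (integrableOn_iff_comap_subtypeVal (μ := (volume : Measure EE))
        (measurableSet_singleton (0 : EE)).compl (f := f)).1 hf.integrableOn
      exact this
    have h2 : (fun x : ({0}ᶜ : Set EE) => f x) = F ∘ (homeomorphUnitSphereProd EE) := by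
      funext x
      exact (hcomp x).symm
    rw [h2] at h1
    exact (hmp.integrable_comp_emb hemb).1 h1
  calc ∫ x, f x = ∫ x : ({0}ᶜ : Set EE), f x ∂((volume : Measure EE).comap (↑)) := by
        rw [integral_subtype_comap (measurableSet_singleton _).compl f,
          restrict_compl_singleton]
    _ = ∫ x : ({0}ᶜ : Set EE), F (homeomorphUnitSphereProd EE x)
          ∂((volume : Measure EE).comap (↑)) := by
        refine integral_congr_ae (Eventually.of_forall fun x => (hcomp x).symm)
    _ = ∫ p, F p ∂((sig n).prod ν) := hmp.integral_comp hemb F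
    _ = ∫ r : Ioi (0 : ℝ), ∫ z : Sph n, f ((r : ℝ) • (z : EE)) ∂(sig n) ∂ν :=
        integral_prod_symm F hFint
    _ = ∫ r in Ioi (0 : ℝ), r ^ (n - 1) * ∫ z : Sph n, f (r • (z : EE)) ∂(sig n) := by
        rw [hν, hdim]
        simp only [Measure.volumeIoiPow, ENNReal.ofReal]
        rw [integral_withDensity_eq_integral_smul,
          integral_subtype_comap measurableSet_Ioi fun a : ℝ => Real.toNNReal (a ^ (n - 1)) •
            ∫ z : Sph n, f (a • (z : EE)) ∂(sig n),
          setIntegral_congr_fun measurableSet_Ioi fun x hx => ?_]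
        · rw [NNReal.smul_def, Real.coe_toNNReal _ (pow_nonneg (mem_Ioi.1 hx).le _), smul_eq_mul]
        · exact (measurable_subtype_coe.pow_const _).real_toNNReal

/-- slices of a continuous function are continuous -/
theorem continuousOn_slice (h : ℝ → Sph n → ℝ)
    (hh : ContinuousOn (fun p : ℝ × Sph n => h p.1 p.2) (Ioi 0 ×ˢ univ)) :
    ContinuousOn (fun ρ : ℝ => ∫ z : Sph n, h ρ z ∂(sig n)) (Ioi 0) := by
  haveI : LocallyCompactSpace (Ioi (0 : ℝ)) := isOpen_Ioi.locallyCompactSpace
  rw [continuousOn_iff_continuous_domRestrict]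
  have h1 : Continuous (Function.uncurry fun (ρ : Ioi (0 : ℝ)) (z : Sph n) => h ρ z) := by
    have h2 : Continuous fun p : Ioi (0 : ℝ) × Sph n => ((p.1 : ℝ), p.2) := by fun_prop
    exact hh.comp_continuous h2 fun p => ⟨p.1.2, trivial⟩
  have h2 := continuous_parametric_integral_of_continuous (μ := sig n) h1 isCompact_univ
  simp only [Measure.restrict_univ] at h2
  exact h2

theorem smul_ne_zero' {ρ : ℝ} (hρ : 0 < ρ) (z : Sph n) : ρ • (z : EE) ∈ ({0}ᶜ : Set EE) := by
  have : (z : EE) ≠ 0 := by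
    intro h
    have h1 : ‖(z : EE)‖ = 1 := by simp
    rw [h, norm_zero] at h1
    exact zero_ne_one h1
  simp [hρ.ne', this]

theorem continuousOn_polar {f : EE → ℝ} (hf : ContinuousOn f {0}ᶜ) :
    ContinuousOn (fun p : ℝ × Sph n => f (p.1 • (p.2 : EE))) (Ioi 0 ×ˢ univ) := by
  have h2 : Continuous fun p : ℝ × Sph n => p.1 • (p.2 : EE) := by fun_prop
  exact hf.comp h2.continuousOn fun p hp => smul_ne_zero' hp.1 p.2

/-- differentiation of slices -/
theorem hasDerivAt_slice {g : EE → ℝ} (hg : ContDiffOn ℝ 1 g {0}ᶜ) {r : ℝ} (hr : 0 < r) :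
    HasDerivAt (fun ρ : ℝ => ∫ z : Sph n, g (ρ • (z : EE)) ∂(sig n))
      (∫ z : Sph n, fderiv ℝ g (r • (z : EE)) z ∂(sig n)) r := by
  have hop : IsOpen ({0}ᶜ : Set EE) := isOpen_compl_singleton
  have hfd : ContinuousOn (fderiv ℝ g) {0}ᶜ := hg.continuousOn_fderiv_of_isOpen hop le_rfl
  have hjc : ContinuousOn (fun p : ℝ × Sph n => fderiv ℝ g (p.1 • (p.2 : EE)) p.2)
      (Ioi 0 ×ˢ univ) := by
    have h2 : Continuous fun p : ℝ × Sph n => p.1 • (p.2 : EE) := by fun_prop
    have h3 := hfd.comp h2.continuousOn (s := Ioi 0 ×ˢ univ) fun p hp => smul_ne_zero' hp.1 p.2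
    have h4 : Continuous fun p : ℝ × Sph n => (p.2 : EE) := by fun_prop
    exact h3.clm_apply h4.continuousOn
  -- bound on a compact set
  have hK : IsCompact (Icc (r / 2) (2 * r) ×ˢ (univ : Set (Sph n))) :=
    isCompact_Icc.prod isCompact_univ
  have hsub : Icc (r / 2) (2 * r) ×ˢ (univ : Set (Sph n)) ⊆ Ioi 0 ×ˢ univ := by
    rintro p ⟨h1, -⟩
    exact ⟨lt_of_lt_of_le (half_pos hr) h1.1, trivial⟩
  obtain ⟨C, hC⟩ := hK.exists_bound_of_continuousOn (hjc.mono hsub)
  have hcont : ∀ ρ : ℝ, 0 < ρ → Continuous fun z : Sph n => g (ρ • (z : EE)) := by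
    intro ρ hρ
    have h2 : Continuous fun z : Sph n => ρ • (z : EE) := by fun_prop
    exact hg.continuousOn.comp_continuous h2 fun z => smul_ne_zero' hρ z
  have hcont' : Continuous fun z : Sph n => fderiv ℝ g (r • (z : EE)) z := by
    have h2 : Continuous fun z : Sph n => ((r, z) : ℝ × Sph n) := by fun_prop
    exact hjc.comp_continuous h2 fun z => ⟨hr, trivial⟩
  refine (hasDerivAt_integral_of_dominated_loc_of_deriv_le (μ := sig n)
    (F := fun (ρ : ℝ) (z : Sph n) => g (ρ • (z : EE)))
    (F' := fun (ρ : ℝ) (z : Sph n) => fderiv ℝ g (ρ • (z : EE)) z) (bound := fun _ => C)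
    (s := Ioo (r / 2) (2 * r)) (Ioo_mem_nhds (by linarith) (by linarith)) ?_ ?_ ?_ ?_ ?_ ?_).2
  · filter_upwards [Ioi_mem_nhds hr] with ρ hρ
    exact (hcont ρ hρ).aestronglyMeasurable
  · exact (hcont r hr).integrable_of_hasCompactSupport (HasCompactSupport.of_compactSpace _)
  · exact hcont'.aestronglyMeasurable
  · refine Eventually.of_forall fun z ρ hρ => ?_
    exact hC (ρ, z) ⟨⟨hρ.1.le, hρ.2.le⟩, trivial⟩
  · exact integrable_const _
  · refine Eventually.of_forall fun z ρ hρ => ?_
    have hρ0 : 0 < ρ := lt_trans (half_pos hr) hρ.1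
    have h1 : HasFDerivAt g (fderiv ℝ g (ρ • (z : EE))) (ρ • (z : EE)) :=
      ((hg.contDiffAt (hop.mem_nhds (smul_ne_zero' hρ0 z))).differentiableAt
        one_ne_zero).hasFDerivAt
    have h2 : HasDerivAt (fun ρ : ℝ => ρ • (z : EE)) ((1 : ℝ) • (z : EE)) ρ :=
      (hasDerivAt_id ρ).smul_const _
    rw [one_smul] at h2
    exact h1.comp_hasDerivAt ρ h2

/-- divergence -/
def dv (X : Fin n → EE → ℝ) (x : EE) : ℝ := ∑ i, pderiv i (X i) x

theorem fderiv_apply_sum (L : EE →L[ℝ] ℝ) (v : EE) :
    L v = ∑ i, L (EuclideanSpace.single i 1) * v i := by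
  have h : v = ∑ i, v i • EuclideanSpace.single i (1 : ℝ) := by
    have h0 := (EuclideanSpace.basisFun (Fin n) ℝ).sum_repr v
    simp only [EuclideanSpace.basisFun_repr, EuclideanSpace.basisFun_apply] at h0
    exact h0.symm
  conv_lhs => rw [h]
  rw [map_sum]
  refine Finset.sum_congr rfl fun i _ => ?_
  rw [map_smul, smul_eq_mul, mul_comm]

/-- the integral of a derivative of a compactly supported `C¹` function vanishes -/
theorem integral_fderiv_zero {f : EE → ℝ} (hf : ContDiff ℝ 1 f) (hc : HasCompactSupport f)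
    (v : EE) : ∫ x, fderiv ℝ f x v = 0 := by
  have hfd : Continuous (fderiv ℝ f) := hf.continuous_fderiv one_ne_zero
  have hfc : HasCompactSupport fun x => fderiv ℝ f x v := by
    have h1 : HasCompactSupport (fderiv ℝ f) := hc.fderiv (𝕜 := ℝ)
    exact h1.comp_left (g := fun L : EE →L[ℝ] ℝ => L v) rfl
  have hi : Integrable fun x => fderiv ℝ f x v :=
    (hfd.clm_apply continuous_const).integrable_of_hasCompactSupport hfc
  have h := integral_mul_fderiv_eq_neg_fderiv_mul_of_integrable (μ := (volume : Measure EE))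
    (f := fun _ : EE => (1 : ℝ)) (g := f) (v := v) (by simp) (by simpa using hi)
    (by simpa using hf.continuous.integrable_of_hasCompactSupport hc)
    (fun x _ => differentiableAt_const _)
    (fun x _ => (hf.differentiable one_ne_zero) x)
  simpa using h

/-- THE DIVERGENCE THEOREM ON SPHERES, differential form -/
theorem flux_deriv (hn : 0 < n) (X : Fin n → EE → ℝ) (hX : ∀ i, ContDiffOn ℝ 1 (X i) {0}ᶜ)
    {r : ℝ} (hr : 0 < r) :
    HasDerivAt (fun ρ : ℝ => ρ ^ (n - 1) * ∫ z : Sph n, ∑ i, X i (ρ • (z : EE)) * (z : EE) i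
      ∂(sig n)) (r ^ (n - 1) * ∫ z : Sph n, dv X (r • (z : EE)) ∂(sig n)) r := by
  have hop : IsOpen ({0}ᶜ : Set EE) := isOpen_compl_singleton
  -- the radial component
  set g : EE → ℝ := fun x => (∑ i, X i x * x i) / ‖x‖ with hg
  have hgC : ContDiffOn ℝ 1 g {0}ᶜ := by
    refine ContDiffOn.div ?_ ?_ ?_
    · refine ContDiffOn.sum fun i _ => (hX i).mul ?_
      exact (EuclideanSpace.proj (𝕜 := ℝ) i).contDiff.contDiffOn
    · exact fun x hx => (contDiffAt_norm ℝ hx).contDiffWithinAt
    · exact fun x hx => norm_ne_zero_iff.2 hx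
  have hgs : ∀ ρ : ℝ, 0 < ρ → ∀ z : Sph n, g (ρ • (z : EE)) = ∑ i, X i (ρ • (z : EE)) * (z : EE) i := by
    intro ρ hρ z
    have hz : ‖(z : EE)‖ = 1 := by simp
    simp only [hg, norm_smul, hz, mul_one, Real.norm_eq_abs, abs_of_pos hρ, PiLp.smul_apply,
      smul_eq_mul]
    rw [Finset.sum_div]
    refine Finset.sum_congr rfl fun i _ => ?_
    field_simp
  have hdvC : ContinuousOn (dv X) {0}ᶜ := by
    refine continuousOn_finsetSum _ fun i _ => ?_
    exact ((hX i).continuousOn_fderiv_of_isOpen hop le_rfl).clm_apply continuousOn_const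
  -- the function and its derivative
  set G : ℝ → ℝ := fun ρ => ρ ^ (n - 1) * ∫ z : Sph n, g (ρ • (z : EE)) ∂(sig n) with hGdef
  set D : ℝ → ℝ := fun ρ => ρ ^ (n - 1) * ∫ z : Sph n, dv X (ρ • (z : EE)) ∂(sig n) with hDdef
  set G' : ℝ → ℝ := fun ρ => ((n - 1 : ℕ) : ℝ) * ρ ^ (n - 1 - 1) *
      (∫ z : Sph n, g (ρ • (z : EE)) ∂(sig n)) +
      ρ ^ (n - 1) * ∫ z : Sph n, fderiv ℝ g (ρ • (z : EE)) z ∂(sig n) with hG'def
  have hGd : ∀ ρ : ℝ, 0 < ρ → HasDerivAt G (G' ρ) ρ := by
    intro ρ hρ
    exact (hasDerivAt_pow (n - 1) ρ).mul (hasDerivAt_slice hgC hρ)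
  have hslice : ∀ {f : EE → ℝ}, ContinuousOn f {0}ᶜ →
      ContinuousOn (fun ρ : ℝ => ∫ z : Sph n, f (ρ • (z : EE)) ∂(sig n)) (Ioi 0) := fun hf =>
    continuousOn_slice (fun ρ z => _) (continuousOn_polar hf)
  have hDc : ContinuousOn D (Ioi 0) := (continuous_pow _).continuousOn.mul (hslice hdvC)
  have hG'c : ContinuousOn G' (Ioi 0) := by
    refine ContinuousOn.add ?_ ?_
    · exact ((continuous_const.mul (continuous_pow _)).continuousOn).mul (hslice hgC.continuousOn)
    · refine (continuous_pow _).continuousOn.mul (continuousOn_slice _ ?_)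
      have hfd : ContinuousOn (fderiv ℝ g) {0}ᶜ := hgC.continuousOn_fderiv_of_isOpen hop le_rfl
      have h2 : Continuous fun p : ℝ × Sph n => p.1 • (p.2 : EE) := by fun_prop
      have h3 := hfd.comp h2.continuousOn (s := Ioi 0 ×ˢ univ) fun p hp => smul_ne_zero' hp.1 p.2
      have h4 : Continuous fun p : ℝ × Sph n => (p.2 : EE) := by fun_prop
      exact h3.clm_apply h4.continuousOn
  -- the distributional identity
  have key : ∀ φ : ℝ → ℝ, ContDiff ℝ ∞ φ → HasCompactSupport φ → tsupport φ ⊆ Ioi 0 →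
      ∫ ρ, φ ρ • (D ρ - G' ρ) = 0 := by
    intro φ hφ hφc hφs
    have hφC1 : ContDiff ℝ 1 φ := hφ.of_le (by exact_mod_cast le_top)
    -- compact support away from zero
    obtain ⟨a, b, ha, hab⟩ : ∃ a b : ℝ, 0 < a ∧ tsupport φ ⊆ Icc a b := by
      rcases (tsupport φ).eq_empty_or_nonempty with he | hne
      · exact ⟨1, 1, one_pos, by rw [he]; exact empty_subset _⟩
      · have hc : IsCompact (tsupport φ) := hφc
        refine ⟨sInf (tsupport φ), sSup (tsupport φ), hφs (hc.sInf_mem hne), fun x hx => ?_⟩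
        exact ⟨csInf_le hc.bddBelow hx, le_csSup hc.bddAbove hx⟩
    have hφ0 : ∀ ρ : ℝ, ρ < a → φ ρ = 0 := fun ρ hρ =>
      image_eq_zero_of_notMem_tsupport fun h => absurd (hab h).1 (not_le.2 hρ)
    set Φ : EE → ℝ := fun x => φ ‖x‖ with hΦ
    have hΦC : ContDiff ℝ 1 Φ := by
      rw [contDiff_iff_contDiffAt]
      intro x
      by_cases hx : x = 0
      · have h1 : Φ =ᶠ[𝓝 x] fun _ => 0 := by
          have h2 : ∀ᶠ y in 𝓝 x, ‖y‖ < a := by
            have h3 : Continuous fun y : EE => ‖y‖ := continuous_norm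
            refine h3.continuousAt.eventually_lt continuousAt_const ?_
            rw [hx, norm_zero]; exact ha
          filter_upwards [h2] with y hy
          exact hφ0 _ hy
        exact contDiffAt_const.congr_of_eventuallyEq h1
      · exact hφC1.contDiffAt.comp x (contDiffAt_norm ℝ hx)
    have hΦ0 : ∀ x : EE, x ∉ closedBall (0 : EE) b → Φ x = 0 := by
      intro x hx
      show φ ‖x‖ = 0
      refine image_eq_zero_of_notMem_tsupport fun h => hx ?_
      simpa using (hab h).2
    have hΦs : HasCompactSupport Φ :=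
      HasCompactSupport.intro (isCompact_closedBall (0 : EE) b) hΦ0
    have hΦts : tsupport Φ ⊆ {0}ᶜ := by
      intro x hx
      rw [mem_compl_iff, mem_singleton_iff]
      rintro rfl
      have h1 : (0 : EE) ∉ tsupport Φ := by
        rw [notMem_tsupport_iff_eventuallyEq]
        have h2 : ∀ᶠ y in 𝓝 (0 : EE), ‖y‖ < a := by
          have h3 : Continuous fun y : EE => ‖y‖ := continuous_norm
          refine h3.continuousAt.eventually_lt continuousAt_const ?_
          rw [norm_zero]; exact ha
        filter_upwards [h2] with y hy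
        exact hφ0 _ hy
      exact h1 hx
    -- products with Φ are C¹ with compact support
    have hprodC : ∀ i, ContDiff ℝ 1 fun x => Φ x * X i x := by
      intro i
      rw [contDiff_iff_contDiffAt]
      intro x
      by_cases hx : x = 0
      · have h1 : (fun x => Φ x * X i x) =ᶠ[𝓝 x] fun _ => 0 := by
          have h2 : x ∉ tsupport Φ := fun h => hΦts h hx
          have h3 := notMem_tsupport_iff_eventuallyEq.1 h2
          filter_upwards [h3] with y hy
          rw [hy]; simp
        exact contDiffAt_const.congr_of_eventuallyEq h1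
      · exact hΦC.contDiffAt.mul ((hX i).contDiffAt (hop.mem_nhds hx))
    -- the integral of the divergence of ΦX vanishes
    have hdiv0 : ∀ i, ∫ x, fderiv ℝ (fun x => Φ x * X i x) x (EuclideanSpace.single i 1) = 0 :=
      fun i => integral_fderiv_zero (hprodC i) hΦs.mul_right _
    have hφd : Continuous (deriv φ) := hφC1.continuous_deriv le_rfl
    have hφd0 : ∀ ρ : ℝ, ρ < a → deriv φ ρ = 0 := by
      intro ρ hρ
      have h1 : φ =ᶠ[𝓝 ρ] fun _ => 0 := by
        filter_upwards [Iio_mem_nhds hρ] with y hy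
        exact hφ0 y hy
      rw [h1.deriv_eq, deriv_const]
    have hpt : ∀ x : EE, ∑ i, fderiv ℝ (fun x => Φ x * X i x) x (EuclideanSpace.single i 1) =
        Φ x * dv X x + deriv φ ‖x‖ * g x := by
      intro x
      by_cases hx : x = 0
      · have h2 : x ∉ tsupport Φ := fun h => hΦts h hx
        have h3 := notMem_tsupport_iff_eventuallyEq.1 h2
        have h4 : ∀ i, (fun x => Φ x * X i x) =ᶠ[𝓝 x] fun _ => 0 := by
          intro i
          filter_upwards [h3] with y hy
          rw [hy]; simp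
        have h5 : Φ x = 0 := h3.eq_of_nhds
        have h6 : deriv φ ‖x‖ = 0 := hφd0 _ (by rw [hx, norm_zero]; exact ha)
        rw [h5, h6, zero_mul, zero_mul, add_zero]
        refine Finset.sum_eq_zero fun i _ => ?_
        rw [(h4 i).fderiv_eq]
        simp
      · have hn0 : ‖x‖ ≠ 0 := norm_ne_zero_iff.2 hx
        have hΦd : HasFDerivAt Φ (deriv φ ‖x‖ • (‖x‖⁻¹ • innerSL ℝ x)) x := by
          have h1 : HasDerivAt φ (deriv φ ‖x‖) ‖x‖ :=
            ((hφC1.differentiable one_ne_zero) _).hasDerivAt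
          have h2 : HasFDerivAt (fun y : EE => ‖y‖) (‖x‖⁻¹ • innerSL ℝ x) x := by
            have h3 : HasStrictFDerivAt (fun y : EE => ‖y‖ ^ 2) (2 • (innerSL ℝ x)) x :=
              hasStrictFDerivAt_norm_sq x
            have h4 : HasFDerivAt (fun y : EE => Real.sqrt (‖y‖ ^ 2))
                ((1 / (2 * Real.sqrt (‖x‖ ^ 2))) • (2 • (innerSL ℝ x))) x :=
              h3.hasFDerivAt.sqrt (pow_ne_zero 2 hn0)
            have h5 : (fun y : EE => Real.sqrt (‖y‖ ^ 2)) = fun y => ‖y‖ := by
              funext y; exact Real.sqrt_sq (norm_nonneg y)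
            rw [h5, Real.sqrt_sq (norm_nonneg x)] at h4
            have h6 : (1 / (2 * ‖x‖)) • (2 • (innerSL ℝ x)) = ‖x‖⁻¹ • innerSL ℝ x := by
              rw [two_nsmul, ← two_smul ℝ, smul_smul]
              congr 1
              field_simp
            rw [h6] at h4
            exact h4
          exact h1.comp_hasFDerivAt x h2
        have hXd : ∀ i, HasFDerivAt (X i) (fderiv ℝ (X i) x) x := fun i =>
          (((hX i).contDiffAt (hop.mem_nhds hx)).differentiableAt one_ne_zero).hasFDerivAt
        have h7 : ∀ i, fderiv ℝ (fun x => Φ x * X i x) x (EuclideanSpace.single i 1) =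
            Φ x * pderiv i (X i) x + X i x * (deriv φ ‖x‖ * (‖x‖⁻¹ * x i)) := by
          intro i
          have h8 := (hΦd.mul (hXd i)).fderiv
          have h9 : (fun x => Φ x * X i x) = Φ * X i := rfl
          rw [h9, h8]
          simp only [ContinuousLinearMap.add_apply, ContinuousLinearMap.smul_apply, smul_eq_mul,
            pderiv, innerSL_apply_apply, EuclideanSpace.inner_single_right]
          simp
        rw [Finset.sum_congr rfl fun i _ => h7 i, Finset.sum_add_distrib, dv, Finset.mul_sum]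
        congr 1
        simp only [hg]
        rw [Finset.sum_div, Finset.mul_sum]
        refine Finset.sum_congr rfl fun i _ => ?_
        field_simp
    have hint : ∀ i, Integrable fun x => fderiv ℝ (fun x => Φ x * X i x) x
        (EuclideanSpace.single i 1) := by
      intro i
      have hfd : Continuous (fderiv ℝ fun x => Φ x * X i x) :=
        (hprodC i).continuous_fderiv one_ne_zero
      have h1 : HasCompactSupport (fderiv ℝ fun x => Φ x * X i x) :=
        HasCompactSupport.fderiv (𝕜 := ℝ) hΦs.mul_right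
      have h2 : HasCompactSupport fun x => fderiv ℝ (fun x => Φ x * X i x) x
          (EuclideanSpace.single i 1) :=
        h1.comp_left (g := fun L : EE →L[ℝ] ℝ => L (EuclideanSpace.single i 1)) rfl
      exact (hfd.clm_apply continuous_const).integrable_of_hasCompactSupport h2
    have hint2 : Integrable fun x => Φ x * dv X x + deriv φ ‖x‖ * g x := by
      have h1 := integrable_finsetSum Finset.univ fun i _ => hint i
      refine h1.congr (Eventually.of_forall fun x => ?_)
      exact hpt x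
    have h0 : ∫ x, (Φ x * dv X x + deriv φ ‖x‖ * g x) = 0 := by
      have h1 : ∫ x, (Φ x * dv X x + deriv φ ‖x‖ * g x) =
          ∫ x, ∑ i, fderiv ℝ (fun x => Φ x * X i x) x (EuclideanSpace.single i 1) :=
        integral_congr_ae (Eventually.of_forall fun x => (hpt x).symm)
      rw [h1, integral_finsetSum _ fun i _ => hint i]
      exact Finset.sum_eq_zero fun i _ => hdiv0 i
    rw [polar hn _ hint2] at h0
    -- the radial form
    have hcg : ∀ ρ : ℝ, 0 < ρ → Continuous fun z : Sph n => g (ρ • (z : EE)) := by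
      intro ρ hρ
      have h2 : Continuous fun z : Sph n => ρ • (z : EE) := by fun_prop
      exact hgC.continuousOn.comp_continuous h2 fun z => smul_ne_zero' hρ z
    have hcd : ∀ ρ : ℝ, 0 < ρ → Continuous fun z : Sph n => dv X (ρ • (z : EE)) := by
      intro ρ hρ
      have h2 : Continuous fun z : Sph n => ρ • (z : EE) := by fun_prop
      exact hdvC.comp_continuous h2 fun z => smul_ne_zero' hρ z
    have h1 : ∫ ρ in Ioi (0 : ℝ), (φ ρ * D ρ + deriv φ ρ * G ρ) = 0 := by
      refine Eq.trans ?_ h0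
      refine setIntegral_congr_fun measurableSet_Ioi fun ρ hρ => ?_
      have hρ' : (0 : ℝ) < ρ := hρ
      have hz : ∀ z : Sph n, ‖ρ • (z : EE)‖ = ρ := fun z => by
        rw [norm_smul, Real.norm_eq_abs, abs_of_pos hρ']; simp
      have e1 : (fun z : Sph n => Φ (ρ • (z : EE)) * dv X (ρ • (z : EE)) +
          deriv φ ‖ρ • (z : EE)‖ * g (ρ • (z : EE))) =
          fun z : Sph n => φ ρ * dv X (ρ • (z : EE)) + deriv φ ρ * g (ρ • (z : EE)) := by
        funext z
        simp only [hΦ, hz z]
      have hi1 : Integrable (fun z : Sph n => φ ρ * dv X (ρ • (z : EE))) (sig n) :=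
        (continuous_const.mul (hcd ρ hρ')).integrable_of_hasCompactSupport
          (HasCompactSupport.of_compactSpace _)
      have hi2 : Integrable (fun z : Sph n => deriv φ ρ * g (ρ • (z : EE))) (sig n) :=
        (continuous_const.mul (hcg ρ hρ')).integrable_of_hasCompactSupport
          (HasCompactSupport.of_compactSpace _)
      show φ ρ * D ρ + deriv φ ρ * G ρ = ρ ^ (n - 1) * ∫ z : Sph n,
        (Φ (ρ • (z : EE)) * dv X (ρ • (z : EE)) + deriv φ ‖ρ • (z : EE)‖ * g (ρ • (z : EE)))
          ∂(sig n)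
      rw [e1, integral_add hi1 hi2, integral_const_mul, integral_const_mul]
      simp only [hDdef, hGdef]
      ring
    have h2 : ∫ ρ, (φ ρ * D ρ + deriv φ ρ * G ρ) = 0 := by
      rw [← h1]
      symm
      refine setIntegral_eq_integral_of_forall_compl_eq_zero fun ρ hρ => ?_
      have hρ' : ρ < a := lt_of_le_of_lt (not_lt.1 hρ) ha
      rw [hφ0 ρ hρ', hφd0 ρ hρ', zero_mul, zero_mul, add_zero]
    -- continuity of the products
    have hcont : ∀ (ψ F : ℝ → ℝ), Continuous ψ → (∀ ρ, ρ < a → ψ ρ = 0) →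
        ContinuousOn F (Ioi 0) → Continuous fun ρ => ψ ρ * F ρ := by
      intro ψ F hψ hψ0 hF
      rw [continuous_iff_continuousAt]
      intro ρ
      rcases lt_or_ge ρ a with h | h
      · have h3 : (fun ρ => ψ ρ * F ρ) =ᶠ[𝓝 ρ] fun _ => 0 := by
          filter_upwards [Iio_mem_nhds h] with y hy
          rw [hψ0 y hy, zero_mul]
        exact continuousAt_const.congr h3.symm
      · exact hψ.continuousAt.mul (hF.continuousAt (Ioi_mem_nhds (lt_of_lt_of_le ha h)))
    have hcs : ∀ (F : ℝ → ℝ), HasCompactSupport fun ρ => φ ρ * F ρ := fun F => hφc.mul_right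
    have hcs' : ∀ (F : ℝ → ℝ), HasCompactSupport fun ρ => deriv φ ρ * F ρ := fun F =>
      HasCompactSupport.mul_right hφc.deriv
    have hGc : ContinuousOn G (Ioi 0) := fun ρ hρ => (hGd ρ hρ).continuousAt.continuousWithinAt
    have i1 : Integrable fun ρ => φ ρ * D ρ :=
      (hcont φ D hφ.continuous hφ0 hDc).integrable_of_hasCompactSupport (hcs D)
    have i2 : Integrable fun ρ => deriv φ ρ * G ρ :=
      (hcont _ G hφd hφd0 hGc).integrable_of_hasCompactSupport (hcs' G)
    have i3 : Integrable fun ρ => φ ρ * G' ρ :=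
      (hcont φ G' hφ.continuous hφ0 hG'c).integrable_of_hasCompactSupport (hcs G')
    have i4 : Integrable fun ρ => φ ρ * G ρ :=
      (hcont φ G hφ.continuous hφ0 hGc).integrable_of_hasCompactSupport (hcs G)
    have h3 : ∫ ρ, (deriv φ ρ * G ρ + φ ρ * G' ρ) = 0 := by
      refine integral_eq_zero_of_hasDerivAt_of_integrable (f := fun ρ => φ ρ * G ρ) ?_
        (i2.add i3) i4
      intro ρ
      rcases lt_or_ge ρ a with h | h
      · have h4 : (fun ρ => φ ρ * G ρ) =ᶠ[𝓝 ρ] fun _ => 0 := by
          filter_upwards [Iio_mem_nhds h] with y hy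
          rw [hφ0 y hy, zero_mul]
        have h5 : deriv φ ρ * G ρ + φ ρ * G' ρ = 0 := by
          rw [hφ0 ρ h, hφd0 ρ h]; ring
        show HasDerivAt (fun ρ => φ ρ * G ρ) (deriv φ ρ * G ρ + φ ρ * G' ρ) ρ
        rw [h5]
        exact (hasDerivAt_const ρ (0 : ℝ)).congr_of_eventuallyEq h4
      · exact (((hφC1.differentiable one_ne_zero) ρ).hasDerivAt).mul
          (hGd ρ (lt_of_lt_of_le ha h))
    have e2 : ∀ ρ, φ ρ • (D ρ - G' ρ) = (φ ρ * D ρ + deriv φ ρ * G ρ) -
        (deriv φ ρ * G ρ + φ ρ * G' ρ) := fun ρ => by rw [smul_eq_mul]; ring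
    have e3 := integral_sub (f := fun ρ => φ ρ * D ρ + deriv φ ρ * G ρ)
      (g := fun ρ => deriv φ ρ * G ρ + φ ρ * G' ρ) (i1.add i2) (i2.add i3)
    rw [integral_congr_ae (Eventually.of_forall e2), e3, h2, h3, sub_zero]
  have hae : ∀ᵐ ρ : ℝ, ρ ∈ Ioi (0 : ℝ) → D ρ - G' ρ = 0 := by
    refine IsOpen.ae_eq_zero_of_integral_contDiff_smul_eq_zero isOpen_Ioi ?_ key
    exact (hDc.sub hG'c).locallyIntegrableOn measurableSet_Ioi
  have heq : ∀ ρ ∈ Ioi (0 : ℝ), D ρ - G' ρ = 0 := by
    have h1 : (fun ρ => D ρ - G' ρ) =ᵐ[volume.restrict (Ioi 0)] fun _ => 0 := by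
      rw [Filter.EventuallyEq, ae_restrict_iff' measurableSet_Ioi]
      exact hae
    exact Measure.eqOn_open_of_ae_eq h1 isOpen_Ioi (hDc.sub hG'c) continuousOn_const
  have h1 := hGd r hr
  have h2 : G' r = D r := by
    have := heq r hr
    linarith
  rw [h2] at h1
  refine h1.congr_of_eventuallyEq ?_
  filter_upwards [Ioi_mem_nhds hr] with ρ hρ
  simp only [hGdef]
  congr 1
  refine integral_congr_ae (Eventually.of_forall fun z => ?_)
  exact (hgs ρ hρ z).symm

end Crest.Agent.R202.SphDiv
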