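import Crest.Agent.R202.CntData

/-!
Row 202: S0309 from `MainThm 0`.
-/

set_option autoImplicit false

open scoped ContDiff
open Crest.GeometryTopology.CoordMetric Crest.GeometryTopology.ChartCurvature
open Crest Crest.GeometryTopology

namespace Crest.Agent.R202.Main

theorem S0309_of_main (hmain : MainThm 0)
    (v : ℝ) (hv : 4 / 9 < v) (hv' : v < 1) (c : ℝ) (_hc : 1 < c) (hc' : c < 9 * v / 4) :
    ∃ k₀ : ℕ, ∀ k : ℕ, k₀ ≤ k → ∃ g : MetricField 3,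
      IsRiemannianOn g Set.univ ∧ IsCompleteOn g Set.univ ∧
      (∃ r : ℝ, 0 < r ∧ ∀ x : EuclideanSpace ℝ (Fin 3), ‖x‖ < r → g x = 1) ∧
      RicciNonnegOn g Set.univ ∧
      (∃ R : ℝ, ∀ x : EuclideanSpace ℝ (Fin 3), R < ‖x‖ →
        ∀ w : EuclideanSpace ℝ (Fin 3), w ≠ 0 → 0 < ∑ i, ∑ j, ricci g x i j * w i * w j) ∧
      HasAsymptoticVolumeRatio g v ∧
      (∃ p : ℕ → EuclideanSpace ℝ (Fin 3), Filter.Tendsto (fun j => ‖p j‖) Filter.atTop Filter.atTop ∧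
        ∀ j, ∃ w : EuclideanSpace ℝ (Fin 3),
          0 < gramDet g (p j) (p j) w ∧ secNumer g (p j) (p j) w < 0) ∧
      ∃ m : ℕ, c * ((k : ℝ) + 1) ^ 2 ≤ m ∧ ∃ f : Fin m → EuclideanSpace ℝ (Fin 3) → ℝ,
        LinearIndependent ℝ f ∧ ∀ i, IsHarmonicOn g Set.univ (f i) ∧
          ∃ C : ℝ, ∀ x, abs (f i x) ≤ C * (1 + riemDist g Set.univ 0 x) ^ k := by
  obtain ⟨k0, hk0⟩ := exists_countData3 (by linarith : 0 < v) hv' hc'
  refine ⟨k0, fun k hk => ?_⟩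
  obtain ⟨D, hD⟩ := hk0 k hk
  obtain ⟨g, G, f, hli, hf⟩ := hmain v k D
  exact ⟨g, G.riem, G.complete, G.near_zero, G.ric_nonneg, G.ric_pos, G.avr, G.neg,
    Fintype.card (Idx D), hD, fun i => f ((Fintype.equivFin (Idx D)).symm i),
    hli.comp _ (Fintype.equivFin (Idx D)).symm.injective, fun i => hf _⟩

end Crest.Agent.R202.Main
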