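import Crest.Agent.R202.CntData

/-!
Row 202: S0310 from `MainThm 5` (`n = 8`).
-/

set_option autoImplicit false

open scoped ContDiff
open Crest.GeometryTopology.CoordMetric
open Crest Crest.GeometryTopology

namespace Crest.Agent.R202.Main

theorem S0310_of_main (hmain : MainThm 5) :
    ∃ n : ℕ, Even n ∧ 8 ≤ n ∧ ∃ k : ℕ, 2 ≤ k ∧ ∃ g : MetricField n,
      IsRiemannianOn g Set.univ ∧ IsCompleteOn g Set.univ ∧
      (∃ r : ℝ, 0 < r ∧ ∀ x : EuclideanSpace ℝ (Fin n), ‖x‖ < r → g x = 1) ∧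
      RicciNonnegOn g Set.univ ∧
      (∃ v : ℝ, 0 < v ∧ v < 1 ∧ HasAsymptoticVolumeRatio g v) ∧
      ∃ m : ℕ, Nat.choose (n + k - 1) k + Nat.choose (n + k - 2) (k - 1) < m ∧
        ∃ f : Fin m → EuclideanSpace ℝ (Fin n) → ℝ,
          LinearIndependent ℝ f ∧ ∀ i, IsHarmonicOn g Set.univ (f i) ∧
            ∃ C : ℝ, ∀ x, abs (f i x) ≤ C * (1 + riemDist g Set.univ 0 x) ^ k := by
  obtain ⟨k, hk2, D, hD⟩ := ((Filter.eventually_ge_atTop 2).and
    (exists_countData8 (v := 1 / 2) (by norm_num) (by norm_num))).exists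
  obtain ⟨g, G, f, hli, hf⟩ := hmain (1 / 2) k D
  exact ⟨8, by decide, le_rfl, k, hk2, g, G.riem, G.complete, G.near_zero, G.ric_nonneg,
    ⟨1 / 2, by norm_num, by norm_num, G.avr⟩,
    Fintype.card (Idx D), hD, fun i => f ((Fintype.equivFin (Idx D)).symm i),
    hli.comp _ (Fintype.equivFin (Idx D)).symm.injective, fun i => hf _⟩

end Crest.Agent.R202.Main
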