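import Crest.Agent.R202.CntData

/-!
Row 202, GLUE (helper632): S0309 and S0310 from `MainThm 0` and `MainThm 5`.
-/

set_option autoImplicit false

open scoped ContDiff
open Crest.GeometryTopology.CoordMetric Crest.GeometryTopology.ChartCurvature
open Crest Crest.GeometryTopology

namespace Crest.Agent.R202.Main

/-- reindexing the functions of `MainThm` by `Fin` -/
theorem MainThm.fin {m : ℕ} (h : MainThm m) {v : ℝ} {k : ℕ} (D : CountData m v k) :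
    ∃ g : MetricField (m + 3), GeoOut m v g ∧
      ∃ f : Fin (Fintype.card (Idx D)) → EuclideanSpace ℝ (Fin (m + 3)) → ℝ,
        LinearIndependent ℝ f ∧ ∀ i, IsHarmonicOn g Set.univ (f i) ∧
          ∃ C : ℝ, ∀ x, |f i x| ≤ C * (1 + riemDist g Set.univ 0 x) ^ k := by
  obtain ⟨g, hg, f, hf, hh⟩ := h v k D
  refine ⟨g, hg, fun i => f ((Fintype.equivFin (Idx D)).symm i), ?_, fun i => hh _⟩
  exact hf.comp _ (Fintype.equivFin (Idx D)).symm.injective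

theorem S0309_of_main (h : MainThm 0)
    (v : ℝ) (hv : 4 / 9 < v) (hv' : v < 1) (c : ℝ) (_hc : 1 < c) (hc' : c < 9 * v / 4) :
    ∃ k₀ : ℕ, ∀ k : ℕ, k₀ ≤ k → ∃ g : MetricField 3,
      IsRiemannianOn g Set.univ ∧ IsCompleteOn g Set.univ ∧
      (∃ r : ℝ, 0 < r ∧ ∀ x : EuclideanSpace ℝ (Fin 3), ‖x‖ < r → g x = 1) ∧
      RicciNonnegOn g Set.univ ∧
      (∃ R : ℝ, ∀ x : EuclideanSpace ℝ (Fin 3), R < ‖x‖ →
        ∀ w : EuclideanSpace ℝ (Fin 3), w ≠ 0 → 0 < ∑ i, ∑ j, ricci g x i j * w i * w j) ∧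
      HasAsymptoticVolumeRatio g v ∧
      (∃ p : ℕ → EuclideanSpace ℝ (Fin 3), Filter.Tendsto (fun j => ‖p j‖) Filter.atTop Filter.atTop ∧
        ∀ j, ∃ w : EuclideanSpace ℝ (Fin 3),
          0 < gramDet g (p j) (p j) w ∧ secNumer g (p j) (p j) w < 0) ∧
      ∃ m : ℕ, c * ((k : ℝ) + 1) ^ 2 ≤ m ∧ ∃ f : Fin m → EuclideanSpace ℝ (Fin 3) → ℝ,
        LinearIndependent ℝ f ∧ ∀ i, IsHarmonicOn g Set.univ (f i) ∧
          ∃ C : ℝ, ∀ x, abs (f i x) ≤ C * (1 + riemDist g Set.univ 0 x) ^ k := by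
  obtain ⟨k0, hk⟩ := exists_countData3 (by linarith) hv' hc'
  refine ⟨k0, fun k hk' => ?_⟩
  obtain ⟨D, hD⟩ := hk k hk'
  obtain ⟨g, hg, f, hf, hh⟩ := h.fin D
  exact ⟨g, hg.riem, hg.complete, hg.near_zero, hg.ric_nonneg, hg.ric_pos, hg.avr, hg.neg,
    _, hD, f, hf, hh⟩

theorem S0310_of_main (h : MainThm 5) :
    ∃ n : ℕ, Even n ∧ 8 ≤ n ∧ ∃ k : ℕ, 2 ≤ k ∧ ∃ g : MetricField n,
      IsRiemannianOn g Set.univ ∧ IsCompleteOn g Set.univ ∧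
      (∃ r : ℝ, 0 < r ∧ ∀ x : EuclideanSpace ℝ (Fin n), ‖x‖ < r → g x = 1) ∧
      RicciNonnegOn g Set.univ ∧
      (∃ v : ℝ, 0 < v ∧ v < 1 ∧ HasAsymptoticVolumeRatio g v) ∧
      ∃ m : ℕ, Nat.choose (n + k - 1) k + Nat.choose (n + k - 2) (k - 1) < m ∧
        ∃ f : Fin m → EuclideanSpace ℝ (Fin n) → ℝ,
          LinearIndependent ℝ f ∧ ∀ i, IsHarmonicOn g Set.univ (f i) ∧
            ∃ C : ℝ, ∀ x, abs (f i x) ≤ C * (1 + riemDist g Set.univ 0 x) ^ k := by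
  have h1 := exists_countData8 (v := 1 / 2) (by norm_num) (by norm_num)
  obtain ⟨k, ⟨D, hD⟩, hk2⟩ := (h1.and (Filter.eventually_ge_atTop 2)).exists
  obtain ⟨g, hg, f, hf, hh⟩ := h.fin D
  exact ⟨8, by decide, le_rfl, k, hk2, g, hg.riem, hg.complete, hg.near_zero, hg.ric_nonneg,
    ⟨1 / 2, by norm_num, by norm_num, hg.avr⟩, _, hD, f, hf, hh⟩

end Crest.Agent.R202.Main
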