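import Mathlib

/-!
# Row 202, matrix part: separation by trial frames (finite dimensional)

`SepF T F A B`: the frame `F` separates the quadratic form of `T`.
-/

set_option autoImplicit false

open Filter Topology Module
open scoped InnerProductSpace

noncomputable section

namespace Crest.Agent.R202.Jac

variable {E : Type*} [NormedAddCommGroup E] [InnerProductSpace ℝ E]

/-- the frame `F` separates the quadratic form of `T` -/
structure SepF {l : ℕ} (T : E →L[ℝ] E) (F : Fin l → E) (A B : ℝ) : Prop where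
  li : LinearIndependent ℝ F
  lt : A < B
  le : ∀ w ∈ Submodule.span ℝ (Set.range F), ⟪T w, w⟫_ℝ ≤ A * ‖w‖ ^ 2
  ge : ∀ v, (∀ i, ⟪F i, v⟫_ℝ = 0) → B * ‖v‖ ^ 2 ≤ ⟪T v, v⟫_ℝ

theorem SepF.perturb {l : ℕ} {T T' : E →L[ℝ] E} {F : Fin l → E} {A B ε : ℝ}
    (h : SepF T F A B) (hε : ∀ v, |⟪T' v, v⟫_ℝ - ⟪T v, v⟫_ℝ| ≤ ε * ‖v‖ ^ 2)
    (hAB : A + ε < B - ε) : SepF T' F (A + ε) (B - ε) where
  li := h.li
  lt := hAB
  le := fun w hw => by
    have h1 := h.le w hw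
    have h2 := (abs_le.1 (hε w)).2
    nlinarith
  ge := fun v hv => by
    have h1 := h.ge v hv
    have h2 := (abs_le.1 (hε v)).1
    nlinarith

theorem SepF.perturb_norm {l : ℕ} {T T' : E →L[ℝ] E} {F : Fin l → E} {A B ε : ℝ}
    (h : SepF T F A B) (hε : ‖T' - T‖ ≤ ε) (hAB : A + ε < B - ε) :
    SepF T' F (A + ε) (B - ε) := by
  refine h.perturb (fun v => ?_) hAB
  have h1 : ⟪T' v, v⟫_ℝ - ⟪T v, v⟫_ℝ = ⟪(T' - T) v, v⟫_ℝ := by
    simp [inner_sub_left]
  rw [h1]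
  calc |⟪(T' - T) v, v⟫_ℝ| ≤ ‖(T' - T) v‖ * ‖v‖ := abs_real_inner_le_norm _ _
    _ ≤ (‖T' - T‖ * ‖v‖) * ‖v‖ := by
        gcongr
        exact (T' - T).le_opNorm v
    _ ≤ (ε * ‖v‖) * ‖v‖ := by gcongr
    _ = ε * ‖v‖ ^ 2 := by ring

/-- sorted orthonormal eigenbasis of a symmetric operator -/
theorem exists_sorted_basis [FiniteDimensional ℝ E] {n : ℕ} (hn : finrank ℝ E = n)
    (T : E →ₗ[ℝ] E) (hT : T.IsSymmetric) :
    ∃ (b : OrthonormalBasis (Fin n) ℝ E) (μ : Fin n → ℝ), Monotone μ ∧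
      ∀ i, T (b i) = μ i • b i := by
  classical
  refine ⟨(hT.eigenvectorBasis hn).reindex Fin.revPerm, fun i => hT.eigenvalues hn (Fin.rev i),
    ?_, ?_⟩
  · intro i j hij
    exact hT.eigenvalues_antitone hn (Fin.rev_le_rev.2 hij)
  · intro i
    have := hT.apply_eigenvectorBasis hn (Fin.rev i)
    simpa [OrthonormalBasis.reindex_apply] using this

theorem inner_T_self_eq_sum {n : ℕ} (b : OrthonormalBasis (Fin n) ℝ E) {T : E →ₗ[ℝ] E}
    {μ : Fin n → ℝ} (hb : ∀ i, T (b i) = μ i • b i) (v : E) :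
    ⟪T v, v⟫_ℝ = ∑ i, μ i * ⟪b i, v⟫_ℝ ^ 2 := by
  have h1 : T v = ∑ i, (μ i * ⟪b i, v⟫_ℝ) • b i := by
    conv_lhs => rw [← b.sum_repr' v]
    rw [map_sum]
    refine Finset.sum_congr rfl fun i _ => ?_
    rw [map_smul, hb i, smul_smul, mul_comm]
  rw [h1, sum_inner]
  refine Finset.sum_congr rfl fun i _ => ?_
  rw [inner_smul_left]
  simp
  ring

theorem norm_sq_eq_sum {n : ℕ} (b : OrthonormalBasis (Fin n) ℝ E) (v : E) :
    ‖v‖ ^ 2 = ∑ i, ⟪b i, v⟫_ℝ ^ 2 := by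
  have := b.sum_sq_norm_inner_right v
  rw [← this]
  refine Finset.sum_congr rfl fun i _ => ?_
  rw [Real.norm_eq_abs, sq_abs]

/-- the `l` lowest eigenvectors separate if there is a gap -/
theorem sepF_of_basis {n l : ℕ} (hl : l ≤ n) (b : OrthonormalBasis (Fin n) ℝ E)
    {T : E →L[ℝ] E} {μ : Fin n → ℝ} (hb : ∀ i, T (b i) = μ i • b i) {A B : ℝ} (hAB : A < B)
    (hA : ∀ i : Fin n, i.1 < l → μ i ≤ A) (hB : ∀ i : Fin n, l ≤ i.1 → B ≤ μ i) :
    SepF T (fun i : Fin l => b (Fin.castLE hl i)) A B where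
  li := by
    exact b.orthonormal.linearIndependent.comp _ (Fin.castLE_injective hl)
  lt := hAB
  le := fun w hw => by
    have h0 : ∀ i : Fin n, l ≤ i.1 → ⟪b i, w⟫_ℝ = 0 := by
      intro i hi
      induction hw using Submodule.span_induction with
      | mem x hx =>
        obtain ⟨j, rfl⟩ := hx
        have hne : i ≠ Fin.castLE hl j := by
          intro h
          have := congrArg Fin.val h
          simp at this
          have := j.2
          omega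
        exact b.orthonormal.2 hne
      | zero => simp
      | add x y _ _ hx hy => rw [inner_add_right, hx, hy, add_zero]
      | smul a x _ hx => rw [inner_smul_right, hx, mul_zero]
    have h1 := inner_T_self_eq_sum b (T := (T : E →ₗ[ℝ] E)) hb w
    have h1' : ⟪T w, w⟫_ℝ = ∑ i, μ i * ⟪b i, w⟫_ℝ ^ 2 := h1
    rw [h1', norm_sq_eq_sum b w, Finset.mul_sum]
    refine Finset.sum_le_sum fun i _ => ?_
    by_cases hi : i.1 < l
    · exact mul_le_mul_of_nonneg_right (hA i hi) (sq_nonneg _)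
    · rw [h0 i (not_lt.1 hi)]
      simp
  ge := fun v hv => by
    have h0 : ∀ i : Fin n, i.1 < l → ⟪b i, v⟫_ℝ = 0 := fun i hi => by
      have := hv ⟨i.1, hi⟩
      simpa using this
    have h1 := inner_T_self_eq_sum b (T := (T : E →ₗ[ℝ] E)) hb v
    have h1' : ⟪T v, v⟫_ℝ = ∑ i, μ i * ⟪b i, v⟫_ℝ ^ 2 := h1
    rw [h1', norm_sq_eq_sum b v, Finset.mul_sum]
    refine Finset.sum_le_sum fun i _ => ?_
    by_cases hi : i.1 < l
    · rw [h0 i hi]
      simp
    · exact mul_le_mul_of_nonneg_right (hB i (not_lt.1 hi)) (sq_nonneg _)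

/-- the scalar inequality of the block lemma, upper half -/
theorem block_scalar {g ν A a b : ℝ} (hg : 0 < g) (hν : 0 ≤ ν) (h4 : 4 * ν ≤ g) (hA : |A| ≤ ν) :
    -g * a ^ 2 + A * b ^ 2 + 2 * ν * (|a| * |b|) + ν * a ^ 2
      ≤ (A + 2 * ν ^ 2 / g) * (a ^ 2 + b ^ 2) := by
  have hA' := abs_le.1 hA
  have h1 : 0 ≤ (g / 2) * (|a| - 2 * ν / g * |b|) ^ 2 := by positivity
  have h2 : (g / 2) * (|a| - 2 * ν / g * |b|) ^ 2
      = (g / 2) * a ^ 2 - 2 * ν * (|a| * |b|) + 2 * ν ^ 2 / g * b ^ 2 := by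
    have : (|a| - 2 * ν / g * |b|) ^ 2 = a ^ 2 - 4 * ν / g * (|a| * |b|)
        + 4 * ν ^ 2 / g ^ 2 * b ^ 2 := by
      have ha : |a| ^ 2 = a ^ 2 := sq_abs a
      have hb : |b| ^ 2 = b ^ 2 := sq_abs b
      rw [← ha, ← hb]
      ring
    rw [this]
    field_simp
    ring
  have h3 : 0 ≤ 2 * ν ^ 2 / g * a ^ 2 := by positivity
  have h4' : (g / 2 - 2 * ν) * a ^ 2 ≥ 0 := by
    apply mul_nonneg _ (sq_nonneg _)
    linarith
  nlinarith [mul_nonneg (show 0 ≤ ν + A by linarith) (sq_nonneg a), sq_nonneg a]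

end Crest.Agent.R202.Jac
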