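/-
R202, final export of part B (helper846), step 2: eigenvectors of the home operator from
separating frames.
-/
import Crest.Agent.R202.JacSep

set_option autoImplicit false

open Set Module
open scoped InnerProductSpace

namespace Crest.Agent.R202.BFin

open Crest.Agent.R202.Jac (SepF)

variable {G : Type*} [NormedAddCommGroup G] [InnerProductSpace ℝ G] [FiniteDimensional ℝ G]

theorem exists_mem_inf {V W : Submodule ℝ G} (h : finrank ℝ G < finrank ℝ V + finrank ℝ W) :
    ∃ x ∈ V, x ∈ W ∧ x ≠ 0 := by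
  have h1 := Submodule.finrank_sup_add_finrank_inf_eq V W
  have h2 := Submodule.finrank_le (V ⊔ W)
  have h3 : 0 < finrank ℝ (V ⊓ W : Submodule ℝ G) := by omega
  have h4 : (V ⊓ W : Submodule ℝ G) ≠ ⊥ := by
    intro h5
    rw [h5, finrank_bot] at h3
    exact lt_irrefl _ h3
  obtain ⟨x, hx, hx0⟩ := Submodule.exists_mem_ne_zero_of_ne_bot h4
  exact ⟨x, hx.1, hx.2, hx0⟩

/-- the orthogonal complement of a frame, as the kernel condition -/
theorem mem_orth_span {l : ℕ} {F : Fin l → G} {x : G} (hx : x ∈ (Submodule.span ℝ (range F))ᗮ)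
    (i : Fin l) : ⟪F i, x⟫_ℝ = 0 :=
  (Submodule.mem_orthogonal _ _).1 hx _ (Submodule.subset_span ⟨i, rfl⟩)

theorem finrank_orth_span {l : ℕ} {F : Fin l → G} (hF : LinearIndependent ℝ F) :
    finrank ℝ (Submodule.span ℝ (range F))ᗮ = finrank ℝ G - l := by
  have h1 := Submodule.finrank_add_finrank_orthogonal (Submodule.span ℝ (range F))
  rw [finrank_span_eq_card hF, Fintype.card_fin] at h1
  omega

/-- eigenvalues against a separating frame, upper bound of the low ones -/
theorem eig_le_of_sepF {n l : ℕ} (hn : finrank ℝ G = n) (b : OrthonormalBasis (Fin n) ℝ G)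
    {T : G →L[ℝ] G} {μ : Fin n → ℝ} (hμ : Monotone μ) (hb : ∀ i, T (b i) = μ i • b i)
    {F : Fin l → G} {A B : ℝ} (h : SepF T F A B) (i : Fin n) (hi : i.1 < l) : μ i ≤ A := by
  -- span of the basis vectors with index ≥ i
  set c : Fin (n - i.1) → Fin n := fun j => ⟨i.1 + j.1, by have := j.2; omega⟩ with hc
  have hcinj : Function.Injective c := by
    intro j k hjk
    have := congrArg Fin.val hjk
    simp only [hc] at this
    exact Fin.ext (by omega)
  have hli : LinearIndependent ℝ fun j => b (c j) :=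
    b.orthonormal.linearIndependent.comp _ hcinj
  have h1 : finrank ℝ (Submodule.span ℝ (range fun j => b (c j))) = n - i.1 := by
    rw [finrank_span_eq_card hli, Fintype.card_fin]
  have h2 : finrank ℝ (Submodule.span ℝ (range F)) = l := by
    rw [finrank_span_eq_card h.li, Fintype.card_fin]
  obtain ⟨x, hx1, hx2, hx0⟩ := exists_mem_inf (V := Submodule.span ℝ (range F))
    (W := Submodule.span ℝ (range fun j => b (c j))) (by
      rw [h1, h2, hn]; have := i.2; omega)
  have h3 := h.le x hx1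
  have h4' : ∀ y ∈ Submodule.span ℝ (range fun j => b (c j)), ∀ k : Fin n, k.1 < i.1 →
      ⟪b k, y⟫_ℝ = 0 := by
    intro y hy k hk
    induction hy using Submodule.span_induction with
    | mem y hy =>
      obtain ⟨j, rfl⟩ := hy
      refine b.orthonormal.2 ?_
      intro hkj
      have := congrArg Fin.val hkj
      simp only [hc] at this
      omega
    | zero => simp
    | add y z _ _ hy hz => rw [inner_add_right, hy, hz, add_zero]
    | smul a y _ hy => rw [inner_smul_right, hy, mul_zero]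
  have h4 : ∀ k : Fin n, k.1 < i.1 → ⟪b k, x⟫_ℝ = 0 := h4' x hx2
  have h5 : ⟪T x, x⟫_ℝ = ∑ k, μ k * ⟪b k, x⟫_ℝ ^ 2 :=
    Jac.inner_T_self_eq_sum b (T := (T : G →ₗ[ℝ] G)) hb x
  have h6 : μ i * ‖x‖ ^ 2 ≤ ⟪T x, x⟫_ℝ := by
    rw [h5, Jac.norm_sq_eq_sum b x, Finset.mul_sum]
    refine Finset.sum_le_sum fun k _ => ?_
    by_cases hk : k.1 < i.1
    · rw [h4 k hk]; simp
    · exact mul_le_mul_of_nonneg_right (hμ (by rw [Fin.le_def]; omega)) (sq_nonneg _)
  have h7 : 0 < ‖x‖ ^ 2 := by positivity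
  by_contra hneg
  push Not at hneg
  have := mul_lt_mul_of_pos_right hneg h7
  linarith

/-- eigenvalues against a separating frame, lower bound of the high ones -/
theorem le_eig_of_sepF {n l : ℕ} (hn : finrank ℝ G = n) (b : OrthonormalBasis (Fin n) ℝ G)
    {T : G →L[ℝ] G} {μ : Fin n → ℝ} (hμ : Monotone μ) (hb : ∀ i, T (b i) = μ i • b i)
    {F : Fin l → G} {A B : ℝ} (h : SepF T F A B) (i : Fin n) (hi : l ≤ i.1) : B ≤ μ i := by
  have hin : i.1 + 1 ≤ n := i.2
  have hli : LinearIndependent ℝ fun j : Fin (i.1 + 1) => b (Fin.castLE hin j) :=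
    b.orthonormal.linearIndependent.comp _ (Fin.castLE_injective hin)
  have h1 : finrank ℝ (Submodule.span ℝ (range fun j : Fin (i.1 + 1) => b (Fin.castLE hin j)))
      = i.1 + 1 := by
    rw [finrank_span_eq_card hli, Fintype.card_fin]
  have hFn : l ≤ n := by
    have := h.li.fintype_card_le_finrank
    rw [Fintype.card_fin, hn] at this
    exact this
  obtain ⟨x, hx1, hx2, hx0⟩ := exists_mem_inf (V := (Submodule.span ℝ (range F))ᗮ)
    (W := Submodule.span ℝ (range fun j : Fin (i.1 + 1) => b (Fin.castLE hin j))) (by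
      rw [h1, finrank_orth_span h.li, hn]; omega)
  have h3 := h.ge x fun j => mem_orth_span hx1 j
  have h4' : ∀ y ∈ Submodule.span ℝ (range fun j : Fin (i.1 + 1) => b (Fin.castLE hin j)),
      ∀ k : Fin n, i.1 < k.1 → ⟪b k, y⟫_ℝ = 0 := by
    intro y hy k hk
    induction hy using Submodule.span_induction with
    | mem y hy =>
      obtain ⟨j, rfl⟩ := hy
      refine b.orthonormal.2 ?_
      intro hkj
      have := congrArg Fin.val hkj
      simp at this
      have := j.2
      omega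
    | zero => simp
    | add y z _ _ hy hz => rw [inner_add_right, hy, hz, add_zero]
    | smul a y _ hy => rw [inner_smul_right, hy, mul_zero]
  have h4 : ∀ k : Fin n, i.1 < k.1 → ⟪b k, x⟫_ℝ = 0 := h4' x hx2
  have h5 : ⟪T x, x⟫_ℝ = ∑ k, μ k * ⟪b k, x⟫_ℝ ^ 2 :=
    Jac.inner_T_self_eq_sum b (T := (T : G →ₗ[ℝ] G)) hb x
  have h6 : ⟪T x, x⟫_ℝ ≤ μ i * ‖x‖ ^ 2 := by
    rw [h5, Jac.norm_sq_eq_sum b x, Finset.mul_sum]
    refine Finset.sum_le_sum fun k _ => ?_
    by_cases hk : i.1 < k.1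
    · rw [h4 k hk]; simp
    · exact mul_le_mul_of_nonneg_right (hμ (by rw [Fin.le_def]; omega)) (sq_nonneg _)
  have h7 : 0 < ‖x‖ ^ 2 := by positivity
  by_contra hneg
  push Not at hneg
  have := mul_lt_mul_of_pos_right hneg h7
  linarith

/-- **Home eigenvectors.** If the cuts `l ∈ [i0, N]` of the symmetric operator `H` are separated by
frames (constants `A l < B l`), then the `N` lowest eigenvectors separate all of them. -/
theorem exists_home {N i0 : ℕ} (hiN : i0 ≤ N) {H : G →L[ℝ] G}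
    (hH : ∀ x y, ⟪H x, y⟫_ℝ = ⟪x, H y⟫_ℝ) {A B : ℕ → ℝ}
    (hF : ∀ l, i0 ≤ l → l ≤ N → ∃ F : Fin l → G, SepF H F (A l) (B l)) :
    ∃ (e : Fin N → G) (lam : Fin N → ℝ), Orthonormal ℝ e ∧ (∀ i, H (e i) = lam i • e i) ∧
      ∀ l (hl : l ≤ N), i0 ≤ l → SepF H (fun i : Fin l => e (Fin.castLE hl i)) (A l) (B l) := by
  obtain ⟨b, μ, hμ, hb⟩ := Jac.exists_sorted_basis (n := finrank ℝ G) rfl (H : G →ₗ[ℝ] G)
    (fun x y => hH x y)
  have hNn : N ≤ finrank ℝ G := by
    obtain ⟨F, hFN⟩ := hF N hiN le_rfl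
    have := hFN.li.fintype_card_le_finrank
    rwa [Fintype.card_fin] at this
  refine ⟨fun i => b (Fin.castLE hNn i), fun i => μ (Fin.castLE hNn i),
    b.orthonormal.comp _ (Fin.castLE_injective hNn), fun i => hb _, ?_⟩
  intro l hl hi
  obtain ⟨F, hFl⟩ := hF l hi hl
  have h1 := Jac.sepF_of_basis (hl.trans hNn) b (T := H) hb hFl.lt
    (fun i hi' => eig_le_of_sepF rfl b hμ hb hFl i hi')
    (fun i hi' => le_eig_of_sepF rfl b hμ hb hFl i hi')
  exact h1

end Crest.Agent.R202.BFin
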