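import Mathlib

/-! # Row 202, module SCH, part 1: the scalar schedule `s(t)` (helper821)

`s = sfun sI a`: `s = 0` for `t ≤ 0`, `0 < s' ≤ 1/4` for `t > 0`, `s' + s'' - s'^2 > 0` for `t > 0`,
`s → sI`, `s' ~ λ t^{-6/5}`, `|s''| ≤ (6/5) s'/t`.
-/

set_option autoImplicit false

open MeasureTheory Set Filter
open scoped Topology ContDiff

namespace Crest.Agent.R202.Sch

noncomputable section

/-- slowly decaying weight -/
def gw (a t : ℝ) : ℝ := (1 + (t + a) ^ 2) ^ (-(3 / 5) : ℝ)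

/-- the weight cut off at `t ≤ 0` -/
def fw (a t : ℝ) : ℝ := Real.smoothTransition t * gw a t

theorem gw_pos (a t : ℝ) : 0 < gw a t := Real.rpow_pos_of_pos (by positivity) _

theorem gw_contDiff (a : ℝ) : ContDiff ℝ ∞ (gw a) := by
  unfold gw
  exact ContDiff.rpow_const_of_ne (by fun_prop) (fun t => by positivity)

theorem hasDerivAt_gw (a t : ℝ) :
    HasDerivAt (gw a) (-(6 / 5) * ((t + a) / (1 + (t + a) ^ 2)) * gw a t) t := by
  have h0 : HasDerivAt (fun t : ℝ => 1 + (t + a) ^ 2) (2 * (t + a)) t := by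
    have h1 : HasDerivAt (fun t : ℝ => t + a) 1 t := (hasDerivAt_id t).add_const a
    have h2 := (h1.pow 2).const_add 1
    refine h2.congr_deriv ?_
    norm_num
  have hp : (0 : ℝ) < 1 + (t + a) ^ 2 := by positivity
  have h3 := h0.rpow_const (p := (-(3 / 5) : ℝ)) (Or.inl hp.ne')
  unfold gw
  convert h3 using 1
  rw [show (-(3 / 5) - 1 : ℝ) = (-(3 / 5)) + (-1) by ring, Real.rpow_add hp, Real.rpow_neg_one]
  field_simp
  ring

theorem gw_le {a t : ℝ} (h : 0 < t + a) : gw a t ≤ (t + a) ^ (-(6 / 5) : ℝ) := by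
  unfold gw
  have h1 : (t + a) ^ (-(6 / 5) : ℝ) = ((t + a) ^ 2) ^ (-(3 / 5) : ℝ) := by
    rw [← Real.rpow_natCast (t + a) 2, ← Real.rpow_mul h.le]
    norm_num
  rw [h1]
  exact Real.rpow_le_rpow_of_nonpos (by positivity) (by linarith) (by norm_num)

theorem le_gw {a t : ℝ} (h : 1 ≤ t + a) : (1 / 2) * (t + a) ^ (-(6 / 5) : ℝ) ≤ gw a t := by
  unfold gw
  have h0 : 0 < t + a := by linarith
  have h1 : (t + a) ^ (-(6 / 5) : ℝ) = ((t + a) ^ 2) ^ (-(3 / 5) : ℝ) := by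
    rw [← Real.rpow_natCast (t + a) 2, ← Real.rpow_mul h0.le]
    norm_num
  have h2 : (1 / 2 : ℝ) ≤ (2 : ℝ) ^ (-(3 / 5) : ℝ) := by
    rw [show (1 / 2 : ℝ) = 2 ^ (-1 : ℝ) by rw [Real.rpow_neg_one]; norm_num]
    exact Real.rpow_le_rpow_of_exponent_le (by norm_num) (by norm_num)
  calc (1 / 2) * (t + a) ^ (-(6 / 5) : ℝ)
      ≤ (2 : ℝ) ^ (-(3 / 5) : ℝ) * ((t + a) ^ 2) ^ (-(3 / 5) : ℝ) := by
        rw [h1]
        exact mul_le_mul_of_nonneg_right h2 (by positivity)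
    _ = (2 * (t + a) ^ 2) ^ (-(3 / 5) : ℝ) := by
        rw [Real.mul_rpow (by norm_num) (by positivity)]
    _ ≤ (1 + (t + a) ^ 2) ^ (-(3 / 5) : ℝ) := by
        refine Real.rpow_le_rpow_of_nonpos (by positivity) ?_ (by norm_num)
        nlinarith

theorem integrable_gw (a : ℝ) : Integrable (gw a) := by
  have h := integrable_rpow_neg_one_add_norm_sq (E := ℝ) (μ := volume) (r := (6 / 5 : ℝ))
    (by rw [Module.finrank_self]; norm_num)
  have h2 := h.comp_add_right a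
  refine h2.congr (Filter.Eventually.of_forall fun t => ?_)
  simp only [gw, Real.norm_eq_abs, sq_abs]
  norm_num

theorem fw_nonneg (a t : ℝ) : 0 ≤ fw a t :=
  mul_nonneg (Real.smoothTransition.nonneg t) (gw_pos a t).le

theorem fw_pos {a t : ℝ} (h : 0 < t) : 0 < fw a t :=
  mul_pos (Real.smoothTransition.pos_of_pos h) (gw_pos a t)

theorem fw_le (a t : ℝ) : fw a t ≤ gw a t :=
  mul_le_of_le_one_left (gw_pos a t).le (Real.smoothTransition.le_one t)

theorem fw_eq {a t : ℝ} (h : 1 ≤ t) : fw a t = gw a t := by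
  rw [fw, Real.smoothTransition.one_of_one_le h, one_mul]

theorem fw_zero {a t : ℝ} (h : t ≤ 0) : fw a t = 0 := by
  rw [fw, Real.smoothTransition.zero_of_nonpos h, zero_mul]

theorem fw_contDiff (a : ℝ) : ContDiff ℝ ∞ (fw a) :=
  (Real.smoothTransition.contDiff (n := ⊤)).mul (gw_contDiff a)

theorem fw_continuous (a : ℝ) : Continuous (fw a) := (fw_contDiff a).continuous

theorem integrable_fw (a : ℝ) : Integrable (fw a) := by
  refine (integrable_gw a).mono' (fw_continuous a).aestronglyMeasurable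
    (Filter.Eventually.of_forall fun t => ?_)
  rw [Real.norm_of_nonneg (fw_nonneg a t)]
  exact fw_le a t

/-- total mass of the weight -/
def Iw (a : ℝ) : ℝ := ∫ x in Ioi (0 : ℝ), fw a x

theorem Iw_ge {a : ℝ} (ha : 1 ≤ a) : (1 / 8) * a ^ (-(1 / 5) : ℝ) ≤ Iw a := by
  have ha0 : 0 < a := by linarith
  have h1 : ∫ x in Icc a (2 * a), (1 / 2) * (3 * a) ^ (-(6 / 5) : ℝ) ≤ ∫ x in Icc a (2 * a), fw a x := by
    refine setIntegral_mono_on (integrableOn_const (by simp)) (integrable_fw a).integrableOn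
      measurableSet_Icc ?_
    intro x hx
    rw [fw_eq (by linarith [hx.1])]
    refine le_trans ?_ (le_gw (by linarith [hx.1]))
    refine mul_le_mul_of_nonneg_left ?_ (by norm_num)
    exact Real.rpow_le_rpow_of_nonpos (by linarith [hx.1]) (by linarith [hx.2]) (by norm_num)
  have h2 : ∫ x in Icc a (2 * a), fw a x ≤ Iw a := by
    refine setIntegral_mono_set (integrable_fw a).integrableOn ?_ ?_
    · exact Filter.Eventually.of_forall fun x => fw_nonneg a x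
    · exact (show Icc a (2 * a) ⊆ Ioi 0 from fun x hx => lt_of_lt_of_le ha0 hx.1).eventuallyLE
  refine le_trans ?_ (h1.trans h2)
  rw [setIntegral_const, Real.volume_real_Icc_of_le (by linarith), smul_eq_mul]
  have h3 : (1 / 4 : ℝ) ≤ (3 : ℝ) ^ (-(6 / 5) : ℝ) := by
    rw [Real.rpow_neg (by norm_num), show (1 / 4 : ℝ) = (4 : ℝ)⁻¹ by norm_num]
    refine inv_anti₀ (by positivity) ?_
    have h4 : ((3 : ℝ) ^ (6 / 5 : ℝ)) ^ (5 : ℕ) ≤ 4 ^ (5 : ℕ) := by
      rw [← Real.rpow_natCast, ← Real.rpow_mul (by norm_num)]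
      norm_num
    exact le_of_pow_le_pow_left₀ (by norm_num) (by norm_num) h4
  have h5 : a * a ^ (-(6 / 5) : ℝ) = a ^ (-(1 / 5) : ℝ) := by
    nth_rewrite 1 [← Real.rpow_one a]
    rw [← Real.rpow_add ha0]
    norm_num
  calc (1 / 8) * a ^ (-(1 / 5) : ℝ) = a * ((1 / 2) * ((1 / 4) * a ^ (-(6 / 5) : ℝ))) := by
        rw [← h5]; ring
    _ ≤ a * ((1 / 2) * ((3 : ℝ) ^ (-(6 / 5) : ℝ) * a ^ (-(6 / 5) : ℝ))) := by
        gcongr
    _ = (2 * a - a) * ((1 / 2) * (3 * a) ^ (-(6 / 5) : ℝ)) := by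
        rw [Real.mul_rpow (by norm_num) ha0.le]; ring

theorem Iw_pos {a : ℝ} (ha : 1 ≤ a) : 0 < Iw a :=
  lt_of_lt_of_le (by positivity) (Iw_ge ha)

/-- the shift used for a given limit `sI` -/
def aw (sI : ℝ) : ℝ := 5 + 32 * sI

/-- the multiplier -/
def lw (sI : ℝ) : ℝ := sI / Iw (aw sI)

/-- THE SCHEDULE FUNCTION -/
def sf (sI : ℝ) (t : ℝ) : ℝ := lw sI * ∫ x in (0 : ℝ)..t, fw (aw sI) x

variable {sI : ℝ}

theorem aw_ge (hs : 0 < sI) : 5 ≤ aw sI := by unfold aw; linarith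

theorem lw_pos (hs : 0 < sI) : 0 < lw sI := div_pos hs (Iw_pos (by linarith [aw_ge hs]))

theorem hasDerivAt_sf (sI t : ℝ) : HasDerivAt (sf sI) (lw sI * fw (aw sI) t) t := by
  unfold sf
  exact ((fw_continuous _).integral_hasStrictDerivAt 0 t).hasDerivAt.const_mul _

theorem deriv_sf (sI : ℝ) : deriv (sf sI) = fun t => lw sI * fw (aw sI) t := by
  ext t; exact (hasDerivAt_sf sI t).deriv

theorem sf_contDiff (sI : ℝ) : ContDiff ℝ ∞ (sf sI) := by
  rw [contDiff_infty_iff_deriv]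
  refine ⟨fun t => (hasDerivAt_sf sI t).differentiableAt, ?_⟩
  rw [deriv_sf]
  exact contDiff_const.mul (fw_contDiff _)

theorem sf_zero {t : ℝ} (h : t ≤ 0) : sf sI t = 0 := by
  unfold sf
  rw [intervalIntegral.integral_symm]
  have : ∫ x in t..0, fw (aw sI) x = 0 := by
    rw [intervalIntegral.integral_of_le h]
    refine setIntegral_eq_zero_of_forall_eq_zero fun x hx => fw_zero hx.2
  rw [this]; simp

theorem deriv_sf_pos (hs : 0 < sI) {t : ℝ} (h : 0 < t) : 0 < deriv (sf sI) t := by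
  rw [deriv_sf]; exact mul_pos (lw_pos hs) (fw_pos h)

theorem deriv_sf_nonneg (hs : 0 < sI) (t : ℝ) : 0 ≤ deriv (sf sI) t := by
  rw [deriv_sf]; exact mul_nonneg (lw_pos hs).le (fw_nonneg _ _)

theorem sf_mono (hs : 0 < sI) : Monotone (sf sI) :=
  monotone_of_deriv_nonneg (fun t => (hasDerivAt_sf sI t).differentiableAt) (deriv_sf_nonneg hs)

theorem tendsto_sf (hs : 0 < sI) : Tendsto (sf sI) atTop (𝓝 sI) := by
  have h := intervalIntegral_tendsto_integral_Ioi (0 : ℝ)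
    (integrable_fw (aw sI)).integrableOn tendsto_id
  have h2 := h.const_mul (lw sI)
  have h3 : lw sI * ∫ x in Ioi (0 : ℝ), fw (aw sI) x = sI := by
    unfold lw
    exact div_mul_cancel₀ _ (Iw_pos (by linarith [aw_ge hs])).ne'
  rw [h3] at h2
  exact h2

theorem sf_lt (hs : 0 < sI) (t : ℝ) : sf sI t < sI := by
  have h1 : sf sI (max t 0) < sf sI (max t 0 + 1) := by
    have : StrictMonoOn (sf sI) (Ici 0) := by
      refine strictMonoOn_of_deriv_pos (convex_Ici 0) (sf_contDiff sI).continuous.continuousOn ?_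
      intro x hx
      rw [interior_Ici] at hx
      exact deriv_sf_pos hs hx
    exact this (show (0:ℝ) ≤ _ from le_max_right _ _)
      (show (0:ℝ) ≤ max t 0 + 1 by linarith [le_max_right t 0]) (by linarith)
  have h2 : sf sI (max t 0 + 1) ≤ sI := (sf_mono hs).ge_of_tendsto (tendsto_sf hs) _
  exact lt_of_le_of_lt (sf_mono hs (le_max_left _ _)) (lt_of_lt_of_le h1 h2)

theorem sf_nonneg (hs : 0 < sI) (t : ℝ) : 0 ≤ sf sI t := by
  rcases le_total t 0 with h | h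
  · rw [sf_zero h]
  · have := sf_mono hs h
    rwa [sf_zero le_rfl] at this

theorem sf_pos (hs : 0 < sI) {t : ℝ} (ht : 0 < t) : 0 < sf sI t := by
  have : StrictMonoOn (sf sI) (Ici 0) := by
    refine strictMonoOn_of_deriv_pos (convex_Ici 0) (sf_contDiff sI).continuous.continuousOn ?_
    intro x hx
    rw [interior_Ici] at hx
    exact deriv_sf_pos hs hx
  have := this (le_refl (0 : ℝ)) (show (0:ℝ) ≤ t from ht.le) ht
  rwa [sf_zero le_rfl] at this

theorem lw_mul_gw_le (hs : 0 < sI) {t : ℝ} (ht : 0 ≤ t) :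
    lw sI * gw (aw sI) t ≤ 1 / 4 := by
  have ha := aw_ge hs
  have ha0 : 0 < aw sI := by linarith
  have h1 : gw (aw sI) t ≤ (aw sI) ^ (-(6 / 5) : ℝ) :=
    (gw_le (by linarith)).trans (Real.rpow_le_rpow_of_nonpos ha0 (by linarith) (by norm_num))
  have h2 : lw sI ≤ 8 * sI * (aw sI) ^ (1 / 5 : ℝ) := by
    unfold lw
    rw [div_le_iff₀ (Iw_pos (by linarith))]
    calc sI = 8 * sI * (aw sI) ^ (1 / 5 : ℝ) * ((1 / 8) * (aw sI) ^ (-(1 / 5) : ℝ)) := by
          rw [show 8 * sI * (aw sI) ^ (1 / 5 : ℝ) * ((1 / 8) * (aw sI) ^ (-(1 / 5) : ℝ))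
            = sI * ((aw sI) ^ (1 / 5 : ℝ) * (aw sI) ^ (-(1 / 5) : ℝ)) by ring,
            ← Real.rpow_add ha0]
          norm_num
      _ ≤ _ := by
          refine mul_le_mul_of_nonneg_left (Iw_ge (by linarith)) (by positivity)
  calc lw sI * gw (aw sI) t ≤ (8 * sI * (aw sI) ^ (1 / 5 : ℝ)) * (aw sI) ^ (-(6 / 5) : ℝ) :=
        mul_le_mul h2 h1 (gw_pos _ _).le (by positivity)
    _ = 8 * sI / aw sI := by
        rw [mul_assoc, ← Real.rpow_add ha0, show (1 / 5 + -(6 / 5) : ℝ) = -1 by norm_num,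
          Real.rpow_neg_one]
        rfl
    _ ≤ 1 / 4 := by
        rw [div_le_iff₀ ha0]
        unfold aw
        linarith

theorem deriv_sf_le (hs : 0 < sI) (t : ℝ) : deriv (sf sI) t ≤ 1 / 4 := by
  rw [deriv_sf]
  rcases le_total t 0 with h | h
  · simp only [fw_zero h]; norm_num
  · exact (mul_le_mul_of_nonneg_left (fw_le _ _) (lw_pos hs).le).trans (lw_mul_gw_le hs h)

theorem hasDerivAt_fw (a t : ℝ) :
    HasDerivAt (fw a) (deriv Real.smoothTransition t * gw a t +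
      Real.smoothTransition t * (-(6 / 5) * ((t + a) / (1 + (t + a) ^ 2)) * gw a t)) t := by
  have h1 : HasDerivAt Real.smoothTransition (deriv Real.smoothTransition t) t :=
    (((Real.smoothTransition.contDiff (n := 1)).differentiable (by norm_num)) t).hasDerivAt
  exact h1.mul (hasDerivAt_gw a t)

theorem deriv_st_nonneg (t : ℝ) : 0 ≤ deriv Real.smoothTransition t :=
  Real.smoothTransition.monotone.deriv_nonneg

theorem deriv_st_eq_zero {t : ℝ} (ht : 1 ≤ t) : deriv Real.smoothTransition t = 0 := by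
  -- maximum value at `t`
  have : IsLocalMax Real.smoothTransition t := by
    refine Filter.Eventually.of_forall fun x => ?_
    rw [Real.smoothTransition.one_of_one_le ht]
    exact Real.smoothTransition.le_one x
  exact this.deriv_eq_zero

/-- second derivative of `s`, lower bound -/
theorem deriv2_sf (sI t : ℝ) :
    deriv (deriv (sf sI)) t = lw sI * (deriv Real.smoothTransition t * gw (aw sI) t +
      Real.smoothTransition t *
        (-(6 / 5) * ((t + aw sI) / (1 + (t + aw sI) ^ 2)) * gw (aw sI) t)) := by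
  rw [deriv_sf]
  exact ((hasDerivAt_fw (aw sI) t).const_mul (lw sI)).deriv

theorem frac_le {y : ℝ} (hy : 0 < y) : y / (1 + y ^ 2) ≤ 1 / y := by
  rw [div_le_div_iff₀ (by positivity) hy]
  nlinarith

theorem deriv2_sf_ge (hs : 0 < sI) {t : ℝ} (ht : 0 < t) :
    -(6 / 25) * deriv (sf sI) t ≤ deriv (deriv (sf sI)) t := by
  rw [deriv2_sf, deriv_sf]
  have ha := aw_ge hs
  have hy : 0 < t + aw sI := by linarith
  have h1 := deriv_st_nonneg t
  have hg := gw_pos (aw sI) t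
  have hl := lw_pos hs
  have h2 : (t + aw sI) / (1 + (t + aw sI) ^ 2) ≤ 1 / 5 :=
    (frac_le hy).trans (by
      apply one_div_le_one_div_of_le (by norm_num); linarith)
  have h3 := Real.smoothTransition.nonneg t
  have h4 : 0 ≤ lw sI * (deriv Real.smoothTransition t * gw (aw sI) t) := by positivity
  have h5 : lw sI * (Real.smoothTransition t * gw (aw sI) t) * ((t + aw sI) / (1 + (t + aw sI) ^ 2))
      ≤ lw sI * (Real.smoothTransition t * gw (aw sI) t) * (1 / 5) :=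
    mul_le_mul_of_nonneg_left h2 (by positivity)
  unfold fw
  nlinarith

/-- positivity of the radial Ricci expression for all `t > 0` -/
theorem ricc_sf_pos (hs : 0 < sI) {t : ℝ} (ht : 0 < t) :
    0 < deriv (sf sI) t + deriv (deriv (sf sI)) t - (deriv (sf sI) t) ^ 2 := by
  have h1 := deriv2_sf_ge hs ht
  have h2 := deriv_sf_le hs t
  have h3 := deriv_sf_pos hs ht
  nlinarith

theorem abs_deriv2_sf_le (hs : 0 < sI) {t : ℝ} (ht : 1 ≤ t) :
    |deriv (deriv (sf sI)) t| ≤ (6 / 5) / t * deriv (sf sI) t := by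
  rw [deriv2_sf, deriv_sf, deriv_st_eq_zero ht]
  simp only [fw_eq ht]
  rw [Real.smoothTransition.one_of_one_le ht]
  have ha := aw_ge hs
  have hy : 0 < t + aw sI := by linarith
  have hg := gw_pos (aw sI) t
  have hl := lw_pos hs
  have ht0 : 0 < t := by linarith
  have h2 : (t + aw sI) / (1 + (t + aw sI) ^ 2) ≤ 1 / t :=
    (frac_le hy).trans (by
      apply one_div_le_one_div_of_le ht0; linarith)
  have h0 : 0 ≤ (t + aw sI) / (1 + (t + aw sI) ^ 2) := by positivity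
  have e : lw sI * (0 * gw (aw sI) t + 1 * (-(6 / 5) * ((t + aw sI) / (1 + (t + aw sI) ^ 2)) *
      gw (aw sI) t)) = -((6 / 5) * ((t + aw sI) / (1 + (t + aw sI) ^ 2)) * (lw sI * gw (aw sI) t)) := by
    ring
  rw [e, abs_neg, abs_of_nonneg (by positivity)]
  have h5 : (t + aw sI) / (1 + (t + aw sI) ^ 2) * (lw sI * gw (aw sI) t)
      ≤ 1 / t * (lw sI * gw (aw sI) t) :=
    mul_le_mul_of_nonneg_right h2 (by positivity)
  calc (6 / 5) * ((t + aw sI) / (1 + (t + aw sI) ^ 2)) * (lw sI * gw (aw sI) t)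
      = (6 / 5) * ((t + aw sI) / (1 + (t + aw sI) ^ 2) * (lw sI * gw (aw sI) t)) := by ring
    _ ≤ (6 / 5) * (1 / t * (lw sI * gw (aw sI) t)) := by linarith
    _ = 6 / 5 / t * (lw sI * gw (aw sI) t) := by ring

theorem deriv_sf_ge (hs : 0 < sI) {t : ℝ} (ht : 1 ≤ t) :
    lw sI / 2 * (t + aw sI) ^ (-(6 / 5) : ℝ) ≤ deriv (sf sI) t := by
  rw [deriv_sf]
  simp only [fw_eq ht]
  have := le_gw (a := aw sI) (t := t) (by linarith [aw_ge hs])
  calc lw sI / 2 * (t + aw sI) ^ (-(6 / 5) : ℝ)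
      = lw sI * ((1 / 2) * (t + aw sI) ^ (-(6 / 5) : ℝ)) := by ring
    _ ≤ _ := mul_le_mul_of_nonneg_left this (lw_pos hs).le

theorem deriv_sf_upper (hs : 0 < sI) {t : ℝ} (ht : 0 < t) :
    deriv (sf sI) t ≤ lw sI * t ^ (-(6 / 5) : ℝ) := by
  rw [deriv_sf]
  have ha := aw_ge hs
  refine mul_le_mul_of_nonneg_left ?_ (lw_pos hs).le
  exact (fw_le _ _).trans ((gw_le (by linarith)).trans
    (Real.rpow_le_rpow_of_nonpos ht (by linarith) (by norm_num)))

theorem tendsto_deriv_sf (hs : 0 < sI) : Tendsto (deriv (sf sI)) atTop (𝓝 0) := by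
  have h1 : Tendsto (fun t : ℝ => lw sI * t ^ (-(6 / 5) : ℝ)) atTop (𝓝 0) := by
    have := (tendsto_rpow_neg_atTop (show (0 : ℝ) < 6 / 5 by norm_num)).const_mul (lw sI)
    simpa using this
  refine squeeze_zero' (Filter.Eventually.of_forall fun t => deriv_sf_nonneg hs t) ?_ h1
  filter_upwards [eventually_gt_atTop 0] with t ht
  exact deriv_sf_upper hs ht

/-! ### Times -/

/-- home lengths -/
def Th (A : ℝ) (q : ℕ) : ℝ := A * ((q : ℝ) + 1) ^ 4
/-- gate lengths -/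
def Tg (A : ℝ) (q : ℕ) : ℝ := A * ((q : ℝ) + 1) ^ 3
/-- start of home `q` (installation is on `[A, 2A]`) -/
def hs (A : ℝ) : ℕ → ℝ
  | 0 => 2 * A
  | (q + 1) => hs A q + Th A q + Tg A q
/-- end of home `q` = start of gate `q` (gate `q` is `[he q, hs (q+1)]`) -/
def he (A : ℝ) (q : ℕ) : ℝ := hs A q + Th A q

theorem hs_zero (A : ℝ) : hs A 0 = 2 * A := rfl
theorem hs_succ (A : ℝ) (q : ℕ) : hs A (q + 1) = he A q + Tg A q := rfl
theorem he_eq (A : ℝ) (q : ℕ) : he A q = hs A q + Th A q := rfl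

variable {A : ℝ}

theorem Th_pos (hA : 0 < A) (q : ℕ) : 0 < Th A q := by unfold Th; positivity
theorem Tg_pos (hA : 0 < A) (q : ℕ) : 0 < Tg A q := by unfold Tg; positivity

theorem hs_lt_he (hA : 0 < A) (q : ℕ) : hs A q < he A q := by
  rw [he_eq]; linarith [Th_pos hA q]
theorem he_lt_hs (hA : 0 < A) (q : ℕ) : he A q < hs A (q + 1) := by
  rw [hs_succ]; linarith [Tg_pos hA q]

theorem hs_strictMono (hA : 0 < A) : StrictMono (hs A) :=
  strictMono_nat_of_lt_succ fun q => (hs_lt_he hA q).trans (he_lt_hs hA q)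

theorem he_strictMono (hA : 0 < A) : StrictMono (he A) :=
  strictMono_nat_of_lt_succ fun q => (he_lt_hs hA q).trans (hs_lt_he hA (q + 1))

theorem two_mul_le_hs (hA : 0 < A) (q : ℕ) : 2 * A ≤ hs A q :=
  (hs_strictMono hA).monotone (Nat.zero_le q)

theorem hs_ge (hA : 0 < A) (q : ℕ) : A * (q : ℝ) ≤ hs A q := by
  induction q with
  | zero => simp [hs_zero]; linarith
  | succ q ih =>
    rw [hs_succ, he_eq]
    have h1 : A ≤ Th A q := by
      unfold Th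
      have : (1 : ℝ) ≤ ((q : ℝ) + 1) ^ 4 := one_le_pow₀ (by linarith [Nat.cast_nonneg (α := ℝ) q])
      nlinarith
    have h2 := Tg_pos hA q
    push_cast
    linarith

theorem tendsto_hs (hA : 0 < A) : Tendsto (hs A) atTop atTop := by
  refine tendsto_atTop_mono (hs_ge hA) ?_
  exact tendsto_natCast_atTop_atTop.const_mul_atTop hA

theorem hs_le (hA : 0 < A) (q : ℕ) : hs A (q + 1) ≤ 4 * A * ((q : ℝ) + 1) ^ 5 := by
  induction q with
  | zero => rw [hs_succ, he_eq, hs_zero]; simp [Th, Tg]; linarith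
  | succ q ih =>
    rw [hs_succ, he_eq]
    have h0 : (0 : ℝ) ≤ q := Nat.cast_nonneg q
    unfold Th Tg
    push_cast
    have : (4 : ℝ) * ((q : ℝ) + 1) ^ 5 + ((q : ℝ) + 1 + 1) ^ 4 + ((q : ℝ) + 1 + 1) ^ 3
        ≤ 4 * ((q : ℝ) + 1 + 1) ^ 5 := by
      have e : 4 * ((q : ℝ) + 1 + 1) ^ 5 - (4 * ((q : ℝ) + 1) ^ 5 + ((q : ℝ) + 1 + 1) ^ 4
          + ((q : ℝ) + 1 + 1) ^ 3) = 19 * (q:ℝ)^4 + 111 * (q:ℝ)^3 + 250 * (q:ℝ)^2 + 256 * (q:ℝ) + 100 := by
        ring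
      have : 0 ≤ 19 * (q:ℝ)^4 + 111 * (q:ℝ)^3 + 250 * (q:ℝ)^2 + 256 * (q:ℝ) + 100 := by positivity
      linarith
    nlinarith [mul_le_mul_of_nonneg_left this hA.le]

/-- every time `≥ 2A` lies in `[hs q, hs (q+1))` for some `q` -/
theorem exists_slot (hA : 0 < A) {t : ℝ} (ht : 2 * A ≤ t) :
    ∃ q, hs A q ≤ t ∧ t < hs A (q + 1) := by
  have h : ∃ q, t < hs A q := ((tendsto_hs hA).eventually_gt_atTop t).exists
  classical
  have h1 := Nat.find_spec h
  set N := Nat.find h with hN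
  have hpos : N ≠ 0 := by
    intro h0
    rw [h0, hs_zero] at h1
    linarith
  obtain ⟨k, hk⟩ := Nat.exists_eq_succ_of_ne_zero hpos
  refine ⟨k, ?_, by rw [← Nat.succ_eq_add_one, ← hk]; exact h1⟩
  have := Nat.find_min h (m := k) (by rw [← hN, hk]; exact Nat.lt_succ_self k)
  exact not_lt.1 this

/-- THE RATE CONDITION: for `A` large, `(C / gate length)^2 ≤ c0 s'` on all gates, and the same for
the installation phase `[A, 2A]` with rate `C / A`. -/
theorem exists_A (hsI : 0 < sI) {c0 : ℝ} (hc0 : 0 < c0) (C : ℝ) {δ : ℝ} (hδ : 0 < δ) :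
    ∃ A0 : ℝ, 1 ≤ A0 ∧ ∀ A : ℝ, A0 ≤ A →
      (∀ t, A ≤ t → sI - δ ≤ sf sI t ∧ deriv (sf sI) t ≤ c0 ∧
        |deriv (deriv (sf sI)) t| ≤ c0 * deriv (sf sI) t) ∧
      (∀ t, A ≤ t → t ≤ 2 * A → (C / A) ^ 2 ≤ c0 * deriv (sf sI) t) ∧
      (∀ q, ∀ t, A ≤ t → t ≤ hs A (q + 1) → (C / Tg A q) ^ 2 ≤ c0 * deriv (sf sI) t) := by
  have hl := lw_pos hsI
  have ha := aw_ge hsI
  -- eventual conditions
  have e1 : ∀ᶠ t in atTop, sI - δ ≤ sf sI t :=
    ((tendsto_sf hsI).eventually (lt_mem_nhds (by linarith : sI - δ < sI))).mono fun t h => h.le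
  have e2 : ∀ᶠ t in atTop, deriv (sf sI) t ≤ c0 :=
    ((tendsto_deriv_sf hsI).eventually (gt_mem_nhds hc0)).mono fun t h => h.le
  obtain ⟨B1, hB1⟩ := eventually_atTop.1 e1
  obtain ⟨B2, hB2⟩ := eventually_atTop.1 e2
  -- `A^{4/5}` large
  have e3 : ∀ᶠ A : ℝ in atTop, C ^ 2 * (2 / lw sI) * (5 : ℝ) ^ (6 / 5 : ℝ) / c0 ≤ A ^ (4 / 5 : ℝ) :=
    (tendsto_rpow_atTop (by norm_num : (0 : ℝ) < 4 / 5)).eventually_ge_atTop _
  obtain ⟨B3, hB3⟩ := eventually_atTop.1 e3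
  have key : ∀ A : ℝ, B3 ≤ A → 1 ≤ A → aw sI ≤ A → ∀ q : ℕ, ∀ t, A ≤ t →
      t ≤ 4 * A * ((q : ℝ) + 1) ^ 5 → (C / Tg A q) ^ 2 ≤ c0 * deriv (sf sI) t := by
    intro A hA3 hA1 hAa q t hAt ht
    have hA0 : 0 < A := by linarith
    have ht1 : 1 ≤ t := hA1.trans hAt
    have hq : (1 : ℝ) ≤ (q : ℝ) + 1 := by linarith [Nat.cast_nonneg (α := ℝ) q]
    have hq5 : (1 : ℝ) ≤ ((q : ℝ) + 1) ^ 5 := one_le_pow₀ hq
    have h1 := deriv_sf_ge hsI ht1
    have h2 : t + aw sI ≤ 5 * (A * ((q : ℝ) + 1) ^ 5) := by nlinarith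
    have h3 : (5 * (A * ((q : ℝ) + 1) ^ 5)) ^ (-(6 / 5) : ℝ) ≤ (t + aw sI) ^ (-(6 / 5) : ℝ) :=
      Real.rpow_le_rpow_of_nonpos (by linarith) h2 (by norm_num)
    have h4 : (5 * (A * ((q : ℝ) + 1) ^ 5)) ^ (-(6 / 5) : ℝ)
        = (5 : ℝ) ^ (-(6 / 5) : ℝ) * (A ^ (-(6 / 5) : ℝ) * (((q : ℝ) + 1) ^ 6)⁻¹) := by
      rw [Real.mul_rpow (by norm_num) (by positivity), Real.mul_rpow hA0.le (by positivity)]
      congr 2
      rw [← Real.rpow_natCast (((q : ℝ) + 1)) 5, ← Real.rpow_mul (by positivity),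
        ← Real.rpow_natCast (((q : ℝ) + 1)) 6, ← Real.rpow_neg (by positivity)]
      norm_num
    have h5 := hB3 A hA3
    have h6 : C ^ 2 * (2 / lw sI) * (5 : ℝ) ^ (6 / 5 : ℝ) ≤ c0 * A ^ (4 / 5 : ℝ) := by
      rw [div_le_iff₀ hc0] at h5
      linarith
    have h7 : (C / Tg A q) ^ 2 = C ^ 2 * (A ^ (-2 : ℝ) * (((q : ℝ) + 1) ^ 6)⁻¹) := by
      unfold Tg
      rw [div_pow, mul_pow, ← pow_mul, show (-2 : ℝ) = -((2 : ℕ) : ℝ) by norm_num,
        Real.rpow_neg hA0.le, Real.rpow_natCast]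
      rw [← mul_inv, div_eq_mul_inv]
    have h8 : A ^ (-2 : ℝ) * A ^ (4 / 5 : ℝ) = A ^ (-(6 / 5) : ℝ) := by
      rw [← Real.rpow_add hA0]; norm_num
    have h9 : (5 : ℝ) ^ (6 / 5 : ℝ) * (5 : ℝ) ^ (-(6 / 5) : ℝ) = 1 := by
      rw [← Real.rpow_add (by norm_num)]; norm_num
    have hQ : 0 < (((q : ℝ) + 1) ^ 6)⁻¹ := by positivity
    have hA2 : 0 < A ^ (-2 : ℝ) := Real.rpow_pos_of_pos hA0 _
    have h10 : C ^ 2 ≤ c0 * A ^ (4 / 5 : ℝ) * (lw sI / 2) * (5 : ℝ) ^ (-(6 / 5) : ℝ) := by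
      have := mul_le_mul_of_nonneg_right h6
        (show 0 ≤ (lw sI / 2) * (5 : ℝ) ^ (-(6 / 5) : ℝ) by positivity)
      have e : C ^ 2 * (2 / lw sI) * (5 : ℝ) ^ (6 / 5 : ℝ) * ((lw sI / 2) * (5 : ℝ) ^ (-(6 / 5) : ℝ))
          = C ^ 2 * ((2 / lw sI) * (lw sI / 2)) * ((5 : ℝ) ^ (6 / 5 : ℝ) * (5 : ℝ) ^ (-(6 / 5) : ℝ)) := by
        ring
      rw [e, h9, show (2 / lw sI) * (lw sI / 2) = 1 by field_simp] at this
      linarith
    calc (C / Tg A q) ^ 2 = C ^ 2 * (A ^ (-2 : ℝ) * (((q : ℝ) + 1) ^ 6)⁻¹) := h7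
      _ ≤ (c0 * A ^ (4 / 5 : ℝ) * (lw sI / 2) * (5 : ℝ) ^ (-(6 / 5) : ℝ)) *
            (A ^ (-2 : ℝ) * (((q : ℝ) + 1) ^ 6)⁻¹) :=
          mul_le_mul_of_nonneg_right h10 (by positivity)
      _ = c0 * (lw sI / 2 * ((5 : ℝ) ^ (-(6 / 5) : ℝ) *
            ((A ^ (-2 : ℝ) * A ^ (4 / 5 : ℝ)) * (((q : ℝ) + 1) ^ 6)⁻¹))) := by ring
      _ = c0 * (lw sI / 2 * (5 * (A * ((q : ℝ) + 1) ^ 5)) ^ (-(6 / 5) : ℝ)) := by rw [h8, h4]
      _ ≤ c0 * (lw sI / 2 * (t + aw sI) ^ (-(6 / 5) : ℝ)) := by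
          gcongr
      _ ≤ c0 * deriv (sf sI) t := mul_le_mul_of_nonneg_left h1 hc0.le
  refine ⟨max 1 (max B1 (max B2 (max B3 (max (aw sI) (6 / 5 / c0))))), le_max_left _ _, ?_⟩
  intro A hA
  simp only [max_le_iff] at hA
  obtain ⟨h1, hb1, hb2, hb3, haw, hc⟩ := hA
  have hA0 : 0 < A := by linarith
  refine ⟨?_, ?_, ?_⟩
  · intro t ht
    have ht1 : 1 ≤ t := h1.trans ht
    refine ⟨hB1 t (hb1.trans ht), hB2 t (hb2.trans ht), ?_⟩
    refine (abs_deriv2_sf_le hsI ht1).trans ?_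
    refine mul_le_mul_of_nonneg_right ?_ (deriv_sf_nonneg hsI t)
    rw [div_le_iff₀ (by linarith)]
    rw [div_le_iff₀ hc0] at hc
    nlinarith
  · intro t hAt ht
    have := key A hb3 h1 haw 0 t hAt (by norm_num; linarith)
    simpa [Tg] using this
  · intro q t hAt ht
    exact key A hb3 h1 haw q t hAt (ht.trans (hs_le hA0 q))

end

end Crest.Agent.R202.Sch
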