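/-
R202, part B3 (helper846): frozen definitions for the segments (homes and gates) of the radial
Galerkin flow: `Flow`, `OpenCut`, `HomeCut`, and the statements of the gate and home lemmas.
-/
import Mathlib
import Crest.Agent.R202.MixDefs

set_option autoImplicit false

open Set
open scoped InnerProductSpace

namespace Crest.Agent.R202.Seg

open Crest.Agent.R202.Mix (pr)

/-- One radial flow (fixed parameter): `u' = L u`, `L` symmetric `≥ 0`, Riccati equation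
`L' = K - b L - L²` and the frequency bound `|⟪L' x, x⟫| ≤ ρ (⟪L x, x⟫ + |x|²)`, for `t > t1`. -/
structure Flow (G : Type) [NormedAddCommGroup G] [InnerProductSpace ℝ G] where
  t1 : ℝ
  K : ℝ → G →L[ℝ] G
  L : ℝ → G →L[ℝ] G
  U : ℝ → G →L[ℝ] G
  b : ℝ → ℝ
  ρ : ℝ → ℝ
  b_ge : ∀ t, t1 < t → 1 / 2 ≤ b t
  ρ_nonneg : ∀ t, t1 < t → 0 ≤ ρ t
  symm : ∀ t, t1 < t → ∀ x y, ⟪L t x, y⟫_ℝ = ⟪x, L t y⟫_ℝ
  nonneg : ∀ t, t1 < t → ∀ x, 0 ≤ ⟪L t x, x⟫_ℝ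
  hasDerivAt_U : ∀ t, t1 < t → HasDerivAt U ((L t).comp (U t)) t
  inj : ∀ t, t1 < t → Function.Injective (U t)
  riccati : ∀ t, t1 < t → HasDerivAt L (K t - b t • L t - (L t).comp (L t)) t
  bound : ∀ t, t1 < t → ∀ x,
    |⟪K t x, x⟫_ℝ - b t * ⟪L t x, x⟫_ℝ - ‖L t x‖ ^ 2| ≤ ρ t * (⟪L t x, x⟫_ℝ + ‖x‖ ^ 2)

variable {G : Type} [NormedAddCommGroup G] [InnerProductSpace ℝ G]

/-- the frequency level `γ ≥ 0` with `γ² + b γ = m` -/
noncomputable def freq (b m : ℝ) : ℝ := -(b / 2) + Real.sqrt (b ^ 2 / 4 + m)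

/-- frequency cone at time `t` for the mid-level `m` -/
def FCone (F : Flow G) (m : ℝ → ℝ) (t : ℝ) (u : G) : Prop :=
  ⟪F.L t u, u⟫_ℝ ≤ freq (F.b t) (m t) * ‖u‖ ^ 2

/-- projection cone -/
def PCone {N : ℕ} (e : Fin N → G) (l : ℕ) (C : ℝ) (u : G) : Prop :=
  ‖u - pr e l u‖ ≤ C * ‖pr e l u‖

/-- The cut `l` is open for `F` on `[a, c]`: frame `f`, mid-level `m`, half-gap `η`, size bound
`M`, smallness `δ` of the rates. -/
structure OpenCut (F : Flow G) (l : ℕ) (η M δ : ℝ) (m m' b' : ℝ → ℝ) (f : ℝ → Fin l → G)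
    (a c : ℝ) : Prop where
  t1_lt : F.t1 < a
  le : a ≤ c
  li : ∀ t ∈ Icc a c, LinearIndependent ℝ (f t)
  cont : ContinuousOn f (Icc a c)
  low : ∀ t ∈ Icc a c, ∀ x ∈ Submodule.span ℝ (range (f t)),
    ⟪F.K t x, x⟫_ℝ ≤ (m t - η) * ‖x‖ ^ 2
  high : ∀ t ∈ Icc a c, ∀ x, (∀ i, ⟪f t i, x⟫_ℝ = 0) →
    (m t + η) * ‖x‖ ^ 2 ≤ ⟪F.K t x, x⟫_ℝ
  m_deriv : ∀ t ∈ Icc a c, HasDerivAt m (m' t) t
  m'_le : ∀ t ∈ Icc a c, |m' t| ≤ δ
  b_deriv : ∀ t ∈ Icc a c, HasDerivAt F.b (b' t) t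
  b'_le : ∀ t ∈ Icc a c, |b' t| ≤ δ
  b_le : ∀ t ∈ Icc a c, F.b t ≤ M
  m_ge : ∀ t ∈ Icc a c, η ≤ m t
  m_le : ∀ t ∈ Icc a c, m t + η ≤ M
  ρ_le : ∀ t ∈ Icc a c, F.ρ t ≤ δ

/-- Home: open cut with the constant frame `e 0, …, e (l-1)`, and `K` commutes with the
projection. -/
structure HomeCut {N : ℕ} (F : Flow G) (e : Fin N → G) (l : ℕ) (hl : l ≤ N) (η M δ : ℝ)
    (m m' b' : ℝ → ℝ) (a c : ℝ) : Prop where
  orth : Orthonormal ℝ e
  opn : OpenCut F l η M δ m m' b' (fun _ i => e (Fin.castLE hl i)) a c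
  comm : ∀ t ∈ Icc a c, ∀ x, F.K t (pr e l x) = pr e l (F.K t x)

/-! ### gate lemmas (owner helper557) -/

/-- (G1) inward invariance of the frequency cone along an open cut -/
def GateCone : Prop := ∀ (η M : ℝ), 0 < η → 0 < M → ∃ δ > 0,
  ∀ (G : Type) [NormedAddCommGroup G] [InnerProductSpace ℝ G] [FiniteDimensional ℝ G]
    (F : Flow G) (l : ℕ) (m m' b' : ℝ → ℝ) (f : ℝ → Fin l → G) (a c : ℝ),
    OpenCut F l η M δ m m' b' f a c →
    ∀ x, FCone F m c (F.U c x) → FCone F m a (F.U a x)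

/-- the determinant which carries the orientation -/
noncomputable def orDet (F : Flow G) {l : ℕ} (m : ℝ → ℝ) (f : ℝ → Fin l → G) (v : Fin l → G)
    (t : ℝ) : ℝ :=
  Matrix.det (Matrix.of fun i j => ⟪F.L t (f t i), F.U t (v j)⟫_ℝ -
    freq (F.b t) (m t) * ⟪f t i, F.U t (v j)⟫_ℝ)

/-- (G2) constant sign of the orientation determinant along an open cut -/
def GateSign : Prop := ∀ (η M : ℝ), 0 < η → 0 < M → ∃ δ > 0,
  ∀ (G : Type) [NormedAddCommGroup G] [InnerProductSpace ℝ G] [FiniteDimensional ℝ G]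
    (F : Flow G) (l : ℕ) (m m' b' : ℝ → ℝ) (f : ℝ → Fin l → G) (a c : ℝ),
    OpenCut F l η M δ m m' b' f a c →
    ∀ v : Fin l → G, LinearIndependent ℝ v →
    (∀ w ∈ Submodule.span ℝ (range v), FCone F m c (F.U c w)) →
    0 < orDet F m f v a * orDet F m f v c

/-! ### home lemmas (owner helper384) -/

/-- (H1) narrowing of the projection cone (inward), from the constant `C` to `κ`, and the cone `C`
is kept on the whole interval -/
def HomeNarrow : Prop := ∀ (N : ℕ) (η M C κ : ℝ), 0 < η → 0 < M → 0 < C → 0 < κ →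
  ∃ δ > 0, ∃ T > 0,
  ∀ (G : Type) [NormedAddCommGroup G] [InnerProductSpace ℝ G] [FiniteDimensional ℝ G]
    (F : Flow G) (e : Fin N → G) (l : ℕ) (hl : l ≤ N) (m m' b' : ℝ → ℝ) (a c : ℝ),
    HomeCut F e l hl η M δ m m' b' a c →
    ∀ x, PCone e l C (F.U c x) → (∀ t ∈ Icc a c, PCone e l C (F.U t x)) ∧
      (a + T ≤ c → PCone e l κ (F.U a x))

/-- (H2) projection cone ⇒ frequency cone after a fixed time (inward) -/
def HomePtoF : Prop := ∀ (N : ℕ) (η M C : ℝ), 0 < η → 0 < M → 0 < C →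
  ∃ δ > 0, ∃ T > 0,
  ∀ (G : Type) [NormedAddCommGroup G] [InnerProductSpace ℝ G] [FiniteDimensional ℝ G]
    (F : Flow G) (e : Fin N → G) (l : ℕ) (hl : l ≤ N) (m m' b' : ℝ → ℝ) (a c : ℝ),
    HomeCut F e l hl η M δ m m' b' a c → a + T ≤ c →
    ∀ x, PCone e l C (F.U c x) → FCone F m a (F.U a x)

/-- (H3) frequency cone ⇒ projection cone at the same time -/
def HomeFtoP : Prop := ∀ (N : ℕ) (η M : ℝ), 0 < η → 0 < M →
  ∃ δ > 0, ∃ C > 0,
  ∀ (G : Type) [NormedAddCommGroup G] [InnerProductSpace ℝ G] [FiniteDimensional ℝ G]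
    (F : Flow G) (e : Fin N → G) (l : ℕ) (hl : l ≤ N) (m m' b' : ℝ → ℝ) (a c : ℝ),
    HomeCut F e l hl η M δ m m' b' a c →
    ∀ t ∈ Icc a c, ∀ u, FCone F m t u → PCone e l C u

/-- (H4) growth in a home: `s` is any number which is slightly above the frequencies of the slow
modes on the whole interval -/
def HomeGrowth : Prop := ∀ (N : ℕ) (η M C ε : ℝ), 0 < η → 0 < M → 0 < C → 0 < ε →
  ∃ δ > 0,
  ∀ (G : Type) [NormedAddCommGroup G] [InnerProductSpace ℝ G] [FiniteDimensional ℝ G]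
    (F : Flow G) (e : Fin N → G) (l : ℕ) (hl : l ≤ N) (m m' b' : ℝ → ℝ) (a c s : ℝ),
    HomeCut F e l hl η M δ m m' b' a c →
    0 ≤ s → s ≤ M →
    (∀ t ∈ Icc a c, ∀ x ∈ Submodule.span ℝ (range fun i : Fin l => e (Fin.castLE hl i)),
      ⟪F.K t x, x⟫_ℝ ≤ (s ^ 2 + F.b t * s) * ‖x‖ ^ 2) →
    ∀ x, PCone e l C (F.U c x) →
      ‖F.U c x‖ ≤ (1 + C) * Real.exp ((s + ε) * (c - a)) * ‖F.U a x‖

/-- (H5) orientation at a time inside a home: the determinant of (G2) has the sign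
`(-1) ^ l · sign det ⟪e_i, u_j⟫` for solutions which span a space in the cone `C` -/
def HomeSign : Prop := ∀ (N : ℕ) (η M C : ℝ), 0 < η → 0 < M → 0 < C →
  ∃ δ > 0,
  ∀ (G : Type) [NormedAddCommGroup G] [InnerProductSpace ℝ G] [FiniteDimensional ℝ G]
    (F : Flow G) (e : Fin N → G) (l : ℕ) (hl : l ≤ N) (m m' b' : ℝ → ℝ) (a c : ℝ),
    HomeCut F e l hl η M δ m m' b' a c →
    ∀ t ∈ Icc a c, ∀ v : Fin l → G, LinearIndependent ℝ v →
    (∀ w ∈ Submodule.span ℝ (range v), PCone e l C (F.U t w)) →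
    0 < (-1) ^ l * orDet F m (fun _ i => e (Fin.castLE hl i)) v t *
      Matrix.det (Matrix.of fun i j : Fin l => ⟪e (Fin.castLE hl i), F.U t (v j)⟫_ℝ)

end Crest.Agent.R202.Seg
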