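/-
R202, part B3 (helper846): elementary lemmas on segments (restriction, growth, determinants).
-/
import Crest.Agent.R202.SegDefs

set_option autoImplicit false

open Set
open scoped InnerProductSpace

namespace Crest.Agent.R202.Seg

open Crest.Agent.R202.Mix (pr blk inner_pr pr_eq_zero_iff)

variable {G : Type} [NormedAddCommGroup G] [InnerProductSpace ℝ G]

theorem OpenCut.mono {F : Flow G} {l : ℕ} {η M δ δ' : ℝ} {m m' b' : ℝ → ℝ}
    {f : ℝ → Fin l → G} {a c : ℝ} (h : OpenCut F l η M δ m m' b' f a c) (hδ : δ ≤ δ') :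
    OpenCut F l η M δ' m m' b' f a c :=
  { h with
    m'_le := fun t ht => (h.m'_le t ht).trans hδ
    b'_le := fun t ht => (h.b'_le t ht).trans hδ
    ρ_le := fun t ht => (h.ρ_le t ht).trans hδ }

theorem OpenCut.restr {F : Flow G} {l : ℕ} {η M δ : ℝ} {m m' b' : ℝ → ℝ}
    {f : ℝ → Fin l → G} {a c a' c' : ℝ} (h : OpenCut F l η M δ m m' b' f a c)
    (h1 : a ≤ a') (h2 : a' ≤ c') (h3 : c' ≤ c) :
    OpenCut F l η M δ m m' b' f a' c' := by
  have hs : Icc a' c' ⊆ Icc a c := Icc_subset_Icc h1 h3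
  exact
    { t1_lt := lt_of_lt_of_le h.t1_lt h1
      le := h2
      li := fun t ht => h.li t (hs ht)
      cont := h.cont.mono hs
      low := fun t ht => h.low t (hs ht)
      high := fun t ht => h.high t (hs ht)
      m_deriv := fun t ht => h.m_deriv t (hs ht)
      m'_le := fun t ht => h.m'_le t (hs ht)
      b_deriv := fun t ht => h.b_deriv t (hs ht)
      b'_le := fun t ht => h.b'_le t (hs ht)
      b_le := fun t ht => h.b_le t (hs ht)
      m_ge := fun t ht => h.m_ge t (hs ht)
      m_le := fun t ht => h.m_le t (hs ht)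
      ρ_le := fun t ht => h.ρ_le t (hs ht) }

theorem HomeCut.mono {N : ℕ} {F : Flow G} {e : Fin N → G} {l : ℕ} {hl : l ≤ N} {η M δ δ' : ℝ}
    {m m' b' : ℝ → ℝ} {a c : ℝ} (h : HomeCut F e l hl η M δ m m' b' a c) (hδ : δ ≤ δ') :
    HomeCut F e l hl η M δ' m m' b' a c :=
  { orth := h.orth, opn := h.opn.mono hδ, comm := h.comm }

theorem HomeCut.restrict {N : ℕ} {F : Flow G} {e : Fin N → G} {l : ℕ} {hl : l ≤ N} {η M δ : ℝ}
    {m m' b' : ℝ → ℝ} {a c a' c' : ℝ} (h : HomeCut F e l hl η M δ m m' b' a c)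
    (h1 : a ≤ a') (h2 : a' ≤ c') (h3 : c' ≤ c) :
    HomeCut F e l hl η M δ m m' b' a' c' :=
  { orth := h.orth
    opn := h.opn.restr h1 h2 h3
    comm := fun t ht => h.comm t (Icc_subset_Icc h1 h3 ht) }

/-- derivative of the squared norm of a solution -/
theorem Flow.hasDerivAt_normSq (F : Flow G) {t : ℝ} (ht : F.t1 < t) (x : G) :
    HasDerivAt (fun s => ‖F.U s x‖ ^ 2) (2 * ⟪F.L t (F.U t x), F.U t x⟫_ℝ) t := by
  have h1 : HasDerivAt (fun s => F.U s x) (F.L t (F.U t x)) t := by
    have := (F.hasDerivAt_U t ht).clm_apply (hasDerivAt_const t x)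
    simpa using this
  have h2 := h1.norm_sq
  rw [real_inner_comm] at h2
  exact h2

theorem Flow.continuousOn_U (F : Flow G) : ContinuousOn F.U (Ioi F.t1) := fun t ht =>
  (F.hasDerivAt_U t ht).continuousAt.continuousWithinAt

theorem Flow.continuousOn_Ux (F : Flow G) (x : G) : ContinuousOn (fun t => F.U t x) (Ioi F.t1) :=
  F.continuousOn_U.clm_apply continuousOn_const

/-- norms of solutions do not decrease -/
theorem Flow.norm_mono (F : Flow G) {s t : ℝ} (hs : F.t1 < s) (hst : s ≤ t) (x : G) :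
    ‖F.U s x‖ ≤ ‖F.U t x‖ := by
  have hmono : MonotoneOn (fun r => ‖F.U r x‖ ^ 2) (Icc s t) := by
    refine monotoneOn_of_deriv_nonneg (convex_Icc s t) ?_ ?_ ?_
    · intro r hr
      exact (F.hasDerivAt_normSq (lt_of_lt_of_le hs hr.1) x).continuousAt.continuousWithinAt
    · intro r hr
      rw [interior_Icc] at hr
      exact (F.hasDerivAt_normSq (hs.trans hr.1) x).differentiableAt.differentiableWithinAt
    · intro r hr
      rw [interior_Icc] at hr
      rw [(F.hasDerivAt_normSq (hs.trans hr.1) x).deriv]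
      exact mul_nonneg zero_le_two (F.nonneg r (hs.trans hr.1) _)
  have h := hmono (left_mem_Icc.2 hst) (right_mem_Icc.2 hst) hst
  exact le_of_sq_le_sq h (norm_nonneg _)

/-- growth of a solution whose frequency is bounded by `B` -/
theorem Flow.growth (F : Flow G) {a c B : ℝ} (ha : F.t1 < a) (hac : a ≤ c) (x : G)
    (h : ∀ t ∈ Icc a c, ⟪F.L t (F.U t x), F.U t x⟫_ℝ ≤ B * ‖F.U t x‖ ^ 2) :
    ‖F.U c x‖ ≤ Real.exp (B * (c - a)) * ‖F.U a x‖ := by
  have hd : ∀ t ∈ Icc a c, HasDerivAt (fun r => Real.exp (-(2 * B * r)) * ‖F.U r x‖ ^ 2)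
      (Real.exp (-(2 * B * t)) * (-(2 * B)) * ‖F.U t x‖ ^ 2 +
        Real.exp (-(2 * B * t)) * (2 * ⟪F.L t (F.U t x), F.U t x⟫_ℝ)) t := by
    intro t ht
    have h1 : HasDerivAt (fun r : ℝ => -(2 * B * r)) (-(2 * B)) t := by
      have h0 : HasDerivAt (fun r : ℝ => -(2 * B) * r) (-(2 * B) * 1) t :=
        (hasDerivAt_id t).const_mul (-(2 * B))
      have h2 : (fun r : ℝ => -(2 * B * r)) = fun r : ℝ => -(2 * B) * r := by
        funext r; ring
      rw [h2]
      rw [mul_one] at h0
      exact h0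
    exact h1.exp.mul (F.hasDerivAt_normSq (lt_of_lt_of_le ha ht.1) x)
  have hanti : AntitoneOn (fun r => Real.exp (-(2 * B * r)) * ‖F.U r x‖ ^ 2) (Icc a c) := by
    refine antitoneOn_of_deriv_nonpos (convex_Icc a c) ?_ ?_ ?_
    · intro r hr
      exact (hd r hr).continuousAt.continuousWithinAt
    · intro r hr
      rw [interior_Icc] at hr
      exact (hd r ⟨hr.1.le, hr.2.le⟩).differentiableAt.differentiableWithinAt
    · intro r hr
      rw [interior_Icc] at hr
      rw [(hd r ⟨hr.1.le, hr.2.le⟩).deriv]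
      have h1 := h r ⟨hr.1.le, hr.2.le⟩
      have h2 : 0 < Real.exp (-(2 * B * r)) := Real.exp_pos _
      have h3 : Real.exp (-(2 * B * r)) * (-(2 * B)) * ‖F.U r x‖ ^ 2 +
          Real.exp (-(2 * B * r)) * (2 * ⟪F.L r (F.U r x), F.U r x⟫_ℝ) =
          2 * (Real.exp (-(2 * B * r)) *
            (⟪F.L r (F.U r x), F.U r x⟫_ℝ - B * ‖F.U r x‖ ^ 2)) := by ring
      rw [h3]
      have h4 : Real.exp (-(2 * B * r)) *
            (⟪F.L r (F.U r x), F.U r x⟫_ℝ - B * ‖F.U r x‖ ^ 2) ≤ 0 :=
        mul_nonpos_of_nonneg_of_nonpos h2.le (by linarith)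
      linarith
  have h1 := hanti (left_mem_Icc.2 hac) (right_mem_Icc.2 hac) hac
  simp only at h1
  refine le_of_sq_le_sq ?_ (by positivity)
  have h2 : ‖F.U c x‖ ^ 2 = Real.exp (2 * B * c) * (Real.exp (-(2 * B * c)) * ‖F.U c x‖ ^ 2) := by
    rw [← mul_assoc, ← Real.exp_add]; simp
  rw [h2, mul_pow, ← Real.exp_nat_mul]
  calc Real.exp (2 * B * c) * (Real.exp (-(2 * B * c)) * ‖F.U c x‖ ^ 2)
      ≤ Real.exp (2 * B * c) * (Real.exp (-(2 * B * a)) * ‖F.U a x‖ ^ 2) :=
        mul_le_mul_of_nonneg_left h1 (Real.exp_pos _).le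
    _ = Real.exp (((2 : ℕ) : ℝ) * (B * (c - a))) * ‖F.U a x‖ ^ 2 := by
        rw [← mul_assoc, ← Real.exp_add]
        congr 2
        push_cast
        ring

theorem freq_le_add_one {b m M : ℝ} (hb : 0 ≤ b) (hM : 0 ≤ M) (hm : m ≤ M) : freq b m ≤ M + 1 := by
  unfold freq
  have h1 : Real.sqrt (b ^ 2 / 4 + m) ≤ b / 2 + (M + 1) := by
    rw [Real.sqrt_le_left (by positivity)]
    nlinarith [mul_nonneg hb hM]
  linarith

/-- determinant of the block matrix of `MixData` -/
theorem det_blk {N l : ℕ} (hl : l ≤ N) (A : Fin N → Fin N → ℝ) :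
    (blk l A).det = Matrix.det (Matrix.of fun i j : Fin l =>
      A (Fin.castLE hl i) (Fin.castLE hl j)) := by
  have hN : l + (N - l) = N := by omega
  set φ : Fin l ⊕ Fin (N - l) ≃ Fin N := finSumFinEquiv.trans (finCongr hN) with hφ
  have hφl : ∀ i : Fin l, φ (Sum.inl i) = Fin.castLE hl i := by
    intro i
    ext
    simp [hφ]
  have hφr : ∀ i : Fin (N - l), (φ (Sum.inr i)).1 = l + i.1 := by
    intro i
    simp [hφ]
  have h1 : (blk l A).submatrix φ φ = Matrix.fromBlocks (Matrix.of fun i j : Fin l =>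
      A (Fin.castLE hl i) (Fin.castLE hl j)) 0 0 1 := by
    ext i j
    rcases i with i | i <;> rcases j with j | j
    · simp only [Matrix.submatrix_apply, hφl, Matrix.fromBlocks_apply₁₁, Matrix.of_apply, blk]
      rw [if_pos ⟨i.2, j.2⟩]
    · simp only [Matrix.submatrix_apply, Matrix.fromBlocks_apply₁₂, blk, Matrix.zero_apply]
      rw [if_neg, if_neg]
      · intro h
        have := congrArg Fin.val h
        rw [hφr, hφl] at this
        have h3 := i.2
        simp at this
        omega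
      · rintro ⟨-, h⟩
        rw [hφr] at h
        omega
    · simp only [Matrix.submatrix_apply, Matrix.fromBlocks_apply₂₁, blk, Matrix.zero_apply]
      rw [if_neg, if_neg]
      · intro h
        have := congrArg Fin.val h
        rw [hφr, hφl] at this
        have h3 := j.2
        simp at this
        omega
      · rintro ⟨h, -⟩
        rw [hφr] at h
        omega
    · simp only [Matrix.submatrix_apply, Matrix.fromBlocks_apply₂₂, blk]
      rw [if_neg]
      · by_cases h : i = j
        · subst h; simp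
        · rw [if_neg (fun h' => h (Sum.inr_injective (φ.injective h'))), Matrix.one_apply_ne h]
      · rintro ⟨h, -⟩
        rw [hφr] at h
        omega
  rw [← Matrix.det_submatrix_equiv_self φ (blk l A), h1, Matrix.det_fromBlocks_zero₂₁,
    Matrix.det_one, mul_one]

/-- a continuous function without zeros on an interval has a constant sign -/
theorem mul_pos_of_ne_zero {D : ℝ → ℝ} {a c : ℝ} (hac : a ≤ c) (hc : ContinuousOn D (Icc a c))
    (h0 : ∀ t ∈ Icc a c, D t ≠ 0) : 0 < D a * D c := by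
  by_contra hn
  push Not at hn
  have ha := h0 a (left_mem_Icc.2 hac)
  have hcc := h0 c (right_mem_Icc.2 hac)
  have hlt : D a * D c < 0 := lt_of_le_of_ne hn (mul_ne_zero ha hcc)
  rcases lt_or_gt_of_ne ha with h | h
  · have h2 : 0 < D c := by
      by_contra h3
      push Not at h3
      exact absurd hlt (not_lt.2 (mul_nonneg_of_nonpos_of_nonpos h.le h3))
    obtain ⟨t, ht, ht0⟩ := intermediate_value_Icc hac hc ⟨h.le, h2.le⟩
    exact h0 t ht ht0
  · have h2 : D c < 0 := by
      by_contra h3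
      push Not at h3
      exact absurd hlt (not_lt.2 (mul_nonneg h.le h3))
    obtain ⟨t, ht, ht0⟩ := intermediate_value_Icc' hac hc ⟨h2.le, h.le⟩
    exact h0 t ht ht0

/-- the coordinate determinant -/
noncomputable def coDet (F : Flow G) {N l : ℕ} (e : Fin N → G) (hl : l ≤ N) (v : Fin l → G)
    (t : ℝ) : ℝ :=
  Matrix.det (Matrix.of fun i j : Fin l => ⟪e (Fin.castLE hl i), F.U t (v j)⟫_ℝ)

theorem coDet_ne_zero (F : Flow G) {N l : ℕ} {e : Fin N → G} (he : Orthonormal ℝ e)
    (hl : l ≤ N) {v : Fin l → G} (hv : LinearIndependent ℝ v) {t C : ℝ} (ht : F.t1 < t)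
    (hcone : ∀ w ∈ Submodule.span ℝ (range v), PCone e l C (F.U t w)) :
    coDet F e hl v t ≠ 0 := by
  intro h0
  obtain ⟨c, hc0, hc⟩ := Matrix.exists_mulVec_eq_zero_iff.2 h0
  set w : G := ∑ j, c j • v j with hw
  have hwmem : w ∈ Submodule.span ℝ (range v) :=
    Submodule.sum_mem _ fun j _ => Submodule.smul_mem _ _ (Submodule.subset_span ⟨j, rfl⟩)
  have hpr : pr e l (F.U t w) = 0 := by
    rw [pr_eq_zero_iff he]
    intro j hj
    have h1 := congrFun hc ⟨j.1, hj⟩
    simp only [Matrix.mulVec, dotProduct, Matrix.of_apply, Pi.zero_apply] at h1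
    rw [hw, map_sum, inner_sum]
    rw [← h1]
    refine Finset.sum_congr rfl fun i _ => ?_
    rw [map_smul, real_inner_smul_right, mul_comm]
    congr 1
  have h1 := hcone w hwmem
  unfold PCone at h1
  rw [hpr, sub_zero, norm_zero, mul_zero] at h1
  have h2 : F.U t w = 0 := norm_le_zero_iff.1 h1
  have h3 : w = 0 := by
    apply F.inj t ht
    rw [h2, map_zero]
  have h4 := (Fintype.linearIndependent_iff.1 hv) c h3
  exact hc0 (funext h4)

theorem continuousOn_coDet (F : Flow G) {N l : ℕ} (e : Fin N → G) (hl : l ≤ N) (v : Fin l → G) :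
    ContinuousOn (coDet F e hl v) (Ioi F.t1) := by
  have h1 : ContinuousOn (fun t => Matrix.of fun i j : Fin l =>
      ⟪e (Fin.castLE hl i), F.U t (v j)⟫_ℝ) (Ioi F.t1) := by
    refine continuousOn_pi.2 fun i => continuousOn_pi.2 fun j => ?_
    exact continuousOn_const.inner (F.continuousOn_Ux (v j))
  exact Continuous.comp_continuousOn (g := fun A : Matrix (Fin l) (Fin l) ℝ => A.det)
    (Continuous.matrix_det continuous_id) h1

/-- constant sign of the coordinate determinant -/
theorem coDet_sign (F : Flow G) {N l : ℕ} {e : Fin N → G} (he : Orthonormal ℝ e)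
    (hl : l ≤ N) {v : Fin l → G} (hv : LinearIndependent ℝ v) {a c C : ℝ} (ha : F.t1 < a)
    (hac : a ≤ c)
    (hcone : ∀ w ∈ Submodule.span ℝ (range v), ∀ t ∈ Icc a c, PCone e l C (F.U t w)) :
    0 < coDet F e hl v a * coDet F e hl v c := by
  refine mul_pos_of_ne_zero hac ((continuousOn_coDet F e hl v).mono fun t ht =>
    lt_of_lt_of_le ha ht.1) fun t ht => ?_
  exact coDet_ne_zero F he hl hv (lt_of_lt_of_le ha ht.1) fun w hw => hcone w hw t ht

/-- change of frame in the orientation determinant -/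
theorem orDet_change (F : Flow G) {l : ℕ} (m : ℝ → ℝ) (f f' : ℝ → Fin l → G) (v : Fin l → G)
    (t : ℝ) (O : Matrix (Fin l) (Fin l) ℝ) (h : ∀ i, f t i = ∑ j, O i j • f' t j) :
    orDet F m f v t = O.det * orDet F m f' v t := by
  unfold orDet
  rw [← Matrix.det_mul]
  congr 1
  ext i j
  simp only [Matrix.of_apply, Matrix.mul_apply]
  rw [h i, map_sum, sum_inner, sum_inner, Finset.mul_sum, ← Finset.sum_sub_distrib]
  refine Finset.sum_congr rfl fun k _ => ?_
  rw [map_smul, real_inner_smul_left, real_inner_smul_left]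
  ring

end Crest.Agent.R202.Seg
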