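/-
R202, part B3 (helper846): assembly of the data of the mixing theorem (`MixData`) from the
radial flows, given the gate lemmas and the home lemmas of `SegDefs`.
-/
import Crest.Agent.R202.SegLem

set_option autoImplicit false

open Set
open scoped InnerProductSpace

namespace Crest.Agent.R202.Seg

open Crest.Agent.R202.Mix (pr blk inner_pr pr_eq_zero_iff Cube MixData pr_apply)

/-- The radial data of one sector: homes `[tm q, tp q]`, collars of length `Lc` outside of them,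
gates between the collars. -/
structure SegData (G : Type) [NormedAddCommGroup G] [InnerProductSpace ℝ G] (N P : ℕ)
    (η M δ Lc T0 : ℝ) where
  F : Cube P → Flow G
  e : Fin N → G
  i0 : ℕ
  a : ℕ → ℝ
  tm : ℕ → ℝ
  tp : ℕ → ℝ
  d : Fin P → Option ℕ
  σ : Fin P → ℝ
  orth : Orthonormal ℝ e
  i0_pos : 1 ≤ i0
  i0_le : i0 ≤ N
  d_ge : ∀ k l, d k = some l → i0 ≤ l
  d_lt : ∀ k l, d k = some l → l < N
  σ_sq : ∀ k, σ k = 1 ∨ σ k = -1
  cont_tm : ∀ q, q ≤ P → Continuous fun κ => (F κ).U (tm q)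
  cont_tp : ∀ q, q ≤ P → Continuous fun κ => (F κ).U (tp q)
  t1_lt : ∀ κ, (F κ).t1 < tm 0
  a_nonneg : ∀ l, i0 ≤ l → l ≤ N → 0 ≤ a l ∧ a l ≤ M
  home_len : ∀ q, q ≤ P → tm q + T0 ≤ tp q
  gate_len : ∀ k, k < P → tp k + Lc ≤ tm (k + 1) - Lc
  home : ∀ q, q ≤ P → ∀ κ l (hl : l ≤ N), i0 ≤ l → ∃ m m' b',
    HomeCut (F κ) e l hl η M δ m m' b' (tm q) (tp q)
  slow : ∀ q, q ≤ P → ∀ κ l (hl : l ≤ N), i0 ≤ l → ∀ t ∈ Icc (tm q) (tp q),
    ∀ x ∈ Submodule.span ℝ (range fun i : Fin l => e (Fin.castLE hl i)),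
      ⟪(F κ).K t x, x⟫_ℝ ≤ (a l ^ 2 + (F κ).b t * a l) * ‖x‖ ^ 2
  gate : ∀ (k : Fin P) (κ : Cube P) (l : ℕ) (hl : l ≤ N), i0 ≤ l →
    (d k ≠ some l ∨ (κ k : ℝ) = 1 ∨ (κ k : ℝ) = -1) →
    ∃ (m m' b' : ℝ → ℝ) (f : ℝ → Fin l → G) (O : Matrix (Fin l) (Fin l) ℝ),
      HomeCut (F κ) e l hl η M δ m m' b' (tp k.1) (tp k.1 + Lc) ∧
      HomeCut (F κ) e l hl η M δ m m' b' (tm (k.1 + 1) - Lc) (tm (k.1 + 1)) ∧
      OpenCut (F κ) l η M δ m m' b' f (tp k.1 + Lc) (tm (k.1 + 1) - Lc) ∧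
      (∀ i, f (tm (k.1 + 1) - Lc) i = e (Fin.castLE hl i)) ∧
      (∀ i, f (tp k.1 + Lc) i = ∑ j, O i j • e (Fin.castLE hl j)) ∧
      (d k = some l → 0 < σ k * (κ k : ℝ) * O.det)

section Basic

variable {G : Type} [NormedAddCommGroup G] [InnerProductSpace ℝ G] [FiniteDimensional ℝ G]
  {N P : ℕ} {η M δ Lc T0 : ℝ}

theorem isUnit_of_inj {A : G →L[ℝ] G} (h : Function.Injective A) : IsUnit A := by
  set L : G ≃ₗ[ℝ] G := LinearEquiv.ofInjectiveEndo (A : G →ₗ[ℝ] G) h with hL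
  set Lc : G ≃L[ℝ] G := L.toContinuousLinearEquiv with hLc
  refine ⟨⟨A, (Lc.symm : G →L[ℝ] G), ?_, ?_⟩, rfl⟩
  · ext x
    have : A (Lc.symm x) = Lc (Lc.symm x) := rfl
    show A (Lc.symm x) = x
    rw [this, ContinuousLinearEquiv.apply_symm_apply]
  · ext x
    have : A x = Lc x := rfl
    show Lc.symm (A x) = x
    rw [this, ContinuousLinearEquiv.symm_apply_apply]

/-- initial value of the solution with boundary data `u` -/
noncomputable def SegData.ini (S : SegData G N P η M δ Lc T0) (κ : Cube P) :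
    (Fin N → ℝ) →ₗ[ℝ] G :=
  (Ring.inverse ((S.F κ).U (S.tp P)) : G →L[ℝ] G).toLinearMap ∘ₗ
    (Fintype.linearCombination ℝ S.e)

/-- solution at time `t` -/
noncomputable def SegData.J (S : SegData G N P η M δ Lc T0) (κ : Cube P) (t : ℝ) :
    (Fin N → ℝ) →ₗ[ℝ] G :=
  ((S.F κ).U t).toLinearMap ∘ₗ S.ini κ

theorem SegData.J_apply (S : SegData G N P η M δ Lc T0) (κ : Cube P) (t : ℝ) (u : Fin N → ℝ) :
    S.J κ t u = (S.F κ).U t (S.ini κ u) := rfl

variable (S : SegData G N P η M δ Lc T0)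

theorem SegData.tm_mono (hL : 0 < Lc) (hT : 0 < T0) : ∀ q, q ≤ P → S.tm 0 ≤ S.tm q := by
  intro q
  induction q with
  | zero => intro _; exact le_rfl
  | succ q ih =>
    intro hq
    have h1 := ih (by omega)
    have h2 := S.home_len q (by omega)
    have h3 := S.gate_len q (by omega)
    linarith

theorem SegData.t1_lt_tm (hL : 0 < Lc) (hT : 0 < T0) (κ : Cube P) {q : ℕ} (hq : q ≤ P) :
    (S.F κ).t1 < S.tm q := lt_of_lt_of_le (S.t1_lt κ) (S.tm_mono hL hT q hq)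

theorem SegData.t1_lt_tp (hL : 0 < Lc) (hT : 0 < T0) (κ : Cube P) {q : ℕ} (hq : q ≤ P) :
    (S.F κ).t1 < S.tp q := by
  have h1 := S.t1_lt_tm hL hT κ hq
  have h2 := S.home_len q hq
  linarith

theorem SegData.isUnit_U (hL : 0 < Lc) (hT : 0 < T0) (κ : Cube P) :
    IsUnit ((S.F κ).U (S.tp P)) :=
  isUnit_of_inj ((S.F κ).inj _ (S.t1_lt_tp hL hT κ le_rfl))

theorem SegData.J_top (hL : 0 < Lc) (hT : 0 < T0) (κ : Cube P) (u : Fin N → ℝ) :
    S.J κ (S.tp P) u = ∑ j, u j • S.e j := by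
  have h1 : (S.F κ).U (S.tp P) * Ring.inverse ((S.F κ).U (S.tp P)) = 1 :=
    Ring.mul_inverse_cancel _ (S.isUnit_U hL hT κ)
  have h2 := DFunLike.congr_fun h1 (∑ j, u j • S.e j)
  rw [one_apply_eq_self] at h2
  rw [S.J_apply]
  exact h2

theorem SegData.ini_injective (hL : 0 < Lc) (hT : 0 < T0) (κ : Cube P) :
    Function.Injective (S.ini κ) := by
  rw [← LinearMap.ker_eq_bot, LinearMap.ker_eq_bot']
  intro u hu
  have h1 := S.J_top hL hT κ u
  rw [S.J_apply, hu, map_zero] at h1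
  have h2 := (Fintype.linearIndependent_iff.1 S.orth.linearIndependent) u h1.symm
  exact funext h2

theorem SegData.continuous_ini (hL : 0 < Lc) (hT : 0 < T0) (u : Fin N → ℝ) :
    Continuous fun κ => S.ini κ u := by
  haveI : CompleteSpace G := FiniteDimensional.complete ℝ G
  have h1 : Continuous fun κ => Ring.inverse ((S.F κ).U (S.tp P)) := by
    rw [continuous_iff_continuousAt]
    intro κ
    obtain ⟨x, hx⟩ := S.isUnit_U hL hT κ
    have h2 : ContinuousAt Ring.inverse ((S.F κ).U (S.tp P)) := by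
      rw [← hx]
      exact NormedRing.inverse_continuousAt x
    exact ContinuousAt.comp (f := fun κ => (S.F κ).U (S.tp P)) h2
      (S.cont_tp P le_rfl).continuousAt
  exact h1.clm_apply continuous_const

/-- solutions of the sector space lie in the cone of the top cut, provided that cones are
preserved by homes and gates -/
theorem SegData.coneN (hL : 0 < Lc) (hT : 0 < T0)
    (hhome : ∀ q, q ≤ P → ∀ κ x, PCone S.e N 20 ((S.F κ).U (S.tp q) x) →
      PCone S.e N (1 / 20) ((S.F κ).U (S.tm q) x))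
    (hgate : ∀ k : Fin P, ∀ κ x, PCone S.e N 1 ((S.F κ).U (S.tm (k.1 + 1)) x) →
      PCone S.e N 1 ((S.F κ).U (S.tp k.1) x))
    (q : ℕ) (hq : q ≤ P) (κ : Cube P) (u : Fin N → ℝ) : PCone S.e N 1 (S.J κ (S.tp q) u) := by
  induction hn : P - q generalizing q with
  | zero =>
    have hqP : q = P := by omega
    subst hqP
    rw [S.J_top hL hT]
    unfold PCone
    have h1 : pr S.e N (∑ j, u j • S.e j) = ∑ j, u j • S.e j := by
      rw [pr_apply]
      refine Finset.sum_congr rfl fun j _ => ?_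
      rw [if_pos j.2, inner_sum, Finset.sum_eq_single j]
      · rw [real_inner_smul_right, orthonormal_iff_ite.1 S.orth j j]; simp
      · intro i _ hi
        rw [real_inner_smul_right, orthonormal_iff_ite.1 S.orth j i]; simp [Ne.symm hi]
      · intro h; exact absurd (Finset.mem_univ j) h
    rw [h1, sub_self, norm_zero]
    positivity
  | succ n ih =>
    have hqP : q < P := by omega
    have h1 := ih (q + 1) (by omega) (by omega)
    rw [S.J_apply] at h1 ⊢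
    have h2 := hhome (q + 1) (by omega) κ (S.ini κ u) (by
      unfold PCone at h1 ⊢
      exact h1.trans (by linarith [norm_nonneg (pr S.e N ((S.F κ).U (S.tp (q + 1)) (S.ini κ u)))]))
    refine hgate ⟨q, hqP⟩ κ (S.ini κ u) ?_
    unfold PCone at h2 ⊢
    exact h2.trans (by
      have := norm_nonneg (pr S.e N ((S.F κ).U (S.tm (q + 1)) (S.ini κ u)))
      simp only
      linarith)

omit [FiniteDimensional ℝ G] in
theorem PCone.mono {e : Fin N → G} {l : ℕ} {C C' : ℝ} (h : C ≤ C') {u : G}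
    (hu : PCone e l C u) : PCone e l C' u := by
  unfold PCone at *
  exact hu.trans (mul_le_mul_of_nonneg_right h (norm_nonneg _))

omit [FiniteDimensional ℝ G] in
theorem OpenCut.monoM {F : Flow G} {l : ℕ} {η M M' δ : ℝ} {m m' b' : ℝ → ℝ}
    {f : ℝ → Fin l → G} {a c : ℝ} (h : OpenCut F l η M δ m m' b' f a c) (hM : M ≤ M') :
    OpenCut F l η M' δ m m' b' f a c :=
  { h with
    b_le := fun t ht => (h.b_le t ht).trans hM
    m_le := fun t ht => (h.m_le t ht).trans hM }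

omit [FiniteDimensional ℝ G] in
theorem HomeCut.monoM {F : Flow G} {e : Fin N → G} {l : ℕ} {hl : l ≤ N}
    {η M M' δ : ℝ} {m m' b' : ℝ → ℝ} {a c : ℝ} (h : HomeCut F e l hl η M δ m m' b' a c)
    (hM : M ≤ M') : HomeCut F e l hl η M' δ m m' b' a c :=
  { orth := h.orth, opn := h.opn.monoM hM, comm := h.comm }

end Basic

/-- ASSEMBLY OF THE MIXING DATA -/
theorem exists_mixData_ofL (hG1 : GateCone) (hG2 : GateSign) (hH1 : HomeNarrow)
    (hH2 : HomePtoF) (hH3 : HomeFtoP) (hH4 : HomeGrowth) (hH5 : HomeSign)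
    (N : ℕ) (η M ε : ℝ) (hη : 0 < η) (hM : 0 < M) (hε : 0 < ε) :
    ∃ δ > 0, ∃ Lc0 > 0, ∃ T0 > 0, ∃ CΓ > 0, ∀ Lc : ℝ, Lc0 ≤ Lc →
    ∀ (G : Type) [NormedAddCommGroup G] [InnerProductSpace ℝ G] [FiniteDimensional ℝ G] (P : ℕ)
      (S : SegData G N P η M δ Lc T0), ∃ D : MixData G N P,
      D.e = S.e ∧ D.i0 = S.i0 ∧ (D.a = fun l => S.a l + ε) ∧
      (D.T = fun q => S.tp q - S.tm q) ∧ (D.ε = fun _ => Real.log 4) ∧ D.d = S.d ∧
      D.σ = S.σ ∧
      (D.Γ = fun k => CΓ * Real.exp ((M + 2) * (S.tm (k.1 + 1) - S.tp k.1))) ∧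
      (∀ q κ u, D.Jm q κ u = S.J κ (S.tm q) u) ∧ (∀ q κ u, D.Jp q κ u = S.J κ (S.tp q) u) := by
  obtain ⟨δ1, hδ1, h1⟩ := hG1 η M hη hM
  obtain ⟨δ2, hδ2, h2⟩ := hG2 η M hη hM
  obtain ⟨δ3, hδ3, T3, hT3, h3⟩ := hH1 N η M 20 (1 / 20) hη hM (by norm_num) (by norm_num)
  obtain ⟨δ4, hδ4, T4, hT4, h4⟩ := hH2 N η M 1 hη hM one_pos
  obtain ⟨δ5, hδ5, C5, hC5, h5⟩ := hH3 N η M hη hM
  obtain ⟨δ6, hδ6, T6, hT6, h6⟩ := hH1 N η M C5 1 hη hM hC5 one_pos
  obtain ⟨δ7, hδ7, h7⟩ := hH4 N η M 3 ε hη hM (by norm_num) hε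
  obtain ⟨δ8, hδ8, h8⟩ := hH4 N η (M + 1) 1 1 hη (by linarith) one_pos one_pos
  obtain ⟨δ9, hδ9, h9⟩ := hH4 N η (M + 1) C5 1 hη (by linarith) hC5 one_pos
  obtain ⟨δ10, hδ10, h10⟩ := hH5 N η M 1 hη hM one_pos
  obtain ⟨δ11, hδ11, h11⟩ := hH5 N η M C5 hη hM hC5
  obtain ⟨δ12, hδ12, T12, hT12, h12⟩ := hH1 N η M 1 1 hη hM one_pos one_pos
  obtain ⟨δ, hδ, g1, g2, g3, g4, g5, g6, g7, g8, g9, g10, g11, g12⟩ : ∃ δ > 0, δ ≤ δ1 ∧ δ ≤ δ2 ∧
      δ ≤ δ3 ∧ δ ≤ δ4 ∧ δ ≤ δ5 ∧ δ ≤ δ6 ∧ δ ≤ δ7 ∧ δ ≤ δ8 ∧ δ ≤ δ9 ∧ δ ≤ δ10 ∧ δ ≤ δ11 ∧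
      δ ≤ δ12 := by
    refine ⟨min δ1 (min δ2 (min δ3 (min δ4 (min δ5 (min δ6 (min δ7 (min δ8 (min δ9 (min δ10
      (min δ11 δ12)))))))))), ?_, ?_⟩
    · simp only [gt_iff_lt, lt_min_iff]
      exact ⟨hδ1, hδ2, hδ3, hδ4, hδ5, hδ6, hδ7, hδ8, hδ9, hδ10, hδ11, hδ12⟩
    · have := le_refl (min δ1 (min δ2 (min δ3 (min δ4 (min δ5 (min δ6 (min δ7 (min δ8 (min δ9
        (min δ10 (min δ11 δ12)))))))))))
      simpa only [le_min_iff] using this
  refine ⟨δ, hδ, max T4 T6, lt_of_lt_of_le hT4 (le_max_left _ _), T3, hT3, 2 * (1 + C5),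
    by positivity, ?_⟩
  intro Lc hLcc
  have hL4 : T4 ≤ Lc := (le_max_left _ _).trans hLcc
  have hL6 : T6 ≤ Lc := (le_max_right _ _).trans hLcc
  have hLpos : 0 < Lc := lt_of_lt_of_le hT4 hL4
  intro G _ _ _ P S
  -- homes
  have homeC : ∀ q, q ≤ P → ∀ κ l, S.i0 ≤ l → l ≤ N → ∀ x,
      PCone S.e l 20 ((S.F κ).U (S.tp q) x) → PCone S.e l (1 / 20) ((S.F κ).U (S.tm q) x) := by
    intro q hq κ l hi hl x hx
    obtain ⟨m, m', b', hc⟩ := S.home q hq κ l hl hi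
    exact (h3 G (S.F κ) S.e l hl m m' b' _ _ (hc.mono g3) x hx).2 (S.home_len q hq)
  have homeG : ∀ q, q ≤ P → ∀ κ l, S.i0 ≤ l → l ≤ N → ∀ x,
      PCone S.e l 3 ((S.F κ).U (S.tp q) x) →
      ‖(S.F κ).U (S.tp q) x‖ ≤ Real.exp ((S.a l + ε) * (S.tp q - S.tm q) + Real.log 4) *
        ‖(S.F κ).U (S.tm q) x‖ := by
    intro q hq κ l hi hl x hx
    obtain ⟨m, m', b', hc⟩ := S.home q hq κ l hl hi
    obtain ⟨ha0, haM⟩ := S.a_nonneg l hi hl
    have h := h7 G (S.F κ) S.e l hl m m' b' _ _ (S.a l) (hc.mono g7) ha0 haM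
      (S.slow q hq κ l hl hi) x hx
    rw [Real.exp_add, Real.exp_log (by norm_num : (0 : ℝ) < 4)]
    calc _ ≤ _ := h
      _ = _ := by ring
  -- gates: cones at all intermediate times
  have gateF : ∀ (k : Fin P) (κ : Cube P) (l : ℕ) (hl : l ≤ N), S.i0 ≤ l →
      ∀ (m m' b' : ℝ → ℝ) (f : ℝ → Fin l → G),
      HomeCut (S.F κ) S.e l hl η M δ m m' b' (S.tm (k.1 + 1) - Lc) (S.tm (k.1 + 1)) →
      OpenCut (S.F κ) l η M δ m m' b' f (S.tp k.1 + Lc) (S.tm (k.1 + 1) - Lc) →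
      ∀ x, PCone S.e l 1 ((S.F κ).U (S.tm (k.1 + 1)) x) →
      ∀ t ∈ Icc (S.tp k.1 + Lc) (S.tm (k.1 + 1) - Lc), FCone (S.F κ) m t ((S.F κ).U t x) := by
    intro k κ l hl hi m m' b' f hc2 ho x hx t ht
    have e1 : FCone (S.F κ) m (S.tm (k.1 + 1) - Lc) ((S.F κ).U (S.tm (k.1 + 1) - Lc) x) :=
      h4 G (S.F κ) S.e l hl m m' b' _ _ (hc2.mono g4) (by linarith) x hx
    exact h1 G (S.F κ) l m m' b' f t (S.tm (k.1 + 1) - Lc)
      ((ho.restr ht.1 ht.2 le_rfl).mono g1) x e1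
  have gateP : ∀ (k : Fin P) (κ : Cube P) (l : ℕ) (hl : l ≤ N), S.i0 ≤ l →
      ∀ (m m' b' : ℝ → ℝ) (f : ℝ → Fin l → G),
      HomeCut (S.F κ) S.e l hl η M δ m m' b' (S.tp k.1) (S.tp k.1 + Lc) →
      HomeCut (S.F κ) S.e l hl η M δ m m' b' (S.tm (k.1 + 1) - Lc) (S.tm (k.1 + 1)) →
      OpenCut (S.F κ) l η M δ m m' b' f (S.tp k.1 + Lc) (S.tm (k.1 + 1) - Lc) →
      ∀ x, PCone S.e l 1 ((S.F κ).U (S.tm (k.1 + 1)) x) →
      PCone S.e l C5 ((S.F κ).U (S.tp k.1 + Lc) x) := by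
    intro k κ l hl hi m m' b' f hc1 hc2 ho x hx
    have e1 := gateF k κ l hl hi m m' b' f hc2 ho x hx (S.tp k.1 + Lc) ⟨le_rfl, ho.le⟩
    exact h5 G (S.F κ) S.e l hl m m' b' _ _ (hc1.mono g5) (S.tp k.1 + Lc)
      ⟨by linarith, le_rfl⟩ _ e1
  have gateC : ∀ (k : Fin P) (κ : Cube P) (l : ℕ), S.i0 ≤ l → l ≤ N →
      (S.d k ≠ some l ∨ (κ k : ℝ) = 1 ∨ (κ k : ℝ) = -1) → ∀ x,
      PCone S.e l 1 ((S.F κ).U (S.tm (k.1 + 1)) x) → PCone S.e l 1 ((S.F κ).U (S.tp k.1) x) := by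
    intro k κ l hi hl hd x hx
    obtain ⟨m, m', b', f, O, hc1, hc2, ho, -, -, -⟩ := S.gate k κ l hl hi hd
    have e2 := gateP k κ l hl hi m m' b' f hc1 hc2 ho x hx
    exact (h6 G (S.F κ) S.e l hl m m' b' _ _ (hc1.mono g6) x e2).2 (by linarith)
  have hdN : ∀ k : Fin P, S.d k ≠ some N := fun k h => absurd (S.d_lt k N h) (lt_irrefl _)
  have coneN : ∀ q, q ≤ P → ∀ κ u, PCone S.e N 1 (S.J κ (S.tp q) u) :=
    fun q hq κ u => S.coneN hLpos hT3 (fun q hq κ x hx => homeC q hq κ N S.i0_le le_rfl x hx)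
      (fun k κ x hx => gateC k κ N S.i0_le le_rfl (Or.inl (hdN k)) x hx) q hq κ u
  have normG : ∀ (k : Fin P) (κ : Cube P) u, ‖S.J κ (S.tm (k.1 + 1)) u‖ ≤
      2 * (1 + C5) * Real.exp ((M + 2) * (S.tm (k.1 + 1) - S.tp k.1)) *
        ‖S.J κ (S.tp k.1) u‖ := by
    intro k κ u
    set x := S.ini κ u with hx
    have hk : k.1 < P := k.2
    have hN := coneN (k.1 + 1) (by omega) κ u
    rw [S.J_apply, ← hx] at hN
    have hNm : PCone S.e N 1 ((S.F κ).U (S.tm (k.1 + 1)) x) :=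
      (homeC (k.1 + 1) (by omega) κ N S.i0_le le_rfl x (hN.mono (by norm_num))).mono (by norm_num)
    obtain ⟨m, m', b', f, O, hc1, hc2, ho, -, -, -⟩ :=
      S.gate k κ N le_rfl S.i0_le (Or.inl (hdN k))
    have hslow : ∀ (α β : ℝ), HomeCut (S.F κ) S.e N le_rfl η M δ m m' b' α β →
        ∀ t ∈ Icc α β, ∀ x ∈ Submodule.span ℝ
          (range fun i : Fin N => S.e (Fin.castLE le_rfl i)),
        ⟪(S.F κ).K t x, x⟫_ℝ ≤ ((M + 1) ^ 2 + (S.F κ).b t * (M + 1)) * ‖x‖ ^ 2 := by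
      intro α β hc t ht y hy
      refine (hc.opn.low t ht y hy).trans (mul_le_mul_of_nonneg_right ?_ (by positivity))
      have b1 := hc.opn.m_le t ht
      have b2 := (S.F κ).b_ge t (lt_of_lt_of_le hc.opn.t1_lt ht.1)
      nlinarith
    -- outer collar
    have A1 := h8 G (S.F κ) S.e N le_rfl m m' b' _ _ (M + 1) ((hc2.monoM (by linarith)).mono g8)
      (by linarith) le_rfl (hslow _ _ hc2) x hNm
    -- the gate
    have A2 : ‖(S.F κ).U (S.tm (k.1 + 1) - Lc) x‖ ≤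
        Real.exp ((M + 1) * (S.tm (k.1 + 1) - Lc - (S.tp k.1 + Lc))) *
          ‖(S.F κ).U (S.tp k.1 + Lc) x‖ := by
      refine (S.F κ).growth ho.t1_lt ho.le x fun t ht => ?_
      have e1 := gateF k κ N le_rfl S.i0_le m m' b' f hc2 ho x hNm t ht
      unfold FCone at e1
      refine e1.trans (mul_le_mul_of_nonneg_right ?_ (by positivity))
      have b2 := (S.F κ).b_ge t (lt_of_lt_of_le ho.t1_lt ht.1)
      exact freq_le_add_one (by linarith) hM.le (by linarith [ho.m_le t ht])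
    -- inner collar
    have A3 := h9 G (S.F κ) S.e N le_rfl m m' b' _ _ (M + 1) ((hc1.monoM (by linarith)).mono g9)
      (by linarith) le_rfl (hslow _ _ hc1) x
      (gateP k κ N le_rfl S.i0_le m m' b' f hc1 hc2 ho x hNm)
    rw [S.J_apply, S.J_apply, ← hx]
    have E1 : (1 + 1 : ℝ) * Real.exp ((M + 1 + 1) * (S.tm (k.1 + 1) - (S.tm (k.1 + 1) - Lc))) *
        (Real.exp ((M + 1) * (S.tm (k.1 + 1) - Lc - (S.tp k.1 + Lc))) *
        ((1 + C5) * Real.exp ((M + 1 + 1) * (S.tp k.1 + Lc - S.tp k.1)) *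
          ‖(S.F κ).U (S.tp k.1) x‖)) ≤
        2 * (1 + C5) * Real.exp ((M + 2) * (S.tm (k.1 + 1) - S.tp k.1)) *
          ‖(S.F κ).U (S.tp k.1) x‖ := by
      have E2 : Real.exp ((M + 1 + 1) * (S.tm (k.1 + 1) - (S.tm (k.1 + 1) - Lc))) *
          Real.exp ((M + 1) * (S.tm (k.1 + 1) - Lc - (S.tp k.1 + Lc))) *
          Real.exp ((M + 1 + 1) * (S.tp k.1 + Lc - S.tp k.1)) ≤
          Real.exp ((M + 2) * (S.tm (k.1 + 1) - S.tp k.1)) := by
        rw [← Real.exp_add, ← Real.exp_add]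
        refine Real.exp_le_exp.2 ?_
        have := S.gate_len k.1 hk
        nlinarith
      have E3 : 0 ≤ 2 * (1 + C5) * ‖(S.F κ).U (S.tp k.1) x‖ := by positivity
      have E4 := mul_le_mul_of_nonneg_left E2 E3
      calc _ = 2 * (1 + C5) * ‖(S.F κ).U (S.tp k.1) x‖ *
          (Real.exp ((M + 1 + 1) * (S.tm (k.1 + 1) - (S.tm (k.1 + 1) - Lc))) *
          Real.exp ((M + 1) * (S.tm (k.1 + 1) - Lc - (S.tp k.1 + Lc))) *
          Real.exp ((M + 1 + 1) * (S.tp k.1 + Lc - S.tp k.1))) := by ring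
        _ ≤ _ := E4
        _ = _ := by ring
    refine A1.trans (le_trans ?_ E1)
    refine mul_le_mul_of_nonneg_left ?_ (by positivity)
    exact A2.trans (mul_le_mul_of_nonneg_left A3 (by positivity))
  -- orientation
  have signG : ∀ (k : Fin P) (l : ℕ), S.d k = some l →
      ∀ (κ : Cube P), ((κ k : ℝ) = 1 ∨ (κ k : ℝ) = -1) →
      ∀ v : Fin N → (Fin N → ℝ), LinearIndependent ℝ v →
      (∀ c : Fin N → ℝ, (∀ j : Fin N, l ≤ j.1 → c j = 0) →
        PCone S.e l 1 (S.J κ (S.tm (k.1 + 1)) (∑ j, c j • v j))) →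
      0 < S.σ k * (κ k : ℝ) * (blk l fun i j => ⟪S.e i, S.J κ (S.tp k.1) (v j)⟫_ℝ).det
        * (blk l fun i j => ⟪S.e i, S.J κ (S.tm (k.1 + 1)) (v j)⟫_ℝ).det := by
    intro k l hd κ hκ v hv hcone
    have hi := S.d_ge k l hd
    have hl : l ≤ N := (S.d_lt k l hd).le
    obtain ⟨m, m', b', f, O, hc1, hc2, ho, hf2, hf1, hO⟩ := S.gate k κ l hl hi (Or.inr hκ)
    set v' : Fin l → G := fun j => S.ini κ (v (Fin.castLE hl j)) with hv'
    have hv'li : LinearIndependent ℝ v' := by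
      have e1 : LinearIndependent ℝ fun j : Fin l => v (Fin.castLE hl j) :=
        hv.comp _ (Fin.castLE_injective hl)
      exact e1.map' (S.ini κ) (LinearMap.ker_eq_bot.2 (S.ini_injective hLpos hT3 κ))
    -- elements of the span
    have hspan : ∀ w ∈ Submodule.span ℝ (range v'),
        PCone S.e l 1 ((S.F κ).U (S.tm (k.1 + 1)) w) := by
      intro w hw
      obtain ⟨c, rfl⟩ := (Submodule.mem_span_range_iff_exists_fun ℝ).1 hw
      set c' : Fin N → ℝ := fun j => if h : j.1 < l then c ⟨j.1, h⟩ else 0 with hc'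
      have e1 := hcone c' fun j hj => by simp [hc', not_lt.2 hj]
      have e2 : ∑ j, c' j • v j = ∑ j : Fin l, c j • v (Fin.castLE hl j) := by
        have hN : l + (N - l) = N := by omega
        rw [← (finSumFinEquiv.trans (finCongr hN)).sum_comp, Fintype.sum_sum_type]
        have e3 : ∑ j : Fin (N - l), c' ((finSumFinEquiv.trans (finCongr hN)) (Sum.inr j)) •
            v ((finSumFinEquiv.trans (finCongr hN)) (Sum.inr j)) = 0 := by
          refine Finset.sum_eq_zero fun j _ => ?_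
          have : c' ((finSumFinEquiv.trans (finCongr hN)) (Sum.inr j)) = 0 := by
            simp [hc']
          rw [this, zero_smul]
        rw [e3, add_zero]
        refine Finset.sum_congr rfl fun j _ => ?_
        have e4 : (finSumFinEquiv.trans (finCongr hN)) (Sum.inl j) = Fin.castLE hl j := by
          ext; simp
        rw [e4]
        simp [hc']
      rw [e2] at e1
      rw [S.J_apply, map_sum] at e1
      simp only [map_smul] at e1
      exact e1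
    -- the cones at the other times
    have c2 : ∀ w ∈ Submodule.span ℝ (range v'), ∀ t ∈ Icc (S.tm (k.1 + 1) - Lc)
        (S.tm (k.1 + 1)), PCone S.e l 1 ((S.F κ).U t w) := fun w hw =>
      (h12 G (S.F κ) S.e l hl m m' b' _ _ (hc2.mono g12) w (hspan w hw)).1
    have c1 : ∀ w ∈ Submodule.span ℝ (range v'), PCone S.e l C5 ((S.F κ).U (S.tp k.1 + Lc) w) :=
      fun w hw => gateP k κ l hl hi m m' b' f hc1 hc2 ho w (hspan w hw)
    have c1' : ∀ w ∈ Submodule.span ℝ (range v'), ∀ t ∈ Icc (S.tp k.1) (S.tp k.1 + Lc),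
        PCone S.e l C5 ((S.F κ).U t w) := fun w hw =>
      (h6 G (S.F κ) S.e l hl m m' b' _ _ (hc1.mono g6) w (c1 w hw)).1
    have cF : ∀ w ∈ Submodule.span ℝ (range v'),
        FCone (S.F κ) m (S.tm (k.1 + 1) - Lc) ((S.F κ).U (S.tm (k.1 + 1) - Lc) w) := fun w hw =>
      gateF k κ l hl hi m m' b' f hc2 ho w (hspan w hw) _ ⟨ho.le, le_rfl⟩
    -- signs
    have s1 := coDet_sign (S.F κ) S.orth hl hv'li hc2.opn.t1_lt hc2.opn.le c2
    have s2 := h10 G (S.F κ) S.e l hl m m' b' _ _ (hc2.mono g10) (S.tm (k.1 + 1) - Lc)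
      ⟨le_rfl, hc2.opn.le⟩ v' hv'li fun w hw => c2 w hw _ ⟨le_rfl, hc2.opn.le⟩
    have s3 := h2 G (S.F κ) l m m' b' f _ _ (ho.mono g2) v' hv'li cF
    have s4 := h11 G (S.F κ) S.e l hl m m' b' _ _ (hc1.mono g11) (S.tp k.1 + Lc)
      ⟨hc1.opn.le, le_rfl⟩ v' hv'li c1
    have s5 := coDet_sign (S.F κ) S.orth hl hv'li hc1.opn.t1_lt hc1.opn.le c1'
    have o1 : orDet (S.F κ) m f v' (S.tm (k.1 + 1) - Lc) =
        orDet (S.F κ) m (fun _ i => S.e (Fin.castLE hl i)) v' (S.tm (k.1 + 1) - Lc) := by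
      have := orDet_change (S.F κ) m f (fun _ i => S.e (Fin.castLE hl i)) v'
        (S.tm (k.1 + 1) - Lc) 1 (fun i => by
          rw [hf2 i, Finset.sum_eq_single i]
          · simp
          · intro j _ hj; rw [Matrix.one_apply_ne (Ne.symm hj), zero_smul]
          · intro h; exact absurd (Finset.mem_univ i) h)
      rw [this, Matrix.det_one, one_mul]
    have o2 := orDet_change (S.F κ) m f (fun _ i => S.e (Fin.castLE hl i)) v'
        (S.tp k.1 + Lc) O hf1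
    rw [o1, o2] at s3
    have d1 : (blk l fun i j => ⟪S.e i, S.J κ (S.tp k.1) (v j)⟫_ℝ).det =
        coDet (S.F κ) S.e hl v' (S.tp k.1) := det_blk hl _
    have d2 : (blk l fun i j => ⟪S.e i, S.J κ (S.tm (k.1 + 1)) (v j)⟫_ℝ).det =
        coDet (S.F κ) S.e hl v' (S.tm (k.1 + 1)) := det_blk hl _
    rw [d1, d2]
    have s6 := hO hd
    change 0 < (-1) ^ l * _ * coDet (S.F κ) S.e hl v' (S.tm (k.1 + 1) - Lc) at s2
    change 0 < (-1) ^ l * _ * coDet (S.F κ) S.e hl v' (S.tp k.1 + Lc) at s4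
    generalize coDet (S.F κ) S.e hl v' (S.tp k.1) = x1 at *
    generalize coDet (S.F κ) S.e hl v' (S.tp k.1 + Lc) = x2 at *
    generalize coDet (S.F κ) S.e hl v' (S.tm (k.1 + 1) - Lc) = x3 at *
    generalize coDet (S.F κ) S.e hl v' (S.tm (k.1 + 1)) = x4 at *
    generalize orDet (S.F κ) m (fun _ i => S.e (Fin.castLE hl i)) v' (S.tp k.1 + Lc) = y2 at *
    generalize orDet (S.F κ) m (fun _ i => S.e (Fin.castLE hl i)) v' (S.tm (k.1 + 1) - Lc) = y3
      at *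
    generalize O.det = o at *
    generalize S.σ k * (κ k : ℝ) = s at *
    -- 0 < x3 * x4, 0 < ± y3 * x3, 0 < o * y2 * y3, 0 < ± y2 * x2, 0 < x1 * x2, 0 < s * o
    have hp : 0 < (s * o) * (x3 * x4) * (((-1) ^ l * y3 * x3) * ((-1) ^ l * y2 * x2)) *
        (o * y2 * y3) * (x1 * x2) := by positivity
    have hsq : ((-1 : ℝ) ^ l) ^ 2 = 1 := by
      rw [← pow_mul, mul_comm, pow_mul]; norm_num
    have he : (s * o) * (x3 * x4) * (((-1) ^ l * y3 * x3) * ((-1) ^ l * y2 * x2)) *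
        (o * y2 * y3) * (x1 * x2) = (s * x1 * x4) * (o * x3 * y3 * y2 * x2) ^ 2 * ((-1) ^ l) ^ 2 := by
      ring
    rw [he, hsq, mul_one] at hp
    by_contra hneg
    push Not at hneg
    have := mul_nonpos_of_nonpos_of_nonneg hneg (sq_nonneg (o * x3 * y3 * y2 * x2))
    linarith
  exact ⟨{
    e := S.e
    i0 := S.i0
    a := fun l => S.a l + ε
    T := fun q => S.tp q - S.tm q
    ε := fun _ => Real.log 4
    d := S.d
    σ := S.σ
    Γ := fun k => 2 * (1 + C5) * Real.exp ((M + 2) * (S.tm (k.1 + 1) - S.tp k.1))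
    Jm := fun q κ => S.J κ (S.tm q)
    Jp := fun q κ => S.J κ (S.tp q)
    orth := S.orth
    i0_pos := S.i0_pos
    i0_le := S.i0_le
    T_pos := fun q hq => by have := S.home_len q hq; linarith
    d_ge := S.d_ge
    d_lt := S.d_lt
    σ_sq := S.σ_sq
    cont_m := fun q hq u => (S.cont_tm q hq).clm_apply (S.continuous_ini hLpos hT3 u)
    cont_p := fun q hq u => (S.cont_tp q hq).clm_apply (S.continuous_ini hLpos hT3 u)
    home_cone := fun q hq κ l hi hl u hu => homeC q hq κ l hi hl (S.ini κ u) hu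
    home_growth := fun q hq κ l hi hl u hu => homeG q hq κ l hi hl (S.ini κ u) hu
    home_mono := fun q hq κ u => (S.F κ).norm_mono (S.t1_lt_tm hLpos hT3 κ hq)
      (by have := S.home_len q hq; linarith) (S.ini κ u)
    top := fun κ u => by
      rw [S.J_top hLpos hT3, sub_self, norm_zero]
      have : 0 ≤ ∑ j, u j ^ 2 := Finset.sum_nonneg fun j _ => sq_nonneg _
      simpa using this
    gate := fun k κ l hi hl hd u hu => by
      have h0 := gateC k κ l hi hl hd (S.ini κ u) (by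
        unfold PCone; rw [one_mul]; exact hu)
      unfold PCone at h0
      rw [one_mul] at h0
      exact h0
    sign := fun k l hd κ hκ v hv hcone => signG k l hd κ hκ v hv fun c hc => by
      unfold PCone; rw [one_mul]; exact hcone c hc
    norm_gate := fun k κ u => normG k κ u }, rfl, rfl, rfl, rfl, rfl, rfl, rfl, rfl,
    fun q κ u => rfl, fun q κ u => rfl⟩

theorem exists_mixData_of (hG1 : GateCone) (hG2 : GateSign) (hH1 : HomeNarrow)
    (hH2 : HomePtoF) (hH3 : HomeFtoP) (hH4 : HomeGrowth) (hH5 : HomeSign)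
    (N : ℕ) (η M ε : ℝ) (hη : 0 < η) (hM : 0 < M) (hε : 0 < ε) :
    ∃ δ > 0, ∃ Lc > 0, ∃ T0 > 0, ∃ CΓ > 0,
    ∀ (G : Type) [NormedAddCommGroup G] [InnerProductSpace ℝ G] [FiniteDimensional ℝ G] (P : ℕ)
      (S : SegData G N P η M δ Lc T0), ∃ D : MixData G N P,
      D.e = S.e ∧ D.i0 = S.i0 ∧ (D.a = fun l => S.a l + ε) ∧
      (D.T = fun q => S.tp q - S.tm q) ∧ (D.ε = fun _ => Real.log 4) ∧ D.d = S.d ∧
      D.σ = S.σ ∧
      (D.Γ = fun k => CΓ * Real.exp ((M + 2) * (S.tm (k.1 + 1) - S.tp k.1))) ∧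
      (∀ q κ u, D.Jm q κ u = S.J κ (S.tm q) u) ∧ (∀ q κ u, D.Jp q κ u = S.J κ (S.tp q) u) := by
  obtain ⟨δ, hδ, Lc, hLc, T0, hT0, CΓ, hCΓ, h⟩ :=
    exists_mixData_ofL hG1 hG2 hH1 hH2 hH3 hH4 hH5 N η M ε hη hM hε
  exact ⟨δ, hδ, Lc, hLc, T0, hT0, CΓ, hCΓ, h Lc le_rfl⟩

end Crest.Agent.R202.Seg
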