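/-
R202, final export of part B (helper846), step 1: finite-dimensional loop system + schedule +
radial flows ⇒ `SegData` ⇒ `MixData`.
-/
import Crest.Agent.R202.SegMix
import Crest.Agent.R202.SchScal

set_option autoImplicit false

open Set
open scoped InnerProductSpace

namespace Crest.Agent.R202.BFin

open Crest.Agent.R202.Mix (pr Cube MixData pr_apply inner_pr)
open Crest.Agent.R202.Seg
open Crest.Agent.R202.Sch (hs he Th Tg sf)

/-- Finite-dimensional loop system of one sector: `S j τ κ` = (scaled) compression of the form of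
loop `j` at `(τ, κ)`, `H` = the home operator, `e` = its lowest eigenvectors. -/
structure LoopSys (G : Type) [NormedAddCommGroup G] [InnerProductSpace ℝ G] (ι : Type)
    (N i0 : ℕ) (η Cμ Mμ : ℝ) (Λ : ℕ → ℝ) where
  S : ι → ℝ → ℝ → G →L[ℝ] G
  H : G →L[ℝ] G
  e : Fin N → G
  lam : Fin N → ℝ
  des : ι → Option ℕ
  sgn : ι → ℝ
  orth : Orthonormal ℝ e
  H_symm : ∀ x y, ⟪H x, y⟫_ℝ = ⟪x, H y⟫_ℝ
  H_e : ∀ i, H (e i) = lam i • e i
  S_nonneg : ∀ j τ, ∀ κ ∈ Icc (-1 : ℝ) 1, ∀ x, 0 ≤ ⟪S j τ κ x, x⟫_ℝ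
  H_nonneg : ∀ x, 0 ≤ ⟪H x, x⟫_ℝ
  S_left : ∀ j τ κ, τ ≤ 0 → S j τ κ = H
  S_right : ∀ j τ κ, 1 ≤ τ → S j τ κ = H
  slow : ∀ l (hl : l ≤ N), i0 ≤ l →
    ∀ x ∈ Submodule.span ℝ (range fun i : Fin l => e (Fin.castLE hl i)),
      ⟪H x, x⟫_ℝ ≤ Λ l * ‖x‖ ^ 2
  des_ge : ∀ j l, des j = some l → i0 ≤ l
  des_lt : ∀ j l, des j = some l → l < N
  sgn_sq : ∀ j, sgn j = 1 ∨ sgn j = -1
  home_gap : ∀ l (hl : l ≤ N), i0 ≤ l → ∃ μ : ℝ, μ + η ≤ Mμ ∧
    (∀ x ∈ Submodule.span ℝ (range fun i : Fin l => e (Fin.castLE hl i)),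
      ⟪H x, x⟫_ℝ ≤ (μ - η) * ‖x‖ ^ 2) ∧
    (∀ x, (∀ i : Fin l, ⟪e (Fin.castLE hl i), x⟫_ℝ = 0) → (μ + η) * ‖x‖ ^ 2 ≤ ⟪H x, x⟫_ℝ)
  opn : ∀ j, ∀ κ ∈ Icc (-1 : ℝ) 1, ∀ l (hl : l ≤ N), i0 ≤ l →
    (des j ≠ some l ∨ κ = 1 ∨ κ = -1) →
    ∃ (μ μ' : ℝ → ℝ) (f : ℝ → Fin l → G) (O : Matrix (Fin l) (Fin l) ℝ),
      (∀ τ, HasDerivAt μ (μ' τ) τ) ∧ (∀ τ, |μ' τ| ≤ Cμ) ∧ (∀ τ, μ τ + η ≤ Mμ) ∧
      Continuous f ∧ (∀ τ, LinearIndependent ℝ (f τ)) ∧
      (∀ τ, ∀ x ∈ Submodule.span ℝ (range (f τ)), ⟪S j τ κ x, x⟫_ℝ ≤ (μ τ - η) * ‖x‖ ^ 2) ∧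
      (∀ τ x, (∀ i, ⟪f τ i, x⟫_ℝ = 0) → (μ τ + η) * ‖x‖ ^ 2 ≤ ⟪S j τ κ x, x⟫_ℝ) ∧
      (∀ τ, 1 ≤ τ → ∀ i, f τ i = e (Fin.castLE hl i)) ∧
      (∀ τ, τ ≤ 0 → ∀ i, f τ i = ∑ k, O i k • e (Fin.castLE hl k)) ∧
      (des j = some l → 0 < sgn j * κ * O.det)

variable {G : Type} [NormedAddCommGroup G] [InnerProductSpace ℝ G] {ι : Type}
  {N i0 : ℕ} {η Cμ Mμ : ℝ} {Λ : ℕ → ℝ}

theorem LoopSys.H_pr (LS : LoopSys G ι N i0 η Cμ Mμ Λ) (l : ℕ) (x : G) :
    LS.H (pr LS.e l x) = pr LS.e l (LS.H x) := by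
  rw [pr_apply, pr_apply, map_sum]
  refine Finset.sum_congr rfl fun j _ => ?_
  split_ifs with h
  · rw [map_smul, LS.H_e, ← LS.H_symm, LS.H_e, real_inner_smul_left, smul_smul, mul_comm]
  · rw [map_zero]

theorem li_castLE {e : Fin N → G} (he : Orthonormal ℝ e) {l : ℕ} (hl : l ≤ N) :
    LinearIndependent ℝ fun i : Fin l => e (Fin.castLE hl i) :=
  he.linearIndependent.comp _ (Fin.castLE_injective hl)

/-- frames inside the span of `e` span the same space -/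
theorem span_eq_of_frame {e : Fin N → G} (he : Orthonormal ℝ e) {l : ℕ} (hl : l ≤ N)
    {f : Fin l → G} (hf : LinearIndependent ℝ f) {O : Matrix (Fin l) (Fin l) ℝ}
    (h : ∀ i, f i = ∑ k, O i k • e (Fin.castLE hl k)) :
    Submodule.span ℝ (range fun i : Fin l => e (Fin.castLE hl i)) =
      Submodule.span ℝ (range f) := by
  have h1 : Submodule.span ℝ (range f) ≤
      Submodule.span ℝ (range fun i : Fin l => e (Fin.castLE hl i)) := by
    rw [Submodule.span_le]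
    rintro _ ⟨i, rfl⟩
    rw [h i]
    exact Submodule.sum_mem _ fun k _ => Submodule.smul_mem _ _ (Submodule.subset_span ⟨k, rfl⟩)
  have h2 : Module.finrank ℝ (Submodule.span ℝ (range f)) = l := by
    rw [finrank_span_eq_card hf, Fintype.card_fin]
  have h3 : Module.finrank ℝ (Submodule.span ℝ (range fun i : Fin l => e (Fin.castLE hl i))) = l
      := by
    rw [finrank_span_eq_card (li_castLE he hl), Fintype.card_fin]
  have : FiniteDimensional ℝ (Submodule.span ℝ (range fun i : Fin l => e (Fin.castLE hl i))) :=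
    FiniteDimensional.span_of_finite ℝ (finite_range _)
  exact (Submodule.eq_of_le_of_finrank_eq h1 (by rw [h2, h3])).symm

/-- the radial flows of one sector over the cube of parameters -/
structure FlowFam (LS : LoopSys G ι N i0 η Cμ Mμ Λ) (mm : ℕ) (sI A δ : ℝ) (P : ℕ) (jq : ℕ → ι)
    where
  F : Cube P → Flow G
  K_gate : ∀ κ (k : Fin P) t, hs A k.1 ≤ t → t ≤ he A (k.1 + 1) →
    (F κ).K t = Real.exp (2 * sf sI t) • LS.S (jq k.1) ((t - he A k.1) / Tg A k.1) (κ k)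
  K_home : ∀ κ q, q ≤ P → ∀ t, hs A q ≤ t → t ≤ he A q →
    (F κ).K t = Real.exp (2 * sf sI t) • LS.H
  b_eq : ∀ κ t, (F κ).b t = (mm + 1 : ℝ) - (mm + 2) * deriv (sf sI) t
  t1_lt : ∀ κ, (F κ).t1 < hs A 0
  ρ_le : ∀ κ t, hs A 0 ≤ t → (F κ).ρ t ≤ δ
  cont : ∀ t, hs A 0 ≤ t → Continuous fun κ => (F κ).U t

/-- mid-level as a function of time -/
noncomputable def mfun (sI : ℝ) (μ : ℝ → ℝ) (c T t : ℝ) : ℝ :=
  Real.exp (2 * sf sI t) * μ ((t - c) / T)

/-- derivative of the mid-level -/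
noncomputable def mfun' (sI : ℝ) (μ μ' : ℝ → ℝ) (c T t : ℝ) : ℝ :=
  Real.exp (2 * sf sI t) * (2 * deriv (sf sI) t) * μ ((t - c) / T) +
    Real.exp (2 * sf sI t) * (μ' ((t - c) / T) * (1 / T))

theorem hasDerivAt_mfun {sI : ℝ} {μ μ' : ℝ → ℝ} (hμ : ∀ τ, HasDerivAt μ (μ' τ) τ) (c T t : ℝ) :
    HasDerivAt (mfun sI μ c T) (mfun' sI μ μ' c T t) t := by
  have h1 : HasDerivAt (fun r => 2 * sf sI r) (2 * deriv (sf sI) t) t := by
    have h0 : HasDerivAt (sf sI) (deriv (sf sI) t) t :=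
      ((Sch.sf_contDiff sI).differentiable (by simp) t).hasDerivAt
    exact h0.const_mul 2
  have h2 : HasDerivAt (fun r : ℝ => (r - c) / T) (1 / T) t :=
    ((hasDerivAt_id t).sub_const c).div_const T
  have h3 : HasDerivAt (fun r : ℝ => μ ((r - c) / T)) (μ' ((t - c) / T) * (1 / T)) t :=
    (hμ ((t - c) / T)).comp t h2
  exact h1.exp.mul h3

theorem exp_bounds {sI : ℝ} (hsI : 0 < sI) (t : ℝ) :
    1 ≤ Real.exp (2 * sf sI t) ∧ Real.exp (2 * sf sI t) ≤ Real.exp (2 * sI) := by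
  refine ⟨Real.one_le_exp (by linarith [Sch.sf_nonneg hsI t]), Real.exp_le_exp.2 ?_⟩
  linarith [Sch.sf_lt hsI t]

theorem mfun'_le {sI : ℝ} (hsI : 0 < sI) {μ μ' : ℝ → ℝ} {c T t c0 : ℝ} (hT : 0 < T)
    (hμ0 : 0 ≤ μ ((t - c) / T)) (hμM : μ ((t - c) / T) ≤ Mμ) (hC : |μ' ((t - c) / T)| ≤ Cμ)
    (hs0 : deriv (sf sI) t ≤ c0) :
    |mfun' sI μ μ' c T t| ≤ Real.exp (2 * sI) * (2 * c0 * Mμ + Cμ * (1 / T)) := by
  obtain ⟨e1, e2⟩ := exp_bounds hsI t
  have e0 : 0 < Real.exp (2 * sf sI t) := Real.exp_pos _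
  have hd := Sch.deriv_sf_nonneg hsI t
  have hT' : 0 < 1 / T := by positivity
  have h1 : |mfun' sI μ μ' c T t| ≤ Real.exp (2 * sf sI t) *
      (2 * c0 * Mμ + Cμ * (1 / T)) := by
    unfold mfun'
    have h2 : Real.exp (2 * sf sI t) * (2 * deriv (sf sI) t) * μ ((t - c) / T) +
        Real.exp (2 * sf sI t) * (μ' ((t - c) / T) * (1 / T)) = Real.exp (2 * sf sI t) *
        (2 * deriv (sf sI) t * μ ((t - c) / T) + μ' ((t - c) / T) * (1 / T)) := by ring
    rw [h2, abs_mul, abs_of_pos e0]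
    refine mul_le_mul_of_nonneg_left ?_ e0.le
    refine (abs_add_le _ _).trans (add_le_add ?_ ?_)
    · rw [abs_of_nonneg (by positivity)]
      refine mul_le_mul (by linarith) hμM hμ0 (by linarith)
    · rw [abs_mul, abs_of_pos hT']
      exact mul_le_mul_of_nonneg_right hC hT'.le
  refine h1.trans (mul_le_mul_of_nonneg_right e2 ?_)
  have hM : 0 ≤ Mμ := hμ0.trans hμM
  have hCn : 0 ≤ Cμ := (abs_nonneg _).trans hC
  have hc0 : 0 ≤ c0 := hd.trans hs0
  positivity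

/-- construction of an open cut from a loop -/
theorem openCut_of {sI : ℝ} (hsI : 0 < sI) (Fl : Flow G) {l : ℕ} (hl1 : 1 ≤ l) {M δ c0 A : ℝ}
    {mm : ℕ} (hη : 0 < η) {μ μ' : ℝ → ℝ} {f : ℝ → Fin l → G} {S : ℝ → G →L[ℝ] G} {c T α β : ℝ}
    (hT : 0 < T) (hTA : 1 / T ≤ 1 / A)
    (ht1 : Fl.t1 < α) (hαβ : α ≤ β)
    (hK : ∀ t ∈ Icc α β, Fl.K t = Real.exp (2 * sf sI t) • S ((t - c) / T))
    (hb : ∀ t, Fl.b t = (mm + 1 : ℝ) - (mm + 2) * deriv (sf sI) t)
    (hρ : ∀ t ∈ Icc α β, Fl.ρ t ≤ δ)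
    (hs0 : ∀ t ∈ Icc α β, deriv (sf sI) t ≤ c0)
    (hs1 : ∀ t ∈ Icc α β, |deriv (deriv (sf sI)) t| ≤ c0)
    (hδ1 : Real.exp (2 * sI) * (2 * c0 * Mμ + Cμ * (1 / A)) ≤ δ) (hδ2 : (mm + 2) * c0 ≤ δ)
    (hM1 : (mm + 1 : ℝ) ≤ M) (hM2 : Real.exp (2 * sI) * Mμ ≤ M) (hCμ : 0 ≤ Cμ)
    (hμd : ∀ τ, HasDerivAt μ (μ' τ) τ) (hμC : ∀ τ, |μ' τ| ≤ Cμ) (hμM : ∀ τ, μ τ + η ≤ Mμ)
    (hf : Continuous f) (hli : ∀ τ, LinearIndependent ℝ (f τ))
    (hS0 : ∀ τ x, 0 ≤ ⟪S τ x, x⟫_ℝ)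
    (hlow : ∀ τ, ∀ x ∈ Submodule.span ℝ (range (f τ)), ⟪S τ x, x⟫_ℝ ≤ (μ τ - η) * ‖x‖ ^ 2)
    (hhigh : ∀ τ x, (∀ i, ⟪f τ i, x⟫_ℝ = 0) → (μ τ + η) * ‖x‖ ^ 2 ≤ ⟪S τ x, x⟫_ℝ) :
    OpenCut Fl l η M δ (mfun sI μ c T) (mfun' sI μ μ' c T)
      (fun t => -((mm + 2) * deriv (deriv (sf sI)) t)) (fun t => f ((t - c) / T)) α β := by
  have hμη : ∀ τ, η ≤ μ τ := by
    intro τ
    have h0 := hli τ
    have h1 : f τ ⟨0, hl1⟩ ≠ 0 := h0.ne_zero _
    have h2 := hlow τ (f τ ⟨0, hl1⟩) (Submodule.subset_span ⟨_, rfl⟩)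
    have h3 := (hS0 τ (f τ ⟨0, hl1⟩)).trans h2
    have h4 : 0 < ‖f τ ⟨0, hl1⟩‖ ^ 2 := by positivity
    by_contra hneg
    push Not at hneg
    have := mul_neg_of_neg_of_pos (show μ τ - η < 0 by linarith) h4
    linarith
  exact
  { t1_lt := ht1
    le := hαβ
    li := fun t _ => hli _
    cont := (hf.comp (by fun_prop : Continuous fun t : ℝ => (t - c) / T)).continuousOn
    low := by
      intro t ht x hx
      obtain ⟨e1, e2⟩ := exp_bounds hsI t
      have h1 := hlow _ x hx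
      rw [hK t ht, smul_apply, real_inner_smul_left]
      have h2 := mul_le_mul_of_nonneg_left h1 (Real.exp_pos (2 * sf sI t)).le
      refine h2.trans ?_
      rw [← mul_assoc]
      refine mul_le_mul_of_nonneg_right ?_ (by positivity)
      unfold mfun
      nlinarith
    high := by
      intro t ht x hx
      obtain ⟨e1, e2⟩ := exp_bounds hsI t
      have h1 := hhigh _ x hx
      rw [hK t ht, smul_apply, real_inner_smul_left]
      have h2 := mul_le_mul_of_nonneg_left h1 (Real.exp_pos (2 * sf sI t)).le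
      refine le_trans ?_ h2
      rw [← mul_assoc]
      refine mul_le_mul_of_nonneg_right ?_ (by positivity)
      unfold mfun
      nlinarith
    m_deriv := fun t _ => hasDerivAt_mfun hμd c T t
    m'_le := by
      intro t ht
      have h1 := hμη ((t - c) / T)
      have h2 := hμM ((t - c) / T)
      refine (mfun'_le (Cμ := Cμ) (Mμ := Mμ) hsI hT (by linarith) (by linarith) (hμC _)
        (hs0 t ht)).trans (le_trans ?_ hδ1)
      refine mul_le_mul_of_nonneg_left ?_ (Real.exp_pos _).le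
      have := mul_le_mul_of_nonneg_left hTA hCμ
      linarith
    b_deriv := by
      intro t _
      have h0 : HasDerivAt (deriv (sf sI)) (deriv (deriv (sf sI)) t) t := by
        have h1 : ContDiff ℝ 1 (deriv (sf sI)) := by
          have h2 : ContDiff ℝ (1 + 1) (sf sI) := by
            rw [one_add_one_eq_two]
            exact contDiff_infty.1 (Sch.sf_contDiff sI) 2
          exact (contDiff_succ_iff_deriv.1 h2).2.2
        exact (h1.differentiable one_ne_zero t).hasDerivAt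
      have h3 : Fl.b = fun t => (mm + 1 : ℝ) - (mm + 2) * deriv (sf sI) t := funext hb
      rw [h3]
      have h4 := (h0.const_mul ((mm : ℝ) + 2)).const_sub (mm + 1 : ℝ)
      exact h4
    b'_le := by
      intro t ht
      rw [abs_neg, abs_mul, abs_of_nonneg (by positivity : (0 : ℝ) ≤ (mm : ℝ) + 2)]
      exact (mul_le_mul_of_nonneg_left (hs1 t ht) (by positivity)).trans hδ2
    b_le := by
      intro t _
      rw [hb]
      have := Sch.deriv_sf_nonneg hsI t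
      have h2 : 0 ≤ ((mm : ℝ) + 2) * deriv (sf sI) t := by positivity
      linarith
    m_ge := by
      intro t _
      obtain ⟨e1, e2⟩ := exp_bounds hsI t
      have h1 := hμη ((t - c) / T)
      unfold mfun
      nlinarith
    m_le := by
      intro t _
      obtain ⟨e1, e2⟩ := exp_bounds hsI t
      have h1 := hμη ((t - c) / T)
      have h2 := hμM ((t - c) / T)
      unfold mfun
      have h3 : Real.exp (2 * sf sI t) * μ ((t - c) / T) + η ≤
          Real.exp (2 * sf sI t) * (μ ((t - c) / T) + η) := by nlinarith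
      have h4 : Real.exp (2 * sf sI t) * (μ ((t - c) / T) + η) ≤ Real.exp (2 * sI) * Mμ :=
        mul_le_mul e2 h2 (by linarith) (Real.exp_pos _).le
      linarith
    ρ_le := hρ }

/-- open cut with the frame `e` on an interval on which the loop is at home -/
theorem homeCut_of {sI : ℝ} (hsI : 0 < sI) (LS : LoopSys G ι N i0 η Cμ Mμ Λ) (Fl : Flow G)
    {l : ℕ} (hl1 : 1 ≤ l) (hl : l ≤ N) {M δ c0 A : ℝ}
    {mm : ℕ} (hη : 0 < η) {μ μ' : ℝ → ℝ} {c T α β : ℝ}
    (hT : 0 < T) (hTA : 1 / T ≤ 1 / A)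
    (ht1 : Fl.t1 < α) (hαβ : α ≤ β)
    (hK : ∀ t ∈ Icc α β, Fl.K t = Real.exp (2 * sf sI t) • LS.H)
    (hb : ∀ t, Fl.b t = (mm + 1 : ℝ) - (mm + 2) * deriv (sf sI) t)
    (hρ : ∀ t ∈ Icc α β, Fl.ρ t ≤ δ)
    (hs0 : ∀ t ∈ Icc α β, deriv (sf sI) t ≤ c0)
    (hs1 : ∀ t ∈ Icc α β, |deriv (deriv (sf sI)) t| ≤ c0)
    (hδ1 : Real.exp (2 * sI) * (2 * c0 * Mμ + Cμ * (1 / A)) ≤ δ) (hδ2 : (mm + 2) * c0 ≤ δ)
    (hM1 : (mm + 1 : ℝ) ≤ M) (hM2 : Real.exp (2 * sI) * Mμ ≤ M) (hCμ : 0 ≤ Cμ)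
    (hμd : ∀ τ, HasDerivAt μ (μ' τ) τ) (hμC : ∀ τ, |μ' τ| ≤ Cμ) (hμM : ∀ τ, μ τ + η ≤ Mμ)
    (hlow : ∀ t ∈ Icc α β, ∀ x ∈ Submodule.span ℝ (range fun i : Fin l =>
      LS.e (Fin.castLE hl i)), ⟪LS.H x, x⟫_ℝ ≤ (μ ((t - c) / T) - η) * ‖x‖ ^ 2)
    (hhigh : ∀ t ∈ Icc α β, ∀ x, (∀ i : Fin l, ⟪LS.e (Fin.castLE hl i), x⟫_ℝ = 0) →
      (μ ((t - c) / T) + η) * ‖x‖ ^ 2 ≤ ⟪LS.H x, x⟫_ℝ) :
    HomeCut Fl LS.e l hl η M δ (mfun sI μ c T) (mfun' sI μ μ' c T)
      (fun t => -((mm + 2) * deriv (deriv (sf sI)) t)) α β := by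
  have hμη : ∀ t ∈ Icc α β, η ≤ μ ((t - c) / T) := by
    intro t ht
    have h1 : LS.e (Fin.castLE hl ⟨0, hl1⟩) ≠ 0 := LS.orth.ne_zero _
    have h2 := hlow t ht (LS.e (Fin.castLE hl ⟨0, hl1⟩)) (Submodule.subset_span ⟨_, rfl⟩)
    have h3 := (LS.H_nonneg (LS.e (Fin.castLE hl ⟨0, hl1⟩))).trans h2
    have h4 : 0 < ‖LS.e (Fin.castLE hl ⟨0, hl1⟩)‖ ^ 2 := by positivity
    by_contra hneg
    push Not at hneg
    have := mul_neg_of_neg_of_pos (show μ ((t - c) / T) - η < 0 by linarith) h4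
    linarith
  refine
  { orth := LS.orth
    opn :=
    { t1_lt := ht1
      le := hαβ
      li := fun t _ => li_castLE LS.orth hl
      cont := continuousOn_const
      low := by
        intro t ht x hx
        obtain ⟨e1, e2⟩ := exp_bounds hsI t
        have h1 := hlow t ht x hx
        rw [hK t ht, smul_apply, real_inner_smul_left]
        have h2 := mul_le_mul_of_nonneg_left h1 (Real.exp_pos (2 * sf sI t)).le
        refine h2.trans ?_
        rw [← mul_assoc]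
        refine mul_le_mul_of_nonneg_right ?_ (by positivity)
        unfold mfun
        nlinarith
      high := by
        intro t ht x hx
        obtain ⟨e1, e2⟩ := exp_bounds hsI t
        have h1 := hhigh t ht x hx
        rw [hK t ht, smul_apply, real_inner_smul_left]
        have h2 := mul_le_mul_of_nonneg_left h1 (Real.exp_pos (2 * sf sI t)).le
        refine le_trans ?_ h2
        rw [← mul_assoc]
        refine mul_le_mul_of_nonneg_right ?_ (by positivity)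
        unfold mfun
        nlinarith
      m_deriv := fun t _ => hasDerivAt_mfun hμd c T t
      m'_le := by
        intro t ht
        have h1 := hμη t ht
        have h2 := hμM ((t - c) / T)
        refine (mfun'_le (Cμ := Cμ) (Mμ := Mμ) hsI hT (by linarith) (by linarith) (hμC _)
          (hs0 t ht)).trans (le_trans ?_ hδ1)
        refine mul_le_mul_of_nonneg_left ?_ (Real.exp_pos _).le
        have := mul_le_mul_of_nonneg_left hTA hCμ
        linarith
      b_deriv := by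
        intro t _
        have h0 : HasDerivAt (deriv (sf sI)) (deriv (deriv (sf sI)) t) t := by
          have h1 : ContDiff ℝ 1 (deriv (sf sI)) := by
            have h2 : ContDiff ℝ (1 + 1) (sf sI) := by
              rw [one_add_one_eq_two]
              exact contDiff_infty.1 (Sch.sf_contDiff sI) 2
            exact (contDiff_succ_iff_deriv.1 h2).2.2
          exact (h1.differentiable one_ne_zero t).hasDerivAt
        have h3 : Fl.b = fun t => (mm + 1 : ℝ) - (mm + 2) * deriv (sf sI) t := funext hb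
        rw [h3]
        have h4 := (h0.const_mul ((mm : ℝ) + 2)).const_sub (mm + 1 : ℝ)
        exact h4
      b'_le := by
        intro t ht
        rw [abs_neg, abs_mul, abs_of_nonneg (by positivity : (0 : ℝ) ≤ (mm : ℝ) + 2)]
        exact (mul_le_mul_of_nonneg_left (hs1 t ht) (by positivity)).trans hδ2
      b_le := by
        intro t _
        rw [hb]
        have := Sch.deriv_sf_nonneg hsI t
        have h2 : 0 ≤ ((mm : ℝ) + 2) * deriv (sf sI) t := by positivity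
        linarith
      m_ge := by
        intro t ht
        obtain ⟨e1, e2⟩ := exp_bounds hsI t
        have h1 := hμη t ht
        unfold mfun
        nlinarith
      m_le := by
        intro t ht
        obtain ⟨e1, e2⟩ := exp_bounds hsI t
        have h1 := hμη t ht
        have h2 := hμM ((t - c) / T)
        unfold mfun
        have h3 : Real.exp (2 * sf sI t) * μ ((t - c) / T) + η ≤
            Real.exp (2 * sf sI t) * (μ ((t - c) / T) + η) := by nlinarith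
        have h4 : Real.exp (2 * sf sI t) * (μ ((t - c) / T) + η) ≤ Real.exp (2 * sI) * Mμ :=
          mul_le_mul e2 h2 (by linarith) (Real.exp_pos _).le
        linarith
      ρ_le := hρ }
    comm := by
      intro t ht x
      rw [hK t ht, smul_apply, smul_apply, LS.H_pr, map_smul] }

/-- the segment data of one sector -/
noncomputable def segData {sI : ℝ} (hsI : 0 < sI) (mm : ℕ) (LS : LoopSys G ι N i0 η Cμ Mμ Λ)
    {A δ M ε c0 Lc T0 : ℝ} {P : ℕ} {jq : ℕ → ι} (FF : FlowFam LS mm sI A δ P jq)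
    (a : ℕ → ℝ) (hi0 : 1 ≤ i0) (hiN : i0 ≤ N) (hη : 0 < η) (hCμ : 0 ≤ Cμ) (hA : 0 < A)
    (hLc : 0 < Lc) (hT0 : 0 < T0) (hLA : 2 * Lc + T0 ≤ A)
    (ha : ∀ l, i0 ≤ l → l ≤ N → 0 ≤ a l ∧ a l + ε ≤ M ∧
      Real.exp (2 * sI) * Λ l ≤ a l ^ 2 + (mm + 1) * a l)
    (hε : 0 < ε) (hc0 : 0 ≤ c0)
    (hs0 : ∀ t, A ≤ t → deriv (sf sI) t ≤ c0)
    (hs1 : ∀ t, A ≤ t → |deriv (deriv (sf sI)) t| ≤ c0)
    (hδ1 : Real.exp (2 * sI) * (2 * c0 * Mμ + Cμ * (1 / A)) ≤ δ) (hδ2 : (mm + 2) * c0 ≤ δ)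
    (hM1 : (mm + 1 : ℝ) ≤ M) (hM2 : Real.exp (2 * sI) * Mμ ≤ M)
    (hc1 : (mm + 2) * c0 * (2 * M + 1) ≤ ε / 2) : SegData G N P η M δ Lc T0 := by
  have h2A : ∀ q, 2 * A ≤ hs A q := Sch.two_mul_le_hs hA
  have hTh : ∀ q, A ≤ Th A q := by
    intro q
    unfold Th
    have : (1 : ℝ) ≤ ((q : ℝ) + 1) ^ 4 := one_le_pow₀ (by linarith [Nat.cast_nonneg (α := ℝ) q])
    nlinarith
  have hTg : ∀ q, A ≤ Tg A q := by
    intro q
    unfold Tg
    have : (1 : ℝ) ≤ ((q : ℝ) + 1) ^ 3 := one_le_pow₀ (by linarith [Nat.cast_nonneg (α := ℝ) q])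
    nlinarith
  have hTgi : ∀ q, 1 / Tg A q ≤ 1 / A := fun q => one_div_le_one_div_of_le hA (hTg q)
  have hhe : ∀ q, he A q = hs A q + Th A q := fun q => rfl
  have hhs : ∀ q, hs A (q + 1) = he A q + Tg A q := fun q => rfl
  have ht1 : ∀ κ t, hs A 0 ≤ t → (FF.F κ).t1 < t := fun κ t ht => lt_of_lt_of_le (FF.t1_lt κ) ht
  have hmono : ∀ q, hs A 0 ≤ hs A q := fun q => (Sch.hs_strictMono hA).monotone (Nat.zero_le q)
  exact
  { F := FF.F
    e := LS.e
    i0 := i0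
    a := fun l => a l + ε
    tm := fun q => hs A q + Lc
    tp := fun q => he A q - Lc
    d := fun k => LS.des (jq k.1)
    σ := fun k => LS.sgn (jq k.1)
    orth := LS.orth
    i0_pos := hi0
    i0_le := hiN
    d_ge := fun k l h => LS.des_ge _ l h
    d_lt := fun k l h => LS.des_lt _ l h
    σ_sq := fun k => LS.sgn_sq _
    cont_tm := fun q _ => FF.cont _ (by linarith [hmono q])
    cont_tp := fun q _ => FF.cont _ (by
      have := hTh q
      have := hhe q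
      linarith [hmono q])
    t1_lt := fun κ => ht1 κ _ (by linarith)
    a_nonneg := fun l h1 h2 => ⟨by linarith [(ha l h1 h2).1], (ha l h1 h2).2.1⟩
    home_len := fun q _ => by
      have := hTh q
      have := hhe q
      linarith
    gate_len := fun q _ => by
      have := hTg q
      have := hhs q
      linarith
    home := by
      intro q hq κ l hl hi
      obtain ⟨μ, hμM, hlow, hhigh⟩ := LS.home_gap l hl hi
      refine ⟨_, _, _, homeCut_of (c0 := c0) (A := A) (μ := fun _ => μ) (μ' := fun _ => 0)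
        (c := 0) (T := A) hsI LS (FF.F κ) (by omega) hl hη hA le_rfl (ht1 κ _ (by linarith [hmono q])) ?_ ?_
        (FF.b_eq κ) ?_ ?_ ?_ hδ1 hδ2 hM1 hM2 hCμ (fun τ => hasDerivAt_const τ μ) ?_
        (fun _ => hμM) ?_ ?_⟩
      · have := hTh q
        have := hhe q
        linarith
      · intro t ht
        exact FF.K_home κ q hq t (by linarith [ht.1]) (by linarith [ht.2])
      · intro t ht
        exact FF.ρ_le κ t (by linarith [ht.1, hmono q])
      · intro t ht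
        exact hs0 t (by linarith [ht.1, h2A q])
      · intro t ht
        exact hs1 t (by linarith [ht.1, h2A q])
      · intro τ; simpa using hCμ
      · intro t _ x hx
        exact hlow x hx
      · intro t _ x hx
        exact hhigh x hx
    slow := by
      intro q hq κ l hl hi t ht x hx
      obtain ⟨ha0, haM, haΛ⟩ := ha l hi hl
      have hK := FF.K_home κ q hq t (by linarith [ht.1]) (by linarith [ht.2])
      have hH := LS.slow l hl hi x hx
      obtain ⟨e1, e2⟩ := exp_bounds hsI t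
      have hd0 := Sch.deriv_sf_nonneg hsI t
      have hd1 := hs0 t (by linarith [ht.1, h2A q])
      rw [hK, smul_apply, real_inner_smul_left, FF.b_eq]
      rcases eq_or_lt_of_le (sq_nonneg ‖x‖) with hx0 | hx0
      · rw [← hx0, mul_zero]
        have hx1 : x = 0 := by
          have : ‖x‖ = 0 := by
            have := hx0.symm
            exact pow_eq_zero_iff (two_ne_zero) |>.1 this
          exact norm_eq_zero.1 this
        rw [hx1]; simp
      · have hΛ : 0 ≤ Λ l := by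
          have h0 := (LS.H_nonneg x).trans hH
          by_contra hneg
          push Not at hneg
          have := mul_neg_of_neg_of_pos hneg hx0
          linarith
        have h1 : Real.exp (2 * sf sI t) * ⟪LS.H x, x⟫_ℝ ≤
            Real.exp (2 * sI) * Λ l * ‖x‖ ^ 2 := by
          calc Real.exp (2 * sf sI t) * ⟪LS.H x, x⟫_ℝ ≤
              Real.exp (2 * sf sI t) * (Λ l * ‖x‖ ^ 2) :=
                mul_le_mul_of_nonneg_left hH (Real.exp_pos _).le
            _ ≤ Real.exp (2 * sI) * (Λ l * ‖x‖ ^ 2) :=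
                mul_le_mul_of_nonneg_right e2 (by positivity)
            _ = _ := by ring
        refine h1.trans (mul_le_mul_of_nonneg_right (haΛ.trans ?_) hx0.le)
        -- a² + (mm+1) a ≤ (a+ε)² + ((mm+1) - (mm+2) s') (a+ε)
        have h2 : ((mm : ℝ) + 2) * deriv (sf sI) t * (a l + ε) ≤ ε / 2 := by
          have h3 : ((mm : ℝ) + 2) * deriv (sf sI) t ≤ (mm + 2) * c0 :=
            mul_le_mul_of_nonneg_left hd1 (by positivity)
          have h4 : ((mm : ℝ) + 2) * deriv (sf sI) t * (a l + ε) ≤ (mm + 2) * c0 * (2 * M + 1) :=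
            mul_le_mul h3 (by linarith) (by linarith) (by positivity)
          linarith
        have h5 : (0 : ℝ) ≤ mm := Nat.cast_nonneg mm
        nlinarith
    gate := by
      intro k κ l hl hi hd
      have hl1 : 1 ≤ l := by omega
      have hkP : k.1 < P := k.2
      have hTgp : 0 < Tg A k.1 := Sch.Tg_pos hA k.1
      obtain ⟨μ, μ', f, O, hμd, hμC, hμM, hf, hli, hlow, hhigh, hf1, hf0, hO⟩ :=
        LS.opn (jq k.1) (κ k) (κ k).2 l hl hi hd
      have hle1 := hTh k.1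
      have hle2 := hTh (k.1 + 1)
      have hle3 := hhe k.1
      have hle4 := hhs k.1
      have hle5 := hhe (k.1 + 1)
      have hle6 := hTg k.1
      have hle7 := hmono k.1
      have hle8 := h2A k.1
      -- the spans
      have hspan0 : ∀ τ, τ ≤ 0 → Submodule.span ℝ (range fun i : Fin l =>
          LS.e (Fin.castLE hl i)) = Submodule.span ℝ (range (f τ)) := fun τ hτ =>
        span_eq_of_frame LS.orth hl (hli τ) (hf0 τ hτ)
      have hspan1 : ∀ τ, 1 ≤ τ → Submodule.span ℝ (range fun i : Fin l =>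
          LS.e (Fin.castLE hl i)) = Submodule.span ℝ (range (f τ)) := fun τ hτ => by
        have : (fun i : Fin l => LS.e (Fin.castLE hl i)) = f τ := funext fun i => (hf1 τ hτ i).symm
        rw [this]
      refine ⟨mfun sI μ (he A k.1) (Tg A k.1), mfun' sI μ μ' (he A k.1) (Tg A k.1), _,
        fun t => f ((t - he A k.1) / Tg A k.1), O,
        homeCut_of (c0 := c0) (A := A) hsI LS (FF.F κ) hl1 hl hη hTgp (hTgi k.1)
          (ht1 κ _ (by linarith)) (by linarith) ?_ (FF.b_eq κ) ?_ ?_ ?_ hδ1 hδ2 hM1 hM2 hCμ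
          hμd hμC hμM ?_ ?_,
        homeCut_of (c0 := c0) (A := A) hsI LS (FF.F κ) hl1 hl hη hTgp (hTgi k.1)
          (ht1 κ _ (by linarith)) (by linarith) ?_ (FF.b_eq κ) ?_ ?_ ?_ hδ1 hδ2 hM1 hM2 hCμ
          hμd hμC hμM ?_ ?_,
        openCut_of (S := fun τ => LS.S (jq k.1) τ (κ k)) (c0 := c0) (A := A) hsI (FF.F κ) hl1 hη
          hTgp (hTgi k.1) (ht1 κ _ (by linarith)) (by linarith) ?_ (FF.b_eq κ) ?_ ?_ ?_ hδ1 hδ2
          hM1 hM2 hCμ hμd hμC hμM hf hli (fun τ x => LS.S_nonneg _ τ _ (κ k).2 x) hlow hhigh,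
        ?_, ?_, ?_⟩
      · intro t ht
        exact FF.K_home κ k.1 (by omega) t (by linarith [ht.1]) (by linarith [ht.2])
      · intro t ht
        exact FF.ρ_le κ t (by linarith [ht.1])
      · intro t ht
        exact hs0 t (by linarith [ht.1])
      · intro t ht
        exact hs1 t (by linarith [ht.1])
      · intro t ht x hx
        have hτ : (t - he A k.1) / Tg A k.1 ≤ 0 :=
          div_nonpos_of_nonpos_of_nonneg (by linarith [ht.2]) hTgp.le
        rw [hspan0 _ hτ] at hx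
        have := hlow _ x hx
        rw [LS.S_left _ _ _ hτ] at this
        exact this
      · intro t ht x hx
        have hτ : (t - he A k.1) / Tg A k.1 ≤ 0 :=
          div_nonpos_of_nonpos_of_nonneg (by linarith [ht.2]) hTgp.le
        have := hhigh ((t - he A k.1) / Tg A k.1) x fun i => by
          rw [hf0 _ hτ i, sum_inner]
          refine Finset.sum_eq_zero fun j _ => ?_
          rw [real_inner_smul_left, hx j, mul_zero]
        rw [LS.S_left _ _ _ hτ] at this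
        exact this
      · intro t ht
        exact FF.K_home κ (k.1 + 1) (by omega) t (by linarith [ht.1]) (by linarith [ht.2])
      · intro t ht
        exact FF.ρ_le κ t (by linarith [ht.1])
      · intro t ht
        exact hs0 t (by linarith [ht.1])
      · intro t ht
        exact hs1 t (by linarith [ht.1])
      · intro t ht x hx
        have hτ : 1 ≤ (t - he A k.1) / Tg A k.1 := by
          rw [one_le_div hTgp]; linarith [ht.1]
        rw [hspan1 _ hτ] at hx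
        have := hlow _ x hx
        rw [LS.S_right _ _ _ hτ] at this
        exact this
      · intro t ht x hx
        have hτ : 1 ≤ (t - he A k.1) / Tg A k.1 := by
          rw [one_le_div hTgp]; linarith [ht.1]
        have := hhigh ((t - he A k.1) / Tg A k.1) x fun i => by
          rw [hf1 _ hτ i]; exact hx i
        rw [LS.S_right _ _ _ hτ] at this
        exact this
      · intro t ht
        exact FF.K_gate κ k t (by linarith [ht.1]) (by linarith [ht.2])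
      · intro t ht
        exact FF.ρ_le κ t (by linarith [ht.1])
      · intro t ht
        exact hs0 t (by linarith [ht.1])
      · intro t ht
        exact hs1 t (by linarith [ht.1])
      · intro i
        refine hf1 _ ?_ i
        rw [one_le_div hTgp]; linarith
      · intro i
        refine hf0 _ ?_ i
        exact div_nonpos_of_nonpos_of_nonneg (by linarith) hTgp.le
      · exact hO }

/-- FINITE-DIMENSIONAL EXPORT: loop system + schedule + radial flows ⇒ mixing data.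
All constants are independent of `G`, `P`, the loop system and the flows. -/
theorem exists_mixData_of_loopsL (hG1 : GateCone) (hG2 : GateSign) (hH1 : HomeNarrow)
    (hH2 : HomePtoF) (hH3 : HomeFtoP) (hH4 : HomeGrowth) (hH5 : HomeSign)
    (mm : ℕ) {sI : ℝ} (hsI : 0 < sI) {N i0 : ℕ} (hi0 : 1 ≤ i0) (hiN : i0 ≤ N)
    {η Cμ Mμ ε : ℝ} {Λ a : ℕ → ℝ} (hη : 0 < η) (hCμ : 0 ≤ Cμ) (hε : 0 < ε)
    (ha : ∀ l, i0 ≤ l → l ≤ N → 0 ≤ a l ∧ Real.exp (2 * sI) * Λ l ≤ a l ^ 2 + (mm + 1) * a l) :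
    ∃ δ > 0, ∃ Lc0 > 0, ∃ CΓ > 0, ∃ M > 0, ∀ Lc : ℝ, Lc0 ≤ Lc →
      ∃ A0 : ℝ, 1 ≤ A0 ∧ ∀ A : ℝ, A0 ≤ A →
      2 * Lc + 1 ≤ A ∧
      ∀ (G : Type) [NormedAddCommGroup G] [InnerProductSpace ℝ G] [FiniteDimensional ℝ G]
        (ι : Type) (LS : LoopSys G ι N i0 η Cμ Mμ Λ) (P : ℕ) (jq : ℕ → ι)
        (FF : FlowFam LS mm sI A δ P jq), ∃ D : MixData G N P,
        D.e = LS.e ∧ D.i0 = i0 ∧ (D.a = fun l => a l + ε) ∧
        (D.T = fun q => Th A q - 2 * Lc) ∧ (D.ε = fun _ => Real.log 4) ∧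
        (D.d = fun k => LS.des (jq k.1)) ∧
        (D.Γ = fun k => CΓ * Real.exp (M * (Tg A k.1 + 2 * Lc))) ∧
        (∀ q κ u, D.Jm q κ u = (FF.F κ).U (hs A q + Lc)
          (Ring.inverse ((FF.F κ).U (he A P - Lc)) (∑ j, u j • LS.e j))) ∧
        (∀ q κ u, D.Jp q κ u = (FF.F κ).U (he A q - Lc)
          (Ring.inverse ((FF.F κ).U (he A P - Lc)) (∑ j, u j • LS.e j))) := by
  -- the size bound
  obtain ⟨Ma, hMa⟩ : ∃ Ma : ℝ, ∀ l, i0 ≤ l → l ≤ N → a l ≤ Ma := by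
    refine ⟨∑ l ∈ Finset.range (N + 1), |a l|, fun l _ hl => ?_⟩
    exact (le_abs_self _).trans (Finset.single_le_sum (f := fun l => |a l|)
      (fun i _ => abs_nonneg _) (Finset.mem_range.2 (by omega)))
  set M : ℝ := (mm + 1 : ℝ) + Real.exp (2 * sI) * |Mμ| + |Ma| + ε with hM
  have hexp : 0 < Real.exp (2 * sI) := Real.exp_pos _
  have h0 : (0 : ℝ) ≤ mm := Nat.cast_nonneg mm
  have hmul : 0 ≤ Real.exp (2 * sI) * |Mμ| := by positivity
  have hMpos : 0 < M := by rw [hM]; positivity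
  obtain ⟨δ, hδ, Lc0, hLc0, T0, hT0, CΓ, hCΓ, hmainL⟩ :=
    exists_mixData_ofL hG1 hG2 hH1 hH2 hH3 hH4 hH5 N η M (ε / 2) hη hMpos (half_pos hε)
  refine ⟨δ, hδ, Lc0, hLc0, CΓ, hCΓ, M + 2, by linarith, fun Lc hLcc => ?_⟩
  have hLc : 0 < Lc := lt_of_lt_of_le hLc0 hLcc
  have hmain := hmainL Lc hLcc
  -- the slope bound
  obtain ⟨c0, hc0, hc0a, hc0b, hc0c, hc0d⟩ : ∃ c0 : ℝ, 0 < c0 ∧ c0 ≤ 1 ∧
      (mm + 2) * c0 ≤ δ ∧ Real.exp (2 * sI) * (2 * c0 * Mμ) ≤ δ / 2 ∧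
      (mm + 2) * c0 * (2 * M + 1) ≤ ε / 2 / 2 := by
    refine ⟨min 1 (min (δ / (mm + 2)) (min (δ / (4 * Real.exp (2 * sI) * (|Mμ| + 1)))
      (ε / (4 * (mm + 2) * (2 * M + 1))))), ?_, min_le_left _ _, ?_, ?_, ?_⟩
    · simp only [lt_min_iff]
      refine ⟨one_pos, by positivity, by positivity, by positivity⟩
    · have h1 : min 1 (min (δ / (mm + 2)) (min (δ / (4 * Real.exp (2 * sI) * (|Mμ| + 1)))
        (ε / (4 * (mm + 2) * (2 * M + 1))))) ≤ δ / (mm + 2) :=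
        (min_le_right _ _).trans (min_le_left _ _)
      have h2 := mul_le_mul_of_nonneg_left h1 (by positivity : (0 : ℝ) ≤ (mm : ℝ) + 2)
      refine h2.trans (le_of_eq ?_)
      field_simp
    · have h1 : min 1 (min (δ / (mm + 2)) (min (δ / (4 * Real.exp (2 * sI) * (|Mμ| + 1)))
        (ε / (4 * (mm + 2) * (2 * M + 1))))) ≤ δ / (4 * Real.exp (2 * sI) * (|Mμ| + 1)) :=
        (min_le_right _ _).trans ((min_le_right _ _).trans (min_le_left _ _))
      set c1 := min 1 (min (δ / (mm + 2)) (min (δ / (4 * Real.exp (2 * sI) * (|Mμ| + 1)))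
        (ε / (4 * (mm + 2) * (2 * M + 1))))) with hc1
      have h3 : 0 ≤ c1 := by
        rw [hc1]
        simp only [le_min_iff]
        refine ⟨zero_le_one, by positivity, by positivity, by positivity⟩
      calc Real.exp (2 * sI) * (2 * c1 * Mμ) ≤ Real.exp (2 * sI) * (2 * c1 * (|Mμ| + 1)) := by
            refine mul_le_mul_of_nonneg_left (mul_le_mul_of_nonneg_left ?_ (by positivity)) hexp.le
            linarith [le_abs_self Mμ]
        _ ≤ Real.exp (2 * sI) * (2 * (δ / (4 * Real.exp (2 * sI) * (|Mμ| + 1))) *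
            (|Mμ| + 1)) := by gcongr
        _ = δ / 2 := by field_simp; ring
    · have h1 : min 1 (min (δ / (mm + 2)) (min (δ / (4 * Real.exp (2 * sI) * (|Mμ| + 1)))
        (ε / (4 * (mm + 2) * (2 * M + 1))))) ≤ ε / (4 * (mm + 2) * (2 * M + 1)) :=
        (min_le_right _ _).trans ((min_le_right _ _).trans (min_le_right _ _))
      calc (mm + 2) * _ * (2 * M + 1) ≤ (mm + 2) * (ε / (4 * (mm + 2) * (2 * M + 1))) *
            (2 * M + 1) := by gcongr
        _ = ε / 2 / 2 := by field_simp; ring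
  obtain ⟨A1, hA1, hsch⟩ := Sch.exists_A hsI hc0 0 one_pos
  obtain ⟨A0, hA01, hA02, hA03, hA04, hA05⟩ : ∃ A0 : ℝ, 1 ≤ A0 ∧ A1 ≤ A0 ∧ 2 * Lc + T0 ≤ A0 ∧
      2 * Lc + 1 ≤ A0 ∧ ∀ A, A0 ≤ A → Real.exp (2 * sI) * (Cμ * (1 / A)) ≤ δ / 2 := by
    refine ⟨max 1 (max A1 (max (2 * Lc + T0) (max (2 * Lc + 1)
      (2 * Real.exp (2 * sI) * Cμ / δ)))), le_max_left _ _, ?_, ?_, ?_, ?_⟩
    · exact (le_max_left _ _).trans (le_max_right _ _)
    · exact (le_max_left _ _).trans ((le_max_right _ _).trans (le_max_right _ _))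
    · exact (le_max_left _ _).trans ((le_max_right _ _).trans ((le_max_right _ _).trans
        (le_max_right _ _)))
    · intro A hA
      have h1 : 1 ≤ A := (le_max_left _ _).trans hA
      have h2 : 2 * Real.exp (2 * sI) * Cμ / δ ≤ A :=
        ((le_max_right _ _).trans ((le_max_right _ _).trans ((le_max_right _ _).trans
        (le_max_right _ _)))).trans hA
      have h3 : 0 < A := by linarith
      rw [div_le_iff₀ hδ] at h2
      have h4 : Real.exp (2 * sI) * (Cμ * (1 / A)) = (2 * Real.exp (2 * sI) * Cμ) / (2 * A) := by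
        field_simp
      rw [h4, div_le_iff₀ (by positivity)]
      nlinarith
  refine ⟨A0, hA01, fun A hA => ⟨by linarith, ?_⟩⟩
  intro G _ _ _ ι LS P jq FF
  have hApos : 0 < A := by linarith
  obtain ⟨hsA, -, -⟩ := hsch A (hA02.trans hA)
  have hs0 : ∀ t, A ≤ t → deriv (sf sI) t ≤ c0 := fun t ht => (hsA t ht).2.1
  have hs1 : ∀ t, A ≤ t → |deriv (deriv (sf sI)) t| ≤ c0 := fun t ht => by
    have h1 := (hsA t ht).2.2
    have h2 := (hsA t ht).2.1
    have h3 := Sch.deriv_sf_nonneg hsI t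
    nlinarith
  have hA5 := hA05 A hA
  obtain ⟨D, h1, h2, h3, h4, h5, h6, h7, h8, h9, h10⟩ := hmain G P
    (segData hsI mm LS FF (c0 := c0) (ε := ε / 2) (M := M) (T0 := T0) a hi0 hiN hη hCμ hApos hLc
      hT0 (by linarith)
      (fun l hl1 hl2 => ⟨(ha l hl1 hl2).1, by
        have := hMa l hl1 hl2
        have h7 := le_abs_self Ma
        rw [hM]
        linarith, (ha l hl1 hl2).2⟩)
      (half_pos hε) hc0.le hs0 hs1 (by rw [mul_add]; linarith) hc0b
      (by rw [hM]; have := abs_nonneg Ma; linarith)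
      (by
        rw [hM]
        have h8 := mul_le_mul_of_nonneg_left (le_abs_self Mμ) hexp.le
        have := abs_nonneg Ma
        linarith) hc0d)
  refine ⟨D, h1, h2, ?_, ?_, h5, h6, ?_, h9, h10⟩
  · rw [h3]
    funext l
    show a l + ε / 2 + ε / 2 = a l + ε
    ring
  · rw [h4]
    funext q
    show he A q - Lc - (hs A q + Lc) = Th A q - 2 * Lc
    rw [Sch.he_eq]; ring
  · rw [h8]
    funext k
    show CΓ * Real.exp ((M + 2) * (hs A (k.1 + 1) + Lc - (he A k.1 - Lc))) =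
      CΓ * Real.exp ((M + 2) * (Tg A k.1 + 2 * Lc))
    rw [Sch.hs_succ]
    congr 2
    ring

theorem exists_mixData_of_loops (hG1 : GateCone) (hG2 : GateSign) (hH1 : HomeNarrow)
    (hH2 : HomePtoF) (hH3 : HomeFtoP) (hH4 : HomeGrowth) (hH5 : HomeSign)
    (mm : ℕ) {sI : ℝ} (hsI : 0 < sI) {N i0 : ℕ} (hi0 : 1 ≤ i0) (hiN : i0 ≤ N)
    {η Cμ Mμ ε : ℝ} {Λ a : ℕ → ℝ} (hη : 0 < η) (hCμ : 0 ≤ Cμ) (hε : 0 < ε)
    (ha : ∀ l, i0 ≤ l → l ≤ N → 0 ≤ a l ∧ Real.exp (2 * sI) * Λ l ≤ a l ^ 2 + (mm + 1) * a l) :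
    ∃ δ > 0, ∃ Lc > 0, ∃ CΓ > 0, ∃ M > 0, ∃ A0 : ℝ, 1 ≤ A0 ∧ ∀ A : ℝ, A0 ≤ A →
      2 * Lc + 1 ≤ A ∧
      ∀ (G : Type) [NormedAddCommGroup G] [InnerProductSpace ℝ G] [FiniteDimensional ℝ G]
        (ι : Type) (LS : LoopSys G ι N i0 η Cμ Mμ Λ) (P : ℕ) (jq : ℕ → ι)
        (FF : FlowFam LS mm sI A δ P jq), ∃ D : MixData G N P,
        D.e = LS.e ∧ D.i0 = i0 ∧ (D.a = fun l => a l + ε) ∧
        (D.T = fun q => Th A q - 2 * Lc) ∧ (D.ε = fun _ => Real.log 4) ∧
        (D.d = fun k => LS.des (jq k.1)) ∧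
        (D.Γ = fun k => CΓ * Real.exp (M * (Tg A k.1 + 2 * Lc))) ∧
        (∀ q κ u, D.Jm q κ u = (FF.F κ).U (hs A q + Lc)
          (Ring.inverse ((FF.F κ).U (he A P - Lc)) (∑ j, u j • LS.e j))) ∧
        (∀ q κ u, D.Jp q κ u = (FF.F κ).U (he A q - Lc)
          (Ring.inverse ((FF.F κ).U (he A P - Lc)) (∑ j, u j • LS.e j))) := by
  obtain ⟨δ, hδ, Lc, hLc, CΓ, hCΓ, M, hM, h⟩ := exists_mixData_of_loopsL hG1 hG2 hH1 hH2 hH3 hH4
    hH5 mm hsI hi0 hiN hη hCμ hε ha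
  exact ⟨δ, hδ, Lc, hLc, CΓ, hCΓ, M, hM, h Lc le_rfl⟩

end Crest.Agent.R202.BFin
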