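import Mathlib

/-! # Row 202, module H (helper862): homogeneous harmonic polynomials

`dimP D q` = number of monomials of degree `q` in `D ≥ 1` variables, `dimH D q` = dimension of the
space of homogeneous harmonic polynomials of degree `q` (lower bound by rank-nullity). -/

set_option autoImplicit false

open MvPolynomial

namespace Crest.Agent.R202.Sph

/-- number of monomials of degree `q` in `D` variables (for `D ≥ 1`) -/
def dimP (D q : ℕ) : ℕ := (D + q - 1).choose q

/-- dimension of the homogeneous harmonic polynomials of degree `q` in `D ≥ 1` variables -/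
def dimH (D q : ℕ) : ℕ := dimP D q - (if 2 ≤ q then dimP D (q - 2) else 0)

/-- the Laplace operator on polynomials -/
noncomputable def lap (D : ℕ) : MvPolynomial (Fin D) ℝ →ₗ[ℝ] MvPolynomial (Fin D) ℝ :=
  ∑ i : Fin D, ((pderiv i : Derivation ℝ _ _) : MvPolynomial (Fin D) ℝ →ₗ[ℝ] _) ∘ₗ
    ((pderiv i : Derivation ℝ _ _) : MvPolynomial (Fin D) ℝ →ₗ[ℝ] _)

theorem lap_apply (D : ℕ) (p : MvPolynomial (Fin D) ℝ) :
    lap D p = ∑ i : Fin D, pderiv i (pderiv i p) := by
  simp [lap, LinearMap.sum_apply]

theorem lap_mem {D q : ℕ} {p : MvPolynomial (Fin D) ℝ} (hp : p.IsHomogeneous q) :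
    (lap D p).IsHomogeneous (q - 2) := by
  rw [lap_apply]
  refine IsHomogeneous.sum _ _ _ fun i _ => ?_
  have := (hp.pderiv (i := i)).pderiv (i := i)
  rwa [show q - 1 - 1 = q - 2 by omega] at this

theorem lap_eq_zero_of_lt {D q : ℕ} (hq : q < 2) {p : MvPolynomial (Fin D) ℝ}
    (hp : p.IsHomogeneous q) : lap D p = 0 := by
  rw [lap_apply]
  refine Finset.sum_eq_zero fun i _ => ?_
  have h1 : (pderiv i p).IsHomogeneous (q - 1) := hp.pderiv
  rw [show q - 1 = 0 by omega] at h1
  have h2 : (pderiv i p).totalDegree = 0 := by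
    have := h1.totalDegree_le
    omega
  rw [totalDegree_eq_zero_iff_eq_C] at h2
  rw [h2, pderiv_C]

theorem finrank_homogeneous (D q : ℕ) :
    Module.finrank ℝ (homogeneousSubmodule (Fin D) ℝ q) = dimP D q := by
  have h : homogeneousSubmodule (Fin D) ℝ q
      = AddMonoidAlgebra.supported ℝ ℝ {d : Fin D →₀ ℕ | d.degree = q} :=
    homogeneousSubmodule_eq_finsupp_supported (Fin D) ℝ q
  rw [h]
  rw [LinearEquiv.finrank_eq (AddMonoidAlgebra.supportedEquivFinsupp _)]
  have hset : {d : Fin D →₀ ℕ | d.degree = q}
      = ((Finset.univ : Finset (Fin D)).finsuppAntidiag q : Set (Fin D →₀ ℕ)) := by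
    ext d
    simp [Finset.mem_finsuppAntidiag, Finsupp.degree_eq_sum]
  rw [hset]
  rw [Module.finrank_finsupp_self]
  simp [Finset.card_finsuppAntidiag_nat_eq_choose, dimP]

instance (D q : ℕ) : Module.Finite ℝ (homogeneousSubmodule (Fin D) ℝ q) :=
  Module.Finite.iff_fg.2 (homogeneousSubmodule_fg (Fin D) ℝ q)

/-- homogeneous harmonic polynomials of degree `q` -/
noncomputable def harm (D q : ℕ) : Submodule ℝ (MvPolynomial (Fin D) ℝ) :=
  homogeneousSubmodule (Fin D) ℝ q ⊓ LinearMap.ker (lap D)

theorem mem_harm {D q : ℕ} {p : MvPolynomial (Fin D) ℝ} :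
    p ∈ harm D q ↔ p.IsHomogeneous q ∧ lap D p = 0 := by
  simp [harm]

theorem dimH_le_finrank (D q : ℕ) : dimH D q ≤ Module.finrank ℝ (harm D q) := by
  by_cases hq : 2 ≤ q
  · let L : homogeneousSubmodule (Fin D) ℝ q →ₗ[ℝ] homogeneousSubmodule (Fin D) ℝ (q - 2) :=
      (lap D).restrict (fun p hp => lap_mem hp)
    have h1 := LinearMap.finrank_range_add_finrank_ker L
    have h2 : Module.finrank ℝ (LinearMap.range L) ≤ dimP D (q - 2) := by
      rw [← finrank_homogeneous]
      exact Submodule.finrank_le _
    have h3 : Module.finrank ℝ (LinearMap.ker L) ≤ Module.finrank ℝ (harm D q) := by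
      have : Module.Finite ℝ (harm D q) :=
        Module.Finite.of_injective (Submodule.inclusion (inf_le_left :
          harm D q ≤ homogeneousSubmodule (Fin D) ℝ q)) (Submodule.inclusion_injective _)
      let f : LinearMap.ker L →ₗ[ℝ] harm D q :=
        { toFun := fun p => ⟨p.1.1, by
            rw [mem_harm]
            refine ⟨p.1.2, ?_⟩
            have h0 := p.2
            rw [LinearMap.mem_ker] at h0
            exact congrArg Subtype.val h0⟩
          map_add' := fun _ _ => rfl
          map_smul' := fun _ _ => rfl }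
      refine LinearMap.finrank_le_finrank_of_injective (f := f) ?_
      intro a b hab
      apply Subtype.ext
      apply Subtype.ext
      exact congrArg (fun x => x.1) hab
    rw [finrank_homogeneous] at h1
    unfold dimH
    rw [if_pos hq]
    omega
  · have : harm D q = homogeneousSubmodule (Fin D) ℝ q := by
      apply le_antisymm inf_le_left
      intro p hp
      exact mem_harm.2 ⟨hp, lap_eq_zero_of_lt (by omega) hp⟩
    rw [this, finrank_homogeneous]
    unfold dimH
    rw [if_neg hq]
    omega

/-- `dimH D q` linearly independent homogeneous harmonic polynomials of degree `q`. -/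
theorem exists_harm_family (D q : ℕ) : ∃ Y : Fin (dimH D q) → MvPolynomial (Fin D) ℝ,
    LinearIndependent ℝ Y ∧ ∀ a, (Y a).IsHomogeneous q ∧ lap D (Y a) = 0 := by
  have h := dimH_le_finrank D q
  have : Module.Finite ℝ (harm D q) :=
        Module.Finite.of_injective (Submodule.inclusion (inf_le_left :
          harm D q ≤ homogeneousSubmodule (Fin D) ℝ q)) (Submodule.inclusion_injective _)
  let b := Module.finBasis ℝ (harm D q)
  refine ⟨fun a => (b (Fin.castLE h a)).1, ?_, fun a => ?_⟩
  · have h1 : LinearIndependent ℝ (fun a : Fin (dimH D q) => b (Fin.castLE h a)) :=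
      b.linearIndependent.comp _ (Fin.castLE_injective h)
    exact h1.map' (harm D q).subtype (Submodule.ker_subtype _)
  · exact mem_harm.1 (b (Fin.castLE h a)).2

end Crest.Agent.R202.Sph
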