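import Crest.Agent.R202.Cnt
import Crest.Agent.R202.SphPoly
import Crest.Prelude.Def_CoordMetric
import Crest.Prelude.Def_CoordVolume
import Crest.Prelude.Def_ChartCurvature

/-!
Row 202, GLUE (helper632): the frozen statement `MainThm m` (dimension `n = m + 3`) from which
S0309 (`m = 0`) and S0310 (`m = 5`) are deduced by counting (Part E), and which is proved from
Parts A, B, C, D, F, SCH.

Sectors are pairs `σ = (q, s)`: `q` = degree in `y ∈ ℝ^{m+1}`, `s = 0` cos, `s = 1` sin.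
The constants are removed from the sector `(0, 0)`: `sh σ = 1` there, `0` otherwise, so that the
`c`-th level of the sector is the label `e σ.2 (c + sh σ)`, `e s` = sorted enumeration of the labels
of `lab s` at the home parameter `b0 = 1/θ0`.
Cuts are `l ∈ [i0 σ, N σ]` (cut `l` separates the levels `< l` from the levels `≥ l`); the
designated ones are `i0 σ ≤ l < N σ`.
-/

set_option autoImplicit false

open scoped ContDiff
open Set
open Crest.GeometryTopology.CoordMetric Crest.GeometryTopology.ChartCurvature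
open Crest.Agent.R202.Lab

namespace Crest.Agent.R202.Main

/-- shift of the labels: the constants are removed from the sector `(0, 0)` -/
def sh (σ : ℕ × ℕ) : ℕ := if σ = (0, 0) then 1 else 0

/-- `e s` is the sorted enumeration of the labels of `lab s` at `b0` (`s = 0, 1`) -/
def IsEnum (b0 : ℝ) (e : ℕ → ℕ → ℕ × ℕ) : Prop :=
  ∀ s, s ≤ 1 → (∀ i, e s i ∈ lab s) ∧ StrictMono (fun i => mu b0 (e s i)) ∧
    ∀ p ∈ lab s, ∃ i, e s i = p

/-- admissible sectors in dimension `n = m + 3` -/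
def SecOK (m : ℕ) (σ : ℕ × ℕ) : Prop :=
  σ.2 ≤ 1 ∧ (m = 0 → σ.1 ≤ 1) ∧ (0 < m → 1 ≤ σ.1)

/-- growth exponent of the `c`-th level of the sector `σ` at home, in dimension `m + 3`, asymptotic
volume ratio `v` -/
noncomputable def homeExp (m : ℕ) (v b0 : ℝ) (e : ℕ → ℕ → ℕ × ℕ) (σ : ℕ × ℕ) (c : ℕ) : ℝ :=
  expo ((m : ℝ) + 1) ((v * b0) ^ ((1 : ℝ) / ((m : ℝ) + 2))) (mu b0 (e σ.2 (c + sh σ)) + (σ.1 : ℝ))

/-- all geometric clauses of S0309 / S0310 -/
structure GeoOut (m : ℕ) (v : ℝ) (g : MetricField (m + 3)) : Prop where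
  riem : IsRiemannianOn g univ
  complete : IsCompleteOn g univ
  near_zero : ∃ r : ℝ, 0 < r ∧ ∀ x : EuclideanSpace ℝ (Fin (m + 3)), ‖x‖ < r → g x = 1
  ric_nonneg : RicciNonnegOn g univ
  ric_pos : ∃ R : ℝ, ∀ x : EuclideanSpace ℝ (Fin (m + 3)), R < ‖x‖ →
    ∀ w : EuclideanSpace ℝ (Fin (m + 3)), w ≠ 0 → 0 < ∑ i, ∑ j, ricci g x i j * w i * w j
  avr : HasAsymptoticVolumeRatio g v
  neg : ∃ p : ℕ → EuclideanSpace ℝ (Fin (m + 3)),
    Filter.Tendsto (fun j => ‖p j‖) Filter.atTop Filter.atTop ∧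
    ∀ j, ∃ w : EuclideanSpace ℝ (Fin (m + 3)),
      0 < gramDet g (p j) (p j) w ∧ secNumer g (p j) (p j) w < 0

/-- the data of the counting side -/
structure CountData (m : ℕ) (v : ℝ) (k : ℕ) where
  b0 : ℝ
  b1 : ℝ
  e : ℕ → ℕ → ℕ × ℕ
  S : Finset (ℕ × ℕ)
  i0 : ℕ × ℕ → ℕ
  N : ℕ × ℕ → ℕ
  v_pos : 0 < v
  v_lt : v < 1
  b0_gt : 1 < b0
  b01 : b0 < b1
  irr0 : Irrational b0
  irr1 : Irrational b1
  vb1 : v * b1 < 1
  enum : IsEnum b0 e
  secOK : ∀ σ ∈ S, SecOK m σ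
  i0_pos : ∀ σ ∈ S, 1 ≤ i0 σ
  S_ne : S.Nonempty
  i0_lt : ∀ σ ∈ S, i0 σ < N σ
  closed : ∀ σ ∈ S, ∀ l, i0 σ ≤ l → l < N σ → ∃ b, b0 < b ∧ b < b1 ∧ Closed b σ.2 (l + sh σ)
  mean : ∀ σ ∈ S, ∑ c ∈ Finset.Icc (i0 σ - 1) (N σ - 1), homeExp m v b0 e σ c
    < (k : ℝ) * ((N σ : ℝ) - (i0 σ : ℝ) + 1)

/-- index set of the harmonic functions -/
abbrev Idx {m : ℕ} {v : ℝ} {k : ℕ} (D : CountData m v k) : Type :=
  (σ : {σ : ℕ × ℕ // σ ∈ D.S}) × (Fin (Sph.dimH (m + 1) σ.1.1) × Fin (D.N σ.1))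

/-- **THE MAIN THEOREM** of row 202 in dimension `m + 3` (a statement; proved in `Top.lean`). -/
def MainThm (m : ℕ) : Prop :=
  ∀ (v : ℝ) (k : ℕ) (D : CountData m v k),
    ∃ g : MetricField (m + 3), GeoOut m v g ∧
      ∃ f : Idx D → EuclideanSpace ℝ (Fin (m + 3)) → ℝ,
        LinearIndependent ℝ f ∧ ∀ i, IsHarmonicOn g univ (f i) ∧
          ∃ C : ℝ, ∀ x, |f i x| ≤ C * (1 + riemDist g univ 0 x) ^ k

end Crest.Agent.R202.Main
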