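import Crest.Agent.R202.SchMain

/-! # Row 202, module SCH, part 5: the captain's loop format (helper821)

Data in terms of `y = 1/θ`: `θ = y⁻¹`, `P = 1 + (y - 1) h(X) + Gh(τ, κ, X, ret u)`, where
`ret : ℂ → closed unit disc` is smooth and the identity on the unit circle (so that `P > 0` for all
`u`; only `|u| = 1` matters for the metric).
-/

set_option autoImplicit false

open MeasureTheory Set Filter
open scoped Topology ContDiff

namespace Crest.Agent.R202.Sch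

noncomputable section

/-- smooth map of `ℂ` into the closed unit disc, identity on the unit circle -/
def ret (u : ℂ) : ℂ := (2 * (1 + ‖u‖ ^ 2)⁻¹) • u

theorem ret_smooth : ContDiff ℝ ∞ ret := by
  unfold ret
  have h1 : ContDiff ℝ ∞ (fun u : ℂ => ‖u‖ ^ 2) := contDiff_norm_sq ℝ
  have h2 : ContDiff ℝ ∞ (fun u : ℂ => (1 + ‖u‖ ^ 2)⁻¹) :=
    (contDiff_const.add h1).inv fun u => by positivity
  exact (contDiff_const.mul h2).smul contDiff_id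

theorem ret_of_norm_one {u : ℂ} (h : ‖u‖ = 1) : ret u = u := by
  unfold ret
  rw [h]
  norm_num

theorem ret_ee (φ : ℝ) : ret (ee φ) = ee φ := ret_of_norm_one (norm_ee φ)

theorem norm_ret_le (u : ℂ) : ‖ret u‖ ≤ 1 := by
  unfold ret
  rw [norm_smul, Real.norm_eq_abs, abs_of_nonneg (by positivity)]
  have h : 0 < 1 + ‖u‖ ^ 2 := by positivity
  rw [show 2 * (1 + ‖u‖ ^ 2)⁻¹ * ‖u‖ = (2 * ‖u‖) / (1 + ‖u‖ ^ 2) by field_simp, div_le_one h]
  nlinarith [sq_nonneg (‖u‖ - 1)]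

/-- `ConeS` only sees the values on the unit circle -/
theorem ConeS.congr {m : ℕ} {cc θ : ℝ} {P P' : ℝ → ℂ → ℝ} (h : ConeS m cc θ P)
    (he : ∀ X φ, P X (ee φ) = P' X (ee φ)) : ConeS m cc θ P' := by
  constructor
  · intro X φ h0 h1
    have := h.base X φ h0 h1
    simp only [he] at this
    exact this
  · intro hm X φ h0 h1
    have := h.fiber hm X φ h0 h1
    simp only [he] at this
    exact this

/-- the axisymmetric datum with parameter `y` -/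
def Ptip (h : ℝ → ℝ) (y X : ℝ) (_ : ℂ) : ℝ := 1 + (y - 1) * h X

/-- Loop in the captain's format. -/
structure YLoop (y0 y1 Xa Xb : ℝ) where
  y : ℝ → ℝ
  Gh : ℝ → ℝ → ℝ → ℂ → ℝ
  y_smooth : ContDiff ℝ ∞ y
  y_left : ∀ τ, τ ≤ 0 → y τ = y0
  y_right : ∀ τ, 1 ≤ τ → y τ = y0
  y_mem : ∀ τ, y τ ∈ Icc y0 y1
  Gh_smooth : ContDiff ℝ ∞ (fun q : ℝ × ℝ × ℝ × ℂ => Gh q.1 q.2.1 q.2.2.1 q.2.2.2)
  Gh_left : ∀ τ κ X u, τ ≤ 0 → Gh τ κ X u = 0
  Gh_right : ∀ τ κ X u, 1 ≤ τ → Gh τ κ X u = 0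
  Gh_supp : ∀ τ κ X u, X ∉ Icc Xa Xb → Gh τ κ X u = 0
  Gh_small : ∀ τ, ∀ κ ∈ Icc (-1 : ℝ) 1, ∀ X u, ‖u‖ ≤ 1 → |Gh τ κ X u| ≤ 1 / 2

/-- the profile function of the tip -/
structure Prof (X0 X1 : ℝ) (h : ℝ → ℝ) : Prop where
  smooth : ContDiff ℝ ∞ h
  low : ∀ X, X ≤ X0 → h X = 0
  high : ∀ X, X1 ≤ X → h X = 1
  nonneg : ∀ X, 0 ≤ h X
  le_one : ∀ X, h X ≤ 1

variable {y0 y1 Xa Xb X0 X1 : ℝ} {h : ℝ → ℝ}

theorem Ptip_smooth (hp : Prof X0 X1 h) {y : ℝ → ℝ} (hy : ContDiff ℝ ∞ y) :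
    ContDiff ℝ ∞ (fun q : ℝ × ℝ × ℂ => Ptip h (y q.1) q.2.1 q.2.2) := by
  unfold Ptip
  have h1 : ContDiff ℝ ∞ (fun q : ℝ × ℝ × ℂ => y q.1) := hy.comp contDiff_fst
  have h2 : ContDiff ℝ ∞ (fun q : ℝ × ℝ × ℂ => h q.2.1) :=
    hp.smooth.comp (contDiff_fst.comp contDiff_snd)
  exact contDiff_const.add ((h1.sub contDiff_const).mul h2)

theorem datum_tip (hp : Prof X0 X1 h) {y : ℝ} (hy : 1 ≤ y) : Datum X0 X1 y⁻¹ (Ptip h y) where
  θ_pos := inv_pos.2 (by linarith)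
  θ_le := inv_le_one_of_one_le₀ hy
  P_pos X u := by
    unfold Ptip
    have := mul_nonneg (by linarith : 0 ≤ y - 1) (hp.nonneg X)
    linarith
  P_low X u hX := by unfold Ptip; rw [hp.low X hX]; ring
  P_high X u hX := by unfold Ptip; rw [hp.high X hX, inv_inv]; ring

theorem datum_loop (hp : Prof X0 X1 h) (h0a : X0 < Xa) (hb1 : Xb < X1) {y : ℝ} (hy : 1 ≤ y)
    {G : ℝ → ℂ → ℝ} (hG : ∀ X u, ‖u‖ ≤ 1 → |G X u| ≤ 1 / 2)
    (hs : ∀ X u, X ∉ Icc Xa Xb → G X u = 0) :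
    Datum X0 X1 y⁻¹ (fun X u => Ptip h y X u + G X (ret u)) where
  θ_pos := inv_pos.2 (by linarith)
  θ_le := inv_le_one_of_one_le₀ hy
  P_pos X u := by
    unfold Ptip
    have := mul_nonneg (by linarith : 0 ≤ y - 1) (hp.nonneg X)
    have h2 := abs_le.1 (hG X (ret u) (norm_ret_le u))
    linarith [h2.1]
  P_low X u hX := by
    unfold Ptip
    rw [hp.low X hX, hs X _ (fun h => by linarith [h.1])]
    ring
  P_high X u hX := by
    unfold Ptip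
    rw [hp.high X hX, inv_inv, hs X _ (fun h => by linarith [h.2])]
    ring

/-- the abstract loop of a `YLoop` -/
def YLoop.toLoop (L : YLoop y0 y1 Xa Xb) (hp : Prof X0 X1 h) (hy0 : 1 ≤ y0) :
    Loop y0⁻¹ (Ptip h y0) where
  th τ _ := (L.y τ)⁻¹
  P τ κ X u := Ptip h (L.y τ) X u + L.Gh τ κ X (ret u)
  smooth_th := by
    have h1 : ContDiff ℝ ∞ (fun q : ℝ × ℝ => L.y q.1) := L.y_smooth.comp contDiff_fst
    exact h1.inv fun q => by linarith [(L.y_mem q.1).1]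
  smooth_P := by
    have h1 : ContDiff ℝ ∞ (fun q : ℝ × ℝ × ℝ × ℂ => Ptip h (L.y q.1) q.2.2.1 q.2.2.2) :=
      (Ptip_smooth hp L.y_smooth).comp (contDiff_fst.prodMk (contDiff_snd.comp contDiff_snd))
    have h3 : ContDiff ℝ ∞ (fun q : ℝ × ℝ × ℝ × ℂ => ret q.2.2.2) :=
      ret_smooth.comp (contDiff_snd.comp (contDiff_snd.comp contDiff_snd))
    have h4 : ContDiff ℝ ∞ (fun q : ℝ × ℝ × ℝ × ℂ => ((q.1, q.2.1, q.2.2.1, ret q.2.2.2) : E4)) :=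
      contDiff_fst.prodMk ((contDiff_fst.comp contDiff_snd).prodMk
        ((contDiff_fst.comp (contDiff_snd.comp contDiff_snd)).prodMk h3))
    exact h1.add (L.Gh_smooth.comp h4)
  th_left τ _ hτ := by rw [L.y_left τ hτ]
  th_right τ _ hτ := by rw [L.y_right τ hτ]
  P_left τ κ X u hτ := by rw [L.y_left τ hτ, L.Gh_left _ _ _ _ hτ, add_zero]
  P_right τ κ X u hτ := by rw [L.y_right τ hτ, L.Gh_right _ _ _ _ hτ, add_zero]

/-- `y` along the installation path -/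
def yI (y0 τ : ℝ) : ℝ := 1 + (y0 - 1) * Real.smoothTransition τ

theorem yI_mem (hy0 : 1 ≤ y0) (τ : ℝ) : yI y0 τ ∈ Icc 1 y0 := by
  unfold yI
  have h1 := Real.smoothTransition.nonneg τ
  have h2 := Real.smoothTransition.le_one τ
  constructor <;> nlinarith

theorem yI_smooth (y0 : ℝ) : ContDiff ℝ ∞ (yI y0) :=
  contDiff_const.add (contDiff_const.mul Real.smoothTransition.contDiff)

/-- the installation path -/
def yInst (hp : Prof X0 X1 h) (hy0 : 1 ≤ y0) : Inst y0⁻¹ (Ptip h y0) where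
  th τ := (yI y0 τ)⁻¹
  P τ X u := Ptip h (yI y0 τ) X u
  smooth_th := (yI_smooth y0).inv fun τ => by linarith [(yI_mem hy0 τ).1]
  smooth_P := Ptip_smooth hp (yI_smooth y0)
  th_left τ hτ := by
    unfold yI
    rw [Real.smoothTransition.zero_of_nonpos hτ]; simp
  th_right τ hτ := by
    unfold yI
    rw [Real.smoothTransition.one_of_one_le hτ]; simp
  P_left τ X u hτ := by
    unfold yI Ptip
    rw [Real.smoothTransition.zero_of_nonpos hτ]; simp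
  P_right τ X u hτ := by
    unfold yI Ptip
    rw [Real.smoothTransition.one_of_one_le hτ]; simp

/-- the number condition for the cone condition -/
theorem cst_le {m : ℕ} {μ σ y y1 e : ℝ} (hμ : 0 ≤ μ) (hy : 1 ≤ y) (hy1 : y ≤ y1)
    (hnum : (1 + μ) * Real.exp (-2 * σ) * y1 ^ ((2 : ℝ) / ((m : ℝ) + 2)) ≤ 1 - e) :
    cst m μ σ y⁻¹ ≤ (m + 1) * (1 - e) := by
  unfold cst
  have hy0 : 0 < y := by linarith
  have h1 : (y⁻¹) ^ (-(2 : ℝ) / ((m : ℝ) + 2)) = y ^ ((2 : ℝ) / ((m : ℝ) + 2)) := by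
    rw [Real.inv_rpow hy0.le, ← Real.rpow_neg hy0.le]
    congr 1
    ring
  rw [h1, mul_assoc]
  refine mul_le_mul_of_nonneg_left ?_ (by positivity)
  refine le_trans ?_ hnum
  rw [← mul_assoc]
  refine mul_le_mul_of_nonneg_left ?_ (by positivity)
  exact Real.rpow_le_rpow hy0.le hy1 (by positivity)

/-- **Main theorem in the captain's format.** -/
theorem exists_mainY {m : ℕ} {μ sI δ e : ℝ} (hμ : 0 ≤ μ) (hsI : 0 < sI) (hδ : 0 < δ)
    (h0 : 0 < X0) (h0a : X0 < Xa) (hab : Xa ≤ Xb) (hb1 : Xb < X1) (h1 : X1 < 1)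
    (hp : Prof X0 X1 h) (hy0 : 1 ≤ y0)
    (hnum : (1 + μ) * Real.exp (-2 * (sI - δ)) * y1 ^ ((2 : ℝ) / ((m : ℝ) + 2)) ≤ 1 - e)
    {ι : Type*} [Finite ι] (L : ι → YLoop y0 y1 Xa Xb)
    (cT : ∀ y ∈ Icc 1 y0, ConeS m ((m + 1) * (1 - e)) y⁻¹ (Ptip h y)) (hy01 : y0 ≤ y1)
    (cL : ∀ i, ∀ τ ∈ Icc (0 : ℝ) 1, ∀ k ∈ Icc (-1 : ℝ) 1,
      ConeS m ((m + 1) * (1 - e)) ((L i).y τ)⁻¹
        (fun X u => 1 + ((L i).y τ - 1) * h X + (L i).Gh τ k X u)) :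
    ∃ K C : ℝ, 1 ≤ K ∧ 0 ≤ C ∧ ∀ c : ℝ, 0 < c → ∃ A0 : ℝ, 1 ≤ A0 ∧ ∀ A : ℝ, A0 ≤ A →
      ∀ (j : ℕ → ι) (κ : ℕ → ℝ), (∀ q, κ q ∈ Icc (-1 : ℝ) 1) →
        Geo.Fam (sf sI) (thS A (yInst hp hy0) (fun q => (L (j q)).toLoop hp hy0) κ)
          (PS A (yInst hp hy0) (fun q => (L (j q)).toLoop hp hy0) κ) 0 X0 X1 ∧
        (∀ t, Geo.RateAt (sf sI) (thS A (yInst hp hy0) (fun q => (L (j q)).toLoop hp hy0) κ)
          (PS A (yInst hp hy0) (fun q => (L (j q)).toLoop hp hy0) κ) K (C / A) t) ∧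
        (∀ t, A ≤ t → Geo.DefPhase m (sf sI)
          (thS A (yInst hp hy0) (fun q => (L (j q)).toLoop hp hy0) κ)
          (PS A (yInst hp hy0) (fun q => (L (j q)).toLoop hp hy0) κ) K μ c t) ∧
        (∀ t, t < A → Geo.RoundPhase (sf sI)
          (thS A (yInst hp hy0) (fun q => (L (j q)).toLoop hp hy0) κ)
          (PS A (yInst hp hy0) (fun q => (L (j q)).toLoop hp hy0) κ) t) := by
  refine exists_main (yInst hp hy0) hμ hsI hδ h0 (h0a.trans (hab.trans_lt hb1)) h1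
    (fun i => (L i).toLoop hp hy0) (fun τ _ => datum_tip hp (yI_mem hy0 τ).1) ?_ ?_ ?_
  · intro i τ _ k hk
    exact datum_loop hp h0a hb1 (hy0.trans ((L i).y_mem τ).1)
      (fun X u hu => (L i).Gh_small τ k hk X u hu) (fun X u hX => (L i).Gh_supp τ k X u hX)
  · intro τ _
    exact (cT _ (yI_mem hy0 τ)).mono
      (cst_le hμ (yI_mem hy0 τ).1 ((yI_mem hy0 τ).2.trans hy01) hnum)
  · intro i τ hτ k hk
    have h2 := (cL i τ hτ k hk).mono
      (cst_le hμ (hy0.trans ((L i).y_mem τ).1) ((L i).y_mem τ).2 hnum)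
    refine h2.congr fun X φ => ?_
    show _ = Ptip h ((L i).y τ) X (ee φ) + (L i).Gh τ k X (ret (ee φ))
    rw [ret_ee]
    rfl

end

end Crest.Agent.R202.Sch
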