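import Crest.Agent.R202.Model2
import Crest.Agent.R202.SchY
import Crest.Agent.R202.MainDefs

/-!
# Row 202: the frozen statement of PART C (`CThm m`), helper98

Export format (I1)-(I3): local separation with fixed sector polynomials, and the sign of a loop as
a product of determinants over finitely many patches.
-/

set_option autoImplicit false

open MeasureTheory Set Filter
open scoped Topology ContDiff
open Crest.Agent.R202.Mod Crest.Agent.R202.Sch Crest.Agent.R202.Main Crest.Agent.R202.Lab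

noncomputable section

namespace Crest.Agent.R202.CT

/-- the sector space -/
abbrev VV (σ : ℕ × ℕ) : Submodule ℝ (ℕ →₀ (ℝ → ℝ)) := VS σ.1 σ.2

/-- `L²` product (function level; `= g d q par u v` by `rfl`) -/
def gF (d : ℕ) (σ : ℕ × ℕ) (u v : VV σ) : ℝ := fW d σ.1 σ.2 Wg u v

/-- Dirichlet form of the datum `(b, P)` (function level; `= Q q par hP b u v` by `rfl`) -/
def QF (d : ℕ) (σ : ℕ × ℕ) (b : ℝ) (P : ℝ × ℝ → ℝ) (u v : VV σ) : ℝ := fW d σ.1 σ.2 (WQ b P) u v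

/-- the profile `1 + (y-1) h(x) + G(x, e^{iφ})` as a function on `Om` -/
def PF (h : ℝ → ℝ) (y : ℝ) (G : ℝ → ℂ → ℝ) : ℝ × ℝ → ℝ := fun z =>
  1 + (y - 1) * h z.1 + G z.1 (ee z.2)

/-- the reduced sector: in the sector `(0,0)` the constants are removed -/
def Reduced (d : ℕ) (σ : ℕ × ℕ) (v : VV σ) : Prop := σ = (0, 0) → gF d σ v (pol σ.1 σ.2 0 0) = 0

/-- the sector polynomials `p_1..p_l` separate the form `(b, P)`:
`Q ≤ A g` on their span and `Q ≥ B g` on the `g`-complement in the reduced sector -/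
structure SepP (d : ℕ) (σ : ℕ × ℕ) (l : ℕ) (p : Fin l → VV σ) (A B b : ℝ) (P : ℝ × ℝ → ℝ) :
    Prop where
  pol : ∀ i, p i ∈ Pol σ.1 σ.2
  red : ∀ i, Reduced d σ (p i)
  li : LinearIndependent ℝ p
  lt : A < B
  le : ∀ w ∈ Submodule.span ℝ (range p), QF d σ b P w w ≤ A * gF d σ w w
  ge : ∀ v : VV σ, Reduced d σ v → (∀ i, gF d σ v (p i) = 0) → B * gF d σ v v ≤ QF d σ b P v v

/-- second order smallness of the perturbation of a loop -/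
def JetSmall {y0 y1 Xa Xb : ℝ} (L : YLoop y0 y1 Xa Xb) (η : ℝ) : Prop :=
  ∀ τ, ∀ κ ∈ Icc (-1 : ℝ) 1, ∀ X φ : ℝ,
    |L.Gh τ κ X (ee φ)| ≤ η ∧
    |deriv (fun X => L.Gh τ κ X (ee φ)) X| ≤ η ∧
    |deriv (deriv fun X => L.Gh τ κ X (ee φ)) X| ≤ η ∧
    |deriv (fun φ => L.Gh τ κ X (ee φ)) φ| ≤ η ∧
    |deriv (deriv fun φ => L.Gh τ κ X (ee φ)) φ| ≤ η

/-- the gates: designated cut `l` of the sector `σ`, `i0 σ ≤ l < N σ` -/
abbrev Gate {m : ℕ} {v : ℝ} {k : ℕ} (D : CountData m v k) : Type :=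
  {j : (ℕ × ℕ) × ℕ // j.1 ∈ D.S ∧ D.i0 j.1 ≤ j.2 ∧ j.2 < D.N j.1}

/-- the `c`-th eigenvalue of the ideal home spindle in the (reduced) sector `σ` -/
def homeLev {m : ℕ} {v : ℝ} {k : ℕ} (D : CountData m v k) (σ : ℕ × ℕ) (c : ℕ) : ℝ :=
  (mu D.b0 (D.e σ.2 (c + sh σ)) + σ.1) * (mu D.b0 (D.e σ.2 (c + sh σ)) + σ.1 + m + 1)

/-- the exported facts for fixed loops `L` and a fixed tip profile `h` -/
structure COut {m : ℕ} {v : ℝ} {k : ℕ} (D : CountData m v k) {Xa Xb : ℝ}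
    (L : Gate D → YLoop D.b0 D.b1 Xa Xb) (h : ℝ → ℝ) (εh : ℝ) : Prop where
  /-- levels and cuts at home -/
  home : ∀ σ ∈ D.S, ∀ l, D.i0 σ ≤ l → l ≤ D.N σ → ∃ (p : Fin l → VV σ) (A B : ℝ),
    SepP m σ l p A B D.b0 (PF h D.b0 fun _ _ => 0) ∧
      A ≤ homeLev D σ (l - 1) + εh ∧ homeLev D σ l - εh ≤ B
  /-- open cuts along the loops -/
  sep : ∀ (j : Gate D), ∀ σ ∈ D.S, ∀ l, D.i0 σ ≤ l → l ≤ D.N σ →
    ∀ τ0 ∈ Icc (0 : ℝ) 1, ∀ κ0 ∈ Icc (-1 : ℝ) 1, ((σ, l) ≠ j.1 ∨ κ0 = 1 ∨ κ0 = -1) →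
    ∃ (p : Fin l → VV σ) (A B : ℝ), ∀ᶠ z in 𝓝 (τ0, κ0),
      SepP m σ l p A B ((L j).y z.1) (PF h ((L j).y z.1) ((L j).Gh z.1 z.2))
  /-- the designated cut changes the orientation for `κ = -1` and not for `κ = 1` -/
  sign : ∀ (j : Gate D), ∀ κ : ℝ, (κ = 1 ∨ κ = -1) →
    ∃ (r : ℕ) (t : ℕ → ℝ) (f : ℕ → Fin j.1.2 → VV j.1.1) (A B : ℕ → ℝ),
      0 < r ∧ Monotone t ∧ t 0 = 0 ∧ t r = 1 ∧ f r = f 0 ∧
      (∀ i < r, ∀ τ ∈ Icc (t i) (t (i + 1)),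
        SepP m j.1.1 j.1.2 (f i) (A i) (B i) ((L j).y τ) (PF h ((L j).y τ) ((L j).Gh τ κ))) ∧
      0 < κ * ∏ i ∈ Finset.range r,
        (Matrix.of fun a b => gF m j.1.1 (f i a) (f (i + 1) b)).det

/-- **PART C.**  Given a sequence of tip profiles `hs k` that become sharp (`ε k → 0`), for all
smallness requirements `η` there are loops such that all exported facts hold for all large `k`. -/
def CThm (m : ℕ) : Prop :=
  ∀ (v : ℝ) (k : ℕ) (D : CountData m v k) (X0 Xa Xb : ℝ), 0 < X0 → X0 < Xa → Xa < Xb → Xb < 1 →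
    ∀ (X1 : ℕ → ℝ) (hs : ℕ → ℝ → ℝ) (ε : ℕ → ℝ), (∀ n, Xb < X1 n ∧ X1 n < 1) →
      (∀ n, Sch.Prof X0 (X1 n) (hs n)) → Tendsto ε atTop (𝓝 0) →
      (∀ n, ∀ X ∈ Icc (0 : ℝ) 1, hs n X * (1 - X ^ 2) ≤ ε n) →
    ∀ η : ℝ, 0 < η → ∃ L : Gate D → YLoop D.b0 D.b1 Xa Xb,
      (∀ j, JetSmall (L j) η) ∧ (∀ j, ∃ τ ∈ Ioo (0 : ℝ) 1, D.b0 < (L j).y τ) ∧
      (∀ j τ κ X u, (L j).Gh τ κ X (star u) = (L j).Gh τ κ X u) ∧
      ∀ εh : ℝ, 0 < εh → ∀ᶠ n in atTop, COut D L (hs n) εh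

end Crest.Agent.R202.CT
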