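/-
R202 (helper14): exact (invariant) low spaces of symmetric operators in finite dimension:
existence, uniqueness, distance, sign cocycle.
-/
import Mathlib

set_option autoImplicit false

open Set
open scoped InnerProductSpace

namespace Crest.Agent.R202.LowF

variable {G : Type*} [NormedAddCommGroup G] [InnerProductSpace ℝ G]

/-- `V` is an exact (invariant) low space of the symmetric operator `T`. -/
structure Exact (T : G →L[ℝ] G) (V : Submodule ℝ G) (A B : ℝ) : Prop where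
  symm : ∀ x y, ⟪T x, y⟫_ℝ = ⟪x, T y⟫_ℝ
  inv : ∀ x ∈ V, T x ∈ V
  low : ∀ x ∈ V, ⟪T x, x⟫_ℝ ≤ A * ‖x‖ ^ 2
  high : ∀ x ∈ Vᗮ, B * ‖x‖ ^ 2 ≤ ⟪T x, x⟫_ℝ

variable {T T' : G →L[ℝ] G} {V V' W : Submodule ℝ G} {A B A' B' : ℝ}

theorem Exact.inv_orth (h : Exact T V A B) {x : G} (hx : x ∈ Vᗮ) : T x ∈ Vᗮ := by
  rw [Submodule.mem_orthogonal]
  intro u hu
  rw [← h.symm]
  exact (Submodule.mem_orthogonal V x).1 hx _ (h.inv u hu)

theorem Exact.eig_dist [FiniteDimensional ℝ G] (h : Exact T' V' A' B') {v : G} {lam : ℝ}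
    (hv : T v = lam • v) :
    (B' - lam) * ‖v - V'.starProjection v‖ ≤ ‖(T' - T) v‖ := by
  set y := V'.starProjection v with hy
  set z := v - y with hz
  have hyV : y ∈ V' := V'.starProjection_apply_mem v
  have hzV : z ∈ V'ᗮ := V'.sub_starProjection_mem_orthogonal v
  have h1 := h.high z hzV
  have h2 : ⟪T' z, z⟫_ℝ = ⟪T' v, z⟫_ℝ := by
    have : ⟪T' y, z⟫_ℝ = 0 := (Submodule.mem_orthogonal V' z).1 hzV _ (h.inv y hyV)
    rw [hz, map_sub, inner_sub_left, ← hz, this, sub_zero]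
  have h3 : ⟪v, z⟫_ℝ = ‖z‖ ^ 2 := by
    have : ⟪y, z⟫_ℝ = 0 := (Submodule.mem_orthogonal V' z).1 hzV _ hyV
    have hv' : v = y + z := by rw [hz]; abel
    calc ⟪v, z⟫_ℝ = ⟪y + z, z⟫_ℝ := by rw [← hv']
      _ = ‖z‖ ^ 2 := by rw [inner_add_left, this, zero_add, real_inner_self_eq_norm_sq]
  have h4 : ⟪T' v, z⟫_ℝ = ⟪(T' - T) v, z⟫_ℝ + lam * ‖z‖ ^ 2 := by
    rw [sub_apply, inner_sub_left, hv, real_inner_smul_left, h3]; ring
  have h5 : ⟪(T' - T) v, z⟫_ℝ ≤ ‖(T' - T) v‖ * ‖z‖ := real_inner_le_norm _ _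
  have h6 : ((B' - lam) * ‖z‖) * ‖z‖ ≤ ‖(T' - T) v‖ * ‖z‖ := by nlinarith
  rcases (norm_nonneg z).eq_or_lt with h0 | h0
  · rw [← h0, mul_zero]; exact norm_nonneg _
  · exact le_of_mul_le_mul_right h6 h0

/-- eigenbasis of an exact low space -/
theorem Exact.exists_basis [FiniteDimensional ℝ G] (h : Exact T V A B) :
    ∃ (b : OrthonormalBasis (Fin (Module.finrank ℝ V)) ℝ V)
      (lam : Fin (Module.finrank ℝ V) → ℝ),
      (∀ i, T (b i) = lam i • (b i : G)) ∧ ∀ i, lam i ≤ A := by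
  have hT : (T : G →ₗ[ℝ] G).IsSymmetric := h.symm
  have hV := hT.restrict_invariant (V := V) h.inv
  refine ⟨hV.eigenvectorBasis rfl, hV.eigenvalues rfl, fun i => ?_, fun i => ?_⟩
  · have h1 := hV.apply_eigenvectorBasis rfl i
    exact congrArg (Subtype.val) h1
  · have h1 := hV.apply_eigenvectorBasis rfl i
    have h2 : T (hV.eigenvectorBasis rfl i) =
        hV.eigenvalues rfl i • ((hV.eigenvectorBasis rfl i : V) : G) :=
      congrArg (Subtype.val) h1
    have h3 := h.low _ (hV.eigenvectorBasis rfl i).2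
    have h4 : ‖((hV.eigenvectorBasis rfl i : V) : G)‖ = 1 :=
      (hV.eigenvectorBasis rfl).orthonormal.1 i
    rw [h2, real_inner_smul_left, real_inner_self_eq_norm_sq, h4] at h3
    linarith

/-- distance of exact low spaces -/
theorem Exact.dist [FiniteDimensional ℝ G] (h : Exact T V A B) (h' : Exact T' V' A' B')
    (hAB : A < B') {x : G} (hx : x ∈ V) :
    ‖x - V'.starProjection x‖ ≤
      Module.finrank ℝ V * (‖T' - T‖ / (B' - A)) * ‖x‖ := by
  obtain ⟨b, lam, hb, hlam⟩ := h.exists_basis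
  have hpos : 0 < B' - A := by linarith
  have hbi : ∀ i, ‖(b i : G) - V'.starProjection (b i : G)‖ ≤ ‖T' - T‖ / (B' - A) := by
    intro i
    rw [le_div_iff₀ hpos]
    have h1 := h'.eig_dist (hb i)
    have h2 : ‖(T' - T) (b i : G)‖ ≤ ‖T' - T‖ := by
      have h3 := (T' - T).le_opNorm (b i : G)
      have h4 : ‖(b i : G)‖ = 1 := b.orthonormal.1 i
      rwa [h4, mul_one] at h3
    have h5 : (B' - A) * ‖(b i : G) - V'.starProjection (b i : G)‖ ≤
        (B' - lam i) * ‖(b i : G) - V'.starProjection (b i : G)‖ :=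
      mul_le_mul_of_nonneg_right (by linarith [hlam i]) (norm_nonneg _)
    linarith
  have hsum := b.sum_repr' ⟨x, hx⟩
  have hx' : x = ∑ i, ⟪(b i : G), x⟫_ℝ • (b i : G) := by
    have := congrArg Subtype.val hsum
    simpa using this.symm
  have hdec : x - V'.starProjection x =
      ∑ i, ⟪(b i : G), x⟫_ℝ • ((b i : G) - V'.starProjection (b i : G)) := by
    conv_lhs => rw [hx']
    rw [map_sum, ← Finset.sum_sub_distrib]
    refine Finset.sum_congr rfl fun i _ => ?_
    rw [map_smul, smul_sub]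
  rw [hdec]
  calc ‖∑ i, ⟪(b i : G), x⟫_ℝ • ((b i : G) - V'.starProjection (b i : G))‖
      ≤ ∑ i, ‖⟪(b i : G), x⟫_ℝ • ((b i : G) - V'.starProjection (b i : G))‖ := norm_sum_le _ _
    _ ≤ ∑ _i : Fin (Module.finrank ℝ V), ‖T' - T‖ / (B' - A) * ‖x‖ := by
        refine Finset.sum_le_sum fun i _ => ?_
        rw [norm_smul, mul_comm]
        refine mul_le_mul (hbi i) ?_ (norm_nonneg _) (by positivity)
        have h1 := abs_real_inner_le_norm (b i : G) x
        have h4 : ‖(b i : G)‖ = 1 := b.orthonormal.1 i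
        rw [h4, one_mul] at h1
        exact h1
    _ = _ := by
        rw [Finset.sum_const, Finset.card_univ, Fintype.card_fin, nsmul_eq_mul]; ring

/-- distance of the projections -/
theorem Exact.proj_dist [FiniteDimensional ℝ G] (h : Exact T V A B) (h' : Exact T' V' A' B')
    (hAB : A < B') (hAB' : A' < B) (x : G) :
    ‖V.starProjection x - V'.starProjection x‖ ≤
      (Module.finrank ℝ V / (B' - A) + Module.finrank ℝ V' / (B - A')) * ‖T' - T‖ * ‖x‖ := by
  set y := V.starProjection x with hy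
  set w := V'.starProjection (x - y) with hw
  have hyV : y ∈ V := V.starProjection_apply_mem x
  have hwV : w ∈ V' := V'.starProjection_apply_mem _
  have e1 : V.starProjection x - V'.starProjection x = (y - V'.starProjection y) - w := by
    rw [hw, map_sub]; abel
  have h1 := h.dist h' hAB hyV
  have h2 : ‖y‖ ≤ ‖x‖ := V.norm_starProjection_apply_le x
  have h3 := h'.dist h hAB' hwV
  have h4 : ‖w‖ ^ 2 ≤ ‖x‖ * ‖w - V.starProjection w‖ := by
    have e2 : ‖w‖ ^ 2 = ⟪x - y, w⟫_ℝ := by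
      rw [← real_inner_self_eq_norm_sq]
      nth_rw 1 [hw]
      rw [Submodule.inner_starProjection_left_eq_right, V'.starProjection_mem_subspace_eq_self
        ⟨w, hwV⟩]
    have e3 : ⟪x - y, w⟫_ℝ = ⟪x, w - V.starProjection w⟫_ℝ := by
      rw [inner_sub_left, inner_sub_right, hy, Submodule.inner_starProjection_left_eq_right]
    rw [e2, e3]
    exact real_inner_le_norm _ _
  have h5 : ‖w‖ ≤ Module.finrank ℝ V' * (‖T - T'‖ / (B - A')) * ‖x‖ := by
    rcases (norm_nonneg w).eq_or_lt with h0 | h0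
    · rw [← h0]
      have : 0 < B - A' := by linarith
      positivity
    · have h6 : ‖w‖ * ‖w‖ ≤ (Module.finrank ℝ V' * (‖T - T'‖ / (B - A')) * ‖x‖) * ‖w‖ := by
        have h7 := mul_le_mul_of_nonneg_left h3 (norm_nonneg x)
        nlinarith
      exact le_of_mul_le_mul_right h6 h0
  rw [e1]
  have h8 : Module.finrank ℝ V * (‖T' - T‖ / (B' - A)) * ‖y‖ ≤
      Module.finrank ℝ V * (‖T' - T‖ / (B' - A)) * ‖x‖ := by
    have : 0 < B' - A := by linarith
    exact mul_le_mul_of_nonneg_left h2 (by positivity)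
  have h9 : ‖T - T'‖ = ‖T' - T‖ := norm_sub_rev _ _
  rw [h9] at h5
  calc ‖(y - V'.starProjection y) - w‖ ≤ ‖y - V'.starProjection y‖ + ‖w‖ := norm_sub_le _ _
    _ ≤ Module.finrank ℝ V * (‖T' - T‖ / (B' - A)) * ‖x‖ +
        Module.finrank ℝ V' * (‖T' - T‖ / (B - A')) * ‖x‖ := by linarith
    _ = _ := by ring

/-- uniqueness of the exact low space of a given dimension -/
theorem Exact.unique [FiniteDimensional ℝ G] (h : Exact T V A B) (h' : Exact T V' A' B')
    (hAB : A < B) (hAB' : A' < B') (hd : Module.finrank ℝ V = Module.finrank ℝ V') : V = V' := by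
  have key : ∀ {U U' : Submodule ℝ G} {a b a' b' : ℝ}, Exact T U a b → Exact T U' a' b' →
      a < b' → U ≤ U' := by
    intro U U' a b a' b' hU hU' hab x hx
    have h1 := hU.dist hU' hab hx
    rw [sub_self, norm_zero, zero_div, mul_zero, zero_mul] at h1
    have h2 : x - U'.starProjection x = 0 := norm_le_zero_iff.1 h1
    rw [sub_eq_zero] at h2
    rw [h2]
    exact U'.starProjection_apply_mem x
  rcases lt_or_ge A B' with h1 | h1
  · exact Submodule.eq_of_le_of_finrank_eq (key h h' h1) hd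
  · have h2 : A' < B := by linarith
    exact (Submodule.eq_of_le_of_finrank_eq (key h' h h2) hd.symm).symm

theorem finrank_le_of_inf_orth [FiniteDimensional ℝ G]
    (h : ∀ x ∈ W, x ∈ Vᗮ → x = 0) : Module.finrank ℝ W ≤ Module.finrank ℝ V := by
  set P : W →ₗ[ℝ] V := (V.orthogonalProjectionOnto : G →ₗ[ℝ] V) ∘ₗ W.subtype with hP
  refine LinearMap.finrank_le_finrank_of_injective (f := P) ?_
  rw [← LinearMap.ker_eq_bot, LinearMap.ker_eq_bot']
  intro x hx
  have h1 : V.orthogonalProjectionOnto (x : G) = 0 := hx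
  rw [Submodule.orthogonalProjectionOnto_eq_zero_iff] at h1
  exact Subtype.ext (h x x.2 h1)

/-- existence of the exact low space from a separating space -/
theorem exists_exact [FiniteDimensional ℝ G] (hs : ∀ x y, ⟪T x, y⟫_ℝ = ⟪x, T y⟫_ℝ)
    (hAB : A < B) (hlow : ∀ x ∈ W, ⟪T x, x⟫_ℝ ≤ A * ‖x‖ ^ 2)
    (hhigh : ∀ x ∈ Wᗮ, B * ‖x‖ ^ 2 ≤ ⟪T x, x⟫_ℝ) :
    ∃ V : Submodule ℝ G, Module.finrank ℝ V = Module.finrank ℝ W ∧ Exact T V A B := by
  classical
  have hT : (T : G →ₗ[ℝ] G).IsSymmetric := hs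
  set v := hT.eigenvectorBasis rfl with hv
  set lam := hT.eigenvalues rfl with hlam
  have hTv : ∀ i, T (v i) = lam i • v i := fun i => by
    exact hT.apply_eigenvectorBasis rfl i
  have hcoef : ∀ x i, ⟪v i, T x⟫_ℝ = lam i * ⟪v i, x⟫_ℝ := fun x i => by
    rw [← hs, hTv, real_inner_smul_left]
  have hnorm : ∀ x, ‖x‖ ^ 2 = ∑ i, ⟪v i, x⟫_ℝ ^ 2 := fun x => by
    rw [← real_inner_self_eq_norm_sq, ← v.sum_inner_mul_inner x x]
    refine Finset.sum_congr rfl fun i _ => ?_
    rw [real_inner_comm x (v i)]; ring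
  have hquad : ∀ x, ⟪T x, x⟫_ℝ = ∑ i, lam i * ⟪v i, x⟫_ℝ ^ 2 := fun x => by
    rw [← v.sum_inner_mul_inner (T x) x]
    refine Finset.sum_congr rfl fun i _ => ?_
    rw [real_inner_comm (v i) (T x), hcoef]; ring
  set U : Finset (Fin (Module.finrank ℝ G)) → Submodule ℝ G :=
    fun s => Submodule.span ℝ (v '' s) with hU
  have hin : ∀ s x, x ∈ U s → ∀ i, i ∉ s → ⟪v i, x⟫_ℝ = 0 := by
    intro s x hx i hi
    induction hx using Submodule.span_induction with
    | mem y hy =>
      obtain ⟨j, hj, rfl⟩ := hy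
      exact v.orthonormal.2 (by rintro rfl; exact hi hj)
    | zero => exact inner_zero_right _
    | add y z _ _ hy hz => rw [inner_add_right, hy, hz, add_zero]
    | smul c y _ hy => rw [real_inner_smul_right, hy, mul_zero]
  have hor : ∀ s x, x ∈ (U s)ᗮ → ∀ i ∈ s, ⟪v i, x⟫_ℝ = 0 := by
    intro s x hx i hi
    exact (Submodule.mem_orthogonal _ _).1 hx _ (Submodule.subset_span ⟨i, hi, rfl⟩)
  have hinv : ∀ s x, x ∈ U s → T x ∈ U s := by
    intro s x hx
    induction hx using Submodule.span_induction with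
    | mem y hy =>
      obtain ⟨j, hj, rfl⟩ := hy
      rw [hTv]
      exact Submodule.smul_mem _ _ (Submodule.subset_span ⟨j, hj, rfl⟩)
    | zero => rw [map_zero]; exact Submodule.zero_mem _
    | add y z _ _ hy hz => rw [map_add]; exact Submodule.add_mem _ hy hz
    | smul c y _ hy => rw [map_smul]; exact Submodule.smul_mem _ _ hy
  set s1 : Finset (Fin (Module.finrank ℝ G)) := Finset.univ.filter fun i => lam i ≤ A with hs1
  set s2 : Finset (Fin (Module.finrank ℝ G)) := Finset.univ.filter fun i => lam i < B with hs2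
  have h12 : s1 ⊆ s2 := by
    intro i hi
    simp only [hs1, hs2, Finset.mem_filter, Finset.mem_univ, true_and] at hi ⊢
    linarith
  have hU12 : U s1 ≤ U s2 := Submodule.span_mono (Set.image_mono (by exact_mod_cast h12))
  have hd1 : Module.finrank ℝ W ≤ Module.finrank ℝ (U s1) := by
    refine finrank_le_of_inf_orth fun x hxW hx => ?_
    have h1 := hlow x hxW
    rw [hquad, hnorm, Finset.mul_sum] at h1
    have h2 : ∀ i, A * ⟪v i, x⟫_ℝ ^ 2 ≤ lam i * ⟪v i, x⟫_ℝ ^ 2 := fun i => by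
      by_cases hi : i ∈ s1
      · rw [hor s1 x hx i hi]; simp
      · refine mul_le_mul_of_nonneg_right ?_ (sq_nonneg _)
        simp only [hs1, Finset.mem_filter, Finset.mem_univ, true_and, not_le] at hi
        exact hi.le
    have h3 : ∑ i, A * ⟪v i, x⟫_ℝ ^ 2 = ∑ i, lam i * ⟪v i, x⟫_ℝ ^ 2 :=
      le_antisymm (Finset.sum_le_sum fun i _ => h2 i) h1
    have h4 := (Finset.sum_eq_sum_iff_of_le fun i _ => h2 i).1 h3
    have h5 : ∀ i, ⟪v i, x⟫_ℝ = 0 := fun i => by
      by_cases hi : i ∈ s1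
      · exact hor s1 x hx i hi
      · have h6 := h4 i (Finset.mem_univ i)
        simp only [hs1, Finset.mem_filter, Finset.mem_univ, true_and, not_le] at hi
        have h7 : (lam i - A) * ⟪v i, x⟫_ℝ ^ 2 = 0 := by linarith
        rcases mul_eq_zero.1 h7 with h8 | h8
        · linarith
        · exact pow_eq_zero_iff (two_ne_zero) |>.1 h8
    have h6 : ‖x‖ ^ 2 = 0 := by rw [hnorm]; simp [h5]
    exact norm_eq_zero.1 (pow_eq_zero_iff (two_ne_zero) |>.1 h6)
  have hd2 : Module.finrank ℝ (U s2) ≤ Module.finrank ℝ W := by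
    refine finrank_le_of_inf_orth fun x hx hxW => ?_
    have h1 := hhigh x hxW
    rw [hquad, hnorm, Finset.mul_sum] at h1
    have h2 : ∀ i, lam i * ⟪v i, x⟫_ℝ ^ 2 ≤ B * ⟪v i, x⟫_ℝ ^ 2 := fun i => by
      by_cases hi : i ∈ s2
      · refine mul_le_mul_of_nonneg_right ?_ (sq_nonneg _)
        simp only [hs2, Finset.mem_filter, Finset.mem_univ, true_and] at hi
        exact hi.le
      · rw [hin s2 x hx i hi]; simp
    have h3 : ∑ i, lam i * ⟪v i, x⟫_ℝ ^ 2 = ∑ i, B * ⟪v i, x⟫_ℝ ^ 2 :=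
      le_antisymm (Finset.sum_le_sum fun i _ => h2 i) h1
    have h4 := (Finset.sum_eq_sum_iff_of_le fun i _ => h2 i).1 h3
    have h5 : ∀ i, ⟪v i, x⟫_ℝ = 0 := fun i => by
      by_cases hi : i ∈ s2
      · have h6 := h4 i (Finset.mem_univ i)
        simp only [hs2, Finset.mem_filter, Finset.mem_univ, true_and] at hi
        have h7 : (B - lam i) * ⟪v i, x⟫_ℝ ^ 2 = 0 := by linarith
        rcases mul_eq_zero.1 h7 with h8 | h8
        · linarith
        · exact pow_eq_zero_iff (two_ne_zero) |>.1 h8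
      · exact hin s2 x hx i hi
    have h6 : ‖x‖ ^ 2 = 0 := by rw [hnorm]; simp [h5]
    exact norm_eq_zero.1 (pow_eq_zero_iff (two_ne_zero) |>.1 h6)
  have hd12 : Module.finrank ℝ (U s1) ≤ Module.finrank ℝ (U s2) := Submodule.finrank_mono hU12
  have hUU : U s1 = U s2 := Submodule.eq_of_le_of_finrank_le hU12 (by omega)
  refine ⟨U s1, by omega, hs, hinv s1, fun x hx => ?_, fun x hx => ?_⟩
  · rw [hquad, hnorm, Finset.mul_sum]
    refine Finset.sum_le_sum fun i _ => ?_
    by_cases hi : i ∈ s1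
    · refine mul_le_mul_of_nonneg_right ?_ (sq_nonneg _)
      simp only [hs1, Finset.mem_filter, Finset.mem_univ, true_and] at hi
      exact hi
    · rw [hin s1 x hx i hi]; simp
  · rw [hquad, hnorm, Finset.mul_sum]
    rw [hUU] at hx
    refine Finset.sum_le_sum fun i _ => ?_
    by_cases hi : i ∈ s2
    · rw [hor s2 x hx i hi]; simp
    · refine mul_le_mul_of_nonneg_right ?_ (sq_nonneg _)
      simp only [hs2, Finset.mem_filter, Finset.mem_univ, true_and, not_lt] at hi
      exact hi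

end Crest.Agent.R202.LowF
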