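/-
R202 (helper14): frames, pairing determinants and the sign cocycle.
-/
import Mathlib
import Crest.Agent.R202.LowExact

set_option autoImplicit false

open Set
open scoped InnerProductSpace

namespace Crest.Agent.R202.LowF

variable {G : Type*} [NormedAddCommGroup G] [InnerProductSpace ℝ G] {l : ℕ}

/-- pairing matrix -/
noncomputable def gm (p q : Fin l → G) : Matrix (Fin l) (Fin l) ℝ :=
  Matrix.of fun i j => ⟪p i, q j⟫_ℝ

/-- linear change of a frame -/
noncomputable def act (N : Matrix (Fin l) (Fin l) ℝ) (p : Fin l → G) : Fin l → G :=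
  fun i => ∑ j, N i j • p j

theorem gm_act (N : Matrix (Fin l) (Fin l) ℝ) (p q : Fin l → G) :
    gm (act N p) q = N * gm p q := by
  ext i j
  simp only [gm, act, Matrix.of_apply, Matrix.mul_apply, sum_inner, real_inner_smul_left]

theorem gm_transpose (p q : Fin l → G) : (gm p q).transpose = gm q p := by
  ext i j
  simp only [gm, Matrix.transpose_apply, Matrix.of_apply]
  exact real_inner_comm _ _

theorem det_gm_comm (p q : Fin l → G) : (gm p q).det = (gm q p).det := by
  rw [← gm_transpose, Matrix.det_transpose]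

theorem det_gm_act (N : Matrix (Fin l) (Fin l) ℝ) (p q : Fin l → G) :
    (gm (act N p) q).det = N.det * (gm p q).det := by
  rw [gm_act, Matrix.det_mul]

theorem gm_self_pos {p : Fin l → G} (hp : LinearIndependent ℝ p) : 0 < (gm p p).det :=
  (Matrix.posDef_gram_of_linearIndependent hp).det_pos

theorem det_gm_ne_zero {p q : Fin l → G} (hp : LinearIndependent ℝ p)
    (h : ∀ x ∈ Submodule.span ℝ (range p), (∀ j, ⟪q j, x⟫_ℝ = 0) → x = 0) :
    (gm p q).det ≠ 0 := by
  intro h0
  obtain ⟨c, hc0, hc⟩ := Matrix.exists_vecMul_eq_zero_iff.2 h0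
  have h1 : ∑ i, c i • p i = 0 := by
    refine h _ (Submodule.sum_mem _ fun i _ =>
      Submodule.smul_mem _ _ (Submodule.subset_span (mem_range_self i))) fun j => ?_
    have h2 := congrFun hc j
    simp only [Matrix.vecMul, dotProduct, gm, Matrix.of_apply, Pi.zero_apply] at h2
    rw [inner_sum, ← h2]
    refine Finset.sum_congr rfl fun i _ => ?_
    rw [real_inner_smul_right, real_inner_comm]
  have h3 := Fintype.linearIndependent_iff.1 hp c h1
  exact hc0 (funext h3)

theorem linearIndependent_act {N : Matrix (Fin l) (Fin l) ℝ} (hN : N.det ≠ 0) {p : Fin l → G}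
    (hp : LinearIndependent ℝ p) : LinearIndependent ℝ (act N p) := by
  rw [Fintype.linearIndependent_iff]
  intro c hc
  have h1 : ∑ j, (∑ i, c i * N i j) • p j = 0 := by
    rw [← hc]
    simp only [act, Finset.smul_sum, Finset.sum_smul, smul_smul]
    rw [Finset.sum_comm]
  have h2 := Fintype.linearIndependent_iff.1 hp _ h1
  have h3 : Matrix.vecMul c N = 0 := by
    ext j
    simpa [Matrix.vecMul, dotProduct] using h2 j
  have h4 := Matrix.eq_zero_of_vecMul_eq_zero hN h3
  exact fun i => congrFun h4 i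

theorem span_act_le (N : Matrix (Fin l) (Fin l) ℝ) (p : Fin l → G) :
    Submodule.span ℝ (range (act N p)) ≤ Submodule.span ℝ (range p) := by
  rw [Submodule.span_le]
  rintro _ ⟨i, rfl⟩
  exact Submodule.sum_mem _ fun j _ =>
    Submodule.smul_mem _ _ (Submodule.subset_span (mem_range_self j))

theorem span_act [FiniteDimensional ℝ G] {N : Matrix (Fin l) (Fin l) ℝ} (hN : N.det ≠ 0)
    {p : Fin l → G} (hp : LinearIndependent ℝ p) :
    Submodule.span ℝ (range (act N p)) = Submodule.span ℝ (range p) := by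
  refine Submodule.eq_of_le_of_finrank_eq (span_act_le N p) ?_
  rw [finrank_span_eq_card hp, finrank_span_eq_card (linearIndependent_act hN hp)]

/-- two frames of the same space differ by an invertible matrix -/
theorem exists_act [FiniteDimensional ℝ G] {p q : Fin l → G} (hq : LinearIndependent ℝ q)
    (h : ∀ i, q i ∈ Submodule.span ℝ (range p)) :
    ∃ N : Matrix (Fin l) (Fin l) ℝ, N.det ≠ 0 ∧ q = act N p := by
  have h1 : ∀ i, ∃ c : Fin l → ℝ, ∑ j, c j • p j = q i := fun i =>
    (Submodule.mem_span_range_iff_exists_fun ℝ).1 (h i)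
  choose c hc using h1
  refine ⟨Matrix.of c, ?_, funext fun i => (hc i).symm⟩
  intro h0
  obtain ⟨d, hd0, hd⟩ := Matrix.exists_vecMul_eq_zero_iff.2 h0
  have h2 : ∑ i, d i • q i = 0 := by
    have h3 : ∀ j, ∑ i, d i * c i j = 0 := fun j => by
      have := congrFun hd j
      simpa [Matrix.vecMul, dotProduct] using this
    calc ∑ i, d i • q i = ∑ j, (∑ i, d i * c i j) • p j := by
          simp only [← hc, Finset.smul_sum, Finset.sum_smul, smul_smul]
          rw [Finset.sum_comm]
      _ = 0 := by simp [h3]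
  exact hd0 (funext (Fintype.linearIndependent_iff.1 hq d h2))

theorem mem_orth_span {p : Fin l → G} {x : G} :
    x ∈ (Submodule.span ℝ (range p))ᗮ ↔ ∀ i, ⟪p i, x⟫_ℝ = 0 := by
  rw [Submodule.mem_orthogonal]
  constructor
  · intro h i
    exact h _ (Submodule.subset_span (mem_range_self i))
  · intro h u hu
    induction hu using Submodule.span_induction with
    | mem y hy => obtain ⟨i, rfl⟩ := hy; exact h i
    | zero => exact inner_zero_left _
    | add y z _ _ hy hz => rw [inner_add_left, hy, hz, add_zero]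
    | smul c y _ hy => rw [real_inner_smul_left, hy, mul_zero]

/-- the frame `p` separates `T` with levels `A`, `B` -/
structure Sep (T : G →L[ℝ] G) (p : Fin l → G) (A B : ℝ) : Prop where
  li : LinearIndependent ℝ p
  low : ∀ x ∈ Submodule.span ℝ (range p), ⟪T x, x⟫_ℝ ≤ A * ‖x‖ ^ 2
  high : ∀ x, (∀ i, ⟪p i, x⟫_ℝ = 0) → B * ‖x‖ ^ 2 ≤ ⟪T x, x⟫_ℝ

variable {T : G →L[ℝ] G} {p q : Fin l → G} {A B A' B' : ℝ}

theorem Sep.high' (h : Sep T p A B) {x : G} (hx : x ∈ (Submodule.span ℝ (range p))ᗮ) :
    B * ‖x‖ ^ 2 ≤ ⟪T x, x⟫_ℝ := h.high x (mem_orth_span.1 hx)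

omit [InnerProductSpace ℝ G] in
theorem eq_zero_of_levels {a b t : ℝ} {x : G} (hab : a < b) (h1 : t ≤ a * ‖x‖ ^ 2)
    (h2 : b * ‖x‖ ^ 2 ≤ t) : x = 0 := by
  by_contra hx
  have : 0 < ‖x‖ ^ 2 := by positivity
  nlinarith

theorem Sep.exists_exact [FiniteDimensional ℝ G] (h : Sep T p A B)
    (hs : ∀ x y, ⟪T x, y⟫_ℝ = ⟪x, T y⟫_ℝ) (hAB : A < B) :
    ∃ V : Submodule ℝ G, Module.finrank ℝ V = l ∧ Exact T V A B := by
  obtain ⟨V, hV, hE⟩ := LowF.exists_exact (W := Submodule.span ℝ (range p)) hs hAB h.low
    fun x hx => h.high' hx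
  refine ⟨V, ?_, hE⟩
  rw [hV, finrank_span_eq_card h.li, Fintype.card_fin]

/-- the projection of a separating frame to the exact low space is a frame of it -/
theorem Sep.proj_li [FiniteDimensional ℝ G] (h : Sep T p A B) {V : Submodule ℝ G}
    (hE : Exact T V A' B') (hAB : A < B') : LinearIndependent ℝ fun i => V.starProjection (p i) := by
  rw [Fintype.linearIndependent_iff]
  intro c hc
  have h1 : V.starProjection (∑ i, c i • p i) = 0 := by
    rw [map_sum, ← hc]
    exact Finset.sum_congr rfl fun i _ => map_smul _ _ _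
  have h2 : ∑ i, c i • p i ∈ Vᗮ := (Submodule.starProjection_apply_eq_zero_iff V).1 h1
  have h3 : ∑ i, c i • p i ∈ Submodule.span ℝ (range p) :=
    Submodule.sum_mem _ fun i _ => Submodule.smul_mem _ _ (Submodule.subset_span (mem_range_self i))
  have h4 := eq_zero_of_levels hAB (h.low _ h3) (hE.high _ h2)
  exact Fintype.linearIndependent_iff.1 h.li c h4

theorem Sep.proj_span [FiniteDimensional ℝ G] (h : Sep T p A B) {V : Submodule ℝ G}
    (hE : Exact T V A' B') (hAB : A < B') (hV : Module.finrank ℝ V = l) :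
    Submodule.span ℝ (range fun i => V.starProjection (p i)) = V := by
  refine Submodule.eq_of_le_of_finrank_eq ?_ ?_
  · rw [Submodule.span_le]
    rintro _ ⟨i, rfl⟩
    exact V.starProjection_apply_mem _
  · rw [finrank_span_eq_card (h.proj_li hE hAB), Fintype.card_fin, hV]

/-- pairing of a frame with vectors in the low space does not see the projection -/
theorem gm_proj {V : Submodule ℝ G} [V.HasOrthogonalProjection] (p : Fin l → G) {f : Fin l → G}
    (hf : ∀ i, f i ∈ V) : gm (fun i => V.starProjection (p i)) f = gm p f := by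
  ext i j
  simp only [gm, Matrix.of_apply]
  rw [Submodule.inner_starProjection_left_eq_right,
    V.starProjection_mem_subspace_eq_self ⟨f j, hf j⟩]

/-- linear deformation of a separating frame to its projection: the pairing with `q` has constant
sign -/
theorem Sep.deform [FiniteDimensional ℝ G] (h : Sep T p A B) (h' : Sep T q A' B')
    {V : Submodule ℝ G} {a b : ℝ} (hE : Exact T V a b) (ha : a ≤ A) (hAb : A < b) (hAB : A < B') :
    0 < (gm (fun i => V.starProjection (p i)) q).det * (gm p q).det := by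
  set P := V.starProjection with hP
  -- the deformation
  set D : ℝ → Fin l → G := fun s i => P (p i) + s • (p i - P (p i)) with hD
  have hcont : Continuous fun s => (gm (D s) q).det := by
    refine Continuous.matrix_det ?_
    refine continuous_matrix fun i j => ?_
    simp only [gm, Matrix.of_apply, hD]
    fun_prop
  have hne : ∀ s ∈ Icc (0 : ℝ) 1, (gm (D s) q).det ≠ 0 := by
    intro s hs h0
    obtain ⟨c, hc0, hc⟩ := Matrix.exists_vecMul_eq_zero_iff.2 h0
    set x := ∑ i, c i • p i with hx
    have hxW : x ∈ Submodule.span ℝ (range p) :=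
      Submodule.sum_mem _ fun i _ =>
        Submodule.smul_mem _ _ (Submodule.subset_span (mem_range_self i))
    set y := P x with hy
    set z := x - P x with hz
    have hyV : y ∈ V := V.starProjection_apply_mem _
    have hzV : z ∈ Vᗮ := V.sub_starProjection_mem_orthogonal x
    have e1 : ∑ i, c i • D s i = y + s • z := by
      simp only [hD, smul_add, Finset.sum_add_distrib]
      congr 1
      · rw [hy, hx, map_sum]
        exact Finset.sum_congr rfl fun i _ => (map_smul _ _ _).symm
      · rw [hz, hx, map_sum, ← Finset.sum_sub_distrib, Finset.smul_sum]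
        refine Finset.sum_congr rfl fun i _ => ?_
        rw [map_smul, ← smul_sub, smul_comm]
    have e2 : ∀ j, ⟪q j, y + s • z⟫_ℝ = 0 := fun j => by
      rw [← e1, inner_sum]
      have h2 := congrFun hc j
      simp only [Matrix.vecMul, dotProduct, gm, Matrix.of_apply, Pi.zero_apply] at h2
      rw [← h2]
      refine Finset.sum_congr rfl fun i _ => ?_
      rw [real_inner_smul_right, real_inner_comm]
    have hyz : ⟪y, z⟫_ℝ = 0 := (Submodule.mem_orthogonal V z).1 hzV _ hyV
    have hTyz : ⟪T y, z⟫_ℝ = 0 := (Submodule.mem_orthogonal V z).1 hzV _ (hE.inv y hyV)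
    have hTzy : ⟪T z, y⟫_ℝ = 0 := by rw [hE.symm, real_inner_comm]; exact hTyz
    have q1 : ∀ u : ℝ, ⟪T (y + u • z), y + u • z⟫_ℝ = ⟪T y, y⟫_ℝ + u ^ 2 * ⟪T z, z⟫_ℝ := fun u => by
      simp only [map_add, map_smul, inner_add_left, inner_add_right, real_inner_smul_left,
        real_inner_smul_right, hTyz, hTzy]
      ring
    have q2 : ∀ u : ℝ, ‖y + u • z‖ ^ 2 = ‖y‖ ^ 2 + u ^ 2 * ‖z‖ ^ 2 := fun u => by
      have hzy : ⟪z, y⟫_ℝ = 0 := by rw [real_inner_comm]; exact hyz
      rw [← real_inner_self_eq_norm_sq]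
      simp only [inner_add_left, inner_add_right, real_inner_smul_left,
        real_inner_smul_right, hyz, hzy]
      rw [real_inner_self_eq_norm_sq, real_inner_self_eq_norm_sq]
      ring
    have hxyz : x = y + (1 : ℝ) • z := by rw [hz, hy, one_smul]; abel
    have b1 := h.low x hxW
    rw [hxyz, q1, q2] at b1
    have b0 := hE.low y hyV
    have b2 := h'.high _ e2
    have b3 : ⟪T (y + s • z), y + s • z⟫_ℝ ≤ A * ‖y + s • z‖ ^ 2 := by
      rw [q1, q2]
      have b4 : ⟪T y, y⟫_ℝ ≤ A * ‖y‖ ^ 2 :=
        b0.trans (mul_le_mul_of_nonneg_right ha (sq_nonneg _))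
      have hs1 : s ^ 2 ≤ 1 := by nlinarith [hs.1, hs.2]
      have hs0 : 0 ≤ s ^ 2 := sq_nonneg s
      nlinarith
    have hz0 := eq_zero_of_levels hAB b3 b2
    have hy0 : y = 0 := by
      have h5 := q2 s
      rw [hz0, norm_zero] at h5
      have h6 : ‖y‖ ^ 2 = 0 := by nlinarith [sq_nonneg ‖y‖, mul_nonneg (sq_nonneg s) (sq_nonneg ‖z‖)]
      exact norm_eq_zero.1 (pow_eq_zero_iff two_ne_zero |>.1 h6)
    have hxV : x ∈ Vᗮ := by
      rw [← Submodule.starProjection_apply_eq_zero_iff]; exact hy0
    have hx0 := eq_zero_of_levels hAb (h.low x hxW) (hE.high x hxV)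
    exact hc0 (funext (Fintype.linearIndependent_iff.1 h.li c hx0))
  have hD0 : D 0 = fun i => P (p i) := by funext i; simp [hD]
  have hD1 : D 1 = p := by funext i; simp [hD]
  by_contra hcon
  push Not at hcon
  have h0 := hne 0 ⟨le_rfl, zero_le_one⟩
  have h1 := hne 1 ⟨zero_le_one, le_rfl⟩
  rw [← hD0, ← hD1] at hcon
  have hneg : (gm (D 0) q).det * (gm (D 1) q).det < 0 := by
    rcases hcon.lt_or_eq with h3 | h3
    · rwa [hD1] at h3 ⊢
    · rw [hD1] at h3 h1
      rcases mul_eq_zero.1 h3 with h4 | h4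
      · exact absurd h4 h0
      · exact absurd h4 h1
  have hivt : (0 : ℝ) ∈ (fun s => (gm (D s) q).det) '' Icc 0 1 := by
    rcases lt_or_gt_of_ne h0 with h4 | h4
    · have h5 : 0 < (gm (D 1) q).det := by nlinarith
      exact intermediate_value_Icc zero_le_one hcont.continuousOn ⟨h4.le, h5.le⟩
    · have h5 : (gm (D 1) q).det < 0 := by nlinarith
      exact intermediate_value_Icc' zero_le_one hcont.continuousOn ⟨h5.le, h4.le⟩
  obtain ⟨s, hs, hs0⟩ := hivt
  exact hne s hs hs0

/-- cocycle, one order of the levels -/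
theorem Sep.cocycle_aux [FiniteDimensional ℝ G] (h : Sep T p A B) (h' : Sep T q A' B')
    {f : Fin l → G} (hf : LinearIndependent ℝ f)
    (hE : Exact T (Submodule.span ℝ (range f)) A B) (hlt : A < B) (hAB : A < B') :
    0 < (gm f p).det * (gm p q).det * (gm q f).det := by
  set V := Submodule.span ℝ (range f) with hV
  have h1 := h.deform h' hE le_rfl hlt hAB
  have hvli := h.proj_li hE hlt
  obtain ⟨N, hN, hvN⟩ := exists_act (p := f) hvli fun i => V.starProjection_apply_mem (p i)
  have h2 : (gm p f).det = N.det * (gm f f).det := by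
    rw [← gm_proj (V := V) p fun i => Submodule.subset_span (mem_range_self i), hvN, det_gm_act]
  rw [hvN, det_gm_act] at h1
  rw [det_gm_comm f p, h2, det_gm_comm q f]
  have h3 := gm_self_pos hf
  have e : N.det * (gm f f).det * (gm p q).det * (gm f q).det =
    (gm f f).det * (N.det * (gm f q).det * (gm p q).det) := by ring
  rw [e]
  exact mul_pos h3 h1

/-- **sign cocycle**: `f` frame of the exact low space, `p`, `q` separating frames -/
theorem Sep.cocycle [FiniteDimensional ℝ G] (h : Sep T p A B) (h' : Sep T q A' B')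
    {f : Fin l → G} (hf : LinearIndependent ℝ f)
    (hE : Exact T (Submodule.span ℝ (range f)) A B)
    (hE' : Exact T (Submodule.span ℝ (range f)) A' B') (hlt : A < B) (hlt' : A' < B') :
    0 < (gm f p).det * (gm p q).det * (gm q f).det := by
  rcases lt_or_ge A B' with h1 | h1
  · exact h.cocycle_aux h' hf hE hlt h1
  · have h2 := h'.cocycle_aux h hf hE' hlt' (by linarith)
    rw [det_gm_comm f p, det_gm_comm p q, det_gm_comm q f]
    have e : (gm p f).det * (gm q p).det * (gm f q).det =
      (gm f q).det * (gm q p).det * (gm p f).det := by ring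
    rwa [e]

end Crest.Agent.R202.LowF
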