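/-
R202 (helper14): continuous frames of the exact low space along a path, and the sign of the
holonomy from any chain of separating frames.
-/
import Mathlib
import Crest.Agent.R202.LowSign

set_option autoImplicit false

open Set
open scoped InnerProductSpace

namespace Crest.Agent.R202.LowF

variable {G : Type*} [NormedAddCommGroup G] [InnerProductSpace ℝ G] [FiniteDimensional ℝ G]
  {l : ℕ}

section Point

variable {T : G →L[ℝ] G} {p q : Fin l → G} {A B A' B' a b : ℝ} {V : Submodule ℝ G}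

/-- an exact low space of dimension `l` inherits the levels of every separating frame -/
theorem Exact.of_sep (hE : Exact T V a b) (hab : a < b) (hV : Module.finrank ℝ V = l)
    (h : Sep T p A B) (hAB : A < B) : Exact T V A B := by
  obtain ⟨V', hV', hE'⟩ := h.exists_exact hE.symm hAB
  have := hE.unique hE' hab hAB (by rw [hV, hV'])
  rw [this]
  exact hE'

omit [FiniteDimensional ℝ G] in
theorem finrank_span_frame {f : Fin l → G} (hf : LinearIndependent ℝ f) :
    Module.finrank ℝ (Submodule.span ℝ (range f)) = l := by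
  rw [finrank_span_eq_card hf, Fintype.card_fin]

/-- **sign cocycle**, arbitrary levels -/
theorem Sep.cocycle' (h : Sep T p A B) (h' : Sep T q A' B') (hlt : A < B) (hlt' : A' < B')
    {f : Fin l → G} (hf : LinearIndependent ℝ f)
    (hE : Exact T (Submodule.span ℝ (range f)) a b) (hab : a < b) :
    0 < (gm f p).det * (gm p q).det * (gm q f).det :=
  h.cocycle h' hf (hE.of_sep hab (finrank_span_frame hf) h hlt)
    (hE.of_sep hab (finrank_span_frame hf) h' hlt') hlt hlt'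

theorem Sep.det_exact_ne_zero (h : Sep T p A B) (hlt : A < B)
    {f : Fin l → G} (hf : LinearIndependent ℝ f)
    (hE : Exact T (Submodule.span ℝ (range f)) a b) (hab : a < b) : (gm f p).det ≠ 0 := by
  have hE' := hE.of_sep hab (finrank_span_frame hf) h hlt
  exact det_gm_ne_zero hf fun x hx hx' => eq_zero_of_levels hlt (hE'.low x hx) (h.high x hx')

end Point

/-- transport of a frame of the exact low space along an interval with a constant separating
frame -/
theorem exists_step {S : ℝ → G →L[ℝ] G} {α β A B : ℝ} {p e : Fin l → G} (hαβ : α ≤ β)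
    (hS : ContinuousOn S (Icc α β)) (hs : ∀ τ ∈ Icc α β, ∀ x y, ⟪S τ x, y⟫_ℝ = ⟪x, S τ y⟫_ℝ)
    (hAB : A < B) (hp : ∀ τ ∈ Icc α β, Sep (S τ) p A B) (he : LinearIndependent ℝ e)
    (hE : Exact (S α) (Submodule.span ℝ (range e)) A B) :
    ∃ f : ℝ → Fin l → G, ContinuousOn f (Icc α β) ∧ f α = e ∧
      ∀ τ ∈ Icc α β, LinearIndependent ℝ (f τ) ∧
        Exact (S τ) (Submodule.span ℝ (range (f τ))) A B := by
  have hex : ∀ τ, ∃ V : Submodule ℝ G, τ ∈ Icc α β → Module.finrank ℝ V = l ∧ Exact (S τ) V A B := by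
    intro τ
    by_cases hτ : τ ∈ Icc α β
    · obtain ⟨V, hV⟩ := (hp τ hτ).exists_exact (hs τ hτ) hAB
      exact ⟨V, fun _ => hV⟩
    · exact ⟨⊥, fun h => absurd h hτ⟩
  choose V hV using hex
  have hα : α ∈ Icc α β := ⟨le_rfl, hαβ⟩
  -- projected frame
  set F : ℝ → Fin l → G := fun τ i => (V τ).starProjection (p i) with hF
  have hFli : ∀ τ ∈ Icc α β, LinearIndependent ℝ (F τ) := fun τ hτ =>
    (hp τ hτ).proj_li (hV τ hτ).2 hAB
  have hFspan : ∀ τ ∈ Icc α β, Submodule.span ℝ (range (F τ)) = V τ := fun τ hτ =>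
    (hp τ hτ).proj_span (hV τ hτ).2 hAB (hV τ hτ).1
  have hVe : V α = Submodule.span ℝ (range e) :=
    (hV α hα).2.unique hE hAB hAB (by rw [(hV α hα).1, finrank_span_frame he])
  have hproj : ∀ x, ContinuousOn (fun τ => (V τ).starProjection x) (Icc α β) := by
    intro x τ hτ
    rw [ContinuousWithinAt, tendsto_iff_norm_sub_tendsto_zero]
    have h1 : Filter.Tendsto (fun t => (l / (B - A) + l / (B - A)) * ‖S τ - S t‖ * ‖x‖)
        (nhdsWithin τ (Icc α β)) (nhds 0) := by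
      have h2 : Filter.Tendsto (fun t => ‖S τ - S t‖) (nhdsWithin τ (Icc α β)) (nhds 0) := by
        have h3 := (hS τ hτ)
        have h4 : Filter.Tendsto (fun t => ‖S t - S τ‖) (nhdsWithin τ (Icc α β)) (nhds 0) :=
          tendsto_iff_norm_sub_tendsto_zero.1 h3
        refine h4.congr fun t => norm_sub_rev _ _
      have h5 := (h2.const_mul ((l : ℝ) / (B - A) + l / (B - A))).mul_const ‖x‖
      simpa using h5
    refine squeeze_zero' (Filter.Eventually.of_forall fun t => norm_nonneg _) ?_ h1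
    filter_upwards [self_mem_nhdsWithin] with t ht
    have h6 := (hV t ht).2.proj_dist (hV τ hτ).2 hAB hAB x
    rwa [(hV t ht).1, (hV τ hτ).1] at h6
  obtain ⟨N, hN, hNe⟩ := exists_act (p := F α) he fun i => by
    rw [hFspan α hα, hVe]; exact Submodule.subset_span (mem_range_self i)
  refine ⟨fun τ => act N (F τ), ?_, hNe.symm, fun τ hτ => ⟨?_, ?_⟩⟩
  · refine continuousOn_pi.2 fun i => ?_
    simp only [act, hF]
    exact continuousOn_finsetSum _ fun j _ => (hproj (p j)).const_smul (N i j)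
  · exact linearIndependent_act hN (hFli τ hτ)
  · rw [span_act hN (hFli τ hτ), hFspan τ hτ]
    exact (hV τ hτ).2

/-- Patches on the uniform subdivision of `[0, 1]`, with one cell of overlap. -/
structure Patches (S : ℝ → G →L[ℝ] G) (r : ℕ) (p : ℕ → Fin l → G) (A B : ℕ → ℝ) (η : ℝ) :
    Prop where
  r_pos : 0 < r
  η_pos : 0 < η
  gap : ∀ i < r, A i + 2 * η ≤ B i
  sep : ∀ i < r, ∀ τ ∈ Icc (0 : ℝ) 1, (i : ℝ) / r ≤ τ → τ ≤ ((i : ℝ) + 2) / r →
    Sep (S τ) (p i) (A i) (B i)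

omit [FiniteDimensional ℝ G] in
theorem Patches.lt {S : ℝ → G →L[ℝ] G} {r : ℕ} {p : ℕ → Fin l → G} {A B : ℕ → ℝ} {η : ℝ}
    (h : Patches S r p A B η) {i : ℕ} (hi : i < r) : A i < B i := by
  have := h.gap i hi
  have := h.η_pos
  linarith

/-- continuous frame of the exact low space over `[0, 1]` -/
theorem Patches.exists_frame {S : ℝ → G →L[ℝ] G} {r : ℕ} {p : ℕ → Fin l → G} {A B : ℕ → ℝ}
    {η : ℝ} (h : Patches S r p A B η) (hS : ContinuousOn S (Icc 0 1))
    (hs : ∀ τ ∈ Icc (0 : ℝ) 1, ∀ x y, ⟪S τ x, y⟫_ℝ = ⟪x, S τ y⟫_ℝ) {e : Fin l → G}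
    (he : LinearIndependent ℝ e) {a b : ℝ} (hab : a < b)
    (hE : Exact (S 0) (Submodule.span ℝ (range e)) a b) :
    ∃ f : ℝ → Fin l → G, ContinuousOn f (Icc 0 1) ∧ f 0 = e ∧
      ∀ τ ∈ Icc (0 : ℝ) 1, LinearIndependent ℝ (f τ) ∧
        ∀ i < r, (i : ℝ) / r ≤ τ → τ ≤ ((i : ℝ) + 2) / r →
          Exact (S τ) (Submodule.span ℝ (range (f τ))) (A i) (B i) := by
  have hr : (0 : ℝ) < r := by exact_mod_cast h.r_pos
  have hr0 : (r : ℝ) ≠ 0 := hr.ne'
  have main : ∀ k : ℕ, k ≤ r → ∃ f : ℝ → Fin l → G, ContinuousOn f (Icc 0 ((k : ℝ) / r)) ∧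
      f 0 = e ∧ ∀ τ ∈ Icc (0 : ℝ) ((k : ℝ) / r), LinearIndependent ℝ (f τ) ∧
        ∃ a b, a < b ∧ Exact (S τ) (Submodule.span ℝ (range (f τ))) a b := by
    intro k
    induction k with
    | zero =>
      intro _
      refine ⟨fun _ => e, continuousOn_const, rfl, fun τ hτ => ⟨he, a, b, hab, ?_⟩⟩
      have : τ = 0 := by
        have h1 := hτ.2
        rw [Nat.cast_zero, zero_div] at h1
        exact le_antisymm h1 hτ.1
      rw [this]; exact hE
    | succ k ih =>
      intro hk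
      obtain ⟨f, hf, hf0, hfE⟩ := ih (by omega)
      have hkr : k < r := hk
      have hk0 : (0 : ℝ) ≤ (k : ℝ) / r := by positivity
      have hk1 : (k : ℝ) / r ≤ ((k + 1 : ℕ) : ℝ) / r := by
        apply div_le_div_of_nonneg_right _ hr.le
        push_cast; linarith
      have hk2 : ((k + 1 : ℕ) : ℝ) / r ≤ 1 := by
        rw [div_le_one hr]; exact_mod_cast hk
      have hk3 : ((k + 1 : ℕ) : ℝ) / r ≤ ((k : ℝ) + 2) / r := by
        apply div_le_div_of_nonneg_right _ hr.le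
        push_cast; linarith
      have hsub : Icc ((k : ℝ) / r) (((k + 1 : ℕ) : ℝ) / r) ⊆ Icc (0 : ℝ) 1 := fun τ hτ =>
        ⟨hk0.trans hτ.1, hτ.2.trans hk2⟩
      have hkk : (k : ℝ) / r ∈ Icc (0 : ℝ) ((k : ℝ) / r) := ⟨hk0, le_rfl⟩
      obtain ⟨a', b', hab', hEk⟩ := (hfE _ hkk).2
      have hsepk := h.sep k hkr ((k : ℝ) / r) ⟨hk0, hk1.trans hk2⟩ le_rfl (hk1.trans hk3)
      have hEk' := hEk.of_sep hab' (finrank_span_frame (hfE _ hkk).1) hsepk (h.lt hkr)
      obtain ⟨f', hf', hf'0, hf'E⟩ := exists_step hk1 (hS.mono hsub)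
        (fun τ hτ => hs τ (hsub hτ)) (h.lt hkr)
        (fun τ hτ => h.sep k hkr τ (hsub hτ) hτ.1 (hτ.2.trans hk3)) (hfE _ hkk).1 hEk'
      have hfr : frontier {a : ℝ | a ≤ (k : ℝ) / r} = {(k : ℝ) / r} := frontier_Iic
      refine ⟨fun τ => if τ ≤ (k : ℝ) / r then f τ else f' τ, ?_, ?_, ?_⟩
      · refine ContinuousOn.if' ?_ ?_ ?_ ?_
        · rintro τ ⟨hτ, hτ'⟩
          rw [hfr] at hτ'
          obtain rfl : τ = (k : ℝ) / r := hτ'
          simp only [le_refl, if_true]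
          exact (hf _ hkk).mono fun x hx => ⟨hx.1.1, hx.2⟩
        · rintro τ ⟨hτ, hτ'⟩
          rw [hfr] at hτ'
          obtain rfl : τ = (k : ℝ) / r := hτ'
          simp only [le_refl, if_true]
          rw [← hf'0]
          exact (hf' _ ⟨le_rfl, hk1⟩).mono fun x hx => ⟨(not_le.1 hx.2).le, hx.1.2⟩
        · exact hf.mono fun x hx => ⟨hx.1.1, hx.2⟩
        · exact hf'.mono fun x hx => ⟨(not_le.1 hx.2).le, hx.1.2⟩
      · simp only [if_pos hk0]; exact hf0
      · intro τ hτ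
        by_cases hτk : τ ≤ (k : ℝ) / r
        · simp only [if_pos hτk]; exact hfE τ ⟨hτ.1, hτk⟩
        · simp only [if_neg hτk]
          have := hf'E τ ⟨(not_le.1 hτk).le, hτ.2⟩
          exact ⟨this.1, A k, B k, h.lt hkr, this.2⟩
  obtain ⟨f, hf, hf0, hfE⟩ := main r le_rfl
  rw [div_self hr0] at hf hfE
  refine ⟨f, hf, hf0, fun τ hτ => ⟨(hfE τ hτ).1, fun i hi h1 h2 => ?_⟩⟩
  obtain ⟨a', b', hab', hEk⟩ := (hfE τ hτ).2
  exact hEk.of_sep hab' (finrank_span_frame (hfE τ hτ).1) (h.sep i hi τ hτ h1 h2) (h.lt hi)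

/-- constant sign of a nonvanishing continuous function -/
theorem mul_pos_of_ne_zero' {φ : ℝ → ℝ} {α β : ℝ} (hαβ : α ≤ β) (hc : ContinuousOn φ (Icc α β))
    (h0 : ∀ t ∈ Icc α β, φ t ≠ 0) : 0 < φ α * φ β := by
  have ha := h0 α ⟨le_rfl, hαβ⟩
  have hb := h0 β ⟨hαβ, le_rfl⟩
  by_contra hcon
  push Not at hcon
  have hneg : φ α * φ β < 0 := lt_of_le_of_ne hcon (mul_ne_zero ha hb)
  have hivt : (0 : ℝ) ∈ φ '' Icc α β := by
    rcases lt_or_gt_of_ne ha with h4 | h4
    · have h5 : 0 < φ β := by nlinarith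
      exact intermediate_value_Icc hαβ hc ⟨h4.le, h5.le⟩
    · have h5 : φ β < 0 := by nlinarith
      exact intermediate_value_Icc' hαβ hc ⟨h5.le, h4.le⟩
  obtain ⟨s, hs, hs0⟩ := hivt
  exact h0 s hs hs0

omit [FiniteDimensional ℝ G] in
theorem continuousOn_det_gm {f : ℝ → Fin l → G} {s : Set ℝ} (hf : ContinuousOn f s)
    (q : Fin l → G) : ContinuousOn (fun τ => (gm (f τ) q).det) s := by
  have h1 : Continuous fun g : Fin l → G => (gm g q).det := by
    refine Continuous.matrix_det (continuous_matrix fun i j => ?_)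
    simp only [gm, Matrix.of_apply]
    fun_prop
  exact h1.comp_continuousOn hf

/-- **Sign of the holonomy** from any chain of separating frames. -/
theorem sign_of_chain {S : ℝ → G →L[ℝ] G} {e : Fin l → G} {f : ℝ → Fin l → G}
    (hf : ContinuousOn f (Icc 0 1)) (hf0 : f 0 = e)
    (hfE : ∀ τ ∈ Icc (0 : ℝ) 1, LinearIndependent ℝ (f τ) ∧
      ∃ a b, a < b ∧ Exact (S τ) (Submodule.span ℝ (range (f τ))) a b)
    (hS01 : S 1 = S 0) {O : Matrix (Fin l) (Fin l) ℝ} (hO : f 1 = act O e)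
    {r : ℕ} {t : ℕ → ℝ} {q : ℕ → Fin l → G} {A B : ℕ → ℝ} (hr : 0 < r) (ht : Monotone t)
    (ht0 : t 0 = 0) (htr : t r = 1) (hq : q r = q 0) (hAB : ∀ i < r, A i < B i)
    (hsep : ∀ i < r, ∀ τ ∈ Icc (t i) (t (i + 1)), Sep (S τ) (q i) (A i) (B i)) :
    0 < O.det * ∏ i ∈ Finset.range r, (gm (q i) (q (i + 1))).det := by
  have htI : ∀ i ≤ r, t i ∈ Icc (0 : ℝ) 1 := fun i hi =>
    ⟨by rw [← ht0]; exact ht (Nat.zero_le i), by rw [← htr]; exact ht hi⟩
  have hsub : ∀ i < r, Icc (t i) (t (i + 1)) ⊆ Icc (0 : ℝ) 1 := fun i hi τ hτ =>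
    ⟨(htI i hi.le).1.trans hτ.1, hτ.2.trans (htI (i + 1) hi).2⟩
  have hne : ∀ i < r, ∀ τ ∈ Icc (t i) (t (i + 1)), (gm (f τ) (q i)).det ≠ 0 := by
    intro i hi τ hτ
    obtain ⟨hli, a, b, hab, hE⟩ := hfE τ (hsub i hi hτ)
    exact (hsep i hi τ hτ).det_exact_ne_zero (hAB i hi) hli hE hab
  have hpatch : ∀ i < r, 0 < (gm (f (t i)) (q i)).det * (gm (f (t (i + 1))) (q i)).det := by
    intro i hi
    exact mul_pos_of_ne_zero' (ht (Nat.le_succ i)) (continuousOn_det_gm (hf.mono (hsub i hi)) _)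
      (hne i hi)
  -- sign at the times `t k`
  have main : ∀ k < r, 0 < (gm e (q 0)).det * (∏ i ∈ Finset.range k, (gm (q i) (q (i + 1))).det) *
      (gm (f (t k)) (q k)).det := by
    intro k
    induction k with
    | zero =>
      intro _
      rw [Finset.range_zero, Finset.prod_empty, mul_one, ht0, hf0]
      have h1 := hne 0 hr (t 0) ⟨le_rfl, ht (Nat.le_succ 0)⟩
      rw [ht0, hf0] at h1
      exact mul_self_pos.2 h1
    | succ k ih =>
      intro hk
      have h1 := ih (by omega)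
      have h2 := hpatch k (by omega)
      obtain ⟨hli, a, b, hab, hE⟩ := hfE (t (k + 1)) (htI _ hk.le)
      have h3 := (hsep k (by omega) (t (k + 1)) ⟨ht (Nat.le_succ k), le_rfl⟩).cocycle'
        (hsep (k + 1) hk (t (k + 1)) ⟨le_rfl, ht (Nat.le_succ _)⟩)
        (hAB k (by omega)) (hAB (k + 1) hk) hli hE hab
      rw [det_gm_comm (q (k + 1)) (f (t (k + 1)))] at h3
      rw [Finset.prod_range_succ]
      have h4 := mul_pos (mul_pos h1 h2) h3
      have h5 : 0 < ((gm (f (t k)) (q k)).det * (gm (f (t (k + 1))) (q k)).det) ^ 2 := by positivity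
      have e1 : (gm e (q 0)).det * (∏ i ∈ Finset.range k, (gm (q i) (q (i + 1))).det) *
          (gm (f (t k)) (q k)).det * ((gm (f (t k)) (q k)).det * (gm (f (t (k + 1))) (q k)).det) *
          ((gm (f (t (k + 1))) (q k)).det * (gm (q k) (q (k + 1))).det *
            (gm (f (t (k + 1))) (q (k + 1))).det) =
          ((gm (f (t k)) (q k)).det * (gm (f (t (k + 1))) (q k)).det) ^ 2 *
          ((gm e (q 0)).det * ((∏ i ∈ Finset.range k, (gm (q i) (q (i + 1))).det) *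
            (gm (q k) (q (k + 1))).det) * (gm (f (t (k + 1))) (q (k + 1))).det) := by ring
      rw [e1] at h4
      exact (pos_iff_pos_of_mul_pos h4).1 h5
  obtain ⟨k, rfl⟩ : ∃ k, r = k + 1 := ⟨r - 1, by omega⟩
  have h1 := main k (Nat.lt_succ_self k)
  have h2 := hpatch k (Nat.lt_succ_self k)
  rw [htr, hO, det_gm_act] at h2
  obtain ⟨hli, a, b, hab, hE⟩ := hfE 0 ⟨le_rfl, zero_le_one⟩
  rw [hf0] at hli hE
  have h3 := hsep k (Nat.lt_succ_self k) (t (k + 1)) ⟨ht (Nat.le_succ k), le_rfl⟩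
  rw [htr, hS01] at h3
  have h4 := hsep 0 hr (t 0) ⟨le_rfl, ht (Nat.le_succ 0)⟩
  rw [ht0] at h4
  have h5 := h3.cocycle' h4 (hAB k (Nat.lt_succ_self k)) (hAB 0 hr) hli hE hab
  rw [det_gm_comm (q 0) e] at h5
  rw [Finset.prod_range_succ, hq]
  have h6 := mul_pos (mul_pos h1 h2) h5
  have h7 : 0 < ((gm (f (t k)) (q k)).det * (gm e (q k)).det * (gm e (q 0)).det) ^ 2 := by
    have n1 : (gm (f (t k)) (q k)).det ≠ 0 := fun h0 => by
      rw [h0] at h1; simp at h1
    have n2 : (gm e (q k)).det ≠ 0 := fun h0 => by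
      rw [h0] at h5; simp at h5
    have n3 : (gm e (q 0)).det ≠ 0 := fun h0 => by
      rw [h0] at h5; simp at h5
    positivity
  have e1 : (gm e (q 0)).det * (∏ i ∈ Finset.range k, (gm (q i) (q (i + 1))).det) *
      (gm (f (t k)) (q k)).det * ((gm (f (t k)) (q k)).det * (O.det * (gm e (q k)).det)) *
      ((gm e (q k)).det * (gm (q k) (q 0)).det * (gm e (q 0)).det) =
      ((gm (f (t k)) (q k)).det * (gm e (q k)).det * (gm e (q 0)).det) ^ 2 *
      (O.det * ((∏ i ∈ Finset.range k, (gm (q i) (q (i + 1))).det) *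
        (gm (q k) (q 0)).det)) := by ring
  rw [e1] at h6
  exact (pos_iff_pos_of_mul_pos h6).1 h7

/-- holonomy matrix -/
theorem exists_holonomy {S : ℝ → G →L[ℝ] G} {e : Fin l → G} {f : ℝ → Fin l → G}
    (hf0 : f 0 = e) (hfE : ∀ τ ∈ Icc (0 : ℝ) 1, LinearIndependent ℝ (f τ) ∧
      ∃ a b, a < b ∧ Exact (S τ) (Submodule.span ℝ (range (f τ))) a b)
    (hS01 : S 1 = S 0) : ∃ O : Matrix (Fin l) (Fin l) ℝ, O.det ≠ 0 ∧ f 1 = act O e := by
  obtain ⟨hli0, a, b, hab, hE⟩ := hfE 0 ⟨le_rfl, zero_le_one⟩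
  obtain ⟨hli1, a', b', hab', hE'⟩ := hfE 1 ⟨zero_le_one, le_rfl⟩
  rw [hS01] at hE'
  have h1 := hE.unique hE' hab hab' (by rw [finrank_span_frame hli0, finrank_span_frame hli1])
  rw [hf0] at h1
  exact exists_act hli1 fun i => by rw [h1]; exact Submodule.subset_span (mem_range_self i)

end Crest.Agent.R202.LowF
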