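/-
R202 (helper14): the frame of the exact low space with a C¹ mid level (export for the gates), and
the compactness step (uniform patches).
-/
import Mathlib
import Crest.Agent.R202.LowPath

set_option autoImplicit false

open Set
open scoped InnerProductSpace Topology

namespace Crest.Agent.R202.LowF

section Mid

theorem exists_st_bound : ∃ C : ℝ, 0 < C ∧ ∀ x, |deriv Real.smoothTransition x| ≤ C := by
  have hc : Continuous (deriv Real.smoothTransition) :=
    (Real.smoothTransition.contDiff (n := 1)).continuous_deriv le_rfl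
  obtain ⟨C, hC⟩ := (isCompact_Icc (a := (0 : ℝ)) (b := 1)).exists_bound_of_continuousOn
    hc.continuousOn
  refine ⟨|C| + 1, by positivity, fun x => ?_⟩
  by_cases hx : x ∈ Icc (0 : ℝ) 1
  · have := hC x hx
    rw [Real.norm_eq_abs] at this
    linarith [le_abs_self C]
  · have h0 : deriv Real.smoothTransition x = 0 := by
      rcases lt_or_ge x 0 with h | h
      · have h1 : Real.smoothTransition =ᶠ[𝓝 x] fun _ => 0 := by
          filter_upwards [Iio_mem_nhds h] with y hy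
          exact Real.smoothTransition.zero_of_nonpos (le_of_lt hy)
        rw [h1.deriv_eq, deriv_const]
      · have h2 : 1 < x := by
          by_contra hcon
          exact hx ⟨h, not_lt.1 hcon⟩
        have h1 : Real.smoothTransition =ᶠ[𝓝 x] fun _ => 1 := by
          filter_upwards [Ioi_mem_nhds h2] with y hy
          exact Real.smoothTransition.one_of_one_le (le_of_lt hy)
        rw [h1.deriv_eq, deriv_const]
    rw [h0, abs_zero]; positivity

/-- bound for the derivative of `Real.smoothTransition` -/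
noncomputable def stC : ℝ := Classical.choose exists_st_bound

theorem stC_pos : 0 < stC := (Classical.choose_spec exists_st_bound).1
theorem stC_bound (x : ℝ) : |deriv Real.smoothTransition x| ≤ stC :=
  (Classical.choose_spec exists_st_bound).2 x

/-- interpolation of the levels `m 0, m 1, …` -/
noncomputable def mid (m : ℕ → ℝ) (r : ℝ) : ℕ → ℝ → ℝ
  | 0, _ => m 0
  | n + 1, τ => mid m r n τ + (m (n + 1) - m n) * Real.smoothTransition (r * τ - (n + 1))

/-- its derivative -/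
noncomputable def mid' (m : ℕ → ℝ) (r : ℝ) : ℕ → ℝ → ℝ
  | 0, _ => 0
  | n + 1, τ => mid' m r n τ +
      (m (n + 1) - m n) * (deriv Real.smoothTransition (r * τ - (n + 1)) * r)

theorem hasDerivAt_mid (m : ℕ → ℝ) (r : ℝ) (n : ℕ) (τ : ℝ) :
    HasDerivAt (mid m r n) (mid' m r n τ) τ := by
  induction n with
  | zero => exact hasDerivAt_const _ _
  | succ n ih =>
    have h1 : HasDerivAt (fun τ : ℝ => r * τ - (n + 1)) r τ := by
      simpa using ((hasDerivAt_id τ).const_mul r).sub_const ((n : ℝ) + 1)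
    have h2 : HasDerivAt Real.smoothTransition
        (deriv Real.smoothTransition (r * τ - (n + 1))) (r * τ - (n + 1)) :=
      ((Real.smoothTransition.contDiff (n := 1)).differentiable (by norm_num) _).hasDerivAt
    exact ih.add ((h2.comp τ h1).const_mul (m (n + 1) - m n))

theorem abs_mid'_le {m : ℕ → ℝ} {r M : ℝ} (hr : 0 ≤ r) {n : ℕ} (hm : ∀ i ≤ n, |m i| ≤ M) (τ : ℝ) :
    |mid' m r n τ| ≤ n * (2 * M * (stC * r)) := by
  induction n with
  | zero => simp [mid']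
  | succ n ih =>
    have h1 := ih fun i hi => hm i (by omega)
    have hMn := hm n (by omega)
    have hMn1 := hm (n + 1) le_rfl
    have h2 : |m (n + 1) - m n| ≤ 2 * M := by
      have := abs_sub (m (n + 1)) (m n)
      linarith
    have h3 : |(m (n + 1) - m n) * (deriv Real.smoothTransition (r * τ - (n + 1)) * r)| ≤
        2 * M * (stC * r) := by
      rw [abs_mul, abs_mul, abs_of_nonneg hr]
      refine mul_le_mul h2 (mul_le_mul_of_nonneg_right (stC_bound _) hr)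
        (mul_nonneg (abs_nonneg _) hr) ((abs_nonneg _).trans h2)
    have h4 : |mid' m r (n + 1) τ| ≤ |mid' m r n τ| +
        |(m (n + 1) - m n) * (deriv Real.smoothTransition (r * τ - (n + 1)) * r)| := abs_add_le _ _
    push_cast
    linarith

theorem mid_of_ge (m : ℕ → ℝ) {r : ℝ} {n : ℕ} {τ : ℝ} (h : (n : ℝ) + 1 ≤ r * τ) :
    mid m r n τ = m n := by
  induction n with
  | zero => rfl
  | succ n ih =>
    push_cast at h
    have h1 := ih (by linarith)
    show mid m r n τ + (m (n + 1) - m n) * Real.smoothTransition (r * τ - (n + 1)) = m (n + 1)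
    rw [h1, Real.smoothTransition.one_of_one_le (by linarith)]; ring

theorem mid_of_le (m : ℕ → ℝ) {r : ℝ} {i n : ℕ} {τ : ℝ} (hin : i ≤ n) (h : r * τ ≤ (i : ℝ) + 1) :
    mid m r n τ = mid m r i τ := by
  induction n with
  | zero => rw [Nat.le_zero.1 hin]
  | succ n ih =>
    rcases Nat.lt_or_ge n i with h1 | h1
    · rw [show i = n + 1 by omega]
    · show mid m r n τ + (m (n + 1) - m n) * Real.smoothTransition (r * τ - (n + 1)) = _
      have h2 : (i : ℝ) ≤ n := by exact_mod_cast h1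
      rw [ih h1, Real.smoothTransition.zero_of_nonpos (by linarith)]; ring

theorem mid_zero (m : ℕ → ℝ) {r : ℝ} {n : ℕ} {τ : ℝ} (h : r * τ ≤ 1) :
    mid m r n τ = m 0 := by
  rw [mid_of_le m (Nat.zero_le n) (by simpa using h)]; rfl

theorem mid_between (m : ℕ → ℝ) {r : ℝ} {i n : ℕ} {τ : ℝ} (hin : i + 1 ≤ n)
    (h1 : (i : ℝ) + 1 ≤ r * τ) (h2 : r * τ ≤ (i : ℝ) + 2) :
    ∃ s ∈ Icc (0 : ℝ) 1, mid m r n τ = (1 - s) * m i + s * m (i + 1) := by
  refine ⟨Real.smoothTransition (r * τ - (i + 1)),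
    ⟨Real.smoothTransition.nonneg _, Real.smoothTransition.le_one _⟩, ?_⟩
  rw [mid_of_le m hin (by push_cast; linarith)]
  show mid m r i τ + (m (i + 1) - m i) * Real.smoothTransition (r * τ - (i + 1)) = _
  rw [mid_of_ge m h1]; ring

theorem abs_mid_le {m : ℕ → ℝ} {r M : ℝ} {n : ℕ} (hm : ∀ i ≤ n, |m i| ≤ M) (τ : ℝ) :
    |mid m r n τ| ≤ M := by
  rcases le_or_gt (r * τ) 1 with h | h
  · rw [mid_zero m h]; exact hm 0 (Nat.zero_le n)
  · -- the cell of `r * τ`
    have h0 : 0 ≤ r * τ := by linarith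
    set j := ⌊r * τ⌋₊ with hj
    have hj1 : (j : ℝ) ≤ r * τ := Nat.floor_le h0
    have hj2 : r * τ < (j : ℝ) + 1 := Nat.lt_floor_add_one _
    have hj0 : 1 ≤ j := by rw [hj, Nat.one_le_floor_iff]; exact h.le
    obtain ⟨i, hji⟩ : ∃ i, j = i + 1 := ⟨j - 1, by omega⟩
    rw [hji] at hj1 hj2
    rcases Nat.lt_or_ge n (i + 1) with h3 | h3
    · rw [mid_of_ge m (n := n) (by
        have : ((n : ℝ)) + 1 ≤ ((i + 1 : ℕ) : ℝ) := by exact_mod_cast h3
        linarith)]
      exact hm n le_rfl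
    · push_cast at hj1 hj2
      obtain ⟨s, hs, hs'⟩ := mid_between m (n := n) (i := i) (r := r) (τ := τ) h3 (by linarith)
        (by linarith)
      rw [hs']
      have a1 := abs_le.1 (hm i (by omega))
      have a2 := abs_le.1 (hm (i + 1) h3)
      rw [abs_le]
      constructor <;> nlinarith [hs.1, hs.2]

end Mid

variable {G : Type*} [NormedAddCommGroup G] [InnerProductSpace ℝ G] {l : ℕ}

theorem Sep.mono {T : G →L[ℝ] G} {p : Fin l → G} {A B A' B' : ℝ} (h : Sep T p A B) (hA : A ≤ A')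
    (hB : B' ≤ B) : Sep T p A' B' :=
  ⟨h.li, fun x hx => (h.low x hx).trans (mul_le_mul_of_nonneg_right hA (sq_nonneg _)),
    fun x hx => (mul_le_mul_of_nonneg_right hB (sq_nonneg _)).trans (h.high x hx)⟩

theorem Sep.smul {T : G →L[ℝ] G} {p : Fin l → G} {A B c : ℝ} (hc : 0 ≤ c) (h : Sep T p A B) :
    Sep (c • T) p (c * A) (c * B) := by
  refine ⟨h.li, fun x hx => ?_, fun x hx => ?_⟩
  · have := mul_le_mul_of_nonneg_left (h.low x hx) hc
    rw [smul_apply, real_inner_smul_left, mul_assoc]; exact this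
  · have := mul_le_mul_of_nonneg_left (h.high x hx) hc
    rw [smul_apply, real_inner_smul_left, mul_assoc]; exact this

theorem Exact.toSep {T : G →L[ℝ] G} {f : Fin l → G} {A B : ℝ} (hf : LinearIndependent ℝ f)
    (h : Exact T (Submodule.span ℝ (range f)) A B) : Sep T f A B :=
  ⟨hf, h.low, fun x hx => h.high x (mem_orth_span.2 hx)⟩

theorem Exact.mono {T : G →L[ℝ] G} {V : Submodule ℝ G} {A B A' B' : ℝ} (h : Exact T V A B)
    (hA : A ≤ A') (hB : B' ≤ B) : Exact T V A' B' :=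
  ⟨h.symm, h.inv, fun x hx => (h.low x hx).trans (mul_le_mul_of_nonneg_right hA (sq_nonneg _)),
    fun x hx => (mul_le_mul_of_nonneg_right hB (sq_nonneg _)).trans (h.high x hx)⟩

theorem act_one (e : Fin l → G) : act (1 : Matrix (Fin l) (Fin l) ℝ) e = e := by
  funext i
  simp [act, Matrix.one_apply, ite_smul]

theorem act_act (M N : Matrix (Fin l) (Fin l) ℝ) (e : Fin l → G) :
    act M (act N e) = act (M * N) e := by
  funext i
  simp only [act, Matrix.mul_apply, Finset.smul_sum, Finset.sum_smul, smul_smul]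
  rw [Finset.sum_comm]

/-- The frame of the exact low space over `ℝ`, with the mid level. -/
structure LowFrame (S : ℝ → G →L[ℝ] G) (e : Fin l → G) (η M C : ℝ) where
  f : ℝ → Fin l → G
  μ : ℝ → ℝ
  μ' : ℝ → ℝ
  O : Matrix (Fin l) (Fin l) ℝ
  cont : Continuous f
  li : ∀ τ, LinearIndependent ℝ (f τ)
  left : ∀ τ ≤ 0, f τ = e
  right : ∀ τ, 1 ≤ τ → f τ = act O e
  det_ne : O.det ≠ 0
  deriv : ∀ τ, HasDerivAt μ (μ' τ) τ
  deriv_le : ∀ τ, |μ' τ| ≤ C
  μ_le : ∀ τ, |μ τ| ≤ M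
  μ_left : ∀ τ ≤ 0, μ τ = μ 0
  μ_right : ∀ τ, 1 ≤ τ → μ τ = μ 1
  exact : ∀ τ, Exact (S τ) (Submodule.span ℝ (range (f τ))) (μ τ - η) (μ τ + η)
  /-- sign of the holonomy from any closed chain of separating frames -/
  sign : ∀ (r : ℕ) (t : ℕ → ℝ) (q : ℕ → Fin l → G) (A B : ℕ → ℝ), 0 < r → Monotone t →
    t 0 = 0 → t r = 1 → q r = q 0 → (∀ i < r, A i < B i) →
    (∀ i < r, ∀ τ ∈ Icc (t i) (t (i + 1)), Sep (S τ) (q i) (A i) (B i)) →
    0 < O.det * ∏ i ∈ Finset.range r, (gm (q i) (q (i + 1))).det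

/-- low bound in the form of `OpenCut` -/
theorem LowFrame.sep {S : ℝ → G →L[ℝ] G} {e : Fin l → G} {η M C : ℝ} (F : LowFrame S e η M C)
    (τ : ℝ) : Sep (S τ) (F.f τ) (F.μ τ - η) (F.μ τ + η) := (F.exact τ).toSep (F.li τ)

/-- **LowFrame (LF1-LF3).** -/
theorem Patches.exists_lowFrame [FiniteDimensional ℝ G] {S : ℝ → G →L[ℝ] G} {r : ℕ}
    {p : ℕ → Fin l → G} {A B : ℕ → ℝ} {η M : ℝ} (h : Patches S r p A B η)
    (hS : ContinuousOn S (Icc 0 1)) (hs : ∀ x y, ∀ τ, ⟪S τ x, y⟫_ℝ = ⟪x, S τ y⟫_ℝ)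
    (hout : ∀ τ, τ ≤ 0 ∨ 1 ≤ τ → S τ = S 0)
    (hM : ∀ i < r, |A i| ≤ M ∧ |B i| ≤ M)
    {e : Fin l → G} (he : LinearIndependent ℝ e) {a b : ℝ} (hab : a < b)
    (hE : Exact (S 0) (Submodule.span ℝ (range e)) a b) :
    Nonempty (LowFrame S e η M (r * (2 * M * (stC * r)))) := by
  have hr : (0 : ℝ) < r := by exact_mod_cast h.r_pos
  obtain ⟨f, hf, hf0, hfE⟩ := h.exists_frame hS (fun τ _ x y => hs x y τ) he hab hE
  have hS01 : S 1 = S 0 := hout 1 (Or.inr le_rfl)
  -- exactness at every time, some levels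
  have hfE' : ∀ τ ∈ Icc (0 : ℝ) 1, LinearIndependent ℝ (f τ) ∧
      ∃ a b, a < b ∧ Exact (S τ) (Submodule.span ℝ (range (f τ))) a b := by
    intro τ hτ
    refine ⟨(hfE τ hτ).1, ?_⟩
    rcases hτ.2.eq_or_lt with h1 | h1
    · subst h1
      obtain ⟨k, hk⟩ : ∃ k, r = k + 1 := ⟨r - 1, by have := h.r_pos; omega⟩
      refine ⟨A k, B k, h.lt (by omega), (hfE 1 hτ).2 k (by omega) ?_ ?_⟩
      · rw [div_le_one hr, hk]; push_cast; linarith
      · rw [one_le_div hr, hk]; push_cast; linarith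
    · set i := ⌊(r : ℝ) * τ⌋₊ with hi
      have h0 : 0 ≤ (r : ℝ) * τ := mul_nonneg hr.le hτ.1
      have hi1 : (i : ℝ) ≤ r * τ := Nat.floor_le h0
      have hi2 : r * τ < (i : ℝ) + 1 := Nat.lt_floor_add_one _
      have hir : i < r := by
        have : (i : ℝ) < r := by nlinarith
        exact_mod_cast this
      refine ⟨A i, B i, h.lt hir, (hfE τ hτ).2 i hir ?_ ?_⟩
      · rw [div_le_iff₀ hr]; linarith
      · rw [le_div_iff₀ hr]; linarith
  obtain ⟨O, hO, hf1⟩ := exists_holonomy hf0 hfE' hS01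
  set m : ℕ → ℝ := fun i => (A i + B i) / 2 with hm
  obtain ⟨n, hn⟩ : ∃ n, r = n + 1 := ⟨r - 1, by have := h.r_pos; omega⟩
  have hmM : ∀ i ≤ n, |m i| ≤ M := by
    intro i hi
    obtain ⟨h1, h2⟩ := hM i (by omega)
    rw [abs_le] at h1 h2 ⊢
    simp only [hm]
    constructor <;> linarith
  have hM0 : 0 ≤ M := (abs_nonneg _).trans (hmM 0 (Nat.zero_le n))
  -- clamp
  set cl : ℝ → ℝ := fun τ => max 0 (min 1 τ) with hcl
  have hclI : ∀ τ, cl τ ∈ Icc (0 : ℝ) 1 := fun τ =>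
    ⟨le_max_left _ _, max_le zero_le_one (min_le_left _ _)⟩
  have hclc : Continuous cl := by fun_prop
  have hcl_in : ∀ τ ∈ Icc (0 : ℝ) 1, cl τ = τ := fun τ hτ => by
    simp only [hcl]; rw [min_eq_right hτ.2, max_eq_right hτ.1]
  have hcl0 : ∀ τ ≤ 0, cl τ = 0 := fun τ hτ => by
    simp only [hcl]; rw [min_eq_right (by linarith), max_eq_left hτ]
  have hcl1 : ∀ τ, 1 ≤ τ → cl τ = 1 := fun τ hτ => by
    simp only [hcl]; rw [min_eq_left hτ, max_eq_right zero_le_one]
  set μ : ℝ → ℝ := mid m r n with hμ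
  have hμ0 : ∀ τ ≤ 0, μ τ = m 0 := fun τ hτ => mid_zero m (by nlinarith)
  have hμ1 : ∀ τ, 1 ≤ τ → μ τ = m n := fun τ hτ => by
    refine mid_of_ge m ?_
    rw [hn]; push_cast
    nlinarith [(by positivity : (0 : ℝ) ≤ n)]
  -- exactness with the mid level on `[0, 1]`
  have hex : ∀ τ ∈ Icc (0 : ℝ) 1,
      Exact (S τ) (Submodule.span ℝ (range (f τ))) (μ τ - η) (μ τ + η) := by
    intro τ hτ
    have hE2 : ∀ i < r, (i : ℝ) / r ≤ τ → τ ≤ ((i : ℝ) + 2) / r →
        Exact (S τ) (Submodule.span ℝ (range (f τ))) (m i - η) (m i + η) := by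
      intro i hi h1 h2
      have hg := h.gap i hi
      refine ((hfE τ hτ).2 i hi h1 h2).mono ?_ ?_
      · simp only [hm]; linarith
      · simp only [hm]; linarith
    rcases le_or_gt ((r : ℝ) * τ) 1 with h1 | h1
    · have e1 : μ τ = m 0 := mid_zero m h1
      rw [e1]
      refine hE2 0 h.r_pos ?_ ?_
      · simpa using hτ.1
      · rw [le_div_iff₀ hr]; push_cast; linarith
    · have h0 : 0 ≤ (r : ℝ) * τ := by linarith
      set j := ⌊(r : ℝ) * τ⌋₊ with hj
      have hj1 : (j : ℝ) ≤ r * τ := Nat.floor_le h0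
      have hj2 : r * τ < (j : ℝ) + 1 := Nat.lt_floor_add_one _
      have hj0 : 1 ≤ j := by rw [hj, Nat.one_le_floor_iff]; exact h1.le
      obtain ⟨i, hji⟩ : ∃ i, j = i + 1 := ⟨j - 1, by omega⟩
      rw [hji] at hj1 hj2
      push_cast at hj1 hj2
      rcases Nat.lt_or_ge n (i + 1) with h3 | h3
      · -- `τ = 1`
        have h4 : (n : ℝ) + 1 ≤ r * τ := by
          have : ((n : ℝ)) + 1 ≤ ((i + 1 : ℕ) : ℝ) := by exact_mod_cast h3
          push_cast at this
          linarith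
        have e1 : μ τ = m n := mid_of_ge m h4
        rw [e1]
        refine hE2 n (by omega) ?_ ?_
        · rw [div_le_iff₀ hr]; linarith
        · rw [le_div_iff₀ hr]
          have h5 : τ * r ≤ r := by nlinarith [hτ.2]
          have h6 : (r : ℝ) = n + 1 := by rw [hn]; push_cast; ring
          linarith
      · obtain ⟨s, hs, hs'⟩ := mid_between m (n := n) (i := i) (r := r) (τ := τ) h3 (by linarith)
          (by linarith)
        have E1 := hE2 i (by omega) (by rw [div_le_iff₀ hr]; linarith)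
          (by rw [le_div_iff₀ hr]; linarith)
        have E2 := hE2 (i + 1) (by omega) (by rw [div_le_iff₀ hr]; push_cast; linarith)
          (by rw [le_div_iff₀ hr]; push_cast; linarith)
        have e1 : μ τ = (1 - s) * m i + s * m (i + 1) := hs'
        rw [e1]
        refine ⟨E1.symm, E1.inv, fun x hx => ?_, fun x hx => ?_⟩
        · have a1 := mul_le_mul_of_nonneg_left (E1.low x hx) (by linarith [hs.2] : 0 ≤ 1 - s)
          have a2 := mul_le_mul_of_nonneg_left (E2.low x hx) hs.1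
          nlinarith
        · have a1 := mul_le_mul_of_nonneg_left (E1.high x hx) (by linarith [hs.2] : 0 ≤ 1 - s)
          have a2 := mul_le_mul_of_nonneg_left (E2.high x hx) hs.1
          nlinarith
  have h01 : (0 : ℝ) ∈ Icc (0 : ℝ) 1 := ⟨le_rfl, zero_le_one⟩
  have h11 : (1 : ℝ) ∈ Icc (0 : ℝ) 1 := ⟨zero_le_one, le_rfl⟩
  refine ⟨{
    f := fun τ => f (cl τ)
    μ := μ
    μ' := mid' m r n
    O := O
    cont := hf.comp_continuous hclc hclI
    li := fun τ => (hfE' _ (hclI τ)).1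
    left := fun τ hτ => by simp only [hcl0 τ hτ, hf0]
    right := fun τ hτ => by simp only [hcl1 τ hτ, hf1]
    det_ne := hO
    deriv := fun τ => hasDerivAt_mid m r n τ
    deriv_le := fun τ => ?_
    μ_le := fun τ => abs_mid_le hmM τ
    μ_left := fun τ hτ => by rw [hμ0 τ hτ, hμ0 0 le_rfl]
    μ_right := fun τ hτ => by rw [hμ1 τ hτ, hμ1 1 le_rfl]
    exact := fun τ => ?_
    sign := fun k t q A' B' hk ht ht0 htr hq hAB hsep =>
      sign_of_chain hf hf0 hfE' hS01 hf1 hk ht ht0 htr hq hAB hsep }⟩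
  · refine (abs_mid'_le hr.le hmM τ).trans ?_
    have h5 : (n : ℝ) ≤ r := by rw [hn]; push_cast; linarith
    refine mul_le_mul_of_nonneg_right h5 ?_
    have := stC_pos
    positivity
  · show Exact (S τ) (Submodule.span ℝ (range (f (cl τ)))) (μ τ - η) (μ τ + η)
    rcases le_or_gt τ 0 with h1 | h1
    · rw [hout τ (Or.inl h1), hcl0 τ h1, hμ0 τ h1]
      have := hex 0 h01
      rwa [hμ0 0 le_rfl] at this
    · rcases le_or_gt 1 τ with h2 | h2
      · rw [hout τ (Or.inr h2), hcl1 τ h2, hμ1 τ h2]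
        have := hex 1 h11
        rwa [hμ1 1 le_rfl, hS01] at this
      · rw [hcl_in τ ⟨h1.le, h2.le⟩]
        exact hex τ ⟨h1.le, h2.le⟩

/-- the reversed frame: `e` at `τ = 1`, `O • e` at `τ = 0` -/
theorem LowFrame.reverse {S : ℝ → G →L[ℝ] G} {e : Fin l → G} {η M C : ℝ}
    [FiniteDimensional ℝ G] (F : LowFrame S e η M C) :
    ∃ (f : ℝ → Fin l → G) (O : Matrix (Fin l) (Fin l) ℝ), Continuous f ∧
      (∀ τ, LinearIndependent ℝ (f τ)) ∧ (∀ τ ≤ 0, f τ = act O e) ∧ (∀ τ, 1 ≤ τ → f τ = e) ∧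
      O.det * F.O.det = 1 ∧
      (∀ τ, Exact (S τ) (Submodule.span ℝ (range (f τ))) (F.μ τ - η) (F.μ τ + η)) ∧
      (∀ τ, Sep (S τ) (f τ) (F.μ τ - η) (F.μ τ + η)) := by
  have hu : IsUnit F.O.det := isUnit_iff_ne_zero.2 F.det_ne
  have hO' : (F.O⁻¹).det ≠ 0 := by
    rw [Matrix.det_nonsing_inv]
    simpa using F.det_ne
  have hE : ∀ τ, Exact (S τ) (Submodule.span ℝ (range (act F.O⁻¹ (F.f τ)))) (F.μ τ - η)
      (F.μ τ + η) := fun τ => by
    rw [span_act hO' (F.li τ)]; exact F.exact τ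
  refine ⟨fun τ => act F.O⁻¹ (F.f τ), F.O⁻¹, ?_, fun τ => linearIndependent_act hO' (F.li τ),
    fun τ hτ => by simp only [F.left τ hτ], fun τ hτ => ?_, ?_, hE, fun τ =>
    (hE τ).toSep (linearIndependent_act hO' (F.li τ))⟩
  · refine continuous_pi fun i => ?_
    simp only [act]
    exact continuous_finsetSum _ fun j _ => ((continuous_apply j).comp F.cont).const_smul _
  · simp only [F.right τ hτ]
    rw [act_act, Matrix.nonsing_inv_mul _ hu, act_one]
  · rw [← Matrix.det_mul, Matrix.nonsing_inv_mul _ hu, Matrix.det_one]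

/-- **Compactness**: uniform patches from local separation. -/
theorem exists_patches {α : Type*} {Q : α → ℝ → ℝ → Prop} {K : Set ℝ} (hK : IsCompact K)
    (h : ∀ τ0 ∈ Icc (0 : ℝ) 1, ∀ κ0 ∈ K, ∃ a, ∀ᶠ z : ℝ × ℝ in 𝓝 (τ0, κ0), Q a z.1 z.2) :
    ∃ (r : ℕ) (F : Finset α), 0 < r ∧ ∀ κ ∈ K, ∀ i < r, ∃ a ∈ F, ∀ τ,
      (i : ℝ) / r ≤ τ → τ ≤ ((i : ℝ) + 2) / r → Q a τ κ := by
  classical
  set X : Set (ℝ × ℝ) := Icc (0 : ℝ) 1 ×ˢ K with hX
  have hXc : IsCompact X := isCompact_Icc.prod hK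
  set c : α → Set (ℝ × ℝ) := fun a => interior {z | Q a z.1 z.2} with hc
  have hcover : X ⊆ ⋃ a, c a := by
    rintro ⟨τ, κ⟩ ⟨hτ, hκ⟩
    obtain ⟨a, ha⟩ := h τ hτ κ hκ
    exact mem_iUnion.2 ⟨a, mem_interior_iff_mem_nhds.2 ha⟩
  obtain ⟨F, hF⟩ := hXc.elim_finite_subcover c (fun a => isOpen_interior) hcover
  have hF' : X ⊆ ⋃ a : F, c a := by
    intro z hz
    obtain ⟨a, ha⟩ := mem_iUnion.1 (hF hz)
    obtain ⟨haF, haz⟩ := mem_iUnion.1 ha
    exact mem_iUnion.2 ⟨⟨a, haF⟩, haz⟩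
  obtain ⟨δ, hδ, hball⟩ := lebesgue_number_lemma_of_metric hXc
    (fun a : F => (isOpen_interior : IsOpen (c a))) hF'
  obtain ⟨r, hr⟩ := exists_nat_gt (max 1 (2 / δ))
  have hr1 : (1 : ℝ) < r := lt_of_le_of_lt (le_max_left _ _) hr
  have hr2 : 2 / δ < r := lt_of_le_of_lt (le_max_right _ _) hr
  have hr0 : (0 : ℝ) < r := by linarith
  refine ⟨r, F, by exact_mod_cast hr0, fun κ hκ i hi => ?_⟩
  have hir : (i : ℝ) / r ∈ Icc (0 : ℝ) 1 := by
    refine ⟨by positivity, ?_⟩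
    rw [div_le_one hr0]; exact_mod_cast hi.le
  obtain ⟨a, ha⟩ := hball ((i : ℝ) / r, κ) ⟨hir, hκ⟩
  refine ⟨a, a.2, fun τ h1 h2 => ?_⟩
  have h3 : (τ, κ) ∈ Metric.ball ((i : ℝ) / r, κ) δ := by
    rw [Metric.mem_ball, Prod.dist_eq, dist_self, max_lt_iff]
    refine ⟨?_, hδ⟩
    rw [Real.dist_eq, abs_of_nonneg (by linarith)]
    have h4 : τ - (i : ℝ) / r ≤ 2 / r := by
      have : ((i : ℝ) + 2) / r = (i : ℝ) / r + 2 / r := by ring
      linarith
    refine lt_of_le_of_lt h4 ?_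
    rw [div_lt_iff₀ hr0]
    rw [div_lt_iff₀ hδ] at hr2
    linarith
  have h5 : (τ, κ) ∈ {z : ℝ × ℝ | Q a z.1 z.2} := interior_subset (ha h3)
  exact h5

end Crest.Agent.R202.LowF
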