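import Mathlib

/-! # Row 202, PART B (finite dimensional Galerkin evolution), definitions (helper514)

`G` = finite dimensional real inner product space (polynomials of degree `≤ D` on the sphere in one
sector, with the round `L²` inner product).  The Galerkin system is `u'' + b u' = K u`, `t ≥ t0`,
with *regular* initial data `u' t0 = L0 (u t0)`, `L0² + b t0 L0 = K t0`.

All statements have constants that do not depend on `G`. -/

set_option autoImplicit false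

open Set
open scoped InnerProductSpace

namespace Crest.Agent.R202.Gal

variable {G : Type*} [NormedAddCommGroup G] [InnerProductSpace ℝ G]

/-- Coefficients of the Galerkin system `u'' + b u' = K u`. -/
structure Coef (G : Type*) [NormedAddCommGroup G] [InnerProductSpace ℝ G] where
  b : ℝ → ℝ
  b' : ℝ → ℝ
  K : ℝ → G →L[ℝ] G
  K' : ℝ → G →L[ℝ] G
  t0 : ℝ
  L0 : G →L[ℝ] G
  hb : ∀ t, HasDerivAt b (b' t) t
  hK : ∀ t, HasDerivAt K (K' t) t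
  cb' : Continuous b'
  cK' : Continuous K'
  symm : ∀ t x y, ⟪K t x, y⟫_ℝ = ⟪x, K t y⟫_ℝ
  nonneg : ∀ t x, 0 ≤ ⟪K t x, x⟫_ℝ
  L0_symm : ∀ x y, ⟪L0 x, y⟫_ℝ = ⟪x, L0 y⟫_ℝ
  L0_nonneg : ∀ x, 0 ≤ ⟪L0 x, x⟫_ℝ
  L0_sq : ∀ x, L0 (L0 x) + b t0 • L0 x = K t0 x
  b_pos : ∀ t, 1 / 2 ≤ b t

/-- A regular solution with velocity `v` (defined for all times, regular data at `t0`). -/
structure Reg (C : Coef G) (u v : ℝ → G) : Prop where
  du : ∀ t, HasDerivAt u (v t) t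
  dv : ∀ t, HasDerivAt v (C.K t (u t) - C.b t • v t) t
  init : v C.t0 = C.L0 (u C.t0)

/-- The Pohozaev error `E = ⟨Ku,u⟩ - |u'|² - b ⟨u',u⟩`. -/
noncomputable def Coef.err (C : Coef G) (u v : ℝ → G) (t : ℝ) : ℝ :=
  ⟪C.K t (u t), u t⟫_ℝ - ‖v t‖ ^ 2 - C.b t * ⟪v t, u t⟫_ℝ

/-- The only quantitative input: at time `t` the error is `≤ η (⟨u',u⟩ + |u|²)` for every regular
solution. -/
def Coef.Small (C : Coef G) (η t : ℝ) : Prop :=
  ∀ u v, Reg C u v → |C.err u v t| ≤ η * (⟪v t, u t⟫_ℝ + ‖u t‖ ^ 2)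

/-- The cut with slow space `S` (of dimension `l`) is open at time `t`, with exponent `γ` in the
middle of the gap and half-gap `g`:  `K ≤ (γ-g)² + b(γ-g)` on `S`, `K ≥ (γ+g)² + b(γ+g)` on `Sᗮ`. -/
structure Coef.OpenCut (C : Coef G) (t : ℝ) (S : Submodule ℝ G) (γ g : ℝ) : Prop where
  inv : ∀ x ∈ S, ∀ y ∈ Sᗮ, ⟪C.K t x, y⟫_ℝ = 0
  low : ∀ x ∈ S, ⟪C.K t x, x⟫_ℝ ≤ ((γ - g) ^ 2 + C.b t * (γ - g)) * ‖x‖ ^ 2
  high : ∀ y ∈ Sᗮ, ((γ + g) ^ 2 + C.b t * (γ + g)) * ‖y‖ ^ 2 ≤ ⟪C.K t y, y⟫_ℝ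
  g_pos : 0 < g
  g_le : g ≤ γ

/-- The frequency cone `⟨u',u⟩ ≤ γ |u|²`. -/
def Cone (u v : ℝ → G) (γ t : ℝ) : Prop := ⟪v t, u t⟫_ℝ ≤ γ * ‖u t‖ ^ 2

end Crest.Agent.R202.Gal
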