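import Mathlib
import Crest.Agent.R202.GalDefs
import Crest.Agent.R202.LinODE

/-! # Row 202, B1: regular solutions of the Galerkin system (helper514)

existence, joint continuity in a compact parameter, symmetry, monotonicity, Pohozaev error bound,
Riccati equation. -/

set_option autoImplicit false
set_option linter.unusedSectionVars false
set_option linter.unusedVariables false

open Set Filter Topology
open scoped InnerProductSpace

namespace Crest.Agent.R202.Gal

section Exist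

variable {X : Type*} [TopologicalSpace X] [CompactSpace X]
  {G : Type*} [NormedAddCommGroup G] [InnerProductSpace ℝ G] [FiniteDimensional ℝ G]

/-- the first order system -/
noncomputable def sys (K : G →L[ℝ] G) (b : ℝ) : (G × G) →L[ℝ] (G × G) :=
  (ContinuousLinearMap.inl ℝ G G).comp (ContinuousLinearMap.snd ℝ G G) +
    (ContinuousLinearMap.inr ℝ G G).comp
      (K.comp (ContinuousLinearMap.fst ℝ G G) - b • ContinuousLinearMap.snd ℝ G G)

theorem exists_sol (C : X → Coef G) (t0 : ℝ) (ht0 : ∀ κ, (C κ).t0 = t0)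
    (hK : Continuous (Function.uncurry fun κ t => (C κ).K t))
    (hb : Continuous (Function.uncurry fun κ t => (C κ).b t))
    (hL : Continuous fun κ => (C κ).L0) :
    ∃ U V : X → ℝ → G →L[ℝ] G, Continuous (Function.uncurry U) ∧
      Continuous (Function.uncurry V) ∧
      (∀ κ, U κ t0 = ContinuousLinearMap.id ℝ G) ∧ (∀ κ, V κ t0 = (C κ).L0) ∧
      (∀ κ t, HasDerivAt (U κ) (V κ t) t) ∧
      (∀ κ t, HasDerivAt (V κ) (((C κ).K t).comp (U κ t) - (C κ).b t • V κ t) t) := by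
  have : CompleteSpace G := FiniteDimensional.complete ℝ G
  let A : X → ℝ → (G →L[ℝ] (G × G)) →L[ℝ] (G →L[ℝ] (G × G)) := fun κ t =>
    ContinuousLinearMap.compL ℝ G (G × G) (G × G) (sys ((C κ).K t) ((C κ).b t))
  have hsys : Continuous fun p : X × ℝ => sys ((C p.1).K p.2) ((C p.1).b p.2) := by
    have h1 : Continuous fun p : X × ℝ => (C p.1).K p.2 := hK
    have h2 : Continuous fun p : X × ℝ => (C p.1).b p.2 := hb
    unfold sys
    refine continuous_const.add (continuous_const.clm_comp ?_)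
    exact (h1.clm_comp continuous_const).sub (h2.smul continuous_const)
  have hA : Continuous (Function.uncurry A) :=
    (ContinuousLinearMap.compL ℝ G (G × G) (G × G)).continuous.comp hsys
  let x0 : X → G →L[ℝ] (G × G) := fun κ =>
    ContinuousLinearMap.inl ℝ G G + (ContinuousLinearMap.inr ℝ G G).comp (C κ).L0
  have hx0 : Continuous x0 := continuous_const.add (continuous_const.clm_comp hL)
  obtain ⟨S, hS, hS0, hSd⟩ := LinODE.exists_flow hA t0 hx0
  have e1 : ∀ κ t x, (A κ t (S κ t)) x = (sys ((C κ).K t) ((C κ).b t)) (S κ t x) := fun _ _ _ => rfl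
  refine ⟨fun κ t => (ContinuousLinearMap.fst ℝ G G).comp (S κ t),
    fun κ t => (ContinuousLinearMap.snd ℝ G G).comp (S κ t), ?_, ?_, ?_, ?_, ?_, ?_⟩
  · exact continuous_const.clm_comp hS
  · exact continuous_const.clm_comp hS
  · intro κ
    ext x
    simp [hS0, x0]
  · intro κ
    ext x
    simp [hS0, x0]
  · intro κ t
    have h := (hSd κ t)
    have h2 : HasDerivAt (fun t => (ContinuousLinearMap.fst ℝ G G).comp (S κ t))
        ((ContinuousLinearMap.fst ℝ G G).comp (A κ t (S κ t))) t :=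
      ((ContinuousLinearMap.compL ℝ G (G × G) G
        (ContinuousLinearMap.fst ℝ G G)).hasFDerivAt.comp_hasDerivAt t h)
    convert h2 using 1
    ext x
    simp [e1, sys]
  · intro κ t
    have h := (hSd κ t)
    have h2 : HasDerivAt (fun t => (ContinuousLinearMap.snd ℝ G G).comp (S κ t))
        ((ContinuousLinearMap.snd ℝ G G).comp (A κ t (S κ t))) t :=
      ((ContinuousLinearMap.compL ℝ G (G × G) G
        (ContinuousLinearMap.snd ℝ G G)).hasFDerivAt.comp_hasDerivAt t h)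
    convert h2 using 1
    ext x
    simp [e1, sys]

end Exist

/-! ### identities for regular solutions -/

section RegLemmas

variable {G : Type*} [NormedAddCommGroup G] [InnerProductSpace ℝ G]

theorem le_of_hasDerivAt {f f' : ℝ → ℝ} {a b : ℝ} (hab : a ≤ b)
    (h : ∀ t ∈ Icc a b, HasDerivAt f (f' t) t) (h0 : ∀ t ∈ Icc a b, 0 ≤ f' t) : f a ≤ f b := by
  have hm : MonotoneOn f (Icc a b) := by
    refine monotoneOn_of_deriv_nonneg (convex_Icc a b)
      (fun t ht => (h t ht).continuousAt.continuousWithinAt) ?_ ?_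
    · intro t ht
      rw [interior_Icc] at ht
      exact (h t (Ioo_subset_Icc_self ht)).differentiableAt.differentiableWithinAt
    · intro t ht
      rw [interior_Icc] at ht
      rw [(h t (Ioo_subset_Icc_self ht)).deriv]
      exact h0 t (Ioo_subset_Icc_self ht)
  exact hm (left_mem_Icc.2 hab) (right_mem_Icc.2 hab) hab

/-- the weight `exp ∫ b` -/
noncomputable def Coef.wt (C : Coef G) (t : ℝ) : ℝ := Real.exp (∫ s in C.t0..t, C.b s)

theorem Coef.continuous_b (C : Coef G) : Continuous C.b :=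
  continuous_iff_continuousAt.2 fun t => (C.hb t).continuousAt

theorem Coef.wt_pos (C : Coef G) (t : ℝ) : 0 < C.wt t := Real.exp_pos _

theorem Coef.wt_t0 (C : Coef G) : C.wt C.t0 = 1 := by simp [Coef.wt]

theorem Coef.hasDerivAt_wt (C : Coef G) (t : ℝ) : HasDerivAt C.wt (C.b t * C.wt t) t := by
  have h1 : HasDerivAt (fun t => ∫ s in C.t0..t, C.b s) (C.b t) t :=
    intervalIntegral.integral_hasDerivAt_right (C.continuous_b.intervalIntegrable _ _)
      (C.continuous_b.stronglyMeasurableAtFilter _ _) C.continuous_b.continuousAt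
  have h2 := h1.exp
  rw [mul_comm] at h2
  exact h2

theorem Coef.b_nonneg (C : Coef G) (t : ℝ) : 0 ≤ C.b t := by linarith [C.b_pos t]

theorem Coef.wt_mono (C : Coef G) {a b : ℝ} (h : a ≤ b) : C.wt a ≤ C.wt b :=
  le_of_hasDerivAt h (fun t _ => C.hasDerivAt_wt t)
    (fun t _ => mul_nonneg (C.b_nonneg t) (C.wt_pos t).le)

theorem Coef.wt_exp (C : Coef G) {a b : ℝ} (h : a ≤ b) :
    C.wt a * Real.exp ((b - a) / 2) ≤ C.wt b := by
  have h1 : C.wt a * Real.exp (-(a / 2)) ≤ C.wt b * Real.exp (-(b / 2)) := by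
    refine le_of_hasDerivAt (f := fun t => C.wt t * Real.exp (-(t / 2)))
      (f' := fun t => (C.b t * C.wt t) * Real.exp (-(t / 2)) +
        C.wt t * (Real.exp (-(t / 2)) * (-(1 / 2)))) h ?_ ?_
    · intro t _
      have h2 : HasDerivAt (fun t : ℝ => Real.exp (-(t / 2))) (Real.exp (-(t / 2)) * (-(1 / 2))) t := by
        have : HasDerivAt (fun t : ℝ => -(t / 2)) (-(1 / 2)) t :=
          ((hasDerivAt_id t).div_const 2).neg
        exact this.exp
      exact (C.hasDerivAt_wt t).mul h2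
    · intro t _
      have h3 := C.b_pos t
      have h4 := C.wt_pos t
      have h5 := Real.exp_pos (-(t / 2))
      have : (C.b t * C.wt t) * Real.exp (-(t / 2)) + C.wt t * (Real.exp (-(t / 2)) * (-(1 / 2)))
        = (C.b t - 1 / 2) * (C.wt t * Real.exp (-(t / 2))) := by ring
      rw [this]
      exact mul_nonneg (by linarith) (by positivity)
  have h2 : Real.exp ((b - a) / 2) = Real.exp (-(a / 2)) * Real.exp (b / 2) := by
    rw [← Real.exp_add]; congr 1; ring
  have h3 : Real.exp (-(b / 2)) * Real.exp (b / 2) = 1 := by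
    rw [← Real.exp_add]; simp
  calc C.wt a * Real.exp ((b - a) / 2) = (C.wt a * Real.exp (-(a / 2))) * Real.exp (b / 2) := by
        rw [h2]; ring
    _ ≤ (C.wt b * Real.exp (-(b / 2))) * Real.exp (b / 2) :=
        mul_le_mul_of_nonneg_right h1 (Real.exp_pos _).le
    _ = C.wt b := by rw [mul_assoc, h3, mul_one]

variable {C : Coef G} {u v u₁ v₁ u₂ v₂ : ℝ → G}

/-- Wronskian identity: symmetry of the Dirichlet-to-Neumann map. -/
theorem Reg.symm (h₁ : Reg C u₁ v₁) (h₂ : Reg C u₂ v₂) (t : ℝ) :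
    ⟪v₁ t, u₂ t⟫_ℝ = ⟪u₁ t, v₂ t⟫_ℝ := by
  have hd : ∀ t, HasDerivAt (fun t => C.wt t * (⟪v₁ t, u₂ t⟫_ℝ - ⟪u₁ t, v₂ t⟫_ℝ)) 0 t := by
    intro t
    have a1 := (h₁.dv t).inner ℝ (h₂.du t)
    have a2 := (h₁.du t).inner ℝ (h₂.dv t)
    have a3 := (C.hasDerivAt_wt t).mul (a1.sub a2)
    refine HasDerivAt.congr_deriv a3 ?_
    simp only [Pi.sub_apply, inner_sub_left, inner_sub_right, inner_smul_left, inner_smul_right,
      RCLike.conj_to_real, C.symm t (u₁ t) (u₂ t)]
    ring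
  have hconst : ∀ s, C.wt s * (⟪v₁ s, u₂ s⟫_ℝ - ⟪u₁ s, v₂ s⟫_ℝ) =
      C.wt C.t0 * (⟪v₁ C.t0, u₂ C.t0⟫_ℝ - ⟪u₁ C.t0, v₂ C.t0⟫_ℝ) := fun s =>
    is_const_of_deriv_eq_zero (f := fun t => C.wt t * (⟪v₁ t, u₂ t⟫_ℝ - ⟪u₁ t, v₂ t⟫_ℝ))
      (fun t => (hd t).differentiableAt) (fun t => (hd t).deriv) s C.t0
  have h0 := hconst t
  rw [h₁.init, h₂.init, C.L0_symm, sub_self, mul_zero] at h0
  have := (mul_eq_zero.1 h0).resolve_left (C.wt_pos t).ne'
  linarith

/-- derivative of the weighted flux `w ⟨u',u⟩` -/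
theorem Reg.hasDerivAt_flux (h : Reg C u v) (t : ℝ) :
    HasDerivAt (fun t => C.wt t * ⟪v t, u t⟫_ℝ)
      (C.wt t * (‖v t‖ ^ 2 + ⟪C.K t (u t), u t⟫_ℝ)) t := by
  have a1 := (h.dv t).inner ℝ (h.du t)
  have a3 := (C.hasDerivAt_wt t).mul a1
  refine HasDerivAt.congr_deriv a3 ?_
  simp only [inner_sub_left, inner_smul_left, RCLike.conj_to_real, real_inner_self_eq_norm_sq]
  ring

theorem Reg.flux_nonneg (h : Reg C u v) {t : ℝ} (ht : C.t0 ≤ t) :
    0 ≤ C.wt t * ⟪v t, u t⟫_ℝ := by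
  have h1 : C.wt C.t0 * ⟪v C.t0, u C.t0⟫_ℝ ≤ C.wt t * ⟪v t, u t⟫_ℝ :=
    le_of_hasDerivAt (f := fun t => C.wt t * ⟪v t, u t⟫_ℝ) ht (fun s _ => h.hasDerivAt_flux s)
      (fun s _ => mul_nonneg (C.wt_pos s).le (add_nonneg (sq_nonneg _) (C.nonneg s _)))
  have h2 : 0 ≤ C.wt C.t0 * ⟪v C.t0, u C.t0⟫_ℝ := by
    rw [h.init]
    exact mul_nonneg (C.wt_pos _).le (C.L0_nonneg _)
  linarith

theorem Reg.flux_mono (h : Reg C u v) {s t : ℝ} (hst : s ≤ t) :
    C.wt s * ⟪v s, u s⟫_ℝ ≤ C.wt t * ⟪v t, u t⟫_ℝ :=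
  le_of_hasDerivAt (f := fun t => C.wt t * ⟪v t, u t⟫_ℝ) hst (fun s _ => h.hasDerivAt_flux s)
      (fun s _ => mul_nonneg (C.wt_pos s).le (add_nonneg (sq_nonneg _) (C.nonneg s _)))

theorem Reg.freq_nonneg (h : Reg C u v) {t : ℝ} (ht : C.t0 ≤ t) : 0 ≤ ⟪v t, u t⟫_ℝ :=
  nonneg_of_mul_nonneg_right (h.flux_nonneg ht) (C.wt_pos t)

theorem Reg.hasDerivAt_normSq (h : Reg C u v) (t : ℝ) :
    HasDerivAt (fun t => ‖u t‖ ^ 2) (2 * ⟪v t, u t⟫_ℝ) t := by
  have := (h.du t).norm_sq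
  convert this using 1
  rw [real_inner_comm]

theorem Reg.normSq_mono (h : Reg C u v) {s t : ℝ} (hs : C.t0 ≤ s) (hst : s ≤ t) :
    ‖u s‖ ^ 2 ≤ ‖u t‖ ^ 2 :=
  le_of_hasDerivAt (f := fun t => ‖u t‖ ^ 2) hst (fun r _ => h.hasDerivAt_normSq r)
    (fun r hr => mul_nonneg (by norm_num) (h.freq_nonneg (hs.trans hr.1)))

theorem Reg.norm_mono (h : Reg C u v) {s t : ℝ} (hs : C.t0 ≤ s) (hst : s ≤ t) :
    ‖u s‖ ≤ ‖u t‖ :=
  le_of_sq_le_sq (h.normSq_mono hs hst) (norm_nonneg _)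

/-- Pohozaev identity (derivative form). -/
theorem Reg.hasDerivAt_err (h : Reg C u v) (t : ℝ) :
    HasDerivAt (fun t => C.wt t * C.err u v t)
      (C.wt t * (⟪C.K' t (u t), u t⟫_ℝ - C.b' t * ⟪v t, u t⟫_ℝ)) t := by
  have k1 : HasDerivAt (fun t => C.K t (u t)) (C.K' t (u t) + C.K t (v t)) t :=
    (C.hK t).clm_apply (h.du t)
  have a1 := k1.inner ℝ (h.du t)
  have a2 := (h.dv t).norm_sq
  have a3 := (C.hb t).mul ((h.dv t).inner ℝ (h.du t))
  have a4 := (C.hasDerivAt_wt t).mul ((a1.sub a2).sub a3)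
  refine HasDerivAt.congr_deriv a4 ?_
  simp only [Pi.sub_apply, Pi.mul_apply, inner_sub_left, inner_sub_right, inner_add_left,
    inner_smul_left, inner_smul_right,
    RCLike.conj_to_real, real_inner_self_eq_norm_sq, C.symm t (v t) (u t),
    real_inner_comm (v t) (C.K t (u t)), real_inner_comm (u t) (v t)]
  ring

theorem Reg.err_t0 (h : Reg C u v) : C.err u v C.t0 = 0 := by
  have h1 := C.L0_sq (u C.t0)
  have h2 : ⟪C.K C.t0 (u C.t0), u C.t0⟫_ℝ
      = ‖v C.t0‖ ^ 2 + C.b C.t0 * ⟪v C.t0, u C.t0⟫_ℝ := by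
    rw [← h1, inner_add_left, C.L0_symm, inner_smul_left, h.init, real_inner_self_eq_norm_sq]
    simp
  rw [Coef.err, h2]; ring

end RegLemmas

end Crest.Agent.R202.Gal
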