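import Mathlib
import Crest.Agent.R202.GalODE

/-! # Row 202, B1: the Pohozaev error is small when the recent rates are small (helper514) -/

set_option autoImplicit false
set_option linter.unusedSectionVars false
set_option linter.unusedVariables false

open Set Filter Topology
open scoped InnerProductSpace

namespace Crest.Agent.R202.Gal

variable {G : Type*} [NormedAddCommGroup G] [InnerProductSpace ℝ G]
variable {C : Coef G} {u v : ℝ → G}

/-- `Rate C r s`: at time `s` the relative rate of change of the coefficients is at most `r`. -/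
def Coef.Rate (C : Coef G) (r s : ℝ) : Prop :=
  (∀ x, |⟪C.K' s x, x⟫_ℝ| ≤ r * ⟪C.K s x, x⟫_ℝ) ∧ |C.b' s| ≤ r

theorem Reg.rate_le (h : Reg C u v) {r s : ℝ} (hs : C.t0 ≤ s) (hr : C.Rate r s) :
    |C.wt s * (⟪C.K' s (u s), u s⟫_ℝ - C.b' s * ⟪v s, u s⟫_ℝ)| ≤
      r * (C.wt s * (‖v s‖ ^ 2 + ⟪C.K s (u s), u s⟫_ℝ)) + r * (C.wt s * ⟪v s, u s⟫_ℝ) := by
  have h0 := h.freq_nonneg hs
  have h1 := hr.1 (u s)
  have h2 := hr.2
  have hr0 : 0 ≤ r := (abs_nonneg _).trans h2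
  have hw := (C.wt_pos s).le
  rw [abs_mul, abs_of_nonneg hw]
  have h3 : |⟪C.K' s (u s), u s⟫_ℝ - C.b' s * ⟪v s, u s⟫_ℝ| ≤
      r * ⟪C.K s (u s), u s⟫_ℝ + r * ⟪v s, u s⟫_ℝ := by
    refine (abs_sub _ _).trans (add_le_add h1 ?_)
    rw [abs_mul, abs_of_nonneg h0]
    exact mul_le_mul_of_nonneg_right h2 h0
  have h4 : 0 ≤ r * ‖v s‖ ^ 2 := by positivity
  nlinarith [mul_le_mul_of_nonneg_left h3 hw, mul_nonneg hw h4]

theorem abs_sub_le_of_rates {f g f' g' : ℝ → ℝ} {a b : ℝ} (hab : a ≤ b)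
    (hf : ∀ t ∈ Icc a b, HasDerivAt f (f' t) t) (hg : ∀ t ∈ Icc a b, HasDerivAt g (g' t) t)
    (hfg : ∀ t ∈ Icc a b, |f' t| ≤ g' t) : |f b - f a| ≤ g b - g a := by
  rw [abs_le]
  constructor
  · have := le_of_hasDerivAt (f := fun t => g t + f t) (f' := fun t => g' t + f' t) hab
      (fun t ht => (hg t ht).add (hf t ht))
      (fun t ht => by linarith [(abs_le.1 (hfg t ht)).1])
    linarith
  · have := le_of_hasDerivAt (f := fun t => g t - f t) (f' := fun t => g' t - f' t) hab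
      (fun t ht => (hg t ht).sub (hf t ht))
      (fun t ht => by linarith [(abs_le.1 (hfg t ht)).2])
    linarith

/-- The Pohozaev error is controlled by the recent rates and `1 / L` times the old rates. -/
theorem Reg.err_bound (h : Reg C u v) {t L rm rr : ℝ} (hL : 0 < L) (htL : C.t0 ≤ t - L)
    (h1 : ∀ s ∈ Icc C.t0 (t - L), C.Rate rm s) (h2 : ∀ s ∈ Icc (t - L) t, C.Rate rr s) :
    |C.err u v t| ≤ (rr + 2 * rm / L) * (⟪v t, u t⟫_ℝ + ‖u t‖ ^ 2) := by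
  have hLt : t - L ≤ t := by linarith
  have hrm : 0 ≤ rm := (abs_nonneg _).trans (h1 (t - L) (right_mem_Icc.2 htL)).2
  have hrr : 0 ≤ rr := (abs_nonneg _).trans (h2 t (right_mem_Icc.2 hLt)).2
  have ht0 : C.t0 ≤ t := htL.trans hLt
  -- step A
  have hA : |C.wt (t - L) * C.err u v (t - L)| ≤
      rm * (C.wt (t - L) * ⟪v (t - L), u (t - L)⟫_ℝ)
        + rm * (C.wt (t - L) / 2) * ‖u (t - L)‖ ^ 2 := by
    have := abs_sub_le_of_rates (f := fun s => C.wt s * C.err u v s)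
      (g := fun s => rm * (C.wt s * ⟪v s, u s⟫_ℝ) + rm * (C.wt (t - L) / 2) * ‖u s‖ ^ 2)
      (f' := fun s => C.wt s * (⟪C.K' s (u s), u s⟫_ℝ - C.b' s * ⟪v s, u s⟫_ℝ))
      (g' := fun s => rm * (C.wt s * (‖v s‖ ^ 2 + ⟪C.K s (u s), u s⟫_ℝ)) +
        rm * (C.wt (t - L) / 2) * (2 * ⟪v s, u s⟫_ℝ)) htL
      (fun s _ => h.hasDerivAt_err s)
      (fun s _ => ((h.hasDerivAt_flux s).const_mul rm).add
        ((h.hasDerivAt_normSq s).const_mul (rm * (C.wt (t - L) / 2))))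
      (fun s hs => by
        refine (h.rate_le hs.1 (h1 s hs)).trans ?_
        have hw := C.wt_mono hs.2
        have hf := h.freq_nonneg hs.1
        have : rm * (C.wt s * ⟪v s, u s⟫_ℝ) ≤ rm * (C.wt (t - L) * ⟪v s, u s⟫_ℝ) :=
          mul_le_mul_of_nonneg_left (mul_le_mul_of_nonneg_right hw hf) hrm
        linarith)
    simp only [h.err_t0, mul_zero, sub_zero] at this
    have h3 : 0 ≤ rm * (C.wt C.t0 * ⟪v C.t0, u C.t0⟫_ℝ) :=
      mul_nonneg hrm (h.flux_nonneg le_rfl)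
    have h4 : 0 ≤ rm * (C.wt (t - L) / 2) * ‖u C.t0‖ ^ 2 :=
      mul_nonneg (mul_nonneg hrm (by linarith [C.wt_pos (t - L)])) (sq_nonneg _)
    linarith
  -- step B
  have hB : |C.wt t * C.err u v t - C.wt (t - L) * C.err u v (t - L)| ≤
      rr * (C.wt t * ⟪v t, u t⟫_ℝ) + rr * (C.wt t / 2) * ‖u t‖ ^ 2 := by
    have := abs_sub_le_of_rates (f := fun s => C.wt s * C.err u v s)
      (g := fun s => rr * (C.wt s * ⟪v s, u s⟫_ℝ) + rr * (C.wt t / 2) * ‖u s‖ ^ 2)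
      (f' := fun s => C.wt s * (⟪C.K' s (u s), u s⟫_ℝ - C.b' s * ⟪v s, u s⟫_ℝ))
      (g' := fun s => rr * (C.wt s * (‖v s‖ ^ 2 + ⟪C.K s (u s), u s⟫_ℝ)) +
        rr * (C.wt t / 2) * (2 * ⟪v s, u s⟫_ℝ)) hLt
      (fun s _ => h.hasDerivAt_err s)
      (fun s _ => ((h.hasDerivAt_flux s).const_mul rr).add
        ((h.hasDerivAt_normSq s).const_mul (rr * (C.wt t / 2))))
      (fun s hs => by
        refine (h.rate_le (htL.trans hs.1) (h2 s hs)).trans ?_
        have hw := C.wt_mono hs.2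
        have hf := h.freq_nonneg (htL.trans hs.1)
        have : rr * (C.wt s * ⟪v s, u s⟫_ℝ) ≤ rr * (C.wt t * ⟪v s, u s⟫_ℝ) :=
          mul_le_mul_of_nonneg_left (mul_le_mul_of_nonneg_right hw hf) hrr
        linarith)
    have h3 : 0 ≤ rr * (C.wt (t - L) * ⟪v (t - L), u (t - L)⟫_ℝ) :=
      mul_nonneg hrr (h.flux_nonneg htL)
    have h4 : 0 ≤ rr * (C.wt t / 2) * ‖u (t - L)‖ ^ 2 :=
      mul_nonneg (mul_nonneg hrr (by linarith [C.wt_pos t])) (sq_nonneg _)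
    linarith
  -- step C
  have hC : L * (C.wt (t - L) * ⟪v (t - L), u (t - L)⟫_ℝ) ≤ C.wt t / 2 * ‖u t‖ ^ 2 := by
    have := le_of_hasDerivAt
      (f := fun s => C.wt t / 2 * ‖u s‖ ^ 2 -
        (C.wt (t - L) * ⟪v (t - L), u (t - L)⟫_ℝ) * (s - (t - L)))
      (f' := fun s => C.wt t / 2 * (2 * ⟪v s, u s⟫_ℝ) -
        (C.wt (t - L) * ⟪v (t - L), u (t - L)⟫_ℝ) * 1) hLt
      (fun s _ => ((h.hasDerivAt_normSq s).const_mul _).sub
        (((hasDerivAt_id s).sub_const _).const_mul _))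
      (fun s hs => by
        have h5 := h.flux_mono hs.1
        have hw := C.wt_mono hs.2
        have hf := h.freq_nonneg (htL.trans hs.1)
        have : C.wt s * ⟪v s, u s⟫_ℝ ≤ C.wt t * ⟪v s, u s⟫_ℝ := mul_le_mul_of_nonneg_right hw hf
        linarith)
    have h4 : 0 ≤ C.wt t / 2 * ‖u (t - L)‖ ^ 2 :=
      mul_nonneg (by linarith [C.wt_pos t]) (sq_nonneg _)
    have e1 : t - L - (t - L) = 0 := by ring
    have e2 : t - (t - L) = L := by ring
    rw [e1, e2] at this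
    linarith
  -- step D
  have hD : C.wt (t - L) * (L / 2) ≤ C.wt t := by
    have h5 := C.wt_exp hLt
    have e2 : t - (t - L) = L := by ring
    rw [e2] at h5
    have h6 : L / 2 ≤ Real.exp (L / 2) := by linarith [Real.add_one_le_exp (L / 2)]
    exact (mul_le_mul_of_nonneg_left h6 (C.wt_pos _).le).trans h5
  have hE : C.wt (t - L) / 2 * ‖u (t - L)‖ ^ 2 ≤ C.wt t / L * ‖u t‖ ^ 2 := by
    have h7 : C.wt (t - L) / 2 ≤ C.wt t / L := by
      rw [div_le_div_iff₀ (by norm_num) hL]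
      linarith
    exact mul_le_mul h7 (h.normSq_mono htL hLt) (sq_nonneg _)
      (div_nonneg (C.wt_pos t).le hL.le)
  have hC' : C.wt (t - L) * ⟪v (t - L), u (t - L)⟫_ℝ ≤ C.wt t / (2 * L) * ‖u t‖ ^ 2 := by
    rw [div_mul_eq_mul_div, le_div_iff₀ (by positivity)]
    linarith
  have hw := C.wt_pos t
  have hfin : C.wt t * |C.err u v t| ≤
      C.wt t * ((rr + 2 * rm / L) * (⟪v t, u t⟫_ℝ + ‖u t‖ ^ 2)) := by
    have h8 : C.wt t * |C.err u v t| = |C.wt t * C.err u v t| := by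
      rw [abs_mul, abs_of_pos hw]
    rw [h8]
    have h9 : |C.wt t * C.err u v t| ≤
        |C.wt t * C.err u v t - C.wt (t - L) * C.err u v (t - L)| +
          |C.wt (t - L) * C.err u v (t - L)| := by
      have := abs_add_le (C.wt t * C.err u v t - C.wt (t - L) * C.err u v (t - L))
        (C.wt (t - L) * C.err u v (t - L))
      simpa using this
    have hf := h.freq_nonneg ht0
    have h10 : rm * (C.wt (t - L) * ⟪v (t - L), u (t - L)⟫_ℝ) ≤
        rm * (C.wt t / (2 * L) * ‖u t‖ ^ 2) := mul_le_mul_of_nonneg_left hC' hrm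
    have h11 : rm * (C.wt (t - L) / 2) * ‖u (t - L)‖ ^ 2 ≤ rm * (C.wt t / L * ‖u t‖ ^ 2) := by
      rw [mul_assoc]; exact mul_le_mul_of_nonneg_left hE hrm
    have h12 : C.wt t * ((rr + 2 * rm / L) * (⟪v t, u t⟫_ℝ + ‖u t‖ ^ 2)) =
        rr * (C.wt t * ⟪v t, u t⟫_ℝ) + rr * C.wt t * ‖u t‖ ^ 2 +
        rm * (C.wt t / L * ‖u t‖ ^ 2) * 2 + (2 * rm / L) * (C.wt t * ⟪v t, u t⟫_ℝ) := by
      field_simp
      ring
    rw [h12]
    have h13 : rm * (C.wt t / (2 * L) * ‖u t‖ ^ 2) = rm * (C.wt t / L * ‖u t‖ ^ 2) / 2 := by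
      field_simp
    have h14 : 0 ≤ rm * (C.wt t / L * ‖u t‖ ^ 2) := by positivity
    have h15 : 0 ≤ (2 * rm / L) * (C.wt t * ⟪v t, u t⟫_ℝ) := by positivity
    have h16 : 0 ≤ rr * C.wt t * ‖u t‖ ^ 2 := by positivity
    have h17 : rr * (C.wt t / 2) * ‖u t‖ ^ 2 = rr * C.wt t * ‖u t‖ ^ 2 / 2 := by ring
    linarith
  exact le_of_mul_le_mul_left hfin hw

end Crest.Agent.R202.Gal
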