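import Mathlib
import Crest.Prelude.Def_CoordMetric
import Crest.Prelude.Def_CoordVolume
import Crest.Prelude.Def_ChartCurvature

/-!
Row 202, Part D: definitions.  Dimension `n = m + 3`.

`x = (z, y)`, `z = (x 0, x 1)`, `y = (x 2, …)`; `rho x = |z|`, `sig x = |y|`,
`XX x = sig x / ‖x‖ ∈ [0,1]`, `uu x = (x 0 + i x 1) / rho x` (unit complex number `e^{iφ}`).
-/

set_option autoImplicit false

open scoped ContDiff Topology
open Crest.GeometryTopology.CoordMetric Crest.GeometryTopology.ChartCurvature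

namespace Crest.Agent.R202.Geo

noncomputable section

variable {n m : ℕ}

/-- Rank one matrix `v vᵀ`. -/
def outer (v : EuclideanSpace ℝ (Fin n)) : Matrix (Fin n) (Fin n) ℝ := fun i j => v i * v j

/-- The radial unit vector `x / ‖x‖`. -/
def nu (x : EuclideanSpace ℝ (Fin n)) : EuclideanSpace ℝ (Fin n) := ‖x‖⁻¹ • x

/-- General radial metric `ν νᵀ + e^{-2 s(log r)} (A - ν νᵀ)` (Part D (R)); `1` at the origin. -/
def gRad (s : ℝ → ℝ) (A : MetricField n) : MetricField n := fun x =>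
  if x = 0 then 1 else
    outer (nu x) + Real.exp (-2 * s (Real.log ‖x‖)) • (A x - outer (nu x))

/-- `ρ = |z|`. -/
def rho (x : EuclideanSpace ℝ (Fin (m + 3))) : ℝ := Real.sqrt (x 0 ^ 2 + x 1 ^ 2)

/-- `σ = |y|`. -/
def sig (x : EuclideanSpace ℝ (Fin (m + 3))) : ℝ :=
  Real.sqrt (∑ j : Fin (m + 1), x j.succ.succ ^ 2)

/-- `X = |y| / |x|`. -/
def XX (x : EuclideanSpace ℝ (Fin (m + 3))) : ℝ := sig x / ‖x‖

/-- `e^{iφ} = z / |z|`. -/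
def uu (x : EuclideanSpace ℝ (Fin (m + 3))) : ℂ :=
  ((x 0 : ℂ) + (x 1 : ℂ) * Complex.I) / (rho x : ℂ)

/-- Unit vector in direction `φ`: `(-x₁, x₀, 0) / ρ`. -/
def e2 (x : EuclideanSpace ℝ (Fin (m + 3))) : EuclideanSpace ℝ (Fin (m + 3)) :=
  WithLp.toLp 2 (Fin.cons (-(x 1) / rho x) (Fin.cons (x 0 / rho x) fun _ => 0))

/-- Unit vector in direction `X`: `(-(σ/r) z/ρ, (ρ/r) y/σ)`. -/
def e1 (x : EuclideanSpace ℝ (Fin (m + 3))) : EuclideanSpace ℝ (Fin (m + 3)) :=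
  WithLp.toLp 2 (Fin.cons (-(sig x / ‖x‖) * (x 0 / rho x))
    (Fin.cons (-(sig x / ‖x‖) * (x 1 / rho x))
      fun j : Fin (m + 1) => (rho x / ‖x‖) * (x j.succ.succ / sig x)))

/-- Projection onto the directions tangent to the sphere `|y| = const` in `y`-space. -/
def WW (x : EuclideanSpace ℝ (Fin (m + 3))) : Matrix (Fin (m + 3)) (Fin (m + 3)) ℝ :=
  fun i j => if 2 ≤ (i : ℕ) ∧ 2 ≤ (j : ℕ) then
    (if i = j then 1 else 0) - x i * x j / sig x ^ 2 else 0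

/-- `T = e1 e1ᵀ + e2 e2ᵀ = 1 - ν νᵀ - W` off the axes; smooth where `sig x ≠ 0`. -/
def TT (x : EuclideanSpace ℝ (Fin (m + 3))) : Matrix (Fin (m + 3)) (Fin (m + 3)) ℝ :=
  1 - outer (nu x) - WW x

/-- The cross-section matrix `A` for data `θ(t)`, `P(t, X, e^{iφ})`, `t = log ‖x‖`:
`A = ν νᵀ + θ^{-2/(n-1)} (1 - ν νᵀ + (1/P - 1) e1 e1ᵀ + (θ² P - 1) e2 e2ᵀ)`. -/
def Afam (θ : ℝ → ℝ) (P : ℝ → ℝ → ℂ → ℝ) : MetricField (m + 3) := fun x =>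
  outer (nu x) + (θ (Real.log ‖x‖)) ^ (-(2 : ℝ) / ((m : ℝ) + 2)) •
    (1 - outer (nu x) +
      if rho x = 0 then (θ (Real.log ‖x‖) - 1) • TT x
      else ((P (Real.log ‖x‖) (XX x) (uu x))⁻¹ - 1) • outer (e1 x)
        + ((θ (Real.log ‖x‖)) ^ 2 * P (Real.log ‖x‖) (XX x) (uu x) - 1) • outer (e2 x))

/-- The metric of row 202. -/
def gfam (s θ : ℝ → ℝ) (P : ℝ → ℝ → ℂ → ℝ) : MetricField (m + 3) := gRad s (Afam θ P)

/-- Structural conditions on the data (everything except curvature). -/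
structure Fam (s θ : ℝ → ℝ) (P : ℝ → ℝ → ℂ → ℝ) (t0 X0 X1 : ℝ) : Prop where
  hX0 : 0 < X0
  hX01 : X0 < X1
  hX1 : X1 < 1
  smooth_s : ContDiff ℝ ∞ s
  smooth_θ : ContDiff ℝ ∞ θ
  smooth_P : ContDiff ℝ ∞ (fun q : ℝ × ℝ × ℂ => P q.1 q.2.1 q.2.2)
  θ_pos : ∀ t, 0 < θ t
  θ_le : ∀ t, θ t ≤ 1
  P_pos : ∀ t X u, 0 < P t X u
  P_low : ∀ t X u, X ≤ X0 → P t X u = 1
  P_high : ∀ t X u, X1 ≤ X → P t X u = (θ t)⁻¹
  s_init : ∀ t ≤ t0, s t = 0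
  θ_init : ∀ t ≤ t0, θ t = 1
  P_init : ∀ t ≤ t0, ∀ X u, P t X u = 1

end

end Crest.Agent.R202.Geo
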