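import Mathlib
import Crest.Agent.R202.SphPoly

/-! # Row 202, module K1 (helper862): Fischer decomposition -/

set_option autoImplicit false

open MvPolynomial

namespace Crest.Agent.R202.Sph

/-- `|y|²` -/
noncomputable def R2 (D : ℕ) : MvPolynomial (Fin D) ℝ := ∑ i : Fin D, X i * X i

variable {D : ℕ}

theorem pderiv_R2 (i : Fin D) : pderiv i (R2 D) = C 2 * X i := by
  unfold R2
  rw [map_sum, Finset.sum_eq_single i]
  · rw [Derivation.leibniz, MvPolynomial.pderiv_X_self, smul_eq_mul, mul_one, ← two_mul]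
    rw [map_ofNat C 2]
  · intro j _ hj
    rw [Derivation.leibniz, MvPolynomial.pderiv_X_of_ne hj, smul_zero, add_zero]
  · simp

theorem isHomogeneous_R2 : (R2 D).IsHomogeneous 2 := by
  unfold R2
  exact IsHomogeneous.sum _ _ _ fun i _ => (isHomogeneous_X ℝ i).mul (isHomogeneous_X ℝ i)

theorem R2_ne_zero [NeZero D] : R2 D ≠ 0 := by
  intro h
  have h1 : MvPolynomial.eval (fun _ => (1 : ℝ)) (R2 D) = D := by simp [R2]
  rw [h, map_zero] at h1
  exact (NeZero.ne D) (by exact_mod_cast h1.symm)

theorem lap_R2_mul {e : ℕ} {g : MvPolynomial (Fin D) ℝ} (hg : g.IsHomogeneous e) :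
    lap D (R2 D * g) = C (2 * (D : ℝ) + 4 * e) * g + R2 D * lap D g := by
  rw [lap_apply, lap_apply]
  have h1 : ∀ i : Fin D, pderiv i (pderiv i (R2 D * g))
      = C 2 * g + C 4 * (X i * pderiv i g) + R2 D * pderiv i (pderiv i g) := by
    intro i
    have hp2 : pderiv i (C 2 * X i * g : MvPolynomial (Fin D) ℝ)
        = C 2 * g + C 2 * X i * pderiv i g := by
      rw [mul_assoc, pderiv_C_mul, pderiv_mul, pderiv_X_self]; ring
    have hp3 : pderiv i (R2 D * pderiv i g) = C 2 * X i * pderiv i g
        + R2 D * pderiv i (pderiv i g) := by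
      rw [pderiv_mul, pderiv_R2]
    rw [pderiv_mul, pderiv_R2, map_add, hp2, hp3]
    have h4 : (C 4 : MvPolynomial (Fin D) ℝ) = C 2 * C 2 := by rw [← C_mul]; norm_num
    have h2 : (C 2 : MvPolynomial (Fin D) ℝ) = 1 + 1 := by
      rw [← C_1, ← C_add]; norm_num
    rw [h4, h2]
    ring
  rw [Finset.sum_congr rfl fun i _ => h1 i, Finset.sum_add_distrib, Finset.sum_add_distrib,
    ← Finset.mul_sum, ← Finset.mul_sum, hg.sum_X_mul_pderiv, Finset.sum_const, Finset.mul_sum]
  simp only [Finset.card_univ, Fintype.card_fin, nsmul_eq_mul, C_add, C_mul]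
  have hD : (C (D : ℝ) : MvPolynomial (Fin D) ℝ) = (D : MvPolynomial (Fin D) ℝ) := by simp
  have he : (C (e : ℝ) : MvPolynomial (Fin D) ℝ) = (e : MvPolynomial (Fin D) ℝ) := by simp
  rw [hD, he]
  ring

theorem lap_R2_pow_mul (j : ℕ) {d : ℕ} {f : MvPolynomial (Fin D) ℝ} (hf : f.IsHomogeneous d) :
    lap D (R2 D ^ (j + 1) * f)
      = C (2 * ((j : ℝ) + 1) * (2 * j + D + 2 * d)) * (R2 D ^ j * f)
        + R2 D ^ (j + 1) * lap D f := by
  induction j with
  | zero =>
    rw [pow_zero, one_mul, zero_add, pow_one, lap_R2_mul hf]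
    congr 3
    push_cast; ring
  | succ j ih =>
    have hhom : (R2 D ^ (j + 1) * f).IsHomogeneous (2 * (j + 1) + d) :=
      (isHomogeneous_R2.pow (j + 1)).mul hf
    rw [pow_succ' (R2 D) (j + 1), mul_assoc, lap_R2_mul hhom, ih]
    have hc : (C (2 * (((j + 1 : ℕ) : ℝ) + 1) * (2 * ((j + 1 : ℕ) : ℝ) + D + 2 * d)) :
        MvPolynomial (Fin D) ℝ) = C (2 * (D : ℝ) + 4 * ((2 * (j + 1) + d : ℕ) : ℝ))
        + C (2 * ((j : ℝ) + 1) * (2 * j + D + 2 * d)) := by
      rw [← C_add]; congr 1; push_cast; ring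
    rw [hc]
    ring

theorem eq_zero_of_lap_R2_pow [NeZero D] : ∀ (d j : ℕ) {f : MvPolynomial (Fin D) ℝ},
    f.IsHomogeneous d → lap D (R2 D ^ (j + 1) * f) = 0 → f = 0 := by
  intro d
  induction d using Nat.strong_induction_on with
  | _ d ih =>
    intro j f hf h
    rw [lap_R2_pow_mul j hf] at h
    set c : ℝ := 2 * ((j : ℝ) + 1) * (2 * j + D + 2 * d) with hc
    have hDpos : (0 : ℝ) < D := by
      have := NeZero.pos D
      exact_mod_cast this
    have hcpos : 0 < c := by positivity
    have h1 : R2 D ^ j * (C c * f + R2 D * lap D f) = 0 := by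
      rw [← h]; ring
    have h2 : C c * f + R2 D * lap D f = 0 := by
      rcases mul_eq_zero.1 h1 with h3 | h3
      · exact absurd h3 (pow_ne_zero _ R2_ne_zero)
      · exact h3
    have hzero : lap D f = 0 := by
      by_cases hd : d < 2
      · exact lap_eq_zero_of_lt hd hf
      · refine ih (d - 2) (by omega) (j + 1) (lap_mem hf) ?_
        have h3 : R2 D ^ (j + 1 + 1) * lap D f = - (C c * (R2 D ^ (j + 1) * f)) := by
          have : R2 D * lap D f = - (C c * f) := by
            linear_combination h2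
          calc R2 D ^ (j + 1 + 1) * lap D f = R2 D ^ (j + 1) * (R2 D * lap D f) := by ring
            _ = _ := by rw [this]; ring
        rw [h3, map_neg, ← smul_eq_C_mul, map_smul, lap_R2_pow_mul j hf, h, smul_zero, neg_zero]
    rw [hzero, mul_zero, add_zero] at h2
    rcases mul_eq_zero.1 h2 with h3 | h3
    · exact absurd (C_eq_zero.1 h3) hcpos.ne'
    · exact h3

instance finite_harm (D q : ℕ) : Module.Finite ℝ (harm D q) :=
  Module.Finite.of_injective (Submodule.inclusion (inf_le_left :
    harm D q ≤ homogeneousSubmodule (Fin D) ℝ q)) (Submodule.inclusion_injective _)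

/-- `P_q = H_q + |y|² P_{q-2}` -/
theorem exists_harm_add [NeZero D] {q : ℕ} {f : MvPolynomial (Fin D) ℝ}
    (hf : f.IsHomogeneous (q + 2)) :
    ∃ h ∈ harm D (q + 2), ∃ g : MvPolynomial (Fin D) ℝ, g.IsHomogeneous q ∧
      f = h + R2 D * g := by
  let Φ : (harm D (q + 2) × homogeneousSubmodule (Fin D) ℝ q) →ₗ[ℝ]
      homogeneousSubmodule (Fin D) ℝ (q + 2) :=
    { toFun := fun p => ⟨p.1.1 + R2 D * p.2.1,
        Submodule.add_mem _ (mem_harm.1 p.1.2).1 (by
          have := (isHomogeneous_R2 (D := D)).mul p.2.2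
          rwa [add_comm 2 q] at this)⟩
      map_add' := fun a b => by
        apply Subtype.ext
        simp only [Prod.fst_add, Prod.snd_add, Submodule.coe_add]
        ring
      map_smul' := fun c a => by
        apply Subtype.ext
        simp only [Prod.smul_fst, Prod.smul_snd, Submodule.coe_smul, RingHom.id_apply,
          smul_add, mul_smul_comm] }
  have hinj : Function.Injective Φ := by
    rw [← LinearMap.ker_eq_bot, LinearMap.ker_eq_bot']
    rintro ⟨h, g⟩ h0
    have h1 : h.1 + R2 D * g.1 = 0 := congrArg Subtype.val h0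
    have h2 : lap D (R2 D ^ (0 + 1) * g.1) = 0 := by
      have : R2 D ^ (0 + 1) * g.1 = - h.1 := by
        rw [zero_add, pow_one]
        linear_combination h1
      rw [this, map_neg, (mem_harm.1 h.2).2, neg_zero]
    have h3 : g.1 = 0 := eq_zero_of_lap_R2_pow q 0 g.2 h2
    rw [h3, mul_zero, add_zero] at h1
    exact Prod.ext (Subtype.ext h1) (Subtype.ext h3)
  have hdim : Module.finrank ℝ (harm D (q + 2) × homogeneousSubmodule (Fin D) ℝ q)
      = Module.finrank ℝ (homogeneousSubmodule (Fin D) ℝ (q + 2)) := by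
    apply le_antisymm
    · exact LinearMap.finrank_le_finrank_of_injective hinj
    · rw [Module.finrank_prod, finrank_homogeneous, finrank_homogeneous]
      have := dimH_le_finrank D (q + 2)
      unfold dimH at this
      rw [if_pos (by omega), show q + 2 - 2 = q by omega] at this
      omega
  have hsurj := (LinearMap.injective_iff_surjective_of_finrank_eq_finrank hdim).1 hinj
  obtain ⟨⟨h, g⟩, hhg⟩ := hsurj ⟨f, hf⟩
  exact ⟨h.1, h.2, g.1, g.2, (congrArg Subtype.val hhg).symm⟩

/-- Fischer decomposition of a homogeneous polynomial. -/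
theorem fischer [NeZero D] : ∀ (k : ℕ) {f : MvPolynomial (Fin D) ℝ}, f.IsHomogeneous k →
    ∃ h : ℕ → MvPolynomial (Fin D) ℝ, (∀ j, 2 * j ≤ k → h j ∈ harm D (k - 2 * j)) ∧
      f = ∑ j ∈ Finset.range (k / 2 + 1), R2 D ^ j * h j := by
  intro k
  induction k using Nat.strong_induction_on with
  | _ k ih =>
    intro f hf
    by_cases hk : k < 2
    · refine ⟨fun _ => f, fun j hj => ?_, ?_⟩
      · have hj0 : j = 0 := by omega
        subst hj0
        rw [mul_zero, Nat.sub_zero]
        exact mem_harm.2 ⟨hf, lap_eq_zero_of_lt hk hf⟩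
      · have : k / 2 + 1 = 1 := by omega
        rw [this]
        simp
    · obtain ⟨q, rfl⟩ : ∃ q, k = q + 2 := ⟨k - 2, by omega⟩
      obtain ⟨h, hh, g, hg, hfg⟩ := exists_harm_add hf
      obtain ⟨h', hh', hg'⟩ := ih q (by omega) hg
      refine ⟨fun j => Nat.casesOn j h (fun i => h' i), fun j hj => ?_, ?_⟩
      · cases j with
        | zero => simpa using hh
        | succ i =>
          have := hh' i (by omega)
          rwa [show q + 2 - 2 * (i + 1) = q - 2 * i by omega]
      · have : (q + 2) / 2 + 1 = (q / 2 + 1) + 1 := by omega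
        rw [this, Finset.sum_range_succ', hfg, hg', Finset.mul_sum]
        simp only [pow_zero, one_mul]
        rw [add_comm]
        congr 1
        refine Finset.sum_congr rfl fun j _ => ?_
        ring

end Crest.Agent.R202.Sph
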