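import Mathlib
import Crest.Prelude.Def_CoordMetric
import Crest.Agent.R202.SphPoly

/-! # Row 202, module H (helper862): polynomials as functions on `ℝ^D`; harmonic polynomials of
different degrees are independent on the unit sphere (maximum principle). -/

set_option autoImplicit false

open MvPolynomial Crest.GeometryTopology
open scoped ContDiff

namespace Crest.Agent.R202.Sph

/-- a polynomial as a function on `ℝ^D` -/
noncomputable def ev {D : ℕ} (p : MvPolynomial (Fin D) ℝ) (z : EuclideanSpace ℝ (Fin D)) : ℝ :=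
  MvPolynomial.eval (fun i => z i) p

variable {D : ℕ}

@[simp] theorem ev_add (p q : MvPolynomial (Fin D) ℝ) (z) : ev (p + q) z = ev p z + ev q z := by
  simp [ev]

@[simp] theorem ev_mul (p q : MvPolynomial (Fin D) ℝ) (z) : ev (p * q) z = ev p z * ev q z := by
  simp [ev]

@[simp] theorem ev_C (c : ℝ) (z : EuclideanSpace ℝ (Fin D)) : ev (C c) z = c := by
  simp [ev]

@[simp] theorem ev_X (i : Fin D) (z : EuclideanSpace ℝ (Fin D)) : ev (X i) z = z i := by
  simp [ev]

@[simp] theorem ev_one (z : EuclideanSpace ℝ (Fin D)) :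
    ev (1 : MvPolynomial (Fin D) ℝ) z = 1 := by
  simp [ev]

@[simp] theorem ev_zero (z : EuclideanSpace ℝ (Fin D)) :
    ev (0 : MvPolynomial (Fin D) ℝ) z = 0 := by
  simp [ev]

theorem ev_sum {ι : Type*} (s : Finset ι) (f : ι → MvPolynomial (Fin D) ℝ) (z) :
    ev (∑ i ∈ s, f i) z = ∑ i ∈ s, ev (f i) z := by
  simp [ev]

theorem ev_smul (c : ℝ) (p : MvPolynomial (Fin D) ℝ) (z) : ev (c • p) z = c * ev p z := by
  simp [ev]

theorem contDiff_ev (p : MvPolynomial (Fin D) ℝ) {n : WithTop ℕ∞} : ContDiff ℝ n (ev p) := by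
  induction p using MvPolynomial.induction_on with
  | C a =>
    have : ev (C a : MvPolynomial (Fin D) ℝ) = fun _ => a := by funext z; simp
    rw [this]; exact contDiff_const
  | add p q hp hq =>
    have : ev (p + q) = fun z => ev p z + ev q z := by funext z; simp
    rw [this]; exact hp.add hq
  | mul_X p i hp =>
    have : ev (p * X i) = fun z => ev p z * z i := by funext z; simp
    rw [this]
    exact hp.mul (contDiff_piLp_apply (i := i) (p := 2))

theorem differentiable_ev (p : MvPolynomial (Fin D) ℝ) : Differentiable ℝ (ev p) :=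
  (contDiff_ev p (n := 1)).differentiable (by norm_num)

/-- partial derivatives of polynomials -/
theorem pderiv_ev (p : MvPolynomial (Fin D) ℝ) (i : Fin D) (z : EuclideanSpace ℝ (Fin D)) :
    CoordMetric.pderiv i (ev p) z = ev (MvPolynomial.pderiv i p) z := by
  unfold CoordMetric.pderiv
  induction p using MvPolynomial.induction_on with
  | C a =>
    have : ev (C a : MvPolynomial (Fin D) ℝ) = fun _ => a := by funext z; simp
    rw [this]
    simp
  | add p q hp hq =>
    have : ev (p + q) = fun z => ev p z + ev q z := by funext z; simp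
    rw [this, fderiv_fun_add (differentiable_ev p z) (differentiable_ev q z)]
    simp [hp, hq]
  | mul_X p j hp =>
    have : ev (p * X j) = fun z => ev p z * z j := by funext z; simp
    rw [this]
    have hd : DifferentiableAt ℝ (fun z : EuclideanSpace ℝ (Fin D) => z j) z := by fun_prop
    rw [fderiv_fun_mul (differentiable_ev p z) hd]
    have hproj : fderiv ℝ (fun z : EuclideanSpace ℝ (Fin D) => z j) z
        = EuclideanSpace.proj j := by
      have := (EuclideanSpace.proj (𝕜 := ℝ) j : EuclideanSpace ℝ (Fin D) →L[ℝ] ℝ).hasFDerivAt (x := z)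
      exact this.fderiv
    rw [hproj]
    simp only [_root_.add_apply, _root_.smul_apply, smul_eq_mul, hp,
      Derivation.leibniz, ev_add, ev_mul, ev_X]
    rw [MvPolynomial.pderiv_X]
    by_cases h : j = i
    · subst h; simp
    · simp [h]

theorem pderiv_ev_fun (p : MvPolynomial (Fin D) ℝ) (i : Fin D) :
    CoordMetric.pderiv i (ev p) = ev (MvPolynomial.pderiv i p) :=
  funext fun z => pderiv_ev p i z

/-- the Laplacian of a polynomial function -/
theorem laplace_ev (p : MvPolynomial (Fin D) ℝ) (z : EuclideanSpace ℝ (Fin D)) :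
    ∑ i, CoordMetric.pderiv i (CoordMetric.pderiv i (ev p)) z = ev (lap D p) z := by
  rw [lap_apply, ev_sum]
  refine Finset.sum_congr rfl fun i _ => ?_
  rw [pderiv_ev_fun, pderiv_ev]

/-- homogeneity -/
theorem ev_smul_arg {q : ℕ} {p : MvPolynomial (Fin D) ℝ} (hp : p.IsHomogeneous q) (c : ℝ)
    (z : EuclideanSpace ℝ (Fin D)) : ev p (c • z) = c ^ q * ev p z := by
  unfold ev
  rw [MvPolynomial.eval_eq, MvPolynomial.eval_eq, Finset.mul_sum]
  refine Finset.sum_congr rfl fun m hm => ?_
  have hdeg : ∑ i ∈ m.support, m i = q := by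
    have := hp (mem_support_iff.1 hm)
    simpa [Finsupp.weight_apply, Finsupp.sum] using this
  have h1 : ∏ i ∈ m.support, (c • z).ofLp i ^ m i = c ^ q * ∏ i ∈ m.support, z.ofLp i ^ m i := by
    rw [← hdeg, ← Finset.prod_pow_eq_pow_sum, ← Finset.prod_mul_distrib]
    refine Finset.prod_congr rfl fun i _ => ?_
    simp [mul_pow]
  rw [h1]; ring

/-- derivative along a coordinate line -/
theorem hasDerivAt_line (p : MvPolynomial (Fin D) ℝ) (i : Fin D) (z : EuclideanSpace ℝ (Fin D))
    (t : ℝ) : HasDerivAt (fun t : ℝ => ev p (z + t • EuclideanSpace.single i 1))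
      (ev (MvPolynomial.pderiv i p) (z + t • EuclideanSpace.single i 1)) t := by
  have h1 : HasDerivAt (fun t : ℝ => z + t • (EuclideanSpace.single i 1 : EuclideanSpace ℝ (Fin D)))
      (EuclideanSpace.single i 1) t := by
    have := ((hasDerivAt_id t).smul_const
      (EuclideanSpace.single i 1 : EuclideanSpace ℝ (Fin D))).const_add z
    simpa using this
  have h2 := ((differentiable_ev p) (z + t • EuclideanSpace.single i 1)).hasFDerivAt
  have h3 := h2.comp_hasDerivAt t h1
  have h4 := pderiv_ev p i (z + t • EuclideanSpace.single i 1)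
  unfold CoordMetric.pderiv at h4
  rw [h4] at h3
  exact h3

/-- second derivative test for polynomials -/
theorem second_le_of_isLocalMax (p : MvPolynomial (Fin D) ℝ) (i : Fin D)
    (z : EuclideanSpace ℝ (Fin D)) (h : IsLocalMax (ev p) z) :
    ev (MvPolynomial.pderiv i (MvPolynomial.pderiv i p)) z ≤ 0 := by
  by_contra hcon
  push Not at hcon
  set e : EuclideanSpace ℝ (Fin D) := EuclideanSpace.single i 1 with he
  set g : ℝ → ℝ := fun t => ev p (z + t • e) with hg
  have hd : deriv g = fun t => ev (MvPolynomial.pderiv i p) (z + t • e) :=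
    funext fun t => (hasDerivAt_line p i z t).deriv
  have hdd : deriv (deriv g) = fun t =>
      ev (MvPolynomial.pderiv i (MvPolynomial.pderiv i p)) (z + t • e) := by
    rw [hd]
    exact funext fun t => (hasDerivAt_line (MvPolynomial.pderiv i p) i z t).deriv
  have hcont : ContinuousAt (fun t : ℝ => z + t • e) 0 := by fun_prop
  have hmax : IsLocalMax g 0 := by
    have h0 : z = (fun t : ℝ => z + t • e) 0 := by simp
    have h' : IsLocalMax (ev p) ((fun t : ℝ => z + t • e) 0) := by rw [← h0]; exact h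
    have h'' : ∀ᶠ w in nhds ((fun t : ℝ => z + t • e) 0),
        ev p w ≤ ev p ((fun t : ℝ => z + t • e) 0) := h'
    exact hcont.tendsto.eventually h''
  have hpos : 0 < deriv (deriv g) 0 := by rw [hdd]; simpa using hcon
  have hmin : IsLocalMin g 0 :=
    isLocalMin_of_deriv_deriv_pos hpos hmax.deriv_eq_zero
      (hasDerivAt_line p i z 0).continuousAt
  have hconst : g =ᶠ[nhds 0] fun _ => g 0 := by
    filter_upwards [hmax, hmin] with t h1 h2
    exact le_antisymm h1 h2
  have h1 : deriv g =ᶠ[nhds 0] fun _ => 0 := by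
    have := hconst.deriv
    simpa using this
  have h2 : deriv (deriv g) 0 = 0 := by
    have := h1.deriv_eq
    simpa using this
  linarith

/-- `ε (|z|² - 1)` as a polynomial -/
noncomputable def sq1 (D : ℕ) (ε : ℝ) : MvPolynomial (Fin D) ℝ :=
  C ε * (∑ i : Fin D, X i * X i - 1)

theorem ev_sq1 (ε : ℝ) (z : EuclideanSpace ℝ (Fin D)) : ev (sq1 D ε) z = ε * (‖z‖ ^ 2 - 1) := by
  rw [EuclideanSpace.real_norm_sq_eq]
  simp [sq1, ev, sq]

theorem lap_sq1 (ε : ℝ) : lap D (sq1 D ε) = C (2 * D * ε) := by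
  rw [lap_apply]
  have : ∀ i : Fin D, MvPolynomial.pderiv i (MvPolynomial.pderiv i (sq1 D ε)) = C (2 * ε) := by
    intro i
    have h1 : MvPolynomial.pderiv i (sq1 D ε) = C ε * (2 * X i) := by
      unfold sq1
      rw [MvPolynomial.pderiv_C_mul, map_sub, map_sum, MvPolynomial.pderiv_one, sub_zero]
      congr 1
      rw [Finset.sum_eq_single i]
      · rw [Derivation.leibniz, MvPolynomial.pderiv_X_self, smul_eq_mul, mul_one, ← two_mul]
      · intro j _ hj
        rw [Derivation.leibniz, MvPolynomial.pderiv_X_of_ne hj, smul_zero, add_zero]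
      · simp
    rw [h1, MvPolynomial.pderiv_C_mul]
    have h2 : (2 : MvPolynomial (Fin D) ℝ) = C 2 := (map_ofNat C 2).symm
    rw [h2, MvPolynomial.pderiv_C_mul, MvPolynomial.pderiv_X_self]
    simp [C_mul, mul_comm]
  rw [Finset.sum_congr rfl fun i _ => this i]
  simp only [Finset.sum_const, Finset.card_univ, Fintype.card_fin, nsmul_eq_mul]
  rw [show (2 * (D : ℝ) * ε) = (D : ℝ) * (2 * ε) by ring, C_mul]
  simp

/-- maximum principle for harmonic polynomials (one half) -/
theorem ev_le_zero [NeZero D] {p : MvPolynomial (Fin D) ℝ} (hp : lap D p = 0)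
    (h0 : ∀ z : EuclideanSpace ℝ (Fin D), ‖z‖ = 1 → ev p z = 0)
    {z : EuclideanSpace ℝ (Fin D)} (hz : ‖z‖ ≤ 1) : ev p z ≤ 0 := by
  refine le_of_forall_pos_le_add fun ε hε => ?_
  rw [zero_add]
  set P : MvPolynomial (Fin D) ℝ := p + sq1 D ε with hP
  have hPev : ∀ w, ev P w = ev p w + ε * (‖w‖ ^ 2 - 1) := fun w => by
    rw [hP, ev_add, ev_sq1]
  obtain ⟨w, hw, hmax⟩ := (isCompact_closedBall (0 : EuclideanSpace ℝ (Fin D)) 1).exists_isMaxOn
    ⟨0, by simp⟩ (contDiff_ev P (n := 0)).continuous.continuousOn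
  have hwn : ‖w‖ ≤ 1 := by simpa using hw
  have hle : ev P w ≤ 0 := by
    rcases hwn.lt_or_eq with hlt | heq
    · exfalso
      have hloc : IsLocalMax (ev P) w := by
        refine hmax.isLocalMax ?_
        exact Filter.mem_of_superset (Metric.isOpen_ball.mem_nhds
          (show w ∈ Metric.ball (0 : EuclideanSpace ℝ (Fin D)) 1 by simpa using hlt))
          Metric.ball_subset_closedBall
      have hsum : ∑ i, ev (MvPolynomial.pderiv i (MvPolynomial.pderiv i P)) w ≤ 0 :=
        Finset.sum_nonpos fun i _ => second_le_of_isLocalMax P i w hloc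
      have hlap : ∑ i, ev (MvPolynomial.pderiv i (MvPolynomial.pderiv i P)) w
          = 2 * D * ε := by
        rw [← ev_sum, ← lap_apply, hP, map_add, hp, lap_sq1, zero_add, ev_C]
      rw [hlap] at hsum
      have hD : (0 : ℝ) < D := by
        have := NeZero.pos D
        exact_mod_cast this
      have : 0 < 2 * (D : ℝ) * ε := by positivity
      linarith
    · rw [hPev, h0 w heq, heq]; simp
  have h1 : ev P z ≤ ev P w := hmax (by simpa using hz)
  have h2 : ev P z ≤ 0 := h1.trans hle
  rw [hPev] at h2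
  have h3 : 0 ≤ ‖z‖ ^ 2 := by positivity
  nlinarith

theorem ev_eq_zero [NeZero D] {p : MvPolynomial (Fin D) ℝ} (hp : lap D p = 0)
    (h0 : ∀ z : EuclideanSpace ℝ (Fin D), ‖z‖ = 1 → ev p z = 0)
    {z : EuclideanSpace ℝ (Fin D)} (hz : ‖z‖ ≤ 1) : ev p z = 0 := by
  refine le_antisymm (ev_le_zero hp h0 hz) ?_
  have h1 : ev (-p) z ≤ 0 := by
    refine ev_le_zero (by rw [map_neg, hp, neg_zero]) (fun w hw => ?_) hz
    have : ev (-p) w = - ev p w := by simp [ev]
    rw [this, h0 w hw, neg_zero]
  have : ev (-p) z = - ev p z := by simp [ev]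
  linarith

/-- Harmonic homogeneous polynomials of different degrees are independent on the unit sphere. -/
theorem sphere_indep [NeZero D] (Q : ℕ) (Y : ℕ → MvPolynomial (Fin D) ℝ)
    (hY : ∀ q, Y q ∈ harm D q)
    (h : ∀ z : EuclideanSpace ℝ (Fin D), ‖z‖ = 1 → ∑ q ∈ Finset.range Q, ev (Y q) z = 0) :
    ∀ q < Q, Y q = 0 := by
  have hlap : lap D (∑ q ∈ Finset.range Q, Y q) = 0 := by
    rw [map_sum]
    exact Finset.sum_eq_zero fun q _ => (mem_harm.1 (hY q)).2
  have hball : ∀ z : EuclideanSpace ℝ (Fin D), ‖z‖ ≤ 1 →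
      ∑ q ∈ Finset.range Q, ev (Y q) z = 0 := by
    intro z hz
    rw [← ev_sum]
    exact ev_eq_zero hlap (fun w hw => by rw [ev_sum]; exact h w hw) hz
  have hsmall : ∀ z : EuclideanSpace ℝ (Fin D), ‖z‖ ≤ 1 → ∀ q < Q, ev (Y q) z = 0 := by
    intro z hz q hq
    let P : Polynomial ℝ := ∑ q ∈ Finset.range Q, Polynomial.C (ev (Y q) z) * Polynomial.X ^ q
    have hroot : ∀ t ∈ Set.Icc (0 : ℝ) 1, P.IsRoot t := by
      intro t ht
      have := hball (t • z) (by
        rw [norm_smul, Real.norm_eq_abs, abs_of_nonneg ht.1]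
        calc t * ‖z‖ ≤ 1 * 1 := mul_le_mul ht.2 hz (norm_nonneg _) zero_le_one
          _ = 1 := one_mul 1)
      rw [Polynomial.IsRoot.def]
      simp only [P, Polynomial.eval_finsetSum, Polynomial.eval_mul, Polynomial.eval_C,
        Polynomial.eval_pow, Polynomial.eval_X]
      rw [← this]
      refine Finset.sum_congr rfl fun k _ => ?_
      rw [ev_smul_arg (mem_harm.1 (hY k)).1]; ring
    have hP : P = 0 := Polynomial.eq_zero_of_infinite_isRoot P
      ((Set.Icc_infinite (zero_lt_one' ℝ)).mono hroot)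
    have hc : P.coeff q = ev (Y q) z := by
      simp only [P, Polynomial.finsetSum_coeff, Polynomial.coeff_C_mul_X_pow]
      rw [Finset.sum_eq_single q]
      · simp
      · intro b _ hb; simp [Ne.symm hb]
      · intro hn; exact absurd (Finset.mem_range.2 hq) hn
    rw [← hc, hP, Polynomial.coeff_zero]
  intro q hq
  refine MvPolynomial.funext fun w => ?_
  rw [map_zero]
  set z : EuclideanSpace ℝ (Fin D) := WithLp.toLp 2 w with hzdef
  have hw : MvPolynomial.eval w (Y q) = ev (Y q) z := rfl
  rw [hw]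
  by_cases hz : z = 0
  · exact hsmall z (by rw [hz]; simp) q hq
  · have hpos : 0 < ‖z‖ := norm_pos_iff.2 hz
    have h1 := hsmall (‖z‖⁻¹ • z) (by
      rw [norm_smul, norm_inv, norm_norm, inv_mul_cancel₀ hpos.ne']) q hq
    rw [ev_smul_arg (mem_harm.1 (hY q)).1] at h1
    rcases mul_eq_zero.1 h1 with h2 | h2
    · exact absurd h2 (pow_ne_zero _ (inv_ne_zero hpos.ne'))
    · exact h2

end Crest.Agent.R202.Sph
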