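import Mathlib
import Crest.Agent.R202.SphEval

/-! # Row 202, module K2 (helper862): integrals of harmonic polynomials over the unit sphere -/

set_option autoImplicit false

open MvPolynomial MeasureTheory MeasureTheory.Measure Set Metric
open Crest.GeometryTopology

namespace Crest.Agent.R202.Sph

theorem integral_volumeIoiPow (n : ℕ) (h : ℝ → ℝ) :
    ∫ r : Ioi (0 : ℝ), h r ∂(volumeIoiPow n) = ∫ r in Ioi (0 : ℝ), r ^ n * h r := by
  simp only [Measure.volumeIoiPow, ENNReal.ofReal]
  rw [integral_withDensity_eq_integral_smul,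
    integral_subtype_comap measurableSet_Ioi fun a ↦ Real.toNNReal (a ^ n) • h a,
    setIntegral_congr_fun measurableSet_Ioi fun x hx ↦ ?_]
  · rw [NNReal.smul_def, Real.coe_toNNReal _ (pow_nonneg hx.out.le _), smul_eq_mul]
  · exact (measurable_subtype_coe.pow_const _).real_toNNReal

/-- polar coordinates -/
theorem integral_polar {D : ℕ} [NeZero D] (g : EuclideanSpace ℝ (Fin D) → ℝ) :
    ∫ x, g x = ∫ p : sphere (0 : EuclideanSpace ℝ (Fin D)) 1 × Ioi (0 : ℝ), g (p.2.1 • p.1.1)
      ∂((volume : Measure (EuclideanSpace ℝ (Fin D))).toSphere.prod (volumeIoiPow (D - 1))) := by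
  have hmp := (volume : Measure (EuclideanSpace ℝ (Fin D))).measurePreserving_homeomorphUnitSphereProd
  rw [finrank_euclideanSpace_fin] at hmp
  calc ∫ x, g x = ∫ x : ({(0)}ᶜ : Set (EuclideanSpace ℝ (Fin D))), g x.1 ∂(volume.comap
          ((↑) : ({(0)}ᶜ : Set (EuclideanSpace ℝ (Fin D))) → EuclideanSpace ℝ (Fin D))) := by
        rw [integral_subtype_comap (measurableSet_singleton _).compl fun x ↦ g x,
          restrict_compl_singleton]
    _ = _ := by
        rw [← hmp.integral_comp (Homeomorph.measurableEmbedding _)]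
        refine integral_congr_ae (Filter.Eventually.of_forall fun x => ?_)
        dsimp only
        congr 1
        have hx : ‖x.1‖ ≠ 0 := norm_ne_zero_iff.2 x.2
        simp [homeomorphUnitSphereProd, smul_smul, hx]

/-- integral of a homogeneous function times a radial function -/
theorem integral_homog {D : ℕ} [NeZero D] (k : ℕ) (f : EuclideanSpace ℝ (Fin D) → ℝ)
    (hf : ∀ (r : ℝ) (x), 0 < r → f (r • x) = r ^ k * f x) (F : ℝ → ℝ) :
    ∫ x, f x * F ‖x‖ = (∫ ω : sphere (0 : EuclideanSpace ℝ (Fin D)) 1, f ω ∂(volume.toSphere))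
      * ∫ r in Ioi (0 : ℝ), r ^ (D - 1) * (r ^ k * F r) := by
  rw [integral_polar, ← integral_volumeIoiPow (D - 1) (fun r => r ^ k * F r), ← integral_prod_mul]
  refine integral_congr_ae (Filter.Eventually.of_forall fun p => ?_)
  dsimp only
  have hr : 0 < p.2.1 := p.2.2
  have hn : ‖p.2.1 • p.1.1‖ = p.2.1 := by
    rw [norm_smul, Real.norm_eq_abs, abs_of_pos hr]
    have : ‖p.1.1‖ = 1 := by simp
    rw [this, mul_one]
  rw [hf _ _ hr, hn]; ring

variable {D : ℕ}

theorem integrable_gauss (b : ℝ) (hb : 0 < b) :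
    Integrable (fun y : EuclideanSpace ℝ (Fin D) => Real.exp (-b * ‖y‖ ^ 2)) := by
  by_contra h
  have h1 := integral_undef h
  have h2 := GaussianFourier.integral_rexp_neg_mul_sq_norm (V := EuclideanSpace ℝ (Fin D)) hb
  rw [h1] at h2
  have : 0 < (Real.pi / b) ^ (Module.finrank ℝ (EuclideanSpace ℝ (Fin D)) / 2 : ℝ) := by
    have := Real.pi_pos
    positivity
  linarith

theorem abs_ev_le (p : MvPolynomial (Fin D) ℝ) :
    ∃ (C : ℝ) (N : ℕ), 0 ≤ C ∧ ∀ y : EuclideanSpace ℝ (Fin D), |ev p y| ≤ C * (1 + ‖y‖) ^ N := by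
  induction p using MvPolynomial.induction_on with
  | C a => exact ⟨|a|, 0, abs_nonneg a, fun y => by simp⟩
  | add p q hp hq =>
    obtain ⟨C1, N1, h1, hp⟩ := hp
    obtain ⟨C2, N2, h2, hq⟩ := hq
    refine ⟨C1 + C2, N1 + N2, by positivity, fun y => ?_⟩
    have hy : 1 ≤ 1 + ‖y‖ := by have := norm_nonneg y; linarith
    rw [ev_add]
    have e1 : (1 + ‖y‖) ^ N1 ≤ (1 + ‖y‖) ^ (N1 + N2) := pow_le_pow_right₀ hy (by omega)
    have e2 : (1 + ‖y‖) ^ N2 ≤ (1 + ‖y‖) ^ (N1 + N2) := pow_le_pow_right₀ hy (by omega)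
    calc |ev p y + ev q y| ≤ |ev p y| + |ev q y| := abs_add_le _ _
      _ ≤ C1 * (1 + ‖y‖) ^ N1 + C2 * (1 + ‖y‖) ^ N2 := add_le_add (hp y) (hq y)
      _ ≤ C1 * (1 + ‖y‖) ^ (N1 + N2) + C2 * (1 + ‖y‖) ^ (N1 + N2) :=
        add_le_add (mul_le_mul_of_nonneg_left e1 h1) (mul_le_mul_of_nonneg_left e2 h2)
      _ = _ := by ring
  | mul_X p i hp =>
    obtain ⟨C1, N1, h1, hp⟩ := hp
    refine ⟨C1, N1 + 1, h1, fun y => ?_⟩
    rw [ev_mul, ev_X, abs_mul, pow_succ, ← mul_assoc]
    have hyi : |y i| ≤ 1 + ‖y‖ := by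
      have := EuclideanSpace.norm_eq y
      have h2 : ‖y i‖ ≤ ‖y‖ := PiLp.norm_apply_le y i
      rw [Real.norm_eq_abs] at h2
      linarith
    exact mul_le_mul (hp y) hyi (abs_nonneg _) (by have := norm_nonneg y; positivity)

theorem integrable_ev_gauss (p : MvPolynomial (Fin D) ℝ) :
    Integrable (fun y : EuclideanSpace ℝ (Fin D) => ev p y * Real.exp (-(1 / 2) * ‖y‖ ^ 2)) := by
  obtain ⟨C, N, hC, hp⟩ := abs_ev_le p
  have hg := (integrable_gauss (D := D) (1 / 4) (by norm_num)).const_mul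
    (C * ((N.factorial : ℝ) * Real.exp 2))
  refine Integrable.mono' hg ?_ (Filter.Eventually.of_forall fun y => ?_)
  · refine ((contDiff_ev p (n := 0)).continuous.mul ?_).aestronglyMeasurable
    fun_prop
  · rw [Real.norm_eq_abs, abs_mul, abs_of_pos (Real.exp_pos _)]
    have hy := norm_nonneg y
    have h1 : (1 + ‖y‖) ^ N ≤ (N.factorial : ℝ) * Real.exp (1 + ‖y‖) := by
      have := Real.pow_div_factorial_le_exp (x := 1 + ‖y‖) (by positivity) N
      rw [div_le_iff₀ (by positivity)] at this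
      linarith
    have h2 : Real.exp (1 + ‖y‖) ≤ Real.exp 2 * Real.exp ((1 / 4) * ‖y‖ ^ 2) := by
      rw [← Real.exp_add]
      apply Real.exp_le_exp.2
      nlinarith [sq_nonneg (‖y‖ / 2 - 1)]
    calc |ev p y| * Real.exp (-(1 / 2) * ‖y‖ ^ 2)
        ≤ (C * ((N.factorial : ℝ) * (Real.exp 2 * Real.exp ((1 / 4) * ‖y‖ ^ 2))))
          * Real.exp (-(1 / 2) * ‖y‖ ^ 2) := by
          refine mul_le_mul_of_nonneg_right ?_ (Real.exp_pos _).le
          refine (hp y).trans (mul_le_mul_of_nonneg_left (h1.trans ?_) hC)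
          exact mul_le_mul_of_nonneg_left h2 (by positivity)
      _ = (C * ((N.factorial : ℝ) * Real.exp 2)) *
          (Real.exp ((1 / 4) * ‖y‖ ^ 2) * Real.exp (-(1 / 2) * ‖y‖ ^ 2)) := by ring
      _ = _ := by rw [← Real.exp_add]; congr 2; ring

/-- derivative of the Gaussian weight -/
theorem fderiv_gauss (y : EuclideanSpace ℝ (Fin D)) (i : Fin D) :
    fderiv ℝ (fun y : EuclideanSpace ℝ (Fin D) => Real.exp (-(1 / 2) * ‖y‖ ^ 2)) y
      (EuclideanSpace.single i 1) = - (y i * Real.exp (-(1 / 2) * ‖y‖ ^ 2)) := by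
  have h1 : HasFDerivAt (fun y : EuclideanSpace ℝ (Fin D) => ‖y‖ ^ 2)
      (2 • (innerSL ℝ y)) y := (hasStrictFDerivAt_norm_sq y).hasFDerivAt
  have h2 := (h1.const_mul (-(1 / 2))).exp
  rw [h2.fderiv]
  simp [innerSL_apply_apply, EuclideanSpace.inner_single_right]
  ring

theorem differentiable_gauss :
    Differentiable ℝ (fun y : EuclideanSpace ℝ (Fin D) => Real.exp (-(1 / 2) * ‖y‖ ^ 2)) := by
  intro y
  have h1 : HasFDerivAt (fun y : EuclideanSpace ℝ (Fin D) => ‖y‖ ^ 2)
      (2 • (innerSL ℝ y)) y := (hasStrictFDerivAt_norm_sq y).hasFDerivAt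
  exact ((h1.const_mul (-(1 / 2))).exp).differentiableAt

/-- Green's formula with the Gaussian weight. -/
theorem gauss_green {q : ℕ} (p : MvPolynomial (Fin D) ℝ) {Y : MvPolynomial (Fin D) ℝ}
    (hY : Y ∈ harm D q) :
    ∫ y : EuclideanSpace ℝ (Fin D), (∑ i, ev (pderiv i p) y * ev (pderiv i Y) y)
        * Real.exp (-(1 / 2) * ‖y‖ ^ 2)
      = q * ∫ y : EuclideanSpace ℝ (Fin D), (ev p y * ev Y y) * Real.exp (-(1 / 2) * ‖y‖ ^ 2) := by
  obtain ⟨hhom, hlap⟩ := mem_harm.1 hY
  set G : EuclideanSpace ℝ (Fin D) → ℝ := fun y => Real.exp (-(1 / 2) * ‖y‖ ^ 2) with hG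
  -- the functions `g i = ∂_i Y * G`
  have hgd : ∀ i, ∀ y, DifferentiableAt ℝ (fun y => ev (pderiv i Y) y * G y) y := fun i y =>
    (differentiable_ev _ y).mul (differentiable_gauss y)
  have hgf : ∀ i, ∀ y, fderiv ℝ (fun y => ev (pderiv i Y) y * G y) y (EuclideanSpace.single i 1)
      = ev (pderiv i (pderiv i Y)) y * G y - ev (X i * pderiv i Y) y * G y := by
    intro i y
    rw [fderiv_fun_mul (differentiable_ev _ y) (differentiable_gauss y)]
    have h1 := pderiv_ev (pderiv i Y) i y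
    unfold CoordMetric.pderiv at h1
    have h2 := fderiv_gauss y i
    simp only [_root_.add_apply, _root_.smul_apply, smul_eq_mul, h1, h2, ev_mul, ev_X]
    ring
  have hpf : ∀ i, ∀ y, fderiv ℝ (ev p) y (EuclideanSpace.single i 1) = ev (pderiv i p) y :=
    fun i y => pderiv_ev p i y
  have key : ∀ i, ∫ y, ev (pderiv i p) y * (ev (pderiv i Y) y * G y)
      = ∫ y, ev p y * (ev (X i * pderiv i Y) y * G y - ev (pderiv i (pderiv i Y)) y * G y) := by
    intro i
    have h := integral_mul_fderiv_eq_neg_fderiv_mul_of_integrable (μ := volume)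
      (f := ev p) (g := fun y => ev (pderiv i Y) y * G y) (v := EuclideanSpace.single i 1)
      ?_ ?_ ?_ (fun y _ => differentiable_ev p y) (fun y _ => hgd i y)
    · simp only [hgf, hpf] at h
      rw [← neg_eq_iff_eq_neg.2 h, ← integral_neg]
      refine integral_congr_ae (Filter.Eventually.of_forall fun y => ?_)
      dsimp only
      ring
    · simp only [hpf]
      have := integrable_ev_gauss (pderiv i p * pderiv i Y)
      refine this.congr (Filter.Eventually.of_forall fun y => ?_)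
      simp [hG, mul_assoc]
    · simp only [hgf]
      have := integrable_ev_gauss (p * (pderiv i (pderiv i Y) - X i * pderiv i Y))
      refine this.congr (Filter.Eventually.of_forall fun y => ?_)
      simp [hG, ev]
      ring
    · have := integrable_ev_gauss (p * pderiv i Y)
      refine this.congr (Filter.Eventually.of_forall fun y => ?_)
      simp [hG, mul_assoc]
  have hL : ∫ y : EuclideanSpace ℝ (Fin D), (∑ i, ev (pderiv i p) y * ev (pderiv i Y) y) * G y
      = ∑ i, ∫ y, ev (pderiv i p) y * (ev (pderiv i Y) y * G y) := by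
    rw [← integral_finsetSum]
    · refine integral_congr_ae (Filter.Eventually.of_forall fun y => ?_)
      dsimp only
      rw [Finset.sum_mul]
      exact Finset.sum_congr rfl fun i _ => mul_assoc _ _ _
    · intro i _
      have := integrable_ev_gauss (pderiv i p * pderiv i Y)
      refine this.congr (Filter.Eventually.of_forall fun y => ?_)
      simp [hG, mul_assoc]
  rw [hL, Finset.sum_congr rfl fun i _ => key i, ← integral_finsetSum, ← integral_const_mul]
  · refine integral_congr_ae (Filter.Eventually.of_forall fun y => ?_)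
    dsimp only
    rw [← Finset.mul_sum, Finset.sum_sub_distrib, ← Finset.sum_mul, ← Finset.sum_mul, ← ev_sum,
      ← ev_sum, hhom.sum_X_mul_pderiv, ← lap_apply, hlap, ev_zero, zero_mul, sub_zero]
    have : ev (q • Y) y = q * ev Y y := by simp [ev]
    rw [this]
    simp only [hG]
    ring
  · intro i _
    have := integrable_ev_gauss (p * (X i * pderiv i Y - pderiv i (pderiv i Y)))
    refine this.congr (Filter.Eventually.of_forall fun y => ?_)
    simp [hG, ev]
    ring

end Crest.Agent.R202.Sph
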