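import Mathlib
import Crest.Agent.R202.SecGauss
import Crest.Agent.R202.SecFischer

/-! # Row 202, module K2 (helper862): `L²` of the unit sphere and harmonic polynomials -/

set_option autoImplicit false

open MvPolynomial MeasureTheory MeasureTheory.Measure Set Metric
open Crest.GeometryTopology

namespace Crest.Agent.R202.Sph

variable {D : ℕ}

/-- integral over the unit sphere -/
noncomputable def sph (f : EuclideanSpace ℝ (Fin D) → ℝ) : ℝ :=
  ∫ ω : sphere (0 : EuclideanSpace ℝ (Fin D)) 1, f ω ∂(volume.toSphere)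

/-- Gaussian moments -/
noncomputable def gmom (k : ℕ) : ℝ := ∫ r in Ioi (0 : ℝ), r ^ k * Real.exp (-(1 / 2) * r ^ 2)

theorem gmom_integrable (k : ℕ) :
    IntegrableOn (fun r : ℝ => r ^ k * Real.exp (-(1 / 2) * r ^ 2)) (Ioi 0) := by
  have := integrableOn_rpow_mul_exp_neg_mul_sq (b := 1 / 2) (by norm_num) (s := (k : ℝ))
    (by have : (0 : ℝ) ≤ k := Nat.cast_nonneg k; linarith)
  simpa using this

theorem gmom_pos (k : ℕ) : 0 < gmom k := by
  unfold gmom
  rw [setIntegral_pos_iff_support_of_nonneg_ae]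
  · have : Function.support (fun r : ℝ => r ^ k * Real.exp (-(1 / 2) * r ^ 2)) ∩ Ioi 0 = Ioi 0 := by
      refine inter_eq_right.2 fun r hr => ?_
      have hr' : (0 : ℝ) < r := hr
      exact (by positivity : (0 : ℝ) < r ^ k * Real.exp (-(1 / 2) * r ^ 2)).ne'
    rw [this]
    simp
  · filter_upwards [self_mem_ae_restrict measurableSet_Ioi] with r hr
    have hr' : (0 : ℝ) < r := hr
    positivity
  · exact gmom_integrable k

theorem integral_ev_gauss [NeZero D] {k : ℕ} {p : MvPolynomial (Fin D) ℝ} (hp : p.IsHomogeneous k) :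
    ∫ y : EuclideanSpace ℝ (Fin D), ev p y * Real.exp (-(1 / 2) * ‖y‖ ^ 2)
      = sph (ev p) * gmom (D - 1 + k) := by
  rw [integral_homog k (ev p) (fun r x _ => ev_smul_arg hp r x)
    (fun r => Real.exp (-(1 / 2) * r ^ 2))]
  unfold sph gmom
  congr 1
  refine integral_congr_ae (Filter.Eventually.of_forall fun r => ?_)
  dsimp only
  rw [pow_add]; ring

theorem ev_mul_fun (p q : MvPolynomial (Fin D) ℝ) : (fun y => ev p y * ev q y) = ev (p * q) := by
  funext y; rw [ev_mul]

/-- orthogonality of different degrees -/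
theorem sph_orth [NeZero D] {q q' : ℕ} (hq : q ≠ q') {Y Y' : MvPolynomial (Fin D) ℝ}
    (hY : Y ∈ harm D q) (hY' : Y' ∈ harm D q') : sph (ev (Y * Y')) = 0 := by
  have h1 := gauss_green Y hY'
  have h2 := gauss_green Y' hY
  have h3 : ∫ y : EuclideanSpace ℝ (Fin D), (∑ i, ev (pderiv i Y) y * ev (pderiv i Y') y)
        * Real.exp (-(1 / 2) * ‖y‖ ^ 2) = ∫ y : EuclideanSpace ℝ (Fin D),
        (∑ i, ev (pderiv i Y') y * ev (pderiv i Y) y) * Real.exp (-(1 / 2) * ‖y‖ ^ 2) := by
    refine integral_congr_ae (Filter.Eventually.of_forall fun y => ?_)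
    dsimp only
    congr 1
    exact Finset.sum_congr rfl fun i _ => mul_comm _ _
  have h4 : ∫ y : EuclideanSpace ℝ (Fin D), (ev Y y * ev Y' y) * Real.exp (-(1 / 2) * ‖y‖ ^ 2)
      = ∫ y : EuclideanSpace ℝ (Fin D), (ev Y' y * ev Y y) * Real.exp (-(1 / 2) * ‖y‖ ^ 2) := by
    refine integral_congr_ae (Filter.Eventually.of_forall fun y => ?_)
    dsimp only
    rw [mul_comm (ev Y y)]
  rw [h3, h2, ← h4] at h1
  set I := ∫ y : EuclideanSpace ℝ (Fin D), (ev Y y * ev Y' y) * Real.exp (-(1 / 2) * ‖y‖ ^ 2)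
  have h5 : ((q : ℝ) - q') * I = 0 := by linarith
  have h6 : I = 0 := by
    rcases mul_eq_zero.1 h5 with h | h
    · exact absurd (by exact_mod_cast sub_eq_zero.1 h) hq
    · exact h
  have h7 : I = sph (ev (Y * Y')) * gmom (D - 1 + (q + q')) := by
    rw [← integral_ev_gauss ((mem_harm.1 hY).1.mul (mem_harm.1 hY').1)]
    refine integral_congr_ae (Filter.Eventually.of_forall fun y => ?_)
    dsimp only
    rw [ev_mul]
  rw [h6] at h7
  rcases mul_eq_zero.1 h7.symm with h | h
  · exact h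
  · exact absurd h (gmom_pos _).ne'

/-- gradient product as a polynomial -/
noncomputable def gp (Y Y' : MvPolynomial (Fin D) ℝ) : MvPolynomial (Fin D) ℝ :=
  ∑ i, pderiv i Y * pderiv i Y'

theorem ev_gp (Y Y' : MvPolynomial (Fin D) ℝ) (y : EuclideanSpace ℝ (Fin D)) :
    ev (gp Y Y') y = ∑ i, ev (pderiv i Y) y * ev (pderiv i Y') y := by
  unfold gp
  rw [ev_sum]
  exact Finset.sum_congr rfl fun i _ => by rw [ev_mul]

theorem pderiv_eq_zero_of_zero {Y : MvPolynomial (Fin D) ℝ} (hY : Y.IsHomogeneous 0) (i : Fin D) :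
    pderiv i Y = 0 := by
  rw [← totalDegree_zero_iff_isHomogeneous, totalDegree_eq_zero_iff_eq_C] at hY
  rw [hY, pderiv_C]

theorem gp_homog {q q' : ℕ} {Y Y' : MvPolynomial (Fin D) ℝ}
    (hY : Y.IsHomogeneous (q + 1)) (hY' : Y'.IsHomogeneous (q' + 1)) :
    (gp Y Y').IsHomogeneous (q + q') :=
  IsHomogeneous.sum _ _ _ fun _ _ => hY.pderiv.mul hY'.pderiv

/-- If `Y ⊥ Y'` then `∇Y ⊥ ∇Y'` on the sphere. -/
theorem sph_gp_zero [NeZero D] {q q' : ℕ} {Y Y' : MvPolynomial (Fin D) ℝ}
    (hY : Y ∈ harm D q) (hY' : Y' ∈ harm D q') (h0 : sph (ev (Y * Y')) = 0) :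
    sph (ev (gp Y Y')) = 0 := by
  rcases Nat.eq_zero_or_pos q with hq | hq
  · subst hq
    have : gp Y Y' = 0 := by
      unfold gp
      exact Finset.sum_eq_zero fun i _ => by
        rw [pderiv_eq_zero_of_zero (mem_harm.1 hY).1, zero_mul]
    rw [this]; simp [sph]
  rcases Nat.eq_zero_or_pos q' with hq' | hq'
  · subst hq'
    have : gp Y Y' = 0 := by
      unfold gp
      exact Finset.sum_eq_zero fun i _ => by
        rw [pderiv_eq_zero_of_zero (mem_harm.1 hY').1, mul_zero]
    rw [this]; simp [sph]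
  obtain ⟨a, rfl⟩ : ∃ a, q = a + 1 := ⟨q - 1, by omega⟩
  obtain ⟨b, rfl⟩ : ∃ b, q' = b + 1 := ⟨q' - 1, by omega⟩
  have h1 := gauss_green Y hY'
  have h2 : ∫ y : EuclideanSpace ℝ (Fin D), (ev Y y * ev Y' y) * Real.exp (-(1 / 2) * ‖y‖ ^ 2)
      = 0 := by
    have := integral_ev_gauss ((mem_harm.1 hY).1.mul (mem_harm.1 hY').1)
    rw [h0, zero_mul] at this
    rw [← this]
    refine integral_congr_ae (Filter.Eventually.of_forall fun y => ?_)
    dsimp only
    rw [ev_mul]
  rw [h2, mul_zero] at h1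
  have h3 := integral_ev_gauss (gp_homog (mem_harm.1 hY).1 (mem_harm.1 hY').1)
  have h4 : ∫ y : EuclideanSpace ℝ (Fin D), ev (gp Y Y') y * Real.exp (-(1 / 2) * ‖y‖ ^ 2) = 0 := by
    rw [← h1]
    refine integral_congr_ae (Filter.Eventually.of_forall fun y => ?_)
    dsimp only
    rw [ev_gp]
  rw [h4] at h3
  rcases mul_eq_zero.1 h3.symm with h | h
  · exact h
  · exact absurd h (gmom_pos _).ne'

/-- positivity -/
theorem sph_sq_pos [NeZero D] {q : ℕ} {Y : MvPolynomial (Fin D) ℝ} (hY : Y ∈ harm D q)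
    (h0 : Y ≠ 0) : 0 < sph (ev (Y * Y)) := by
  have h1 := integral_ev_gauss ((mem_harm.1 hY).1.mul (mem_harm.1 hY).1)
  have hcont : Continuous fun y : EuclideanSpace ℝ (Fin D) =>
      ev (Y * Y) y * Real.exp (-(1 / 2) * ‖y‖ ^ 2) :=
    (contDiff_ev _ (n := 0)).continuous.mul (by fun_prop)
  have hnn : 0 ≤ fun y : EuclideanSpace ℝ (Fin D) =>
      ev (Y * Y) y * Real.exp (-(1 / 2) * ‖y‖ ^ 2) := fun y => by
    simp only [ev_mul, Pi.zero_apply]
    exact mul_nonneg (mul_self_nonneg _) (Real.exp_pos _).le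
  obtain ⟨w, hw⟩ : ∃ w : Fin D → ℝ, MvPolynomial.eval w Y ≠ 0 := by
    by_contra hcon
    push Not at hcon
    exact h0 (MvPolynomial.funext fun w => by rw [hcon w, map_zero])
  have h2 : 0 < ∫ y : EuclideanSpace ℝ (Fin D),
      ev (Y * Y) y * Real.exp (-(1 / 2) * ‖y‖ ^ 2) := by
    refine integral_pos_of_integrable_nonneg_nonzero hcont (integrable_ev_gauss (Y * Y)) hnn
      (x := WithLp.toLp 2 w) ?_
    have h3 : ev Y (WithLp.toLp 2 w) ≠ 0 := hw
    simp only [ev_mul]
    exact mul_ne_zero (mul_ne_zero h3 h3) (Real.exp_pos _).ne'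
  rw [h1] at h2
  exact (pos_iff_pos_of_mul_pos h2).2 (gmom_pos _)

theorem continuous_ev (p : MvPolynomial (Fin D) ℝ) : Continuous (ev p) :=
  (contDiff_ev p (n := 0)).continuous

theorem integrable_sph (p : MvPolynomial (Fin D) ℝ) :
    Integrable (fun ω : sphere (0 : EuclideanSpace ℝ (Fin D)) 1 => ev p ω)
      ((volume : Measure (EuclideanSpace ℝ (Fin D))).toSphere) := by
  have hc : Continuous (fun ω : sphere (0 : EuclideanSpace ℝ (Fin D)) 1 => ev p ω) :=
    (continuous_ev p).comp continuous_subtype_val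
  exact hc.integrable_of_hasCompactSupport (HasCompactSupport.of_compactSpace _)

theorem sph_add (p q : MvPolynomial (Fin D) ℝ) : sph (ev (p + q)) = sph (ev p) + sph (ev q) := by
  unfold sph
  rw [← integral_add (integrable_sph p) (integrable_sph q)]
  simp only [ev_add]

theorem sph_smul (c : ℝ) (p : MvPolynomial (Fin D) ℝ) : sph (ev (c • p)) = c * sph (ev p) := by
  unfold sph
  rw [← integral_const_mul]
  simp only [ev_smul]

/-- recursion for the Gaussian moments -/
theorem gmom_succ (k : ℕ) : gmom (k + 2) = (k + 1) * gmom k := by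
  have h1 : ∀ j : ℕ, gmom j = ∫ r in Ioi (0 : ℝ), r ^ (j : ℝ) * Real.exp (-(1 / 2) * r ^ (2 : ℝ)) := by
    intro j
    unfold gmom
    refine integral_congr_ae (Filter.Eventually.of_forall fun r => ?_)
    dsimp only
    rw [Real.rpow_natCast, show (2 : ℝ) = ((2 : ℕ) : ℝ) by norm_num, Real.rpow_natCast]
  have h2 : ∀ j : ℕ, gmom j = (1 / 2 : ℝ) ^ (-((j : ℝ) + 1) / 2) * (1 / 2)
      * Real.Gamma (((j : ℝ) + 1) / 2) := by
    intro j
    rw [h1 j, integral_rpow_mul_exp_neg_mul_rpow (by norm_num)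
      (by have : (0 : ℝ) ≤ j := Nat.cast_nonneg j; linarith) (by norm_num)]
  rw [h2, h2]
  have h3 : ((k + 2 : ℕ) : ℝ) + 1 = (k : ℝ) + 1 + 2 := by push_cast; ring
  rw [h3]
  have h4 : ((k : ℝ) + 1 + 2) / 2 = ((k : ℝ) + 1) / 2 + 1 := by ring
  have h5 : -((k : ℝ) + 1 + 2) / 2 = -((k : ℝ) + 1) / 2 + (-1) := by ring
  have hk : (0 : ℝ) < ((k : ℝ) + 1) / 2 := by positivity
  rw [h4, h5, Real.Gamma_add_one hk.ne', Real.rpow_add (by norm_num), Real.rpow_neg_one]
  ring

/-- `∫_S ∇Y·∇Y' = q (2q + D - 2) ∫_S Y Y'`. -/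
theorem sph_gp [NeZero D] {q : ℕ} {Y Y' : MvPolynomial (Fin D) ℝ}
    (hY : Y ∈ harm D q) (hY' : Y' ∈ harm D q) :
    sph (ev (gp Y Y')) = q * (2 * q + D - 2) * sph (ev (Y * Y')) := by
  rcases Nat.eq_zero_or_pos q with hq | hq
  · subst hq
    have : gp Y Y' = 0 := by
      unfold gp
      exact Finset.sum_eq_zero fun i _ => by
        rw [pderiv_eq_zero_of_zero (mem_harm.1 hY).1, zero_mul]
    rw [this]; simp [sph]
  obtain ⟨a, rfl⟩ : ∃ a, q = a + 1 := ⟨q - 1, by omega⟩
  have h1 := gauss_green Y hY'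
  have h2 : ∫ y : EuclideanSpace ℝ (Fin D), (ev Y y * ev Y' y) * Real.exp (-(1 / 2) * ‖y‖ ^ 2)
      = sph (ev (Y * Y')) * gmom (D - 1 + (a + 1 + (a + 1))) := by
    rw [← integral_ev_gauss ((mem_harm.1 hY).1.mul (mem_harm.1 hY').1)]
    refine integral_congr_ae (Filter.Eventually.of_forall fun y => ?_)
    dsimp only
    rw [ev_mul]
  have h3 : ∫ y : EuclideanSpace ℝ (Fin D), (∑ i, ev (pderiv i Y) y * ev (pderiv i Y') y)
        * Real.exp (-(1 / 2) * ‖y‖ ^ 2) = sph (ev (gp Y Y')) * gmom (D - 1 + (a + a)) := by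
    rw [← integral_ev_gauss (gp_homog (mem_harm.1 hY).1 (mem_harm.1 hY').1)]
    refine integral_congr_ae (Filter.Eventually.of_forall fun y => ?_)
    dsimp only
    rw [ev_gp]
  rw [h2, h3, show D - 1 + (a + 1 + (a + 1)) = (D - 1 + (a + a)) + 2 by omega, gmom_succ] at h1
  have hg := gmom_pos (D - 1 + (a + a))
  have hD : ((D - 1 : ℕ) : ℝ) = D - 1 := by
    have := NeZero.pos D
    rw [Nat.cast_sub (by omega)]; norm_num
  have h4 : sph (ev (gp Y Y')) * gmom (D - 1 + (a + a))
      = ((a + 1 : ℕ) * (((D - 1 + (a + a) : ℕ) : ℝ) + 1) * sph (ev (Y * Y')))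
        * gmom (D - 1 + (a + a)) := by
    rw [h1]; ring
  have h5 := mul_right_cancel₀ hg.ne' h4
  rw [h5]
  push_cast
  rw [hD]
  ring

theorem finrank_harm [NeZero D] (q : ℕ) : Module.finrank ℝ (harm D q) = dimH D q := by
  by_cases hq : 2 ≤ q
  · obtain ⟨q, rfl⟩ : ∃ a, q = a + 2 := ⟨q - 2, by omega⟩
    let Φ : (harm D (q + 2) × homogeneousSubmodule (Fin D) ℝ q) →ₗ[ℝ]
        homogeneousSubmodule (Fin D) ℝ (q + 2) :=
      { toFun := fun p => ⟨p.1.1 + R2 D * p.2.1,
          Submodule.add_mem _ (mem_harm.1 p.1.2).1 (by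
            have := (isHomogeneous_R2 (D := D)).mul p.2.2
            rwa [add_comm 2 q] at this)⟩
        map_add' := fun a b => by
          apply Subtype.ext
          simp only [Prod.fst_add, Prod.snd_add, Submodule.coe_add]
          ring
        map_smul' := fun c a => by
          apply Subtype.ext
          simp only [Prod.smul_fst, Prod.smul_snd, Submodule.coe_smul, RingHom.id_apply,
            smul_add, mul_smul_comm] }
    have hinj : Function.Injective Φ := by
      rw [← LinearMap.ker_eq_bot, LinearMap.ker_eq_bot']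
      rintro ⟨h, g⟩ h0
      have h1 : h.1 + R2 D * g.1 = 0 := congrArg Subtype.val h0
      have h2 : lap D (R2 D ^ (0 + 1) * g.1) = 0 := by
        have : R2 D ^ (0 + 1) * g.1 = - h.1 := by
          rw [zero_add, pow_one]
          linear_combination h1
        rw [this, map_neg, (mem_harm.1 h.2).2, neg_zero]
      have h3 : g.1 = 0 := eq_zero_of_lap_R2_pow q 0 g.2 h2
      rw [h3, mul_zero, add_zero] at h1
      exact Prod.ext (Subtype.ext h1) (Subtype.ext h3)
    have h1 := LinearMap.finrank_le_finrank_of_injective hinj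
    rw [Module.finrank_prod, finrank_homogeneous, finrank_homogeneous] at h1
    have h2 := dimH_le_finrank D (q + 2)
    unfold dimH at h2 ⊢
    rw [if_pos (by omega), show q + 2 - 2 = q by omega] at h2 ⊢
    omega
  · have : harm D q = homogeneousSubmodule (Fin D) ℝ q := by
      apply le_antisymm inf_le_left
      intro p hp
      exact mem_harm.2 ⟨hp, lap_eq_zero_of_lt (by omega) hp⟩
    rw [this, finrank_homogeneous]
    unfold dimH
    rw [if_neg hq]
    omega

/-- The `L²(S^{D-1})` inner product on `harm D q`. -/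
@[instance_reducible]
noncomputable def harmCore (D q : ℕ) [NeZero D] : InnerProductSpace.Core ℝ (harm D q) where
  inner p r := sph (ev (p.1 * r.1))
  conj_inner_symm p r := by simp [mul_comm]
  re_inner_nonneg p := by
    show 0 ≤ sph (ev (p.1 * p.1))
    by_cases h : p.1 = 0
    · rw [h, mul_zero]; simp [sph]
    · exact (sph_sq_pos p.2 h).le
  add_left p r t := by
    show sph (ev ((p.1 + r.1) * t.1)) = _
    rw [add_mul, sph_add]
  smul_left p r c := by
    show sph (ev ((c • p.1) * r.1)) = _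
    rw [smul_mul_assoc, sph_smul]; rfl
  definite p hp := by
    by_contra hne
    have : p.1 ≠ 0 := fun h => hne (Subtype.ext h)
    exact absurd hp (sph_sq_pos p.2 this).ne'

/-- An orthonormal basis of the harmonic polynomials of degree `q`. -/
theorem exists_onb [NeZero D] (q : ℕ) : ∃ b : Module.Basis (Fin (dimH D q)) ℝ (harm D q),
    ∀ i j, sph (ev ((b i).1 * (b j).1)) = if i = j then 1 else 0 := by
  let _ := (harmCore D q).toNormedAddCommGroup
  let _ : InnerProductSpace ℝ (harm D q) := InnerProductSpace.ofCore (harmCore D q).toCore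
  have hfin : Module.finrank ℝ (harm D q) = dimH D q := finrank_harm q
  let e := (stdOrthonormalBasis ℝ (harm D q)).reindex (finCongr hfin)
  refine ⟨e.toBasis, fun i j => ?_⟩
  have := (orthonormal_iff_ite.1 e.orthonormal) i j
  exact this

end Crest.Agent.R202.Sph
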