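import Mathlib
import Crest.Agent.R202.SphEval

/-! # Row 202, module I (helper862): linear independence of the sector products
`f x = Y (y) * W (|y|, x 0, x 1)`, `y = (x 2, …, x (n-1))`, `n = m + 3`. -/

set_option autoImplicit false

open MvPolynomial

namespace Crest.Agent.R202.Sph

/-- the last `n - 2 = m + 1` coordinates -/
def yPart {m : ℕ} (x : EuclideanSpace ℝ (Fin (m + 3))) : EuclideanSpace ℝ (Fin (m + 1)) :=
  WithLp.toLp 2 (fun i => x i.succ.succ)

/-- the point with first two coordinates `a b` and last coordinates `y` -/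
def mkPt {m : ℕ} (a b : ℝ) (y : EuclideanSpace ℝ (Fin (m + 1))) : EuclideanSpace ℝ (Fin (m + 3)) :=
  WithLp.toLp 2 (Fin.cons a (Fin.cons b (fun i => y i) : Fin (m + 2) → ℝ))

@[simp] theorem yPart_mkPt {m : ℕ} (a b : ℝ) (y : EuclideanSpace ℝ (Fin (m + 1))) :
    yPart (mkPt a b y) = y := by
  ext i; simp [yPart, mkPt]

@[simp] theorem mkPt_zero {m : ℕ} (a b : ℝ) (y : EuclideanSpace ℝ (Fin (m + 1))) :
    mkPt a b y 0 = a := by
  simp [mkPt]

@[simp] theorem mkPt_one {m : ℕ} (a b : ℝ) (y : EuclideanSpace ℝ (Fin (m + 1))) :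
    mkPt a b y 1 = b := by
  show (Fin.cons a (Fin.cons b (fun i => y i) : Fin (m + 2) → ℝ) : Fin (m + 3) → ℝ) 1 = b
  rw [show (1 : Fin (m + 3)) = Fin.succ 0 from rfl, Fin.cons_succ, Fin.cons_zero]

/-- Linear independence of the sector products. -/
theorem sector_indep {m Q : ℕ} {ι : Fin Q → Type*} [∀ q, Fintype (ι q)] {dd : Fin Q → ℕ}
    (Y : ∀ q : Fin Q, Fin (dd q) → MvPolynomial (Fin (m + 1)) ℝ)
    (hY : ∀ (q : Fin Q) (a : Fin (dd q)), Y q a ∈ harm (m + 1) q) (hYi : ∀ q, LinearIndependent ℝ (Y q))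
    (W : ∀ q : Fin Q, ι q → ℝ → ℝ → ℝ → ℝ)
    (hW : ∀ q, ∀ c : ι q → ℝ,
      (∀ ρ : ℝ, 0 < ρ → ∀ x0 x1 : ℝ, ∑ i, c i * W q i ρ x0 x1 = 0) → ∀ i, c i = 0) :
    LinearIndependent ℝ (fun s : Σ q : Fin Q, Fin (dd q) × ι q =>
      fun x : EuclideanSpace ℝ (Fin (m + 3)) =>
        ev (Y s.1 s.2.1) (yPart x) * W s.1 s.2.2 ‖yPart x‖ (x 0) (x 1)) := by
  classical
  rw [Fintype.linearIndependent_iff]
  intro c hc
  -- the coefficient functions
  have key : ∀ ρ : ℝ, 0 < ρ → ∀ x0 x1 : ℝ, ∀ q : Fin Q, ∀ a : Fin (dd q),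
      ∑ i, c ⟨q, a, i⟩ * W q i ρ x0 x1 = 0 := by
    intro ρ hρ x0 x1
    let Z : ℕ → MvPolynomial (Fin (m + 1)) ℝ := fun k =>
      if hk : k < Q then
        ∑ a : Fin (dd ⟨k, hk⟩), (ρ ^ k * ∑ i, c ⟨⟨k, hk⟩, a, i⟩ * W ⟨k, hk⟩ i ρ x0 x1) •
          Y ⟨k, hk⟩ a
      else 0
    have hZ : ∀ k, Z k ∈ harm (m + 1) k := by
      intro k
      by_cases hk : k < Q
      · simp only [Z, hk, dif_pos]
        exact Submodule.sum_mem _ fun a _ => Submodule.smul_mem _ _ (hY ⟨k, hk⟩ a)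
      · simp only [Z, hk, dif_neg, not_false_eq_true]
        exact Submodule.zero_mem _
    have hsph : ∀ z : EuclideanSpace ℝ (Fin (m + 1)), ‖z‖ = 1 →
        ∑ k ∈ Finset.range Q, ev (Z k) z = 0 := by
      intro z hz
      have h1 := congrFun hc (mkPt x0 x1 (ρ • z))
      simp only [Finset.sum_apply, Pi.smul_apply, smul_eq_mul, yPart_mkPt, mkPt_zero, mkPt_one,
        Pi.zero_apply, norm_smul, Real.norm_eq_abs, abs_of_pos hρ, hz, mul_one] at h1
      rw [Fintype.sum_sigma] at h1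
      rw [Finset.sum_range]
      rw [← h1]
      refine Finset.sum_congr rfl fun q _ => ?_
      simp only [Z, q.2, dif_pos, Fin.eta]
      rw [ev_sum, Fintype.sum_prod_type]
      refine Finset.sum_congr rfl fun a _ => ?_
      rw [ev_smul, Finset.mul_sum, Finset.sum_mul]
      refine Finset.sum_congr rfl fun i _ => ?_
      dsimp only
      rw [ev_smul_arg (mem_harm.1 (hY q a)).1]
      ring
    have hzero := sphere_indep Q Z hZ hsph
    intro q a
    have h2 := hzero q q.2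
    simp only [Z, q.2, dif_pos, Fin.eta] at h2
    have h3 := Fintype.linearIndependent_iff.1 (hYi q) _ h2 a
    rcases mul_eq_zero.1 h3 with h4 | h4
    · exact absurd h4 (pow_ne_zero _ hρ.ne')
    · exact h4
  rintro ⟨q, a, i⟩
  exact hW q (fun i => c ⟨q, a, i⟩) (fun ρ hρ x0 x1 => key ρ hρ x0 x1 q a) i

end Crest.Agent.R202.Sph
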