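import Mathlib
import Crest.Agent.R202.SecSph
import Crest.Agent.R202.SphIndep

/-! # Row 202, B4a (helper862): sector polynomials `Y(y) V(|y|², x0, x1)` in `n = m + 3` variables -/

set_option autoImplicit false

open MvPolynomial

namespace Crest.Agent.R202.Sph

variable {m : ℕ}

theorem ss_injective : Function.Injective (fun i : Fin (m + 1) => (i.succ.succ : Fin (m + 3))) :=
  fun _ _ h => Fin.succ_injective _ (Fin.succ_injective _ h)

/-- polynomials in `y` as polynomials in `x` -/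
noncomputable def yI (m : ℕ) : MvPolynomial (Fin (m + 1)) ℝ →ₐ[ℝ] MvPolynomial (Fin (m + 3)) ℝ :=
  rename (fun i => i.succ.succ)

/-- `V(s, x0, x1) ↦ V(|y|², x0, x1)` -/
noncomputable def vI (m : ℕ) : MvPolynomial (Fin 3) ℝ →ₐ[ℝ] MvPolynomial (Fin (m + 3)) ℝ :=
  aeval ![yI m (R2 (m + 1)), X 0, X 1]

/-- `V(s, x0, x1) ↦ V(s, x0, -x1)` -/
noncomputable def refl3 : MvPolynomial (Fin 3) ℝ →ₐ[ℝ] MvPolynomial (Fin 3) ℝ :=
  aeval ![X 0, X 1, -X 2]

@[simp] theorem vI_X0 : vI m (X 0) = yI m (R2 (m + 1)) := by simp [vI]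
@[simp] theorem vI_X1 : vI m (X 1) = X 0 := by simp [vI]
@[simp] theorem vI_X2 : vI m (X 2) = X 1 := by simp [vI]
@[simp] theorem yI_X (i : Fin (m + 1)) : yI m (X i) = X i.succ.succ := by simp [yI]
@[simp] theorem refl3_X0 : refl3 (X 0) = X 0 := by simp [refl3]
@[simp] theorem refl3_X1 : refl3 (X 1) = X 1 := by simp [refl3]
@[simp] theorem refl3_X2 : refl3 (X 2) = - X 2 := by simp [refl3]

theorem yI_R2 : yI m (R2 (m + 1)) = ∑ j : Fin (m + 1), X j.succ.succ * X j.succ.succ := by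
  simp [R2]

theorem ev_yI (p : MvPolynomial (Fin (m + 1)) ℝ) (x : EuclideanSpace ℝ (Fin (m + 3))) :
    ev (yI m p) x = ev p (yPart x) := by
  unfold ev yI
  rw [eval_rename]
  rfl

theorem ev_R2 {D : ℕ} (x : EuclideanSpace ℝ (Fin D)) : ev (R2 D) x = ‖x‖ ^ 2 := by
  rw [EuclideanSpace.real_norm_sq_eq]
  simp [R2, ev, sq]

theorem ev_vI (V : MvPolynomial (Fin 3) ℝ) (x : EuclideanSpace ℝ (Fin (m + 3))) :
    ev (vI m V) x = eval ![‖yPart x‖ ^ 2, x 0, x 1] V := by
  induction V using MvPolynomial.induction_on with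
  | C a => simp [vI]
  | add p q hp hq => rw [map_add, ev_add, hp, hq, map_add]
  | mul_X p i hp =>
    rw [map_mul, ev_mul, hp, map_mul]
    congr 1
    fin_cases i
    · show ev (vI m (X 0)) x = _
      rw [vI_X0, ev_yI, ev_R2]; simp
    · show ev (vI m (X 1)) x = _
      rw [vI_X1]; simp
    · show ev (vI m (X 2)) x = _
      rw [vI_X2]; simp

theorem R2_eq : R2 (m + 3) = vI m (X 0 + X 1 * X 1 + X 2 * X 2) := by
  unfold R2
  rw [Fin.sum_univ_succ, Fin.sum_univ_succ]
  simp only [map_add, map_mul, vI_X0, vI_X1, vI_X2, yI_R2]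
  simp only [Fin.succ_zero_eq_one]
  ring

/-! ### partial derivatives -/

theorem ss_ne_zero (i : Fin (m + 1)) : (i.succ.succ : Fin (m + 3)) ≠ 0 := Fin.succ_ne_zero _

theorem ss_ne_one (i : Fin (m + 1)) : (i.succ.succ : Fin (m + 3)) ≠ 1 := by
  intro h
  have := congrArg Fin.val h
  simp at this

theorem pderiv_yI_ss (p : MvPolynomial (Fin (m + 1)) ℝ) (i : Fin (m + 1)) :
    pderiv (i.succ.succ : Fin (m + 3)) (yI m p) = yI m (pderiv i p) :=
  pderiv_rename (f := fun i : Fin (m + 1) => (i.succ.succ : Fin (m + 3))) ss_injective i p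

theorem pderiv_yI_of_ne (p : MvPolynomial (Fin (m + 1)) ℝ) (j : Fin (m + 3))
    (hj : ∀ i : Fin (m + 1), (i.succ.succ : Fin (m + 3)) ≠ j) : pderiv j (yI m p) = 0 := by
  induction p using MvPolynomial.induction_on with
  | C a => simp [yI]
  | add p q hp hq => rw [map_add, map_add, hp, hq, add_zero]
  | mul_X p i hp =>
    rw [map_mul, pderiv_mul, hp, zero_mul, zero_add, yI_X, pderiv_X_of_ne (hj i), mul_zero]

theorem pderiv_yI_zero (p : MvPolynomial (Fin (m + 1)) ℝ) : pderiv 0 (yI m p) = 0 :=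
  pderiv_yI_of_ne p 0 ss_ne_zero

theorem pderiv_yI_one (p : MvPolynomial (Fin (m + 1)) ℝ) : pderiv 1 (yI m p) = 0 :=
  pderiv_yI_of_ne p 1 ss_ne_one

theorem pderiv_vI_zero (V : MvPolynomial (Fin 3) ℝ) :
    pderiv 0 (vI m V) = vI m (pderiv 1 V) := by
  induction V using MvPolynomial.induction_on with
  | C a => simp [vI]
  | add p q hp hq => rw [map_add, map_add, hp, hq, map_add, map_add]
  | mul_X p i hp =>
    rw [map_mul, pderiv_mul, hp, pderiv_mul, map_add, map_mul, map_mul]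
    congr 2
    fin_cases i
    · show pderiv 0 (vI m (X 0)) = vI m (pderiv 1 (X 0))
      rw [vI_X0, pderiv_yI_zero, pderiv_X_of_ne (by decide), map_zero]
    · show pderiv 0 (vI m (X 1)) = vI m (pderiv 1 (X 1))
      rw [vI_X1, pderiv_X_self, pderiv_X_self, map_one]
    · show pderiv 0 (vI m (X 2)) = vI m (pderiv 1 (X 2))
      rw [vI_X2, pderiv_X_of_ne (by simp), pderiv_X_of_ne (by decide), map_zero]

theorem pderiv_vI_one (V : MvPolynomial (Fin 3) ℝ) :
    pderiv 1 (vI m V) = vI m (pderiv 2 V) := by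
  induction V using MvPolynomial.induction_on with
  | C a => simp [vI]
  | add p q hp hq => rw [map_add, map_add, hp, hq, map_add, map_add]
  | mul_X p i hp =>
    rw [map_mul, pderiv_mul, hp, pderiv_mul, map_add, map_mul, map_mul]
    congr 2
    fin_cases i
    · show pderiv 1 (vI m (X 0)) = vI m (pderiv 2 (X 0))
      rw [vI_X0, pderiv_yI_one, pderiv_X_of_ne (by decide), map_zero]
    · show pderiv 1 (vI m (X 1)) = vI m (pderiv 2 (X 1))
      rw [vI_X1, pderiv_X_of_ne (by simp), pderiv_X_of_ne (by decide), map_zero]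
    · show pderiv 1 (vI m (X 2)) = vI m (pderiv 2 (X 2))
      rw [vI_X2, pderiv_X_self, pderiv_X_self, map_one]

theorem pderiv_vI_ss (V : MvPolynomial (Fin 3) ℝ) (j : Fin (m + 1)) :
    pderiv (j.succ.succ : Fin (m + 3)) (vI m V) = C 2 * X j.succ.succ * vI m (pderiv 0 V) := by
  induction V using MvPolynomial.induction_on with
  | C a => simp [vI]
  | add p q hp hq => rw [map_add, map_add, hp, hq, map_add, map_add, mul_add]
  | mul_X p i hp =>
    have key : pderiv (j.succ.succ : Fin (m + 3)) (vI m (X i))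
        = C 2 * X j.succ.succ * vI m (pderiv 0 (X i)) := by
      fin_cases i
      · show pderiv _ (vI m (X 0)) = _ * vI m (pderiv 0 (X 0))
        rw [vI_X0, pderiv_yI_ss, pderiv_R2, map_mul, yI_X, pderiv_X_self, map_one, mul_one]
        simp [yI]
      · show pderiv _ (vI m (X 1)) = _ * vI m (pderiv 0 (X 1))
        rw [vI_X1, pderiv_X_of_ne (ss_ne_zero j).symm, pderiv_X_of_ne (by decide), map_zero,
          mul_zero]
      · show pderiv _ (vI m (X 2)) = _ * vI m (pderiv 0 (X 2))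
        rw [vI_X2, pderiv_X_of_ne (ss_ne_one j).symm, pderiv_X_of_ne (by decide), map_zero,
          mul_zero]
    rw [map_mul, pderiv_mul, hp, key, pderiv_mul, map_add, map_mul, map_mul]
    ring

/-- the reduced Laplacian in the sector of degree `q` -/
noncomputable def Lq (m q : ℕ) (V : MvPolynomial (Fin 3) ℝ) : MvPolynomial (Fin 3) ℝ :=
  pderiv 1 (pderiv 1 V) + pderiv 2 (pderiv 2 V)
    + C (2 * ((m : ℝ) + 1) + 4 * q) * pderiv 0 V + C 4 * (X 0 * pderiv 0 (pderiv 0 V))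

theorem C_two_eq {σ : Type*} : (C 2 : MvPolynomial σ ℝ) = 1 + 1 := by
  rw [← C_1, ← C_add]; norm_num

theorem lap_sector {q : ℕ} {Y : MvPolynomial (Fin (m + 1)) ℝ} (hY : Y ∈ harm (m + 1) q)
    (V : MvPolynomial (Fin 3) ℝ) :
    lap (m + 3) (yI m Y * vI m V) = yI m Y * vI m (Lq m q V) := by
  obtain ⟨hhom, hlap⟩ := mem_harm.1 hY
  rw [lap_apply, Fin.sum_univ_succ, Fin.sum_univ_succ]
  have h0 : pderiv 0 (pderiv 0 (yI m Y * vI m V)) = yI m Y * vI m (pderiv 1 (pderiv 1 V)) := by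
    rw [pderiv_mul, pderiv_yI_zero, zero_mul, zero_add, pderiv_vI_zero, pderiv_mul,
      pderiv_yI_zero, zero_mul, zero_add, pderiv_vI_zero]
  have h1 : pderiv (Fin.succ 0) (pderiv (Fin.succ 0) (yI m Y * vI m V))
      = yI m Y * vI m (pderiv 2 (pderiv 2 V)) := by
    rw [Fin.succ_zero_eq_one, pderiv_mul, pderiv_yI_one, zero_mul, zero_add, pderiv_vI_one,
      pderiv_mul, pderiv_yI_one, zero_mul, zero_add, pderiv_vI_one]
  have h2 : ∀ j : Fin (m + 1), pderiv (j.succ.succ : Fin (m + 3))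
      (pderiv (j.succ.succ : Fin (m + 3)) (yI m Y * vI m V))
      = yI m (pderiv j (pderiv j Y)) * vI m V
        + C 4 * (yI m (X j * pderiv j Y) * vI m (pderiv 0 V))
        + C 2 * (yI m Y * vI m (pderiv 0 V))
        + C 4 * (yI m (X j * X j) * (yI m Y * vI m (pderiv 0 (pderiv 0 V)))) := by
    intro j
    have e1 : pderiv (j.succ.succ : Fin (m + 3)) (yI m Y * vI m V)
        = yI m (pderiv j Y) * vI m V
          + C 2 * (X j.succ.succ * (yI m Y * vI m (pderiv 0 V))) := by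
      rw [pderiv_mul, pderiv_yI_ss, pderiv_vI_ss]; ring
    rw [e1, map_add, pderiv_C_mul, pderiv_mul, pderiv_mul, pderiv_X_self, pderiv_mul,
      pderiv_yI_ss, pderiv_yI_ss, pderiv_vI_ss, pderiv_vI_ss, map_mul, map_mul, yI_X]
    have h4 : (C 4 : MvPolynomial (Fin (m + 3)) ℝ) = C 2 * C 2 := by rw [← C_mul]; norm_num
    rw [h4, C_two_eq]
    ring
  have s1 : ∑ j : Fin (m + 1), yI m (pderiv j (pderiv j Y)) * vI m V = 0 := by
    rw [← Finset.sum_mul, ← map_sum, ← lap_apply, hlap, map_zero, zero_mul]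
  have s2 : ∑ j : Fin (m + 1), C 4 * (yI m (X j * pderiv j Y) * vI m (pderiv 0 V))
      = C 4 * C (q : ℝ) * (yI m Y * vI m (pderiv 0 V)) := by
    rw [← Finset.mul_sum, ← Finset.sum_mul, ← map_sum, hhom.sum_X_mul_pderiv]
    have : yI m (q • Y) = C (q : ℝ) * yI m Y := by simp [yI, nsmul_eq_mul]
    rw [this]; ring
  have s3 : ∑ _j : Fin (m + 1), C 2 * (yI m Y * vI m (pderiv 0 V))
      = C ((m : ℝ) + 1) * (C 2 * (yI m Y * vI m (pderiv 0 V))) := by
    rw [Finset.sum_const, Finset.card_univ, Fintype.card_fin, nsmul_eq_mul]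
    congr 1
    simp
  have s4 : ∑ j : Fin (m + 1), C 4 * (yI m (X j * X j) * (yI m Y * vI m (pderiv 0 (pderiv 0 V))))
      = C 4 * (yI m (R2 (m + 1)) * (yI m Y * vI m (pderiv 0 (pderiv 0 V)))) := by
    rw [← Finset.mul_sum, ← Finset.sum_mul, ← map_sum]; rfl
  rw [h0, h1, Finset.sum_congr rfl fun j _ => h2 j, Finset.sum_add_distrib,
    Finset.sum_add_distrib, Finset.sum_add_distrib, s1, s2, s3, s4]
  unfold Lq
  have hC : ∀ c : ℝ, vI m (C c) = C c := fun c => by simp [vI]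
  simp only [map_add, map_mul, vI_X0, hC]
  ring

end Crest.Agent.R202.Sph
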