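import Mathlib
import Crest.Agent.R202.SecPoly

/-! # Row 202, B4a (helper862): grading of the sectors, Fischer decomposition inside a sector,
decomposition of all polynomials into sectors. -/

set_option autoImplicit false

open MvPolynomial

namespace Crest.Agent.R202.Sph

variable {m : ℕ}

/-- weights of `s = |y|²`, `x0`, `x1` -/
def w3 : Fin 3 → ℕ := ![2, 1, 1]

theorem aeval_wh {σ τ : Type*} [Fintype σ] {w : σ → ℕ} {w' : τ → ℕ} (g : σ → MvPolynomial τ ℝ)
    (hg : ∀ i, (g i).IsWeightedHomogeneous w' (w i)) {e : ℕ} {V : MvPolynomial σ ℝ}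
    (hV : V.IsWeightedHomogeneous w e) : (aeval g V).IsWeightedHomogeneous w' e := by
  rw [aeval_def, eval₂_eq']
  refine IsWeightedHomogeneous.sum _ _ _ fun d hd => ?_
  have h1 : (∏ i, g i ^ d i).IsWeightedHomogeneous w' (∑ i, d i • w i) :=
    IsWeightedHomogeneous.prod _ _ _ fun i _ => (hg i).pow (d i)
  have h2 : ∑ i, d i • w i = e := by
    have := hV (mem_support_iff.1 hd)
    rw [Finsupp.weight_apply, Finsupp.sum_fintype _ _ (by simp)] at this
    exact this
  rw [h2] at h1
  have h3 := (isWeightedHomogeneous_C (R := ℝ) w' (coeff d V)).mul h1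
  rwa [zero_add] at h3

theorem vI_homog {V : MvPolynomial (Fin 3) ℝ} {e : ℕ} (hV : V.IsWeightedHomogeneous w3 e) :
    (vI m V).IsHomogeneous e := by
  refine aeval_wh (w := w3) (w' := 1) _ (fun i => ?_) hV
  fin_cases i
  · show (yI m (R2 (m + 1))).IsHomogeneous 2
    rw [yI_R2]
    exact IsHomogeneous.sum _ _ _ fun i _ => (isHomogeneous_X ℝ _).mul (isHomogeneous_X ℝ _)
  · exact isHomogeneous_X ℝ _
  · exact isHomogeneous_X ℝ _

theorem refl3_wh {V : MvPolynomial (Fin 3) ℝ} {e : ℕ} (hV : V.IsWeightedHomogeneous w3 e) :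
    (refl3 V).IsWeightedHomogeneous w3 e := by
  refine aeval_wh (w := w3) (w' := w3) _ (fun i => ?_) hV
  fin_cases i
  · exact isWeightedHomogeneous_X ℝ w3 0
  · exact isWeightedHomogeneous_X ℝ w3 1
  · exact (isWeightedHomogeneous_X ℝ w3 2).neg

theorem yI_homog {Y : MvPolynomial (Fin (m + 1)) ℝ} {q : ℕ} (hY : Y.IsHomogeneous q) :
    (yI m Y).IsHomogeneous q := hY.rename_isHomogeneous

/-! ### derivatives and weights -/

theorem pderiv_wh {V : MvPolynomial (Fin 3) ℝ} {e : ℕ} (hV : V.IsWeightedHomogeneous w3 e)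
    (i : Fin 3) : (pderiv i V).IsWeightedHomogeneous w3 (e - w3 i) ∧ (e < w3 i → pderiv i V = 0) := by
  by_cases h : w3 i ≤ e
  · exact ⟨hV.pderiv (by omega), fun h' => absurd h' (by omega)⟩
  · have hzero : pderiv i V = 0 := by
      induction hV using IsWeightedHomogeneous.induction_on with
      | zero => rw [map_zero]
      | add p q hp hq h1 h2 => rw [map_add, h1, h2, add_zero]
      | monomial d r hr =>
        rw [pderiv_monomial]
        have hdi : d i = 0 := by
          by_contra hne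
          have h1 : d i • w3 i ≤ Finsupp.weight w3 d := by
            rw [Finsupp.weight_apply, Finsupp.sum_fintype _ _ (by simp)]
            exact Finset.single_le_sum (f := fun j => d j • w3 j) (fun _ _ => Nat.zero_le _)
              (Finset.mem_univ i)
          rw [hr, smul_eq_mul] at h1
          have h2 : w3 i ≤ d i * w3 i := Nat.le_mul_of_pos_left _ (Nat.pos_of_ne_zero hne)
          omega
        rw [hdi]; simp
    rw [hzero]
    exact ⟨isWeightedHomogeneous_zero ℝ w3 _, fun _ => rfl⟩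

theorem Lq_wh {V : MvPolynomial (Fin 3) ℝ} {e q : ℕ} (hV : V.IsWeightedHomogeneous w3 e) :
    (Lq m q V).IsWeightedHomogeneous w3 (e - 2) := by
  unfold Lq
  have h1 := (pderiv_wh (pderiv_wh hV 1).1 1).1
  have h2 := (pderiv_wh (pderiv_wh hV 2).1 2).1
  have h0 := (pderiv_wh hV 0).1
  have h00 := pderiv_wh (pderiv_wh hV 0).1 0
  have e1 : e - w3 1 - w3 1 = e - 2 := by show e - 1 - 1 = e - 2; omega
  have e2 : e - w3 2 - w3 2 = e - 2 := by show e - 1 - 1 = e - 2; omega
  have e0 : e - w3 0 = e - 2 := rfl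
  rw [e1] at h1
  rw [e2] at h2
  rw [e0] at h0 h00
  refine ((h1.add h2).add (h0.C_mul _)).add (IsWeightedHomogeneous.C_mul ?_ _)
  by_cases he : e - 2 < 2
  · rw [h00.2 he, mul_zero]
    exact isWeightedHomogeneous_zero ℝ w3 _
  · have h3 := (isWeightedHomogeneous_X ℝ w3 0).mul h00.1
    have e3 : w3 0 + (e - 2 - w3 0) = e - 2 := by show 2 + (e - 2 - 2) = e - 2; omega
    rwa [e3] at h3

theorem Lq_zero_of_lt {V : MvPolynomial (Fin 3) ℝ} {e q : ℕ} (hV : V.IsWeightedHomogeneous w3 e)
    (he : e < 2) : Lq m q V = 0 := by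
  unfold Lq
  have h0 : pderiv 0 V = 0 := (pderiv_wh hV 0).2 he
  have h1 : pderiv 1 (pderiv 1 V) = 0 := (pderiv_wh (pderiv_wh hV 1).1 1).2 (by
    show e - 1 < 1; omega)
  have h2 : pderiv 2 (pderiv 2 V) = 0 := (pderiv_wh (pderiv_wh hV 2).1 2).2 (by
    show e - 1 < 1; omega)
  rw [h0, h1, h2]; simp

/-! ### parity -/

theorem refl3_C (c : ℝ) : refl3 (C c) = C c := by simp [refl3]

theorem refl3_pderiv_zero (V : MvPolynomial (Fin 3) ℝ) :
    refl3 (pderiv 0 V) = pderiv 0 (refl3 V) := by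
  induction V using MvPolynomial.induction_on with
  | C a => simp
  | add p q hp hq => simp only [map_add, hp, hq]
  | mul_X p i hp =>
    have hm : refl3 (p * X i) = refl3 p * refl3 (X i) := map_mul _ _ _
    rw [hm, pderiv_mul, pderiv_mul, map_add, map_mul, map_mul, hp]
    congr 2
    fin_cases i
    · show refl3 (pderiv 0 (X 0)) = pderiv 0 (refl3 (X 0))
      rw [refl3_X0, pderiv_X_self, map_one]
    · show refl3 (pderiv 0 (X 1)) = pderiv 0 (refl3 (X 1))
      rw [refl3_X1, pderiv_X_of_ne (by decide), map_zero]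
    · show refl3 (pderiv 0 (X 2)) = pderiv 0 (refl3 (X 2))
      rw [refl3_X2, map_neg, pderiv_X_of_ne (by decide), map_zero, neg_zero]

theorem refl3_pderiv_one (V : MvPolynomial (Fin 3) ℝ) :
    refl3 (pderiv 1 V) = pderiv 1 (refl3 V) := by
  induction V using MvPolynomial.induction_on with
  | C a => simp
  | add p q hp hq => simp only [map_add, hp, hq]
  | mul_X p i hp =>
    have hm : refl3 (p * X i) = refl3 p * refl3 (X i) := map_mul _ _ _
    rw [hm, pderiv_mul, pderiv_mul, map_add, map_mul, map_mul, hp]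
    congr 2
    fin_cases i
    · show refl3 (pderiv 1 (X 0)) = pderiv 1 (refl3 (X 0))
      rw [refl3_X0, pderiv_X_of_ne (by decide), map_zero]
    · show refl3 (pderiv 1 (X 1)) = pderiv 1 (refl3 (X 1))
      rw [refl3_X1, pderiv_X_self, map_one]
    · show refl3 (pderiv 1 (X 2)) = pderiv 1 (refl3 (X 2))
      rw [refl3_X2, map_neg, pderiv_X_of_ne (by decide), map_zero, neg_zero]

theorem refl3_pderiv_two (V : MvPolynomial (Fin 3) ℝ) :
    refl3 (pderiv 2 V) = - pderiv 2 (refl3 V) := by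
  induction V using MvPolynomial.induction_on with
  | C a => simp
  | add p q hp hq => simp only [map_add, hp, hq, neg_add]
  | mul_X p i hp =>
    have key : refl3 (pderiv 2 (X i)) = - pderiv 2 (refl3 (X i)) := by
      fin_cases i
      · show refl3 (pderiv 2 (X 0)) = - pderiv 2 (refl3 (X 0))
        rw [refl3_X0, pderiv_X_of_ne (by decide), map_zero, neg_zero]
      · show refl3 (pderiv 2 (X 1)) = - pderiv 2 (refl3 (X 1))
        rw [refl3_X1, pderiv_X_of_ne (by decide), map_zero, neg_zero]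
      · show refl3 (pderiv 2 (X 2)) = - pderiv 2 (refl3 (X 2))
        rw [refl3_X2, map_neg, pderiv_X_self, map_one, neg_neg]
    have hm : refl3 (p * X i) = refl3 p * refl3 (X i) := map_mul _ _ _
    rw [hm, pderiv_mul, pderiv_mul, map_add, map_mul, map_mul, hp, key]
    ring

theorem refl3_Lq {V : MvPolynomial (Fin 3) ℝ} {ε : ℝ} (hV : refl3 V = C ε * V) (q : ℕ) :
    refl3 (Lq m q V) = C ε * Lq m q V := by
  unfold Lq
  simp only [map_add, map_mul, refl3_C, refl3_X0]
  simp only [refl3_pderiv_one, refl3_pderiv_two, map_neg, neg_neg, refl3_pderiv_zero, hV,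
    pderiv_C_mul]
  ring

theorem refl3_refl3 (V : MvPolynomial (Fin 3) ℝ) : refl3 (refl3 V) = V := by
  induction V using MvPolynomial.induction_on with
  | C a => rw [refl3_C, refl3_C]
  | add p q hp hq => simp only [map_add, hp, hq]
  | mul_X p i hp =>
    rw [map_mul, map_mul, hp]
    congr 1
    fin_cases i
    · show refl3 (refl3 (X 0)) = X 0
      rw [refl3_X0, refl3_X0]
    · show refl3 (refl3 (X 1)) = X 1
      rw [refl3_X1, refl3_X1]
    · show refl3 (refl3 (X 2)) = X 2
      rw [refl3_X2, map_neg, refl3_X2, neg_neg]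

/-! ### the graded pieces of a sector -/

/-- polynomials `Y(y) V(|y|²,x0,x1)`, `V` of weight `e` and parity `ε` -/
noncomputable def Sec (Y : MvPolynomial (Fin (m + 1)) ℝ) (ε : ℝ) (e : ℕ) :
    Submodule ℝ (MvPolynomial (Fin (m + 3)) ℝ) where
  carrier := {p | ∃ V : MvPolynomial (Fin 3) ℝ, V.IsWeightedHomogeneous w3 e ∧
    refl3 V = C ε * V ∧ p = yI m Y * vI m V}
  add_mem' := by
    rintro _ _ ⟨V, h1, h2, rfl⟩ ⟨V', h1', h2', rfl⟩
    exact ⟨V + V', h1.add h1', by rw [map_add, h2, h2']; ring, by rw [map_add]; ring⟩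
  zero_mem' := ⟨0, isWeightedHomogeneous_zero ℝ w3 _, by simp, by simp⟩
  smul_mem' := by
    rintro c _ ⟨V, h1, h2, rfl⟩
    refine ⟨C c * V, h1.C_mul c, by rw [map_mul, refl3_C, h2]; ring, ?_⟩
    have : vI m (C c) = C c := by simp [vI]
    rw [map_mul, this, smul_eq_C_mul]; ring

theorem mem_Sec {Y : MvPolynomial (Fin (m + 1)) ℝ} {ε : ℝ} {e : ℕ}
    {p : MvPolynomial (Fin (m + 3)) ℝ} : p ∈ Sec Y ε e ↔
    ∃ V : MvPolynomial (Fin 3) ℝ, V.IsWeightedHomogeneous w3 e ∧
    refl3 V = C ε * V ∧ p = yI m Y * vI m V := Iff.rfl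

theorem Sec_homog {q : ℕ} {Y : MvPolynomial (Fin (m + 1)) ℝ} (hY : Y ∈ harm (m + 1) q) {ε : ℝ}
    {e : ℕ} {p : MvPolynomial (Fin (m + 3)) ℝ} (hp : p ∈ Sec Y ε e) : p.IsHomogeneous (q + e) := by
  obtain ⟨V, h1, _, rfl⟩ := hp
  exact (yI_homog (mem_harm.1 hY).1).mul (vI_homog h1)

theorem Sec_lap {q : ℕ} {Y : MvPolynomial (Fin (m + 1)) ℝ} (hY : Y ∈ harm (m + 1) q) {ε : ℝ}
    {e : ℕ} {p : MvPolynomial (Fin (m + 3)) ℝ} (hp : p ∈ Sec Y ε (e + 2)) :
    lap (m + 3) p ∈ Sec Y ε e := by
  obtain ⟨V, h1, h2, rfl⟩ := hp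
  rw [lap_sector hY]
  exact ⟨Lq m q V, Lq_wh h1, refl3_Lq h2 q, rfl⟩

theorem Sec_lap_zero {q : ℕ} {Y : MvPolynomial (Fin (m + 1)) ℝ} (hY : Y ∈ harm (m + 1) q) {ε : ℝ}
    {e : ℕ} (he : e < 2) {p : MvPolynomial (Fin (m + 3)) ℝ} (hp : p ∈ Sec Y ε e) :
    lap (m + 3) p = 0 := by
  obtain ⟨V, h1, h2, rfl⟩ := hp
  rw [lap_sector hY, Lq_zero_of_lt h1 he, map_zero, mul_zero]

theorem Sec_R2 {Y : MvPolynomial (Fin (m + 1)) ℝ} {ε : ℝ}
    {e : ℕ} {p : MvPolynomial (Fin (m + 3)) ℝ} (hp : p ∈ Sec Y ε e) :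
    R2 (m + 3) * p ∈ Sec Y ε (e + 2) := by
  obtain ⟨V, h1, h2, rfl⟩ := hp
  refine ⟨(X 0 + X 1 * X 1 + X 2 * X 2) * V, ?_, ?_, ?_⟩
  · have e0 : (X 0 + X 1 * X 1 + X 2 * X 2 : MvPolynomial (Fin 3) ℝ).IsWeightedHomogeneous w3 2 :=
      ((isWeightedHomogeneous_X ℝ w3 0).add
        ((isWeightedHomogeneous_X ℝ w3 1).mul (isWeightedHomogeneous_X ℝ w3 1))).add
        ((isWeightedHomogeneous_X ℝ w3 2).mul (isWeightedHomogeneous_X ℝ w3 2))
    have := e0.mul h1
    rwa [add_comm 2 e] at this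
  · rw [map_mul, h2]
    simp only [map_add, map_mul, refl3_X0, refl3_X1, refl3_X2]
    ring
  · rw [map_mul, ← R2_eq]; ring

/-! ### graded Fischer decomposition -/

theorem graded_fischer {n : ℕ} [NeZero n] (q : ℕ) (S : ℕ → Submodule ℝ (MvPolynomial (Fin n) ℝ))
    (hS : ∀ e, ∀ p ∈ S e, p.IsHomogeneous (q + e))
    (hlap : ∀ e, ∀ p ∈ S (e + 2), lap n p ∈ S e) (hlow : ∀ e < 2, ∀ p ∈ S e, lap n p = 0)
    (hR : ∀ e, ∀ p ∈ S e, R2 n * p ∈ S (e + 2)) :
    ∀ (e : ℕ) {f : MvPolynomial (Fin n) ℝ}, f ∈ S e →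
    ∃ h : ℕ → MvPolynomial (Fin n) ℝ, (∀ j, 2 * j ≤ e → h j ∈ S (e - 2 * j) ∧ lap n (h j) = 0) ∧
      f = ∑ j ∈ Finset.range (e / 2 + 1), R2 n ^ j * h j := by
  have hfin : ∀ e, Module.Finite ℝ (S e) := fun e =>
    Module.Finite.of_injective (Submodule.inclusion (show S e ≤
      homogeneousSubmodule (Fin n) ℝ (q + e) from fun p hp => hS e p hp))
      (Submodule.inclusion_injective _)
  have hfinK : ∀ e, Module.Finite ℝ (S e ⊓ LinearMap.ker (lap n) : Submodule ℝ _) := fun e =>
    have := hfin e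
    Module.Finite.of_injective (Submodule.inclusion (inf_le_left :
      (S e ⊓ LinearMap.ker (lap n) : Submodule ℝ _) ≤ S e)) (Submodule.inclusion_injective _)
  have step : ∀ (e : ℕ) {f : MvPolynomial (Fin n) ℝ}, f ∈ S (e + 2) →
      ∃ h ∈ S (e + 2), lap n h = 0 ∧ ∃ g ∈ S e, f = h + R2 n * g := by
    intro e f hf
    have i1 := hfin e
    have i2 := hfin (e + 2)
    have i3 := hfinK (e + 2)
    let Φ : ((S (e + 2) ⊓ LinearMap.ker (lap n) : Submodule ℝ _) × S e) →ₗ[ℝ] S (e + 2) :=
      { toFun := fun p => ⟨p.1.1 + R2 n * p.2.1, Submodule.add_mem _ p.1.2.1 (hR e _ p.2.2)⟩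
        map_add' := fun a b => by
          apply Subtype.ext
          simp only [Prod.fst_add, Prod.snd_add, Submodule.coe_add]
          ring
        map_smul' := fun c a => by
          apply Subtype.ext
          simp only [Prod.smul_fst, Prod.smul_snd, Submodule.coe_smul, RingHom.id_apply,
            smul_add, mul_smul_comm] }
    have hinj : Function.Injective Φ := by
      rw [← LinearMap.ker_eq_bot, LinearMap.ker_eq_bot']
      rintro ⟨h, g⟩ h0
      have h1 : h.1 + R2 n * g.1 = 0 := congrArg Subtype.val h0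
      have hk : lap n h.1 = 0 := h.2.2
      have h2 : lap n (R2 n ^ (0 + 1) * g.1) = 0 := by
        have : R2 n ^ (0 + 1) * g.1 = - h.1 := by
          rw [zero_add, pow_one]
          linear_combination h1
        rw [this, map_neg, hk, neg_zero]
      have h3 : g.1 = 0 := eq_zero_of_lap_R2_pow (q + e) 0 (hS e _ g.2) h2
      rw [h3, mul_zero, add_zero] at h1
      exact Prod.ext (Subtype.ext h1) (Subtype.ext h3)
    have hdim : Module.finrank ℝ ((S (e + 2) ⊓ LinearMap.ker (lap n) : Submodule ℝ _) × S e)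
        = Module.finrank ℝ (S (e + 2)) := by
      apply le_antisymm
      · exact LinearMap.finrank_le_finrank_of_injective hinj
      · rw [Module.finrank_prod]
        let L : S (e + 2) →ₗ[ℝ] S e := (lap n).restrict (fun p hp => hlap e p hp)
        have h1 := LinearMap.finrank_range_add_finrank_ker L
        have h2 : Module.finrank ℝ (LinearMap.range L) ≤ Module.finrank ℝ (S e) :=
          Submodule.finrank_le _
        have h3 : Module.finrank ℝ (LinearMap.ker L)
            ≤ Module.finrank ℝ (S (e + 2) ⊓ LinearMap.ker (lap n) : Submodule ℝ _) := by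
          let g : LinearMap.ker L →ₗ[ℝ] (S (e + 2) ⊓ LinearMap.ker (lap n) : Submodule ℝ _) :=
            { toFun := fun p => ⟨p.1.1, p.1.2, by
                have h0 := p.2
                rw [LinearMap.mem_ker] at h0
                exact congrArg Subtype.val h0⟩
              map_add' := fun _ _ => rfl
              map_smul' := fun _ _ => rfl }
          refine LinearMap.finrank_le_finrank_of_injective (f := g) ?_
          intro a b hab
          apply Subtype.ext
          apply Subtype.ext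
          exact congrArg (fun x => x.1) hab
        omega
    have hsurj := (LinearMap.injective_iff_surjective_of_finrank_eq_finrank hdim).1 hinj
    obtain ⟨⟨h, g⟩, hhg⟩ := hsurj ⟨f, hf⟩
    exact ⟨h.1, h.2.1, h.2.2, g.1, g.2, (congrArg Subtype.val hhg).symm⟩
  intro e
  induction e using Nat.strong_induction_on with
  | _ e ih =>
    intro f hf
    by_cases hk : e < 2
    · refine ⟨fun _ => f, fun j hj => ?_, ?_⟩
      · have hj0 : j = 0 := by omega
        subst hj0
        rw [mul_zero, Nat.sub_zero]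
        exact ⟨hf, hlow e hk f hf⟩
      · have : e / 2 + 1 = 1 := by omega
        rw [this]
        simp
    · obtain ⟨e, rfl⟩ : ∃ a, e = a + 2 := ⟨e - 2, by omega⟩
      obtain ⟨h, hh, hh0, g, hg, hfg⟩ := step e hf
      obtain ⟨h', hh', hg'⟩ := ih e (by omega) hg
      refine ⟨fun j => Nat.casesOn j h (fun i => h' i), fun j hj => ?_, ?_⟩
      · cases j with
        | zero => exact ⟨hh, hh0⟩
        | succ i =>
          have := hh' i (by omega)
          rwa [show e + 2 - 2 * (i + 1) = e - 2 * i by omega]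
      · have : (e + 2) / 2 + 1 = (e / 2 + 1) + 1 := by omega
        rw [this, Finset.sum_range_succ', hfg, hg', Finset.mul_sum]
        simp only [pow_zero, one_mul]
        rw [add_comm]
        congr 1
        refine Finset.sum_congr rfl fun j _ => ?_
        ring

/-- Fischer decomposition inside a sector -/
theorem Sec_fischer {q : ℕ} {Y : MvPolynomial (Fin (m + 1)) ℝ} (hY : Y ∈ harm (m + 1) q) (ε : ℝ)
    (e : ℕ) {f : MvPolynomial (Fin (m + 3)) ℝ} (hf : f ∈ Sec Y ε e) :
    ∃ h : ℕ → MvPolynomial (Fin (m + 3)) ℝ,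
      (∀ j, 2 * j ≤ e → h j ∈ Sec Y ε (e - 2 * j) ∧ lap (m + 3) (h j) = 0) ∧
      f = ∑ j ∈ Finset.range (e / 2 + 1), R2 (m + 3) ^ j * h j :=
  graded_fischer q (Sec Y ε) (fun _ _ hp => Sec_homog hY hp) (fun _ _ hp => Sec_lap hY hp)
    (fun _ he _ hp => Sec_lap_zero hY he hp) (fun _ _ hp => Sec_R2 hp) e hf

/-! ### every polynomial is a sum of sector polynomials -/

/-- generators of degree `k` -/
def Gens (m k : ℕ) : Set (MvPolynomial (Fin (m + 3)) ℝ) :=
  {p | ∃ (q e : ℕ) (Y : MvPolynomial (Fin (m + 1)) ℝ) (ε : ℝ), q + e = k ∧ Y ∈ harm (m + 1) q ∧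
    (ε = 1 ∨ ε = -1) ∧ p ∈ Sec Y ε e}

theorem Gens_mul_X (k : ℕ) (i : Fin (m + 3)) {p : MvPolynomial (Fin (m + 3)) ℝ}
    (hp : p ∈ Submodule.span ℝ (Gens m k)) : X i * p ∈ Submodule.span ℝ (Gens m (k + 1)) := by
  induction hp using Submodule.span_induction with
  | zero => rw [mul_zero]; exact Submodule.zero_mem _
  | add a b _ _ ha hb => rw [mul_add]; exact Submodule.add_mem _ ha hb
  | smul c a _ ha => rw [mul_smul_comm]; exact Submodule.smul_mem _ _ ha
  | mem a ha =>
    obtain ⟨q, e, Y, ε, hk, hY, hε, V, hV, hpar, rfl⟩ := ha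
    refine Fin.cases ?_ (fun i => Fin.cases ?_ (fun j => ?_) i) i
    · refine Submodule.subset_span ⟨q, e + 1, Y, ε, by omega, hY, hε, X 1 * V, ?_, ?_, ?_⟩
      · have := (isWeightedHomogeneous_X ℝ w3 1).mul hV
        rwa [show w3 1 + e = e + 1 from add_comm 1 e] at this
      · rw [map_mul, refl3_X1, hpar]; ring
      · rw [map_mul, vI_X1]; ring
    · refine Submodule.subset_span ⟨q, e + 1, Y, -ε, by omega, hY, ?_, X 2 * V, ?_, ?_, ?_⟩
      · rcases hε with rfl | rfl
        · right; rfl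
        · left; norm_num
      · have := (isWeightedHomogeneous_X ℝ w3 2).mul hV
        rwa [show w3 2 + e = e + 1 from add_comm 1 e] at this
      · rw [map_mul, refl3_X2, hpar, C_neg]; ring
      · rw [map_mul, vI_X2, Fin.succ_zero_eq_one]; ring
    · have hXY : (X j * Y).IsHomogeneous (q + 1) := by
        have := (isHomogeneous_X ℝ j).mul (mem_harm.1 hY).1
        rwa [add_comm 1 q] at this
      obtain ⟨h, hh, hsum⟩ := fischer (q + 1) hXY
      have e1 : X j.succ.succ * (yI m Y * vI m V)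
          = ∑ l ∈ Finset.range ((q + 1) / 2 + 1), yI m (h l) * vI m (X 0 ^ l * V) := by
        have : X j.succ.succ * (yI m Y * vI m V) = yI m (X j * Y) * vI m V := by
          rw [map_mul, yI_X]; ring
        rw [this, hsum, map_sum, Finset.sum_mul]
        refine Finset.sum_congr rfl fun l _ => ?_
        rw [map_mul, map_pow, map_mul, map_pow, vI_X0]
        ring
      rw [e1]
      refine Submodule.sum_mem _ fun l hl => Submodule.subset_span
        ⟨q + 1 - 2 * l, e + 2 * l, h l, ε, ?_, hh l ?_, hε, X 0 ^ l * V, ?_, ?_, rfl⟩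
      · have := Finset.mem_range.1 hl
        omega
      · have := Finset.mem_range.1 hl
        omega
      · have := ((isWeightedHomogeneous_X ℝ w3 0).pow l).mul hV
        rwa [show l • w3 0 + e = e + 2 * l by show l * 2 + e = e + 2 * l; omega] at this
      · rw [map_mul, map_pow, refl3_X0, hpar]; ring

theorem homog_mem_span (k : ℕ) {f : MvPolynomial (Fin (m + 3)) ℝ} (hf : f.IsHomogeneous k) :
    f ∈ Submodule.span ℝ (Gens m k) := by
  have key : ∀ (k : ℕ) (d : Fin (m + 3) →₀ ℕ) (c : ℝ), d.degree = k →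
      monomial d c ∈ Submodule.span ℝ (Gens m k) := by
    intro k
    induction k with
    | zero =>
      intro d c hd
      have hd0 : d = 0 := (Finsupp.degree_eq_zero_iff d).1 hd
      subst hd0
      refine Submodule.subset_span ⟨0, 0, 1, 1, rfl, ?_, Or.inl rfl, C c, ?_, ?_, ?_⟩
      · exact mem_harm.2 ⟨isHomogeneous_one _ _, by
          rw [lap_apply]; exact Finset.sum_eq_zero fun i _ => by rw [pderiv_one, map_zero]⟩
      · exact isWeightedHomogeneous_C w3 c
      · rw [refl3_C, C_1, one_mul]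
      · simp [vI]
    | succ k ih =>
      intro d c hd
      obtain ⟨i, hi⟩ : ∃ i, d i ≠ 0 := by
        by_contra hcon
        push Not at hcon
        have : d = 0 := Finsupp.ext hcon
        rw [this] at hd
        simp at hd
      have hle : Finsupp.single i 1 ≤ d :=
        Finsupp.single_le_iff.2 (Nat.one_le_iff_ne_zero.2 hi)
      have hadd : Finsupp.single i 1 + (d - Finsupp.single i 1) = d := add_tsub_cancel_of_le hle
      have h1 : (monomial d c : MvPolynomial (Fin (m + 3)) ℝ)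
          = X i * monomial (d - Finsupp.single i 1) c := by
        rw [X, monomial_mul, one_mul, hadd]
      rw [h1]
      refine Gens_mul_X k i (ih _ c ?_)
      have h2 : (Finsupp.single i 1 + (d - Finsupp.single i 1)).degree = k + 1 := by
        rw [hadd, hd]
      rw [map_add, Finsupp.degree_single] at h2
      omega
  rw [f.as_sum]
  refine Submodule.sum_mem _ fun d hd => key k d _ ?_
  have := hf (mem_support_iff.1 hd)
  rw [Finsupp.degree_eq_weight_one]
  exact this

end Crest.Agent.R202.Sph
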