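import Mathlib
import Crest.Agent.R202.SecGrade
import Crest.Agent.R202.GeoDefs

/-! # Row 202, B4a (helper862): sphere level forms and their invariance under the sectors -/

set_option autoImplicit false

open MvPolynomial MeasureTheory MeasureTheory.Measure Set Metric
open Crest.Agent.R202.Geo

namespace Crest.Agent.R202.Sph

variable {m : ℕ}

/-! ### pointwise formulas -/

theorem sig_eq (x : EuclideanSpace ℝ (Fin (m + 3))) : sig x = ‖yPart x‖ := by
  rw [EuclideanSpace.norm_eq]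
  unfold sig yPart
  congr 1
  exact Finset.sum_congr rfl fun j _ => by rw [Real.norm_eq_abs, sq_abs]

theorem sum_y_pderiv {q : ℕ} {Y : MvPolynomial (Fin (m + 1)) ℝ} (hY : Y.IsHomogeneous q)
    (y : EuclideanSpace ℝ (Fin (m + 1))) : ∑ j, y j * ev (pderiv j Y) y = q * ev Y y := by
  have h := congrArg (fun p => ev p y) hY.sum_X_mul_pderiv
  simp only [ev_sum, ev_mul, ev_X] at h
  rw [h]
  simp [ev, nsmul_eq_mul]

/-- values of `V` at `(|y|², a, b)` -/
noncomputable def evV (V : MvPolynomial (Fin 3) ℝ) (σ a b : ℝ) : ℝ := eval ![σ ^ 2, a, b] V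

theorem ev_vI' (V : MvPolynomial (Fin 3) ℝ) (x : EuclideanSpace ℝ (Fin (m + 3))) :
    ev (vI m V) x = evV V (sig x) (x 0) (x 1) := by
  rw [ev_vI, sig_eq]; rfl

section grad

variable {q : ℕ} {Y : MvPolynomial (Fin (m + 1)) ℝ} (V : MvPolynomial (Fin 3) ℝ)
  (x : EuclideanSpace ℝ (Fin (m + 3)))

theorem ev_d0 : ev (pderiv 0 (yI m Y * vI m V)) x
    = ev Y (yPart x) * evV (pderiv 1 V) (sig x) (x 0) (x 1) := by
  rw [pderiv_mul, pderiv_yI_zero, zero_mul, zero_add, pderiv_vI_zero, ev_mul, ev_yI, ev_vI']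

theorem ev_d1 : ev (pderiv 1 (yI m Y * vI m V)) x
    = ev Y (yPart x) * evV (pderiv 2 V) (sig x) (x 0) (x 1) := by
  rw [pderiv_mul, pderiv_yI_one, zero_mul, zero_add, pderiv_vI_one, ev_mul, ev_yI, ev_vI']

theorem ev_dj (j : Fin (m + 1)) : ev (pderiv (j.succ.succ) (yI m Y * vI m V)) x
    = ev (pderiv j Y) (yPart x) * evV V (sig x) (x 0) (x 1)
      + 2 * ev Y (yPart x) * evV (pderiv 0 V) (sig x) (x 0) (x 1) * yPart x j := by
  rw [pderiv_mul, pderiv_yI_ss, pderiv_vI_ss, ev_add, ev_mul, ev_mul, ev_mul, ev_mul, ev_yI,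
    ev_yI, ev_vI', ev_vI', ev_C, ev_X]
  show _ + _ * (2 * yPart x j * _) = _
  ring

theorem sum_yj_sq : ∑ j : Fin (m + 1), yPart x j * yPart x j = sig x ^ 2 := by
  rw [sig_eq, EuclideanSpace.real_norm_sq_eq]
  exact Finset.sum_congr rfl fun j _ => by ring

/-- `y · ∇_y p` -/
theorem sum_y_dj (hY : Y.IsHomogeneous q) :
    ∑ j : Fin (m + 1), yPart x j * ev (pderiv (j.succ.succ) (yI m Y * vI m V)) x
      = ev Y (yPart x) * (q * evV V (sig x) (x 0) (x 1)
        + 2 * sig x ^ 2 * evV (pderiv 0 V) (sig x) (x 0) (x 1)) := by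
  have h1 : ∀ j : Fin (m + 1), yPart x j * ev (pderiv (j.succ.succ) (yI m Y * vI m V)) x
      = (yPart x j * ev (pderiv j Y) (yPart x)) * evV V (sig x) (x 0) (x 1)
        + (yPart x j * yPart x j) * (2 * ev Y (yPart x)
          * evV (pderiv 0 V) (sig x) (x 0) (x 1)) := fun j => by rw [ev_dj]; ring
  rw [Finset.sum_congr rfl fun j _ => h1 j, Finset.sum_add_distrib, ← Finset.sum_mul,
    ← Finset.sum_mul, sum_y_pderiv hY, sum_yj_sq]
  ring

/-- the factor of `Y` in `e1 · ∇ (Y V)` -/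
noncomputable def E1 (q : ℕ) (V : MvPolynomial (Fin 3) ℝ) (r σ a b : ℝ) : ℝ :=
  -(σ / r) * (a / Real.sqrt (a ^ 2 + b ^ 2)) * evV (pderiv 1 V) σ a b
    + -(σ / r) * (b / Real.sqrt (a ^ 2 + b ^ 2)) * evV (pderiv 2 V) σ a b
    + (Real.sqrt (a ^ 2 + b ^ 2) / r) / σ * (q * evV V σ a b + 2 * σ ^ 2 * evV (pderiv 0 V) σ a b)

/-- the factor of `Y` in `e2 · ∇ (Y V)` -/
noncomputable def E2 (V : MvPolynomial (Fin 3) ℝ) (σ a b : ℝ) : ℝ :=
  -b / Real.sqrt (a ^ 2 + b ^ 2) * evV (pderiv 1 V) σ a b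
    + a / Real.sqrt (a ^ 2 + b ^ 2) * evV (pderiv 2 V) σ a b

theorem e1_grad (hY : Y.IsHomogeneous q) :
    ∑ i, e1 x i * ev (pderiv i (yI m Y * vI m V)) x
      = ev Y (yPart x) * E1 q V ‖x‖ (sig x) (x 0) (x 1) := by
  rw [Fin.sum_univ_succ, Fin.sum_univ_succ, Fin.succ_zero_eq_one, ev_d0, ev_d1]
  have h0 : e1 x 0 = -(sig x / ‖x‖) * (x 0 / rho x) := rfl
  have h1 : e1 x 1 = -(sig x / ‖x‖) * (x 1 / rho x) := rfl
  have hj : ∀ j : Fin (m + 1), e1 x j.succ.succ = (rho x / ‖x‖) * (yPart x j / sig x) :=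
    fun j => rfl
  have hs : ∑ j : Fin (m + 1), e1 x j.succ.succ * ev (pderiv (j.succ.succ) (yI m Y * vI m V)) x
      = (rho x / ‖x‖) / sig x * ∑ j : Fin (m + 1),
        yPart x j * ev (pderiv (j.succ.succ) (yI m Y * vI m V)) x := by
    rw [Finset.mul_sum]
    refine Finset.sum_congr rfl fun j _ => ?_
    rw [hj]; ring
  rw [hs, sum_y_dj V x hY, h0, h1]
  unfold E1 rho
  ring

theorem e2_grad : ∑ i, e2 x i * ev (pderiv i (yI m Y * vI m V)) x
      = ev Y (yPart x) * E2 V (sig x) (x 0) (x 1) := by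
  rw [Fin.sum_univ_succ, Fin.sum_univ_succ, Fin.succ_zero_eq_one, ev_d0, ev_d1]
  have h0 : e2 x 0 = -(x 1) / rho x := rfl
  have h1 : e2 x 1 = x 0 / rho x := rfl
  have hj : ∀ j : Fin (m + 1), e2 x j.succ.succ = 0 := fun j => rfl
  have hs : ∑ j : Fin (m + 1), e2 x j.succ.succ * ev (pderiv (j.succ.succ) (yI m Y * vI m V)) x
      = 0 := Finset.sum_eq_zero fun j _ => by rw [hj, zero_mul]
  rw [hs, h0, h1]
  unfold E2 rho
  ring

end grad

theorem WW_zero_left (x : EuclideanSpace ℝ (Fin (m + 3))) (j : Fin (m + 3)) : WW x 0 j = 0 := by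
  unfold WW; simp

theorem WW_one_left (x : EuclideanSpace ℝ (Fin (m + 3))) (j : Fin (m + 3)) : WW x 1 j = 0 := by
  unfold WW; simp

theorem WW_zero_right (x : EuclideanSpace ℝ (Fin (m + 3))) (j : Fin (m + 3)) : WW x j 0 = 0 := by
  unfold WW; simp

theorem WW_one_right (x : EuclideanSpace ℝ (Fin (m + 3))) (j : Fin (m + 3)) : WW x j 1 = 0 := by
  unfold WW; simp

theorem WW_ss (x : EuclideanSpace ℝ (Fin (m + 3))) (j k : Fin (m + 1)) :
    WW x j.succ.succ k.succ.succ = (if j = k then 1 else 0) - yPart x j * yPart x k / sig x ^ 2 := by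
  unfold WW
  have h : (2 ≤ ((j.succ.succ : Fin (m + 3)) : ℕ) ∧ 2 ≤ ((k.succ.succ : Fin (m + 3)) : ℕ)) := by
    constructor <;> simp
  rw [if_pos h]
  have h2 : ((j.succ.succ : Fin (m + 3)) = k.succ.succ) ↔ j = k :=
    ⟨fun h => Fin.succ_injective _ (Fin.succ_injective _ h), fun h => by rw [h]⟩
  simp only [h2]
  rfl

theorem sum_ss (F : Fin (m + 3) → Fin (m + 3) → ℝ) (h0 : ∀ j, F 0 j = 0) (h1 : ∀ j, F 1 j = 0)
    (h0' : ∀ j, F j 0 = 0) (h1' : ∀ j, F j 1 = 0) :
    ∑ i, ∑ j, F i j = ∑ i : Fin (m + 1), ∑ j : Fin (m + 1), F i.succ.succ j.succ.succ := by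
  rw [Fin.sum_univ_succ (fun i => ∑ j, F i j), Fin.sum_univ_succ (fun i : Fin (m + 2) =>
    ∑ j, F i.succ j), Fin.succ_zero_eq_one, Finset.sum_eq_zero fun j _ => h0 j,
    Finset.sum_eq_zero fun j _ => h1 j, zero_add, zero_add]
  refine Finset.sum_congr rfl fun i _ => ?_
  rw [Fin.sum_univ_succ, Fin.sum_univ_succ, Fin.succ_zero_eq_one, h0', h1', zero_add, zero_add]

theorem WW_grad {q q' : ℕ} {Y Y' : MvPolynomial (Fin (m + 1)) ℝ} (hY : Y.IsHomogeneous q)
    (hY' : Y'.IsHomogeneous q') (V V' : MvPolynomial (Fin 3) ℝ)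
    (x : EuclideanSpace ℝ (Fin (m + 3))) (hx : sig x ≠ 0) :
    ∑ i, ∑ j, WW x i j * ev (pderiv i (yI m Y * vI m V)) x * ev (pderiv j (yI m Y' * vI m V')) x
      = evV V (sig x) (x 0) (x 1) * evV V' (sig x) (x 0) (x 1) *
        (ev (gp Y Y') (yPart x) - q * q' * ev Y (yPart x) * ev Y' (yPart x) / sig x ^ 2) := by
  set p := yI m Y * vI m V with hp
  set h := yI m Y' * vI m V' with hh
  have e1 : ∑ i, ∑ j, WW x i j * ev (pderiv i p) x * ev (pderiv j h) x
      = ∑ i : Fin (m + 1), ∑ j : Fin (m + 1), WW x i.succ.succ j.succ.succ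
        * ev (pderiv i.succ.succ p) x * ev (pderiv j.succ.succ h) x := by
    refine sum_ss (fun i j => WW x i j * ev (pderiv i p) x * ev (pderiv j h) x) ?_ ?_ ?_ ?_
    · intro j; simp only [WW_zero_left, zero_mul]
    · intro j; simp only [WW_one_left, zero_mul]
    · intro j; simp only [WW_zero_right, zero_mul]
    · intro j; simp only [WW_one_right, zero_mul]
  have e2 : ∑ i : Fin (m + 1), ∑ j : Fin (m + 1), WW x i.succ.succ j.succ.succ
        * ev (pderiv i.succ.succ p) x * ev (pderiv j.succ.succ h) x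
      = ∑ j : Fin (m + 1), ev (pderiv j.succ.succ p) x * ev (pderiv j.succ.succ h) x
        - (∑ j : Fin (m + 1), yPart x j * ev (pderiv j.succ.succ p) x)
          * (∑ j : Fin (m + 1), yPart x j * ev (pderiv j.succ.succ h) x) / sig x ^ 2 := by
    have h1 : ∀ i : Fin (m + 1), ∑ j : Fin (m + 1), WW x i.succ.succ j.succ.succ
        * ev (pderiv i.succ.succ p) x * ev (pderiv j.succ.succ h) x
        = ev (pderiv i.succ.succ p) x * ev (pderiv i.succ.succ h) x
          - (yPart x i * ev (pderiv i.succ.succ p) x)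
            * ((∑ j : Fin (m + 1), yPart x j * ev (pderiv j.succ.succ h) x) / sig x ^ 2) := by
      intro i
      have h2 : ∀ j : Fin (m + 1), WW x i.succ.succ j.succ.succ
          * ev (pderiv i.succ.succ p) x * ev (pderiv j.succ.succ h) x
          = (if i = j then ev (pderiv i.succ.succ p) x * ev (pderiv j.succ.succ h) x else 0)
            - (yPart x i * ev (pderiv i.succ.succ p) x)
              * ((yPart x j * ev (pderiv j.succ.succ h) x) / sig x ^ 2) := by
        intro j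
        rw [WW_ss]
        split_ifs <;> ring
      rw [Finset.sum_congr rfl fun j _ => h2 j, Finset.sum_sub_distrib, Finset.sum_ite_eq,
        if_pos (Finset.mem_univ i), ← Finset.mul_sum, ← Finset.sum_div]
    rw [Finset.sum_congr rfl fun i _ => h1 i, Finset.sum_sub_distrib, ← Finset.sum_mul]
    ring
  rw [e1, e2, sum_y_dj V x hY, sum_y_dj V' x hY']
  have e3 : ∑ j : Fin (m + 1), ev (pderiv j.succ.succ p) x * ev (pderiv j.succ.succ h) x
      = evV V (sig x) (x 0) (x 1) * evV V' (sig x) (x 0) (x 1) * ev (gp Y Y') (yPart x)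
        + 2 * ev Y' (yPart x) * evV (pderiv 0 V') (sig x) (x 0) (x 1)
          * evV V (sig x) (x 0) (x 1) * (q * ev Y (yPart x))
        + 2 * ev Y (yPart x) * evV (pderiv 0 V) (sig x) (x 0) (x 1)
          * evV V' (sig x) (x 0) (x 1) * (q' * ev Y' (yPart x))
        + 4 * ev Y (yPart x) * ev Y' (yPart x) * evV (pderiv 0 V) (sig x) (x 0) (x 1)
          * evV (pderiv 0 V') (sig x) (x 0) (x 1) * sig x ^ 2 := by
    rw [← sum_y_pderiv hY, ← sum_y_pderiv hY', ← sum_yj_sq x, ev_gp, Finset.mul_sum,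
      Finset.mul_sum, Finset.mul_sum, Finset.mul_sum, ← Finset.sum_add_distrib,
      ← Finset.sum_add_distrib, ← Finset.sum_add_distrib]
    refine Finset.sum_congr rfl fun j _ => ?_
    rw [hp, hh, ev_dj, ev_dj]
    ring
  rw [e3]
  field_simp
  ring

end Crest.Agent.R202.Sph
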