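import Mathlib
import Crest.Agent.R202.SecSph
import Crest.Agent.R202.SphIndep

/-! # Row 202, B4a (helper862): product coordinates `x = (x0, x1, y)` and vanishing of sphere
integrals by slices -/

set_option autoImplicit false

open MvPolynomial MeasureTheory MeasureTheory.Measure Set Metric

namespace Crest.Agent.R202.Sph

variable {m : ℕ}

/-- `(a, b, y) ↦ (a, b, y)` as a measurable equivalence -/
noncomputable def mkE (m : ℕ) :
    ℝ × ℝ × EuclideanSpace ℝ (Fin (m + 1)) ≃ᵐ EuclideanSpace ℝ (Fin (m + 3)) :=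
  (((MeasurableEquiv.refl ℝ).prodCongr ((MeasurableEquiv.refl ℝ).prodCongr
    (MeasurableEquiv.toLp 2 (Fin (m + 1) → ℝ)).symm)).trans
    ((MeasurableEquiv.refl ℝ).prodCongr
      (MeasurableEquiv.piFinSuccAbove (fun _ : Fin (m + 2) => ℝ) 0).symm)).trans
    ((MeasurableEquiv.piFinSuccAbove (fun _ : Fin (m + 3) => ℝ) 0).symm.trans
      (MeasurableEquiv.toLp 2 (Fin (m + 3) → ℝ)))

theorem mkE_apply (a b : ℝ) (y : EuclideanSpace ℝ (Fin (m + 1))) :
    mkE m (a, b, y) = mkPt a b y := by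
  ext i
  refine Fin.cases ?_ (fun i => Fin.cases ?_ (fun j => ?_) i) i
  · simp [mkE, mkPt, MeasurableEquiv.piFinSuccAbove, Fin.insertNthEquiv, MeasurableEquiv.prodCongr]
  · simp [mkE, mkPt, MeasurableEquiv.piFinSuccAbove, Fin.insertNthEquiv, MeasurableEquiv.prodCongr]
  · simp [mkE, mkPt, MeasurableEquiv.piFinSuccAbove, Fin.insertNthEquiv, MeasurableEquiv.prodCongr]

theorem measurePreserving_mkE : MeasurePreserving (mkE m) volume volume := by
  have h1 : MeasurePreserving ((MeasurableEquiv.refl ℝ).prodCongr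
      ((MeasurableEquiv.refl ℝ).prodCongr (MeasurableEquiv.toLp 2 (Fin (m + 1) → ℝ)).symm))
      (volume : Measure (ℝ × ℝ × EuclideanSpace ℝ (Fin (m + 1)))) volume :=
    (MeasurePreserving.id volume).prod ((MeasurePreserving.id volume).prod
      (PiLp.volume_preserving_ofLp (Fin (m + 1))))
  have h2 : MeasurePreserving ((MeasurableEquiv.refl ℝ).prodCongr
      (MeasurableEquiv.piFinSuccAbove (fun _ : Fin (m + 2) => ℝ) 0).symm)
      (volume : Measure (ℝ × ℝ × (Fin (m + 1) → ℝ))) volume :=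
    (MeasurePreserving.id volume).prod
      (volume_preserving_piFinSuccAbove (fun _ : Fin (m + 2) => ℝ) 0).symm
  have h3 : MeasurePreserving (MeasurableEquiv.piFinSuccAbove (fun _ : Fin (m + 3) => ℝ) 0).symm
      (volume : Measure (ℝ × (Fin (m + 2) → ℝ))) volume :=
    (volume_preserving_piFinSuccAbove (fun _ : Fin (m + 3) => ℝ) 0).symm
  have h4 : MeasurePreserving (MeasurableEquiv.toLp 2 (Fin (m + 3) → ℝ)) volume volume :=
    PiLp.volume_preserving_toLp (Fin (m + 3))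
  exact (h4.comp h3).comp (h2.comp h1)

theorem integral_mkPt (K : EuclideanSpace ℝ (Fin (m + 3)) → ℝ) :
    ∫ x, K x = ∫ t : ℝ × ℝ × EuclideanSpace ℝ (Fin (m + 1)), K (mkPt t.1 t.2.1 t.2.2) := by
  rw [← (measurePreserving_mkE (m := m)).integral_comp (mkE m).measurableEmbedding K]
  refine integral_congr_ae (Filter.Eventually.of_forall fun t => ?_)
  obtain ⟨a, b, y⟩ := t
  dsimp only
  rw [mkE_apply]

theorem zero_of_fibers {α β : Type*} [MeasurableSpace α] [MeasurableSpace β] {μ : Measure α}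
    {ν : Measure β} [SFinite μ] [SFinite ν] {f : α × β → ℝ} (h : ∀ᵐ a ∂μ, ∫ b, f (a, b) ∂ν = 0) :
    ∫ t, f t ∂(μ.prod ν) = 0 := by
  by_cases hf : Integrable f (μ.prod ν)
  · rw [integral_prod f hf]
    exact integral_eq_zero_of_ae h
  · exact integral_undef hf

theorem zero_of_fibers_symm {α β : Type*} [MeasurableSpace α] [MeasurableSpace β] {μ : Measure α}
    {ν : Measure β} [SFinite μ] [SFinite ν] {f : α × β → ℝ} (h : ∀ᵐ b ∂ν, ∫ a, f (a, b) ∂μ = 0) :
    ∫ t, f t ∂(μ.prod ν) = 0 := by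
  by_cases hf : Integrable f (μ.prod ν)
  · rw [integral_prod_symm f hf]
    exact integral_eq_zero_of_ae h
  · exact integral_undef hf


/-- `∫_S g` through the Gaussian integral of the `0`-homogeneous extension -/
theorem sph_eq_zero_of {D : ℕ} [NeZero D] (g : EuclideanSpace ℝ (Fin D) → ℝ)
    (h : ∫ x : EuclideanSpace ℝ (Fin D), g (‖x‖⁻¹ • x) * Real.exp (-(1 / 2) * ‖x‖ ^ 2) = 0) :
    sph g = 0 := by
  have h1 := integral_homog 0 (fun x : EuclideanSpace ℝ (Fin D) => g (‖x‖⁻¹ • x))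
    (fun r x hr => by
      rw [pow_zero, one_mul, norm_smul, Real.norm_eq_abs, abs_of_pos hr, mul_inv, smul_smul]
      congr 2
      field_simp) (fun r => Real.exp (-(1 / 2) * r ^ 2))
  rw [h] at h1
  have h2 : (∫ ω : sphere (0 : EuclideanSpace ℝ (Fin D)) 1,
      g (‖(ω : EuclideanSpace ℝ (Fin D))‖⁻¹ • (ω : EuclideanSpace ℝ (Fin D))) ∂(volume.toSphere))
      = sph g := by
    unfold sph
    refine integral_congr_ae (Filter.Eventually.of_forall fun ω => ?_)
    dsimp only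
    have : ‖(ω : EuclideanSpace ℝ (Fin D))‖ = 1 := by simp
    rw [this, inv_one, one_smul]
  have h3 : ∫ r in Ioi (0 : ℝ), r ^ (D - 1) * (r ^ 0 * Real.exp (-(1 / 2) * r ^ 2))
      = gmom (D - 1) := by
    unfold gmom
    simp
  rw [h2, h3] at h1
  rcases mul_eq_zero.1 h1.symm with h4 | h4
  · exact h4
  · exact absurd h4 (gmom_pos _).ne'

theorem norm_sq_mkPt (a b : ℝ) (y : EuclideanSpace ℝ (Fin (m + 1))) :
    ‖mkPt a b y‖ ^ 2 = a ^ 2 + b ^ 2 + ‖y‖ ^ 2 := by
  rw [EuclideanSpace.real_norm_sq_eq, EuclideanSpace.real_norm_sq_eq, Fin.sum_univ_succ,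
    Fin.sum_univ_succ, Fin.succ_zero_eq_one, mkPt_zero, mkPt_one]
  have : ∀ j : Fin (m + 1), mkPt a b y j.succ.succ = y j := fun j => by simp [mkPt]
  simp only [this]
  ring

theorem smul_mkPt (c a b : ℝ) (y : EuclideanSpace ℝ (Fin (m + 1))) :
    c • mkPt a b y = mkPt (c * a) (c * b) (c • y) := by
  ext i
  refine Fin.cases ?_ (fun i => Fin.cases ?_ (fun j => ?_) i) i <;> simp [mkPt]

theorem norm_mkPt_pos {a b : ℝ} {y : EuclideanSpace ℝ (Fin (m + 1))} (ha : a ≠ 0) :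
    0 < ‖mkPt a b y‖ := by
  have h := norm_sq_mkPt a b y
  have h1 : 0 < ‖mkPt a b y‖ ^ 2 := by rw [h]; positivity
  have h2 := norm_nonneg (mkPt a b y)
  by_contra hcon
  have : ‖mkPt a b y‖ = 0 := le_antisymm (not_lt.1 hcon) h2
  rw [this] at h1
  norm_num at h1

/-- Vanishing of a sphere integral whose slices over the spheres `|y| = const` vanish. -/
theorem sph_zero_of_slices (g : EuclideanSpace ℝ (Fin (m + 3)) → ℝ)
    (h : ∀ a b s : ℝ, a ≠ 0 → 0 < s → a ^ 2 + b ^ 2 + s ^ 2 = 1 →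
      sph (fun ω : EuclideanSpace ℝ (Fin (m + 1)) => g (mkPt a b (s • ω))) = 0) :
    sph g = 0 := by
  apply sph_eq_zero_of
  rw [integral_mkPt]
  refine zero_of_fibers ?_
  have hne : ∀ᵐ a : ℝ, a ≠ 0 := by
    have : (volume : Measure ℝ) {0} = 0 := by simp
    exact compl_mem_ae_iff.2 this
  filter_upwards [hne] with a ha
  refine zero_of_fibers (Filter.Eventually.of_forall fun b => ?_)
  dsimp only
  rw [integral_polar]
  refine zero_of_fibers_symm (Filter.Eventually.of_forall fun r => ?_)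
  have hr : 0 < (r : ℝ) := r.2
  dsimp only
  set R : ℝ := Real.sqrt (a ^ 2 + b ^ 2 + (r : ℝ) ^ 2) with hR
  have hRpos : 0 < R := Real.sqrt_pos.2 (by positivity)
  have hR2 : R ^ 2 = a ^ 2 + b ^ 2 + (r : ℝ) ^ 2 := Real.sq_sqrt (by positivity)
  have hn : ∀ ω : sphere (0 : EuclideanSpace ℝ (Fin (m + 1))) 1,
      ‖mkPt a b ((r : ℝ) • (ω : EuclideanSpace ℝ (Fin (m + 1))))‖ = R := by
    intro ω
    have h1 := norm_sq_mkPt a b ((r : ℝ) • (ω : EuclideanSpace ℝ (Fin (m + 1))))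
    have h2 : ‖(r : ℝ) • (ω : EuclideanSpace ℝ (Fin (m + 1)))‖ = r := by
      rw [norm_smul, Real.norm_eq_abs, abs_of_pos hr]; simp
    rw [h2] at h1
    rw [hR, ← h1, Real.sqrt_sq (norm_nonneg _)]
  have key : ∀ ω : sphere (0 : EuclideanSpace ℝ (Fin (m + 1))) 1,
      g (‖mkPt a b ((r : ℝ) • (ω : EuclideanSpace ℝ (Fin (m + 1))))‖⁻¹ •
        mkPt a b ((r : ℝ) • (ω : EuclideanSpace ℝ (Fin (m + 1)))))
        * Real.exp (-(1 / 2) * ‖mkPt a b ((r : ℝ) • (ω : EuclideanSpace ℝ (Fin (m + 1))))‖ ^ 2)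
      = Real.exp (-(1 / 2) * R ^ 2) * g (mkPt (a / R) (b / R)
        (((r : ℝ) / R) • (ω : EuclideanSpace ℝ (Fin (m + 1))))) := by
    intro ω
    rw [hn ω, smul_mkPt, smul_smul, inv_mul_eq_div, inv_mul_eq_div, inv_mul_eq_div]
    ring
  simp only [key]
  rw [integral_const_mul]
  have h5 := h (a / R) (b / R) ((r : ℝ) / R) (div_ne_zero ha hRpos.ne') (by positivity) (by
    rw [div_pow, div_pow, div_pow, ← add_div, ← add_div, ← hR2]
    exact div_self (by positivity))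
  unfold sph at h5
  rw [h5, mul_zero]

/-- Vanishing of a sphere integral by the reflection `x1 ↦ -x1`. -/
theorem sph_zero_of_odd (g : EuclideanSpace ℝ (Fin (m + 3)) → ℝ)
    (h : ∀ (a b : ℝ) (y : EuclideanSpace ℝ (Fin (m + 1))), a ≠ 0 → y ≠ 0 →
      a ^ 2 + b ^ 2 + ‖y‖ ^ 2 = 1 → g (mkPt a (-b) y) = - g (mkPt a b y)) :
    sph g = 0 := by
  apply sph_eq_zero_of
  rw [integral_mkPt]
  refine zero_of_fibers ?_
  have hne : ∀ᵐ a : ℝ, a ≠ 0 := by
    have : (volume : Measure ℝ) {0} = 0 := by simp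
    exact compl_mem_ae_iff.2 this
  filter_upwards [hne] with a ha
  set L : ℝ × EuclideanSpace ℝ (Fin (m + 1)) → ℝ := fun t =>
    g (‖mkPt a t.1 t.2‖⁻¹ • mkPt a t.1 t.2) * Real.exp (-(1 / 2) * ‖mkPt a t.1 t.2‖ ^ 2) with hL
  have hmp : MeasurePreserving (fun t : ℝ × EuclideanSpace ℝ (Fin (m + 1)) => (-t.1, t.2))
      (volume.prod volume) (volume.prod volume) :=
    (Measure.measurePreserving_neg (volume : Measure ℝ)).prod (MeasurePreserving.id volume)
  have hemb : MeasurableEmbedding (fun t : ℝ × EuclideanSpace ℝ (Fin (m + 1)) => (-t.1, t.2)) :=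
    ((MeasurableEquiv.neg ℝ).prodCongr
      (MeasurableEquiv.refl (EuclideanSpace ℝ (Fin (m + 1))))).measurableEmbedding
  have h1 := hmp.integral_comp hemb L
  have h2 : ∫ t, L (-t.1, t.2) ∂((volume : Measure ℝ).prod
      (volume : Measure (EuclideanSpace ℝ (Fin (m + 1)))))
      = - ∫ t, L t ∂((volume : Measure ℝ).prod
      (volume : Measure (EuclideanSpace ℝ (Fin (m + 1))))) := by
    rw [← integral_neg]
    have hne2 : ∀ᵐ t ∂((volume : Measure ℝ).prod
        (volume : Measure (EuclideanSpace ℝ (Fin (m + 1))))), t.2 ≠ 0 := by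
      have : (volume : Measure (EuclideanSpace ℝ (Fin (m + 1)))) {0} = 0 := by simp
      have h0 : ∀ᵐ y : EuclideanSpace ℝ (Fin (m + 1)), y ≠ 0 := compl_mem_ae_iff.2 this
      exact Measure.quasiMeasurePreserving_snd.ae h0
    refine integral_congr_ae ?_
    filter_upwards [hne2] with t ht
    have e1 : ‖mkPt a (-t.1) t.2‖ = ‖mkPt a t.1 t.2‖ := by
      have e2 := norm_sq_mkPt a (-t.1) t.2
      have e3 := norm_sq_mkPt a t.1 t.2
      rw [neg_sq] at e2
      have e4 : ‖mkPt a (-t.1) t.2‖ ^ 2 = ‖mkPt a t.1 t.2‖ ^ 2 := by rw [e2, e3]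
      exact (sq_eq_sq₀ (norm_nonneg _) (norm_nonneg _)).1 e4
    have hpos : 0 < ‖mkPt a t.1 t.2‖ := norm_mkPt_pos ha
    simp only [hL, e1, smul_mkPt]
    set R := ‖mkPt a t.1 t.2‖ with hRdef
    rw [show R⁻¹ * -t.1 = -(R⁻¹ * t.1) by ring, h (R⁻¹ * a) (R⁻¹ * t.1) (R⁻¹ • t.2)
      (mul_ne_zero (inv_ne_zero hpos.ne') ha) (smul_ne_zero (inv_ne_zero hpos.ne') ht) ?_]
    · ring
    · have e5 := norm_sq_mkPt (R⁻¹ * a) (R⁻¹ * t.1) (R⁻¹ • t.2)
      rw [← smul_mkPt, norm_smul, norm_inv, norm_norm, ← hRdef, inv_mul_cancel₀ hpos.ne'] at e5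
      rw [← e5, one_pow]
  have h3 : ∫ t, L (-t.1, t.2) ∂((volume : Measure ℝ).prod
      (volume : Measure (EuclideanSpace ℝ (Fin (m + 1)))))
      = ∫ t, L t ∂((volume : Measure ℝ).prod
      (volume : Measure (EuclideanSpace ℝ (Fin (m + 1))))) := h1
  have h4 : ∫ t, L t ∂((volume : Measure ℝ).prod
      (volume : Measure (EuclideanSpace ℝ (Fin (m + 1))))) = 0 := by linarith
  exact h4

end Crest.Agent.R202.Sph
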