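import Mathlib
import Crest.Agent.R202.SecForm
import Crest.Agent.R202.SecMeas

/-! # Row 202, B4a (helper862): sphere level forms `QB`, block diagonality in the sectors -/

set_option autoImplicit false

open MvPolynomial MeasureTheory MeasureTheory.Measure Set Metric
open Crest.Agent.R202.Geo

namespace Crest.Agent.R202.Sph

variable {m n : ℕ}

/-- `L²(S)` product of polynomials -/
noncomputable def ip (p h : MvPolynomial (Fin n) ℝ) : ℝ := sph (ev (p * h))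

/-- density of the form -/
noncomputable def qb (B : EuclideanSpace ℝ (Fin n) → Matrix (Fin n) (Fin n) ℝ)
    (p h : MvPolynomial (Fin n) ℝ) (z : EuclideanSpace ℝ (Fin n)) : ℝ :=
  ∑ i, ∑ j, B z i j * ev (pderiv i p) z * ev (pderiv j h) z

/-- the sphere form `∫_S ⟨B ∇p, ∇h⟩` -/
noncomputable def QB (B : EuclideanSpace ℝ (Fin n) → Matrix (Fin n) (Fin n) ℝ)
    (p h : MvPolynomial (Fin n) ℝ) : ℝ :=
  ∫ z : sphere (0 : EuclideanSpace ℝ (Fin n)) 1, qb B p h z ∂(volume.toSphere)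

theorem QB_eq (B : EuclideanSpace ℝ (Fin n) → Matrix (Fin n) (Fin n) ℝ)
    (p h : MvPolynomial (Fin n) ℝ) : QB B p h = sph (qb B p h) := rfl

/-- The class of tangential forms on `S^{n-1}` (`n = m + 3`) invariant under rotations and
reflections of `y` and under `x1 ↦ -x1`. -/
structure SecForm (B : EuclideanSpace ℝ (Fin (m + 3)) → Matrix (Fin (m + 3)) (Fin (m + 3)) ℝ) :
    Prop where
  cont : ∀ i j, ContinuousOn (fun z => B z i j)
    (sphere (0 : EuclideanSpace ℝ (Fin (m + 3))) 1)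
  symm : ∀ z ∈ sphere (0 : EuclideanSpace ℝ (Fin (m + 3))) 1, ∀ i j, B z i j = B z j i
  tang : ∀ z ∈ sphere (0 : EuclideanSpace ℝ (Fin (m + 3))) 1, ∀ i, ∑ j, B z i j * z j = 0
  repr : ∃ c1 c2 c3 : ℝ → ℝ → ℝ → ℝ, (∀ σ a b, c1 σ a (-b) = c1 σ a b) ∧
    (∀ σ a b, c2 σ a (-b) = c2 σ a b) ∧ (∀ σ a b, c3 σ a (-b) = c3 σ a b) ∧
    ∀ z ∈ sphere (0 : EuclideanSpace ℝ (Fin (m + 3))) 1, z 0 ≠ 0 → sig z ≠ 0 → ∀ i j,
      B z i j = c1 (sig z) (z 0) (z 1) * outer (e1 z) i j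
        + c2 (sig z) (z 0) (z 1) * outer (e2 z) i j + c3 (sig z) (z 0) (z 1) * WW z i j

theorem sum_outer (v : EuclideanSpace ℝ (Fin n)) (A A' : Fin n → ℝ) :
    ∑ i, ∑ j, outer v i j * A i * A' j = (∑ i, v i * A i) * (∑ j, v j * A' j) := by
  rw [Finset.sum_mul]
  refine Finset.sum_congr rfl fun i _ => ?_
  rw [Finset.mul_sum]
  refine Finset.sum_congr rfl fun j _ => ?_
  unfold outer; ring

/-- `α` coefficient -/
noncomputable def alp (c1 c2 c3 : ℝ → ℝ → ℝ → ℝ) (q q' : ℕ) (V V' : MvPolynomial (Fin 3) ℝ)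
    (σ a b : ℝ) : ℝ :=
  c1 σ a b * (E1 q V 1 σ a b * E1 q' V' 1 σ a b) + c2 σ a b * (E2 V σ a b * E2 V' σ a b)
    - c3 σ a b * (q * q' * evV V σ a b * evV V' σ a b / σ ^ 2)

/-- `β` coefficient -/
noncomputable def bet (c3 : ℝ → ℝ → ℝ → ℝ) (V V' : MvPolynomial (Fin 3) ℝ) (σ a b : ℝ) : ℝ :=
  c3 σ a b * (evV V σ a b * evV V' σ a b)

theorem qb_formula {B : EuclideanSpace ℝ (Fin (m + 3)) → Matrix (Fin (m + 3)) (Fin (m + 3)) ℝ}
    {c1 c2 c3 : ℝ → ℝ → ℝ → ℝ}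
    {q q' : ℕ} {Y Y' : MvPolynomial (Fin (m + 1)) ℝ} (hY : Y.IsHomogeneous q)
    (hY' : Y'.IsHomogeneous q') (V V' : MvPolynomial (Fin 3) ℝ)
    {z : EuclideanSpace ℝ (Fin (m + 3))} (hz : ‖z‖ = 1) (hs : sig z ≠ 0)
    (hB : ∀ i j, B z i j = c1 (sig z) (z 0) (z 1) * outer (e1 z) i j
        + c2 (sig z) (z 0) (z 1) * outer (e2 z) i j + c3 (sig z) (z 0) (z 1) * WW z i j) :
    qb B (yI m Y * vI m V) (yI m Y' * vI m V') z
      = ev (Y * Y') (yPart z) * alp c1 c2 c3 q q' V V' (sig z) (z 0) (z 1)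
        + ev (gp Y Y') (yPart z) * bet c3 V V' (sig z) (z 0) (z 1) := by
  set p := yI m Y * vI m V with hp
  set h := yI m Y' * vI m V' with hh
  have e1' : qb B p h z = c1 (sig z) (z 0) (z 1) *
      ∑ i, ∑ j, outer (e1 z) i j * ev (pderiv i p) z * ev (pderiv j h) z
      + c2 (sig z) (z 0) (z 1) *
      ∑ i, ∑ j, outer (e2 z) i j * ev (pderiv i p) z * ev (pderiv j h) z
      + c3 (sig z) (z 0) (z 1) *
      ∑ i, ∑ j, WW z i j * ev (pderiv i p) z * ev (pderiv j h) z := by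
    unfold qb
    simp only [Finset.mul_sum, ← Finset.sum_add_distrib]
    refine Finset.sum_congr rfl fun i _ => Finset.sum_congr rfl fun j _ => ?_
    rw [hB]; ring
  rw [e1', sum_outer, sum_outer, hp, hh, e1_grad V z hY, e1_grad V' z hY', e2_grad, e2_grad,
    WW_grad hY hY' V V' z hs, hz, ev_mul]
  unfold alp bet
  ring

/-! ### orthogonality -/

theorem sph_congr {D : ℕ} {f g : EuclideanSpace ℝ (Fin D) → ℝ}
    (h : ∀ ω : EuclideanSpace ℝ (Fin D), ‖ω‖ = 1 → f ω = g ω) : sph f = sph g := by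
  unfold sph
  refine integral_congr_ae (Filter.Eventually.of_forall fun ω => ?_)
  exact h ω (by simp)

theorem sph_const_mul {D : ℕ} (c : ℝ) (f : EuclideanSpace ℝ (Fin D) → ℝ) :
    sph (fun ω => c * f ω) = c * sph f := by
  unfold sph
  rw [integral_const_mul]

/-- combination of two homogeneous polynomials with vanishing sphere integrals -/
theorem sph_comb_zero {D k1 k2 : ℕ} {P1 P2 : MvPolynomial (Fin D) ℝ} (h1 : P1.IsHomogeneous k1)
    (h2 : P2.IsHomogeneous k2) (z1 : sph (ev P1) = 0) (z2 : sph (ev P2) = 0) (s α β : ℝ) :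
    sph (fun ω : EuclideanSpace ℝ (Fin D) => ev P1 (s • ω) * α + ev P2 (s • ω) * β) = 0 := by
  have e : (fun ω : EuclideanSpace ℝ (Fin D) => ev P1 (s • ω) * α + ev P2 (s • ω) * β)
      = ev ((s ^ k1 * α) • P1 + (s ^ k2 * β) • P2) := by
    funext ω
    rw [ev_add, ev_smul, ev_smul, ev_smul_arg h1, ev_smul_arg h2]
    ring
  rw [e, sph_add, sph_smul, sph_smul, z1, z2]
  ring

theorem gp_homog' {q q' : ℕ} {Y Y' : MvPolynomial (Fin n) ℝ}
    (hY : Y.IsHomogeneous q) (hY' : Y'.IsHomogeneous q') :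
    ∃ k, (gp Y Y').IsHomogeneous k :=
  ⟨(q - 1) + (q' - 1), IsHomogeneous.sum _ _ _ fun _ _ => hY.pderiv.mul hY'.pderiv⟩

theorem sig_mkPt (a b : ℝ) (y : EuclideanSpace ℝ (Fin (m + 1))) : sig (mkPt a b y) = ‖y‖ := by
  rw [sig_eq, yPart_mkPt]

theorem QB_zero_of_orth {B : EuclideanSpace ℝ (Fin (m + 3)) → Matrix (Fin (m + 3)) (Fin (m + 3)) ℝ}
    (hB : SecForm B) {q q' : ℕ} {Y Y' : MvPolynomial (Fin (m + 1)) ℝ} (hY : Y ∈ harm (m + 1) q)
    (hY' : Y' ∈ harm (m + 1) q') (h0 : sph (ev (Y * Y')) = 0) (V V' : MvPolynomial (Fin 3) ℝ) :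
    QB B (yI m Y * vI m V) (yI m Y' * vI m V') = 0 := by
  obtain ⟨c1, c2, c3, -, -, -, hrep⟩ := hB.repr
  rw [QB_eq]
  refine sph_zero_of_slices _ fun a b s ha hs hsum => ?_
  obtain ⟨k, hk⟩ := gp_homog' (mem_harm.1 hY).1 (mem_harm.1 hY').1
  rw [← sph_comb_zero ((mem_harm.1 hY).1.mul (mem_harm.1 hY').1) hk h0 (sph_gp_zero hY hY' h0) s
    (alp c1 c2 c3 q q' V V' s a b) (bet c3 V V' s a b)]
  refine sph_congr fun ω hω => ?_
  have hn : ‖s • ω‖ = s := by rw [norm_smul, Real.norm_eq_abs, abs_of_pos hs, hω, mul_one]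
  have hsig : sig (mkPt a b (s • ω)) = s := by rw [sig_mkPt, hn]
  have hz : ‖mkPt a b (s • ω)‖ = 1 := by
    have h1 := norm_sq_mkPt a b (s • ω)
    rw [hn, hsum] at h1
    have h2 := norm_nonneg (mkPt a b (s • ω))
    nlinarith
  have hzs : mkPt a b (s • ω) ∈ sphere (0 : EuclideanSpace ℝ (Fin (m + 3))) 1 := by
    rw [mem_sphere_zero_iff_norm]; exact hz
  have hsne : sig (mkPt a b (s • ω)) ≠ 0 := by rw [hsig]; exact hs.ne'
  rw [qb_formula (mem_harm.1 hY).1 (mem_harm.1 hY').1 V V' hz hsne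
    (hrep _ hzs (by rw [mkPt_zero]; exact ha) hsne), hsig, yPart_mkPt, mkPt_zero, mkPt_one]

theorem ip_zero_of_orth {q q' : ℕ} {Y Y' : MvPolynomial (Fin (m + 1)) ℝ}
    (hY : Y ∈ harm (m + 1) q) (hY' : Y' ∈ harm (m + 1) q') (h0 : sph (ev (Y * Y')) = 0)
    (V V' : MvPolynomial (Fin 3) ℝ) :
    ip (yI m Y * vI m V) (yI m Y' * vI m V') = 0 := by
  unfold ip
  refine sph_zero_of_slices _ fun a b s ha hs hsum => ?_
  have e : ∀ ω : EuclideanSpace ℝ (Fin (m + 1)), ‖ω‖ = 1 →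
      ev (yI m Y * vI m V * (yI m Y' * vI m V')) (mkPt a b (s • ω))
      = (s ^ (q + q') * (evV V s a b * evV V' s a b)) * ev (Y * Y') ω := by
    intro ω hω
    have hn : ‖s • ω‖ = s := by rw [norm_smul, Real.norm_eq_abs, abs_of_pos hs, hω, mul_one]
    rw [ev_mul, ev_mul, ev_mul, ev_yI, ev_yI, ev_vI', ev_vI', sig_mkPt, hn, yPart_mkPt, mkPt_zero,
      mkPt_one, ev_smul_arg (mem_harm.1 hY).1, ev_smul_arg (mem_harm.1 hY').1, ev_mul, pow_add]
    ring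
  rw [sph_congr e, sph_const_mul, h0, mul_zero]

/-! ### parity -/

theorem evV_refl (V : MvPolynomial (Fin 3) ℝ) (σ a b : ℝ) :
    evV (refl3 V) σ a b = evV V σ a (-b) := by
  unfold evV
  induction V using MvPolynomial.induction_on with
  | C c => rw [refl3_C]; simp
  | add p q hp hq => rw [map_add, map_add, hp, hq, map_add]
  | mul_X p i hp =>
    rw [map_mul, map_mul, hp, map_mul]
    congr 1
    fin_cases i
    · show eval _ (refl3 (X 0)) = eval _ (X 0)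
      rw [refl3_X0]; simp
    · show eval _ (refl3 (X 1)) = eval _ (X 1)
      rw [refl3_X1]; simp
    · show eval _ (refl3 (X 2)) = eval _ (X 2)
      rw [refl3_X2]; simp

theorem evV_par {V : MvPolynomial (Fin 3) ℝ} {ε : ℝ} (hV : refl3 V = C ε * V) (σ a b : ℝ) :
    evV V σ a (-b) = ε * evV V σ a b := by
  rw [← evV_refl, hV]; simp [evV]

theorem evV_par0 {V : MvPolynomial (Fin 3) ℝ} {ε : ℝ} (hV : refl3 V = C ε * V) (σ a b : ℝ) :
    evV (pderiv 0 V) σ a (-b) = ε * evV (pderiv 0 V) σ a b := by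
  refine evV_par ?_ σ a b
  rw [refl3_pderiv_zero, hV, pderiv_C_mul]

theorem evV_par1 {V : MvPolynomial (Fin 3) ℝ} {ε : ℝ} (hV : refl3 V = C ε * V) (σ a b : ℝ) :
    evV (pderiv 1 V) σ a (-b) = ε * evV (pderiv 1 V) σ a b := by
  refine evV_par ?_ σ a b
  rw [refl3_pderiv_one, hV, pderiv_C_mul]

theorem evV_par2 {V : MvPolynomial (Fin 3) ℝ} {ε : ℝ} (hV : refl3 V = C ε * V) (σ a b : ℝ) :
    evV (pderiv 2 V) σ a (-b) = - ε * evV (pderiv 2 V) σ a b := by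
  refine evV_par ?_ σ a b
  rw [refl3_pderiv_two, hV, pderiv_C_mul, C_neg]; ring

theorem E1_par {V : MvPolynomial (Fin 3) ℝ} {ε : ℝ} (hV : refl3 V = C ε * V) (q : ℕ)
    (r σ a b : ℝ) : E1 q V r σ a (-b) = ε * E1 q V r σ a b := by
  unfold E1
  rw [evV_par hV, evV_par0 hV, evV_par1 hV, evV_par2 hV, neg_sq]
  ring

theorem E2_par {V : MvPolynomial (Fin 3) ℝ} {ε : ℝ} (hV : refl3 V = C ε * V)
    (σ a b : ℝ) : E2 V σ a (-b) = - ε * E2 V σ a b := by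
  unfold E2
  rw [evV_par1 hV, evV_par2 hV, neg_sq]
  ring

theorem QB_zero_of_parity
    {B : EuclideanSpace ℝ (Fin (m + 3)) → Matrix (Fin (m + 3)) (Fin (m + 3)) ℝ}
    (hB : SecForm B) {q q' : ℕ} {Y Y' : MvPolynomial (Fin (m + 1)) ℝ} (hY : Y ∈ harm (m + 1) q)
    (hY' : Y' ∈ harm (m + 1) q') {V V' : MvPolynomial (Fin 3) ℝ} {ε ε' : ℝ} (hεε : ε * ε' = -1)
    (hV : refl3 V = C ε * V) (hV' : refl3 V' = C ε' * V') :
    QB B (yI m Y * vI m V) (yI m Y' * vI m V') = 0 := by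
  obtain ⟨c1, c2, c3, h1, h2, h3, hrep⟩ := hB.repr
  rw [QB_eq]
  refine sph_zero_of_odd _ fun a b y ha hy hsum => ?_
  have hn : ∀ b, a ^ 2 + b ^ 2 + ‖y‖ ^ 2 = 1 → ‖mkPt a b y‖ = 1 := by
    intro b hb
    have h1 := norm_sq_mkPt a b y
    rw [hb] at h1
    have h2 := norm_nonneg (mkPt a b y)
    nlinarith
  have hs : ‖y‖ ≠ 0 := norm_ne_zero_iff.2 hy
  have hz1 := hn b hsum
  have hz2 := hn (-b) (by rw [neg_sq]; exact hsum)
  have f1 := qb_formula (B := B) (c1 := c1) (c2 := c2) (c3 := c3)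
    (mem_harm.1 hY).1 (mem_harm.1 hY').1 V V' hz1 (by rw [sig_mkPt]; exact hs)
    (hrep _ (by rw [mem_sphere_zero_iff_norm]; exact hz1) (by rw [mkPt_zero]; exact ha)
      (by rw [sig_mkPt]; exact hs))
  have f2 := qb_formula (B := B) (c1 := c1) (c2 := c2) (c3 := c3)
    (mem_harm.1 hY).1 (mem_harm.1 hY').1 V V' hz2 (by rw [sig_mkPt]; exact hs)
    (hrep _ (by rw [mem_sphere_zero_iff_norm]; exact hz2) (by rw [mkPt_zero]; exact ha)
      (by rw [sig_mkPt]; exact hs))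
  rw [f1, f2, sig_mkPt, sig_mkPt, yPart_mkPt, yPart_mkPt, mkPt_zero, mkPt_zero, mkPt_one,
    mkPt_one]
  unfold alp bet
  rw [h1, h2, h3, E1_par hV, E1_par hV', E2_par hV, E2_par hV', evV_par hV, evV_par hV']
  linear_combination (ev (Y * Y') y * (c1 ‖y‖ a b * (E1 q V 1 ‖y‖ a b * E1 q' V' 1 ‖y‖ a b)
    + c2 ‖y‖ a b * (E2 V ‖y‖ a b * E2 V' ‖y‖ a b)
    - c3 ‖y‖ a b * (q * q' * evV V ‖y‖ a b * evV V' ‖y‖ a b / ‖y‖ ^ 2))
    + ev (gp Y Y') y * (c3 ‖y‖ a b * (evV V ‖y‖ a b * evV V' ‖y‖ a b))) * hεε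

theorem ip_zero_of_parity {Y Y' : MvPolynomial (Fin (m + 1)) ℝ}
    {V V' : MvPolynomial (Fin 3) ℝ} {ε ε' : ℝ} (hεε : ε * ε' = -1)
    (hV : refl3 V = C ε * V) (hV' : refl3 V' = C ε' * V') :
    ip (yI m Y * vI m V) (yI m Y' * vI m V') = 0 := by
  unfold ip
  refine sph_zero_of_odd _ fun a b y ha hy hsum => ?_
  rw [ev_mul, ev_mul, ev_mul, ev_mul, ev_mul, ev_mul, ev_yI, ev_yI, ev_yI, ev_yI, ev_vI', ev_vI',
    ev_vI', ev_vI', sig_mkPt, sig_mkPt, yPart_mkPt, yPart_mkPt, mkPt_zero, mkPt_zero, mkPt_one,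
    mkPt_one, evV_par hV, evV_par hV']
  linear_combination (ev Y y * evV V ‖y‖ a b * (ev Y' y * evV V' ‖y‖ a b)) * hεε

end Crest.Agent.R202.Sph
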