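import Mathlib
import Crest.Prelude.Def_CoordMetric

/-!
# Frozen definitions for PART R (elliptic regularity), row 202
-/

set_option autoImplicit false

noncomputable section

open scoped BigOperators ContDiff
open MeasureTheory Crest.GeometryTopology.CoordMetric

namespace Crest.Agent.R202.Ell

variable {n : ℕ}

/-- `div (A ∇φ)` in coordinates. -/
def divA (A : EuclideanSpace ℝ (Fin n) → Matrix (Fin n) (Fin n) ℝ)
    (φ : EuclideanSpace ℝ (Fin n) → ℝ) (x : EuclideanSpace ℝ (Fin n)) : ℝ :=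
  ∑ i, pderiv i (fun y => ∑ j, A y i j * pderiv j φ y) x

/-- Frozen statement of (R1). -/
def EllRegularity (n : ℕ) : Prop :=
  ∀ (U : Set (EuclideanSpace ℝ (Fin n))), IsOpen U →
  ∀ (A : EuclideanSpace ℝ (Fin n) → Matrix (Fin n) (Fin n) ℝ),
    (∀ i j, ContDiffOn ℝ ∞ (fun x => A x i j) U) → (∀ x ∈ U, (A x).PosDef) →
  ∀ f : EuclideanSpace ℝ (Fin n) → ℝ, ContDiffOn ℝ ∞ f U →
  ∀ u : EuclideanSpace ℝ (Fin n) → ℝ, LocallyIntegrableOn u U →
    (∀ φ : EuclideanSpace ℝ (Fin n) → ℝ, ContDiff ℝ ∞ φ → HasCompactSupport φ →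
      tsupport φ ⊆ U → ∫ x, u x * divA A φ x = ∫ x, f x * φ x) →
  ∃ v : EuclideanSpace ℝ (Fin n) → ℝ, ContDiffOn ℝ ∞ v U ∧ (∀ᵐ x, x ∈ U → v x = u x) ∧
    ∀ x ∈ U, divA A v x = f x

end Crest.Agent.R202.Ell
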