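import Mathlib
import Crest.Prelude.Def_CoordMetric
import Crest.Prelude.Def_CoordVolume

/-!
Row 202, part D4: distance, completeness and asymptotic volume ratio of a coordinate metric field
for which the position vector is the radial unit field (`g x *ᵥ x = x`).
-/

set_option autoImplicit false

open scoped ContDiff
open MeasureTheory Set Filter Topology
open Crest.GeometryTopology.CoordMetric

namespace Crest.Agent.R202

variable {n : ℕ}

/-- The hypotheses of part D4: a Riemannian metric on all of `ℝⁿ` whose radial lines are unit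
speed and orthogonal to the spheres. -/
structure RadialMetric (g : MetricField n) : Prop where
  riem : IsRiemannianOn g Set.univ
  radial : ∀ (x : EuclideanSpace ℝ (Fin n)) (i : Fin n), ∑ j, g x i j * x j = x i

namespace RadialMetric

variable {g : MetricField n}

lemma continuous_entry (hg : RadialMetric g) (i j : Fin n) : Continuous fun x => g x i j :=
  continuousOn_univ.1 (hg.riem.contDiffOn i j).continuousOn

lemma symm (hg : RadialMetric g) (x : EuclideanSpace ℝ (Fin n)) (i j : Fin n) :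
    g x i j = g x j i := by
  have h := (hg.riem.posDef x (mem_univ x)).isHermitian
  have := h.apply j i
  simpa using this

lemma continuous_quadForm (hg : RadialMetric g) :
    Continuous fun p : EuclideanSpace ℝ (Fin n) × EuclideanSpace ℝ (Fin n) =>
      quadForm g p.1 p.2 := by
  unfold quadForm
  refine continuous_finsetSum _ fun i _ => continuous_finsetSum _ fun j _ => ?_
  refine (((hg.continuous_entry i j).comp continuous_fst).mul ?_).mul ?_
  · exact (EuclideanSpace.proj (𝕜 := ℝ) i).continuous.comp continuous_snd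
  · exact (EuclideanSpace.proj (𝕜 := ℝ) j).continuous.comp continuous_snd

lemma quadForm_pos (hg : RadialMetric g) (x v : EuclideanSpace ℝ (Fin n)) (hv : v ≠ 0) :
    0 < quadForm g x v := by
  have h := (hg.riem.posDef x (mem_univ x))
  have hv' : (WithLp.ofLp v : Fin n → ℝ) ≠ 0 := by
    intro h0
    apply hv
    ext i
    exact congrFun h0 i
  have h2 := h.dotProduct_mulVec_pos hv'
  have : quadForm g x v = star (WithLp.ofLp v) ⬝ᵥ (g x).mulVec (WithLp.ofLp v) := by
    simp only [quadForm, dotProduct, Matrix.mulVec, Finset.mul_sum, star_trivial]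
    refine Finset.sum_congr rfl fun i _ => Finset.sum_congr rfl fun j _ => by ring
  rw [this]
  exact h2

lemma quadForm_nonneg (hg : RadialMetric g) (x v : EuclideanSpace ℝ (Fin n)) :
    0 ≤ quadForm g x v := by
  by_cases hv : v = 0
  · subst hv; simp [quadForm]
  · exact (hg.quadForm_pos x v hv).le

lemma inner_eq (hg : RadialMetric g) (x v : EuclideanSpace ℝ (Fin n)) :
    ∑ i, ∑ j, g x i j * x i * v j = inner ℝ x v := by
  rw [Finset.sum_comm]
  rw [PiLp.inner_apply]
  refine Finset.sum_congr rfl fun j _ => ?_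
  have : ∑ i, g x i j * x i * v j = (∑ i, g x j i * x i) * v j := by
    rw [Finset.sum_mul]
    refine Finset.sum_congr rfl fun i _ => ?_
    rw [hg.symm x i j]
  rw [this, hg.radial x j]
  simp [mul_comm]

lemma quadForm_sub_smul (hg : RadialMetric g) (x v : EuclideanSpace ℝ (Fin n)) (s : ℝ) :
    quadForm g x (v - s • x) = quadForm g x v - 2 * s * inner ℝ x v + s ^ 2 * ‖x‖ ^ 2 := by
  have h1 := hg.inner_eq x v
  have h1' : ∑ i, ∑ j, g x i j * v i * x j = inner ℝ x v := by
    rw [← h1, Finset.sum_comm]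
    refine Finset.sum_congr rfl fun i _ => Finset.sum_congr rfl fun j _ => ?_
    rw [hg.symm x i j]; ring
  have h2 := hg.inner_eq x x
  rw [real_inner_self_eq_norm_sq] at h2
  rw [← h2]
  have : 2 * s * inner ℝ x v = s * (∑ i, ∑ j, g x i j * x i * v j)
      + s * (∑ i, ∑ j, g x i j * v i * x j) := by rw [h1, h1']; ring
  rw [this]
  simp only [quadForm, Finset.mul_sum]
  rw [← Finset.sum_add_distrib, ← Finset.sum_sub_distrib, ← Finset.sum_add_distrib]
  refine Finset.sum_congr rfl fun i _ => ?_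
  rw [← Finset.sum_add_distrib, ← Finset.sum_sub_distrib, ← Finset.sum_add_distrib]
  refine Finset.sum_congr rfl fun j _ => ?_
  simp only [PiLp.sub_apply, PiLp.smul_apply, smul_eq_mul]
  ring

/-- Cauchy–Schwarz: the radial component of a vector is at most its `g`-length. -/
lemma abs_inner_le (hg : RadialMetric g) (x v : EuclideanSpace ℝ (Fin n)) :
    |inner ℝ x v| ≤ ‖x‖ * Real.sqrt (quadForm g x v) := by
  by_cases hx : x = 0
  · subst hx; simp
  have hx' : 0 < ‖x‖ := norm_pos_iff.2 hx
  have h := hg.quadForm_nonneg x (v - (inner ℝ x v / ‖x‖ ^ 2) • x)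
  rw [hg.quadForm_sub_smul] at h
  have h3 : (inner ℝ x v) ^ 2 ≤ (‖x‖ * Real.sqrt (quadForm g x v)) ^ 2 := by
    rw [mul_pow, Real.sq_sqrt (hg.quadForm_nonneg x v)]
    have h4 : quadForm g x v - 2 * (inner ℝ x v / ‖x‖ ^ 2) * inner ℝ x v
        + (inner ℝ x v / ‖x‖ ^ 2) ^ 2 * ‖x‖ ^ 2
        = quadForm g x v - (inner ℝ x v) ^ 2 / ‖x‖ ^ 2 := by
      field_simp; ring
    rw [h4, sub_nonneg, div_le_iff₀ (by positivity)] at h
    linarith
  exact abs_le_of_sq_le_sq h3 (by positivity)

/-- continuity of the length integrand -/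
lemma continuous_speed (hg : RadialMetric g) {γ : ℝ → EuclideanSpace ℝ (Fin n)}
    (hγ : ContDiff ℝ 1 γ) :
    Continuous fun t => Real.sqrt (quadForm g (γ t) (deriv γ t)) := by
  have h1 : Continuous γ := hγ.continuous
  have h2 : Continuous (deriv γ) := hγ.continuous_deriv le_rfl
  exact Real.continuous_sqrt.comp (hg.continuous_quadForm.comp (h1.prodMk h2))

lemma abs_norm_sub_le (hg : RadialMetric g) {γ : ℝ → EuclideanSpace ℝ (Fin n)}
    (hγ : ContDiff ℝ 1 γ) {a b : ℝ} (hab : a ≤ b) :
    |‖γ b‖ - ‖γ a‖| ≤ ∫ t in a..b, Real.sqrt (quadForm g (γ t) (deriv γ t)) := by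
  set L := ∫ t in a..b, Real.sqrt (quadForm g (γ t) (deriv γ t)) with hL
  have key : ∀ ε : ℝ, 0 < ε →
      |Real.sqrt (‖γ b‖ ^ 2 + ε ^ 2) - Real.sqrt (‖γ a‖ ^ 2 + ε ^ 2)| ≤ L := by
    intro ε hε
    have hpos : ∀ t, 0 < ‖γ t‖ ^ 2 + ε ^ 2 := fun t => by positivity
    have hd : ∀ t, HasDerivAt (fun t => Real.sqrt (‖γ t‖ ^ 2 + ε ^ 2))
        (inner ℝ (γ t) (deriv γ t) / Real.sqrt (‖γ t‖ ^ 2 + ε ^ 2)) t := by
      intro t
      have h1 : HasDerivAt γ (deriv γ t) t :=
        ((hγ.differentiable (by norm_num)) t).hasDerivAt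
      have h2 : HasDerivAt (fun t => ‖γ t‖ ^ 2 + ε ^ 2) (2 * inner ℝ (γ t) (deriv γ t)) t := by
        have := (h1.norm_sq).add_const (ε ^ 2)
        simpa using this
      have h3 := h2.sqrt (hpos t).ne'
      convert h3 using 1
      field_simp
    have hc : Continuous fun t =>
        inner ℝ (γ t) (deriv γ t) / Real.sqrt (‖γ t‖ ^ 2 + ε ^ 2) := by
      have h1 : Continuous γ := hγ.continuous
      have h2 : Continuous (deriv γ) := hγ.continuous_deriv le_rfl
      refine (h1.inner h2).div (Real.continuous_sqrt.comp ((h1.norm.pow 2).add continuous_const)) ?_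
      intro t
      exact (Real.sqrt_pos.2 (hpos t)).ne'
    have hFTC := intervalIntegral.integral_eq_sub_of_hasDerivAt (fun t _ => hd t)
      (hc.intervalIntegrable a b)
    rw [← hFTC]
    have hbound : ∀ t, |inner ℝ (γ t) (deriv γ t) / Real.sqrt (‖γ t‖ ^ 2 + ε ^ 2)|
        ≤ Real.sqrt (quadForm g (γ t) (deriv γ t)) := by
      intro t
      have hs : 0 < Real.sqrt (‖γ t‖ ^ 2 + ε ^ 2) := Real.sqrt_pos.2 (hpos t)
      rw [abs_div, abs_of_pos hs, div_le_iff₀ hs]
      have h5 : ‖γ t‖ ≤ Real.sqrt (‖γ t‖ ^ 2 + ε ^ 2) := by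
        apply Real.le_sqrt_of_sq_le
        nlinarith [sq_nonneg ε]
      calc |inner ℝ (γ t) (deriv γ t)| ≤ ‖γ t‖ * Real.sqrt (quadForm g (γ t) (deriv γ t)) :=
            hg.abs_inner_le _ _
        _ ≤ Real.sqrt (‖γ t‖ ^ 2 + ε ^ 2) * Real.sqrt (quadForm g (γ t) (deriv γ t)) :=
            mul_le_mul_of_nonneg_right h5 (Real.sqrt_nonneg _)
        _ = _ := mul_comm _ _
    calc |∫ t in a..b, inner ℝ (γ t) (deriv γ t) / Real.sqrt (‖γ t‖ ^ 2 + ε ^ 2)|
        ≤ ∫ t in a..b, |inner ℝ (γ t) (deriv γ t) / Real.sqrt (‖γ t‖ ^ 2 + ε ^ 2)| :=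
          intervalIntegral.abs_integral_le_integral_abs hab
      _ ≤ L := by
          apply intervalIntegral.integral_mono_on hab
            (hc.abs.intervalIntegrable a b) ((hg.continuous_speed hγ).intervalIntegrable a b)
          intro t _
          exact hbound t
  -- let ε → 0
  have hlim : Tendsto (fun ε : ℝ =>
      |Real.sqrt (‖γ b‖ ^ 2 + ε ^ 2) - Real.sqrt (‖γ a‖ ^ 2 + ε ^ 2)|) (𝓝[>] 0)
      (𝓝 |‖γ b‖ - ‖γ a‖|) := by
    have hcont : Continuous (fun ε : ℝ =>
      |Real.sqrt (‖γ b‖ ^ 2 + ε ^ 2) - Real.sqrt (‖γ a‖ ^ 2 + ε ^ 2)|) := by fun_prop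
    have h0 := (hcont.tendsto 0).mono_left (nhdsWithin_le_nhds (s := Ioi 0))
    simpa [Real.sqrt_sq (norm_nonneg _)] using h0
  refine le_of_tendsto hlim ?_
  filter_upwards [self_mem_nhdsWithin] with ε hε
  exact key ε hε

lemma curveLength_nonneg (g : MetricField n) (γ : ℝ → EuclideanSpace ℝ (Fin n)) :
    0 ≤ curveLength g γ := by
  unfold curveLength
  exact intervalIntegral.integral_nonneg zero_le_one fun t _ => Real.sqrt_nonneg _

lemma partial_le_curveLength (hg : RadialMetric g) {γ : ℝ → EuclideanSpace ℝ (Fin n)}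
    (hγ : ContDiff ℝ 1 γ) {t : ℝ} (ht : t ∈ Icc (0:ℝ) 1) :
    ∫ s in (0:ℝ)..t, Real.sqrt (quadForm g (γ s) (deriv γ s)) ≤ curveLength g γ := by
  unfold curveLength
  have h1 := (hg.continuous_speed hγ)
  have h2 := intervalIntegral.integral_add_adjacent_intervals
    (h1.intervalIntegrable 0 t) (h1.intervalIntegrable t 1) (μ := volume)
  rw [← h2]
  have := intervalIntegral.integral_nonneg (μ := volume) (f := fun s =>
    Real.sqrt (quadForm g (γ s) (deriv γ s))) ht.2 fun s _ => Real.sqrt_nonneg _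
  linarith

lemma abs_norm_sub_le_curveLength (hg : RadialMetric g) {γ : ℝ → EuclideanSpace ℝ (Fin n)}
    (hγ : ContDiff ℝ 1 γ) {t : ℝ} (ht : t ∈ Icc (0:ℝ) 1) :
    |‖γ t‖ - ‖γ 0‖| ≤ curveLength g γ :=
  (hg.abs_norm_sub_le hγ ht.1).trans (hg.partial_le_curveLength hγ ht)

/-- the straight segment as an admissible path -/
noncomputable def segPath (x y : EuclideanSpace ℝ (Fin n)) :
    AdmissiblePath Set.univ x y :=
  ⟨fun t => x + t • (y - x), by fun_prop, by simp, by simp, fun _ _ => mem_univ _⟩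

instance (x y : EuclideanSpace ℝ (Fin n)) : Nonempty (AdmissiblePath Set.univ x y) :=
  ⟨segPath x y⟩

lemma deriv_seg (x y : EuclideanSpace ℝ (Fin n)) (t : ℝ) :
    deriv (fun t : ℝ => x + t • (y - x)) t = y - x := by
  have h : HasDerivAt (fun t : ℝ => x + t • (y - x)) ((1:ℝ) • (y - x)) t :=
    ((hasDerivAt_id t).smul_const (y - x)).const_add x
  rw [h.deriv, one_smul]

lemma bddBelow_length (g : MetricField n) (x y : EuclideanSpace ℝ (Fin n)) :
    BddBelow (range fun γ : AdmissiblePath Set.univ x y => curveLength g γ.1) :=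
  ⟨0, by rintro _ ⟨γ, rfl⟩; exact curveLength_nonneg g γ.1⟩

lemma riemDist_nonneg (g : MetricField n) (x y : EuclideanSpace ℝ (Fin n)) :
    0 ≤ riemDist g Set.univ x y :=
  le_ciInf fun γ => curveLength_nonneg g γ.1

lemma riemDist_le_seg (g : MetricField n) (x y : EuclideanSpace ℝ (Fin n)) :
    riemDist g Set.univ x y ≤ curveLength g (fun t => x + t • (y - x)) :=
  ciInf_le (bddBelow_length g x y) (segPath x y)

lemma abs_norm_sub_le_riemDist (hg : RadialMetric g) (x y : EuclideanSpace ℝ (Fin n)) :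
    |‖y‖ - ‖x‖| ≤ riemDist g Set.univ x y := by
  refine le_ciInf fun γ => ?_
  have h := hg.abs_norm_sub_le_curveLength γ.2.1 (t := 1) (by simp)
  rw [γ.2.2.1, γ.2.2.2.1] at h
  exact h

lemma quadForm_radial (hg : RadialMetric g) (x : EuclideanSpace ℝ (Fin n)) {t : ℝ} (ht : t ≠ 0) :
    quadForm g (t • x) x = ‖x‖ ^ 2 := by
  have h := hg.inner_eq (t • x) (t • x)
  rw [real_inner_self_eq_norm_sq, norm_smul, mul_pow] at h
  have h2 : ∑ i, ∑ j, g (t • x) i j * (t • x) i * (t • x) j = t ^ 2 * quadForm g (t • x) x := by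
    simp only [quadForm, Finset.mul_sum]
    refine Finset.sum_congr rfl fun i _ => Finset.sum_congr rfl fun j _ => ?_
    simp only [PiLp.smul_apply, smul_eq_mul]
    ring
  rw [h2, Real.norm_eq_abs, sq_abs] at h
  exact mul_left_cancel₀ (pow_ne_zero 2 ht) h

/-- The `g`-distance from the origin is the Euclidean norm. -/
theorem riemDist_zero (hg : RadialMetric g) (x : EuclideanSpace ℝ (Fin n)) :
    riemDist g Set.univ 0 x = ‖x‖ := by
  apply le_antisymm
  · refine (riemDist_le_seg g 0 x).trans ?_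
    unfold curveLength
    have : ∫ t in (0:ℝ)..1, Real.sqrt (quadForm g ((fun t : ℝ => (0 : EuclideanSpace ℝ (Fin n))
        + t • (x - 0)) t) (deriv (fun t : ℝ => (0 : EuclideanSpace ℝ (Fin n)) + t • (x - 0)) t))
        = ∫ t in (0:ℝ)..1, ‖x‖ := by
      apply intervalIntegral.integral_congr_ae
      refine Eventually.of_forall fun t ht => ?_
      rw [uIoc_of_le zero_le_one] at ht
      rw [deriv_seg]
      simp only [sub_zero, zero_add]
      rw [hg.quadForm_radial x ht.1.ne', Real.sqrt_sq (norm_nonneg x)]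
    rw [this]
    simp
  · have := hg.abs_norm_sub_le_riemDist 0 x
    simpa using this

/-- Balls about the origin are Euclidean balls. -/
theorem riemBall_zero (hg : RadialMetric g) (R : ℝ) : riemBall g 0 R = Metric.ball 0 R := by
  ext y
  simp [riemBall, hg.riemDist_zero]

/-- Two-sided comparison with the Euclidean metric on bounded sets. -/
lemma exists_bounds (hg : RadialMetric g) (R : ℝ) :
    ∃ c C : ℝ, 0 < c ∧ 0 < C ∧ ∀ x v : EuclideanSpace ℝ (Fin n), ‖x‖ ≤ R →
      c * ‖v‖ ≤ Real.sqrt (quadForm g x v) ∧ Real.sqrt (quadForm g x v) ≤ C * ‖v‖ := by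
  -- homogeneity
  have hhom : ∀ (x v : EuclideanSpace ℝ (Fin n)) (s : ℝ),
      Real.sqrt (quadForm g x (s • v)) = |s| * Real.sqrt (quadForm g x v) := by
    intro x v s
    have : quadForm g x (s • v) = s ^ 2 * quadForm g x v := by
      simp only [quadForm, Finset.mul_sum]
      refine Finset.sum_congr rfl fun i _ => Finset.sum_congr rfl fun j _ => ?_
      simp only [PiLp.smul_apply, smul_eq_mul]
      ring
    rw [this, Real.sqrt_mul (sq_nonneg s), Real.sqrt_sq_eq_abs]
  let K : Set (EuclideanSpace ℝ (Fin n) × EuclideanSpace ℝ (Fin n)) :=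
    Metric.closedBall 0 R ×ˢ Metric.sphere 0 1
  have hK : IsCompact K := (isCompact_closedBall 0 R).prod (isCompact_sphere 0 1)
  let f : EuclideanSpace ℝ (Fin n) × EuclideanSpace ℝ (Fin n) → ℝ :=
    fun p => Real.sqrt (quadForm g p.1 p.2)
  have hf : Continuous f := Real.continuous_sqrt.comp hg.continuous_quadForm
  by_cases hne : K.Nonempty
  · obtain ⟨p, hpK, hp⟩ := hK.exists_isMinOn hne hf.continuousOn
    obtain ⟨q, hqK, hq⟩ := hK.exists_isMaxOn hne hf.continuousOn
    have hfp : 0 < f p := by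
      apply Real.sqrt_pos.2
      apply hg.quadForm_pos
      have : ‖p.2‖ = 1 := by simpa using hpK.2
      intro h0
      rw [h0, norm_zero] at this
      exact zero_ne_one this
    have hfq : 0 < f q := hfp.trans_le (hp hqK)
    refine ⟨f p, f q, hfp, hfq, fun x v hx => ?_⟩
    by_cases hv : v = 0
    · subst hv
      simp [quadForm]
    · have hv' : 0 < ‖v‖ := norm_pos_iff.2 hv
      have hmem : (x, (‖v‖⁻¹ : ℝ) • v) ∈ K := by
        refine ⟨by simpa using hx, ?_⟩
        simp [norm_smul, hv'.ne']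
      have h1 : f p ≤ f (x, (‖v‖⁻¹ : ℝ) • v) := hp hmem
      have h2 : f (x, (‖v‖⁻¹ : ℝ) • v) ≤ f q := hq hmem
      have h3 : f (x, (‖v‖⁻¹ : ℝ) • v) = ‖v‖⁻¹ * Real.sqrt (quadForm g x v) := by
        simp only [f]
        rw [hhom, abs_of_pos (by positivity)]
      rw [h3] at h1 h2
      constructor
      · have := mul_le_mul_of_nonneg_right h1 hv'.le
        rwa [mul_comm ‖v‖⁻¹, mul_assoc, inv_mul_cancel₀ hv'.ne', mul_one] at this
      · have := mul_le_mul_of_nonneg_right h2 hv'.le
        rwa [mul_comm ‖v‖⁻¹, mul_assoc, inv_mul_cancel₀ hv'.ne', mul_one] at this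
  · refine ⟨1, 1, one_pos, one_pos, fun x v hx => ?_⟩
    by_cases hv : v = 0
    · subst hv; simp [quadForm]
    · exfalso
      apply hne
      have hv' : 0 < ‖v‖ := norm_pos_iff.2 hv
      refine ⟨(x, (‖v‖⁻¹ : ℝ) • v), by simpa using hx, ?_⟩
      simp [norm_smul, hv'.ne']

/-- Upper comparison: for `x, y` in the ball of radius `R`, `d(x,y) ≤ C ‖x - y‖`. -/
lemma exists_riemDist_le (hg : RadialMetric g) (R : ℝ) :
    ∃ C : ℝ, 0 < C ∧ ∀ x y : EuclideanSpace ℝ (Fin n), ‖x‖ ≤ R → ‖y‖ ≤ R →
      riemDist g Set.univ x y ≤ C * ‖x - y‖ := by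
  obtain ⟨c, C, hc, hC, h⟩ := hg.exists_bounds R
  refine ⟨C, hC, fun x y hx hy => (riemDist_le_seg g x y).trans ?_⟩
  unfold curveLength
  have hle : ∫ t in (0:ℝ)..1, Real.sqrt (quadForm g ((fun t : ℝ => x + t • (y - x)) t)
      (deriv (fun t : ℝ => x + t • (y - x)) t)) ≤ ∫ t in (0:ℝ)..1, C * ‖x - y‖ := by
    apply intervalIntegral.integral_mono_on zero_le_one
    · exact (hg.continuous_speed (segPath x y).2.1).intervalIntegrable 0 1
    · exact continuous_const.intervalIntegrable 0 1
    · intro t ht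
      rw [deriv_seg]
      have hin : ‖x + t • (y - x)‖ ≤ R := by
        have : x + t • (y - x) = (1 - t) • x + t • y := by
          rw [smul_sub, sub_smul, one_smul]; abel
        rw [this]
        calc ‖(1 - t) • x + t • y‖ ≤ ‖(1 - t) • x‖ + ‖t • y‖ := norm_add_le _ _
          _ = (1 - t) * ‖x‖ + t * ‖y‖ := by
              rw [norm_smul, norm_smul, Real.norm_of_nonneg ht.1,
                Real.norm_of_nonneg (by linarith [ht.2] : (0:ℝ) ≤ 1 - t)]
          _ ≤ (1 - t) * R + t * R := by
              gcongr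
              linarith [ht.2]
              exact ht.1
          _ = R := by ring
      rw [norm_sub_rev x y]
      exact (h _ _ hin).2
  refine hle.trans ?_
  simp

/-- Lower comparison: for `x, y` in the ball of radius `R`, `d(x,y) ≥ min (c ‖x - y‖) 1`. -/
lemma exists_le_riemDist (hg : RadialMetric g) (R : ℝ) :
    ∃ c : ℝ, 0 < c ∧ ∀ x y : EuclideanSpace ℝ (Fin n), ‖x‖ ≤ R → ‖y‖ ≤ R →
      min (c * ‖x - y‖) 1 ≤ riemDist g Set.univ x y := by
  obtain ⟨c, C, hc, hC, h⟩ := hg.exists_bounds (R + 1)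
  refine ⟨c, hc, fun x y hx hy => le_ciInf fun γ => ?_⟩
  by_cases hin : ∀ t ∈ Icc (0:ℝ) 1, ‖γ.1 t‖ ≤ R + 1
  · refine (min_le_left _ _).trans ?_
    have hγ := γ.2.1
    have hd : ∀ t, HasDerivAt γ.1 (deriv γ.1 t) t := fun t =>
      ((hγ.differentiable (by norm_num)) t).hasDerivAt
    have hcd : Continuous (deriv γ.1) := hγ.continuous_deriv le_rfl
    have hFTC := intervalIntegral.integral_eq_sub_of_hasDerivAt (fun t _ => hd t)
      (hcd.intervalIntegrable 0 1)
    rw [γ.2.2.1, γ.2.2.2.1] at hFTC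
    rw [norm_sub_rev, ← hFTC]
    calc c * ‖∫ t in (0:ℝ)..1, deriv γ.1 t‖ ≤ c * ∫ t in (0:ℝ)..1, ‖deriv γ.1 t‖ := by
          gcongr
          exact intervalIntegral.norm_integral_le_integral_norm zero_le_one
      _ = ∫ t in (0:ℝ)..1, c * ‖deriv γ.1 t‖ := by
          rw [intervalIntegral.integral_const_mul]
      _ ≤ curveLength g γ.1 := by
          unfold curveLength
          apply intervalIntegral.integral_mono_on zero_le_one
          · exact (continuous_const.mul hcd.norm).intervalIntegrable 0 1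
          · exact (hg.continuous_speed hγ).intervalIntegrable 0 1
          · intro t ht
            exact (h _ _ (hin t ht)).1
  · push Not at hin
    obtain ⟨t, ht, htR⟩ := hin
    refine (min_le_right _ _).trans ?_
    have := hg.abs_norm_sub_le_curveLength γ.2.1 ht
    rw [γ.2.2.1] at this
    have h2 : ‖γ.1 t‖ - ‖x‖ ≤ |‖γ.1 t‖ - ‖x‖| := le_abs_self _
    linarith

/-- Completeness. -/
theorem complete (hg : RadialMetric g) : IsCompleteOn g Set.univ := by
  intro x _ hC
  obtain ⟨N, hN⟩ := hC 1 one_pos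
  set R : ℝ := ‖x N‖ + 1 with hR
  have hb : ∀ k ≥ N, ‖x k‖ ≤ R := by
    intro k hk
    have h1 := hN N le_rfl k hk
    have h2 := hg.abs_norm_sub_le_riemDist (x N) (x k)
    have h3 : ‖x k‖ - ‖x N‖ ≤ |‖x k‖ - ‖x N‖| := le_abs_self _
    linarith
  obtain ⟨c, hc, hlow⟩ := hg.exists_le_riemDist R
  obtain ⟨C, hC0, hup⟩ := hg.exists_riemDist_le R
  have hcs : CauchySeq x := by
    rw [Metric.cauchySeq_iff]
    intro ε hε
    obtain ⟨M, hM⟩ := hC (min (c * ε) 1) (lt_min (by positivity) one_pos)
    refine ⟨max M N, fun k hk l hl => ?_⟩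
    have h1 := hM k (le_trans (le_max_left _ _) hk) l (le_trans (le_max_left _ _) hl)
    have h2 := hlow (x k) (x l) (hb k (le_trans (le_max_right _ _) hk))
      (hb l (le_trans (le_max_right _ _) hl))
    have h3 := h2.trans_lt h1
    rw [dist_eq_norm]
    by_contra hcon
    push Not at hcon
    have h4 : min (c * ε) 1 ≤ min (c * ‖x k - x l‖) 1 :=
      min_le_min (by gcongr) le_rfl
    exact absurd h3 (not_lt.2 h4)
  obtain ⟨p, hp⟩ := cauchySeq_tendsto_of_complete hcs
  have hpR : ‖p‖ ≤ R := by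
    refine le_of_tendsto (hp.norm) ?_
    filter_upwards [eventually_ge_atTop N] with k hk using hb k hk
  refine ⟨p, mem_univ p, ?_⟩
  have h0 : Tendsto (fun k => C * ‖x k - p‖) atTop (𝓝 0) := by
    have := (tendsto_iff_norm_sub_tendsto_zero.1 hp).const_mul C
    simpa using this
  refine tendsto_of_tendsto_of_tendsto_of_le_of_le' tendsto_const_nhds h0
    (Eventually.of_forall fun k => riemDist_nonneg g _ _) ?_
  filter_upwards [eventually_ge_atTop N] with k hk using hup _ _ (hb k hk) hpR

lemma continuous_sqrt_det (hg : RadialMetric g) :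
    Continuous fun x => Real.sqrt (g x).det := by
  refine Real.continuous_sqrt.comp (Continuous.matrix_det ?_)
  exact continuous_matrix fun i j => hg.continuous_entry i j

/-- Asymptotic volume ratio from the limit of the volume density. -/
theorem volRatio (hg : RadialMetric g) (hn : 0 < n) {v : ℝ}
    (hdet : Tendsto (fun x : EuclideanSpace ℝ (Fin n) => Real.sqrt (g x).det)
      (Bornology.cobounded _) (𝓝 v)) : HasAsymptoticVolumeRatio g v := by
  set f : EuclideanSpace ℝ (Fin n) → ℝ := fun x => Real.sqrt (g x).det with hf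
  have hfc : Continuous f := hg.continuous_sqrt_det
  set w1 : ℝ := (volume (Metric.ball (0 : EuclideanSpace ℝ (Fin n)) 1)).toReal with hw1
  haveI : Nonempty (Fin n) := ⟨⟨0, hn⟩⟩
  haveI : Nontrivial (EuclideanSpace ℝ (Fin n)) := by
    refine ⟨EuclideanSpace.single ⟨0, hn⟩ 1, 0, fun h => ?_⟩
    have := congrArg (fun v : EuclideanSpace ℝ (Fin n) => v ⟨0, hn⟩) h
    simp at this
  have hw1pos : 0 < w1 := by
    rw [hw1]
    refine ENNReal.toReal_pos ?_ ?_
    · exact (Metric.measure_ball_pos volume 0 one_pos).ne'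
    · exact measure_ball_lt_top.ne
  have hvol : ∀ R : ℝ, 0 ≤ R →
      volume.real (Metric.ball (0 : EuclideanSpace ℝ (Fin n)) R) = w1 * R ^ n := by
    intro R hR
    rw [Measure.real, Measure.addHaar_ball volume 0 hR, ENNReal.toReal_mul,
      ENNReal.toReal_ofReal (by positivity), finrank_euclideanSpace, Fintype.card_fin, mul_comm]
  have hint : ∀ R : ℝ, IntegrableOn f (Metric.ball 0 R) := fun R =>
    (hfc.continuousOn.integrableOn_compact (isCompact_closedBall 0 R)).mono_set
      Metric.ball_subset_closedBall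
  have hint' : ∀ R : ℝ, IntegrableOn (fun x => |f x - v|) (Metric.ball 0 R) := fun R =>
    ((hfc.sub continuous_const).abs.continuousOn.integrableOn_compact
      (isCompact_closedBall 0 R)).mono_set Metric.ball_subset_closedBall
  have hriem : ∀ R : ℝ, (riemVolume g (riemBall g 0 R)).toReal
      = ∫ x in Metric.ball 0 R, f x := by
    intro R
    rw [hg.riemBall_zero, riemVolume, integral_eq_lintegral_of_nonneg_ae]
    · exact Eventually.of_forall fun x => Real.sqrt_nonneg _
    · exact hfc.aestronglyMeasurable.restrict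
  unfold HasAsymptoticVolumeRatio
  simp only [hriem]
  rw [Metric.tendsto_atTop]
  intro ε hε
  -- outside a ball, `f` is `ε/2`-close to `v`
  have h1 : ∀ᶠ x in Bornology.cobounded (EuclideanSpace ℝ (Fin n)), |f x - v| < ε / 2 := by
    have := hdet (Metric.ball_mem_nhds v (half_pos hε))
    filter_upwards [this] with x hx
    simpa [Real.dist_eq] using hx
  obtain ⟨R0, hR0⟩ : ∃ R0 : ℝ, ∀ x : EuclideanSpace ℝ (Fin n), R0 ≤ ‖x‖ → |f x - v| < ε / 2 := by
    rw [(hasBasis_cobounded_norm (E := EuclideanSpace ℝ (Fin n))).eventually_iff] at h1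
    obtain ⟨R0, -, h⟩ := h1
    exact ⟨R0, fun x hx => h hx⟩
  set M : ℝ := ∫ x in Metric.ball 0 R0, |f x - v| with hM
  have hMnn : 0 ≤ M := setIntegral_nonneg Metric.isOpen_ball.measurableSet fun x _ => abs_nonneg _
  -- main bound
  have hbound : ∀ R : ℝ, 0 ≤ R →
      |(∫ x in Metric.ball 0 R, f x) - v * (w1 * R ^ n)| ≤ M + ε / 2 * (w1 * R ^ n) := by
    intro R hR
    have e1 : v * (w1 * R ^ n) = ∫ x in Metric.ball (0 : EuclideanSpace ℝ (Fin n)) R, v := by
      rw [setIntegral_const, hvol R hR, smul_eq_mul, mul_comm]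
    have hconst : ∀ c : ℝ, IntegrableOn (fun _ : EuclideanSpace ℝ (Fin n) => c)
        (Metric.ball 0 R) := fun c => integrableOn_const (measure_ball_lt_top.ne)
    rw [e1, ← integral_sub (hint R) (hconst v)]
    calc |∫ x in Metric.ball 0 R, (f x - v)| ≤ ∫ x in Metric.ball 0 R, |f x - v| :=
          abs_integral_le_integral_abs
      _ ≤ ∫ x in Metric.ball 0 R, ((Metric.ball 0 R0).indicator (fun x => |f x - v|) x + ε / 2) := by
          refine setIntegral_mono_on (hint' R) ?_ Metric.isOpen_ball.measurableSet ?_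
          · refine Integrable.add ?_ (hconst _)
            exact (hint' R).indicator Metric.isOpen_ball.measurableSet
          · intro x _
            by_cases hx : x ∈ Metric.ball (0 : EuclideanSpace ℝ (Fin n)) R0
            · rw [indicator_of_mem hx]
              linarith
            · rw [indicator_of_notMem hx]
              have : R0 ≤ ‖x‖ := by simpa using hx
              linarith [hR0 x this]
      _ = (∫ x in Metric.ball 0 R, (Metric.ball 0 R0).indicator (fun x => |f x - v|) x)
            + ∫ x in Metric.ball (0 : EuclideanSpace ℝ (Fin n)) R, ε / 2 := by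
          rw [integral_add ((hint' R).indicator Metric.isOpen_ball.measurableSet) (hconst _)]
      _ ≤ M + ε / 2 * (w1 * R ^ n) := by
          gcongr
          · rw [setIntegral_indicator Metric.isOpen_ball.measurableSet]
            exact setIntegral_mono_set (hint' R0)
              (Eventually.of_forall fun x => abs_nonneg _)
              (Eventually.of_forall fun x hx => hx.2)
          · rw [setIntegral_const, hvol R hR, smul_eq_mul, mul_comm]
  -- R^n → ∞
  have htend : Tendsto (fun R : ℝ => w1 * R ^ n) atTop atTop :=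
    (tendsto_pow_atTop hn.ne').const_mul_atTop hw1pos
  obtain ⟨R1, hR1⟩ := eventually_atTop.1 ((htend.eventually_gt_atTop (2 * M / ε)).and
    (eventually_gt_atTop 0))
  refine ⟨R1, fun R hR => ?_⟩
  obtain ⟨hA, hRpos⟩ := hR1 R hR
  have hA0 : 0 < w1 * R ^ n := by positivity
  rw [Real.dist_eq]
  have e2 : (∫ x in Metric.ball 0 R, f x) / (w1 * R ^ n) - v
      = ((∫ x in Metric.ball 0 R, f x) - v * (w1 * R ^ n)) / (w1 * R ^ n) := by
    field_simp
  rw [e2, abs_div, abs_of_pos hA0, div_lt_iff₀ hA0]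
  have h3 := hbound R hRpos.le
  have h4 : 2 * M < ε * (w1 * R ^ n) := by
    rw [div_lt_iff₀ hε] at hA
    linarith
  linarith

end RadialMetric

end Crest.Agent.R202
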