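import Mathlib
import Crest.Prelude.Def_CoordMetric
import Crest.Agent.R202.GeoDefs
import Crest.Agent.R202.GeoDist

/-!
Row 202, part D (GeoDiv, helper523): metrics of the form
`g = ν νᵀ + e^{-2σ} (A - ν νᵀ)`, `ν = x/‖x‖`, `A x = x`, `det A = 1`, on `ℝⁿ`:
positivity, smoothness, determinant, inverse, divergence form of the Laplace-Beltrami operator.
-/

set_option autoImplicit false

open scoped ContDiff Matrix
open Set Filter Topology
open Crest.GeometryTopology.CoordMetric

namespace Crest.Agent.R202.Geo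

variable {n : ℕ}

/-- `ℝⁿ`. -/
abbrev En (n : ℕ) : Type := EuclideanSpace ℝ (Fin n)

/-- The orthogonal projection `ν νᵀ` onto the radial direction (`0` at the origin). -/
noncomputable def radP (x : En n) : Matrix (Fin n) (Fin n) ℝ :=
  Matrix.of fun i j => x i * x j / ‖x‖ ^ 2

/-- The metric field `ν νᵀ + e^{-2σ} (A - ν νᵀ)`. -/
noncomputable def gR (σ : En n → ℝ) (A : MetricField n) : MetricField n := fun x =>
  radP x + Real.exp (-2 * σ x) • (A x - radP x)

/-- The dual field `ν νᵀ + e^{2σ} (A⁻¹ - ν νᵀ)`. -/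
noncomputable def gRInv (σ : En n → ℝ) (A : MetricField n) : MetricField n := fun x =>
  radP x + Real.exp (2 * σ x) • ((A x)⁻¹ - radP x)

/-- The coefficient field `√det g · g⁻¹` of the divergence form. -/
noncomputable def coefR (σ : En n → ℝ) (A : MetricField n) : MetricField n := fun x =>
  Real.exp (-((n : ℝ) - 1) * σ x) • gRInv σ A x

/-- Hypotheses on the data of a radial metric. -/
structure RadData (σ : En n → ℝ) (A : MetricField n) : Prop where
  smooth_sigma : ContDiff ℝ ∞ σ
  smooth_entry : ∀ i j, ContDiff ℝ ∞ fun x => A x i j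
  posDef : ∀ x, (A x).PosDef
  radial : ∀ (x : En n) (i : Fin n), ∑ j, A x i j * x j = x i
  det_one : ∀ x, (A x).det = 1
  near_zero : ∃ r : ℝ, 0 < r ∧ ∀ x : En n, ‖x‖ < r → σ x = 0 ∧ A x = 1

lemma sum_sq_eq (x : En n) : ∑ i, x i * x i = ‖x‖ ^ 2 := by
  rw [EuclideanSpace.norm_sq_eq]
  exact Finset.sum_congr rfl fun i _ => by rw [Real.norm_eq_abs, sq_abs, sq]

lemma radP_apply (x : En n) (i j : Fin n) : radP x i j = x i * x j / ‖x‖ ^ 2 := rfl

lemma radP_zero : radP (0 : En n) = 0 := by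
  ext i j; simp [radP_apply]

lemma radP_symm (x : En n) : (radP x)ᵀ = radP x := by
  ext i j; simp [Matrix.transpose_apply, radP_apply, mul_comm]

lemma radP_eq_vecMulVec (x : En n) :
    radP x = (‖x‖ ^ 2)⁻¹ • Matrix.vecMulVec (WithLp.ofLp x) (WithLp.ofLp x) := by
  ext i j
  simp [radP_apply, Matrix.vecMulVec_apply, Matrix.smul_apply, div_eq_inv_mul]

lemma radP_mul_self {x : En n} (hx : x ≠ 0) : radP x * radP x = radP x := by
  have hx' : ‖x‖ ^ 2 ≠ 0 := by positivity
  ext i j
  rw [Matrix.mul_apply]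
  simp only [radP_apply]
  have : ∑ k, x i * x k / ‖x‖ ^ 2 * (x k * x j / ‖x‖ ^ 2)
      = (∑ k, x k * x k) * (x i * x j / (‖x‖ ^ 2 * ‖x‖ ^ 2)) := by
    rw [Finset.sum_mul]
    refine Finset.sum_congr rfl fun k _ => by field_simp
  rw [this, sum_sq_eq]
  field_simp

section alg

variable {A : Matrix (Fin n) (Fin n) ℝ} {x : En n}

lemma mul_radP (hA : ∀ i, ∑ j, A i j * x j = x i) : A * radP x = radP x := by
  ext i j
  rw [Matrix.mul_apply]
  simp only [radP_apply]
  have : ∑ k, A i k * (x k * x j / ‖x‖ ^ 2) = (∑ k, A i k * x k) * (x j / ‖x‖ ^ 2) := by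
    rw [Finset.sum_mul]
    exact Finset.sum_congr rfl fun k _ => by ring
  rw [this, hA i]; ring

lemma radP_mul (hs : Aᵀ = A) (hA : ∀ i, ∑ j, A i j * x j = x i) : radP x * A = radP x := by
  have h := congrArg Matrix.transpose (mul_radP (A := A) hA)
  rwa [Matrix.transpose_mul, radP_symm, hs] at h

lemma inv_radial (hdet : IsUnit A.det) (hA : ∀ i, ∑ j, A i j * x j = x i) :
    ∀ i, ∑ j, A⁻¹ i j * x j = x i := by
  have h1 : A.mulVec (WithLp.ofLp x) = WithLp.ofLp x := by
    funext i; simpa [Matrix.mulVec, dotProduct] using hA i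
  have h2 : A⁻¹.mulVec (WithLp.ofLp x) = WithLp.ofLp x := by
    conv_lhs => rw [← h1]
    rw [Matrix.mulVec_mulVec, Matrix.nonsing_inv_mul _ hdet, Matrix.one_mulVec]
  intro i
  simpa [Matrix.mulVec, dotProduct] using congrFun h2 i

lemma mul_inv_aux (hx : x ≠ 0) (hs : Aᵀ = A) (hdet : IsUnit A.det)
    (hA : ∀ i, ∑ j, A i j * x j = x i) (a b : ℝ) (hab : a * b = 1) :
    (radP x + a • (A - radP x)) * (radP x + b • (A⁻¹ - radP x)) = 1 := by
  have hA' := inv_radial hdet hA
  have hs' : (A⁻¹)ᵀ = A⁻¹ := by rw [Matrix.transpose_nonsing_inv, hs]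
  have e1 := radP_mul_self hx
  have e2 := mul_radP hA
  have e4 := radP_mul hs' hA'
  have e5 : A * A⁻¹ = 1 := Matrix.mul_nonsing_inv _ hdet
  rw [add_mul, mul_add, mul_add, e1, Matrix.mul_smul, mul_sub, e4, e1, sub_self, smul_zero,
    Matrix.smul_mul, sub_mul, e2, e1, sub_self, smul_zero, Matrix.smul_mul, Matrix.mul_smul,
    smul_smul, hab, one_smul, sub_mul, mul_sub, mul_sub, e5, e2, e4, e1]
  abel

lemma det_aux (hx : x ≠ 0) (hA : ∀ i, ∑ j, A i j * x j = x i) (a : ℝ) (ha : a ≠ 0) :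
    (radP x + a • (A - radP x)).det * a = a ^ n * A.det := by
  have e2 := mul_radP hA
  have key : radP x + a • (A - radP x) = (a • A) * (1 + (a⁻¹ - 1) • radP x) := by
    rw [mul_add, mul_one, Matrix.mul_smul, Matrix.smul_mul, e2, smul_sub, smul_smul]
    have : (a⁻¹ - 1) * a = 1 - a := by field_simp
    rw [this, sub_smul, one_smul]
    abel
  have hdet : (1 + (a⁻¹ - 1) • radP x).det = a⁻¹ := by
    rw [radP_eq_vecMulVec, smul_smul]
    have : (1 : Matrix (Fin n) (Fin n) ℝ) + ((a⁻¹ - 1) * (‖x‖ ^ 2)⁻¹) •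
        Matrix.vecMulVec (WithLp.ofLp x) (WithLp.ofLp x)
        = 1 + Matrix.vecMulVec (((a⁻¹ - 1) * (‖x‖ ^ 2)⁻¹) • (WithLp.ofLp x)) (WithLp.ofLp x) := by
      rw [Matrix.smul_vecMulVec]
    rw [this, Matrix.vecMulVec_eq (Fin 1), Matrix.det_one_add_replicateCol_mul_replicateRow]
    rw [dotProduct_smul]
    have h3 : (WithLp.ofLp x) ⬝ᵥ (WithLp.ofLp x) = ‖x‖ ^ 2 := by
      rw [← sum_sq_eq]; rfl
    rw [h3]
    have hx' : ‖x‖ ^ 2 ≠ 0 := by positivity
    rw [smul_eq_mul, mul_assoc, inv_mul_cancel₀ hx', mul_one]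
    ring
  rw [key, Matrix.det_mul, hdet, Matrix.det_smul, Fintype.card_fin]
  field_simp

end alg

namespace RadData

variable {σ : En n → ℝ} {A : MetricField n}

lemma symmA (h : RadData σ A) (x : En n) : (A x)ᵀ = A x := by
  have := (h.posDef x).isHermitian
  rw [Matrix.IsHermitian, Matrix.conjTranspose_eq_transpose_of_trivial] at this
  exact this

lemma sigma_zero (h : RadData σ A) : σ 0 = 0 := by
  obtain ⟨r, hr, h1⟩ := h.near_zero
  exact (h1 0 (by simpa using hr)).1

lemma A_zero (h : RadData σ A) : A 0 = 1 := by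
  obtain ⟨r, hr, h1⟩ := h.near_zero
  exact (h1 0 (by simpa using hr)).2

lemma isUnit_det (h : RadData σ A) (x : En n) : IsUnit (A x).det := by
  rw [h.det_one x]; exact isUnit_one

lemma gR_zero (h : RadData σ A) : gR σ A 0 = 1 := by
  simp [gR, h.sigma_zero, h.A_zero, radP_zero]

lemma gRInv_zero (h : RadData σ A) : gRInv σ A 0 = 1 := by
  simp [gRInv, h.sigma_zero, h.A_zero, radP_zero]

/-- the metric is Euclidean near the origin -/
lemma gR_near_zero (h : RadData σ A) :
    ∃ r : ℝ, 0 < r ∧ ∀ x : En n, ‖x‖ < r → gR σ A x = 1 := by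
  obtain ⟨r, hr, h1⟩ := h.near_zero
  refine ⟨r, hr, fun x hx => ?_⟩
  obtain ⟨e1, e2⟩ := h1 x hx
  simp [gR, e1, e2]

lemma gRInv_near_zero (h : RadData σ A) :
    ∃ r : ℝ, 0 < r ∧ ∀ x : En n, ‖x‖ < r → gRInv σ A x = 1 := by
  obtain ⟨r, hr, h1⟩ := h.near_zero
  refine ⟨r, hr, fun x hx => ?_⟩
  obtain ⟨e1, e2⟩ := h1 x hx
  simp [gRInv, e1, e2]

lemma gR_mul_inv (h : RadData σ A) (x : En n) : gR σ A x * gRInv σ A x = 1 := by
  by_cases hx : x = 0
  · subst hx; rw [h.gR_zero, h.gRInv_zero, mul_one]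
  · refine mul_inv_aux hx (h.symmA x) (h.isUnit_det x) (h.radial x) _ _ ?_
    rw [← Real.exp_add]; simp

lemma inverseField_eq (h : RadData σ A) (x : En n) :
    inverseField (gR σ A) x = gRInv σ A x :=
  Matrix.inv_eq_right_inv (h.gR_mul_inv x)

lemma det_gR (h : RadData σ A) (x : En n) :
    (gR σ A x).det = Real.exp (-2 * ((n : ℝ) - 1) * σ x) := by
  by_cases hx : x = 0
  · subst hx; rw [h.gR_zero, h.sigma_zero]; simp
  · have h1 := det_aux hx (h.radial x) (Real.exp (-2 * σ x)) (Real.exp_ne_zero _)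
    rw [h.det_one x, mul_one] at h1
    have h2 : (gR σ A x).det * Real.exp (-2 * σ x) = Real.exp (-2 * σ x) ^ n := h1
    rw [← Real.exp_nat_mul] at h2
    have h3 : Real.exp (-2 * ((n : ℝ) - 1) * σ x) * Real.exp (-2 * σ x)
        = Real.exp (↑n * (-2 * σ x)) := by
      rw [← Real.exp_add]; congr 1; ring
    exact mul_right_cancel₀ (Real.exp_ne_zero _) (h2.trans h3.symm)

lemma sqrt_det (h : RadData σ A) (x : En n) :
    Real.sqrt (gR σ A x).det = Real.exp (-((n : ℝ) - 1) * σ x) := by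
  rw [h.det_gR x, Real.sqrt_eq_iff_mul_self_eq (Real.exp_pos _).le (Real.exp_pos _).le,
    ← Real.exp_add]
  congr 1; ring

lemma radial_gR (h : RadData σ A) (x : En n) (i : Fin n) :
    ∑ j, gR σ A x i j * x j = x i := by
  by_cases hx : x = 0
  · subst hx; simp
  · have hx' : ‖x‖ ^ 2 ≠ 0 := by positivity
    have h1 : ∑ j, radP x i j * x j = x i := by
      have : ∑ j, radP x i j * x j = (∑ j, x j * x j) * (x i / ‖x‖ ^ 2) := by
        rw [Finset.sum_mul]
        exact Finset.sum_congr rfl fun k _ => by rw [radP_apply]; ring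
      rw [this, sum_sq_eq]; field_simp
    have h2 := h.radial x i
    have : ∑ j, gR σ A x i j * x j = ∑ j, radP x i j * x j +
        Real.exp (-2 * σ x) * (∑ j, A x i j * x j - ∑ j, radP x i j * x j) := by
      rw [← Finset.sum_sub_distrib, Finset.mul_sum, ← Finset.sum_add_distrib]
      refine Finset.sum_congr rfl fun j _ => ?_
      simp only [gR, Matrix.add_apply, Matrix.smul_apply, Matrix.sub_apply, smul_eq_mul]
      ring
    rw [this, h1, h2]; ring

lemma transpose_gR (h : RadData σ A) (x : En n) : (gR σ A x)ᵀ = gR σ A x := by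
  simp [gR, Matrix.transpose_add, Matrix.transpose_smul, Matrix.transpose_sub, radP_symm,
    h.symmA x]

lemma transpose_gRInv (h : RadData σ A) (x : En n) : (gRInv σ A x)ᵀ = gRInv σ A x := by
  simp [gRInv, Matrix.transpose_add, Matrix.transpose_smul, Matrix.transpose_sub, radP_symm,
    Matrix.transpose_nonsing_inv, h.symmA x]

/-- Cauchy-Schwarz for a positive definite matrix fixing `x`. -/
lemma sq_inner_le (h : RadData σ A) (x v : En n) :
    (∑ i, x i * v i) ^ 2 ≤ ‖x‖ ^ 2 * quadForm A x v := by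
  have hs : ∀ i j, A x i j = A x j i := fun i j => by
    have := congrFun (congrFun (h.symmA x) j) i
    simpa [Matrix.transpose_apply] using this
  -- positivity of the form on `v - s x`
  have hnn : ∀ s : ℝ, 0 ≤ quadForm A x v - 2 * s * (∑ i, x i * v i) + s ^ 2 * ‖x‖ ^ 2 := by
    intro s
    have h1 := (h.posDef x).posSemidef.dotProduct_mulVec_nonneg
      (fun i => v i - s * x i)
    have h2 : star (fun i => v i - s * x i) ⬝ᵥ (A x).mulVec (fun i => v i - s * x i)
        = quadForm A x v - 2 * s * (∑ i, x i * v i) + s ^ 2 * ‖x‖ ^ 2 := by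
      have e1 : ∀ i, (A x).mulVec (fun i => v i - s * x i) i = ∑ j, A x i j * v j - s * x i := by
        intro i
        have : ∑ j, A x i j * (v j - s * x j) = ∑ j, A x i j * v j - s * ∑ j, A x i j * x j := by
          rw [Finset.mul_sum, ← Finset.sum_sub_distrib]
          exact Finset.sum_congr rfl fun j _ => by ring
        simp only [Matrix.mulVec, dotProduct]
        rw [this, h.radial x i]
      have e2 : ∑ i, x i * ∑ j, A x i j * v j = ∑ j, x j * v j := by
        have : ∑ i, x i * ∑ j, A x i j * v j = ∑ j, (∑ i, A x j i * x i) * v j := by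
          simp only [Finset.mul_sum, Finset.sum_mul]
          rw [Finset.sum_comm]
          refine Finset.sum_congr rfl fun j _ => Finset.sum_congr rfl fun i _ => ?_
          rw [hs i j]; ring
        rw [this]
        exact Finset.sum_congr rfl fun j _ => by rw [h.radial x j]
      have e3 : quadForm A x v = ∑ i, v i * ∑ j, A x i j * v j := by
        simp only [quadForm, Finset.mul_sum]
        exact Finset.sum_congr rfl fun i _ => Finset.sum_congr rfl fun j _ => by ring
      simp only [dotProduct, star_trivial]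
      rw [Finset.sum_congr rfl fun i _ => by rw [e1 i]]
      have e4 : ∑ i, (v i - s * x i) * (∑ j, A x i j * v j - s * x i)
          = ∑ i, v i * ∑ j, A x i j * v j - s * ∑ i, x i * v i
            - s * ∑ i, x i * ∑ j, A x i j * v j + s ^ 2 * ∑ i, x i * x i := by
        simp only [Finset.mul_sum (s := Finset.univ) (a := s), Finset.mul_sum (a := s ^ 2),
          ← Finset.sum_sub_distrib, ← Finset.sum_add_distrib]
        exact Finset.sum_congr rfl fun i _ => by ring
      rw [e4, e2, sum_sq_eq, e3]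
      have : ∑ j, x j * v j = ∑ i, x i * v i := rfl
      ring
    rw [h2] at h1
    exact h1
  by_cases hx : x = 0
  · subst hx; simp
  · have hx' : 0 < ‖x‖ ^ 2 := by positivity
    have h1 := hnn ((∑ i, x i * v i) / ‖x‖ ^ 2)
    have h2 : quadForm A x v - 2 * ((∑ i, x i * v i) / ‖x‖ ^ 2) * (∑ i, x i * v i)
        + ((∑ i, x i * v i) / ‖x‖ ^ 2) ^ 2 * ‖x‖ ^ 2
        = quadForm A x v - (∑ i, x i * v i) ^ 2 / ‖x‖ ^ 2 := by
      field_simp; ring
    rw [h2, sub_nonneg, div_le_iff₀ hx'] at h1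
    linarith

lemma quadForm_gR (σ : En n → ℝ) (A : MetricField n) (x v : En n) :
    quadForm (gR σ A) x v = (∑ i, x i * v i) ^ 2 / ‖x‖ ^ 2 +
      Real.exp (-2 * σ x) * (quadForm A x v - (∑ i, x i * v i) ^ 2 / ‖x‖ ^ 2) := by
  have h1 : ∑ i, ∑ j, radP x i j * v i * v j = (∑ i, x i * v i) ^ 2 / ‖x‖ ^ 2 := by
    rw [sq, Finset.sum_mul_sum, Finset.sum_div]
    refine Finset.sum_congr rfl fun i _ => ?_
    rw [Finset.sum_div]
    exact Finset.sum_congr rfl fun j _ => by rw [radP_apply]; ring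
  rw [← h1]
  simp only [quadForm, gR, ← Finset.sum_sub_distrib, Finset.mul_sum, ← Finset.sum_add_distrib,
    Matrix.add_apply, Matrix.smul_apply, Matrix.sub_apply, smul_eq_mul]
  exact Finset.sum_congr rfl fun i _ => Finset.sum_congr rfl fun j _ => by ring

lemma quadForm_eq_dot (g : MetricField n) (x v : En n) :
    quadForm g x v = star (WithLp.ofLp v) ⬝ᵥ (g x).mulVec (WithLp.ofLp v) := by
  simp only [quadForm, dotProduct, Matrix.mulVec, Finset.mul_sum, star_trivial]
  exact Finset.sum_congr rfl fun i _ => Finset.sum_congr rfl fun j _ => by ring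

lemma quadForm_A_pos (h : RadData σ A) (x v : En n) (hv : v ≠ 0) : 0 < quadForm A x v := by
  rw [quadForm_eq_dot]
  refine (h.posDef x).dotProduct_mulVec_pos fun h0 => hv ?_
  ext i
  exact congrFun h0 i

lemma quadForm_gR_pos (h : RadData σ A) (x v : En n) (hv : v ≠ 0) :
    0 < quadForm (gR σ A) x v := by
  rw [quadForm_gR]
  have h1 := h.sq_inner_le x v
  have h2 := h.quadForm_A_pos x v hv
  have he := Real.exp_pos (-2 * σ x)
  by_cases hx : x = 0
  · subst hx
    simp only [PiLp.zero_apply, zero_mul, Finset.sum_const_zero, ne_eq, OfNat.ofNat_ne_zero,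
      not_false_eq_true, zero_pow, zero_div, sub_zero, zero_add]
    positivity
  · have hx' : 0 < ‖x‖ ^ 2 := by positivity
    have h3 : (∑ i, x i * v i) ^ 2 / ‖x‖ ^ 2 ≤ quadForm A x v := by
      rw [div_le_iff₀ hx']; linarith
    have h4 : 0 ≤ (∑ i, x i * v i) ^ 2 / ‖x‖ ^ 2 := by positivity
    rcases h4.lt_or_eq with h5 | h5
    · have : 0 ≤ Real.exp (-2 * σ x) * (quadForm A x v - (∑ i, x i * v i) ^ 2 / ‖x‖ ^ 2) :=
        mul_nonneg he.le (sub_nonneg.2 h3)
      linarith
    · rw [← h5, zero_add, sub_zero]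
      positivity

theorem posDef_gR (h : RadData σ A) (x : En n) : (gR σ A x).PosDef := by
  refine Matrix.PosDef.of_dotProduct_mulVec_pos ?_ fun v hv => ?_
  · rw [Matrix.IsHermitian, Matrix.conjTranspose_eq_transpose_of_trivial]
    exact h.transpose_gR x
  · have := h.quadForm_gR_pos x (WithLp.toLp 2 v) (fun h0 => hv (by
      have := congrArg WithLp.ofLp h0; simpa using this))
    rw [quadForm_eq_dot] at this
    exact this

lemma contDiffOn_radP (i j : Fin n) : ContDiffOn ℝ ∞ (fun x : En n => radP x i j) {0}ᶜ := by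
  simp only [radP_apply]
  intro x hx
  have hx' : ‖x‖ ^ 2 ≠ 0 := by
    have : x ≠ 0 := hx
    positivity
  have hi : ∀ k : Fin n, ContDiff ℝ ∞ (fun x : En n => x k) := fun k =>
    (EuclideanSpace.proj k : EuclideanSpace ℝ (Fin n) →L[ℝ] ℝ).contDiff
  exact ((((hi i).mul (hi j)).contDiffAt).div (contDiff_norm_sq ℝ).contDiffAt hx').contDiffWithinAt

/-- gluing: smooth off the origin and constant near the origin -/
lemma contDiff_of_punctured {f : En n → ℝ} {c r : ℝ} (hr : 0 < r)
    (h0 : ∀ x : En n, ‖x‖ < r → f x = c) (h1 : ContDiffOn ℝ ∞ f {0}ᶜ) : ContDiff ℝ ∞ f := by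
  rw [contDiff_iff_contDiffAt]
  intro x
  by_cases hx : x = 0
  · subst hx
    have : f =ᶠ[𝓝 0] fun _ => c := by
      filter_upwards [Metric.ball_mem_nhds (0 : En n) hr] with y hy
      exact h0 y (by simpa using hy)
    exact contDiffAt_const.congr_of_eventuallyEq this
  · exact (h1 x hx).contDiffAt (isOpen_compl_singleton.mem_nhds hx)

lemma contDiff_gR (h : RadData σ A) (i j : Fin n) : ContDiff ℝ ∞ fun x => gR σ A x i j := by
  obtain ⟨r, hr, h1⟩ := h.gR_near_zero
  refine contDiff_of_punctured hr (c := (1 : Matrix (Fin n) (Fin n) ℝ) i j)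
    (fun x hx => by rw [h1 x hx]) ?_
  simp only [gR, Matrix.add_apply, Matrix.smul_apply, Matrix.sub_apply, smul_eq_mul]
  exact (contDiffOn_radP i j).add (((h.smooth_sigma.const_smul (-2 : ℝ)).exp).contDiffOn.mul
    ((h.smooth_entry i j).contDiffOn.sub (contDiffOn_radP i j)))

theorem isRiemannianOn (h : RadData σ A) : IsRiemannianOn (gR σ A) Set.univ :=
  ⟨isOpen_univ, fun i j => (h.contDiff_gR i j).contDiffOn, fun x _ => h.posDef_gR x⟩

lemma contDiff_det {B : En n → Matrix (Fin n) (Fin n) ℝ}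
    (hB : ∀ i j, ContDiff ℝ ∞ fun x => B x i j) : ContDiff ℝ ∞ fun x => (B x).det := by
  simp only [Matrix.det_apply]
  refine ContDiff.sum fun τ _ => ?_
  exact (contDiff_prod fun i _ => hB (τ i) i).const_smul _

lemma contDiff_adjugate {B : En n → Matrix (Fin n) (Fin n) ℝ}
    (hB : ∀ i j, ContDiff ℝ ∞ fun x => B x i j) (i j : Fin n) :
    ContDiff ℝ ∞ fun x => (B x).adjugate i j := by
  simp only [Matrix.adjugate_apply]
  refine contDiff_det fun k l => ?_
  by_cases hk : k = j
  · subst hk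
    simp only [Matrix.updateRow_self]
    exact contDiff_const
  · simp only [Matrix.updateRow_ne hk]
    exact hB k l

lemma inv_eq_adjugate (h : RadData σ A) (x : En n) : (A x)⁻¹ = (A x).adjugate := by
  rw [Matrix.inv_def, h.det_one x, Ring.inverse_one, one_smul]

lemma contDiff_inv (h : RadData σ A) (i j : Fin n) : ContDiff ℝ ∞ fun x => (A x)⁻¹ i j := by
  simp only [h.inv_eq_adjugate]
  exact contDiff_adjugate h.smooth_entry i j

lemma contDiff_gRInv (h : RadData σ A) (i j : Fin n) :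
    ContDiff ℝ ∞ fun x => gRInv σ A x i j := by
  obtain ⟨r, hr, h1⟩ := h.gRInv_near_zero
  refine contDiff_of_punctured hr (c := (1 : Matrix (Fin n) (Fin n) ℝ) i j)
    (fun x hx => by rw [h1 x hx]) ?_
  simp only [gRInv, Matrix.add_apply, Matrix.smul_apply, Matrix.sub_apply, smul_eq_mul]
  exact (contDiffOn_radP i j).add (((h.smooth_sigma.const_smul (2 : ℝ)).exp).contDiffOn.mul
    ((h.contDiff_inv i j).contDiffOn.sub (contDiffOn_radP i j)))

lemma contDiff_coefR (h : RadData σ A) (i j : Fin n) :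
    ContDiff ℝ ∞ fun x => coefR σ A x i j := by
  simp only [coefR, Matrix.smul_apply, smul_eq_mul]
  exact ((h.smooth_sigma.const_smul (-((n : ℝ) - 1))).exp).mul (h.contDiff_gRInv i j)

lemma coefR_symm (h : RadData σ A) (x : En n) (i j : Fin n) :
    coefR σ A x i j = coefR σ A x j i := by
  have := congrFun (congrFun (h.transpose_gRInv x) i) j
  simp only [Matrix.transpose_apply] at this
  simp [coefR, Matrix.smul_apply, this]

/-- the coefficient field is the identity near the origin -/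
lemma coefR_near_zero (h : RadData σ A) :
    ∃ r : ℝ, 0 < r ∧ ∀ x : En n, ‖x‖ < r → coefR σ A x = 1 := by
  obtain ⟨r, hr, h1⟩ := h.near_zero
  refine ⟨r, hr, fun x hx => ?_⟩
  obtain ⟨e1, e2⟩ := h1 x hx
  simp [coefR, gRInv, e1, e2]

/-- the Laplace-Beltrami operator in divergence form -/
theorem laplaceBeltrami_eq (h : RadData σ A) (u : En n → ℝ) (x : En n) :
    laplaceBeltrami (gR σ A) u x = Real.exp (((n : ℝ) - 1) * σ x) *
      ∑ i, pderiv i (fun y => ∑ j, coefR σ A y i j * pderiv j u y) x := by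
  have e1 : ∀ i : Fin n, (fun y => Real.sqrt (gR σ A y).det *
      ∑ j, inverseField (gR σ A) y i j * pderiv j u y)
      = fun y => ∑ j, coefR σ A y i j * pderiv j u y := by
    intro i
    funext y
    rw [h.sqrt_det y, h.inverseField_eq y, Finset.mul_sum]
    refine Finset.sum_congr rfl fun j _ => ?_
    simp only [coefR, Matrix.smul_apply, smul_eq_mul]; ring
  unfold laplaceBeltrami
  rw [h.sqrt_det x]
  simp only [e1]
  congr 1
  rw [one_div, ← Real.exp_neg]
  congr 1; ring

theorem isHarmonicOn_iff (h : RadData σ A) (u : En n → ℝ) :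
    IsHarmonicOn (gR σ A) Set.univ u ↔ ContDiff ℝ ∞ u ∧
      ∀ x, ∑ i, pderiv i (fun y => ∑ j, coefR σ A y i j * pderiv j u y) x = 0 := by
  unfold IsHarmonicOn
  rw [contDiffOn_univ]
  refine and_congr_right fun _ => ⟨fun H x => ?_, fun H x _ => ?_⟩
  · have := H x (mem_univ x)
    rw [h.laplaceBeltrami_eq] at this
    exact (mul_eq_zero.1 this).resolve_left (Real.exp_ne_zero _)
  · rw [h.laplaceBeltrami_eq, H x, mul_zero]

theorem radialMetric (h : RadData σ A) : RadialMetric (gR σ A) :=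
  ⟨h.isRiemannianOn, h.radial_gR⟩

end RadData

/-! ### The link with `gRad s A` of `GeoDefs` -/

/-- `s (log ‖x‖)`, with value `0` at the origin. -/
noncomputable def sigOf (s : ℝ → ℝ) (x : En n) : ℝ := if x = 0 then 0 else s (Real.log ‖x‖)

/-- `A` with the value at the origin replaced by `1`. -/
noncomputable def fixA (A : MetricField n) : MetricField n := fun x => if x = 0 then 1 else A x

lemma radP_eq_outer (x : En n) : radP x = outer (nu x) := by
  ext i j
  simp only [radP_apply, outer, nu, PiLp.smul_apply, smul_eq_mul]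
  rw [sq]
  by_cases h : ‖x‖ = 0
  · simp [h]
  · field_simp

lemma gRad_eq (s : ℝ → ℝ) (A : MetricField n) : gRad s A = gR (sigOf s) (fixA A) := by
  funext x
  by_cases hx : x = 0
  · subst hx
    simp [gRad, gR, sigOf, fixA, radP_zero]
  · simp [gRad, gR, sigOf, fixA, hx, radP_eq_outer]

lemma contDiff_sigOf {s : ℝ → ℝ} (hs : ContDiff ℝ ∞ s) {t0 : ℝ} (h0 : ∀ t ≤ t0, s t = 0) :
    ContDiff ℝ ∞ (sigOf s : En n → ℝ) := by
  refine RadData.contDiff_of_punctured (r := Real.exp t0) (c := 0) (Real.exp_pos _) ?_ ?_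
  · intro x hx
    by_cases h : x = 0
    · simp [sigOf, h]
    · have hx' : 0 < ‖x‖ := norm_pos_iff.2 h
      simp only [sigOf, h, if_false]
      exact h0 _ ((Real.log_le_iff_le_exp hx').2 hx.le)
  · have h1 : ContDiffOn ℝ ∞ (fun x : En n => s (Real.log ‖x‖)) {0}ᶜ := by
      intro x hx
      have hx0 : x ≠ 0 := hx
      have h2 : ContDiffAt ℝ ∞ (fun x : En n => Real.log ‖x‖) x :=
        (contDiffAt_norm ℝ hx0).log (norm_ne_zero_iff.2 hx0)
      exact (hs.contDiffAt.comp x h2).contDiffWithinAt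
    exact h1.congr fun x hx => by
      have hx0 : x ≠ 0 := hx
      simp [sigOf, hx0]

end Crest.Agent.R202.Geo
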