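import Mathlib
import Crest.Agent.R202.GeoDiv

/-!
Row 202, part D (helper523): matrices `v vᵀ + κ (1 - v vᵀ + (p-1) a aᵀ + (q-1) b bᵀ)` for an
orthonormal triple `v, a, b`.
-/

set_option autoImplicit false

open scoped ContDiff Matrix InnerProductSpace
open Set Filter Topology
open Crest.GeometryTopology.CoordMetric

namespace Crest.Agent.R202.Geo

variable {n : ℕ}

/-- Orthonormal triple, by coordinate sums. -/
structure Tri (v a b : En n) : Prop where
  vv : ∑ i, v i * v i = 1
  aa : ∑ i, a i * a i = 1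
  bb : ∑ i, b i * b i = 1
  va : ∑ i, v i * a i = 0
  vb : ∑ i, v i * b i = 0
  ab : ∑ i, a i * b i = 0

/-- The frame matrix. -/
noncomputable def frameM (κ p q : ℝ) (v a b : En n) : Matrix (Fin n) (Fin n) ℝ :=
  outer v + κ • (1 - outer v + (p - 1) • outer a + (q - 1) • outer b)

lemma outer_mul_outer (v a : En n) : outer v * outer a =
    (∑ k, v k * a k) • Matrix.of fun i j => v i * a j := by
  ext i j
  rw [Matrix.mul_apply, Matrix.smul_apply, Matrix.of_apply, smul_eq_mul, Finset.sum_mul]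
  exact Finset.sum_congr rfl fun k _ => by simp only [outer]; ring

lemma outer_mul_self {v : En n} (hv : ∑ i, v i * v i = 1) : outer v * outer v = outer v := by
  rw [outer_mul_outer, hv, one_smul]; rfl

lemma outer_mul_zero {v a : En n} (h : ∑ i, v i * a i = 0) : outer v * outer a = 0 := by
  rw [outer_mul_outer, h, zero_smul]

lemma sum_comm_zero {v a : En n} (h : ∑ i, v i * a i = 0) : ∑ i, a i * v i = 0 := by
  rw [← h]; exact Finset.sum_congr rfl fun i _ => mul_comm _ _

lemma outer_transpose (v : En n) : (outer v)ᵀ = outer v := by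
  ext i j; simp [outer, Matrix.transpose_apply, mul_comm]

lemma frameM_transpose (κ p q : ℝ) (v a b : En n) :
    (frameM κ p q v a b)ᵀ = frameM κ p q v a b := by
  simp [frameM, Matrix.transpose_add, Matrix.transpose_smul, Matrix.transpose_sub,
    outer_transpose]

/-- product formula -/
lemma frameM_eq_mul {κ p q : ℝ} (hκ : κ ≠ 0) {v a b : En n} (h : Tri v a b) :
    frameM κ p q v a b =
      κ • ((1 + (κ⁻¹ - 1) • outer v) * ((1 + (p - 1) • outer a) * (1 + (q - 1) • outer b))) := by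
  have e1 := outer_mul_zero h.ab
  have e2 := outer_mul_zero h.va
  have e3 := outer_mul_zero h.vb
  have h1 : (1 + (p - 1) • outer a) * (1 + (q - 1) • outer b)
      = 1 + (p - 1) • outer a + (q - 1) • outer b := by
    simp only [add_mul, mul_add, one_mul, mul_one, Matrix.mul_smul, Matrix.smul_mul, e1,
      smul_zero, add_zero]
  have h2 : (1 + (κ⁻¹ - 1) • outer v) * (1 + (p - 1) • outer a + (q - 1) • outer b)
      = 1 + (κ⁻¹ - 1) • outer v + (p - 1) • outer a + (q - 1) • outer b := by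
    rw [add_mul, one_mul, mul_add, mul_add, mul_one, Matrix.mul_smul, Matrix.mul_smul,
      Matrix.smul_mul, Matrix.smul_mul, e2, e3]
    simp only [smul_zero, add_zero]
    abel
  rw [h1, h2, frameM]
  have h3 : κ • (κ⁻¹ - 1) • outer v = (1 - κ) • outer v := by
    rw [smul_smul]; congr 1; field_simp
  simp only [smul_add, smul_sub, h3]
  rw [sub_smul 1 κ, one_smul]
  abel

lemma det_one_add_outer (c : ℝ) {v : En n} (hv : ∑ i, v i * v i = 1) :
    (1 + c • outer v).det = 1 + c := by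
  have : (1 : Matrix (Fin n) (Fin n) ℝ) + c • outer v
      = 1 + Matrix.vecMulVec (c • (WithLp.ofLp v)) (WithLp.ofLp v) := by
    rw [Matrix.smul_vecMulVec]; rfl
  rw [this, Matrix.vecMulVec_eq (Fin 1), Matrix.det_one_add_replicateCol_mul_replicateRow,
    dotProduct_smul]
  have h3 : (WithLp.ofLp v) ⬝ᵥ (WithLp.ofLp v) = 1 := hv
  rw [h3]; simp

lemma det_frameM {κ p q : ℝ} (hκ : κ ≠ 0) {v a b : En n} (h : Tri v a b) :
    (frameM κ p q v a b).det * κ = κ ^ n * (p * q) := by
  rw [frameM_eq_mul hκ h, Matrix.det_smul, Matrix.det_mul, Matrix.det_mul,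
    det_one_add_outer _ h.vv, det_one_add_outer _ h.aa, det_one_add_outer _ h.bb,
    Fintype.card_fin]
  have : 1 + (κ⁻¹ - 1) = κ⁻¹ := by ring
  rw [this]
  field_simp
  ring

lemma frameM_mul_inv {κ p q : ℝ} (hκ : κ ≠ 0) (hp : p ≠ 0) (hq : q ≠ 0) {v a b : En n}
    (h : Tri v a b) : frameM κ p q v a b * frameM κ⁻¹ p⁻¹ q⁻¹ v a b = 1 := by
  have e1 := outer_mul_zero h.ab
  have e1' := outer_mul_zero (sum_comm_zero h.ab)
  have e2 := outer_mul_zero h.va
  have e2' := outer_mul_zero (sum_comm_zero h.va)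
  have e3 := outer_mul_zero h.vb
  have e3' := outer_mul_zero (sum_comm_zero h.vb)
  have f1 := outer_mul_self h.vv
  have f2 := outer_mul_self h.aa
  have f3 := outer_mul_self h.bb
  have key : (1 - outer v + (p - 1) • outer a + (q - 1) • outer b) *
      (1 - outer v + (p⁻¹ - 1) • outer a + (q⁻¹ - 1) • outer b) = 1 - outer v := by
    simp only [add_mul, mul_add, sub_mul, mul_sub, Matrix.mul_smul, Matrix.smul_mul, e1, e1', e2,
      e2', e3, e3', f1, f2, f3, one_mul, mul_one, smul_zero, add_zero, sub_zero,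
      sub_self, smul_smul]
    have g1 : p⁻¹ * p = 1 := inv_mul_cancel₀ hp
    have g2 : q⁻¹ * q = 1 := inv_mul_cancel₀ hq
    rw [g1, g2]
    module
  have k1 : outer v * (1 - outer v + (p⁻¹ - 1) • outer a + (q⁻¹ - 1) • outer b) = 0 := by
    simp only [mul_add, mul_sub, Matrix.mul_smul, e2, e3, f1, mul_one, smul_zero, add_zero,
      sub_self]
  have k2 : (1 - outer v + (p - 1) • outer a + (q - 1) • outer b) * outer v = 0 := by
    simp only [add_mul, sub_mul, Matrix.smul_mul, e2', e3', f1, one_mul, smul_zero, add_zero,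
      sub_self]
  rw [frameM, frameM, add_mul, mul_add, mul_add, Matrix.mul_smul, k1, Matrix.smul_mul, k2,
    Matrix.smul_mul, Matrix.mul_smul, key, f1, smul_smul, mul_inv_cancel₀ hκ]
  simp

lemma frameM_radial {κ p q : ℝ} {v a b : En n} (h : Tri v a b) (i : Fin n) :
    ∑ j, frameM κ p q v a b i j * v j = v i := by
  have e1 : ∑ j, outer v i j * v j = v i := by
    have : ∑ j, outer v i j * v j = v i * ∑ j, v j * v j := by
      rw [Finset.mul_sum]; exact Finset.sum_congr rfl fun j _ => by simp only [outer]; ring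
    rw [this, h.vv, mul_one]
  have e2 : ∑ j, outer a i j * v j = 0 := by
    have : ∑ j, outer a i j * v j = a i * ∑ j, a j * v j := by
      rw [Finset.mul_sum]; exact Finset.sum_congr rfl fun j _ => by simp only [outer]; ring
    rw [this, sum_comm_zero h.va, mul_zero]
  have e3 : ∑ j, outer b i j * v j = 0 := by
    have : ∑ j, outer b i j * v j = b i * ∑ j, b j * v j := by
      rw [Finset.mul_sum]; exact Finset.sum_congr rfl fun j _ => by simp only [outer]; ring
    rw [this, sum_comm_zero h.vb, mul_zero]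
  have e4 : ∑ j, (1 : Matrix (Fin n) (Fin n) ℝ) i j * v j = v i := by
    simp [Matrix.one_apply]
  have : ∑ j, frameM κ p q v a b i j * v j = ∑ j, outer v i j * v j
      + κ * (∑ j, (1 : Matrix (Fin n) (Fin n) ℝ) i j * v j - ∑ j, outer v i j * v j
        + (p - 1) * ∑ j, outer a i j * v j + (q - 1) * ∑ j, outer b i j * v j) := by
    simp only [Finset.mul_sum (a := p - 1), Finset.mul_sum (a := q - 1),
      ← Finset.sum_sub_distrib, ← Finset.sum_add_distrib, Finset.mul_sum (a := κ)]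
    refine Finset.sum_congr rfl fun j _ => ?_
    simp only [frameM, Matrix.add_apply, Matrix.smul_apply, Matrix.sub_apply, smul_eq_mul]
    ring
  rw [this, e1, e2, e3, e4]; ring

/-- Bessel for a triple -/
lemma Tri.bessel {v a b : En n} (h : Tri v a b) (w : En n) :
    (∑ i, v i * w i) ^ 2 + (∑ i, a i * w i) ^ 2 + (∑ i, b i * w i) ^ 2 ≤ ∑ i, w i * w i := by
  set c1 := ∑ i, v i * w i with hc1
  set c2 := ∑ i, a i * w i with hc2
  set c3 := ∑ i, b i * w i with hc3
  have h0 : 0 ≤ ∑ i, (w i - c1 * v i - c2 * a i - c3 * b i) ^ 2 :=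
    Finset.sum_nonneg fun i _ => sq_nonneg _
  have h1 : ∑ i, (w i - c1 * v i - c2 * a i - c3 * b i) ^ 2 = ∑ i, w i * w i
      + c1 ^ 2 * ∑ i, v i * v i + c2 ^ 2 * ∑ i, a i * a i + c3 ^ 2 * ∑ i, b i * b i
      - 2 * c1 * ∑ i, v i * w i - 2 * c2 * ∑ i, a i * w i - 2 * c3 * ∑ i, b i * w i
      + 2 * c1 * c2 * ∑ i, v i * a i + 2 * c1 * c3 * ∑ i, v i * b i
      + 2 * c2 * c3 * ∑ i, a i * b i := by
    simp only [Finset.mul_sum, ← Finset.sum_sub_distrib, ← Finset.sum_add_distrib]
    exact Finset.sum_congr rfl fun i _ => by ring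
  rw [h1, h.vv, h.aa, h.bb, h.va, h.vb, h.ab, ← hc1, ← hc2, ← hc3] at h0
  nlinarith

/-- the quadratic form of the frame matrix -/
lemma frameM_quad (κ p q : ℝ) (v a b w : En n) :
    ∑ i, ∑ j, frameM κ p q v a b i j * w i * w j =
      (∑ i, v i * w i) ^ 2 + κ * ((∑ i, w i * w i) - (∑ i, v i * w i) ^ 2
        + (p - 1) * (∑ i, a i * w i) ^ 2 + (q - 1) * (∑ i, b i * w i) ^ 2) := by
  have e1 : ∀ c : En n, ∑ i, ∑ j, outer c i j * w i * w j = (∑ i, c i * w i) ^ 2 := by
    intro c
    rw [sq, Finset.sum_mul_sum]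
    exact Finset.sum_congr rfl fun i _ => Finset.sum_congr rfl fun j _ => by
      simp only [outer]; ring
  have e2 : ∑ i, ∑ j, (1 : Matrix (Fin n) (Fin n) ℝ) i j * w i * w j = ∑ i, w i * w i := by
    refine Finset.sum_congr rfl fun i _ => ?_
    simp [Matrix.one_apply]
  rw [← e1 v, ← e1 a, ← e1 b, ← e2]
  simp only [Finset.mul_sum, ← Finset.sum_sub_distrib, ← Finset.sum_add_distrib]
  refine Finset.sum_congr rfl fun i _ => Finset.sum_congr rfl fun j _ => ?_
  simp only [frameM, Matrix.add_apply, Matrix.smul_apply, Matrix.sub_apply, smul_eq_mul]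
  ring

lemma frameM_quad_ge {κ p q l : ℝ} {v a b : En n} (h : Tri v a b) 
    (h1 : l ≤ 1) (h2 : l ≤ κ) (h3 : l ≤ κ * p) (h4 : l ≤ κ * q) (w : En n) :
    l * ∑ i, w i * w i ≤ ∑ i, ∑ j, frameM κ p q v a b i j * w i * w j := by
  rw [frameM_quad]
  have hb := h.bessel w
  set c1 := (∑ i, v i * w i) ^ 2 with hc1
  set c2 := (∑ i, a i * w i) ^ 2 with hc2
  set c3 := (∑ i, b i * w i) ^ 2 with hc3
  set W := ∑ i, w i * w i with hW
  have p1 : 0 ≤ c1 := sq_nonneg _
  have p2 : 0 ≤ c2 := sq_nonneg _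
  have p3 : 0 ≤ c3 := sq_nonneg _
  have hR : 0 ≤ W - c1 - c2 - c3 := by linarith
  have : c1 + κ * (W - c1 + (p - 1) * c2 + (q - 1) * c3) - l * W
      = (1 - l) * c1 + (κ - l) * (W - c1 - c2 - c3) + (κ * p - l) * c2 + (κ * q - l) * c3 := by
    ring
  have q1 := mul_nonneg (sub_nonneg.2 h1) p1
  have q2 := mul_nonneg (sub_nonneg.2 h2) hR
  have q3 := mul_nonneg (sub_nonneg.2 h3) p2
  have q4 := mul_nonneg (sub_nonneg.2 h4) p3
  linarith

lemma frameM_quad_le {κ p q L : ℝ} {v a b : En n} (h : Tri v a b) 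
    (h1 : 1 ≤ L) (h2 : κ ≤ L) (h3 : κ * p ≤ L) (h4 : κ * q ≤ L) (w : En n) :
    ∑ i, ∑ j, frameM κ p q v a b i j * w i * w j ≤ L * ∑ i, w i * w i := by
  rw [frameM_quad]
  have hb := h.bessel w
  set c1 := (∑ i, v i * w i) ^ 2 with hc1
  set c2 := (∑ i, a i * w i) ^ 2 with hc2
  set c3 := (∑ i, b i * w i) ^ 2 with hc3
  set W := ∑ i, w i * w i with hW
  have p1 : 0 ≤ c1 := sq_nonneg _
  have p2 : 0 ≤ c2 := sq_nonneg _
  have p3 : 0 ≤ c3 := sq_nonneg _
  have hR : 0 ≤ W - c1 - c2 - c3 := by linarith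
  have : L * W - (c1 + κ * (W - c1 + (p - 1) * c2 + (q - 1) * c3))
      = (L - 1) * c1 + (L - κ) * (W - c1 - c2 - c3) + (L - κ * p) * c2 + (L - κ * q) * c3 := by
    ring
  have q1 := mul_nonneg (sub_nonneg.2 h1) p1
  have q2 := mul_nonneg (sub_nonneg.2 h2) hR
  have q3 := mul_nonneg (sub_nonneg.2 h3) p2
  have q4 := mul_nonneg (sub_nonneg.2 h4) p3
  linarith

lemma frameM_posDef {κ p q : ℝ} {v a b : En n} (h : Tri v a b) (hκ : 0 < κ) (hp : 0 < p)
    (hq : 0 < q) : (frameM κ p q v a b).PosDef := by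
  refine Matrix.PosDef.of_dotProduct_mulVec_pos ?_ fun w hw => ?_
  · rw [Matrix.IsHermitian, Matrix.conjTranspose_eq_transpose_of_trivial, frameM_transpose]
  · set l := min 1 (min κ (min (κ * p) (κ * q))) with hl
    have hl0 : 0 < l := lt_min one_pos (lt_min hκ (lt_min (by positivity) (by positivity)))
    have h1 := frameM_quad_ge (l := l) (w := WithLp.toLp 2 w) h (p := p) (q := q)
      (min_le_left _ _) ((min_le_right _ _).trans (min_le_left _ _))
      ((min_le_right _ _).trans ((min_le_right _ _).trans (min_le_left _ _)))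
      ((min_le_right _ _).trans ((min_le_right _ _).trans (min_le_right _ _)))
    have h2 : 0 < ∑ i, w i * w i := by
      obtain ⟨i, hi⟩ := Function.ne_iff.1 hw
      refine Finset.sum_pos' (fun j _ => mul_self_nonneg _) ⟨i, Finset.mem_univ i, ?_⟩
      exact mul_self_pos.2 hi
    have h3 : star w ⬝ᵥ (frameM κ p q v a b).mulVec w
        = ∑ i, ∑ j, frameM κ p q v a b i j * w i * w j := by
      simp only [dotProduct, Matrix.mulVec, Finset.mul_sum, star_trivial]
      exact Finset.sum_congr rfl fun i _ => Finset.sum_congr rfl fun j _ => by ring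
    rw [h3]
    exact (mul_pos hl0 h2).trans_le h1

end Crest.Agent.R202.Geo
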