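import Mathlib
import Crest.Agent.R202.GeoFrame

/-!
Row 202, part D (GeoSmooth, helper523): the family `Afam θ P` of `GeoDefs` is smooth, positive
definite, `A x = x`, `det A = 1`; `gfam s θ P` is a `RadialMetric`, Euclidean near `0`.
-/

set_option autoImplicit false

open scoped ContDiff Matrix InnerProductSpace
open Set Filter Topology
open Crest.GeometryTopology.CoordMetric

namespace Crest.Agent.R202.Geo

variable {m : ℕ}

lemma fsum3 (f : Fin (m + 3) → ℝ) :
    ∑ i, f i = f 0 + f 1 + ∑ j : Fin (m + 1), f j.succ.succ := by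
  rw [Fin.sum_univ_succ, Fin.sum_univ_succ, Fin.succ_zero_eq_one]; ring

lemma e1c_zero (x : En (m + 3)) : e1 x 0 = -(sig x / ‖x‖) * (x 0 / rho x) := rfl
lemma e1c_one (x : En (m + 3)) : e1 x 1 = -(sig x / ‖x‖) * (x 1 / rho x) := by
  rw [← Fin.succ_zero_eq_one]; rfl
lemma e1c_succ (x : En (m + 3)) (j : Fin (m + 1)) :
    e1 x j.succ.succ = (rho x / ‖x‖) * (x j.succ.succ / sig x) := rfl
lemma e2c_zero (x : En (m + 3)) : e2 x 0 = -(x 1) / rho x := rfl
lemma e2c_one (x : En (m + 3)) : e2 x 1 = x 0 / rho x := by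
  rw [← Fin.succ_zero_eq_one]; rfl
lemma e2c_succ (x : En (m + 3)) (j : Fin (m + 1)) : e2 x j.succ.succ = 0 := rfl

lemma nu_apply (x : En (m + 3)) (i : Fin (m + 3)) : nu x i = ‖x‖⁻¹ * x i := by
  simp [nu]

lemma rho_nonneg (x : En (m + 3)) : 0 ≤ rho x := Real.sqrt_nonneg _
lemma sig_nonneg (x : En (m + 3)) : 0 ≤ sig x := Real.sqrt_nonneg _

lemma rho_sq (x : En (m + 3)) : rho x ^ 2 = x 0 ^ 2 + x 1 ^ 2 :=
  Real.sq_sqrt (by positivity)

lemma sig_sq (x : En (m + 3)) : sig x ^ 2 = ∑ j : Fin (m + 1), x j.succ.succ ^ 2 :=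
  Real.sq_sqrt (Finset.sum_nonneg fun _ _ => sq_nonneg _)

lemma norm_sq_eq_rs (x : En (m + 3)) : ‖x‖ ^ 2 = rho x ^ 2 + sig x ^ 2 := by
  rw [← sum_sq_eq, fsum3, rho_sq, sig_sq]
  simp only [← sq]

lemma rho_or_sig {x : En (m + 3)} (hx : x ≠ 0) : rho x ≠ 0 ∨ sig x ≠ 0 := by
  by_contra h
  have h' : rho x = 0 ∧ sig x = 0 := by
    constructor
    · by_contra h1; exact h (Or.inl h1)
    · by_contra h1; exact h (Or.inr h1)
  have := norm_sq_eq_rs x
  rw [h'.1, h'.2] at this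
  have h2 : 0 < ‖x‖ ^ 2 := by positivity
  rw [this] at h2
  norm_num at h2

lemma sum_nu_nu {x : En (m + 3)} (hx : x ≠ 0) : ∑ i, nu x i * nu x i = 1 := by
  have hx' : ‖x‖ ≠ 0 := norm_ne_zero_iff.2 hx
  have : ∑ i, nu x i * nu x i = (‖x‖ ^ 2)⁻¹ * ∑ i, x i * x i := by
    rw [Finset.mul_sum]
    exact Finset.sum_congr rfl fun i _ => by rw [nu_apply]; field_simp
  rw [this, sum_sq_eq, inv_mul_cancel₀ (pow_ne_zero 2 hx')]

lemma tri_e1_e2 {x : En (m + 3)} (hx : x ≠ 0) (hr : rho x ≠ 0) (hs : sig x ≠ 0) :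
    Tri (nu x) (e1 x) (e2 x) := by
  have hx' : ‖x‖ ≠ 0 := norm_ne_zero_iff.2 hx
  have h1 := rho_sq x
  have h2 := sig_sq x
  have h3 := norm_sq_eq_rs x
  refine ⟨sum_nu_nu hx, ?_, ?_, ?_, ?_, ?_⟩
  · rw [fsum3, e1c_zero, e1c_one]
    have : ∑ j : Fin (m + 1), e1 x j.succ.succ * e1 x j.succ.succ
        = (rho x / ‖x‖) ^ 2 * (sig x ^ 2)⁻¹ * sig x ^ 2 := by
      rw [h2, Finset.mul_sum]
      refine Finset.sum_congr rfl fun j _ => ?_
      rw [e1c_succ, ← h2]; field_simp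
    rw [this]
    field_simp
    have : sig x ^ 2 * x 0 ^ 2 + sig x ^ 2 * x 1 ^ 2 = sig x ^ 2 * rho x ^ 2 := by rw [h1]; ring
    nlinarith
  · rw [fsum3, e2c_zero, e2c_one]
    simp only [e2c_succ, mul_zero, Finset.sum_const_zero, add_zero]
    field_simp
    linarith
  · rw [fsum3, e1c_zero, e1c_one, nu_apply, nu_apply]
    have : ∑ j : Fin (m + 1), nu x j.succ.succ * e1 x j.succ.succ
        = ‖x‖⁻¹ * (rho x / ‖x‖) * (sig x)⁻¹ * sig x ^ 2 := by
      rw [h2, Finset.mul_sum]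
      refine Finset.sum_congr rfl fun j _ => ?_
      rw [e1c_succ, nu_apply]; field_simp
    rw [this]
    field_simp
    rw [h1]; ring
  · rw [fsum3, e2c_zero, e2c_one, nu_apply, nu_apply]
    simp only [e2c_succ, mul_zero, Finset.sum_const_zero, add_zero]
    field_simp
    ring
  · rw [fsum3, e1c_zero, e1c_one, e2c_zero, e2c_one]
    simp only [e2c_succ, mul_zero, Finset.sum_const_zero, add_zero]
    field_simp
    ring

/-- the projection `T` is `e1 e1ᵀ + e2 e2ᵀ` off the axes -/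
lemma TT_eq {x : En (m + 3)} (hx : x ≠ 0) (hr : rho x ≠ 0) (hs : sig x ≠ 0) :
    TT x = outer (e1 x) + outer (e2 x) := by
  have hx' : ‖x‖ ≠ 0 := norm_ne_zero_iff.2 hx
  have h1 := rho_sq x
  have h3 := norm_sq_eq_rs x
  have hWz : ∀ j, WW x 0 j = 0 := fun j => by simp [WW]
  have hWo : ∀ j, WW x 1 j = 0 := fun j => by
    have : ¬ (2 ≤ ((1 : Fin (m + 3)) : ℕ)) := by
      rw [← Fin.succ_zero_eq_one]; simp
    simp only [WW, this, false_and, if_false]
  have hWs : ∀ i j : Fin (m + 1), WW x i.succ.succ j.succ.succ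
      = (if i = j then 1 else 0) - x i.succ.succ * x j.succ.succ / sig x ^ 2 := fun i j => by
    have e1 : 2 ≤ ((i.succ.succ : Fin (m + 3)) : ℕ) := by simp
    have e2 : 2 ≤ ((j.succ.succ : Fin (m + 3)) : ℕ) := by simp
    simp only [WW, e1, e2, and_self, if_true, Fin.succ_inj]
  have symT : (TT x)ᵀ = TT x := by
    have hW : (WW x)ᵀ = WW x := by
      ext i j
      simp only [Matrix.transpose_apply, WW, and_comm, mul_comm (x j) (x i), eq_comm (a := j)]
    simp [TT, Matrix.transpose_sub, outer_transpose, hW]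
  have symT' : ∀ i j, TT x i j = TT x j i := fun i j => by
    have := congrFun (congrFun symT j) i
    simpa [Matrix.transpose_apply] using this
  have h0 : ∀ i j, TT x i j = (if i = j then 1 else 0) - nu x i * nu x j - WW x i j := by
    intro i j; simp [TT, outer, Matrix.sub_apply, Matrix.one_apply]
  have key : ∀ i j : Fin (m + 3), TT x i j = e1 x i * e1 x j + e2 x i * e2 x j := by
    have k00 : TT x 0 0 = e1 x 0 * e1 x 0 + e2 x 0 * e2 x 0 := by
      rw [h0, hWz, nu_apply, e1c_zero, e2c_zero, if_pos rfl]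
      field_simp
      nlinarith
    have k11 : TT x 1 1 = e1 x 1 * e1 x 1 + e2 x 1 * e2 x 1 := by
      rw [h0, hWo, nu_apply, e1c_one, e2c_one, if_pos rfl]
      field_simp
      nlinarith
    have k01 : TT x 0 1 = e1 x 0 * e1 x 1 + e2 x 0 * e2 x 1 := by
      rw [h0, hWz, nu_apply, nu_apply, e1c_zero, e2c_zero, e1c_one, e2c_one, if_neg (by
        rw [← Fin.succ_zero_eq_one]; exact (Fin.succ_ne_zero _).symm)]
      field_simp
      rw [h3]; ring
    have k0s : ∀ j : Fin (m + 1), TT x 0 j.succ.succ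
        = e1 x 0 * e1 x j.succ.succ + e2 x 0 * e2 x j.succ.succ := by
      intro j
      rw [h0, hWz, nu_apply, nu_apply, e1c_zero, e1c_succ, e2c_succ,
        if_neg (Fin.succ_ne_zero _).symm]
      field_simp
      ring
    have k1s : ∀ j : Fin (m + 1), TT x 1 j.succ.succ
        = e1 x 1 * e1 x j.succ.succ + e2 x 1 * e2 x j.succ.succ := by
      intro j
      rw [h0, hWo, nu_apply, nu_apply, e1c_one, e1c_succ, e2c_succ, if_neg (by
        rw [← Fin.succ_zero_eq_one]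
        exact fun h => (Fin.succ_ne_zero _).symm (Fin.succ_injective _ h))]
      field_simp
      ring
    have kss : ∀ i j : Fin (m + 1), TT x i.succ.succ j.succ.succ
        = e1 x i.succ.succ * e1 x j.succ.succ + e2 x i.succ.succ * e2 x j.succ.succ := by
      intro i j
      rw [h0, hWs, nu_apply, nu_apply, e1c_succ, e1c_succ, e2c_succ]
      simp only [Fin.succ_inj]
      field_simp
      rw [h3]; ring
    intro i j
    refine Fin.cases ?_ (fun i => ?_) i
    · refine Fin.cases k00 (fun j => ?_) j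
      refine Fin.cases ?_ (fun j => k0s j) j
      rw [Fin.succ_zero_eq_one]; exact k01
    · refine Fin.cases ?_ (fun i => ?_) i
      · rw [Fin.succ_zero_eq_one]
        refine Fin.cases ?_ (fun j => ?_) j
        · rw [symT', k01]; ring
        · refine Fin.cases ?_ (fun j => k1s j) j
          rw [Fin.succ_zero_eq_one]; exact k11
      · refine Fin.cases ?_ (fun j => ?_) j
        · rw [symT', k0s]; ring
        · refine Fin.cases ?_ (fun j => kss i j) j
          rw [Fin.succ_zero_eq_one, symT', k1s]; ring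
  ext i j
  rw [key i j]; rfl

/-! ### Smoothness of the coordinate functions -/

lemma cd_coord (i : Fin (m + 3)) : ContDiff ℝ ∞ fun x : En (m + 3) => x i :=
  (EuclideanSpace.proj i : EuclideanSpace ℝ (Fin (m + 3)) →L[ℝ] ℝ).contDiff

lemma continuous_rho : Continuous (rho : En (m + 3) → ℝ) := by
  unfold rho
  exact Real.continuous_sqrt.comp
    (((cd_coord 0).continuous.pow 2).add ((cd_coord 1).continuous.pow 2))

lemma continuous_sig : Continuous (sig : En (m + 3) → ℝ) := by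
  unfold sig
  exact Real.continuous_sqrt.comp
    (continuous_finsetSum _ fun j _ => (cd_coord j.succ.succ).continuous.pow 2)

lemma cd_rho {x : En (m + 3)} (h : rho x ≠ 0) : ContDiffAt ℝ ∞ rho x := by
  have h1 : x 0 ^ 2 + x 1 ^ 2 ≠ 0 := by rw [← rho_sq]; exact pow_ne_zero 2 h
  exact (((cd_coord 0).pow 2).add ((cd_coord 1).pow 2)).contDiffAt.sqrt h1

lemma cd_sig {x : En (m + 3)} (h : sig x ≠ 0) : ContDiffAt ℝ ∞ sig x := by
  have h1 : ∑ j : Fin (m + 1), x j.succ.succ ^ 2 ≠ 0 := by rw [← sig_sq]; exact pow_ne_zero 2 h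
  exact (ContDiff.sum fun j _ => (cd_coord j.succ.succ).pow 2).contDiffAt.sqrt h1

lemma cd_norm {x : En (m + 3)} (h : x ≠ 0) : ContDiffAt ℝ ∞ (fun x : En (m + 3) => ‖x‖) x :=
  contDiffAt_norm ℝ h

lemma cd_log {x : En (m + 3)} (h : x ≠ 0) :
    ContDiffAt ℝ ∞ (fun x : En (m + 3) => Real.log ‖x‖) x :=
  (cd_norm h).log (norm_ne_zero_iff.2 h)

lemma cd_XX {x : En (m + 3)} (hx : x ≠ 0) (h : sig x ≠ 0) : ContDiffAt ℝ ∞ XX x :=
  (cd_sig h).div (cd_norm hx) (norm_ne_zero_iff.2 hx)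

lemma cd_uu {x : En (m + 3)} (h : rho x ≠ 0) : ContDiffAt ℝ ∞ uu x := by
  have h0 : ContDiff ℝ ∞ (fun t : ℝ => (t : ℂ)) := Complex.ofRealCLM.contDiff
  have h1 : ContDiffAt ℝ ∞ (fun x : En (m + 3) => (x 0 : ℂ) + (x 1 : ℂ) * Complex.I) x :=
    (h0.comp (cd_coord 0)).contDiffAt.add
      ((h0.comp (cd_coord 1)).contDiffAt.mul contDiffAt_const)
  have h2 : ContDiffAt ℝ ∞ (fun x : En (m + 3) => (rho x : ℂ)) x :=
    h0.contDiffAt.comp x (cd_rho h)
  have h3 : ContDiffAt ℝ ∞ (fun x : En (m + 3) =>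
      ((x 0 : ℂ) + (x 1 : ℂ) * Complex.I) * (rho x : ℂ)⁻¹) x :=
    h1.mul (h2.inv (Complex.ofReal_ne_zero.2 h))
  have h4 : (uu : En (m + 3) → ℂ) = fun x : En (m + 3) =>
      ((x 0 : ℂ) + (x 1 : ℂ) * Complex.I) * (rho x : ℂ)⁻¹ := by
    funext y; rw [uu, div_eq_mul_inv]
  rw [h4]; exact h3

lemma cd_nu {x : En (m + 3)} (hx : x ≠ 0) (i : Fin (m + 3)) :
    ContDiffAt ℝ ∞ (fun x : En (m + 3) => nu x i) x := by
  simp only [nu_apply]
  exact ((cd_norm hx).inv (norm_ne_zero_iff.2 hx)).mul (cd_coord i).contDiffAt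

lemma cd_outer_nu {x : En (m + 3)} (hx : x ≠ 0) (i j : Fin (m + 3)) :
    ContDiffAt ℝ ∞ (fun x : En (m + 3) => outer (nu x) i j) x :=
  (cd_nu hx i).mul (cd_nu hx j)

lemma cd_e2 {x : En (m + 3)} (h : rho x ≠ 0) (i : Fin (m + 3)) :
    ContDiffAt ℝ ∞ (fun x : En (m + 3) => e2 x i) x := by
  refine Fin.cases ?_ (fun i => ?_) i
  · simp only [e2c_zero]
    exact (cd_coord 1).neg.contDiffAt.div (cd_rho h) h
  · refine Fin.cases ?_ (fun i => ?_) i
    · rw [Fin.succ_zero_eq_one]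
      simp only [e2c_one]
      exact (cd_coord 0).contDiffAt.div (cd_rho h) h
    · simp only [e2c_succ]
      exact contDiffAt_const

lemma cd_e1 {x : En (m + 3)} (hx : x ≠ 0) (hr : rho x ≠ 0) (hs : sig x ≠ 0) (i : Fin (m + 3)) :
    ContDiffAt ℝ ∞ (fun x : En (m + 3) => e1 x i) x := by
  have hn := norm_ne_zero_iff.2 hx
  refine Fin.cases ?_ (fun i => ?_) i
  · simp only [e1c_zero]
    exact ((cd_sig hs).div (cd_norm hx) hn).neg.mul ((cd_coord 0).contDiffAt.div (cd_rho hr) hr)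
  · refine Fin.cases ?_ (fun i => ?_) i
    · rw [Fin.succ_zero_eq_one]
      simp only [e1c_one]
      exact ((cd_sig hs).div (cd_norm hx) hn).neg.mul
        ((cd_coord 1).contDiffAt.div (cd_rho hr) hr)
    · simp only [e1c_succ]
      exact ((cd_rho hr).div (cd_norm hx) hn).mul
        ((cd_coord i.succ.succ).contDiffAt.div (cd_sig hs) hs)

lemma cd_WW {x : En (m + 3)} (hs : sig x ≠ 0) (i j : Fin (m + 3)) :
    ContDiffAt ℝ ∞ (fun x : En (m + 3) => WW x i j) x := by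
  unfold WW
  by_cases h : 2 ≤ (i : ℕ) ∧ 2 ≤ (j : ℕ)
  · simp only [h, and_self, if_true]
    exact contDiffAt_const.sub ((((cd_coord i).mul (cd_coord j)).contDiffAt).div
      ((cd_sig hs).pow 2) (pow_ne_zero 2 hs))
  · simp only [h, if_false]
    exact contDiffAt_const

lemma cd_TT {x : En (m + 3)} (hx : x ≠ 0) (hs : sig x ≠ 0) (i j : Fin (m + 3)) :
    ContDiffAt ℝ ∞ (fun x : En (m + 3) => TT x i j) x := by
  simp only [TT, Matrix.sub_apply]
  exact (contDiffAt_const.sub (cd_outer_nu hx i j)).sub (cd_WW hs i j)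

/-! ### The family -/

/-- The exponent `κ = θ^{-2/(n-1)}`. -/
noncomputable def kap (m : ℕ) (θ : ℝ → ℝ) (t : ℝ) : ℝ := (θ t) ^ (-(2 : ℝ) / ((m : ℝ) + 2))

namespace Fam

variable {s θ : ℝ → ℝ} {P : ℝ → ℝ → ℂ → ℝ} {t0 X0 X1 : ℝ}

lemma kap_pos (h : Fam s θ P t0 X0 X1) (t : ℝ) : 0 < kap m θ t :=
  Real.rpow_pos_of_pos (h.θ_pos t) _

lemma cd_kap (h : Fam s θ P t0 X0 X1) : ContDiff ℝ ∞ (kap m θ) := by
  unfold kap
  exact contDiff_iff_contDiffAt.2 fun t =>
    (h.smooth_θ.contDiffAt).rpow_const_of_ne (h.θ_pos t).ne'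

lemma kap_pow (h : Fam s θ P t0 X0 X1) (t : ℝ) :
    kap m θ t ^ (m + 2) = (θ t ^ 2)⁻¹ := by
  unfold kap
  rw [← Real.rpow_natCast, ← Real.rpow_mul (h.θ_pos t).le]
  have : -(2 : ℝ) / ((m : ℝ) + 2) * ((m + 2 : ℕ) : ℝ) = -((2 : ℕ) : ℝ) := by
    push_cast
    have : (m : ℝ) + 2 ≠ 0 := by positivity
    field_simp
  rw [this, Real.rpow_neg (h.θ_pos t).le, Real.rpow_natCast]

lemma cd_P (h : Fam s θ P t0 X0 X1) {x : En (m + 3)} (hx : x ≠ 0) (hr : rho x ≠ 0)
    (hs : sig x ≠ 0) :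
    ContDiffAt ℝ ∞ (fun x : En (m + 3) => P (Real.log ‖x‖) (XX x) (uu x)) x :=
  h.smooth_P.contDiffAt.comp x ((cd_log hx).prodMk ((cd_XX hx hs).prodMk (cd_uu hr)))

lemma XX_zero {x : En (m + 3)} (hs : sig x = 0) : XX x = 0 := by simp [XX, hs]

lemma XX_one {x : En (m + 3)} (hx : x ≠ 0) (hr : rho x = 0) : XX x = 1 := by
  have h1 := norm_sq_eq_rs x
  rw [hr] at h1
  have h2 : ‖x‖ = sig x := by
    have : ‖x‖ ^ 2 = sig x ^ 2 := by rw [h1]; ring
    exact (pow_left_inj₀ (norm_nonneg x) (sig_nonneg x) two_ne_zero).1 this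
  rw [XX, h2, div_self]
  rw [← h2]; exact norm_ne_zero_iff.2 hx

lemma continuousAt_XX {x : En (m + 3)} (hx : x ≠ 0) : ContinuousAt XX x :=
  continuous_sig.continuousAt.div continuous_norm.continuousAt (norm_ne_zero_iff.2 hx)

/-- where `X` is near `1` the matrix is given by the regular formula -/
lemma Afam_high (h : Fam s θ P t0 X0 X1) {x : En (m + 3)} (hx : x ≠ 0) (hX : X1 ≤ XX x) :
    Afam θ P x = outer (nu x) + kap m θ (Real.log ‖x‖) •
      (1 - outer (nu x) + (θ (Real.log ‖x‖) - 1) • TT x) := by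
  have hs : sig x ≠ 0 := by
    intro hs
    rw [XX_zero hs] at hX
    linarith [h.hX0, h.hX01]
  unfold Afam kap
  by_cases hr : rho x = 0
  · simp only [hr, if_true]
  · simp only [hr, if_false]
    rw [h.P_high _ _ _ hX, TT_eq hx hr hs]
    have h1 := (h.θ_pos (Real.log ‖x‖)).ne'
    have h2 : (θ (Real.log ‖x‖)) ^ 2 * (θ (Real.log ‖x‖))⁻¹ = θ (Real.log ‖x‖) := by
      field_simp
    rw [inv_inv, h2, smul_add (θ (Real.log ‖x‖) - 1)]

/-- where `X` is near `0` -/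
lemma Afam_low (h : Fam s θ P t0 X0 X1) {x : En (m + 3)} (hx : x ≠ 0) (hX : XX x ≤ X0) :
    Afam θ P x = outer (nu x) + kap m θ (Real.log ‖x‖) •
      (1 - outer (nu x) + ((θ (Real.log ‖x‖)) ^ 2 - 1) • outer (e2 x)) := by
  have hr : rho x ≠ 0 := by
    intro hr
    rw [XX_one hx hr] at hX
    linarith [h.hX1, h.hX01]
  unfold Afam kap
  simp only [hr, if_false]
  rw [h.P_low _ _ _ hX]
  simp

lemma Afam_mid (θ : ℝ → ℝ) (P : ℝ → ℝ → ℂ → ℝ) {x : En (m + 3)} (hr : rho x ≠ 0) :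
    Afam θ P x = outer (nu x) + kap m θ (Real.log ‖x‖) •
      (1 - outer (nu x) + (((P (Real.log ‖x‖) (XX x) (uu x))⁻¹ - 1) • outer (e1 x)
        + ((θ (Real.log ‖x‖)) ^ 2 * P (Real.log ‖x‖) (XX x) (uu x) - 1) • outer (e2 x))) := by
  unfold Afam kap
  simp only [hr, if_false]

lemma cd_logθ (h : Fam s θ P t0 X0 X1) {x : En (m + 3)} (hx : x ≠ 0) :
    ContDiffAt ℝ ∞ (fun x : En (m + 3) => θ (Real.log ‖x‖)) x :=
  h.smooth_θ.contDiffAt.comp x (cd_log hx)

lemma cd_logkap (h : Fam s θ P t0 X0 X1) {x : En (m + 3)} (hx : x ≠ 0) :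
    ContDiffAt ℝ ∞ (fun x : En (m + 3) => kap m θ (Real.log ‖x‖)) x :=
  (h.cd_kap (m := m)).contDiffAt.comp x (cd_log hx)

theorem cd_Afam (h : Fam s θ P t0 X0 X1) {x : En (m + 3)} (hx : x ≠ 0) (i j : Fin (m + 3)) :
    ContDiffAt ℝ ∞ (fun x : En (m + 3) => Afam θ P x i j) x := by
  have hne : ∀ᶠ y in 𝓝 x, y ≠ 0 := isOpen_compl_singleton.mem_nhds hx
  by_cases hr : rho x = 0
  · have hs : sig x ≠ 0 := (rho_or_sig hx).resolve_left (not_not.2 hr)
    have hX : ∀ᶠ y in 𝓝 x, X1 ≤ XX y := by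
      have := (continuousAt_XX hx).eventually (lt_mem_nhds (by rw [XX_one hx hr]; exact h.hX1 :
        X1 < XX x))
      exact this.mono fun y hy => hy.le
    refine ContDiffAt.congr_of_eventuallyEq (f := fun y => outer (nu y) i j +
      kap m θ (Real.log ‖y‖) * ((1 : Matrix (Fin (m + 3)) (Fin (m + 3)) ℝ) i j - outer (nu y) i j
        + (θ (Real.log ‖y‖) - 1) * TT y i j)) ?_ ?_
    · exact (cd_outer_nu hx i j).add ((h.cd_logkap hx).mul ((contDiffAt_const.sub
        (cd_outer_nu hx i j)).add (((h.cd_logθ hx).sub contDiffAt_const).mul (cd_TT hx hs i j))))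
    · filter_upwards [hX, hne] with y hy hy0
      rw [h.Afam_high hy0 hy]
      simp only [Matrix.add_apply, Matrix.smul_apply, Matrix.sub_apply, smul_eq_mul]
  · by_cases hs : sig x = 0
    · have hX : ∀ᶠ y in 𝓝 x, XX y ≤ X0 := by
        have := (continuousAt_XX hx).eventually (gt_mem_nhds (by rw [XX_zero hs]; exact h.hX0 :
          XX x < X0))
        exact this.mono fun y hy => hy.le
      refine ContDiffAt.congr_of_eventuallyEq (f := fun y => outer (nu y) i j +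
        kap m θ (Real.log ‖y‖) * ((1 : Matrix (Fin (m + 3)) (Fin (m + 3)) ℝ) i j
          - outer (nu y) i j
          + ((θ (Real.log ‖y‖)) ^ 2 - 1) * (e2 y i * e2 y j))) ?_ ?_
      · exact (cd_outer_nu hx i j).add ((h.cd_logkap hx).mul ((contDiffAt_const.sub
          (cd_outer_nu hx i j)).add ((((h.cd_logθ hx).pow 2).sub contDiffAt_const).mul
            ((cd_e2 hr i).mul (cd_e2 hr j)))))
      · filter_upwards [hX, hne] with y hy hy0
        rw [h.Afam_low hy0 hy]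
        simp only [Matrix.add_apply, Matrix.smul_apply, Matrix.sub_apply, smul_eq_mul, outer]
    · have hr' : ∀ᶠ y in 𝓝 x, rho y ≠ 0 :=
        continuous_rho.continuousAt.eventually (isOpen_compl_singleton.mem_nhds hr)
      have hP0 : P (Real.log ‖x‖) (XX x) (uu x) ≠ 0 := (h.P_pos _ _ _).ne'
      refine ContDiffAt.congr_of_eventuallyEq (f := fun y => outer (nu y) i j +
        kap m θ (Real.log ‖y‖) * ((1 : Matrix (Fin (m + 3)) (Fin (m + 3)) ℝ) i j
          - outer (nu y) i j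
          + (((P (Real.log ‖y‖) (XX y) (uu y))⁻¹ - 1) * (e1 y i * e1 y j)
          + ((θ (Real.log ‖y‖)) ^ 2 * P (Real.log ‖y‖) (XX y) (uu y) - 1)
            * (e2 y i * e2 y j)))) ?_ ?_
      · have hP := h.cd_P hx hr hs
        exact (cd_outer_nu hx i j).add ((h.cd_logkap hx).mul ((contDiffAt_const.sub
          (cd_outer_nu hx i j)).add ((((hP.inv hP0).sub contDiffAt_const).mul
            ((cd_e1 hx hr hs i).mul (cd_e1 hx hr hs j))).add
            (((((h.cd_logθ hx).pow 2).mul hP).sub contDiffAt_const).mul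
            ((cd_e2 hr i).mul (cd_e2 hr j))))))
      · filter_upwards [hr'] with y hy
        rw [Afam_mid θ P hy]
        simp only [Matrix.add_apply, Matrix.smul_apply, Matrix.sub_apply, smul_eq_mul, outer]

end Fam

end Crest.Agent.R202.Geo
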