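import Mathlib
import Crest.Agent.R202.GeoSmooth

/-!
Row 202, part D (helper523): `gfam s θ P` is a `RadialMetric`; determinant, inverse, divergence
form, frame representation and quadratic form bounds.
-/

set_option autoImplicit false

open scoped ContDiff Matrix InnerProductSpace
open Set Filter Topology
open Crest.GeometryTopology.CoordMetric

namespace Crest.Agent.R202.Geo

variable {m : ℕ}

lemma sig_zero_coord {x : En (m + 3)} (hs : sig x = 0) (j : Fin (m + 1)) :
    x j.succ.succ = 0 := by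
  have h := sig_sq x
  rw [hs] at h
  have h1 : ∑ j : Fin (m + 1), x j.succ.succ ^ 2 = 0 := by rw [← h]; ring
  have := (Finset.sum_eq_zero_iff_of_nonneg (fun j _ => sq_nonneg (x (Fin.succ (Fin.succ j))))).1
    h1 j (Finset.mem_univ j)
  exact pow_eq_zero_iff two_ne_zero |>.1 this

lemma rho_zero_coord {x : En (m + 3)} (hr : rho x = 0) : x 0 = 0 ∧ x 1 = 0 := by
  have h := rho_sq x
  rw [hr] at h
  have h0 : x 0 ^ 2 = 0 := by nlinarith [sq_nonneg (x 0), sq_nonneg (x 1)]
  have h1 : x 1 ^ 2 = 0 := by nlinarith [sq_nonneg (x 0), sq_nonneg (x 1)]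
  exact ⟨pow_eq_zero_iff two_ne_zero |>.1 h0, pow_eq_zero_iff two_ne_zero |>.1 h1⟩

lemma one_ne_zero_fin3 : (1 : Fin (m + 3)) ≠ 0 := by
  rw [← Fin.succ_zero_eq_one]; exact Fin.succ_ne_zero _

lemma succ_succ_ne_one (j : Fin (m + 1)) : (j.succ.succ : Fin (m + 3)) ≠ 1 := by
  rw [← Fin.succ_zero_eq_one]
  exact fun h => (Fin.succ_ne_zero _) (Fin.succ_injective _ h)

/-- basis vectors -/
noncomputable abbrev bvec (i : Fin (m + 3)) : En (m + 3) := EuclideanSpace.single i (1 : ℝ)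

lemma bvec_apply (i j : Fin (m + 3)) : bvec i j = if j = i then 1 else 0 := by
  simp [bvec]

lemma sum_mul_bv (v : En (m + 3)) (i : Fin (m + 3)) : ∑ j, v j * bvec i j = v i := by
  simp [bvec_apply]

lemma TT_rho_zero {x : En (m + 3)} (hx : x ≠ 0) (hr : rho x = 0) :
    TT x = outer (bvec 0) + outer (bvec 1) := by
  have hs : sig x ≠ 0 := (rho_or_sig hx).resolve_left (not_not.2 hr)
  obtain ⟨h0, h1⟩ := rho_zero_coord hr
  have h3 : ‖x‖ ^ 2 = sig x ^ 2 := by rw [norm_sq_eq_rs, hr]; ring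
  have hn : ‖x‖ ≠ 0 := norm_ne_zero_iff.2 hx
  have hsmall : ∀ i : Fin (m + 3), ¬ 2 ≤ (i : ℕ) → i = 0 ∨ i = 1 := by
    intro i hi
    have : (i : ℕ) = 0 ∨ (i : ℕ) = 1 := by omega
    rcases this with h | h
    · left; exact Fin.ext h
    · right; apply Fin.ext; rw [h, ← Fin.succ_zero_eq_one]; simp
  have hbig : ∀ i : Fin (m + 3), 2 ≤ (i : ℕ) → i ≠ 0 ∧ i ≠ 1 := by
    intro i hi
    constructor
    · rintro rfl; simp at hi
    · rintro rfl; rw [← Fin.succ_zero_eq_one] at hi; simp at hi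
  have hxz : ∀ i : Fin (m + 3), ¬ 2 ≤ (i : ℕ) → x i = 0 := by
    intro i hi
    rcases hsmall i hi with rfl | rfl
    · exact h0
    · exact h1
  ext i j
  simp only [TT, Matrix.sub_apply, Matrix.add_apply, outer, nu_apply, WW, bvec_apply,
    Matrix.one_apply]
  by_cases hi : 2 ≤ (i : ℕ)
  · obtain ⟨hi0, hi1⟩ := hbig i hi
    by_cases hj : 2 ≤ (j : ℕ)
    · obtain ⟨hj0, hj1⟩ := hbig j hj
      simp only [hi, hj, and_self, if_true, hi0, hi1, if_false]
      field_simp
      rw [h3]; ring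
    · have hij : i ≠ j := by rintro rfl; exact hj hi
      simp only [hi, hj, and_false, if_false, hi0, hi1, hxz j hj, hij]
      ring
  · by_cases hj : 2 ≤ (j : ℕ)
    · obtain ⟨hj0, hj1⟩ := hbig j hj
      have hij : i ≠ j := by rintro rfl; exact hi hj
      simp only [hi, hj, false_and, if_false, hj0, hj1, hxz i hi, hij]
      ring
    · simp only [hi, false_and, if_false, hxz i hi, hxz j hj]
      rcases hsmall i hi with rfl | rfl <;> rcases hsmall j hj with rfl | rfl <;>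
        simp [one_ne_zero_fin3, one_ne_zero_fin3.symm]

namespace Fam

variable {s θ : ℝ → ℝ} {P : ℝ → ℝ → ℂ → ℝ} {t0 X0 X1 : ℝ}

/-- frame representation of the family at every `x ≠ 0` -/
theorem frame_exists (h : Fam s θ P t0 X0 X1) {x : En (m + 3)} (hx : x ≠ 0) :
    ∃ (a b : En (m + 3)) (X : ℝ) (u : ℂ), Tri (nu x) a b ∧
      Afam θ P x = frameM (kap m θ (Real.log ‖x‖)) (P (Real.log ‖x‖) X u)⁻¹
        ((θ (Real.log ‖x‖)) ^ 2 * P (Real.log ‖x‖) X u) (nu x) a b := by
  by_cases hr : rho x = 0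
  · have hX := XX_one hx hr
    obtain ⟨h0, h1⟩ := rho_zero_coord hr
    refine ⟨bvec 0, bvec 1, 1, 0, ⟨sum_nu_nu hx, ?_, ?_, ?_, ?_, ?_⟩, ?_⟩
    · rw [sum_mul_bv, bvec_apply, if_pos rfl]
    · rw [sum_mul_bv, bvec_apply, if_pos rfl]
    · rw [sum_mul_bv, nu_apply, h0, mul_zero]
    · rw [sum_mul_bv, nu_apply, h1, mul_zero]
    · rw [sum_mul_bv, bvec_apply, if_neg one_ne_zero_fin3]
    · rw [h.Afam_high hx (by rw [hX]; exact h.hX1.le), TT_rho_zero hx hr, frameM,
        h.P_high _ _ _ h.hX1.le, inv_inv]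
      have h2 : (θ (Real.log ‖x‖)) ^ 2 * (θ (Real.log ‖x‖))⁻¹ = θ (Real.log ‖x‖) := by
        have := (h.θ_pos (Real.log ‖x‖)).ne'
        field_simp
      rw [h2, smul_add (θ (Real.log ‖x‖) - 1)]
      congr 2
      abel
  · by_cases hs : sig x = 0
    · have hX := XX_zero hs
      refine ⟨bvec (Fin.succ (Fin.succ 0)), e2 x, 0, 0, ⟨sum_nu_nu hx, ?_, ?_, ?_, ?_, ?_⟩, ?_⟩
      · rw [sum_mul_bv, bvec_apply, if_pos rfl]
      · rw [fsum3, e2c_zero, e2c_one]
        simp only [e2c_succ, mul_zero, Finset.sum_const_zero, add_zero]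
        have := rho_sq x
        field_simp
        linarith
      · rw [sum_mul_bv, nu_apply, sig_zero_coord hs, mul_zero]
      · rw [fsum3, e2c_zero, e2c_one, nu_apply, nu_apply]
        simp only [e2c_succ, mul_zero, Finset.sum_const_zero, add_zero]
        ring
      · have : ∑ i, bvec (Fin.succ (Fin.succ (0 : Fin (m + 1)))) i * e2 x i
            = e2 x (Fin.succ (Fin.succ 0)) := by
          rw [← sum_mul_bv (e2 x)]
          exact Finset.sum_congr rfl fun i _ => mul_comm _ _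
        rw [this, e2c_succ]
      · rw [h.Afam_low hx (by rw [hX]; exact h.hX0.le), frameM, h.P_low _ _ _ h.hX0.le]
        simp
    · refine ⟨e1 x, e2 x, XX x, uu x, tri_e1_e2 hx hr hs, ?_⟩
      rw [Afam_mid θ P hr, frameM]
      congr 2
      abel

lemma kap_ne (h : Fam s θ P t0 X0 X1) (t : ℝ) : kap m θ t ≠ 0 := (h.kap_pos t).ne'

lemma det_Afam (h : Fam s θ P t0 X0 X1) {x : En (m + 3)} (hx : x ≠ 0) :
    (Afam θ P x).det = 1 := by
  obtain ⟨a, b, X, u, hT, hA⟩ := h.frame_exists hx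
  have h1 := det_frameM (h.kap_ne (m := m) (Real.log ‖x‖))
    (p := (P (Real.log ‖x‖) X u)⁻¹) (q := (θ (Real.log ‖x‖)) ^ 2 * P (Real.log ‖x‖) X u) hT
  rw [← hA] at h1
  have h2 := h.kap_pow (m := m) (Real.log ‖x‖)
  have h3 := (h.P_pos (Real.log ‖x‖) X u).ne'
  have h4 := (h.θ_pos (Real.log ‖x‖)).ne'
  have h5 : kap m θ (Real.log ‖x‖) ^ (m + 3) * ((P (Real.log ‖x‖) X u)⁻¹ *
      ((θ (Real.log ‖x‖)) ^ 2 * P (Real.log ‖x‖) X u)) = kap m θ (Real.log ‖x‖) := by
    rw [pow_succ, h2]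
    field_simp
  rw [h5] at h1
  exact mul_right_cancel₀ (h.kap_ne (m := m) _) (h1.trans (one_mul _).symm)

lemma posDef_Afam (h : Fam s θ P t0 X0 X1) {x : En (m + 3)} (hx : x ≠ 0) :
    (Afam θ P x).PosDef := by
  obtain ⟨a, b, X, u, hT, hA⟩ := h.frame_exists hx
  have h3 := h.P_pos (Real.log ‖x‖) X u
  have h4 := h.θ_pos (Real.log ‖x‖)
  rw [hA]
  exact frameM_posDef hT (h.kap_pos _) (inv_pos.2 h3) (by positivity)

lemma radial_Afam (h : Fam s θ P t0 X0 X1) {x : En (m + 3)} (hx : x ≠ 0) (i : Fin (m + 3)) :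
    ∑ j, Afam θ P x i j * x j = x i := by
  obtain ⟨a, b, X, u, hT, hA⟩ := h.frame_exists hx
  have hn : ‖x‖ ≠ 0 := norm_ne_zero_iff.2 hx
  have h1 := frameM_radial (κ := kap m θ (Real.log ‖x‖)) (p := (P (Real.log ‖x‖) X u)⁻¹)
    (q := (θ (Real.log ‖x‖)) ^ 2 * P (Real.log ‖x‖) X u) hT i
  rw [← hA] at h1
  simp only [nu_apply] at h1
  have h2 : ∑ j, Afam θ P x i j * x j = ‖x‖ * ∑ j, Afam θ P x i j * (‖x‖⁻¹ * x j) := by
    rw [Finset.mul_sum]
    exact Finset.sum_congr rfl fun j _ => by field_simp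
  rw [h2, h1]; field_simp

lemma Afam_init (h : Fam s θ P t0 X0 X1) {x : En (m + 3)} (hx : x ≠ 0)
    (ht : Real.log ‖x‖ ≤ t0) : Afam θ P x = 1 := by
  obtain ⟨a, b, X, u, hT, hA⟩ := h.frame_exists hx
  rw [hA, h.θ_init _ ht, h.P_init _ ht]
  have hk : kap m θ (Real.log ‖x‖) = 1 := by rw [kap, h.θ_init _ ht, Real.one_rpow]
  rw [hk, frameM]
  simp

theorem radData (h : Fam s θ P t0 X0 X1) :
    RadData (sigOf s) (fixA (Afam (m := m) θ P)) where
  smooth_sigma := contDiff_sigOf h.smooth_s h.s_init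
  smooth_entry i j := by
    refine RadData.contDiff_of_punctured (r := Real.exp t0)
      (c := (1 : Matrix (Fin (m + 3)) (Fin (m + 3)) ℝ) i j) (Real.exp_pos _) ?_ ?_
    · intro x hx
      by_cases h0 : x = 0
      · simp [fixA, h0]
      · have hx' : 0 < ‖x‖ := norm_pos_iff.2 h0
        simp only [fixA, h0, if_false]
        rw [h.Afam_init h0 ((Real.log_le_iff_le_exp hx').2 hx.le)]
    · refine ContDiffOn.congr (f := fun x => Afam θ P x i j)
        (fun x hx => (h.cd_Afam (by exact hx) i j).contDiffWithinAt) fun x hx => ?_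
      have hx0 : x ≠ 0 := hx
      simp [fixA, hx0]
  posDef x := by
    by_cases h0 : x = 0
    · simp only [fixA, h0, if_true]; exact Matrix.PosDef.one
    · simp only [fixA, h0, if_false]; exact h.posDef_Afam h0
  radial x i := by
    by_cases h0 : x = 0
    · subst h0; simp
    · simp only [fixA, h0, if_false]; exact h.radial_Afam h0 i
  det_one x := by
    by_cases h0 : x = 0
    · simp [fixA, h0]
    · simp only [fixA, h0, if_false]; exact h.det_Afam h0
  near_zero := by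
    refine ⟨Real.exp t0, Real.exp_pos _, fun x hx => ?_⟩
    by_cases h0 : x = 0
    · simp [sigOf, fixA, h0]
    · have hx' : 0 < ‖x‖ := norm_pos_iff.2 h0
      have ht := (Real.log_le_iff_le_exp hx').2 hx.le
      simp only [sigOf, fixA, h0, if_false]
      exact ⟨h.s_init _ ht, h.Afam_init h0 ht⟩

/-- `gfam s θ P` is a smooth Riemannian metric, radial lines are unit speed. -/
theorem radialMetric (h : Fam s θ P t0 X0 X1) : RadialMetric (gfam (m := m) s θ P) := by
  rw [gfam, gRad_eq]; exact h.radData.radialMetric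

theorem gfam_near_zero (h : Fam s θ P t0 X0 X1) :
    ∃ r : ℝ, 0 < r ∧ ∀ x : En (m + 3), ‖x‖ < r → gfam s θ P x = 1 := by
  rw [gfam, gRad_eq]; exact h.radData.gR_near_zero

theorem sqrt_det_gfam (h : Fam s θ P t0 X0 X1) {x : En (m + 3)} (hx : x ≠ 0) :
    Real.sqrt (gfam s θ P x).det = Real.exp (-((m : ℝ) + 2) * s (Real.log ‖x‖)) := by
  rw [gfam, gRad_eq, h.radData.sqrt_det x]
  have : sigOf s x = s (Real.log ‖x‖) := by simp [sigOf, hx]
  rw [this]
  congr 2
  push_cast; ring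

/-- asymptotic volume ratio -/
theorem volRatio (h : Fam s θ P t0 X0 X1) {v : ℝ}
    (hv : Tendsto (fun t => Real.exp (-((m : ℝ) + 2) * s t)) atTop (𝓝 v)) :
    HasAsymptoticVolumeRatio (gfam (m := m) s θ P) v := by
  refine (h.radialMetric (m := m)).volRatio (by omega) ?_
  have h1 : Tendsto (fun x : En (m + 3) => Real.log ‖x‖) (Bornology.cobounded _) atTop :=
    Real.tendsto_log_atTop.comp tendsto_norm_cobounded_atTop
  refine (hv.comp h1).congr' ?_
  have h2 : ∀ᶠ x : En (m + 3) in Bornology.cobounded _, x ≠ 0 :=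
    (tendsto_norm_cobounded_atTop.eventually (eventually_gt_atTop (0 : ℝ))).mono
      fun x hx => norm_pos_iff.1 hx
  filter_upwards [h2] with x hx
  rw [h.sqrt_det_gfam hx]; rfl

end Fam

end Crest.Agent.R202.Geo
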