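import Crest.Agent.R202.Moser4

/-!
# Row 202: Moser's sup bound

Main exports (all constants only depend on `n ≥ 3`, `lam`, `Lam`):
* `sup_bound` : `A`, `v` global, `Ell` and `WeakSol` on `ball x0 (2r)`;
* `sup_bound_on` : the same for data on an open set containing `closedBall x0 (2r)`;
* `weakSol_of_div` : a pointwise solution is a weak solution.
-/

set_option autoImplicit false
open MeasureTheory Metric Set Filter Topology InnerProductSpace
open scoped NNReal ENNReal RealInnerProductSpace Gradient ContDiff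

namespace Crest.Agent.R202.Moser

noncomputable section

variable {n : ℕ}

local notation "E" n => EuclideanSpace ℝ (Fin n)

lemma integral_affine (f : (E n) → ℝ) (x0 : E n) {r : ℝ} (hr : 0 < r) :
    ∫ y, f (x0 + r • y) = (r ^ n)⁻¹ * ∫ x, f x := by
  have h1 := Measure.integral_comp_smul (volume : Measure (E n)) (fun z => f (x0 + z)) r
  have h2 : ∫ z, f (x0 + z) = ∫ x, f x := integral_add_left_eq_self f x0
  rw [h2] at h1
  have hfr : Module.finrank ℝ (E n) = n := by simp
  rw [h1, hfr, smul_eq_mul, abs_of_pos (by positivity)]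

lemma setIntegral_affine (f : (E n) → ℝ) (x0 : E n) {r : ℝ} (hr : 0 < r) (ρ : ℝ) :
    ∫ y in ball (0 : E n) ρ, f (x0 + r • y) = (r ^ n)⁻¹ * ∫ x in ball x0 (ρ * r), f x := by
  have h1 : ∀ y : E n, (ball (0 : E n) ρ).indicator (fun y => f (x0 + r • y)) y
      = (ball x0 (ρ * r)).indicator f (x0 + r • y) := by
    intro y
    have hiff : x0 + r • y ∈ ball x0 (ρ * r) ↔ y ∈ ball (0 : E n) ρ := by
      rw [mem_ball_iff_norm, add_sub_cancel_left, norm_smul, Real.norm_eq_abs, abs_of_pos hr,
        mem_ball_zero_iff, mul_comm]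
      exact mul_lt_mul_iff_left₀ hr
    by_cases hy : y ∈ ball (0 : E n) ρ
    · rw [indicator_of_mem hy, indicator_of_mem (hiff.mpr hy)]
    · rw [indicator_of_notMem hy, indicator_of_notMem (fun h => hy (hiff.mp h))]
  rw [← integral_indicator measurableSet_ball, ← integral_indicator measurableSet_ball]
  simp_rw [h1]
  exact integral_affine _ x0 hr

lemma gradient_affine {v : (E n) → ℝ} {x0 y : E n} {r : ℝ}
    (hv : DifferentiableAt ℝ v (x0 + r • y)) :
    ∇ (fun z => v (x0 + r • z)) y = r • ∇ v (x0 + r • y) := by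
  have h1 : HasFDerivAt (fun z : E n => x0 + r • z) (r • ContinuousLinearMap.id ℝ (E n)) y := by
    have := ((hasFDerivAt_id (𝕜 := ℝ) y).const_smul r).const_add x0
    simpa using this
  have h2 : HasFDerivAt (fun z => v (x0 + r • z))
      ((fderiv ℝ v (x0 + r • y)).comp (r • ContinuousLinearMap.id ℝ (E n))) y :=
    hv.hasFDerivAt.comp y h1
  unfold gradient
  rw [h2.fderiv]
  simp

/-- **Moser's sup bound**, scale invariant form. -/
theorem sup_bound (hn : 3 ≤ n) {lam : ℝ} (Lam : ℝ) (hlam : 0 < lam) :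
    ∃ C : ℝ, 0 < C ∧ ∀ (A : (E n) → (E n) →L[ℝ] (E n)) (v : (E n) → ℝ) (x0 : E n) (r : ℝ), 0 < r →
      Continuous A → ContDiff ℝ 1 v → Ell lam Lam A x0 (2 * r) → WeakSol A v x0 (2 * r) →
      ∀ x ∈ ball x0 r, v x ^ 2 ≤ C * ((r ^ n)⁻¹ * ∫ y in ball x0 (2 * r), v y ^ 2) := by
  obtain ⟨C, hC, hunit⟩ := unit_scale hn Lam hlam
  refine ⟨C, hC, ?_⟩
  intro A v x0 r hr hA hv hell hw x hx
  have hvd := hv.differentiable (by norm_num)
  set A' : (E n) → (E n) →L[ℝ] (E n) := fun y => A (x0 + r • y) with hA'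
  set v' : (E n) → ℝ := fun y => v (x0 + r • y) with hv'
  have caff : Continuous (fun y : E n => x0 + r • y) := by fun_prop
  have daff : ContDiff ℝ 1 (fun y : E n => x0 + r • y) := by fun_prop
  have mem : ∀ y ∈ ball (0 : E n) 2, x0 + r • y ∈ ball x0 (2 * r) := by
    intro y hy
    rw [mem_ball_zero_iff] at hy
    rw [mem_ball_iff_norm, add_sub_cancel_left, norm_smul, Real.norm_eq_abs, abs_of_pos hr]
    nlinarith
  have hell' : Ell lam Lam A' 0 2 :=
    ⟨fun y hy ξ => hell.low _ (mem y hy) ξ, fun y hy ξ => hell.up _ (mem y hy) ξ⟩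
  have hw' : WeakSol A' v' 0 2 := by
    intro φ hφ hφc hφs
    set Φ : (E n) → ℝ := fun x => φ (r⁻¹ • (x - x0)) with hΦ
    have hΦ1 : ContDiff ℝ 1 Φ := hφ.comp (by fun_prop)
    have hsub : ∀ x, x ∉ (fun y : E n => x0 + r • y) '' tsupport φ → Φ x = 0 := by
      intro x hx
      simp only [hΦ]
      apply image_eq_zero_of_notMem_tsupport
      intro h
      exact hx ⟨_, h, by simp [smul_smul, mul_inv_cancel₀ hr.ne']⟩
    have hcomp : IsCompact ((fun y : E n => x0 + r • y) '' tsupport φ) := hφc.isCompact.image caff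
    have hΦc : HasCompactSupport Φ := HasCompactSupport.intro hcomp hsub
    have hΦs : tsupport Φ ⊆ ball x0 (2 * r) := by
      have h1 : tsupport Φ ⊆ (fun y : E n => x0 + r • y) '' tsupport φ := by
        apply closure_minimal _ hcomp.isClosed
        intro x hx
        by_contra h
        exact hx (hsub x h)
      intro x hx
      obtain ⟨y, hy, rfl⟩ := h1 hx
      exact mem y (hφs hy)
    have h0 := hw Φ hΦ1 hΦc hΦs
    have hg : ∀ y, ∇ φ y = r • ∇ Φ (x0 + r • y) := by
      intro y
      have e1 : (fun z => Φ (x0 + r • z)) = φ := by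
        funext z
        simp only [hΦ]
        congr 1
        rw [add_sub_cancel_left, smul_smul, inv_mul_cancel₀ hr.ne', one_smul]
      rw [← gradient_affine (hΦ1.differentiable (by norm_num) _), e1]
    have e2 : ∀ y, ⟪A' y (∇ v' y), ∇ φ y⟫
        = (fun x => r ^ 2 * ⟪A x (∇ v x), ∇ Φ x⟫) (x0 + r • y) := by
      intro y
      simp only [hv', hA']
      rw [gradient_affine (hvd _), hg y, map_smul, inner_smul_left, inner_smul_right]
      simp
      ring
    have e3 := integral_affine (fun x => r ^ 2 * ⟪A x (∇ v x), ∇ Φ x⟫) x0 hr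
    have e4 : ∫ x, r ^ 2 * ⟪A x (∇ v x), ∇ Φ x⟫ = 0 := by
      rw [integral_const_mul, h0, mul_zero]
    rw [e4, mul_zero] at e3
    rw [← e3]
    exact integral_congr_ae (Eventually.of_forall e2)
  have hx' : r⁻¹ • (x - x0) ∈ ball (0 : E n) 1 := by
    rw [mem_ball_iff_norm] at hx
    rw [mem_ball_zero_iff, norm_smul, norm_inv, Real.norm_eq_abs, abs_of_pos hr,
      inv_mul_lt_iff₀ hr, mul_one]
    exact hx
  have h1 := hunit A' v' (hA.comp caff) (hv.comp daff) hell' hw' _ hx'
  have h2 : v' (r⁻¹ • (x - x0)) = v x := by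
    simp only [hv']
    rw [smul_smul, mul_inv_cancel₀ hr.ne', one_smul, add_sub_cancel]
  rw [h2] at h1
  have h3 := setIntegral_affine (fun x => v x ^ 2) x0 hr 2
  simp only [hv'] at h1
  rw [h3] at h1
  exact h1

/-- a smooth cut-off equal to one near a compact set -/
lemma exists_chi {K U : Set (E n)} (hK : IsCompact K) (hU : IsOpen U) (hKU : K ⊆ U) :
    ∃ χ : (E n) → ℝ, ContDiff ℝ ∞ χ ∧ HasCompactSupport χ ∧ tsupport χ ⊆ U ∧
      ∃ V : Set (E n), IsOpen V ∧ K ⊆ V ∧ ∀ x ∈ V, χ x = 1 := by
  obtain ⟨K', hK', hKK', hK'U⟩ := exists_compact_between hK hU hKU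
  obtain ⟨K'', hK'', hKK'', hK''U⟩ := exists_compact_between hK' hU hK'U
  obtain ⟨f, hf1, hf2, hf3⟩ := exists_contMDiff_zero_iff_one_iff_of_isClosed
    (n := (⊤ : ℕ∞)) (I := modelWithCornersSelf ℝ (E n)) (M := E n) (s := (interior K'')ᶜ) (t := K')
    isOpen_interior.isClosed_compl hK'.isClosed (by
      rw [disjoint_compl_left_iff_subset]; exact hKK'')
  refine ⟨f, hf1.contDiff, ?_, ?_, interior K', isOpen_interior, hKK', ?_⟩
  · refine HasCompactSupport.intro hK'' fun x hx => ?_
    have : x ∈ (interior K'')ᶜ := fun h => hx (interior_subset h)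
    exact (hf3.1 x).mp this
  · have h1 : Function.support f ⊆ K'' := by
      intro x hx
      by_contra h
      have : x ∈ (interior K'')ᶜ := fun h' => h (interior_subset h')
      exact hx ((hf3.1 x).mp this)
    exact (closure_minimal h1 hK''.isClosed).trans hK''U
  · intro x hx
    exact (hf3.2 x).mp (interior_subset hx)

lemma continuous_mul_of_tsupport {F : Type*} [NormedAddCommGroup F] [NormedSpace ℝ F]
    {χ : (E n) → ℝ} {f : (E n) → F} {U : Set (E n)} (hU : IsOpen U) (hχ : Continuous χ)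
    (hχs : tsupport χ ⊆ U) (hf : ContinuousOn f U) : Continuous (fun x => χ x • f x) := by
  rw [continuous_iff_continuousAt]
  intro x
  by_cases hx : x ∈ U
  · exact hχ.continuousAt.smul (hf.continuousAt (hU.mem_nhds hx))
  · have h1 : x ∉ tsupport χ := fun h => hx (hχs h)
    have h2 : (fun x => χ x • f x) =ᶠ[𝓝 x] fun _ => 0 := by
      filter_upwards [(isClosed_tsupport χ).isOpen_compl.mem_nhds h1] with y hy
      rw [image_eq_zero_of_notMem_tsupport hy, zero_smul]
    exact (continuousAt_const).congr h2.symm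

lemma contDiff_mul_of_tsupport {F : Type*} [NormedAddCommGroup F] [NormedSpace ℝ F]
    {χ : (E n) → ℝ} {f : (E n) → F} {U : Set (E n)} {m : ℕ∞} (hU : IsOpen U) (hχ : ContDiff ℝ m χ)
    (hχs : tsupport χ ⊆ U) (hf : ContDiffOn ℝ m f U) : ContDiff ℝ m (fun x => χ x • f x) := by
  rw [contDiff_iff_contDiffAt]
  intro x
  by_cases hx : x ∈ U
  · exact hχ.contDiffAt.smul (hf.contDiffAt (hU.mem_nhds hx))
  · have h1 : x ∉ tsupport χ := fun h => hx (hχs h)
    have h2 : (fun x => χ x • f x) =ᶠ[𝓝 x] fun _ => 0 := by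
      filter_upwards [(isClosed_tsupport χ).isOpen_compl.mem_nhds h1] with y hy
      rw [image_eq_zero_of_notMem_tsupport hy, zero_smul]
    exact contDiffAt_const.congr_of_eventuallyEq h2

/-- Moser's sup bound for data defined on an open set containing the closed ball. -/
theorem sup_bound_on (hn : 3 ≤ n) {lam : ℝ} (Lam : ℝ) (hlam : 0 < lam) :
    ∃ C : ℝ, 0 < C ∧ ∀ (A : (E n) → (E n) →L[ℝ] (E n)) (v : (E n) → ℝ) (x0 : E n) (r : ℝ)
      (U : Set (E n)), 0 < r → IsOpen U → closedBall x0 (2 * r) ⊆ U →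
      ContinuousOn A U → ContDiffOn ℝ 1 v U → Ell lam Lam A x0 (2 * r) → WeakSol A v x0 (2 * r) →
      ∀ x ∈ ball x0 r, v x ^ 2 ≤ C * ((r ^ n)⁻¹ * ∫ y in ball x0 (2 * r), v y ^ 2) := by
  obtain ⟨C, hC, hb⟩ := sup_bound hn Lam hlam
  refine ⟨C, hC, ?_⟩
  intro A v x0 r U hr hU hKU hA hv hell hw x hx
  obtain ⟨χ, hχ1, hχc, hχs, V, hV, hKV, hχV⟩ := exists_chi (isCompact_closedBall x0 (2 * r)) hU hKU
  set A' : (E n) → (E n) →L[ℝ] (E n) := fun x => χ x • A x with hA'
  set v' : (E n) → ℝ := fun x => χ x • v x with hv'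
  have hA'c : Continuous A' := continuous_mul_of_tsupport hU hχ1.continuous hχs hA
  have hv'c : ContDiff ℝ 1 v' :=
    contDiff_mul_of_tsupport (m := 1) hU (hχ1.of_le (by exact_mod_cast le_top)) hχs hv
  have hbV : ball x0 (2 * r) ⊆ V := ball_subset_closedBall.trans hKV
  have eA : ∀ x ∈ ball x0 (2 * r), A' x = A x := fun x hx => by
    simp only [hA']; rw [hχV x (hbV hx), one_smul]
  have ev : ∀ x ∈ ball x0 (2 * r), v' x = v x := fun x hx => by
    simp only [hv']; rw [hχV x (hbV hx), one_smul]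
  have eg : ∀ x ∈ ball x0 (2 * r), ∇ v' x = ∇ v x := fun x hx => by
    have h1 : v' =ᶠ[𝓝 x] v := by
      filter_upwards [isOpen_ball.mem_nhds hx] with y hy using ev y hy
    unfold gradient
    rw [h1.fderiv_eq]
  have hell' : Ell lam Lam A' x0 (2 * r) :=
    ⟨fun x hx ξ => by rw [eA x hx]; exact hell.low x hx ξ,
      fun x hx ξ => by rw [eA x hx]; exact hell.up x hx ξ⟩
  have hw' : WeakSol A' v' x0 (2 * r) := by
    intro φ hφ hφc hφs
    rw [← hw φ hφ hφc hφs]
    apply integral_congr_ae
    refine Eventually.of_forall fun x => ?_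
    simp only
    by_cases hx : x ∈ tsupport φ
    · rw [eA x (hφs hx), eg x (hφs hx)]
    · have h0 : ∇ φ x = 0 := by
        have : fderiv ℝ φ x = 0 := by
          by_contra h
          exact hx (support_fderiv_subset ℝ h)
        simp [gradient, this]
      rw [h0, inner_zero_right, inner_zero_right]
  have h1 := hb A' v' x0 r hr hA'c hv'c hell' hw' x hx
  rw [ev x (ball_subset_ball (by linarith) hx)] at h1
  rw [setIntegral_congr_fun (g := fun y => v y ^ 2) measurableSet_ball
    (fun y hy => by simp only; rw [ev y hy])] at h1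
  exact h1

/-- the integral of a partial derivative of a compactly supported `C^1` function vanishes -/
lemma integral_pderiv_eq_zero {f : (E n) → ℝ} (hf : ContDiff ℝ 1 f) (hfc : HasCompactSupport f)
    (w : E n) : ∫ x, fderiv ℝ f x w = 0 := by
  have h1 : Integrable (fun x => fderiv ℝ f x w) := by
    apply Continuous.integrable_of_hasCompactSupport
    · exact (hf.continuous_fderiv (by norm_num)).clm_apply continuous_const
    · exact (hfc.fderiv ℝ).comp_left (g := fun L : (E n) →L[ℝ] ℝ => L w) (by simp)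
  have h2 : Integrable f := hf.continuous.integrable_of_hasCompactSupport hfc
  have h3 := integral_mul_fderiv_eq_neg_fderiv_mul_of_integrable (μ := (volume : Measure (E n)))
    (f := fun _ : E n => (1 : ℝ)) (g := f) (v := w) (𝕜 := ℝ)
    (by simp) (by simpa using h1) (by simpa using h2) (by fun_prop)
    (fun x _ => hf.differentiable (by norm_num) x)
  simpa using h3

/-- a vector field `X` (coordinates `X i`) with vanishing divergence on the ball is orthogonal to
gradients of test functions; `A ∇ v = X` on the ball. -/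
theorem weakSol_of_div {A : (E n) → (E n) →L[ℝ] (E n)} {v : (E n) → ℝ} {x0 : E n} {R : ℝ}
    {X : Fin n → (E n) → ℝ} (hX : ∀ i, ContDiffOn ℝ 1 (X i) (ball x0 R))
    (hXA : ∀ x ∈ ball x0 R, ∀ i, A x (∇ v x) i = X i x)
    (hdiv : ∀ x ∈ ball x0 R, ∑ i, fderiv ℝ (X i) x (EuclideanSpace.single i 1) = 0) :
    WeakSol A v x0 R := by
  intro φ hφ hφc hφs
  have hgφ : ∀ x i, (∇ φ x) i = fderiv ℝ φ x (EuclideanSpace.single i 1) := by
    intro x i
    have h1 : ⟪∇ φ x, EuclideanSpace.single i (1 : ℝ)⟫ = fderiv ℝ φ x (EuclideanSpace.single i 1) := by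
      unfold gradient
      exact InnerProductSpace.toDual_symm_apply
    rw [← h1, EuclideanSpace.inner_single_right]
    simp
  have hf1 : ∀ i, ContDiff ℝ 1 (fun x => φ x • X i x) := fun i =>
    contDiff_mul_of_tsupport (m := 1) isOpen_ball hφ hφs (hX i)
  have hfc : ∀ i, HasCompactSupport (fun x => φ x • X i x) := fun i =>
    HasCompactSupport.intro hφc.isCompact fun x hx => by
      rw [image_eq_zero_of_notMem_tsupport hx, zero_smul]
  have h0 : ∀ i, ∫ x, fderiv ℝ (fun x => φ x • X i x) x (EuclideanSpace.single i 1) = 0 := fun i =>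
    integral_pderiv_eq_zero (hf1 i) (hfc i) _
  have hint : ∀ i, Integrable
      (fun x => fderiv ℝ (fun x => φ x • X i x) x (EuclideanSpace.single i 1)) := fun i => by
    apply Continuous.integrable_of_hasCompactSupport
    · exact ((hf1 i).continuous_fderiv (by norm_num)).clm_apply continuous_const
    · exact ((hfc i).fderiv ℝ).comp_left (g := fun L : (E n) →L[ℝ] ℝ => L _) (by simp)
  have hsum : ∫ x, ∑ i, fderiv ℝ (fun x => φ x • X i x) x (EuclideanSpace.single i 1) = 0 := by
    rw [integral_finsetSum _ fun i _ => hint i]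
    exact Finset.sum_eq_zero fun i _ => h0 i
  rw [← hsum]
  apply integral_congr_ae
  refine Eventually.of_forall fun x => ?_
  simp only
  by_cases hx : x ∈ tsupport φ
  · have hxb := hφs hx
    have hd : ∀ i, fderiv ℝ (fun x => φ x • X i x) x (EuclideanSpace.single i 1)
        = φ x * fderiv ℝ (X i) x (EuclideanSpace.single i 1)
          + X i x * fderiv ℝ φ x (EuclideanSpace.single i 1) := by
      intro i
      have e1 : HasFDerivAt (X i) (fderiv ℝ (X i) x) x :=
        (((hX i).contDiffAt (isOpen_ball.mem_nhds hxb)).differentiableAt (by norm_num)).hasFDerivAt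
      have e2 : HasFDerivAt φ (fderiv ℝ φ x) x := (hφ.differentiable (by norm_num) x).hasFDerivAt
      have e3 := e2.mul e1
      have e4 : fderiv ℝ (fun x => φ x • X i x) x = φ x • fderiv ℝ (X i) x + X i x • fderiv ℝ φ x :=
        e3.fderiv
      rw [e4]
      simp
    simp_rw [hd]
    rw [Finset.sum_add_distrib, ← Finset.mul_sum, hdiv x hxb, mul_zero, zero_add]
    rw [PiLp.inner_apply]
    apply Finset.sum_congr rfl
    intro i _
    rw [hXA x hxb i, hgφ x i]
    simp [mul_comm]
  · have hnear : ∀ᶠ y in 𝓝 x, y ∉ tsupport φ := (isClosed_tsupport φ).isOpen_compl.mem_nhds hx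
    have h0 : ∇ φ x = 0 := by
      have : fderiv ℝ φ x = 0 := by
        by_contra h
        exact hx (support_fderiv_subset ℝ h)
      simp [gradient, this]
    rw [h0, inner_zero_right]
    symm
    apply Finset.sum_eq_zero
    intro i _
    have : (fun x => φ x • X i x) =ᶠ[𝓝 x] fun _ => 0 := by
      filter_upwards [hnear] with y hy
      rw [image_eq_zero_of_notMem_tsupport hy, zero_smul]
    rw [this.fderiv_eq]
    simp

end

end Crest.Agent.R202.Moser
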