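import Mathlib
import Crest.Agent.R202.GeoFam
import Crest.Agent.R202.EllDefs
import Crest.Agent.R202.Moser

/-!
Row 202, part D (helper523): the coefficient field `√det g · g⁻¹` of `gfam s θ P`: smoothness,
frame formula, uniform ellipticity; harmonic functions in divergence form.
-/

set_option autoImplicit false

open scoped ContDiff Matrix RealInnerProductSpace
open Set Filter Topology
open Crest.GeometryTopology.CoordMetric

namespace Crest.Agent.R202.Geo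

/-- The coefficient field of the Laplace-Beltrami operator of `gfam s θ P` in divergence form. -/
noncomputable def coefF {m : ℕ} (s θ : ℝ → ℝ) (P : ℝ → ℝ → ℂ → ℝ) : MetricField (m + 3) :=
  coefR (sigOf s) (fixA (Afam θ P))

section general

variable {n : ℕ}

/-- a symmetric matrix with `0 ≤ B ≤ L` has operator norm `≤ L` -/
lemma norm_toEuclideanCLM_le {B : Matrix (Fin n) (Fin n) ℝ} (hs : ∀ i j, B i j = B j i) {L : ℝ}
    (hL : 0 ≤ L) (h0 : ∀ w : En n, 0 ≤ ∑ i, ∑ j, B i j * w i * w j)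
    (h1 : ∀ w : En n, ∑ i, ∑ j, B i j * w i * w j ≤ L * ∑ i, w i * w i) (w : En n) :
    ‖Matrix.toEuclideanCLM (𝕜 := ℝ) B w‖ ≤ L * ‖w‖ := by
  set T := Matrix.toEuclideanCLM (𝕜 := ℝ) B with hT
  have hTa : ∀ v : En n, ∀ i, T v i = ∑ j, B i j * v j := by
    intro v i
    have : T v = WithLp.toLp 2 (B.mulVec (WithLp.ofLp v)) := by
      rw [hT, Matrix.toEuclideanCLM_toLp]
    rw [this]; rfl
  have hq : ∀ v v' : En n, ⟪T v, v'⟫ = ∑ i, ∑ j, B i j * v j * v' i := by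
    intro v v'
    rw [PiLp.inner_apply]
    refine Finset.sum_congr rfl fun i _ => ?_
    rw [hTa, RCLike.inner_apply, conj_trivial, Finset.mul_sum]
    exact Finset.sum_congr rfl fun j _ => by ring
  have hqq : ∀ v : En n, ⟪T v, v⟫ = ∑ i, ∑ j, B i j * v i * v j := by
    intro v; rw [hq]
    exact Finset.sum_congr rfl fun i _ => Finset.sum_congr rfl fun j _ => by ring
  have hsym : ∀ v v' : En n, ⟪T v, v'⟫ = ⟪T v', v⟫ := by
    intro v v'
    rw [hq, hq, Finset.sum_comm]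
    exact Finset.sum_congr rfl fun i _ => Finset.sum_congr rfl fun j _ => by rw [hs]; ring
  -- Cauchy-Schwarz for the form
  have hCS : ∀ v v' : En n, ⟪T v, v'⟫ ^ 2 ≤ ⟪T v, v⟫ * ⟪T v', v'⟫ := by
    intro v v'
    have hpos : ∀ r : ℝ, 0 ≤ ⟪T v', v'⟫ * (r * r) + 2 * ⟪T v, v'⟫ * r + ⟪T v, v⟫ := by
      intro r
      have h2 := h0 (v + r • v')
      rw [← hqq, map_add, map_smul, inner_add_left, inner_add_right, inner_add_right,
        real_inner_smul_left, real_inner_smul_left, real_inner_smul_right,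
        real_inner_smul_right, hsym v' v] at h2
      nlinarith
    have := discrim_le_zero hpos
    rw [discrim] at this
    nlinarith
  have h3 := hCS w (T w)
  have h4 : ⟪T w, T w⟫ = ‖T w‖ ^ 2 := real_inner_self_eq_norm_sq _
  have h5 : ⟪T w, w⟫ ≤ L * ‖w‖ ^ 2 := by rw [hqq, ← sum_sq_eq]; exact h1 w
  have h6 : ⟪T (T w), T w⟫ ≤ L * ‖T w‖ ^ 2 := by rw [hqq, ← sum_sq_eq]; exact h1 (T w)
  have h7 : 0 ≤ ⟪T (T w), T w⟫ := by rw [hqq]; exact h0 _
  rw [h4] at h3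
  have h8 : (‖T w‖ ^ 2) ^ 2 ≤ (L * ‖w‖ ^ 2) * (L * ‖T w‖ ^ 2) :=
    h3.trans (mul_le_mul h5 h6 h7 (by positivity))
  by_cases hz : ‖T w‖ = 0
  · rw [hz]; positivity
  · have hz' : 0 < ‖T w‖ ^ 2 := by positivity
    have h9 : ‖T w‖ ^ 2 ≤ (L * ‖w‖) ^ 2 := by
      have : ‖T w‖ ^ 2 * ‖T w‖ ^ 2 ≤ (L * ‖w‖) ^ 2 * ‖T w‖ ^ 2 := by nlinarith
      exact le_of_mul_le_mul_right this hz'
    exact (pow_le_pow_iff_left₀ (norm_nonneg _) (by positivity) two_ne_zero).1 h9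

lemma inner_toEuclideanCLM (B : Matrix (Fin n) (Fin n) ℝ) (w : En n) :
    ⟪Matrix.toEuclideanCLM (𝕜 := ℝ) B w, w⟫ = ∑ i, ∑ j, B i j * w i * w j := by
  have : Matrix.toEuclideanCLM (𝕜 := ℝ) B w = WithLp.toLp 2 (B.mulVec (WithLp.ofLp w)) := by
    rw [Matrix.toEuclideanCLM_toLp]
  rw [this, PiLp.inner_apply]
  refine Finset.sum_congr rfl fun i _ => ?_
  rw [RCLike.inner_apply, conj_trivial]
  simp only [Matrix.mulVec, dotProduct]
  rw [Finset.mul_sum]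
  exact Finset.sum_congr rfl fun j _ => by ring

lemma gR_frame {κ p q c : ℝ} (v a b : En n) :
    outer v + c • (frameM κ p q v a b - outer v) = frameM (c * κ) p q v a b := by
  unfold frameM
  rw [add_sub_cancel_left, smul_smul]

end general

namespace Fam

variable {m : ℕ} {s θ : ℝ → ℝ} {P : ℝ → ℝ → ℂ → ℝ} {t0 X0 X1 : ℝ}

/-- **Harmonic functions of `gfam s θ P` in divergence form.** -/
theorem isHarmonicOn_iff (h : Fam s θ P t0 X0 X1) (u : En (m + 3) → ℝ) :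
    IsHarmonicOn (gfam s θ P) Set.univ u ↔
      ContDiff ℝ ∞ u ∧ ∀ x, Ell.divA (coefF s θ P) u x = 0 := by
  rw [gfam, gRad_eq]; exact h.radData.isHarmonicOn_iff u

theorem contDiff_coefF (h : Fam s θ P t0 X0 X1) (i j : Fin (m + 3)) :
    ContDiff ℝ ∞ fun x => coefF s θ P x i j := h.radData.contDiff_coefR i j

theorem coefF_symm (h : Fam s θ P t0 X0 X1) (x : En (m + 3)) (i j : Fin (m + 3)) :
    coefF s θ P x i j = coefF s θ P x j i := h.radData.coefR_symm x i j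

theorem coefF_near_zero (h : Fam s θ P t0 X0 X1) :
    ∃ r : ℝ, 0 < r ∧ ∀ x : En (m + 3), ‖x‖ < r → coefF s θ P x = 1 := h.radData.coefR_near_zero

theorem coefF_zero (h : Fam s θ P t0 X0 X1) : coefF s θ P (0 : En (m + 3)) = 1 := by
  obtain ⟨r, hr, h1⟩ := h.coefF_near_zero (m := m)
  exact h1 0 (by simpa using hr)

/-- frame formula of the coefficient field -/
theorem coefF_frame (h : Fam s θ P t0 X0 X1) {x : En (m + 3)} (hx : x ≠ 0) :
    ∃ (a b : En (m + 3)) (X : ℝ) (u : ℂ), Tri (nu x) a b ∧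
      Afam θ P x = frameM (kap m θ (Real.log ‖x‖)) (P (Real.log ‖x‖) X u)⁻¹
        ((θ (Real.log ‖x‖)) ^ 2 * P (Real.log ‖x‖) X u) (nu x) a b ∧
      coefF s θ P x = Real.exp (-((m : ℝ) + 2) * s (Real.log ‖x‖)) •
        frameM (Real.exp (2 * s (Real.log ‖x‖)) * (kap m θ (Real.log ‖x‖))⁻¹)
          (P (Real.log ‖x‖) X u)
          ((θ (Real.log ‖x‖)) ^ 2 * P (Real.log ‖x‖) X u)⁻¹ (nu x) a b := by
  obtain ⟨a, b, X, u, hT, hA⟩ := h.frame_exists hx
  refine ⟨a, b, X, u, hT, hA, ?_⟩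
  have hP := (h.P_pos (Real.log ‖x‖) X u).ne'
  have hθ := (h.θ_pos (Real.log ‖x‖)).ne'
  have hinv : (Afam θ P x)⁻¹ = frameM (kap m θ (Real.log ‖x‖))⁻¹ (P (Real.log ‖x‖) X u)
        ((θ (Real.log ‖x‖)) ^ 2 * P (Real.log ‖x‖) X u)⁻¹ (nu x) a b := by
    apply Matrix.inv_eq_right_inv
    rw [hA]
    have := frameM_mul_inv (h.kap_ne (m := m) (Real.log ‖x‖)) (inv_ne_zero hP)
      (mul_ne_zero (pow_ne_zero 2 hθ) hP) hT
    rwa [inv_inv] at this
  have hs : sigOf s x = s (Real.log ‖x‖) := by simp [sigOf, hx]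
  have hf : fixA (Afam θ P) x = Afam θ P x := by simp [fixA, hx]
  unfold coefF coefR gRInv
  rw [hs, hf, hinv, radP_eq_outer, gR_frame]
  congr 2
  push_cast; ring

/-- Uniform bounds on the data. -/
structure Bd (s θ : ℝ → ℝ) (P : ℝ → ℝ → ℂ → ℝ) (K : ℝ) : Prop where
  one_le : 1 ≤ K
  s_le : ∀ t, |s t| ≤ K
  θ_ge : ∀ t, K⁻¹ ≤ θ t
  P_ge : ∀ t X u, K⁻¹ ≤ P t X u
  P_le : ∀ t X u, P t X u ≤ K

theorem coefF_bounds (m : ℕ) (K : ℝ) (hK : 1 ≤ K) : ∃ lam Lam : ℝ, 0 < lam ∧ 0 < Lam ∧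
    ∀ (s θ : ℝ → ℝ) (P : ℝ → ℝ → ℂ → ℝ) (t0 X0 X1 : ℝ), Fam s θ P t0 X0 X1 → Bd s θ P K →
      ∀ (x w : En (m + 3)),
        lam * ∑ i, w i * w i ≤ ∑ i, ∑ j, coefF s θ P x i j * w i * w j ∧
        ∑ i, ∑ j, coefF s θ P x i j * w i * w j ≤ Lam * ∑ i, w i * w i := by
  have hK0 : 0 < K := by linarith
  set D : ℝ := Real.exp (((m : ℝ) + 4) * K) * K ^ 3 with hD
  have hE1 : 1 ≤ Real.exp (((m : ℝ) + 4) * K) := Real.one_le_exp (by positivity)
  have hD1 : 1 ≤ D := by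
    rw [hD]; exact one_le_mul_of_one_le_of_one_le hE1 (one_le_pow₀ hK)
  have hD0 : 0 < D := by linarith
  refine ⟨D⁻¹, D, inv_pos.2 hD0, hD0, ?_⟩
  intro s θ P t0 X0 X1 h hb x w
  by_cases hx : x = 0
  · subst hx
    rw [h.coefF_zero]
    have : ∑ i, ∑ j, (1 : Matrix (Fin (m + 3)) (Fin (m + 3)) ℝ) i j * w i * w j
        = ∑ i, w i * w i := by
      refine Finset.sum_congr rfl fun i _ => ?_
      simp [Matrix.one_apply]
    rw [this]
    have hW : 0 ≤ ∑ i, w i * w i := Finset.sum_nonneg fun i _ => mul_self_nonneg _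
    have : D⁻¹ ≤ 1 := inv_le_one_of_one_le₀ hD1
    constructor <;> nlinarith
  · obtain ⟨a, b, X, u, hT, -, hC⟩ := h.coefF_frame hx
    set t := Real.log ‖x‖ with ht
    have hs := abs_le.1 (hb.s_le t)
    have hθ1 := h.θ_le t
    have hθ0 := h.θ_pos t
    have hθK := hb.θ_ge t
    have hP0 := h.P_pos t X u
    have hPK := hb.P_ge t X u
    have hPL := hb.P_le t X u
    set W := Real.exp (-((m : ℝ) + 2) * s t) with hWdef
    set k := Real.exp (2 * s t) * (kap m θ t)⁻¹ with hk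
    have hW0 : 0 < W := Real.exp_pos _
    have hkap : (kap m θ t)⁻¹ = (θ t) ^ ((2 : ℝ) / ((m : ℝ) + 2)) := by
      rw [kap, neg_div, Real.rpow_neg hθ0.le, inv_inv]
    have hk1 : (kap m θ t)⁻¹ ≤ 1 := by
      rw [hkap]; exact Real.rpow_le_one hθ0.le hθ1 (by positivity)
    have hk2 : K⁻¹ ≤ (kap m θ t)⁻¹ := by
      rw [hkap]
      refine hθK.trans ?_
      have := Real.rpow_le_rpow_of_exponent_ge hθ0 hθ1
        (show (2 : ℝ) / ((m : ℝ) + 2) ≤ 1 by
          rw [div_le_one (by positivity)]; have : (0 : ℝ) ≤ m := Nat.cast_nonneg m; linarith)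
      rwa [Real.rpow_one] at this
    have hKi : 0 < K⁻¹ := inv_pos.2 hK0
    have hk0 : 0 < k := mul_pos (Real.exp_pos _) (hKi.trans_le hk2)
    -- exponential bounds
    have hm0 : (0 : ℝ) ≤ m := Nat.cast_nonneg m
    set e0 := Real.exp (((m : ℝ) + 4) * K) with he0
    have he0p : 0 < e0 := Real.exp_pos _
    have b1 : W ≤ e0 := Real.exp_le_exp.2 (by nlinarith)
    have b2 : e0⁻¹ ≤ W := by
      rw [he0, ← Real.exp_neg]; exact Real.exp_le_exp.2 (by nlinarith)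
    have b3 : W * Real.exp (2 * s t) ≤ e0 := by
      rw [hWdef, ← Real.exp_add]; exact Real.exp_le_exp.2 (by nlinarith)
    have b4 : e0⁻¹ ≤ W * Real.exp (2 * s t) := by
      rw [he0, hWdef, ← Real.exp_add, ← Real.exp_neg]; exact Real.exp_le_exp.2 (by nlinarith)
    have hWk1 : W * k ≤ e0 := by
      rw [hk, ← mul_assoc]
      calc W * Real.exp (2 * s t) * (kap m θ t)⁻¹ ≤ W * Real.exp (2 * s t) * 1 :=
            mul_le_mul_of_nonneg_left hk1 (by positivity)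
        _ ≤ e0 := by rw [mul_one]; exact b3
    have hWk2 : e0⁻¹ * K⁻¹ ≤ W * k := by
      rw [hk, ← mul_assoc]
      exact mul_le_mul b4 hk2 hKi.le (by positivity)
    have hq : K⁻¹ ≤ ((θ t) ^ 2 * P t X u)⁻¹ := by
      apply inv_anti₀ (by positivity)
      calc (θ t) ^ 2 * P t X u ≤ 1 * P t X u :=
            mul_le_mul_of_nonneg_right (pow_le_one₀ hθ0.le hθ1) hP0.le
        _ ≤ K := by rw [one_mul]; exact hPL
    have hq' : ((θ t) ^ 2 * P t X u)⁻¹ ≤ K ^ 3 := by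
      have h1 : (K ^ 3)⁻¹ ≤ (θ t) ^ 2 * P t X u := by
        have h2 : (K ^ 3)⁻¹ = K⁻¹ ^ 2 * K⁻¹ := by rw [inv_pow]; field_simp
        rw [h2]
        exact mul_le_mul (pow_le_pow_left₀ hKi.le hθK 2) hPK hKi.le (by positivity)
      have := inv_anti₀ (by positivity) h1
      rwa [inv_inv] at this
    have hDi : D⁻¹ = e0⁻¹ * (K⁻¹) ^ 3 := by rw [hD, mul_inv, inv_pow]
    have hKi1 : K⁻¹ ≤ 1 := inv_le_one_of_one_le₀ hK
    have hKp : (K⁻¹) ^ 3 ≤ 1 := pow_le_one₀ hKi.le hKi1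
    have hKp2 : (K⁻¹) ^ 3 ≤ K⁻¹ := by
      calc (K⁻¹) ^ 3 = (K⁻¹) ^ 2 * K⁻¹ := by ring
        _ ≤ 1 * K⁻¹ := mul_le_mul_of_nonneg_right (pow_le_one₀ hKi.le hKi1) hKi.le
        _ = K⁻¹ := one_mul _
    have hKp3 : (K⁻¹) ^ 3 ≤ K⁻¹ * K⁻¹ := by
      calc (K⁻¹) ^ 3 = K⁻¹ * (K⁻¹ * K⁻¹) := by ring
        _ ≤ 1 * (K⁻¹ * K⁻¹) := mul_le_mul_of_nonneg_right hKi1 (by positivity)
        _ = K⁻¹ * K⁻¹ := one_mul _
    have hei : 0 < e0⁻¹ := inv_pos.2 he0p
    have hK3 : 1 ≤ K ^ 3 := one_le_pow₀ hK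
    have hKK3 : K ≤ K ^ 3 := by
      calc K = K * 1 := (mul_one _).symm
        _ ≤ K * K ^ 2 := mul_le_mul_of_nonneg_left (one_le_pow₀ hK) hK0.le
        _ = K ^ 3 := by ring
    -- the scaled form
    have hsum : ∑ i, ∑ j, coefF s θ P x i j * w i * w j = W * ∑ i, ∑ j,
        frameM k (P t X u) ((θ t) ^ 2 * P t X u)⁻¹ (nu x) a b i j * w i * w j := by
      rw [hC]
      simp only [Finset.mul_sum, Matrix.smul_apply, smul_eq_mul]
      exact Finset.sum_congr rfl fun i _ => Finset.sum_congr rfl fun j _ => by ring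
    rw [hsum]
    have lowb : D⁻¹ / W * ∑ i, w i * w i ≤ ∑ i, ∑ j,
        frameM k (P t X u) ((θ t) ^ 2 * P t X u)⁻¹ (nu x) a b i j * w i * w j := by
      refine frameM_quad_ge hT ?_ ?_ ?_ ?_ w
      · rw [div_le_one hW0, hDi]
        calc e0⁻¹ * K⁻¹ ^ 3 ≤ e0⁻¹ * 1 := mul_le_mul_of_nonneg_left hKp hei.le
          _ ≤ W := by rw [mul_one]; exact b2
      · rw [div_le_iff₀ hW0, hDi, mul_comm k W]
        exact (mul_le_mul_of_nonneg_left hKp2 hei.le).trans hWk2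
      · rw [div_le_iff₀ hW0, hDi]
        calc e0⁻¹ * K⁻¹ ^ 3 ≤ e0⁻¹ * (K⁻¹ * K⁻¹) := mul_le_mul_of_nonneg_left hKp3 hei.le
          _ = (e0⁻¹ * K⁻¹) * K⁻¹ := by ring
          _ ≤ (W * k) * P t X u := mul_le_mul hWk2 hPK hKi.le (by positivity)
          _ = k * P t X u * W := by ring
      · rw [div_le_iff₀ hW0, hDi]
        calc e0⁻¹ * K⁻¹ ^ 3 ≤ e0⁻¹ * (K⁻¹ * K⁻¹) := mul_le_mul_of_nonneg_left hKp3 hei.le
          _ = (e0⁻¹ * K⁻¹) * K⁻¹ := by ring
          _ ≤ (W * k) * ((θ t) ^ 2 * P t X u)⁻¹ := mul_le_mul hWk2 hq hKi.le (by positivity)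
          _ = k * ((θ t) ^ 2 * P t X u)⁻¹ * W := by ring
    have upb : ∑ i, ∑ j,
        frameM k (P t X u) ((θ t) ^ 2 * P t X u)⁻¹ (nu x) a b i j * w i * w j
        ≤ D / W * ∑ i, w i * w i := by
      refine frameM_quad_le hT ?_ ?_ ?_ ?_ w
      · rw [one_le_div hW0, hD]
        calc W ≤ e0 * 1 := by rw [mul_one]; exact b1
          _ ≤ e0 * K ^ 3 := mul_le_mul_of_nonneg_left hK3 he0p.le
      · rw [le_div_iff₀ hW0, hD, mul_comm k W]
        calc W * k ≤ e0 * 1 := by rw [mul_one]; exact hWk1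
          _ ≤ e0 * K ^ 3 := mul_le_mul_of_nonneg_left hK3 he0p.le
      · rw [le_div_iff₀ hW0, hD]
        calc k * P t X u * W = (W * k) * P t X u := by ring
          _ ≤ e0 * K ^ 3 := mul_le_mul hWk1 (hPL.trans hKK3) hP0.le he0p.le
      · rw [le_div_iff₀ hW0, hD]
        calc k * ((θ t) ^ 2 * P t X u)⁻¹ * W = (W * k) * ((θ t) ^ 2 * P t X u)⁻¹ := by ring
          _ ≤ e0 * K ^ 3 := mul_le_mul hWk1 hq' (by positivity) he0p.le
    constructor
    · have := mul_le_mul_of_nonneg_left lowb hW0.le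
      calc D⁻¹ * ∑ i, w i * w i = W * (D⁻¹ / W * ∑ i, w i * w i) := by field_simp
        _ ≤ _ := this
    · have := mul_le_mul_of_nonneg_left upb hW0.le
      calc _ ≤ W * (D / W * ∑ i, w i * w i) := this
        _ = D * ∑ i, w i * w i := by field_simp

theorem coefF_posDef (h : Fam s θ P t0 X0 X1) (x : En (m + 3)) :
    (coefF s θ P x).PosDef := by
  by_cases hx : x = 0
  · subst hx; rw [h.coefF_zero]; exact Matrix.PosDef.one
  · obtain ⟨a, b, X, u, hT, -, hC⟩ := h.coefF_frame hx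
    rw [hC]
    have hP := h.P_pos (Real.log ‖x‖) X u
    have hθ := h.θ_pos (Real.log ‖x‖)
    have hk := h.kap_pos (m := m) (Real.log ‖x‖)
    exact (frameM_posDef hT (by positivity) hP (by positivity)).smul (Real.exp_pos _)

/-- the coefficient field as a field of operators -/
noncomputable def coefL (s θ : ℝ → ℝ) (P : ℝ → ℝ → ℂ → ℝ) (x : En (m + 3)) :
    En (m + 3) →L[ℝ] En (m + 3) := Matrix.toEuclideanCLM (𝕜 := ℝ) (coefF s θ P x)

lemma coefL_apply (s θ : ℝ → ℝ) (P : ℝ → ℝ → ℂ → ℝ) (x w : En (m + 3)) (i : Fin (m + 3)) :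
    coefL s θ P x w i = ∑ j, coefF s θ P x i j * w j := by
  have : coefL s θ P x w = WithLp.toLp 2 ((coefF s θ P x).mulVec (WithLp.ofLp w)) := by
    rw [coefL, Matrix.toEuclideanCLM_toLp]
  rw [this]; rfl

theorem continuous_coefL (h : Fam s θ P t0 X0 X1) :
    Continuous (coefL (m := m) s θ P) := by
  have h1 : Continuous fun x : En (m + 3) => coefF s θ P x :=
    continuous_pi fun i => continuous_pi fun j => (h.contDiff_coefF i j).continuous
  let L : Matrix (Fin (m + 3)) (Fin (m + 3)) ℝ →ₗ[ℝ] (En (m + 3) →L[ℝ] En (m + 3)) :=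
    { toFun := fun B => Matrix.toEuclideanCLM (𝕜 := ℝ) B
      map_add' := fun _ _ => map_add _ _ _
      map_smul' := fun _ _ => map_smul _ _ _ }
  exact (LinearMap.continuous_of_finiteDimensional L).comp h1

/-- uniform ellipticity in the form used by the Moser estimate -/
theorem coefL_ell (m : ℕ) (K : ℝ) (hK : 1 ≤ K) : ∃ lam Lam : ℝ, 0 < lam ∧ 0 < Lam ∧
    ∀ (s θ : ℝ → ℝ) (P : ℝ → ℝ → ℂ → ℝ) (t0 X0 X1 : ℝ), Fam s θ P t0 X0 X1 → Bd s θ P K →
      ∀ (x0 : En (m + 3)) (R : ℝ), Moser.Ell lam Lam (coefL s θ P) x0 R := by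
  obtain ⟨lam, Lam, h1, h2, H⟩ := coefF_bounds m K hK
  refine ⟨lam, Lam, h1, h2, fun s θ P t0 X0 X1 h hb x0 R => ⟨fun x _ w => ?_, fun x _ w => ?_⟩⟩
  · rw [coefL, inner_toEuclideanCLM, ← sum_sq_eq]
    exact (H s θ P t0 X0 X1 h hb x w).1
  · refine norm_toEuclideanCLM_le (fun i j => h.coefF_symm x i j) h2.le (fun v => ?_)
      (fun v => (H s θ P t0 X0 X1 h hb x v).2) w
    refine le_trans ?_ (H s θ P t0 X0 X1 h hb x v).1
    exact mul_nonneg h1.le (Finset.sum_nonneg fun i _ => mul_self_nonneg _)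

end Fam

end Crest.Agent.R202.Geo
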