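import Mathlib
import Crest.Agent.R202.GeoDefs

/-!
Row 202, Part D: the hypotheses on the data `(s, θ, P)` under which `gfam s θ P` has
nonnegative Ricci curvature (interface between parts C, SCH and D).
-/

set_option autoImplicit false

open scoped ContDiff Topology

namespace Crest.Agent.R202.Geo

noncomputable section

/-- `P` in the angular variable `φ`. -/
def PP (P : ℝ → ℝ → ℂ → ℝ) (t X φ : ℝ) : ℝ := P t X (Complex.exp ((φ : ℂ) * Complex.I))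

/-- Partial derivative in the first (time) variable. -/
def dT (F : ℝ → ℝ → ℝ → ℝ) (t X φ : ℝ) : ℝ := deriv (fun τ => F τ X φ) t

/-- Partial derivative in the second variable `X`. -/
def dX (F : ℝ → ℝ → ℝ → ℝ) (t X φ : ℝ) : ℝ := deriv (fun Y => F t Y φ) X

/-- Partial derivative in the third variable `φ`. -/
def dF (F : ℝ → ℝ → ℝ → ℝ) (t X φ : ℝ) : ℝ := deriv (fun ψ => F t X ψ) φ

/-- `λ² = e^{-2s} θ^{-2/(n-1)}`, `n - 1 = m + 2`. -/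
def lamSq (m : ℕ) (s θ : ℝ → ℝ) (t : ℝ) : ℝ :=
  Real.exp (-2 * s t) * (θ t) ^ (-(2 : ℝ) / ((m : ℝ) + 2))

/-- Ricci curvature of the cross-section (times `λ²`) in the directions `e_X`, `e_φ`
(diagonal entries), in terms of `θ`, `P`, `X`-derivatives `P1, P2` and `φ`-derivatives
`F1, F2`.  Equal to `m + 1` for `P = 1`. -/
def q11 (m : ℕ) (θ X p P1 P2 F1 F2 : ℝ) : ℝ :=
  p + 2 * X * P1 - (1 - X ^ 2) * P2 / 2
    + (F2 / p ^ 2 - 2 * F1 ^ 2 / p ^ 3) / (2 * θ ^ 2 * (1 - X ^ 2))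
    + m * (p - (1 - X ^ 2) * P1 / (2 * X))

/-- Off-diagonal entry (times `λ²`). -/
def q12 (m : ℕ) (θ X p F1 : ℝ) : ℝ := -(m * F1 / (2 * θ * X * p))

/-- Ricci curvature of the cross-section (times `λ²`) in the directions of `S^m`. -/
def qw (m : ℕ) (X p P1 : ℝ) : ℝ :=
  (m - 1) * (1 - (1 - X ^ 2) * p) / X ^ 2 + 2 * p - (1 - X ^ 2) * P1 / X

/-- Cone condition with margin `μ` at time `t` (only the frozen cross-section and `s t` enter). -/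
structure ConeAt (m : ℕ) (s θ : ℝ → ℝ) (P : ℝ → ℝ → ℂ → ℝ) (μ t : ℝ) : Prop where
  base : ∀ X φ : ℝ, 0 < X → X < 1 →
    (m + 1) * (1 + μ) * lamSq m s θ t ≤
      q11 m (θ t) X (PP P t X φ) (dX (PP P) t X φ) (dX (dX (PP P)) t X φ)
          (dF (PP P) t X φ) (dF (dF (PP P)) t X φ)
        - |q12 m (θ t) X (PP P t X φ) (dF (PP P) t X φ)|
  fiber : 1 ≤ m → ∀ X φ : ℝ, 0 < X → X < 1 →
    (m + 1) * (1 + μ) * lamSq m s θ t ≤ qw m X (PP P t X φ) (dX (PP P) t X φ)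

/-- Jet bounds `K` for the frozen data and rate bound `ρ` at time `t`. -/
structure RateAt (s θ : ℝ → ℝ) (P : ℝ → ℝ → ℂ → ℝ) (K ρ t : ℝ) : Prop where
  θ_low : K⁻¹ ≤ θ t
  s_abs : |s t| ≤ K
  P_low : ∀ X φ : ℝ, 0 < X → X < 1 → K⁻¹ ≤ PP P t X φ
  P_up : ∀ X φ : ℝ, 0 < X → X < 1 → PP P t X φ ≤ K
  P_X : ∀ X φ : ℝ, 0 < X → X < 1 → |dX (PP P) t X φ| ≤ K
  P_φ : ∀ X φ : ℝ, 0 < X → X < 1 → |dF (PP P) t X φ| ≤ K
  θ_t : |deriv θ t| ≤ ρ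
  θ_tt : |deriv (deriv θ) t| ≤ ρ
  P_t : ∀ X φ : ℝ, 0 < X → X < 1 → |dT (PP P) t X φ| ≤ ρ
  P_tt : ∀ X φ : ℝ, 0 < X → X < 1 → |dT (dT (PP P)) t X φ| ≤ ρ
  P_tX : ∀ X φ : ℝ, 0 < X → X < 1 → |dX (dT (PP P)) t X φ| ≤ ρ
  P_tφ : ∀ X φ : ℝ, 0 < X → X < 1 → |dF (dT (PP P)) t X φ| ≤ ρ

/-- Everything at time `t`: deformation phase (cone margin `μ`, rates `ρ` with `ρ² ≤ c s'`). -/
structure DefPhase (m : ℕ) (s θ : ℝ → ℝ) (P : ℝ → ℝ → ℂ → ℝ) (K μ c t : ℝ) : Prop where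
  cone : ConeAt m s θ P μ t
  rate : ∃ ρ : ℝ, 0 ≤ ρ ∧ ρ ^ 2 ≤ c * deriv s t ∧ RateAt s θ P K ρ t
  s1_nonneg : 0 ≤ deriv s t
  s1_le : deriv s t ≤ c
  s2 : |deriv (deriv s) t| ≤ c * deriv s t

/-- Round phase at time `t`: `θ = 1`, `P = 1` for all times `≤ t₁` with `t < t₁`. -/
structure RoundPhase (s θ : ℝ → ℝ) (P : ℝ → ℝ → ℂ → ℝ) (t : ℝ) : Prop where
  t1 : ∃ t1, t < t1 ∧ (∀ τ ≤ t1, θ τ = 1) ∧ (∀ τ ≤ t1, ∀ X u, P τ X u = 1)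
  s_nonneg : 0 ≤ s t
  s1_nonneg : 0 ≤ deriv s t
  s1_le : deriv s t ≤ 1 / 4
  s2 : -(deriv s t) / 4 ≤ deriv (deriv s) t

end

end Crest.Agent.R202.Geo
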