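import Mathlib

/-! # Row 202, part B4b (helper728): weighted forms and their matrices

`wf μ w f g = ∫ ∑ k, w k z * f k z * g k z ∂μ` for bounded measurable component functions on a finite
measure space; `opM` = operator on `EuclideanSpace ℝ ι` of a matrix; differentiation and continuity
of `opM (wf μ (W t) (c i) (c j))` in a parameter. -/

set_option autoImplicit false
set_option linter.unusedSectionVars false
set_option linter.deprecated false

open MeasureTheory Filter Topology Set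
open scoped InnerProductSpace

namespace Crest.Agent.R202.Wgt

noncomputable section

variable {α : Type*} [MeasurableSpace α]
variable {κ : Type*} [Fintype κ]

/-- bounded measurable components -/
structure Bdd (μ : Measure α) (f : κ → α → ℝ) : Prop where
  meas : ∀ k, AEStronglyMeasurable (f k) μ
  bdd : ∃ C : ℝ, 0 ≤ C ∧ ∀ k, ∀ᵐ z ∂μ, |f k z| ≤ C

/-- the weighted form -/
def wf (μ : Measure α) (w f g : κ → α → ℝ) : ℝ := ∫ z, ∑ k, w k z * f k z * g k z ∂μ

variable {μ : Measure α} [IsFiniteMeasure μ]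

theorem Bdd.integrable_mul {w f g : κ → α → ℝ} (hw : Bdd μ w) (hf : Bdd μ f) (hg : Bdd μ g)
    (k : κ) : Integrable (fun z => w k z * f k z * g k z) μ := by
  obtain ⟨C1, h1, b1⟩ := hw.bdd
  obtain ⟨C2, h2, b2⟩ := hf.bdd
  obtain ⟨C3, h3, b3⟩ := hg.bdd
  refine Integrable.mono' (integrable_const (C1 * C2 * C3))
    (((hw.meas k).mul (hf.meas k)).mul (hg.meas k)) ?_
  filter_upwards [b1 k, b2 k, b3 k] with z a1 a2 a3
  rw [Real.norm_eq_abs, abs_mul, abs_mul]
  gcongr

theorem Bdd.integrable {w f g : κ → α → ℝ} (hw : Bdd μ w) (hf : Bdd μ f) (hg : Bdd μ g) :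
    Integrable (fun z => ∑ k, w k z * f k z * g k z) μ :=
  integrable_finsetSum _ fun k _ => hw.integrable_mul hf hg k

omit [IsFiniteMeasure μ] in
theorem Bdd.add {f g : κ → α → ℝ} (hf : Bdd μ f) (hg : Bdd μ g) :
    Bdd μ (fun k z => f k z + g k z) := by
  obtain ⟨C2, h2, b2⟩ := hf.bdd
  obtain ⟨C3, h3, b3⟩ := hg.bdd
  refine ⟨fun k => (hf.meas k).add (hg.meas k), C2 + C3, by linarith, fun k => ?_⟩
  filter_upwards [b2 k, b3 k] with z a2 a3
  exact (abs_add_le _ _).trans (add_le_add a2 a3)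

omit [IsFiniteMeasure μ] in
theorem Bdd.smul {f : κ → α → ℝ} (hf : Bdd μ f) (c : ℝ) : Bdd μ (fun k z => c * f k z) := by
  obtain ⟨C2, h2, b2⟩ := hf.bdd
  refine ⟨fun k => (hf.meas k).const_mul c, |c| * C2, by positivity, fun k => ?_⟩
  filter_upwards [b2 k] with z a2
  rw [abs_mul]; gcongr

omit [IsFiniteMeasure μ] in
theorem Bdd.zero : Bdd μ (fun (_ : κ) (_ : α) => (0 : ℝ)) :=
  ⟨fun _ => aestronglyMeasurable_const, 0, le_rfl, fun _ => by simp⟩

omit [IsFiniteMeasure μ] in
theorem Bdd.sum {ι : Type*} (s : Finset ι) {c : ι → κ → α → ℝ} (hc : ∀ i, Bdd μ (c i)) :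
    Bdd μ (fun k z => ∑ i ∈ s, c i k z) := by
  classical
  induction s using Finset.induction_on with
  | empty => simpa using (Bdd.zero (μ := μ) (κ := κ))
  | insert i s his ih =>
    have h := (hc i).add ih
    refine ⟨fun k => (h.meas k).congr (Eventually.of_forall fun z => ?_), ?_⟩
    · simp [Finset.sum_insert his]
    · obtain ⟨C, hC, hb⟩ := h.bdd
      refine ⟨C, hC, fun k => ?_⟩
      filter_upwards [hb k] with z hz
      rwa [Finset.sum_insert his]

/-! ### bilinearity -/

omit [IsFiniteMeasure μ] in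
theorem wf_comm (w f g : κ → α → ℝ) : wf μ w f g = wf μ w g f := by
  unfold wf
  congr 1; ext z
  exact Finset.sum_congr rfl fun k _ => by ring

theorem wf_add_left {w f f' g : κ → α → ℝ} (hw : Bdd μ w) (hf : Bdd μ f) (hf' : Bdd μ f')
    (hg : Bdd μ g) :
    wf μ w (fun k z => f k z + f' k z) g = wf μ w f g + wf μ w f' g := by
  unfold wf
  rw [← integral_add (hw.integrable hf hg) (hw.integrable hf' hg)]
  congr 1; ext z
  rw [← Finset.sum_add_distrib]
  exact Finset.sum_congr rfl fun k _ => by ring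

omit [IsFiniteMeasure μ] in
theorem wf_smul_left (w f g : κ → α → ℝ) (c : ℝ) :
    wf μ w (fun k z => c * f k z) g = c * wf μ w f g := by
  unfold wf
  rw [← integral_const_mul]
  congr 1; ext z
  rw [Finset.mul_sum]
  exact Finset.sum_congr rfl fun k _ => by ring

theorem wf_add_weight {w w' f g : κ → α → ℝ} (hw : Bdd μ w) (hw' : Bdd μ w') (hf : Bdd μ f)
    (hg : Bdd μ g) :
    wf μ (fun k z => w k z + w' k z) f g = wf μ w f g + wf μ w' f g := by
  unfold wf
  rw [← integral_add (hw.integrable hf hg) (hw'.integrable hf hg)]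
  congr 1; ext z
  rw [← Finset.sum_add_distrib]
  exact Finset.sum_congr rfl fun k _ => by ring

omit [IsFiniteMeasure μ] in
theorem wf_smul_weight (w f g : κ → α → ℝ) (c : ℝ) :
    wf μ (fun k z => c * w k z) f g = c * wf μ w f g := by
  unfold wf
  rw [← integral_const_mul]
  congr 1; ext z
  rw [Finset.mul_sum]
  exact Finset.sum_congr rfl fun k _ => by ring

/-- comparison of weights -/
theorem wf_mono {w w' f : κ → α → ℝ} (hw : Bdd μ w) (hw' : Bdd μ w') (hf : Bdd μ f)
    (h : ∀ᵐ z ∂μ, ∀ k, w k z ≤ w' k z) : wf μ w f f ≤ wf μ w' f f := by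
  refine integral_mono_ae (hw.integrable hf hf) (hw'.integrable hf hf) ?_
  filter_upwards [h] with z hz
  refine Finset.sum_le_sum fun k _ => ?_
  have := mul_le_mul_of_nonneg_right (hz k) (mul_self_nonneg (f k z))
  nlinarith [this]

omit [IsFiniteMeasure μ] in
theorem wf_nonneg {w f : κ → α → ℝ} (h : ∀ᵐ z ∂μ, ∀ k, 0 ≤ w k z) : 0 ≤ wf μ w f f := by
  refine integral_nonneg_of_ae ?_
  filter_upwards [h] with z hz
  refine Finset.sum_nonneg fun k _ => ?_
  rw [mul_assoc]
  exact mul_nonneg (hz k) (mul_self_nonneg _)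

theorem abs_wf_le {w w' f : κ → α → ℝ} (hw : Bdd μ w) (hw' : Bdd μ w') (hf : Bdd μ f)
    (h : ∀ᵐ z ∂μ, ∀ k, |w k z| ≤ w' k z) : |wf μ w f f| ≤ wf μ w' f f := by
  rw [abs_le]
  constructor
  · have := wf_mono (μ := μ) (hw'.smul (-1)) hw hf (by
      filter_upwards [h] with z hz k
      have := (abs_le.1 (hz k)).1; linarith)
    rw [wf_smul_weight] at this
    linarith
  · exact wf_mono hw hw' hf (by
      filter_upwards [h] with z hz k
      exact (abs_le.1 (hz k)).2)

/-! ### linear combinations -/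

variable {ι : Type*} [Fintype ι]

/-- linear combination of component functions -/
def comb (c : ι → κ → α → ℝ) (x : ι → ℝ) : κ → α → ℝ := fun k z => ∑ i, x i * c i k z

omit [IsFiniteMeasure μ] in
theorem Bdd.comb {c : ι → κ → α → ℝ} (hc : ∀ i, Bdd μ (c i)) (x : ι → ℝ) :
    Bdd μ (comb c x) := Bdd.sum Finset.univ fun i => (hc i).smul (x i)

theorem wf_sum_left {w g : κ → α → ℝ} {c : ι → κ → α → ℝ} (hw : Bdd μ w)
    (hc : ∀ i, Bdd μ (c i)) (hg : Bdd μ g) (s : Finset ι) :
    wf μ w (fun k z => ∑ i ∈ s, c i k z) g = ∑ i ∈ s, wf μ w (c i) g := by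
  classical
  induction s using Finset.induction_on with
  | empty => simp [wf]
  | insert i s his ih =>
    rw [Finset.sum_insert his, ← ih, ← wf_add_left hw (hc i) (Bdd.sum s hc) hg]
    congr 1
    funext k z
    rw [Finset.sum_insert his]

theorem wf_comb {w : κ → α → ℝ} {c : ι → κ → α → ℝ} (hw : Bdd μ w) (hc : ∀ i, Bdd μ (c i))
    (x y : ι → ℝ) :
    wf μ w (comb c x) (comb c y) = ∑ i, ∑ j, wf μ w (c i) (c j) * x j * y i := by
  have h1 : ∀ (x : ι → ℝ) (g : κ → α → ℝ), Bdd μ g →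
      wf μ w (comb c x) g = ∑ j, x j * wf μ w (c j) g := by
    intro x g hg
    have := wf_sum_left (μ := μ) hw (fun i => (hc i).smul (x i)) hg Finset.univ
    simp only [wf_smul_left] at this
    exact this
  rw [h1 x _ (Bdd.comb hc y), Finset.sum_comm]
  refine Finset.sum_congr rfl fun j _ => ?_
  rw [wf_comm, h1 y _ (hc j), Finset.mul_sum]
  exact Finset.sum_congr rfl fun i _ => by ring

/-! ### the operator of a matrix -/

/-- elementary operator `x ↦ x j • e i` -/
def El [DecidableEq ι] (i j : ι) : EuclideanSpace ℝ ι →L[ℝ] EuclideanSpace ℝ ι :=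
  (EuclideanSpace.proj j : EuclideanSpace ℝ ι →L[ℝ] ℝ).smulRight (EuclideanSpace.single i (1 : ℝ))

/-- the operator of a matrix -/
def opM [DecidableEq ι] (M : ι → ι → ℝ) : EuclideanSpace ℝ ι →L[ℝ] EuclideanSpace ℝ ι :=
  ∑ i, ∑ j, M i j • El i j

variable [DecidableEq ι]

theorem El_apply (i j : ι) (x : EuclideanSpace ℝ ι) (k : ι) :
    El i j x k = if k = i then x j else 0 := by
  have : El i j x = x j • EuclideanSpace.single i (1 : ℝ) := rfl
  rw [this]
  simp [PiLp.smul_apply]

theorem opM_apply (M : ι → ι → ℝ) (x : EuclideanSpace ℝ ι) (i : ι) :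
    opM M x i = ∑ j, M i j * x j := by
  have h : opM M x = ∑ i, ∑ j, M i j • El i j x := by
    unfold opM
    rw [ContinuousLinearMap.sum_apply]
    refine Finset.sum_congr rfl fun i _ => ?_
    rw [ContinuousLinearMap.sum_apply]
    rfl
  rw [h, WithLp.ofLp_sum, Finset.sum_apply]
  rw [Finset.sum_eq_single i]
  · rw [WithLp.ofLp_sum, Finset.sum_apply]
    refine Finset.sum_congr rfl fun j _ => ?_
    rw [PiLp.smul_apply, El_apply]
    simp
  · intro k _ hk
    rw [WithLp.ofLp_sum, Finset.sum_apply]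
    refine Finset.sum_eq_zero fun j _ => ?_
    rw [PiLp.smul_apply, El_apply, if_neg (Ne.symm hk)]
    simp
  · intro h; exact absurd (Finset.mem_univ i) h

theorem inner_opM (M : ι → ι → ℝ) (x y : EuclideanSpace ℝ ι) :
    ⟪opM M x, y⟫_ℝ = ∑ i, ∑ j, M i j * x j * y i := by
  rw [PiLp.inner_apply]
  refine Finset.sum_congr rfl fun i _ => ?_
  rw [opM_apply]
  simp only [RCLike.inner_apply, conj_trivial]
  rw [mul_comm, Finset.sum_mul]

theorem opM_symm {M : ι → ι → ℝ} (hM : ∀ i j, M i j = M j i) (x y : EuclideanSpace ℝ ι) :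
    ⟪opM M x, y⟫_ℝ = ⟪x, opM M y⟫_ℝ := by
  rw [real_inner_comm (opM M y) x, inner_opM, inner_opM, Finset.sum_comm]
  exact Finset.sum_congr rfl fun i _ => Finset.sum_congr rfl fun j _ => by rw [hM i j]; ring

theorem opM_smul (M : ι → ι → ℝ) (c : ℝ) : opM (fun i j => c * M i j) = c • opM M := by
  simp only [opM, Finset.smul_sum, smul_smul]

theorem opM_add (M M' : ι → ι → ℝ) : opM (fun i j => M i j + M' i j) = opM M + opM M' := by
  refine ContinuousLinearMap.ext fun x => ?_
  refine PiLp.ext fun i => ?_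
  rw [opM_apply, ContinuousLinearMap.add_apply, PiLp.add_apply, opM_apply, opM_apply,
    ← Finset.sum_add_distrib]
  exact Finset.sum_congr rfl fun j _ => by ring

theorem hasDerivAt_opM {M : ℝ → ι → ι → ℝ} {M' : ι → ι → ℝ} {t : ℝ}
    (h : ∀ i j, HasDerivAt (fun t => M t i j) (M' i j) t) :
    HasDerivAt (fun t => opM (M t)) (opM M') t := by
  unfold opM
  exact HasDerivAt.fun_sum fun i _ => HasDerivAt.fun_sum fun j _ => (h i j).smul_const (El i j)

theorem continuous_opM {Y : Type*} [TopologicalSpace Y] {M : Y → ι → ι → ℝ}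
    (h : ∀ i j, Continuous (fun t => M t i j)) : Continuous (fun t => opM (M t)) := by
  unfold opM
  exact continuous_finsetSum _ fun i _ => continuous_finsetSum _ fun j _ =>
    (h i j).smul continuous_const

/-! ### dependence on parameters -/

/-- locally bounded family of weights, continuous in the parameter -/
structure WCont {Y : Type*} [TopologicalSpace Y] (μ : Measure α) (W : Y → κ → α → ℝ) : Prop where
  meas : ∀ y k, AEStronglyMeasurable (W y k) μ
  cont : ∀ᵐ z ∂μ, ∀ k, Continuous fun y => W y k z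
  bdd : ∀ y0, ∃ C : ℝ, 0 ≤ C ∧ ∀ᶠ y in 𝓝 y0, ∀ᵐ z ∂μ, ∀ k, |W y k z| ≤ C

omit [IsFiniteMeasure μ] in
theorem WCont.toBdd {Y : Type*} [TopologicalSpace Y] {W : Y → κ → α → ℝ} (h : WCont μ W)
    (y : Y) : Bdd μ (W y) := by
  obtain ⟨C, hC, hb⟩ := h.bdd y
  refine ⟨h.meas y, C, hC, fun k => ?_⟩
  filter_upwards [hb.self_of_nhds] with z hz using hz k

theorem WCont.continuous_wf {Y : Type*} [TopologicalSpace Y] [FirstCountableTopology Y]
    {W : Y → κ → α → ℝ} (h : WCont μ W) {f g : κ → α → ℝ} (hf : Bdd μ f) (hg : Bdd μ g) :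
    Continuous fun y => wf μ (W y) f g := by
  rw [continuous_iff_continuousAt]
  intro y0
  obtain ⟨C, hC, hb⟩ := h.bdd y0
  obtain ⟨C2, h2, b2⟩ := hf.bdd
  obtain ⟨C3, h3, b3⟩ := hg.bdd
  unfold wf
  refine continuousAt_of_dominated (bound := fun _ => ∑ _k : κ, C * C2 * C3) ?_ ?_
    (integrable_const _) ?_
  · exact Eventually.of_forall fun y => ((h.toBdd y).integrable hf hg).aestronglyMeasurable
  · filter_upwards [hb] with y hy
    filter_upwards [hy, (ae_all_iff.2 b2), (ae_all_iff.2 b3)] with z a1 a2 a3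
    refine (norm_sum_le _ _).trans (Finset.sum_le_sum fun k _ => ?_)
    rw [Real.norm_eq_abs, abs_mul, abs_mul]
    have := a1 k
    have := a2 k
    have := a3 k
    gcongr
  · filter_upwards [h.cont] with z hz
    refine Continuous.continuousAt ?_
    exact continuous_finsetSum _ fun k _ => ((hz k).mul continuous_const).mul continuous_const

/-- differentiable family of weights -/
structure WDeriv (μ : Measure α) (W W' : ℝ → κ → α → ℝ) : Prop where
  W_cont : WCont μ W
  W'_cont : WCont μ W'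
  deriv : ∀ᵐ z ∂μ, ∀ k t, HasDerivAt (fun t => W t k z) (W' t k z) t
  bdd' : ∀ t0 : ℝ, ∃ C : ℝ, 0 ≤ C ∧ ∃ ε > 0, ∀ᵐ z ∂μ, ∀ k, ∀ t ∈ Metric.ball t0 ε, |W' t k z| ≤ C

theorem WDeriv.hasDerivAt_wf {W W' : ℝ → κ → α → ℝ} (h : WDeriv μ W W') {f g : κ → α → ℝ}
    (hf : Bdd μ f) (hg : Bdd μ g) (t0 : ℝ) :
    HasDerivAt (fun t => wf μ (W t) f g) (wf μ (W' t0) f g) t0 := by
  obtain ⟨C, hC, ε, hε, hb⟩ := h.bdd' t0
  obtain ⟨C2, h2, b2⟩ := hf.bdd
  obtain ⟨C3, h3, b3⟩ := hg.bdd
  unfold wf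
  refine (hasDerivAt_integral_of_dominated_loc_of_deriv_le
    (F := fun t z => ∑ k, W t k z * f k z * g k z)
    (F' := fun t z => ∑ k, W' t k z * f k z * g k z)
    (bound := fun _ => ∑ _k : κ, C * C2 * C3) (s := Metric.ball t0 ε)
    (Metric.ball_mem_nhds t0 hε) ?_ ?_ ?_ ?_ (integrable_const _) ?_).2
  · exact Eventually.of_forall fun y => ((h.W_cont.toBdd y).integrable hf hg).aestronglyMeasurable
  · exact (h.W_cont.toBdd t0).integrable hf hg
  · exact ((h.W'_cont.toBdd t0).integrable hf hg).aestronglyMeasurable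
  · filter_upwards [hb, (ae_all_iff.2 b2), (ae_all_iff.2 b3)] with z a1 a2 a3 t ht
    refine (norm_sum_le _ _).trans (Finset.sum_le_sum fun k _ => ?_)
    rw [Real.norm_eq_abs, abs_mul, abs_mul]
    have := a1 k t ht
    have := a2 k
    have := a3 k
    gcongr
  · filter_upwards [h.deriv] with z hz t _
    exact HasDerivAt.fun_sum fun k _ => ((hz k t).mul_const _).mul_const _

end

end Crest.Agent.R202.Wgt
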