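import Mathlib
import Crest.Agent.R202.GeoDefs
import Crest.Agent.R202.GeoHyp
import Crest.Agent.R202.WgtForm

/-! # Row 202, part B4b (helper728): the weights of the row-202 metrics

`w4 m s θ p k = e^{2s} θ^{2/(m+2)} * (0, p, (θ² p)⁻¹, 1)_k`. -/

set_option autoImplicit false
set_option linter.unusedSectionVars false
set_option linter.deprecated false

open MeasureTheory Filter Topology Set
open scoped InnerProductSpace ContDiff

namespace Crest.Agent.R202.Wgt

open Crest.Agent.R202.Geo (Fam PP dT)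

noncomputable section

/-- the unit complex number `e^{iφ}` -/
def ei (φ : ℝ) : ℂ := Complex.exp ((φ : ℂ) * Complex.I)

theorem norm_ei (φ : ℝ) : ‖ei φ‖ = 1 := by
  unfold ei; exact Complex.norm_exp_ofReal_mul_I φ

theorem continuous_ei : Continuous ei := by unfold ei; fun_prop

/-- the compact set `[0,1] × circle` -/
def Kc : Set (ℝ × ℂ) := Icc (0 : ℝ) 1 ×ˢ Metric.sphere (0 : ℂ) 1

theorem isCompact_Kc : IsCompact Kc := isCompact_Icc.prod (isCompact_sphere 0 1)

theorem mem_Kc {X : ℝ} (hX : X ∈ Icc (0 : ℝ) 1) (φ : ℝ) : (X, ei φ) ∈ Kc :=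
  ⟨hX, by simp [norm_ei]⟩

variable {α : Type*} [MeasurableSpace α] {μ : Measure α} [IsFiniteMeasure μ]
variable {κ : Type*} [Fintype κ]

/-- weights which are jointly continuous on `Y × ℝ × ℂ`, evaluated along `π : α → ℝ × ℂ` -/
theorem wcont_of_continuous {Y : Type*} [TopologicalSpace Y] {π : α → ℝ × ℂ}
    (hm : AEMeasurable π μ) (hμ : ∀ᵐ z ∂μ, π z ∈ Kc)
    (F : Y → κ → ℝ → ℂ → ℝ)
    (hF : ∀ k, Continuous fun q : Y × ℝ × ℂ => F q.1 k q.2.1 q.2.2) :
    WCont μ (fun y k z => F y k (π z).1 (π z).2) := by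
  refine ⟨fun y k => ?_, ?_, fun y0 => ?_⟩
  · have h1 : Continuous fun q : ℝ × ℂ => F y k q.1 q.2 :=
      (hF k).comp (continuous_const.prodMk continuous_id)
    exact (h1.measurable.comp_aemeasurable hm).aestronglyMeasurable
  · refine Eventually.of_forall fun z k => ?_
    have h : Continuous fun y : Y => ((y, (π z).1, (π z).2) : Y × ℝ × ℂ) :=
      continuous_id.prodMk continuous_const
    exact (hF k).comp h
  · -- local bound
    have h1 : ∀ k, ∃ C : ℝ, 0 ≤ C ∧ ∀ᶠ y in 𝓝 y0, ∀ q ∈ Kc, |F y k q.1 q.2| ≤ C := by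
      intro k
      have hc : Continuous fun q : ℝ × ℂ => F y0 k q.1 q.2 :=
        (hF k).comp (continuous_const.prodMk continuous_id)
      obtain ⟨C, hC⟩ := isCompact_Kc.exists_bound_of_continuousOn hc.continuousOn
      refine ⟨|C| + 1, by positivity, ?_⟩
      refine isCompact_Kc.eventually_forall_of_forall_eventually fun q hq => ?_
      have h2 : Continuous fun z : Y × ℝ × ℂ => |F z.1 k z.2.1 z.2.2| := (hF k).abs
      have h3 : |F y0 k q.1 q.2| < |C| + 1 := by
        have := hC q hq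
        rw [Real.norm_eq_abs] at this
        have := le_abs_self C
        linarith
      filter_upwards [h2.continuousAt.eventually_lt
        (continuousAt_const (y := |C| + 1) (x := ((y0, q) : Y × ℝ × ℂ))) h3] with z hz
      exact hz.le
    choose C hC h2 using h1
    refine ⟨∑ k, C k, Finset.sum_nonneg fun k _ => hC k, ?_⟩
    filter_upwards [eventually_all.2 h2] with y hy
    filter_upwards [hμ] with z hz k
    exact (hy k _ hz).trans
      (Finset.single_le_sum (fun k _ => hC k) (Finset.mem_univ k))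

/-- differentiable weights -/
theorem wderiv_of_hasDerivAt {π : α → ℝ × ℂ}
    (hm : AEMeasurable π μ) (hμ : ∀ᵐ z ∂μ, π z ∈ Kc)
    (F F' : ℝ → κ → ℝ → ℂ → ℝ)
    (hF : ∀ k, Continuous fun q : ℝ × ℝ × ℂ => F q.1 k q.2.1 q.2.2)
    (hF' : ∀ k, Continuous fun q : ℝ × ℝ × ℂ => F' q.1 k q.2.1 q.2.2)
    (hd : ∀ k t X u, HasDerivAt (fun t => F t k X u) (F' t k X u) t) :
    WDeriv μ (fun t k z => F t k (π z).1 (π z).2) (fun t k z => F' t k (π z).1 (π z).2) := by
  refine ⟨wcont_of_continuous hm hμ F hF, wcont_of_continuous hm hμ F' hF', ?_, fun t0 => ?_⟩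
  · exact Eventually.of_forall fun z k t => hd k t _ _
  · have h1 : ∀ k, ∃ C : ℝ, 0 ≤ C ∧ ∀ t ∈ Metric.ball t0 1, ∀ q ∈ Kc, |F' t k q.1 q.2| ≤ C := by
      intro k
      obtain ⟨C, hC⟩ := ((isCompact_closedBall t0 1).prod isCompact_Kc).exists_bound_of_continuousOn
        (hF' k).continuousOn
      refine ⟨|C|, abs_nonneg C, fun t ht q hq => ?_⟩
      have := hC (t, q) ⟨Metric.ball_subset_closedBall ht, hq⟩
      rw [Real.norm_eq_abs] at this
      exact this.trans (le_abs_self C)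
    choose C hC h2 using h1
    refine ⟨∑ k, C k, Finset.sum_nonneg fun k _ => hC k, 1, one_pos, ?_⟩
    filter_upwards [hμ] with z hz k t ht
    exact (h2 k t ht _ hz).trans
      (Finset.single_le_sum (fun k _ => hC k) (Finset.mem_univ k))

/-! ### the weights of the metric -/

/-- common factor `e^{2s} θ^{2/(m+2)}` -/
def cfac (m : ℕ) (s θ : ℝ) : ℝ := Real.exp (2 * s) * θ ^ ((2 : ℝ) / ((m : ℝ) + 2))

/-- weights for frozen data `(s, θ, p)` -/
def w4 (m : ℕ) (s θ p : ℝ) (k : Fin 4) : ℝ :=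
  cfac m s θ * (![0, p, (θ ^ 2 * p)⁻¹, 1] : Fin 4 → ℝ) k

theorem cfac_pos (m : ℕ) (s : ℝ) {θ : ℝ} (hθ : 0 < θ) : 0 < cfac m s θ := by
  unfold cfac; positivity

theorem w4_zero (m : ℕ) (s θ p : ℝ) : w4 m s θ p 0 = 0 := by simp [w4]
theorem w4_one (m : ℕ) (s θ p : ℝ) : w4 m s θ p 1 = cfac m s θ * p := by simp [w4]
theorem w4_two (m : ℕ) (s θ p : ℝ) : w4 m s θ p 2 = cfac m s θ * (θ ^ 2 * p)⁻¹ := by simp [w4]
theorem w4_three (m : ℕ) (s θ p : ℝ) : w4 m s θ p 3 = cfac m s θ := by simp [w4]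

theorem w4_nonneg (m : ℕ) (s : ℝ) {θ p : ℝ} (hθ : 0 < θ) (hp : 0 < p) (k : Fin 4) :
    0 ≤ w4 m s θ p k := by
  have hc := cfac_pos m s hθ
  fin_cases k
  · exact (w4_zero m s θ p).ge
  · change 0 ≤ w4 m s θ p 1; rw [w4_one]; positivity
  · change 0 ≤ w4 m s θ p 2; rw [w4_two]; positivity
  · change 0 ≤ w4 m s θ p 3; rw [w4_three]; exact hc.le

/-- round data give the weights `(0,1,1,1)` -/
theorem w4_round (m : ℕ) : w4 m 0 1 1 = ![0, 1, 1, 1] := by
  funext k
  simp [w4, cfac]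

/-- joint continuity of the weights in a parameter -/
theorem continuous_w4 {Y : Type*} [TopologicalSpace Y] (m : ℕ) {s θ p : Y → ℝ}
    (hs : Continuous s) (hθ : Continuous θ) (hp : Continuous p) (θpos : ∀ y, 0 < θ y)
    (ppos : ∀ y, 0 < p y) (k : Fin 4) : Continuous fun y => w4 m (s y) (θ y) (p y) k := by
  have hc : Continuous fun y => cfac m (s y) (θ y) := by
    unfold cfac
    refine (Real.continuous_exp.comp (continuous_const.mul hs)).mul ?_
    exact hθ.rpow_const fun y => Or.inl (θpos y).ne'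
  fin_cases k
  · have : (fun y => w4 m (s y) (θ y) (p y) 0) = fun _ => 0 := by funext y; exact w4_zero _ _ _ _
    change Continuous fun y => w4 m (s y) (θ y) (p y) 0
    rw [this]; exact continuous_const
  · change Continuous fun y => w4 m (s y) (θ y) (p y) 1
    simp only [w4_one]; exact hc.mul hp
  · change Continuous fun y => w4 m (s y) (θ y) (p y) 2
    simp only [w4_two]
    refine hc.mul (((hθ.pow 2).mul hp).inv₀ fun y => ?_)
    exact (mul_pos (pow_pos (θpos y) 2) (ppos y)).ne'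
  · change Continuous fun y => w4 m (s y) (θ y) (p y) 3
    simp only [w4_three]; exact hc

/-- frozen scaling -/
theorem w4_exp (m : ℕ) (s θ p : ℝ) (k : Fin 4) : w4 m s θ p k = Real.exp (2 * s) * w4 m 0 θ p k := by
  unfold w4 cfac
  rw [mul_zero, Real.exp_zero, one_mul, mul_assoc]

/-- derivative of the weights -/
def w4' (m : ℕ) (s θ p s' θ' p' : ℝ) (k : Fin 4) : ℝ :=
  (![0, 2 * s' + 2 / ((m : ℝ) + 2) * (θ' / θ) + p' / p,
    2 * s' + 2 / ((m : ℝ) + 2) * (θ' / θ) - 2 * (θ' / θ) - p' / p,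
    2 * s' + 2 / ((m : ℝ) + 2) * (θ' / θ)] : Fin 4 → ℝ) k * w4 m s θ p k

theorem hasDerivAt_w4 (m : ℕ) {s θ p : ℝ → ℝ} {s' θ' p' t : ℝ} (hs : HasDerivAt s s' t)
    (hθ : HasDerivAt θ θ' t) (hp : HasDerivAt p p' t) (θpos : 0 < θ t) (ppos : 0 < p t)
    (k : Fin 4) :
    HasDerivAt (fun t => w4 m (s t) (θ t) (p t) k) (w4' m (s t) (θ t) (p t) s' θ' p' k) t := by
  have hc : HasDerivAt (fun t => cfac m (s t) (θ t))
      ((2 * s' + 2 / ((m : ℝ) + 2) * (θ' / θ t)) * cfac m (s t) (θ t)) t := by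
    unfold cfac
    have h1 : HasDerivAt (fun t => Real.exp (2 * s t)) (Real.exp (2 * s t) * (2 * s')) t :=
      (hs.const_mul 2).exp
    have h2 := hθ.rpow_const (p := (2 : ℝ) / ((m : ℝ) + 2)) (Or.inl θpos.ne')
    refine (h1.mul h2).congr_deriv ?_
    rw [Real.rpow_sub_one θpos.ne']
    field_simp
  fin_cases k
  · change HasDerivAt (fun t => w4 m (s t) (θ t) (p t) 0) (w4' m (s t) (θ t) (p t) s' θ' p' 0) t
    simp only [w4_zero, w4', mul_zero]
    exact hasDerivAt_const _ _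
  · change HasDerivAt (fun t => w4 m (s t) (θ t) (p t) 1) (w4' m (s t) (θ t) (p t) s' θ' p' 1) t
    simp only [w4_one, w4']
    refine (hc.mul hp).congr_deriv ?_
    simp only [Matrix.cons_val_one, Matrix.cons_val_zero]
    field_simp
  · change HasDerivAt (fun t => w4 m (s t) (θ t) (p t) 2) (w4' m (s t) (θ t) (p t) s' θ' p' 2) t
    simp only [w4_two, w4']
    have h0 : θ t ^ 2 * p t ≠ 0 := by positivity
    have h4 : HasDerivAt (fun t => (θ t ^ 2 * p t)⁻¹)
        (-(2 * θ t * θ' * p t + θ t ^ 2 * p') / (θ t ^ 2 * p t) ^ 2) t := by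
      have h5 : HasDerivAt (fun t => θ t ^ 2) (2 * θ t * θ') t := by
        simpa using hθ.fun_pow 2
      exact (h5.fun_mul hp).fun_inv h0
    refine (hc.mul h4).congr_deriv ?_
    have h3 : ((![0, 2 * s' + 2 / ((m : ℝ) + 2) * (θ' / θ t) + p' / p t,
      2 * s' + 2 / ((m : ℝ) + 2) * (θ' / θ t) - 2 * (θ' / θ t) - p' / p t,
      2 * s' + 2 / ((m : ℝ) + 2) * (θ' / θ t)] : Fin 4 → ℝ) 2)
      = 2 * s' + 2 / ((m : ℝ) + 2) * (θ' / θ t) - 2 * (θ' / θ t) - p' / p t := rfl
    rw [h3]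
    field_simp
    ring
  · change HasDerivAt (fun t => w4 m (s t) (θ t) (p t) 3) (w4' m (s t) (θ t) (p t) s' θ' p' 3) t
    simp only [w4_three, w4']
    exact hc

/-- relative size of the derivative -/
theorem abs_w4'_le (m : ℕ) {s θ p s' θ' p' r : ℝ} (θpos : 0 < θ) (ppos : 0 < p) (hs : |s'| ≤ r)
    (hθ : |θ'| ≤ r * θ) (hp : |p'| ≤ r * p) (k : Fin 4) :
    |w4' m s θ p s' θ' p' k| ≤ 6 * r * w4 m s θ p k := by
  have h0 := w4_nonneg m s θpos ppos k
  unfold w4'
  rw [abs_mul, abs_of_nonneg h0]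
  refine mul_le_mul_of_nonneg_right ?_ h0
  have hr : 0 ≤ r := (abs_nonneg _).trans hs
  have h1 : |θ' / θ| ≤ r := by
    rw [abs_div, abs_of_pos θpos, div_le_iff₀ θpos]; exact hθ
  have h2 : |p' / p| ≤ r := by
    rw [abs_div, abs_of_pos ppos, div_le_iff₀ ppos]; exact hp
  have h3 : |2 / ((m : ℝ) + 2) * (θ' / θ)| ≤ r := by
    rw [abs_mul]
    have : |2 / ((m : ℝ) + 2)| ≤ 1 := by
      rw [abs_of_pos (by positivity), div_le_one (by positivity)]
      have : (0 : ℝ) ≤ m := Nat.cast_nonneg m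
      linarith
    calc |2 / ((m : ℝ) + 2)| * |θ' / θ| ≤ 1 * r := by gcongr
      _ = r := one_mul r
  have hs2 := abs_le.1 hs
  have h12 := abs_le.1 h1
  have h22 := abs_le.1 h2
  have h32 := abs_le.1 h3
  fin_cases k
  · change |(0 : ℝ)| ≤ 6 * r
    rw [abs_zero]; positivity
  · change |2 * s' + 2 / ((m : ℝ) + 2) * (θ' / θ) + p' / p| ≤ 6 * r
    rw [abs_le]; constructor <;> linarith
  · change |2 * s' + 2 / ((m : ℝ) + 2) * (θ' / θ) - 2 * (θ' / θ) - p' / p| ≤ 6 * r
    rw [abs_le]; constructor <;> linarith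
  · change |2 * s' + 2 / ((m : ℝ) + 2) * (θ' / θ)| ≤ 6 * r
    rw [abs_le]; constructor <;> linarith

/-- joint continuity of the derivative of the weights -/
theorem continuous_w4' {Y : Type*} [TopologicalSpace Y] (m : ℕ) {s θ p s' θ' p' : Y → ℝ}
    (hs : Continuous s) (hθ : Continuous θ) (hp : Continuous p)
    (hs' : Continuous s') (hθ' : Continuous θ') (hp' : Continuous p') (θpos : ∀ y, 0 < θ y)
    (ppos : ∀ y, 0 < p y) (k : Fin 4) :
    Continuous fun y => w4' m (s y) (θ y) (p y) (s' y) (θ' y) (p' y) k := by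
  unfold w4'
  refine Continuous.mul ?_ (continuous_w4 m hs hθ hp θpos ppos k)
  have h1 : Continuous fun y => θ' y / θ y := hθ'.div hθ fun y => (θpos y).ne'
  have h2 : Continuous fun y => p' y / p y := hp'.div hp fun y => (ppos y).ne'
  have h3 : Continuous fun y => 2 * s' y + 2 / ((m : ℝ) + 2) * (θ' y / θ y) :=
    (continuous_const.mul hs').add (continuous_const.mul h1)
  fin_cases k
  · exact continuous_const
  · exact h3.add h2
  · exact (h3.sub (continuous_const.mul h1)).sub h2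
  · exact h3

end

end Crest.Agent.R202.Wgt
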