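import Mathlib
import Crest.Agent.R202.GeoCoef
import Crest.Agent.R202.SecSph
import Crest.Agent.R202.WgtFam

/-! # Row 202, part B4b (helper728): the tangential inverse of the cross-section matrix on the
unit sphere as a weighted form with components `⟨e1,v⟩, ⟨e2,v⟩` and the part orthogonal to
`ν, e1, e2`. -/

set_option autoImplicit false
set_option linter.unusedSectionVars false
set_option linter.deprecated false
set_option linter.unusedVariables false

open MeasureTheory Filter Topology Set Metric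
open scoped InnerProductSpace ContDiff Pointwise

namespace Crest.Agent.R202.Wgt

open Crest.Agent.R202.Geo Crest.Agent.R202.Sph

noncomputable section

variable {m : ℕ}

/-- unit sphere in `ℝ^{m+3}` -/
abbrev Sn (m : ℕ) : Type := sphere (0 : EuclideanSpace ℝ (Fin (m + 3))) 1

/-- surface measure -/
abbrev muS (m : ℕ) : Measure (Sn m) := (volume : Measure (EuclideanSpace ℝ (Fin (m + 3)))).toSphere

/-- frozen tangential inverse `(A_{θ,P})⁻¹ - x xᵀ` -/
def SB (θ : ℝ) (P : ℝ → ℂ → ℝ) : EuclideanSpace ℝ (Fin (m + 3)) →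
    Matrix (Fin (m + 3)) (Fin (m + 3)) ℝ := fun x =>
  (Afam (fun _ => θ) (fun _ => P) x)⁻¹ - outer x

theorem nu_sphere (z : Sn m) : nu (z : EuclideanSpace ℝ (Fin (m + 3))) = z := by
  have : ‖(z : EuclideanSpace ℝ (Fin (m + 3)))‖ = 1 := by simp
  unfold nu
  rw [this, inv_one, one_smul]

/-- `⟨v, w⟩` by coordinates -/
def dt {n : ℕ} (v w : EuclideanSpace ℝ (Fin n)) : ℝ := ∑ i, v i * w i

/-- components -/
def cv (z v : EuclideanSpace ℝ (Fin (m + 3))) : Fin 2 ⊕ Fin (m + 3) → ℝ
  | Sum.inl 0 => dt (e1 z) v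
  | Sum.inl 1 => dt (e2 z) v
  | Sum.inr a => v a - dt (nu z) v * nu z a - dt (e1 z) v * e1 z a - dt (e2 z) v * e2 z a

/-- class of a component -/
def cl (m : ℕ) : Fin 2 ⊕ Fin (m + 3) → Fin 4
  | Sum.inl 0 => 1
  | Sum.inl 1 => 2
  | Sum.inr _ => 3

theorem dt_comm {n : ℕ} (v w : EuclideanSpace ℝ (Fin n)) : dt v w = dt w v :=
  Finset.sum_congr rfl fun i _ => mul_comm _ _

/-- the part orthogonal to an orthonormal triple -/
theorem sum_perp {n : ℕ} {a b c : EuclideanSpace ℝ (Fin n)} (h : Tri a b c)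
    (v w : EuclideanSpace ℝ (Fin n)) :
    ∑ i, (v i - dt a v * a i - dt b v * b i - dt c v * c i) *
      (w i - dt a w * a i - dt b w * b i - dt c w * c i)
      = dt v w - dt a v * dt a w - dt b v * dt b w - dt c v * dt c w := by
  have key : ∀ i, (v i - dt a v * a i - dt b v * b i - dt c v * c i) *
      (w i - dt a w * a i - dt b w * b i - dt c w * c i)
      = v i * w i - dt a w * (a i * v i) - dt b w * (b i * v i) - dt c w * (c i * v i)
        - dt a v * (a i * w i) + dt a v * dt a w * (a i * a i) + dt a v * dt b w * (a i * b i)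
          + dt a v * dt c w * (a i * c i)
        - dt b v * (b i * w i) + dt b v * dt a w * (a i * b i) + dt b v * dt b w * (b i * b i)
          + dt b v * dt c w * (b i * c i)
        - dt c v * (c i * w i) + dt c v * dt a w * (a i * c i) + dt c v * dt b w * (b i * c i)
          + dt c v * dt c w * (c i * c i) := fun i => by ring
  rw [Finset.sum_congr rfl fun i _ => key i]
  simp only [Finset.sum_add_distrib, Finset.sum_sub_distrib, ← Finset.mul_sum]
  rw [h.vv, h.aa, h.bb, h.va, h.vb, h.ab]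
  have e1 : ∑ i, a i * v i = dt a v := rfl
  have e2 : ∑ i, b i * v i = dt b v := rfl
  have e3 : ∑ i, c i * v i = dt c v := rfl
  have e4 : ∑ i, a i * w i = dt a w := rfl
  have e5 : ∑ i, b i * w i = dt b w := rfl
  have e6 : ∑ i, c i * w i = dt c w := rfl
  have e7 : ∑ i, v i * w i = dt v w := rfl
  rw [e1, e2, e3, e4, e5, e6, e7]
  ring

theorem sum_frameM {n : ℕ} (κ p q : ℝ) (v a b x y : EuclideanSpace ℝ (Fin n)) :
    ∑ i, ∑ j, frameM κ p q v a b i j * x i * y j
      = dt v x * dt v y + κ * (dt x y - dt v x * dt v y + (p - 1) * (dt a x * dt a y)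
        + (q - 1) * (dt b x * dt b y)) := by
  have hout : ∀ u : EuclideanSpace ℝ (Fin n), ∑ i, ∑ j, outer u i j * x i * y j = dt u x * dt u y := by
    intro u
    unfold dt
    rw [Finset.sum_mul_sum]
    exact Finset.sum_congr rfl fun i _ => Finset.sum_congr rfl fun j _ => by
      simp only [outer]; ring
  have hone : ∑ i, ∑ j, (1 : Matrix (Fin n) (Fin n) ℝ) i j * x i * y j = dt x y := by
    unfold dt
    refine Finset.sum_congr rfl fun i _ => ?_
    rw [Finset.sum_eq_single i]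
    · simp
    · intro j _ hj; rw [Matrix.one_apply_ne (Ne.symm hj)]; ring
    · intro h; exact absurd (Finset.mem_univ i) h
  rw [← hout v, ← hone, ← hout a, ← hout b]
  simp only [Finset.mul_sum, ← Finset.sum_add_distrib, ← Finset.sum_sub_distrib]
  refine Finset.sum_congr rfl fun i _ => Finset.sum_congr rfl fun j _ => ?_
  simp only [frameM, Matrix.add_apply, Matrix.smul_apply, Matrix.sub_apply, smul_eq_mul]
  ring

/-- the matrix off the axes -/
theorem SB_frame {θ : ℝ} {P : ℝ → ℂ → ℝ} (hθ : 0 < θ) (z : Sn m)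
    (hP : 0 < P (XX (z : EuclideanSpace ℝ (Fin (m + 3)))) (uu (z : EuclideanSpace ℝ (Fin (m + 3)))))
    (hr : rho (z : EuclideanSpace ℝ (Fin (m + 3))) ≠ 0)
    (hs : sig (z : EuclideanSpace ℝ (Fin (m + 3))) ≠ 0) :
    SB θ P (z : EuclideanSpace ℝ (Fin (m + 3)))
      = frameM (θ ^ ((2 : ℝ) / ((m : ℝ) + 2)))
        (P (XX (z : EuclideanSpace ℝ (Fin (m + 3)))) (uu (z : EuclideanSpace ℝ (Fin (m + 3)))))
        ((θ ^ 2 * P (XX (z : EuclideanSpace ℝ (Fin (m + 3))))
          (uu (z : EuclideanSpace ℝ (Fin (m + 3)))))⁻¹)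
        (nu z) (e1 z) (e2 z) - outer (nu (z : EuclideanSpace ℝ (Fin (m + 3)))) := by
  have hz : (z : EuclideanSpace ℝ (Fin (m + 3))) ≠ 0 := by
    intro h; have : ‖(z : EuclideanSpace ℝ (Fin (m + 3)))‖ = 1 := by simp
    rw [h, norm_zero] at this; exact zero_ne_one this
  have hκ : (0 : ℝ) < θ ^ (-(2 : ℝ) / ((m : ℝ) + 2)) := Real.rpow_pos_of_pos hθ _
  have hκinv : (θ ^ (-(2 : ℝ) / ((m : ℝ) + 2)))⁻¹ = θ ^ ((2 : ℝ) / ((m : ℝ) + 2)) := by
    rw [← Real.rpow_neg hθ.le]; congr 1; ring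
  have hT := tri_e1_e2 hz hr hs
  have hA : Afam (fun _ => θ) (fun _ => P) (z : EuclideanSpace ℝ (Fin (m + 3)))
      = frameM (θ ^ (-(2 : ℝ) / ((m : ℝ) + 2)))
        (P (XX (z : EuclideanSpace ℝ (Fin (m + 3)))) (uu (z : EuclideanSpace ℝ (Fin (m + 3)))))⁻¹
        (θ ^ 2 * P (XX (z : EuclideanSpace ℝ (Fin (m + 3))))
          (uu (z : EuclideanSpace ℝ (Fin (m + 3))))) (nu z) (e1 z) (e2 z) := by
    rw [Fam.Afam_mid _ _ hr, frameM, kap]
    congr 2
    abel
  unfold SB
  rw [hA, Matrix.inv_eq_right_inv (frameM_mul_inv hκ.ne' (inv_pos.2 hP).ne'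
    (mul_pos (pow_pos hθ 2) hP).ne' hT), hκinv, inv_inv, nu_sphere]

/-- `SB` as a sum of weighted squares, off the axes -/
theorem SB_form {θ : ℝ} {P : ℝ → ℂ → ℝ} (hθ : 0 < θ) (z : Sn m)
    (hP : 0 < P (XX (z : EuclideanSpace ℝ (Fin (m + 3)))) (uu (z : EuclideanSpace ℝ (Fin (m + 3)))))
    (hr : rho (z : EuclideanSpace ℝ (Fin (m + 3))) ≠ 0)
    (hs : sig (z : EuclideanSpace ℝ (Fin (m + 3))) ≠ 0)
    (x y : EuclideanSpace ℝ (Fin (m + 3))) :
    ∑ i, ∑ j, SB θ P (z : EuclideanSpace ℝ (Fin (m + 3))) i j * x i * y j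
      = ∑ k, w4 m 0 θ (P (XX (z : EuclideanSpace ℝ (Fin (m + 3))))
        (uu (z : EuclideanSpace ℝ (Fin (m + 3))))) (cl m k)
        * cv (z : EuclideanSpace ℝ (Fin (m + 3))) x k
        * cv (z : EuclideanSpace ℝ (Fin (m + 3))) y k := by
  have hz : (z : EuclideanSpace ℝ (Fin (m + 3))) ≠ 0 := by
    intro h; have : ‖(z : EuclideanSpace ℝ (Fin (m + 3)))‖ = 1 := by simp
    rw [h, norm_zero] at this; exact zero_ne_one this
  have hT := tri_e1_e2 hz hr hs
  have hout : ∑ i, ∑ j, outer (nu (z : EuclideanSpace ℝ (Fin (m + 3)))) i j * x i * y j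
      = dt (nu (z : EuclideanSpace ℝ (Fin (m + 3)))) x
        * dt (nu (z : EuclideanSpace ℝ (Fin (m + 3)))) y := by
    unfold dt
    rw [Finset.sum_mul_sum]
    exact Finset.sum_congr rfl fun i _ => Finset.sum_congr rfl fun j _ => by
      simp only [outer]; ring
  rw [SB_frame hθ z hP hr hs]
  have h1 : ∀ A B : Matrix (Fin (m + 3)) (Fin (m + 3)) ℝ,
      ∑ i, ∑ j, (A - B) i j * x i * y j
        = ∑ i, ∑ j, A i j * x i * y j - ∑ i, ∑ j, B i j * x i * y j := by
    intro A B
    simp only [← Finset.sum_sub_distrib, Matrix.sub_apply]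
    exact Finset.sum_congr rfl fun i _ => Finset.sum_congr rfl fun j _ => by ring
  rw [h1, sum_frameM, hout, Fintype.sum_sum_type, Fin.sum_univ_two]
  simp only [cl, cv]
  rw [w4_one, w4_two, w4_three]
  simp only [cfac, mul_zero, Real.exp_zero, one_mul]
  simp only [mul_assoc]
  rw [← Finset.mul_sum]
  rw [sum_perp hT]
  ring

/-! ### the axes are null sets of the sphere -/

theorem null_coord (i : Fin (m + 3)) :
    muS m {z : Sn m | (z : EuclideanSpace ℝ (Fin (m + 3))) i = 0} = 0 := by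
  have hms : MeasurableSet {z : Sn m | (z : EuclideanSpace ℝ (Fin (m + 3))) i = 0} := by
    refine (isClosed_singleton.preimage (f := fun z : Sn m =>
      (z : EuclideanSpace ℝ (Fin (m + 3))) i) ?_).measurableSet
    exact (EuclideanSpace.proj i : EuclideanSpace ℝ (Fin (m + 3)) →L[ℝ] ℝ).continuous.comp
      continuous_subtype_val
  unfold muS
  rw [Measure.toSphere_apply' _ hms]
  have h1 : (Ioo (0 : ℝ) 1 • (Subtype.val '' {z : Sn m |
      (z : EuclideanSpace ℝ (Fin (m + 3))) i = 0}) : Set (EuclideanSpace ℝ (Fin (m + 3))))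
      ⊆ (LinearMap.ker (EuclideanSpace.proj i : EuclideanSpace ℝ (Fin (m + 3)) →L[ℝ] ℝ).toLinearMap :
        Set (EuclideanSpace ℝ (Fin (m + 3)))) := by
    rintro x ⟨r, _, _, ⟨z, hz, rfl⟩, rfl⟩
    have hz' : (z : EuclideanSpace ℝ (Fin (m + 3))) i = 0 := hz
    show (r • (z : EuclideanSpace ℝ (Fin (m + 3)))) i = 0
    rw [PiLp.smul_apply, hz', smul_zero]
  have h2 : (volume : Measure (EuclideanSpace ℝ (Fin (m + 3))))
      (LinearMap.ker (EuclideanSpace.proj i : EuclideanSpace ℝ (Fin (m + 3)) →L[ℝ] ℝ).toLinearMap :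
        Set (EuclideanSpace ℝ (Fin (m + 3)))) = 0 := by
    refine Measure.addHaar_submodule _ _ ?_
    intro h
    have h3 : (EuclideanSpace.single i (1 : ℝ) : EuclideanSpace ℝ (Fin (m + 3))) ∈
      LinearMap.ker (EuclideanSpace.proj i : EuclideanSpace ℝ (Fin (m + 3)) →L[ℝ] ℝ).toLinearMap := by
      rw [h]; exact Submodule.mem_top
    have h4 : (EuclideanSpace.single i (1 : ℝ) : EuclideanSpace ℝ (Fin (m + 3))) i = 0 := h3
    simp at h4
  rw [measure_mono_null h1 h2, mul_zero]

theorem ae_axes : ∀ᵐ (z : Sn m) ∂(muS m), rho (z : EuclideanSpace ℝ (Fin (m + 3))) ≠ 0 ∧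
    sig (z : EuclideanSpace ℝ (Fin (m + 3))) ≠ 0 := by
  have h0 := null_coord (m := m) 0
  have h2 := null_coord (m := m) (Fin.succ (Fin.succ 0))
  have e0 : ∀ᵐ (z : Sn m) ∂(muS m), (z : EuclideanSpace ℝ (Fin (m + 3))) 0 ≠ 0 := by
    rw [ae_iff]; simpa only [ne_eq, not_not] using h0
  have e2 : ∀ᵐ (z : Sn m) ∂(muS m), (z : EuclideanSpace ℝ (Fin (m + 3))) (Fin.succ (Fin.succ 0)) ≠ 0 := by
    rw [ae_iff]; simpa only [ne_eq, not_not] using h2
  filter_upwards [e0, e2] with z a b
  constructor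
  · intro h; exact a (rho_zero_coord h).1
  · intro h; exact b (sig_zero_coord h 0)

/-! ### measurability and bounds of the components -/

theorem meas_coord (i : Fin (m + 3)) :
    Measurable fun z : Sn m => (z : EuclideanSpace ℝ (Fin (m + 3))) i :=
  ((EuclideanSpace.proj i : EuclideanSpace ℝ (Fin (m + 3)) →L[ℝ] ℝ).continuous.comp
      continuous_subtype_val).measurable

theorem meas_rho : Measurable fun z : Sn m => rho (z : EuclideanSpace ℝ (Fin (m + 3))) :=
  (continuous_rho.comp continuous_subtype_val).measurable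

theorem meas_sig : Measurable fun z : Sn m => sig (z : EuclideanSpace ℝ (Fin (m + 3))) :=
  (continuous_sig.comp continuous_subtype_val).measurable

theorem meas_norm : Measurable fun z : Sn m => ‖(z : EuclideanSpace ℝ (Fin (m + 3)))‖ :=
  (continuous_norm.comp continuous_subtype_val).measurable

theorem fin_cases3 {motive : Fin (m + 3) → Prop} (h0 : motive 0) (h1 : motive 1)
    (h2 : ∀ j : Fin (m + 1), motive j.succ.succ) (i : Fin (m + 3)) : motive i := by
  refine Fin.cases h0 (fun i => ?_) i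
  refine Fin.cases ?_ (fun i => h2 i) i
  rw [Fin.succ_zero_eq_one]; exact h1

theorem meas_e1 (i : Fin (m + 3)) :
    Measurable fun z : Sn m => e1 (z : EuclideanSpace ℝ (Fin (m + 3))) i := by
  refine fin_cases3 (motive := fun i => Measurable fun z : Sn m =>
    e1 (z : EuclideanSpace ℝ (Fin (m + 3))) i) ?_ ?_ (fun j => ?_) i
  · simp only [e1c_zero]
    exact (meas_sig.div meas_norm).neg.mul ((meas_coord 0).div meas_rho)
  · simp only [e1c_one]
    exact (meas_sig.div meas_norm).neg.mul ((meas_coord 1).div meas_rho)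
  · simp only [e1c_succ]
    exact (meas_rho.div meas_norm).mul ((meas_coord _).div meas_sig)

theorem meas_e2 (i : Fin (m + 3)) :
    Measurable fun z : Sn m => e2 (z : EuclideanSpace ℝ (Fin (m + 3))) i := by
  refine fin_cases3 (motive := fun i => Measurable fun z : Sn m =>
    e2 (z : EuclideanSpace ℝ (Fin (m + 3))) i) ?_ ?_ (fun j => ?_) i
  · simp only [e2c_zero]
    exact (meas_coord 1).neg.div meas_rho
  · simp only [e2c_one]
    exact (meas_coord 0).div meas_rho
  · simp only [e2c_succ]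
    exact measurable_const

theorem meas_nu (i : Fin (m + 3)) :
    Measurable fun z : Sn m => nu (z : EuclideanSpace ℝ (Fin (m + 3))) i := by
  simp only [nu_apply]
  exact meas_norm.inv.mul (meas_coord i)

theorem meas_XX : Measurable fun z : Sn m => XX (z : EuclideanSpace ℝ (Fin (m + 3))) :=
  meas_sig.div meas_norm

theorem meas_uu : Measurable fun z : Sn m => uu (z : EuclideanSpace ℝ (Fin (m + 3))) := by
  unfold uu
  refine Measurable.div ?_ (Complex.measurable_ofReal.comp meas_rho)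
  exact (Complex.measurable_ofReal.comp (meas_coord 0)).add
    ((Complex.measurable_ofReal.comp (meas_coord 1)).mul_const _)

/-- the projection to `(X, e^{iφ})` -/
def piS (z : Sn m) : ℝ × ℂ :=
  (XX (z : EuclideanSpace ℝ (Fin (m + 3))), uu (z : EuclideanSpace ℝ (Fin (m + 3))))

theorem meas_piS : Measurable (piS (m := m)) := meas_XX.prodMk meas_uu

theorem XX_mem (x : EuclideanSpace ℝ (Fin (m + 3))) : XX x ∈ Icc (0 : ℝ) 1 := by
  unfold XX
  refine ⟨div_nonneg (sig_nonneg x) (norm_nonneg x), ?_⟩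
  refine div_le_one_of_le₀ ?_ (norm_nonneg x)
  have h := norm_sq_eq_rs x
  exact (sq_le_sq₀ (sig_nonneg x) (norm_nonneg x)).1 (by nlinarith [sq_nonneg (rho x)])

theorem norm_uu {x : EuclideanSpace ℝ (Fin (m + 3))} (hr : rho x ≠ 0) : ‖uu x‖ = 1 := by
  unfold uu
  rw [norm_div, Complex.norm_real, Real.norm_eq_abs, abs_of_nonneg (rho_nonneg x)]
  have : ‖((x 0 : ℝ) : ℂ) + ((x 1 : ℝ) : ℂ) * Complex.I‖ = rho x := by
    rw [Complex.norm_add_mul_I]; rfl
  rw [this, div_self hr]

theorem ae_piS : ∀ᵐ (z : Sn m) ∂(muS m), piS z ∈ Kc := by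
  filter_upwards [ae_axes] with z hz
  exact ⟨XX_mem _, by simp only [mem_sphere_iff_norm, sub_zero]; exact norm_uu hz.1⟩

end

end Crest.Agent.R202.Wgt
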