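import Mathlib
import Crest.Agent.R202.WgtSph
import Crest.Agent.R202.SecQB
import Crest.Agent.R202.GalErr
import Crest.Agent.R202.SchY

/-! # Row 202, part B4b (helper728): Galerkin operators on the sphere

`QB B p h = ∫_S ∑ B_ij ∂_i p ∂_j h` (helper862), `Sop p θ P` = operator of the matrix `QB (SB θ P) (p i) (p j)`,
`Kop p s θ P t = e^{2 s t} • Sop p (θ t) (P t)`. -/

set_option autoImplicit false
set_option linter.unusedSectionVars false
set_option linter.deprecated false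

open MeasureTheory Filter Topology Set Metric MvPolynomial
open scoped InnerProductSpace ContDiff

namespace Crest.Agent.R202.Wgt

open Crest.Agent.R202.Geo Crest.Agent.R202.Sph

noncomputable section

variable {m : ℕ}

/-- gradient of a polynomial -/
def gradE (p : MvPolynomial (Fin (m + 3)) ℝ) (z : EuclideanSpace ℝ (Fin (m + 3))) :
    EuclideanSpace ℝ (Fin (m + 3)) := WithLp.toLp 2 fun i => ev (pderiv i p) z

theorem gradE_apply (p : MvPolynomial (Fin (m + 3)) ℝ) (z : EuclideanSpace ℝ (Fin (m + 3)))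
    (i : Fin (m + 3)) : gradE p z i = ev (pderiv i p) z := rfl

/-- components of a polynomial on the sphere -/
def gc (p : MvPolynomial (Fin (m + 3)) ℝ) (k : Fin 2 ⊕ Fin (m + 3)) (z : Sn m) : ℝ :=
  cv (z : EuclideanSpace ℝ (Fin (m + 3))) (gradE p z) k

theorem meas_ev (p : MvPolynomial (Fin (m + 3)) ℝ) :
    Measurable fun z : Sn m => ev p (z : EuclideanSpace ℝ (Fin (m + 3))) :=
  ((continuous_ev p).comp continuous_subtype_val).measurable

theorem meas_dt {f g : Sn m → EuclideanSpace ℝ (Fin (m + 3))}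
    (hf : ∀ i, Measurable fun z => f z i) (hg : ∀ i, Measurable fun z => g z i) :
    Measurable fun z => dt (f z) (g z) := by
  unfold dt
  exact Finset.measurable_fun_sum _ fun i _ => (hf i).mul (hg i)

theorem meas_gc (p : MvPolynomial (Fin (m + 3)) ℝ) (k : Fin 2 ⊕ Fin (m + 3)) :
    Measurable (gc p k) := by
  have hg : ∀ i, Measurable fun z : Sn m => gradE p (z : EuclideanSpace ℝ (Fin (m + 3))) i :=
    fun i => meas_ev _
  have h1 := meas_dt meas_e1 hg
  have h2 := meas_dt meas_e2 hg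
  have h3 := meas_dt meas_nu hg
  unfold gc
  rcases k with k | a
  · fin_cases k
    · exact h1
    · exact h2
  · exact (((hg a).sub (h3.mul (meas_nu a))).sub (h1.mul (meas_e1 a))).sub (h2.mul (meas_e2 a))

theorem exists_bound_ev (p : MvPolynomial (Fin (m + 3)) ℝ) : ∃ C : ℝ, 0 ≤ C ∧
    ∀ z : Sn m, |ev p (z : EuclideanSpace ℝ (Fin (m + 3)))| ≤ C := by
  obtain ⟨C, hC⟩ := (isCompact_univ (X := Sn m)).exists_bound_of_continuousOn
    ((continuous_ev p).comp continuous_subtype_val).continuousOn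
  refine ⟨|C|, abs_nonneg C, fun z => ?_⟩
  have := hC z (mem_univ z)
  exact (show |ev p (z : EuclideanSpace ℝ (Fin (m + 3)))| ≤ C from this).trans (le_abs_self C)

theorem abs_le_one_of_sum {n : ℕ} {v : EuclideanSpace ℝ (Fin n)} (h : ∑ i, v i * v i = 1)
    (i : Fin n) : |v i| ≤ 1 := by
  have h1 : v i * v i ≤ 1 := by
    rw [← h]
    exact Finset.single_le_sum (f := fun i => v i * v i) (fun j _ => mul_self_nonneg _)
      (Finset.mem_univ i)
  exact abs_le_one_iff_mul_self_le_one.2 h1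

theorem abs_dt_le {n : ℕ} {v w : EuclideanSpace ℝ (Fin n)} (h : ∑ i, v i * v i = 1) {C : ℝ}
    (hw : ∀ i, |w i| ≤ C) : |dt v w| ≤ n * C := by
  unfold dt
  refine (Finset.abs_sum_le_sum_abs _ _).trans ?_
  have : ∀ i ∈ Finset.univ, |v i * w i| ≤ C := fun i _ => by
    rw [abs_mul]
    calc |v i| * |w i| ≤ 1 * C := by
          have := abs_le_one_of_sum h i
          have := hw i
          gcongr
      _ = C := one_mul C
  refine (Finset.sum_le_card_nsmul _ _ _ this).trans ?_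
  simp

theorem bdd_gc (p : MvPolynomial (Fin (m + 3)) ℝ) : Bdd (muS m) (gc p) := by
  have h : ∀ i : Fin (m + 3), ∃ C : ℝ, 0 ≤ C ∧
    ∀ z : Sn m, |ev (pderiv i p) (z : EuclideanSpace ℝ (Fin (m + 3)))| ≤ C :=
    fun i => exists_bound_ev _
  choose C0 hC0 hC using h
  set C := ∑ i, C0 i with hCdef
  have hCn : 0 ≤ C := Finset.sum_nonneg fun i _ => hC0 i
  have hg : ∀ (z : Sn m) i, |gradE p (z : EuclideanSpace ℝ (Fin (m + 3))) i| ≤ C := fun z i =>
    (hC i z).trans (Finset.single_le_sum (fun i _ => hC0 i) (Finset.mem_univ i))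
  set N : ℝ := ((m + 3 : ℕ) : ℝ) with hN
  have hN0 : 0 ≤ N := Nat.cast_nonneg _
  refine ⟨fun k => (meas_gc p k).aestronglyMeasurable, C + 3 * (N * C), by positivity,
    fun k => ?_⟩
  filter_upwards [ae_axes] with z hz
  have hz0 : (z : EuclideanSpace ℝ (Fin (m + 3))) ≠ 0 := by
    intro h; have : ‖(z : EuclideanSpace ℝ (Fin (m + 3)))‖ = 1 := by simp
    rw [h, norm_zero] at this; exact zero_ne_one this
  have hT := tri_e1_e2 hz0 hz.1 hz.2
  have h1 := abs_dt_le hT.aa (hg z)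
  have h2 := abs_dt_le hT.bb (hg z)
  have h3 := abs_dt_le hT.vv (hg z)
  have hNC : 0 ≤ N * C := by positivity
  unfold gc
  rcases k with k | a
  · fin_cases k
    · exact h1.trans (by linarith)
    · exact h2.trans (by linarith)
  · have a1 := abs_le_one_of_sum hT.aa a
    have a2 := abs_le_one_of_sum hT.bb a
    have a3 := abs_le_one_of_sum hT.vv a
    have b1 : |dt (e1 (z : EuclideanSpace ℝ (Fin (m + 3)))) (gradE p z) * e1 z a| ≤ N * C := by
      rw [abs_mul]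
      calc _ ≤ (N * C) * 1 := by gcongr
        _ = N * C := mul_one _
    have b2 : |dt (e2 (z : EuclideanSpace ℝ (Fin (m + 3)))) (gradE p z) * e2 z a| ≤ N * C := by
      rw [abs_mul]
      calc _ ≤ (N * C) * 1 := by gcongr
        _ = N * C := mul_one _
    have b3 : |dt (nu (z : EuclideanSpace ℝ (Fin (m + 3)))) (gradE p z) * nu z a| ≤ N * C := by
      rw [abs_mul]
      calc _ ≤ (N * C) * 1 := by gcongr
        _ = N * C := mul_one _
    have b0 := hg z a
    simp only [cv]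
    rw [abs_le] at b0 b1 b2 b3 ⊢
    constructor <;> linarith

/-- weight functions on the sphere for a frozen datum -/
def wS (m : ℕ) (s θ : ℝ) (P : ℝ → ℂ → ℝ) (k : Fin 2 ⊕ Fin (m + 3)) (z : Sn m) : ℝ :=
  w4 m s θ (P (piS z).1 (piS z).2) (cl m k)

theorem QB_eq_wf {θ : ℝ} {P : ℝ → ℂ → ℝ} (hθ : 0 < θ) (hP : ∀ q ∈ Kc, 0 < P q.1 q.2)
    (p h : MvPolynomial (Fin (m + 3)) ℝ) :
    QB (SB θ P) p h = wf (muS m) (wS m 0 θ P) (gc p) (gc h) := by
  unfold QB qb wf
  refine integral_congr_ae ?_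
  filter_upwards [ae_axes, ae_piS] with z hz hz2
  have := SB_form hθ z (hP _ hz2) hz.1 hz.2 (gradE p z) (gradE h z)
  exact this

theorem wf_wS_exp (s θ : ℝ) (P : ℝ → ℂ → ℝ) (f g : Fin 2 ⊕ Fin (m + 3) → Sn m → ℝ) :
    wf (muS m) (wS m s θ P) f g = Real.exp (2 * s) * wf (muS m) (wS m 0 θ P) f g := by
  rw [← wf_smul_weight]
  congr 1
  funext k z
  exact w4_exp m s θ _ _

/-- frozen Galerkin operator -/
def Sop {N : ℕ} (p : Fin N → MvPolynomial (Fin (m + 3)) ℝ) (θ : ℝ) (P : ℝ → ℂ → ℝ) :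
    EuclideanSpace ℝ (Fin N) →L[ℝ] EuclideanSpace ℝ (Fin N) :=
  opM fun i j => QB (SB θ P) (p i) (p j)

/-- Galerkin operator at time `t` -/
def Kop {N : ℕ} (p : Fin N → MvPolynomial (Fin (m + 3)) ℝ) (s θ : ℝ → ℝ)
    (P : ℝ → ℝ → ℂ → ℝ) (t : ℝ) :
    EuclideanSpace ℝ (Fin N) →L[ℝ] EuclideanSpace ℝ (Fin N) :=
  Real.exp (2 * s t) • Sop p (θ t) (P t)

variable {N : ℕ} (p : Fin N → MvPolynomial (Fin (m + 3)) ℝ)

theorem Kop_eq {s θ : ℝ → ℝ} {P : ℝ → ℝ → ℂ → ℝ} {t : ℝ} (hθ : 0 < θ t)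
    (hP : ∀ q ∈ Kc, 0 < P t q.1 q.2) :
    Kop p s θ P t = opM fun i j =>
      wf (muS m) (wS m (s t) (θ t) (P t)) (gc (p i)) (gc (p j)) := by
  unfold Kop Sop
  rw [← opM_smul]
  congr 1
  funext i j
  rw [QB_eq_wf hθ hP, wf_wS_exp (s t)]

/-- weights of frozen data are bounded measurable -/
theorem wcont_wS {Y : Type*} [TopologicalSpace Y] {s θ : Y → ℝ} {P : Y → ℝ → ℂ → ℝ}
    (hs : Continuous s) (hθ : Continuous θ) (hP : Continuous fun q : Y × ℝ × ℂ => P q.1 q.2.1 q.2.2)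
    (θpos : ∀ y, 0 < θ y) (Ppos : ∀ y X u, 0 < P y X u) :
    WCont (muS m) (fun y => wS m (s y) (θ y) (P y)) := by
  refine wcont_of_continuous (π := piS) meas_piS.aemeasurable ae_piS
    (fun y k X u => w4 m (s y) (θ y) (P y X u) (cl m k)) (fun k => ?_)
  exact continuous_w4 m (hs.comp continuous_fst) (hθ.comp continuous_fst) hP
    (fun q => θpos _) (fun q => Ppos _ _ _) _

theorem continuous_Kop_param {Y : Type*} [TopologicalSpace Y] [FirstCountableTopology Y]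
    {s θ : Y → ℝ} {P : Y → ℝ → ℂ → ℝ}
    (hs : Continuous s) (hθ : Continuous θ) (hP : Continuous fun q : Y × ℝ × ℂ => P q.1 q.2.1 q.2.2)
    (θpos : ∀ y, 0 < θ y) (Ppos : ∀ y X u, 0 < P y X u) :
    Continuous fun y => Real.exp (2 * s y) • Sop p (θ y) (P y) := by
  have h : (fun y => Real.exp (2 * s y) • Sop p (θ y) (P y)) = fun y => opM fun i j =>
      wf (muS m) (wS m (s y) (θ y) (P y)) (gc (p i)) (gc (p j)) := by
    funext y
    unfold Sop
    rw [← opM_smul]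
    congr 1
    funext i j
    rw [QB_eq_wf (θpos y) (fun q _ => Ppos _ _ _), wf_wS_exp (s y)]
  rw [h]
  refine continuous_opM fun i j => ?_
  exact (wcont_wS hs hθ hP θpos Ppos).continuous_wf (bdd_gc _) (bdd_gc _)

theorem continuous_Sop_param {Y : Type*} [TopologicalSpace Y] [FirstCountableTopology Y]
    {θ : Y → ℝ} {P : Y → ℝ → ℂ → ℝ} (hθ : Continuous θ)
    (hP : Continuous fun q : Y × ℝ × ℂ => P q.1 q.2.1 q.2.2)
    (θpos : ∀ y, 0 < θ y) (Ppos : ∀ y X u, 0 < P y X u) :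
    Continuous fun y => Sop p (θ y) (P y) := by
  have := continuous_Kop_param p (s := fun _ => 0) continuous_const hθ hP θpos Ppos
  simpa using this

theorem Sop_symm {θ : ℝ} {P : ℝ → ℂ → ℝ} (hθ : 0 < θ) (hP : ∀ q ∈ Kc, 0 < P q.1 q.2)
    (x y : EuclideanSpace ℝ (Fin N)) : ⟪Sop p θ P x, y⟫_ℝ = ⟪x, Sop p θ P y⟫_ℝ := by
  refine opM_symm (fun i j => ?_) x y
  rw [QB_eq_wf hθ hP, QB_eq_wf hθ hP, wf_comm]

theorem inner_Sop {θ : ℝ} {P : ℝ → ℂ → ℝ} (hθ : 0 < θ) (hP : Continuous fun q : ℝ × ℂ => P q.1 q.2)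
    (Ppos : ∀ X u, 0 < P X u) (x y : EuclideanSpace ℝ (Fin N)) :
    ⟪Sop p θ P x, y⟫_ℝ = wf (muS m) (wS m 0 θ P) (comb (fun i => gc (p i)) x)
      (comb (fun i => gc (p i)) y) := by
  have hw : Bdd (muS m) (wS m 0 θ P) :=
    (wcont_wS (Y := Unit) (s := fun _ => 0) (θ := fun _ => θ) (P := fun _ => P) continuous_const
      continuous_const (hP.comp (by fun_prop : Continuous fun q : Unit × ℝ × ℂ => q.2))
      (fun _ => hθ) (fun _ => Ppos)).toBdd ()
  rw [wf_comb hw (fun i => bdd_gc (p i))]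
  unfold Sop
  rw [inner_opM]
  refine Finset.sum_congr rfl fun i _ => Finset.sum_congr rfl fun j _ => ?_
  rw [QB_eq_wf hθ (fun q _ => Ppos _ _)]

theorem Sop_nonneg {θ : ℝ} {P : ℝ → ℂ → ℝ} (hθ : 0 < θ) (hP : Continuous fun q : ℝ × ℂ => P q.1 q.2)
    (Ppos : ∀ X u, 0 < P X u) (x : EuclideanSpace ℝ (Fin N)) : 0 ≤ ⟪Sop p θ P x, x⟫_ℝ := by
  rw [inner_Sop p hθ hP Ppos]
  refine wf_nonneg (Eventually.of_forall fun z k => ?_)
  exact w4_nonneg m 0 hθ (Ppos _ _) _

end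

end Crest.Agent.R202.Wgt
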