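import Mathlib
import Crest.Agent.R202.WgtGal

/-! # Row 202, part B4b (helper728): time derivative of the Galerkin operators, `Gal.Coef` -/

set_option autoImplicit false
set_option linter.unusedSectionVars false
set_option linter.deprecated false

open MeasureTheory Filter Topology Set Metric MvPolynomial
open scoped InnerProductSpace ContDiff

namespace Crest.Agent.R202.Wgt

open Crest.Agent.R202.Geo Crest.Agent.R202.Sph

noncomputable section

variable {m : ℕ} {s θ : ℝ → ℝ} {P : ℝ → ℝ → ℂ → ℝ} {t0 X0 X1 : ℝ}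

/-- time derivative of `P` -/
def Pt (P : ℝ → ℝ → ℂ → ℝ) (t X : ℝ) (u : ℂ) : ℝ := deriv (fun τ => P τ X u) t

theorem hasDerivAt_Pt (hP : ContDiff ℝ ∞ (fun q : ℝ × ℝ × ℂ => P q.1 q.2.1 q.2.2)) (t X : ℝ)
    (u : ℂ) : HasDerivAt (fun τ => P τ X u) (Pt P t X u) t := by
  have h1 : Differentiable ℝ (fun q : ℝ × ℝ × ℂ => P q.1 q.2.1 q.2.2) :=
    hP.differentiable (by simp)
  have h2 : Differentiable ℝ (fun τ : ℝ => ((τ, X, u) : ℝ × ℝ × ℂ)) :=
    differentiable_id.prodMk (differentiable_const _)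
  exact ((h1.comp h2) t).hasDerivAt

theorem continuous_Pt (hP : ContDiff ℝ ∞ (fun q : ℝ × ℝ × ℂ => P q.1 q.2.1 q.2.2)) :
    Continuous fun q : ℝ × ℝ × ℂ => Pt P q.1 q.2.1 q.2.2 := by
  have h : (fun q : ℝ × ℝ × ℂ => Pt P q.1 q.2.1 q.2.2) =
      fun q => fderiv ℝ (fun q : ℝ × ℝ × ℂ => P q.1 q.2.1 q.2.2) q (1, 0, 0) := by
    funext q
    have h1 : DifferentiableAt ℝ (fun q : ℝ × ℝ × ℂ => P q.1 q.2.1 q.2.2) (q.1, q.2.1, q.2.2) :=
      (hP.differentiable (by simp)) _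
    have h2 : HasDerivAt (fun τ : ℝ => ((τ, q.2.1, q.2.2) : ℝ × ℝ × ℂ)) ((1 : ℝ), (0 : ℝ), (0 : ℂ))
        q.1 := (hasDerivAt_id q.1).prodMk ((hasDerivAt_const q.1 (q.2.1, q.2.2)))
    exact (h1.hasFDerivAt.comp_hasDerivAt q.1 h2).deriv
  rw [h]
  exact (hP.continuous_fderiv (by simp)).clm_apply continuous_const

/-- time derivative of the weights -/
def wS' (m : ℕ) (s θ : ℝ → ℝ) (P : ℝ → ℝ → ℂ → ℝ) (t : ℝ) (k : Fin 2 ⊕ Fin (m + 3))
    (z : Sn m) : ℝ :=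
  w4' m (s t) (θ t) (P t (piS z).1 (piS z).2) (deriv s t) (deriv θ t)
    (Pt P t (piS z).1 (piS z).2) (cl m k)

theorem wderiv_wS (h : Fam s θ P t0 X0 X1) :
    WDeriv (muS m) (fun t => wS m (s t) (θ t) (P t)) (wS' m s θ P) := by
  have cs : Continuous s := h.smooth_s.continuous
  have cθ : Continuous θ := h.smooth_θ.continuous
  have cs' : Continuous (deriv s) := (h.smooth_s.continuous_deriv (by simp))
  have cθ' : Continuous (deriv θ) := (h.smooth_θ.continuous_deriv (by simp))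
  refine wderiv_of_hasDerivAt (π := piS) meas_piS.aemeasurable ae_piS
    (fun t k X u => w4 m (s t) (θ t) (P t X u) (cl m k))
    (fun t k X u => w4' m (s t) (θ t) (P t X u) (deriv s t) (deriv θ t) (Pt P t X u) (cl m k))
    (fun k => ?_) (fun k => ?_) (fun k t X u => ?_)
  · exact continuous_w4 m (cs.comp continuous_fst) (cθ.comp continuous_fst) h.smooth_P.continuous
      (fun q => h.θ_pos _) (fun q => h.P_pos _ _ _) _
  · exact continuous_w4' m (cs.comp continuous_fst) (cθ.comp continuous_fst)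
      h.smooth_P.continuous (cs'.comp continuous_fst) (cθ'.comp continuous_fst)
      (continuous_Pt h.smooth_P)
      (fun q => h.θ_pos _) (fun q => h.P_pos _ _ _) _
  · exact hasDerivAt_w4 m (h.smooth_s.differentiable (by simp) t).hasDerivAt
      (h.smooth_θ.differentiable (by simp) t).hasDerivAt (hasDerivAt_Pt h.smooth_P t X u)
      (h.θ_pos t) (h.P_pos _ _ _) _

variable {N : ℕ} (p : Fin N → MvPolynomial (Fin (m + 3)) ℝ)

/-- derivative of the Galerkin operator -/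
def Kop' (s θ : ℝ → ℝ) (P : ℝ → ℝ → ℂ → ℝ) (t : ℝ) :
    EuclideanSpace ℝ (Fin N) →L[ℝ] EuclideanSpace ℝ (Fin N) :=
  opM fun i j => wf (muS m) (wS' m s θ P t) (gc (p i)) (gc (p j))

theorem Kop_fun_eq (h : Fam s θ P t0 X0 X1) :
    Kop p s θ P = fun t => opM fun i j =>
      wf (muS m) (wS m (s t) (θ t) (P t)) (gc (p i)) (gc (p j)) := by
  funext t
  exact Kop_eq p (h.θ_pos t) (fun q _ => h.P_pos _ _ _)

theorem hasDerivAt_Kop (h : Fam s θ P t0 X0 X1) (t : ℝ) :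
    HasDerivAt (Kop p s θ P) (Kop' p s θ P t) t := by
  rw [Kop_fun_eq p h]
  exact hasDerivAt_opM fun i j => (wderiv_wS h).hasDerivAt_wf (bdd_gc _) (bdd_gc _) t

theorem continuous_Kop' (h : Fam s θ P t0 X0 X1) : Continuous (Kop' p s θ P) := by
  unfold Kop'
  exact continuous_opM fun i j => (wderiv_wS h).W'_cont.continuous_wf (bdd_gc _) (bdd_gc _)

theorem inner_Kop (h : Fam s θ P t0 X0 X1) (t : ℝ) (x y : EuclideanSpace ℝ (Fin N)) :
    ⟪Kop p s θ P t x, y⟫_ℝ = wf (muS m) (wS m (s t) (θ t) (P t)) (comb (fun i => gc (p i)) x)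
      (comb (fun i => gc (p i)) y) := by
  rw [wf_comb ((wderiv_wS h).W_cont.toBdd t) (fun i => bdd_gc (p i)), Kop_fun_eq p h, inner_opM]

theorem inner_Kop' (h : Fam s θ P t0 X0 X1) (t : ℝ) (x y : EuclideanSpace ℝ (Fin N)) :
    ⟪Kop' p s θ P t x, y⟫_ℝ = wf (muS m) (wS' m s θ P t) (comb (fun i => gc (p i)) x)
      (comb (fun i => gc (p i)) y) := by
  rw [wf_comb ((wderiv_wS h).W'_cont.toBdd t) (fun i => bdd_gc (p i))]
  unfold Kop'
  rw [inner_opM]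

theorem Kop_symm (h : Fam s θ P t0 X0 X1) (t : ℝ) (x y : EuclideanSpace ℝ (Fin N)) :
    ⟪Kop p s θ P t x, y⟫_ℝ = ⟪x, Kop p s θ P t y⟫_ℝ := by
  rw [real_inner_comm (Kop p s θ P t y) x, inner_Kop p h, inner_Kop p h, wf_comm]

theorem Kop_nonneg (h : Fam s θ P t0 X0 X1) (t : ℝ) (x : EuclideanSpace ℝ (Fin N)) :
    0 ≤ ⟪Kop p s θ P t x, x⟫_ℝ := by
  rw [inner_Kop p h]
  exact wf_nonneg (Eventually.of_forall fun z k =>
    w4_nonneg m _ (h.θ_pos t) (h.P_pos _ _ _) _)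

/-- the rate bound -/
theorem Kop'_rate (h : Fam s θ P t0 X0 X1) {t r : ℝ} (h1 : |deriv s t| ≤ r)
    (h2 : |deriv θ t| ≤ r * θ t) (h3 : ∀ X ∈ Ioo (0 : ℝ) 1, ∀ u : ℂ, ‖u‖ = 1 →
      |Pt P t X u| ≤ r * P t X u) (x : EuclideanSpace ℝ (Fin N)) :
    |⟪Kop' p s θ P t x, x⟫_ℝ| ≤ 6 * r * ⟪Kop p s θ P t x, x⟫_ℝ := by
  rw [inner_Kop p h, inner_Kop' p h, ← wf_smul_weight]
  refine abs_wf_le ((wderiv_wS h).W'_cont.toBdd t) (((wderiv_wS h).W_cont.toBdd t).smul _)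
    (Bdd.comb (fun i => bdd_gc (p i)) x) ?_
  filter_upwards [ae_axes] with z hz k
  refine abs_w4'_le m (h.θ_pos t) (h.P_pos _ _ _) h1 h2 (h3 _ ?_ _ (norm_uu hz.1)) _
  have hz0 : (z : EuclideanSpace ℝ (Fin (m + 3))) ≠ 0 := by
    intro h; have : ‖(z : EuclideanSpace ℝ (Fin (m + 3)))‖ = 1 := by simp
    rw [h, norm_zero] at this; exact zero_ne_one this
  have hn : 0 < ‖(z : EuclideanSpace ℝ (Fin (m + 3)))‖ := norm_pos_iff.2 hz0
  constructor
  · exact div_pos (lt_of_le_of_ne (sig_nonneg _) (Ne.symm hz.2)) hn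
  · show sig (z : EuclideanSpace ℝ (Fin (m + 3))) / ‖(z : EuclideanSpace ℝ (Fin (m + 3)))‖ < 1
    rw [div_lt_one hn]
    have h4 := norm_sq_eq_rs (z : EuclideanSpace ℝ (Fin (m + 3)))
    have h5 : 0 < rho (z : EuclideanSpace ℝ (Fin (m + 3))) :=
      lt_of_le_of_ne (rho_nonneg _) (Ne.symm hz.1)
    exact (sq_lt_sq₀ (sig_nonneg _) hn.le).1 (by nlinarith)

end

end Crest.Agent.R202.Wgt
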