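import Mathlib
import Crest.Agent.R202.WgtCoef

/-! # Row 202, part B4b (helper728): the Galerkin coefficients `Gal.Coef` of a sector basis -/

set_option autoImplicit false
set_option linter.unusedSectionVars false
set_option linter.deprecated false

open MeasureTheory Filter Topology Set Metric MvPolynomial
open scoped InnerProductSpace ContDiff

namespace Crest.Agent.R202.Wgt

open Crest.Agent.R202.Geo Crest.Agent.R202.Sph

noncomputable section

variable {m : ℕ}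

/-- an orthonormal family of homogeneous harmonic polynomials -/
structure SBasis {N : ℕ} (p : Fin N → MvPolynomial (Fin (m + 3)) ℝ) (l : Fin N → ℕ) : Prop where
  mem : ∀ i, p i ∈ harm (m + 3) (l i)
  orth : ∀ i j, ip (p i) (p j) = if i = j then 1 else 0

/-! ### the round form -/

theorem SB_round (x : EuclideanSpace ℝ (Fin (m + 3))) :
    SB 1 (fun _ _ => 1) x = 1 - outer x := by
  have h : Afam (fun _ => (1 : ℝ)) (fun _ _ _ => (1 : ℝ)) x = 1 := by
    unfold Afam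
    simp
  unfold SB
  rw [h, inv_one]

theorem qb_round (p h : MvPolynomial (Fin (m + 3)) ℝ) {k l : ℕ} (hp : p.IsHomogeneous k)
    (hh : h.IsHomogeneous l) (x : EuclideanSpace ℝ (Fin (m + 3))) :
    qb (SB 1 (fun _ _ => 1)) p h x = ev (gp p h) x - (k * l) * ev (p * h) x := by
  have e1 : ∑ i, x i * ev (pderiv i p) x = k * ev p x := by
    have h := congrArg (fun p => ev p x) hp.sum_X_mul_pderiv
    simp only [ev_sum, ev_mul, ev_X] at h
    rw [h]; simp [ev, nsmul_eq_mul]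
  have e2 : ∑ i, x i * ev (pderiv i h) x = l * ev h x := by
    have h := congrArg (fun p => ev p x) hh.sum_X_mul_pderiv
    simp only [ev_sum, ev_mul, ev_X] at h
    rw [h]; simp [ev, nsmul_eq_mul]
  have e3 : ∑ i, ∑ j, outer x i j * ev (pderiv i p) x * ev (pderiv j h) x
      = (∑ i, x i * ev (pderiv i p) x) * (∑ j, x j * ev (pderiv j h) x) := sum_outer x _ _
  have e4 : ∑ i, ∑ j, (1 : Matrix (Fin (m + 3)) (Fin (m + 3)) ℝ) i j
      * ev (pderiv i p) x * ev (pderiv j h) x = ev (gp p h) x := by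
    rw [ev_gp]
    refine Finset.sum_congr rfl fun i _ => ?_
    rw [Finset.sum_eq_single i]
    · simp
    · intro j _ hj; rw [Matrix.one_apply_ne (Ne.symm hj)]; ring
    · intro h; exact absurd (Finset.mem_univ i) h
  unfold qb
  have e5 : ∑ i, ∑ j, SB 1 (fun _ _ => 1) x i j * ev (pderiv i p) x * ev (pderiv j h) x
      = ∑ i, ∑ j, (1 : Matrix (Fin (m + 3)) (Fin (m + 3)) ℝ) i j
      * ev (pderiv i p) x * ev (pderiv j h) x
        - ∑ i, ∑ j, outer x i j * ev (pderiv i p) x * ev (pderiv j h) x := by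
    simp only [← Finset.sum_sub_distrib]
    refine Finset.sum_congr rfl fun i _ => Finset.sum_congr rfl fun j _ => ?_
    rw [SB_round, Matrix.sub_apply]; ring
  rw [e5, e4, e3, e1, e2, ev_mul]
  ring

theorem QB_round {k l : ℕ} {p h : MvPolynomial (Fin (m + 3)) ℝ} (hp : p ∈ harm (m + 3) k)
    (hh : h ∈ harm (m + 3) l) :
    QB (SB 1 (fun _ _ => 1)) p h = sph (ev (gp p h)) - (k * l) * sph (ev (p * h)) := by
  rw [QB_eq]
  have : qb (SB 1 (fun _ _ => 1)) p h = ev (gp p h + (-(k * l : ℝ)) • (p * h)) := by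
    funext x
    rw [qb_round p h (mem_harm.1 hp).1 (mem_harm.1 hh).1, ev_add, ev_smul]
    ring
  rw [this, sph_add, sph_smul]
  ring

variable {N : ℕ} {p : Fin N → MvPolynomial (Fin (m + 3)) ℝ} {l : Fin N → ℕ}

theorem SBasis.QB_round (h : SBasis p l) (i j : Fin N) :
    QB (SB 1 (fun _ _ => 1)) (p i) (p j) = if i = j then (l i : ℝ) * (l i + m + 1) else 0 := by
  rw [Wgt.QB_round (h.mem i) (h.mem j)]
  have ho := h.orth i j
  unfold ip at ho
  by_cases hij : i = j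
  · subst hij
    rw [if_pos rfl] at ho ⊢
    rw [sph_gp (h.mem i) (h.mem i), ho]
    push_cast
    ring
  · rw [if_neg hij] at ho ⊢
    rw [sph_gp_zero (h.mem i) (h.mem j) ho, ho]
    ring

/-- the degree operator -/
def L0op (l : Fin N → ℕ) : EuclideanSpace ℝ (Fin N) →L[ℝ] EuclideanSpace ℝ (Fin N) :=
  opM fun i j => if i = j then (l i : ℝ) else 0

theorem L0op_apply (l : Fin N → ℕ) (x : EuclideanSpace ℝ (Fin N)) (i : Fin N) :
    L0op l x i = l i * x i := by
  unfold L0op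
  rw [opM_apply]
  simp

theorem L0op_symm (l : Fin N → ℕ) (x y : EuclideanSpace ℝ (Fin N)) :
    ⟪L0op l x, y⟫_ℝ = ⟪x, L0op l y⟫_ℝ :=
  opM_symm (fun i j => by
    by_cases h : i = j
    · subst h; rfl
    · rw [if_neg h, if_neg (Ne.symm h)]) x y

theorem L0op_nonneg (l : Fin N → ℕ) (x : EuclideanSpace ℝ (Fin N)) : 0 ≤ ⟪L0op l x, x⟫_ℝ := by
  rw [PiLp.inner_apply]
  refine Finset.sum_nonneg fun i _ => ?_
  rw [L0op_apply]
  simp only [RCLike.inner_apply, conj_trivial]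
  have : (0 : ℝ) ≤ l i := Nat.cast_nonneg _
  nlinarith [mul_nonneg this (mul_self_nonneg (x i))]

theorem SBasis.Sop_round (h : SBasis p l) (x : EuclideanSpace ℝ (Fin N)) :
    Sop p 1 (fun _ _ => 1) x = L0op l (L0op l x) + ((m : ℝ) + 1) • L0op l x := by
  refine PiLp.ext fun i => ?_
  unfold Sop
  rw [opM_apply, PiLp.add_apply, PiLp.smul_apply, L0op_apply, L0op_apply]
  simp only [h.QB_round, smul_eq_mul]
  simp
  ring

variable {s θ : ℝ → ℝ} {P : ℝ → ℝ → ℂ → ℝ} {t0 X0 X1 : ℝ}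

theorem Kop_init (hb : SBasis p l) (h : Fam s θ P t0 X0 X1) {t : ℝ} (ht : t ≤ t0)
    (x : EuclideanSpace ℝ (Fin N)) :
    Kop p s θ P t x = L0op l (L0op l x) + ((m : ℝ) + 1) • L0op l x := by
  have h1 : P t = fun _ _ => 1 := by
    funext X u; exact h.P_init t ht X u
  unfold Kop
  rw [h.s_init t ht, h.θ_init t ht, h1, mul_zero, Real.exp_zero, one_smul, hb.Sop_round]

theorem deriv_s_init (h : Fam s θ P t0 X0 X1) : deriv s t0 = 0 := by
  have h1 : HasDerivAt s (deriv s t0) t0 := (h.smooth_s.differentiable (by simp) t0).hasDerivAt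
  have h2 : HasDerivWithinAt s (deriv s t0) (Iic t0) t0 := h1.hasDerivWithinAt
  have h3 : HasDerivWithinAt s 0 (Iic t0) t0 := by
    refine (hasDerivWithinAt_const t0 (Iic t0) (0 : ℝ)).congr (fun x hx => h.s_init x hx) ?_
    exact h.s_init t0 le_rfl
  exact (uniqueDiffWithinAt_Iic t0).eq_deriv _ h2 h3

/-- **the Galerkin coefficients** -/
def coefOf (hb : SBasis p l) (h : Fam s θ P t0 X0 X1) (h1 : ∀ t, deriv s t ≤ 1 / 4) :
    Gal.Coef (EuclideanSpace ℝ (Fin N)) where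
  b t := ((m : ℝ) + 1) - ((m : ℝ) + 2) * deriv s t
  b' t := -(((m : ℝ) + 2) * deriv (deriv s) t)
  K := Kop p s θ P
  K' := Kop' p s θ P
  t0 := t0
  L0 := L0op l
  hb t := by
    have h2 : ContDiff ℝ ∞ (deriv s) := (contDiff_infty_iff_deriv.1 h.smooth_s).2
    have h3 := (h2.differentiable (by simp) t).hasDerivAt
    have h4 := (h3.const_mul ((m : ℝ) + 2)).const_sub ((m : ℝ) + 1)
    exact h4
  hK := hasDerivAt_Kop p h
  cb' := by
    have h2 : ContDiff ℝ ∞ (deriv s) := (contDiff_infty_iff_deriv.1 h.smooth_s).2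
    exact (continuous_const.mul (h2.continuous_deriv (by simp))).neg
  cK' := continuous_Kop' p h
  symm := Kop_symm p h
  nonneg := Kop_nonneg p h
  L0_symm := L0op_symm l
  L0_nonneg := L0op_nonneg l
  L0_sq x := by
    rw [Kop_init hb h le_rfl, deriv_s_init h, mul_zero, sub_zero]
  b_pos t := by
    have h2 := h1 t
    have h3 : (0 : ℝ) ≤ m := Nat.cast_nonneg m
    nlinarith

theorem coefOf_K (hb : SBasis p l) (h : Fam s θ P t0 X0 X1) (h1 : ∀ t, deriv s t ≤ 1 / 4) :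
    (coefOf hb h h1).K = Kop p s θ P := rfl

theorem coefOf_b (hb : SBasis p l) (h : Fam s θ P t0 X0 X1) (h1 : ∀ t, deriv s t ≤ 1 / 4) (t : ℝ) :
    (coefOf hb h h1).b t = ((m : ℝ) + 1) - ((m : ℝ) + 2) * deriv s t := rfl

theorem coefOf_b' (hb : SBasis p l) (h : Fam s θ P t0 X0 X1) (h1 : ∀ t, deriv s t ≤ 1 / 4)
    (t : ℝ) : (coefOf hb h h1).b' t = -(((m : ℝ) + 2) * deriv (deriv s) t) := rfl

theorem coefOf_t0 (hb : SBasis p l) (h : Fam s θ P t0 X0 X1) (h1 : ∀ t, deriv s t ≤ 1 / 4) :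
    (coefOf hb h h1).t0 = t0 := rfl

theorem coefOf_L0 (hb : SBasis p l) (h : Fam s θ P t0 X0 X1) (h1 : ∀ t, deriv s t ≤ 1 / 4) :
    (coefOf hb h h1).L0 = L0op l := rfl

/-- a unit complex number is `e^{iφ}` -/
theorem exists_phi {u : ℂ} (hu : ‖u‖ = 1) : ∃ φ : ℝ, Complex.exp ((φ : ℂ) * Complex.I) = u := by
  refine ⟨Complex.arg u, ?_⟩
  have := Complex.norm_mul_exp_arg_mul_I u
  rwa [hu, Complex.ofReal_one, one_mul] at this

/-- **rate bound** from 580's `RateAt` -/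
theorem coefOf_rate (hb : SBasis p l) (h : Fam s θ P t0 X0 X1) (h1 : ∀ t, deriv s t ≤ 1 / 4)
    {K ρ r t : ℝ} (hK : 0 < K) (hR : RateAt s θ P K ρ t) (hs : |deriv s t| ≤ r)
    (hρ : K * ρ ≤ r) (hb' : ((m : ℝ) + 2) * |deriv (deriv s) t| ≤ 6 * r) :
    (coefOf hb h h1).Rate (6 * r) t := by
  have hρ0 : 0 ≤ ρ := (abs_nonneg _).trans hR.θ_t
  refine ⟨fun x => ?_, ?_⟩
  · refine Kop'_rate p h hs ?_ (fun X hX u hu => ?_) x
    · have h2 := hR.θ_low
      have h3 : ρ ≤ K * ρ * θ t := by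
        calc ρ = K * ρ * K⁻¹ := by field_simp
          _ ≤ K * ρ * θ t := by gcongr
      have h4 := h.θ_pos t
      calc |deriv θ t| ≤ ρ := hR.θ_t
        _ ≤ K * ρ * θ t := h3
        _ ≤ r * θ t := by gcongr
    · obtain ⟨φ, rfl⟩ := exists_phi hu
      have h2 := hR.P_low X φ hX.1 hX.2
      have h5 := hR.P_t X φ hX.1 hX.2
      have h6 : Pt P t X (Complex.exp ((φ : ℂ) * Complex.I)) = dT (PP P) t X φ := rfl
      have h7 : PP P t X φ = P t X (Complex.exp ((φ : ℂ) * Complex.I)) := rfl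
      rw [h7] at h2
      have h4 := h.P_pos t X (Complex.exp ((φ : ℂ) * Complex.I))
      rw [h6]
      calc |dT (PP P) t X φ| ≤ ρ := h5
        _ = K * ρ * K⁻¹ := by field_simp
        _ ≤ K * ρ * P t X (Complex.exp ((φ : ℂ) * Complex.I)) := by gcongr
        _ ≤ r * P t X (Complex.exp ((φ : ℂ) * Complex.I)) := by gcongr
  · rw [coefOf_b', abs_neg, abs_mul, abs_of_nonneg (by positivity : (0 : ℝ) ≤ (m : ℝ) + 2)]
    exact hb'

/-- joint continuity in a parameter -/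
theorem continuous_Kop_joint {Y : Type*} [TopologicalSpace Y] [FirstCountableTopology Y]
    (p : Fin N → MvPolynomial (Fin (m + 3)) ℝ) {s : ℝ → ℝ} {θ : Y → ℝ → ℝ}
    {P : Y → ℝ → ℝ → ℂ → ℝ} (hs : Continuous s) (hθ : Continuous fun q : Y × ℝ => θ q.1 q.2)
    (hP : Continuous fun q : Y × ℝ × ℝ × ℂ => P q.1 q.2.1 q.2.2.1 q.2.2.2)
    (θpos : ∀ y t, 0 < θ y t) (Ppos : ∀ y t X u, 0 < P y t X u) :
    Continuous (Function.uncurry fun y t => Kop p s (θ y) (P y) t) := by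
  have := continuous_Kop_param (Y := Y × ℝ) p (s := fun q => s q.2) (θ := fun q => θ q.1 q.2)
    (P := fun q => P q.1 q.2) (hs.comp continuous_snd) hθ
    (hP.comp (by fun_prop : Continuous fun q : (Y × ℝ) × ℝ × ℂ =>
      ((q.1.1, q.1.2, q.2.1, q.2.2) : Y × ℝ × ℝ × ℂ)))
    (fun _ => θpos _ _) (fun _ => Ppos _ _)
  exact this

end

end Crest.Agent.R202.Wgt
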