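import Mathlib
import Crest.Agent.R202.WgtFlow

/-! # Row 202, part B4b (helper728): Galerkin operators along the homes and gates of the schedule -/

set_option autoImplicit false
set_option linter.unusedSectionVars false
set_option linter.deprecated false

open MeasureTheory Filter Topology Set Metric MvPolynomial
open scoped InnerProductSpace ContDiff

namespace Crest.Agent.R202.Wgt

open Crest.Agent.R202.Geo Crest.Agent.R202.Sph Crest.Agent.R202.Sch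

noncomputable section

variable {m N : ℕ} (p : Fin N → MvPolynomial (Fin (m + 3)) ℝ)
variable {y0 y1 Xa Xb X0 X1 : ℝ} {h : ℝ → ℝ}

/-- home operator -/
def homeS (h : ℝ → ℝ) (y0 : ℝ) : EuclideanSpace ℝ (Fin N) →L[ℝ] EuclideanSpace ℝ (Fin N) :=
  Sop p y0⁻¹ (Ptip h y0)

/-- frozen operator of a loop at `(τ, κ)` -/
def loopS (h : ℝ → ℝ) (L : YLoop y0 y1 Xa Xb) (τ κ : ℝ) :
    EuclideanSpace ℝ (Fin N) →L[ℝ] EuclideanSpace ℝ (Fin N) :=
  Sop p (L.y τ)⁻¹ (fun X u => Ptip h (L.y τ) X u + L.Gh τ κ X (ret u))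

theorem loopS_left (L : YLoop y0 y1 Xa Xb) {τ : ℝ} (hτ : τ ≤ 0) (κ : ℝ) :
    loopS p h L τ κ = homeS p h y0 := by
  unfold loopS homeS
  rw [L.y_left τ hτ]
  congr 1
  funext X u
  rw [L.Gh_left _ _ _ _ hτ, add_zero]

theorem loopS_right (L : YLoop y0 y1 Xa Xb) {τ : ℝ} (hτ : 1 ≤ τ) (κ : ℝ) :
    loopS p h L τ κ = homeS p h y0 := by
  unfold loopS homeS
  rw [L.y_right τ hτ]
  congr 1
  funext X u
  rw [L.Gh_right _ _ _ _ hτ, add_zero]

theorem P_loop_pos (hp : Prof X0 X1 h) (hy0 : 1 ≤ y0) (L : YLoop y0 y1 Xa Xb) (τ : ℝ) {κ : ℝ}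
    (hκ : κ ∈ Icc (-1 : ℝ) 1) (X : ℝ) (u : ℂ) :
    0 < Ptip h (L.y τ) X u + L.Gh τ κ X (ret u) := by
  unfold Ptip
  have h1 := (L.y_mem τ).1
  have := mul_nonneg (by linarith : 0 ≤ L.y τ - 1) (hp.nonneg X)
  have h2 := abs_le.1 (L.Gh_small τ κ hκ X (ret u) (norm_ret_le u))
  linarith [h2.1]

theorem Ptip_pos (hp : Prof X0 X1 h) {y : ℝ} (hy : 1 ≤ y) (X : ℝ) (u : ℂ) : 0 < Ptip h y X u := by
  unfold Ptip
  have := mul_nonneg (by linarith : 0 ≤ y - 1) (hp.nonneg X)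
  linarith

theorem continuous_P_loop (hp : Prof X0 X1 h) (hy0 : 1 ≤ y0) (L : YLoop y0 y1 Xa Xb) :
    Continuous fun q : ℝ × ℝ × ℝ × ℂ =>
      Ptip h (L.y q.1) q.2.2.1 q.2.2.2 + L.Gh q.1 q.2.1 q.2.2.1 (ret q.2.2.2) :=
  (L.toLoop hp hy0).smooth_P.continuous

theorem continuous_P_loop' (hp : Prof X0 X1 h) (hy0 : 1 ≤ y0) (L : YLoop y0 y1 Xa Xb) (τ κ : ℝ) :
    Continuous fun q : ℝ × ℂ => Ptip h (L.y τ) q.1 q.2 + L.Gh τ κ q.1 (ret q.2) :=
  (continuous_P_loop hp hy0 L).comp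
    (by fun_prop : Continuous fun q : ℝ × ℂ => ((τ, κ, q.1, q.2) : ℝ × ℝ × ℝ × ℂ))

theorem continuous_loopS (hp : Prof X0 X1 h) (hy0 : 1 ≤ y0) (L : YLoop y0 y1 Xa Xb) :
    Continuous fun q : ℝ × Icc (-1 : ℝ) 1 => loopS p h L q.1 q.2 := by
  unfold loopS
  refine continuous_Sop_param (Y := ℝ × Icc (-1 : ℝ) 1) p
    (θ := fun q => (L.y q.1)⁻¹)
    (P := fun q X u => Ptip h (L.y q.1) X u + L.Gh q.1 q.2 X (ret u)) ?_ ?_ ?_ ?_
  · exact (L.y_smooth.continuous.comp continuous_fst).inv₀ fun q =>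
      (lt_of_lt_of_le (by linarith) (L.y_mem q.1).1 : 0 < L.y q.1).ne'
  · exact (continuous_P_loop hp hy0 L).comp
      (by fun_prop : Continuous fun q : (ℝ × Icc (-1 : ℝ) 1) × ℝ × ℂ =>
        ((q.1.1, (q.1.2 : ℝ), q.2.1, q.2.2) : ℝ × ℝ × ℝ × ℂ))
  · intro q
    exact inv_pos.2 (by linarith [(L.y_mem q.1).1])
  · intro q X u
    exact P_loop_pos hp hy0 L q.1 q.2.2 X u

theorem loopS_symm (hp : Prof X0 X1 h) (hy0 : 1 ≤ y0) (L : YLoop y0 y1 Xa Xb) (τ : ℝ) {κ : ℝ}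
    (hκ : κ ∈ Icc (-1 : ℝ) 1) (x y : EuclideanSpace ℝ (Fin N)) :
    ⟪loopS p h L τ κ x, y⟫_ℝ = ⟪x, loopS p h L τ κ y⟫_ℝ :=
  Sop_symm p (inv_pos.2 (by linarith [(L.y_mem τ).1])) (fun q _ => P_loop_pos hp hy0 L τ hκ _ _) x y

theorem homeS_symm (hp : Prof X0 X1 h) (hy0 : 1 ≤ y0) (x y : EuclideanSpace ℝ (Fin N)) :
    ⟪homeS p h y0 x, y⟫_ℝ = ⟪x, homeS p h y0 y⟫_ℝ :=
  Sop_symm p (inv_pos.2 (by linarith)) (fun q _ => Ptip_pos hp hy0 _ _) x y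

theorem homeS_nonneg (hp : Prof X0 X1 h) (hy0 : 1 ≤ y0) (x : EuclideanSpace ℝ (Fin N)) :
    0 ≤ ⟪homeS p h y0 x, x⟫_ℝ := by
  refine Sop_nonneg p (inv_pos.2 (by linarith)) ?_ (Ptip_pos hp hy0) x
  unfold Ptip
  exact continuous_const.add (continuous_const.mul (hp.smooth.continuous.comp continuous_fst))

/-! ### the schedule -/

variable {ι : Type*} (s : ℝ → ℝ) (L : ι → YLoop y0 y1 Xa Xb) (j : ℕ → ι) (κ : ℕ → ℝ)

theorem K_gate (hp : Prof X0 X1 h) (hy0 : 1 ≤ y0) {A : ℝ} (hA : 0 < A) {q : ℕ} {t : ℝ}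
    (h1 : hs A q ≤ t) (h2 : t ≤ he A (q + 1)) :
    Kop p s (thS A (yInst hp hy0) (fun q => (L (j q)).toLoop hp hy0) κ)
      (PS A (yInst hp hy0) (fun q => (L (j q)).toLoop hp hy0) κ) t
      = Real.exp (2 * s t) • loopS p h (L (j q)) ((t - he A q) / Tg A q) (κ q) := by
  unfold Kop loopS
  have e1 : PS A (yInst hp hy0) (fun q => (L (j q)).toLoop hp hy0) κ t = fun X u =>
      Ptip h ((L (j q)).y ((t - he A q) / Tg A q)) X u
        + (L (j q)).Gh ((t - he A q) / Tg A q) (κ q) X (ret u) := by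
    funext X u
    exact PS_gate _ _ _ hA h1 h2 X u
  rw [e1, thS_gate _ _ _ hA h1 h2]
  rfl

theorem K_home (hp : Prof X0 X1 h) (hy0 : 1 ≤ y0) {A : ℝ} (hA : 0 < A) {q : ℕ} {t : ℝ}
    (h1 : hs A q ≤ t) (h2 : t ≤ he A q) :
    Kop p s (thS A (yInst hp hy0) (fun q => (L (j q)).toLoop hp hy0) κ)
      (PS A (yInst hp hy0) (fun q => (L (j q)).toLoop hp hy0) κ) t
      = Real.exp (2 * s t) • homeS p h y0 := by
  unfold Kop homeS
  have e1 : PS A (yInst hp hy0) (fun q => (L (j q)).toLoop hp hy0) κ t = Ptip h y0 := by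
    funext X u
    exact PS_home _ _ _ hA h1 h2 X u
  rw [e1, thS_home _ _ _ hA h1 h2]

/-- the assembled `θ` and `P` are positive -/
theorem thS_PS_pos (hp : Prof X0 X1 h) (hy0 : 1 ≤ y0) {A : ℝ} (hA : 0 < A)
    (hκ : ∀ q, κ q ∈ Icc (-1 : ℝ) 1) (t : ℝ) :
    0 < thS A (yInst hp hy0) (fun q => (L (j q)).toLoop hp hy0) κ t ∧
      ∀ X u, 0 < PS A (yInst hp hy0) (fun q => (L (j q)).toLoop hp hy0) κ t X u := by
  refine forall_datum (yInst hp hy0) (fun q => (L (j q)).toLoop hp hy0) κ hA hκ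
    (D := fun th P => 0 < th ∧ ∀ X u, 0 < P X u) (fun τ _ => ?_) (fun q τ _ k hk => ?_) t
  · exact ⟨inv_pos.2 (by linarith [(yI_mem hy0 τ).1]), Ptip_pos hp (yI_mem hy0 τ).1⟩
  · exact ⟨inv_pos.2 (by linarith [((L (j q)).y_mem τ).1]), P_loop_pos hp hy0 (L (j q)) τ hk⟩

/-- joint continuity in the parameter `κ` and in `t` -/
theorem continuous_K_param {Y : Type*} [TopologicalSpace Y] [FirstCountableTopology Y]
    (hs : Continuous s) (hp : Prof X0 X1 h) (hy0 : 1 ≤ y0) {A : ℝ} (hA : 0 < A) (e : Y → ℕ → ℝ)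
    (he : Continuous e) (hκ : ∀ y q, e y q ∈ Icc (-1 : ℝ) 1) :
    Continuous (Function.uncurry fun y t =>
      Kop p s (thS A (yInst hp hy0) (fun q => (L (j q)).toLoop hp hy0) (e y))
      (PS A (yInst hp hy0) (fun q => (L (j q)).toLoop hp hy0) (e y)) t) := by
  refine continuous_Kop_joint p hs ?_ ?_ (fun y t => (thS_PS_pos L j _ hp hy0 hA (hκ y) t).1)
    (fun y t => (thS_PS_pos L j _ hp hy0 hA (hκ y) t).2)
  · exact (thS_continuous_param _ _ hA).comp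
      ((he.comp continuous_fst).prodMk continuous_snd)
  · exact (PS_continuous_param _ _ hA).comp
      ((he.comp continuous_fst).prodMk continuous_snd)

end

end Crest.Agent.R202.Wgt
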