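/-
R202, final export of part B (helper846): frozen interface `SepTrans` (transfer of separations from
the model space of part C to the Galerkin spaces; owner of the proof: helper728).
-/
import Crest.Agent.R202.CThmDef
import Crest.Agent.R202.WgtGate
import Crest.Agent.R202.LowFrame

set_option autoImplicit false

open Set
open scoped InnerProductSpace
open Crest.Agent.R202.Mod Crest.Agent.R202.Sch Crest.Agent.R202.CT

noncomputable section

namespace Crest.Agent.R202.BFin

/-- the power of `θ = 1 / y` in front of the form -/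
def wy (m : ℕ) (y : ℝ) : ℝ := (y⁻¹) ^ ((2 : ℝ) / ((m : ℝ) + 2))

/-- Transfer from the sector model (degree `≤ D`) to the Galerkin space with basis `p`. -/
structure SepTrans (m : ℕ) (σ : ℕ × ℕ) (D : ℕ) {ND : ℕ}
    (p : Fin ND → MvPolynomial (Fin (m + 3)) ℝ) where
  /-- coordinates of (the spherical polynomial of) a model element -/
  Φ : VV σ → EuclideanSpace ℝ (Fin ND)
  inner : ∀ u ∈ PolD σ.1 σ.2 D, Reduced m σ u → ∀ v ∈ PolD σ.1 σ.2 D, Reduced m σ v →
    ⟪Φ u, Φ v⟫_ℝ = 2 * gF m σ u v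
  sep : ∀ (l : ℕ) (f : Fin l → VV σ) (A B y : ℝ) (P : ℝ → ℂ → ℝ),
    (∀ i, f i ∈ PolD σ.1 σ.2 D) → 1 ≤ y → (Continuous fun z : ℝ × ℂ => P z.1 z.2) →
    (∀ X u, 0 < P X u) → SepP m σ l f A B y (fun z => P z.1 (ee z.2)) →
    LowF.Sep (Wgt.Sop p y⁻¹ P) (fun i => Φ (f i)) (wy m y * A) (wy m y * B)

end Crest.Agent.R202.BFin
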