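/-
R202, final export of part B (helper846): the scale factor of a loop.
-/
import Crest.Agent.R202.BFinDefs

set_option autoImplicit false

open Set Filter Topology
open Crest.Agent.R202.Sch

noncomputable section

namespace Crest.Agent.R202.BFin

theorem exists_wy (m : ℕ) {y0 y1 Xa Xb : ℝ} (hy0 : 1 ≤ y0) (L : Sch.YLoop y0 y1 Xa Xb) :
    ∃ (w' : ℝ → ℝ) (Cw wmin : ℝ), 0 ≤ Cw ∧ 0 < wmin ∧
      (∀ τ, HasDerivAt (fun τ => ((L.y τ)⁻¹) ^ ((2 : ℝ) / ((m : ℝ) + 2))) (w' τ) τ) ∧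
      (∀ τ, |w' τ| ≤ Cw) ∧ ∀ τ, wmin ≤ ((L.y τ)⁻¹) ^ ((2 : ℝ) / ((m : ℝ) + 2)) ∧
        ((L.y τ)⁻¹) ^ ((2 : ℝ) / ((m : ℝ) + 2)) ≤ 1 := by
  set W : ℝ → ℝ := fun τ => ((L.y τ)⁻¹) ^ ((2 : ℝ) / ((m : ℝ) + 2)) with hW
  have hy : ∀ τ, 1 ≤ L.y τ := fun τ => hy0.trans (L.y_mem τ).1
  have hypos : ∀ τ, 0 < L.y τ := fun τ => by linarith [hy τ]
  have hp : 0 ≤ (2 : ℝ) / ((m : ℝ) + 2) := by positivity
  have hWs : ContDiff ℝ 1 W :=
    ((L.y_smooth.of_le (by exact_mod_cast le_top)).inv fun τ => (hypos τ).ne').rpow_const_of_ne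
      fun τ => (inv_pos.2 (hypos τ)).ne'
  have hW' : ∀ τ, HasDerivAt W (deriv W τ) τ := fun τ =>
    (hWs.differentiable (by norm_num) τ).hasDerivAt
  have hWc : Continuous (deriv W) := hWs.continuous_deriv le_rfl
  obtain ⟨C, hC⟩ := (isCompact_Icc (a := (0 : ℝ)) (b := 1)).exists_bound_of_continuousOn
    hWc.continuousOn
  refine ⟨deriv W, |C|, (y1⁻¹) ^ ((2 : ℝ) / ((m : ℝ) + 2)), abs_nonneg _, ?_, hW', fun τ => ?_,
    fun τ => ⟨?_, ?_⟩⟩
  · have h1 : y0 ≤ y1 := (L.y_mem 0).1.trans (L.y_mem 0).2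
    exact Real.rpow_pos_of_pos (inv_pos.2 (by linarith)) _
  · by_cases hτ : τ ∈ Icc (0 : ℝ) 1
    · have := hC τ hτ
      rw [Real.norm_eq_abs] at this
      exact this.trans (le_abs_self C)
    · have h0 : deriv W τ = 0 := by
        rcases lt_or_ge τ 0 with h | h
        · have h1 : W =ᶠ[𝓝 τ] fun _ => W 0 := by
            filter_upwards [Iio_mem_nhds h] with y hy
            simp only [hW]
            rw [L.y_left y (le_of_lt hy), L.y_left 0 le_rfl]
          rw [h1.deriv_eq, deriv_const]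
        · have h2 : 1 < τ := by
            by_contra hcon
            exact hτ ⟨h, not_lt.1 hcon⟩
          have h1 : W =ᶠ[𝓝 τ] fun _ => W 1 := by
            filter_upwards [Ioi_mem_nhds h2] with y hy
            simp only [hW]
            rw [L.y_right y (le_of_lt hy), L.y_right 1 le_rfl]
          rw [h1.deriv_eq, deriv_const]
      rw [h0, abs_zero]; exact abs_nonneg _
  · exact Real.rpow_le_rpow (inv_nonneg.2 (by
      have := (L.y_mem τ).1.trans (L.y_mem τ).2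
      linarith)) (inv_anti₀ (hypos τ) (L.y_mem τ).2) hp
  · exact Real.rpow_le_one (inv_nonneg.2 (hypos τ).le) (inv_le_one_of_one_le₀ (hy τ)) hp

end Crest.Agent.R202.BFin
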