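import Crest.Agent.R202.Prof6

/-!
Row 202, GLUE, node TopChoice: the choice of the tip profile and of the loops (from Part C and the
PROFILE node), in the format of `Sch.exists_mainY`.
(helper912)
-/

set_option autoImplicit false
open scoped ContDiff Topology
open Set Filter
open Crest.Agent.R202.Main Crest.Agent.R202.CT Crest.Agent.R202.Sch

namespace Crest.Agent.R202.Top

noncomputable section

/-- All choices before the schedule: constants, profile and loops. -/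
structure Choice {m : ℕ} {v : ℝ} {k : ℕ} (D : CountData m v k) (εh : ℝ) where
  μ : ℝ
  δ : ℝ
  e : ℝ
  X0 : ℝ
  Xa : ℝ
  Xb : ℝ
  X1 : ℝ
  h : ℝ → ℝ
  L : Gate D → YLoop D.b0 D.b1 Xa Xb
  μ_pos : 0 < μ
  δ_pos : 0 < δ
  e_pos : 0 < e
  X0_pos : 0 < X0
  X0a : X0 < Xa
  Xab : Xa < Xb
  Xb1 : Xb < X1
  X1_lt : X1 < 1
  prof : Sch.Prof X0 X1 h
  sI_pos : 0 < -Real.log v / ((m : ℝ) + 2)
  hnum : (1 + μ) * Real.exp (-2 * (-Real.log v / ((m : ℝ) + 2) - δ))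
    * D.b1 ^ ((2 : ℝ) / ((m : ℝ) + 2)) ≤ 1 - e
  cT : ∀ y ∈ Icc 1 D.b0, ConeS m ((m + 1) * (1 - e)) y⁻¹ (Ptip h y)
  cL : ∀ i, ∀ τ ∈ Icc (0 : ℝ) 1, ∀ κ ∈ Icc (-1 : ℝ) 1,
    ConeS m ((m + 1) * (1 - e)) ((L i).y τ)⁻¹
      (fun X u => 1 + ((L i).y τ - 1) * h X + (L i).Gh τ κ X u)
  moves : ∀ j, ∃ τ ∈ Ioo (0 : ℝ) 1, D.b0 < (L j).y τ
  even : ∀ j τ κ X u, (L j).Gh τ κ X (star u) = (L j).Gh τ κ X u
  cout : COut D L h εh

theorem exists_choice {m : ℕ} (hC : CThm m) {v : ℝ} {k : ℕ} (D : CountData m v k) {εh : ℝ}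
    (hεh : 0 < εh) : Nonempty (Choice D εh) := by
  have hb0 : 1 ≤ D.b0 := D.b0_gt.le
  have hb01 : D.b0 ≤ D.b1 := D.b01.le
  obtain ⟨μ, hμ, δ, hδ, e, he, hnum⟩ := Prof.numeric m (v := v) (y1 := D.b1) D.v_pos
    (by linarith) D.vb1
  obtain ⟨η0, hη0, hs, X1, ε, hε, H⟩ := Prof.exists_profile_seq m (y0 := D.b0) (y1 := D.b1)
    (X0 := 1 / 4) (Xa := 1 / 3) (Xb := 1 / 2) (e := e) (by norm_num) (by norm_num) (by norm_num)
    (by norm_num) hb0 hb01 he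
  obtain ⟨L, hL1, hL2, hL3, hL4⟩ := hC v k D (1 / 4) (1 / 3) (1 / 2) (by norm_num) (by norm_num)
    (by norm_num) (by norm_num) X1 hs ε (fun n => ⟨(H n).1, (H n).2.1⟩) (fun n => (H n).2.2.1) hε
    (fun n => (H n).2.2.2.1) η0 hη0
  obtain ⟨n, hn⟩ := (hL4 εh hεh).exists
  obtain ⟨h1, h2, h3, h4, h5, h6⟩ := H n
  have hlog : Real.log v < 0 := Real.log_neg D.v_pos D.v_lt
  exact ⟨{
    μ := μ, δ := δ, e := e, X0 := 1 / 4, Xa := 1 / 3, Xb := 1 / 2, X1 := X1 n, h := hs n, L := L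
    μ_pos := hμ, δ_pos := hδ, e_pos := he
    X0_pos := by norm_num
    X0a := by norm_num
    Xab := by norm_num
    Xb1 := h1
    X1_lt := h2
    prof := h3
    sI_pos := div_pos (by linarith) (by positivity)
    hnum := hnum
    cT := h5
    cL := fun i τ hτ κ hκ => h6 (L i) (hL1 i) τ hτ κ hκ
    moves := hL2
    even := hL3
    cout := hn }⟩

end

end Crest.Agent.R202.Top
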