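import Mathlib
import Crest.Agent.R202.SpinOde

/-!
# Row 202, TIP (T1): uniform pointwise bounds for the spindle functions
-/

set_option autoImplicit false

open Polynomial Set

noncomputable section

namespace Crest.Agent.R202.Tri

open Crest.Agent.R202

theorem continuous_kap (d q i : ℕ) : Continuous fun μ : ℝ => kap d q μ i := by
  unfold kap; fun_prop

theorem continuous_jc (d q j : ℕ) : ∀ i, Continuous fun μ : ℝ => jc d q μ j i := by
  intro i
  induction i with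
  | zero => simpa [jc_zero] using continuous_const
  | succ i ih =>
    have : (fun μ : ℝ => jc d q μ j (i + 1)) = fun μ : ℝ =>
        jc d q μ j i * (kap d q μ i - kap d q μ j) / (2 * (i + 1) * (2 * i + d + 2 * q + 1)) := by
      funext μ; rw [jc_succ]
    rw [this]
    exact (ih.mul ((continuous_kap d q i).sub (continuous_kap d q j))).div_const _

theorem jQ_eval_sum (d q : ℕ) (μ : ℝ) (j : ℕ) (x : ℝ) :
    (jQ d q μ j).eval x = x ^ q * ∑ i ∈ Finset.range (j + 1), jc d q μ j i * (x ^ 2) ^ i := by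
  unfold jQ jp
  simp [eval_finsetSum]

/-- the polynomial factor without `x^q` -/
def rQ (d q : ℕ) (μ : ℝ) (j : ℕ) (x : ℝ) : ℝ :=
  ∑ i ∈ Finset.range (j + 1), jc d q μ j i * (x ^ 2) ^ i

/-- the derivative of `rQ` in `x` -/
def drQ (d q : ℕ) (μ : ℝ) (j : ℕ) (x : ℝ) : ℝ :=
  ∑ i ∈ Finset.range (j + 1), jc d q μ j i * (i * (x ^ 2) ^ (i - 1) * (2 * x))

theorem rQ_hasDerivAt (d q : ℕ) (μ : ℝ) (j : ℕ) (x : ℝ) :
    HasDerivAt (rQ d q μ j) (drQ d q μ j x) x := by
  unfold drQ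
  have : HasDerivAt (fun x => ∑ i ∈ Finset.range (j + 1), jc d q μ j i * (x ^ 2) ^ i)
      (∑ i ∈ Finset.range (j + 1), jc d q μ j i * (i * (x ^ 2) ^ (i - 1) * (2 * x))) x := by
    apply HasDerivAt.fun_sum
    intro i _
    have h1 : HasDerivAt (fun x : ℝ => x ^ 2) (2 * x) x := by simpa using hasDerivAt_pow 2 x
    exact (h1.pow i).const_mul _
  exact this

theorem continuous_rQ (d q j : ℕ) : Continuous fun z : ℝ × ℝ => rQ d q z.1 j z.2 := by
  unfold rQ
  refine continuous_finsetSum _ fun i _ => ?_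
  exact ((continuous_jc d q j i).comp continuous_fst).mul (by fun_prop)

theorem continuous_drQ (d q j : ℕ) : Continuous fun z : ℝ × ℝ => drQ d q z.1 j z.2 := by
  unfold drQ
  refine continuous_finsetSum _ fun i _ => ?_
  exact ((continuous_jc d q j i).comp continuous_fst).mul (by fun_prop)

theorem jQ_eval_eq (d q : ℕ) (μ : ℝ) (j : ℕ) (x : ℝ) :
    (jQ d q μ j).eval x = x ^ q * rQ d q μ j x := jQ_eval_sum d q μ j x

theorem djQ_eval_eq (d q : ℕ) (μ : ℝ) (j : ℕ) (x : ℝ) :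
    (derivative (jQ d q μ j)).eval x
      = q * x ^ (q - 1) * rQ d q μ j x + x ^ q * drQ d q μ j x := by
  have h1 : HasDerivAt (fun x => (jQ d q μ j).eval x) ((derivative (jQ d q μ j)).eval x) x :=
    (jQ d q μ j).hasDerivAt x
  have h2 : HasDerivAt (fun x => (jQ d q μ j).eval x)
      (q * x ^ (q - 1) * rQ d q μ j x + x ^ q * drQ d q μ j x) x := by
    have : (fun x => (jQ d q μ j).eval x) = fun x => x ^ q * rQ d q μ j x := by
      funext x; exact jQ_eval_eq d q μ j x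
    rw [this]
    exact (hasDerivAt_pow q x).mul (rQ_hasDerivAt d q μ j x)
  exact h1.unique h2

/-- a common bound for the polynomial factors -/
theorem exists_rQ_bound (d q j : ℕ) (M : ℝ) : ∃ C : ℝ, 0 ≤ C ∧ ∀ μ ∈ Icc 0 M, ∀ x ∈ Icc (-1 : ℝ) 1,
    |rQ d q μ j x| ≤ C ∧ |drQ d q μ j x| ≤ C := by
  obtain ⟨C1, h1⟩ := (isCompact_Icc.prod isCompact_Icc : IsCompact (Icc (0:ℝ) M ×ˢ Icc (-1:ℝ) 1)).exists_bound_of_continuousOn
    (continuous_rQ d q j).continuousOn
  obtain ⟨C2, h2⟩ := (isCompact_Icc.prod isCompact_Icc : IsCompact (Icc (0:ℝ) M ×ˢ Icc (-1:ℝ) 1)).exists_bound_of_continuousOn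
    (continuous_drQ d q j).continuousOn
  refine ⟨max 0 (max C1 C2), le_max_left _ _, fun μ hμ x hx => ⟨?_, ?_⟩⟩
  · exact (h1 (μ, x) ⟨hμ, hx⟩).trans ((le_max_left _ _).trans (le_max_right _ _))
  · exact (h2 (μ, x) ⟨hμ, hx⟩).trans ((le_max_right _ _).trans (le_max_right _ _))

/-- **(T1)** uniform bounds for `R_{m b, j}` and its derivative, `b ∈ [1, b1]`. -/
theorem spin_bounds (d q j m : ℕ) (b1 : ℝ) : ∃ C : ℝ, 0 ≤ C ∧ ∀ b ∈ Icc 1 b1, ∀ x : ℝ, x ^ 2 < 1 →
    |Rj d q (m * b) j x| ≤ C ∧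
    (1 ≤ m → |Rj d q (m * b) j x| ≤ C * Real.sqrt (1 - x ^ 2)) ∧
    Real.sqrt (1 - x ^ 2) * |dRj d q (m * b) j x| ≤ C ∧
    (1 ≤ q → |Rj d q (m * b) j x| ≤ C * |x|) := by
  obtain ⟨C, hC0, hC⟩ := exists_rQ_bound d q j (m * b1)
  refine ⟨(2 * q + 4 * (m * |b1|) + 4) * C + C, by positivity, fun b hb x hx => ?_⟩
  have hb1 : 1 ≤ b := hb.1
  have hb2 : b ≤ b1 := hb.2
  have hb0 : 0 ≤ b1 := by linarith
  have hm0 : (0:ℝ) ≤ m := by positivity
  have hμ0 : 0 ≤ (m:ℝ) * b := by positivity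
  have hμ : (m:ℝ) * b ∈ Icc 0 (m * b1) := ⟨hμ0, by gcongr⟩
  have hxabs : |x| < 1 := (sq_lt_one_iff_abs_lt_one x).1 hx
  have hxI : x ∈ Icc (-1:ℝ) 1 := abs_le.1 hxabs.le
  obtain ⟨hr, hdr⟩ := hC _ hμ x hxI
  have hpos : 0 < 1 - x ^ 2 := by linarith
  have hle1 : 1 - x ^ 2 ≤ 1 := by nlinarith [sq_nonneg x]
  set ρ := Real.sqrt (1 - x ^ 2) with hρ
  have hρ0 : 0 < ρ := Real.sqrt_pos.2 hpos
  have hρ1 : ρ ≤ 1 := by
    rw [hρ]; exact Real.sqrt_le_one.2 hle1
  have hρ2 : ρ ^ 2 = 1 - x ^ 2 := Real.sq_sqrt hpos.le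
  set w := (1 - x ^ 2) ^ ((m * b) / 2 : ℝ) with hw
  have hw0 : 0 ≤ w := Real.rpow_nonneg hpos.le _
  have hw1 : w ≤ 1 := Real.rpow_le_one hpos.le hle1 (by positivity)
  have hwm : 1 ≤ m → w ≤ ρ := by
    intro hm
    rw [hw, hρ, Real.sqrt_eq_rpow]
    apply Real.rpow_le_rpow_of_exponent_ge hpos hle1
    have : (1:ℝ) ≤ m := by exact_mod_cast hm
    nlinarith
  have hxq : ∀ k : ℕ, |x ^ k| ≤ 1 := fun k => by
    rw [abs_pow]; exact pow_le_one₀ (abs_nonneg _) hxabs.le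
  have hQ : |(jQ d q (m * b) j).eval x| ≤ C := by
    rw [jQ_eval_eq, abs_mul]
    calc |x ^ q| * |rQ d q (m * b) j x| ≤ 1 * C := by gcongr; exact hxq q
      _ = C := one_mul C
  have hdQ : |(derivative (jQ d q (m * b) j)).eval x| ≤ (q + 1) * C := by
    rw [djQ_eval_eq]
    refine (abs_add_le _ _).trans ?_
    rw [abs_mul, abs_mul, abs_mul, Nat.abs_cast]
    calc (q:ℝ) * |x ^ (q - 1)| * |rQ d q (m * b) j x| + |x ^ q| * |drQ d q (m * b) j x|
        ≤ q * 1 * C + 1 * C := by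
          gcongr
          · exact hxq _
          · exact hxq _
      _ = (q + 1) * C := by ring
  have hRQ : Rj d q (m * b) j x = w * (jQ d q (m * b) j).eval x := rfl
  have hRabs : |Rj d q (m * b) j x| ≤ w * C := by
    rw [hRQ, abs_mul, abs_of_nonneg hw0]
    gcongr
  have hCbig : C ≤ (2 * q + 4 * (m * |b1|) + 4) * C + C := by
    have : 0 ≤ (2 * q + 4 * (m * |b1|) + 4) * C := by positivity
    linarith
  refine ⟨?_, ?_, ?_, ?_⟩
  · calc |Rj d q (m * b) j x| ≤ w * C := hRabs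
      _ ≤ 1 * C := by gcongr
      _ ≤ _ := by rw [one_mul]; exact hCbig
  · intro hm
    calc |Rj d q (m * b) j x| ≤ w * C := hRabs
      _ ≤ ρ * C := by gcongr; exact hwm hm
      _ = C * ρ := mul_comm _ _
      _ ≤ _ := by gcongr
  · have hd : dRj d q (m * b) j x = w * ((derivative (jQ d q (m * b) j)).eval x
        - m * b * x / (1 - x ^ 2) * (jQ d q (m * b) j).eval x) := rfl
    have h1 : ρ * |dRj d q (m * b) j x| ≤ ρ * (w * ((q + 1) * C)) +
        ρ * (w * (m * b / (1 - x ^ 2) * C)) := by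
      rw [hd, abs_mul, abs_of_nonneg hw0, ← mul_add, ← mul_add]
      gcongr
      refine (abs_sub _ _).trans (add_le_add hdQ ?_)
      rw [abs_mul, abs_div, abs_mul, abs_of_nonneg hμ0, abs_of_pos hpos]
      have h0 : (m:ℝ) * b * |x| ≤ m * b := by
        calc (m:ℝ) * b * |x| ≤ m * b * 1 := by gcongr
          _ = m * b := mul_one _
      have h01 : (m:ℝ) * b * |x| / (1 - x ^ 2) ≤ m * b / (1 - x ^ 2) := by
        apply div_le_div_of_nonneg_right h0 hpos.le
      calc (m:ℝ) * b * |x| / (1 - x ^ 2) * |(jQ d q (m * b) j).eval x|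
          ≤ m * b / (1 - x ^ 2) * |(jQ d q (m * b) j).eval x| := by gcongr
        _ ≤ m * b / (1 - x ^ 2) * C := by
          have : 0 ≤ (m:ℝ) * b / (1 - x ^ 2) := by positivity
          gcongr
    have h2 : ρ * (w * ((q + 1) * C)) ≤ (q + 1) * C := by
      calc ρ * (w * ((q + 1) * C)) ≤ 1 * (1 * ((q + 1) * C)) := by gcongr
        _ = (q + 1) * C := by ring
    have h3 : ρ * (w * (m * b / (1 - x ^ 2) * C)) ≤ m * |b1| * C := by
      rcases Nat.eq_zero_or_pos m with hm | hm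
      · subst hm; simp
      · have h4 := hwm hm
        rw [← hρ2]
        have h5 : ρ * (w * (m * b / ρ ^ 2 * C)) = (w / ρ) * (m * b * C) := by
          field_simp
        rw [h5]
        calc (w / ρ) * (m * b * C) ≤ 1 * (m * |b1| * C) := by
              gcongr
              · exact (div_le_one hρ0).2 h4
              · rw [abs_of_nonneg hb0]; exact hb2
          _ = m * |b1| * C := one_mul _
    calc ρ * |dRj d q (m * b) j x| ≤ (q + 1) * C + m * |b1| * C := by linarith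
      _ ≤ _ := by
        have : 0 ≤ ((q:ℝ) + 3 * (m * |b1|) + 4) * C := by positivity
        nlinarith
  · intro hq
    rw [hRQ, jQ_eval_eq, abs_mul, abs_of_nonneg hw0, abs_mul, abs_pow]
    have h6 : |x| ^ q ≤ |x| := by
      calc |x| ^ q ≤ |x| ^ 1 := pow_le_pow_of_le_one (abs_nonneg _) hxabs.le hq
        _ = |x| := pow_one _
    calc w * (|x| ^ q * |rQ d q (m * b) j x|) ≤ 1 * (|x| * C) := by gcongr
      _ = C * |x| := by ring
      _ ≤ _ := by gcongr

end Crest.Agent.R202.Tri
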