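import Mathlib
import Crest.Agent.R202.SpinOde
import Crest.Agent.R202.TriBound

/-!
# Row 202: the two-variable model of a symmetry sector

`Om = (0,1) × (0,π)`, measure `x^d dx dφ`, `ρ = √(1-x²)`.  The core space `VS q par` consists of
finite Fourier sums `∑ v_m(x) trig(mφ)`, it contains all sector polynomials and all spindle
functions.  `formW W` is the bilinear form with (diagonal) coefficients `W` in the four components
`u, ρ u_x, u_φ/ρ, √E0 u/x`.
-/

set_option autoImplicit false
set_option linter.unusedSimpArgs false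

open MeasureTheory Set Filter Topology
open Crest.Agent.R202

noncomputable section

namespace Crest.Agent.R202.Mod

/-- the rectangle -/
def Om : Set (ℝ × ℝ) := Ioo (0 : ℝ) 1 ×ˢ Ioo (0 : ℝ) Real.pi

theorem isOpen_Om : IsOpen Om := isOpen_Ioo.prod isOpen_Ioo

theorem measurableSet_Om : MeasurableSet Om := isOpen_Om.measurableSet

/-- the measure `x^d dx dφ` on `Om` -/
def mu (d : ℕ) : Measure (ℝ × ℝ) :=
  (volume.restrict Om).withDensity fun z => ENNReal.ofReal (z.1 ^ d)

theorem mu_ac (d : ℕ) : mu d ≪ volume.restrict Om := withDensity_absolutelyContinuous _ _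

theorem ae_mem_Om (d : ℕ) : ∀ᵐ z ∂(mu d), z ∈ Om :=
  (mu_ac d).ae_le (ae_restrict_mem measurableSet_Om)

instance isFiniteMeasure_mu (d : ℕ) : IsFiniteMeasure (mu d) := by
  refine ⟨?_⟩
  unfold mu
  rw [withDensity_apply _ MeasurableSet.univ, Measure.restrict_univ]
  have h1 : ∫⁻ z in Om, ENNReal.ofReal (z.1 ^ d) ≤ ∫⁻ _ in Om, 1 := by
    refine setLIntegral_mono_ae (by fun_prop) (Filter.Eventually.of_forall fun z hz => ?_)
    rw [← ENNReal.ofReal_one]
    apply ENNReal.ofReal_le_ofReal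
    exact pow_le_one₀ hz.1.1.le hz.1.2.le
  refine lt_of_le_of_lt h1 ?_
  rw [setLIntegral_const, one_mul]
  unfold Om
  rw [Measure.volume_eq_prod, Measure.prod_prod]
  simp [Real.volume_Ioo]

/-- the trigonometric factor: `cos (mφ)` for `par = 0`, `sin (mφ)` otherwise -/
def trig (par m : ℕ) (φ : ℝ) : ℝ := if par = 0 then Real.cos (m * φ) else Real.sin (m * φ)

/-- its derivative -/
def trigD (par m : ℕ) (φ : ℝ) : ℝ :=
  if par = 0 then -(m * Real.sin (m * φ)) else m * Real.cos (m * φ)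

theorem hasDerivAt_trig (par m : ℕ) (φ : ℝ) : HasDerivAt (trig par m) (trigD par m φ) φ := by
  unfold trig trigD
  have h0 : HasDerivAt (fun φ : ℝ => (m : ℝ) * φ) m φ := by
    simpa using (hasDerivAt_id φ).const_mul (m : ℝ)
  by_cases h : par = 0
  · simp only [h, if_true]
    have := h0.cos
    convert this using 1; ring
  · simp only [h, if_false]
    have := h0.sin
    convert this using 1; ring

theorem abs_trig_le (par m : ℕ) (φ : ℝ) : |trig par m φ| ≤ 1 := by
  unfold trig; split_ifs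
  · exact Real.abs_cos_le_one _
  · exact Real.abs_sin_le_one _

theorem abs_trigD_le (par m : ℕ) (φ : ℝ) : |trigD par m φ| ≤ m := by
  unfold trigD
  split_ifs
  · rw [abs_neg, abs_mul, Nat.abs_cast]
    calc (m : ℝ) * |Real.sin (m * φ)| ≤ m * 1 := by gcongr; exact Real.abs_sin_le_one _
      _ = m := mul_one _
  · rw [abs_mul, Nat.abs_cast]
    calc (m : ℝ) * |Real.cos (m * φ)| ≤ m * 1 := by gcongr; exact Real.abs_cos_le_one _
      _ = m := mul_one _

theorem continuous_trig (par m : ℕ) : Continuous (trig par m) := by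
  unfold trig; split_ifs <;> fun_prop

theorem continuous_trigD (par m : ℕ) : Continuous (trigD par m) := by
  unfold trigD; split_ifs <;> fun_prop

/-- `ρ = √(1-x²)` -/
def rh (x : ℝ) : ℝ := Real.sqrt (1 - x ^ 2)

theorem rh_pos {x : ℝ} (hx : x ^ 2 < 1) : 0 < rh x := Real.sqrt_pos.2 (by linarith)

theorem rh_nonneg (x : ℝ) : 0 ≤ rh x := Real.sqrt_nonneg _

theorem rh_le_one (x : ℝ) : rh x ≤ 1 := Real.sqrt_le_one.2 (by nlinarith [sq_nonneg x])

theorem rh_sq {x : ℝ} (hx : x ^ 2 < 1) : rh x ^ 2 = 1 - x ^ 2 := Real.sq_sqrt (by linarith)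

theorem continuous_rh : Continuous rh := by unfold rh; fun_prop

theorem sq_lt_one_of_mem {x : ℝ} (hx : x ∈ Ioo (0 : ℝ) 1) : x ^ 2 < 1 := by
  have := hx.1; have := hx.2; nlinarith

/-- radial functions at frequency `m` -/
structure IsRad (q m : ℕ) (R : ℝ → ℝ) : Prop where
  off : ∀ x, 1 ≤ x ^ 2 → R x = 0
  diff : ∀ x, x ^ 2 < 1 → DifferentiableAt ℝ R x
  cont : ContinuousOn (deriv R) (Ioo (-1) 1)
  par : ∀ x, R (-x) = (-1) ^ q * R x
  bd : ∃ C : ℝ, ∀ x, x ^ 2 < 1 → |R x| ≤ C ∧ (1 ≤ m → |R x| ≤ C * rh x) ∧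
    rh x * |deriv R x| ≤ C ∧ (1 ≤ q → |R x| ≤ C * |x|)

/-- the space of radial functions -/
def RadS (q m : ℕ) : Submodule ℝ (ℝ → ℝ) where
  carrier := {R | IsRad q m R}
  zero_mem' := by
    refine ⟨fun _ _ => rfl, fun x _ => differentiableAt_const 0, ?_, fun x => by simp, 0, ?_⟩
    · have : deriv (0 : ℝ → ℝ) = 0 := by funext x; exact deriv_const x 0
      rw [this]; exact continuousOn_const
    · intro x _
      have : deriv (0 : ℝ → ℝ) x = 0 := deriv_const x 0
      rw [this]; simp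
  add_mem' := by
    rintro R S hR hS
    obtain ⟨C, hC⟩ := hR.bd
    obtain ⟨D, hD⟩ := hS.bd
    have hder : ∀ x, x ^ 2 < 1 → deriv (R + S) x = deriv R x + deriv S x := fun x hx =>
      ((hR.diff x hx).hasDerivAt.add (hS.diff x hx).hasDerivAt).deriv
    refine ⟨fun x hx => by simp [hR.off x hx, hS.off x hx],
      fun x hx => (hR.diff x hx).add (hS.diff x hx), ?_,
      fun x => by simp only [Pi.add_apply, hR.par, hS.par]; ring, C + D, fun x hx => ?_⟩
    · refine (hR.cont.add hS.cont).congr fun x hx => hder x ?_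
      have h1 := hx.1; have h2 := hx.2; nlinarith
    · obtain ⟨a1, a2, a3, a4⟩ := hC x hx
      obtain ⟨b1, b2, b3, b4⟩ := hD x hx
      refine ⟨(abs_add_le _ _).trans (add_le_add a1 b1),
        fun h => (abs_add_le _ _).trans ((add_le_add (a2 h) (b2 h)).trans_eq (by ring)), ?_,
        fun h => (abs_add_le _ _).trans ((add_le_add (a4 h) (b4 h)).trans_eq (by ring))⟩
      rw [hder x hx]
      calc rh x * |deriv R x + deriv S x| ≤ rh x * (|deriv R x| + |deriv S x|) := by
            have := rh_nonneg x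
            gcongr; exact abs_add_le _ _
        _ = rh x * |deriv R x| + rh x * |deriv S x| := by ring
        _ ≤ C + D := add_le_add a3 b3
  smul_mem' := by
    rintro c R hR
    obtain ⟨C, hC⟩ := hR.bd
    have hder : ∀ x, x ^ 2 < 1 → deriv (c • R) x = c * deriv R x := fun x hx => by
      have := ((hR.diff x hx).hasDerivAt.const_smul c).deriv
      simpa using this
    refine ⟨fun x hx => by simp [hR.off x hx], fun x hx => (hR.diff x hx).const_smul c, ?_,
      fun x => by simp only [Pi.smul_apply, hR.par, smul_eq_mul]; ring, |c| * C, fun x hx => ?_⟩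
    · refine (hR.cont.const_smul c).congr fun x hx => ?_
      rw [hder x (by have h1 := hx.1; have h2 := hx.2; nlinarith)]; rfl
    · obtain ⟨a1, a2, a3, a4⟩ := hC x hx
      have hc := abs_nonneg c
      refine ⟨?_, fun h => ?_, ?_, fun h => ?_⟩
      · simp only [Pi.smul_apply, smul_eq_mul, abs_mul]; gcongr
      · simp only [Pi.smul_apply, smul_eq_mul, abs_mul, mul_assoc]; gcongr; exact a2 h
      · rw [hder x hx, abs_mul]
        calc rh x * (|c| * |deriv R x|) = |c| * (rh x * |deriv R x|) := by ring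
          _ ≤ |c| * C := by gcongr
      · simp only [Pi.smul_apply, smul_eq_mul, abs_mul, mul_assoc]; gcongr; exact a4 h

theorem mem_RadS {q m : ℕ} {R : ℝ → ℝ} : R ∈ RadS q m ↔ IsRad q m R := Iff.rfl

/-- the core space of the sector `(q, par)` -/
def VS (q par : ℕ) : Submodule ℝ (ℕ →₀ (ℝ → ℝ)) where
  carrier := {v | ∀ m, v m ∈ RadS q m ∧ (m < par → v m = 0)}
  zero_mem' := fun m => ⟨Submodule.zero_mem _, fun _ => rfl⟩
  add_mem' := fun {u v} hu hv m => ⟨by
    rw [Finsupp.add_apply]; exact Submodule.add_mem _ (hu m).1 (hv m).1, fun h => by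
    rw [Finsupp.add_apply, (hu m).2 h, (hv m).2 h, add_zero]⟩
  smul_mem' := fun c {v} hv m => ⟨by
    rw [Finsupp.smul_apply]; exact Submodule.smul_mem _ c (hv m).1, fun h => by
    rw [Finsupp.smul_apply, (hv m).2 h, smul_zero]⟩

theorem isRad_coe {q par : ℕ} (v : VS q par) (m : ℕ) : IsRad q m ((v : ℕ →₀ (ℝ → ℝ)) m) := (v.2 m).1

/-- the function `u(x,φ)` -/
def ev (par : ℕ) (v : ℕ →₀ (ℝ → ℝ)) (z : ℝ × ℝ) : ℝ := v.sum fun m R => R z.1 * trig par m z.2

/-- the four components -/
def comp (d q par : ℕ) (v : ℕ →₀ (ℝ → ℝ)) (i : Fin 4) (z : ℝ × ℝ) : ℝ :=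
  match i with
  | 0 => v.sum fun m R => R z.1 * trig par m z.2
  | 1 => v.sum fun m R => rh z.1 * deriv R z.1 * trig par m z.2
  | 2 => v.sum fun m R => R z.1 / rh z.1 * trigD par m z.2
  | 3 => v.sum fun m R => Real.sqrt (E0 d q) * (R z.1 / z.1) * trig par m z.2

/-- radial part of a component -/
def rcomp (d q : ℕ) (R : ℝ → ℝ) (i : Fin 4) (x : ℝ) : ℝ :=
  match i with
  | 0 => R x
  | 1 => rh x * deriv R x
  | 2 => R x / rh x
  | 3 => Real.sqrt (E0 d q) * (R x / x)

/-- angular part of a component -/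
def acomp (par m : ℕ) (i : Fin 4) (φ : ℝ) : ℝ := if i = 2 then trigD par m φ else trig par m φ

theorem comp_eq (d q par : ℕ) (v : ℕ →₀ (ℝ → ℝ)) (i : Fin 4) (z : ℝ × ℝ) :
    comp d q par v i z = v.sum fun m R => rcomp d q R i z.1 * acomp par m i z.2 := by
  fin_cases i <;> simp [comp, rcomp, acomp]

theorem rcomp_zero (d q : ℕ) (i : Fin 4) (x : ℝ) : rcomp d q 0 i x = 0 := by
  fin_cases i <;> simp [rcomp]

theorem rcomp_add {q m : ℕ} (d : ℕ) {R S : ℝ → ℝ} (hR : IsRad q m R) (hS : IsRad q m S)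
    (i : Fin 4) {x : ℝ} (hx : x ^ 2 < 1) :
    rcomp d q (R + S) i x = rcomp d q R i x + rcomp d q S i x := by
  have hder : deriv (R + S) x = deriv R x + deriv S x :=
    ((hR.diff x hx).hasDerivAt.add (hS.diff x hx).hasDerivAt).deriv
  fin_cases i <;> simp only [rcomp, Fin.zero_eta, Fin.mk_one, Fin.reduceFinMk]
  · rfl
  · rw [hder]; ring
  · simp only [Pi.add_apply]; ring
  · simp only [Pi.add_apply]; ring

theorem rcomp_smul {q m : ℕ} (d : ℕ) (c : ℝ) {R : ℝ → ℝ} (hR : IsRad q m R)
    (i : Fin 4) {x : ℝ} (hx : x ^ 2 < 1) :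
    rcomp d q (c • R) i x = c * rcomp d q R i x := by
  have hder : deriv (c • R) x = c * deriv R x := by
    have := ((hR.diff x hx).hasDerivAt.const_smul c).deriv
    simpa using this
  fin_cases i <;> simp only [rcomp, Fin.zero_eta, Fin.mk_one, Fin.reduceFinMk]
  · simp
  · rw [hder]; ring
  · simp only [Pi.smul_apply, smul_eq_mul]; ring
  · simp only [Pi.smul_apply, smul_eq_mul]; ring

theorem comp_add {q par : ℕ} (d : ℕ) (u v : VS q par) (i : Fin 4) {z : ℝ × ℝ} (hz : z ∈ Om) :
    comp d q par (u + v : VS q par) i z = comp d q par u i z + comp d q par v i z := by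
  classical
  have hx : z.1 ^ 2 < 1 := sq_lt_one_of_mem hz.1
  rw [comp_eq, comp_eq, comp_eq, Submodule.coe_add]
  have hs1 := Finsupp.sum_of_support_subset (f := (u : ℕ →₀ (ℝ → ℝ)))
    (s := (u : ℕ →₀ (ℝ → ℝ)).support ∪ (v : ℕ →₀ (ℝ → ℝ)).support) (Finset.subset_union_left)
    (fun m R => rcomp d q R i z.1 * acomp par m i z.2) (fun m _ => by simp [rcomp_zero])
  have hs2 := Finsupp.sum_of_support_subset (f := (v : ℕ →₀ (ℝ → ℝ)))
    (s := (u : ℕ →₀ (ℝ → ℝ)).support ∪ (v : ℕ →₀ (ℝ → ℝ)).support) (Finset.subset_union_right)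
    (fun m R => rcomp d q R i z.1 * acomp par m i z.2) (fun m _ => by simp [rcomp_zero])
  have hs3 := Finsupp.sum_of_support_subset (f := (u + v : ℕ →₀ (ℝ → ℝ)))
    (s := (u : ℕ →₀ (ℝ → ℝ)).support ∪ (v : ℕ →₀ (ℝ → ℝ)).support) (Finsupp.support_add)
    (fun m R => rcomp d q R i z.1 * acomp par m i z.2) (fun m _ => by simp [rcomp_zero])
  rw [hs1, hs2, hs3, ← Finset.sum_add_distrib]
  refine Finset.sum_congr rfl fun m _ => ?_
  rw [Finsupp.add_apply, rcomp_add d (isRad_coe u m) (isRad_coe v m) i hx]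
  ring

theorem comp_smul {q par : ℕ} (d : ℕ) (c : ℝ) (v : VS q par) (i : Fin 4) {z : ℝ × ℝ}
    (hz : z ∈ Om) : comp d q par (c • v : VS q par) i z = c * comp d q par v i z := by
  classical
  have hx : z.1 ^ 2 < 1 := sq_lt_one_of_mem hz.1
  rw [comp_eq, comp_eq, Submodule.coe_smul]
  have hs3 := Finsupp.sum_of_support_subset (f := (c • (v : ℕ →₀ (ℝ → ℝ))))
    (s := (v : ℕ →₀ (ℝ → ℝ)).support) (Finsupp.support_smul)
    (fun m R => rcomp d q R i z.1 * acomp par m i z.2) (fun m _ => by simp [rcomp_zero])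
  rw [hs3, Finsupp.sum, Finset.mul_sum]
  refine Finset.sum_congr rfl fun m _ => ?_
  rw [Finsupp.smul_apply, rcomp_smul d c (isRad_coe v m) i hx]
  ring

theorem continuousOn_rcomp {q m : ℕ} (d : ℕ) {R : ℝ → ℝ} (hR : IsRad q m R) (i : Fin 4) :
    ContinuousOn (rcomp d q R i) (Ioo 0 1) := by
  have hsub : Ioo (0:ℝ) 1 ⊆ Ioo (-1) 1 := Ioo_subset_Ioo (by norm_num) le_rfl
  have hRc : ContinuousOn R (Ioo 0 1) := fun x hx =>
    (hR.diff x (sq_lt_one_of_mem hx)).continuousAt.continuousWithinAt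
  have hrh : ∀ x ∈ Ioo (0:ℝ) 1, rh x ≠ 0 := fun x hx => (rh_pos (sq_lt_one_of_mem hx)).ne'
  fin_cases i <;> simp only [rcomp, Fin.zero_eta, Fin.mk_one, Fin.reduceFinMk]
  · exact hRc
  · exact continuous_rh.continuousOn.mul (hR.cont.mono hsub)
  · exact hRc.div continuous_rh.continuousOn hrh
  · exact continuousOn_const.mul (hRc.div continuousOn_id fun x hx => hx.1.ne')

theorem continuous_acomp (par m : ℕ) (i : Fin 4) : Continuous (acomp par m i) := by
  unfold acomp; split_ifs
  · exact continuous_trigD par m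
  · exact continuous_trig par m

theorem continuousOn_comp {q par : ℕ} (d : ℕ) (v : VS q par) (i : Fin 4) :
    ContinuousOn (comp d q par v i) Om := by
  have : comp d q par (v : ℕ →₀ (ℝ → ℝ)) i = fun z =>
      ∑ m ∈ (v : ℕ →₀ (ℝ → ℝ)).support, rcomp d q ((v : ℕ →₀ (ℝ → ℝ)) m) i z.1 * acomp par m i z.2 := by
    funext z; rw [comp_eq]; rfl
  rw [this]
  refine continuousOn_finsetSum _ fun m _ => ?_
  refine ((continuousOn_rcomp d (isRad_coe v m) i).comp continuousOn_fst fun z hz => hz.1).mul ?_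
  exact ((continuous_acomp par m i).comp continuous_snd).continuousOn

/-- a bound for the radial components -/
theorem rcomp_bdd {q m : ℕ} (d : ℕ) {R : ℝ → ℝ} (hR : IsRad q m R) (i : Fin 4) :
    ∃ C : ℝ, 0 ≤ C ∧ ∀ x ∈ Ioo (0:ℝ) 1, (i = 2 → 1 ≤ m) → |rcomp d q R i x| ≤ C := by
  obtain ⟨C, hC⟩ := hR.bd
  have hC0 : 0 ≤ C := (abs_nonneg _).trans (hC 0 (by norm_num)).1
  refine ⟨(1 + Real.sqrt (E0 d q)) * C, by positivity, fun x hx hm => ?_⟩
  have hx2 := sq_lt_one_of_mem hx
  obtain ⟨a1, a2, a3, a4⟩ := hC x hx2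
  have hrh := rh_pos hx2
  have hs := Real.sqrt_nonneg (E0 d q)
  have hbig : C ≤ (1 + Real.sqrt (E0 d q)) * C := by nlinarith
  fin_cases i
  · exact a1.trans hbig
  · simp only [rcomp, Fin.mk_one]
    rw [abs_mul, abs_of_pos hrh]
    exact a3.trans hbig
  · simp only [rcomp, Fin.reduceFinMk] at hm ⊢
    rw [abs_div, abs_of_pos hrh, div_le_iff₀ hrh]
    exact (a2 (hm trivial)).trans (by gcongr)
  · simp only [rcomp, Fin.reduceFinMk]
    rcases Nat.eq_zero_or_pos q with hq | hq
    · subst hq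
      simp only [E0, Nat.cast_zero, zero_mul, Real.sqrt_zero, abs_zero, add_zero, one_mul]
      exact hC0
    · have h4 := a4 hq
      rw [abs_mul, abs_of_nonneg hs, abs_div]
      have h5 : |R x| / |x| ≤ C := by
        rw [div_le_iff₀ (abs_pos.2 hx.1.ne')]; exact h4
      nlinarith

theorem comp_bdd {q par : ℕ} (d : ℕ) (v : VS q par) (i : Fin 4) :
    ∃ C : ℝ, 0 ≤ C ∧ ∀ z ∈ Om, |comp d q par v i z| ≤ C := by
  have h := fun m => rcomp_bdd d (isRad_coe v m) i
  choose C hC0 hC using h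
  refine ⟨∑ m ∈ (v : ℕ →₀ (ℝ → ℝ)).support, C m * (m + 1), Finset.sum_nonneg fun m _ =>
    mul_nonneg (hC0 m) (by positivity), fun z hz => ?_⟩
  rw [comp_eq]
  refine (Finset.abs_sum_le_sum_abs _ _).trans (Finset.sum_le_sum fun m _ => ?_)
  rw [abs_mul]
  by_cases hi : i = 2 ∧ m = 0
  · obtain ⟨hi, hm⟩ := hi
    have : acomp par m i z.2 = 0 := by
      subst hm; subst hi; simp [acomp, trigD]
    rw [this, abs_zero, mul_zero]
    exact mul_nonneg (hC0 m) (by positivity)
  · have h1 := hC m z.1 hz.1 (fun h => by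
      rcases Nat.eq_zero_or_pos m with h0 | h0
      · exact absurd ⟨h, h0⟩ hi
      · exact h0)
    have h2 : |acomp par m i z.2| ≤ m + 1 := by
      unfold acomp; split_ifs
      · exact (abs_trigD_le _ _ _).trans (by linarith)
      · exact (abs_trig_le _ _ _).trans (by have : (0:ℝ) ≤ m := by positivity
                                            linarith)
    have h3 := hC0 m
    gcongr

theorem aesm_comp {q par : ℕ} (d : ℕ) (v : VS q par) (i : Fin 4) :
    AEStronglyMeasurable (comp d q par v i) (mu d) :=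
  ((continuousOn_comp d v i).aestronglyMeasurable measurableSet_Om).mono_ac (mu_ac d)

/-- admissible coefficient functions -/
structure Coef (d : ℕ) (W : Fin 4 → ℝ × ℝ → ℝ) : Prop where
  meas : ∀ i, AEStronglyMeasurable (W i) (mu d)
  bdd : ∃ C : ℝ, ∀ i, ∀ z ∈ Om, |W i z| ≤ C

theorem integrable_term {q par d : ℕ} {W : Fin 4 → ℝ × ℝ → ℝ} (hW : Coef d W)
    (u v : VS q par) (i : Fin 4) :
    Integrable (fun z => W i z * comp d q par u i z * comp d q par v i z) (mu d) := by
  obtain ⟨C, hC⟩ := hW.bdd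
  obtain ⟨A, hA0, hA⟩ := comp_bdd d u i
  obtain ⟨B, hB0, hB⟩ := comp_bdd d v i
  refine Integrable.mono' (integrable_const (|C| * A * B))
    (((hW.meas i).mul (aesm_comp d u i)).mul (aesm_comp d v i)) ?_
  filter_upwards [ae_mem_Om d] with z hz
  rw [norm_mul, norm_mul, Real.norm_eq_abs, Real.norm_eq_abs, Real.norm_eq_abs]
  have h1 := (hC i z hz).trans (le_abs_self C)
  have h2 := hA z hz
  have h3 := hB z hz
  gcongr

/-- the form with coefficients `W` as a function -/
def fW (d q par : ℕ) (W : Fin 4 → ℝ × ℝ → ℝ) (u v : ℕ →₀ (ℝ → ℝ)) : ℝ :=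
  ∫ z, ∑ i, W i z * comp d q par u i z * comp d q par v i z ∂(mu d)

theorem fW_eq_sum {q par d : ℕ} {W : Fin 4 → ℝ × ℝ → ℝ} (hW : Coef d W) (u v : VS q par) :
    fW d q par W u v = ∑ i, ∫ z, W i z * comp d q par u i z * comp d q par v i z ∂(mu d) :=
  integral_finsetSum _ fun i _ => integrable_term hW u v i

theorem fW_symm (d q par : ℕ) (W : Fin 4 → ℝ × ℝ → ℝ) (u v : ℕ →₀ (ℝ → ℝ)) :
    fW d q par W u v = fW d q par W v u := by
  unfold fW
  congr 1; funext z
  exact Finset.sum_congr rfl fun i _ => by ring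

theorem integrable_sum {q par d : ℕ} {W : Fin 4 → ℝ × ℝ → ℝ} (hW : Coef d W)
    (u v : VS q par) :
    Integrable (fun z => ∑ i, W i z * comp d q par u i z * comp d q par v i z) (mu d) :=
  integrable_finsetSum _ fun i _ => integrable_term hW u v i

/-- **the bilinear form with coefficients `W`** -/
def formW (q par : ℕ) {d : ℕ} {W : Fin 4 → ℝ × ℝ → ℝ} (hW : Coef d W) :
    LinearMap.BilinForm ℝ (VS q par) :=
  LinearMap.mk₂ ℝ (fun u v => fW d q par W u v)
    (fun u u' v => by
      show fW d q par W (u + u' : VS q par) v = _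
      unfold fW
      rw [← integral_add (integrable_sum hW u v) (integrable_sum hW u' v)]
      refine integral_congr_ae ?_
      filter_upwards [ae_mem_Om d] with z hz
      rw [← Finset.sum_add_distrib]
      refine Finset.sum_congr rfl fun i _ => ?_
      rw [comp_add d u u' i hz]; ring)
    (fun c u v => by
      show fW d q par W (c • u : VS q par) v = _
      unfold fW
      rw [smul_eq_mul, ← integral_const_mul]
      refine integral_congr_ae ?_
      filter_upwards [ae_mem_Om d] with z hz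
      rw [Finset.mul_sum]
      refine Finset.sum_congr rfl fun i _ => ?_
      rw [comp_smul d c u i hz]; ring)
    (fun u v v' => by
      show fW d q par W u (v + v' : VS q par) = _
      unfold fW
      rw [← integral_add (integrable_sum hW u v) (integrable_sum hW u v')]
      refine integral_congr_ae ?_
      filter_upwards [ae_mem_Om d] with z hz
      rw [← Finset.sum_add_distrib]
      refine Finset.sum_congr rfl fun i _ => ?_
      rw [comp_add d v v' i hz]; ring)
    (fun c u v => by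
      show fW d q par W u (c • v : VS q par) = _
      unfold fW
      rw [smul_eq_mul, ← integral_const_mul]
      refine integral_congr_ae ?_
      filter_upwards [ae_mem_Om d] with z hz
      rw [Finset.mul_sum]
      refine Finset.sum_congr rfl fun i _ => ?_
      rw [comp_smul d c v i hz]; ring)

theorem formW_apply {q par d : ℕ} {W : Fin 4 → ℝ × ℝ → ℝ} (hW : Coef d W) (u v : VS q par) :
    formW q par hW u v
      = ∫ z, ∑ i, W i z * comp d q par u i z * comp d q par v i z ∂(mu d) := rfl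

end Crest.Agent.R202.Mod
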