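import Mathlib
import Crest.Agent.R202.Model

/-!
# Row 202: the two-variable model, elements `psi`, `pol`, and the forms `g`, `Q`
-/

set_option autoImplicit false
set_option linter.unusedSimpArgs false

open MeasureTheory Set Filter Topology
open Crest.Agent.R202

noncomputable section

namespace Crest.Agent.R202.Mod

/-- cut a function off outside `(-1,1)` -/
def trunc (R : ℝ → ℝ) : ℝ → ℝ := fun x => if x ^ 2 < 1 then R x else 0

theorem trunc_of_lt {R : ℝ → ℝ} {x : ℝ} (hx : x ^ 2 < 1) : trunc R x = R x := if_pos hx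

theorem trunc_eventuallyEq {R : ℝ → ℝ} {x : ℝ} (hx : x ^ 2 < 1) : trunc R =ᶠ[𝓝 x] R := by
  have : {y : ℝ | y ^ 2 < 1} ∈ 𝓝 x :=
    (isOpen_lt (by fun_prop) continuous_const).mem_nhds hx
  filter_upwards [this] with y hy
  exact trunc_of_lt hy

/-- functions `(1-x²)^(s/2) r(x)` are radial functions -/
theorem isRad_of {q m : ℕ} {s : ℝ} {r r' : ℝ → ℝ} (hr : ∀ x, HasDerivAt r (r' x) x)
    (hr' : Continuous r') (hpar : ∀ x, r (-x) = (-1) ^ q * r x)
    (hq : 1 ≤ q → ∃ C : ℝ, ∀ x, x ^ 2 < 1 → |r x| ≤ C * |x|)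
    (hs : s = 0 ∨ 1 ≤ s) (hm : 1 ≤ m → 1 ≤ s) :
    IsRad q m (trunc fun x => (1 - x ^ 2) ^ (s / 2) * r x) := by
  have hs0 : 0 ≤ s := by rcases hs with h | h <;> linarith
  have hder : ∀ x, x ^ 2 < 1 → HasDerivAt (fun x : ℝ => (1 - x ^ 2) ^ (s / 2) * r x)
      (-(s * x / (1 - x ^ 2)) * (1 - x ^ 2) ^ (s / 2) * r x + (1 - x ^ 2) ^ (s / 2) * r' x) x :=
    fun x hx => (w_hasDerivAt s (by linarith)).mul (hr x)
  have hder' : ∀ x, x ^ 2 < 1 →
      HasDerivAt (trunc fun x => (1 - x ^ 2) ^ (s / 2) * r x)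
      (-(s * x / (1 - x ^ 2)) * (1 - x ^ 2) ^ (s / 2) * r x + (1 - x ^ 2) ^ (s / 2) * r' x) x :=
    fun x hx => (hder x hx).congr_of_eventuallyEq (trunc_eventuallyEq hx)
  refine ⟨fun x hx => if_neg (by linarith), fun x hx => (hder' x hx).differentiableAt, ?_,
    fun x => ?_, ?_⟩
  · have hI : ∀ x ∈ Ioo (-1 : ℝ) 1, x ^ 2 < 1 := fun x hx => by
      have h1 := hx.1; have h2 := hx.2; nlinarith
    have : ContinuousOn (fun x : ℝ => -(s * x / (1 - x ^ 2)) * (1 - x ^ 2) ^ (s / 2) * r x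
        + (1 - x ^ 2) ^ (s / 2) * r' x) (Ioo (-1 : ℝ) 1) := by
      have hrc : Continuous r := continuous_iff_continuousAt.2 fun x => (hr x).continuousAt
      have h1 : ContinuousOn (fun x : ℝ => (1 - x ^ 2) ^ (s / 2)) (Ioo (-1 : ℝ) 1) := by
        refine ContinuousOn.rpow_const (by fun_prop) fun x hx => Or.inl ?_
        have := hI x hx; linarith
      have h2 : ContinuousOn (fun x : ℝ => -(s * x / (1 - x ^ 2))) (Ioo (-1 : ℝ) 1) := by
        refine (ContinuousOn.div (by fun_prop) (by fun_prop) fun x hx => ?_).neg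
        have := hI x hx; linarith
      exact ((h2.mul h1).mul hrc.continuousOn).add (h1.mul hr'.continuousOn)
    exact this.congr fun x hx => (hder' x (hI x hx)).deriv
  · unfold trunc
    have : (-x) ^ 2 = x ^ 2 := by ring
    rw [this]
    split_ifs
    · show (1 - (-x) ^ 2) ^ (s / 2) * r (-x) = (-1) ^ q * ((1 - x ^ 2) ^ (s / 2) * r x)
      rw [hpar, this]; ring
    · simp
  · obtain ⟨C1, h1⟩ := (isCompact_Icc (a := (-1:ℝ)) (b := 1)).exists_bound_of_continuousOn
      (f := r) (continuous_iff_continuousAt.2 fun x => (hr x).continuousAt).continuousOn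
    obtain ⟨C2, h2⟩ := (isCompact_Icc (a := (-1:ℝ)) (b := 1)).exists_bound_of_continuousOn
      (f := r') hr'.continuousOn
    obtain ⟨C3, h3⟩ : ∃ C3 : ℝ, ∀ x, x ^ 2 < 1 → 1 ≤ q → |r x| ≤ C3 * |x| := by
      by_cases hq1 : 1 ≤ q
      · obtain ⟨C, hC⟩ := hq hq1
        exact ⟨C, fun x hx _ => hC x hx⟩
      · exact ⟨0, fun x _ h => absurd h hq1⟩
    refine ⟨(1 + s) * (|C1| + |C2| + |C3|), fun x hx => ?_⟩
    have hxabs : |x| < 1 := (sq_lt_one_iff_abs_lt_one x).1 hx
    have hxI : x ∈ Icc (-1:ℝ) 1 := abs_le.1 hxabs.le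
    have hpos : 0 < 1 - x ^ 2 := by linarith
    have hle1 : 1 - x ^ 2 ≤ 1 := by nlinarith [sq_nonneg x]
    have hρ0 : 0 < rh x := rh_pos hx
    have hρ1 : rh x ≤ 1 := rh_le_one x
    have hρ2 : rh x ^ 2 = 1 - x ^ 2 := rh_sq hx
    have e1 : |r x| ≤ |C1| := (h1 x hxI).trans (le_abs_self _)
    have e2 : |r' x| ≤ |C2| := (h2 x hxI).trans (le_abs_self _)
    set w := (1 - x ^ 2) ^ (s / 2 : ℝ) with hw
    have hw0 : 0 ≤ w := Real.rpow_nonneg hpos.le _
    have hw1 : w ≤ 1 := Real.rpow_le_one hpos.le hle1 (by positivity)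
    have hws : 1 ≤ s → w ≤ rh x := by
      intro h
      rw [hw, rh, Real.sqrt_eq_rpow]
      exact Real.rpow_le_rpow_of_exponent_ge hpos hle1 (by linarith)
    have a1 := abs_nonneg C1
    have a2 := abs_nonneg C2
    have a3 := abs_nonneg C3
    have hT : 0 ≤ s * (|C1| + |C2| + |C3|) := by positivity
    have hCC1 : |C1| ≤ (1 + s) * (|C1| + |C2| + |C3|) := by nlinarith
    rw [trunc_of_lt hx]
    refine ⟨?_, fun h => ?_, ?_, fun h => ?_⟩
    · rw [abs_mul, abs_of_nonneg hw0]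
      calc w * |r x| ≤ 1 * |C1| := by gcongr
        _ ≤ _ := by rw [one_mul]; exact hCC1
    · rw [abs_mul, abs_of_nonneg hw0]
      calc w * |r x| ≤ rh x * |C1| := by gcongr; exact hws (hm h)
        _ = |C1| * rh x := mul_comm _ _
        _ ≤ _ := by gcongr
    · rw [(hder' x hx).deriv]
      have h5 : rh x * (w * |r' x|) ≤ |C2| := by
        calc rh x * (w * |r' x|) ≤ 1 * (1 * |C2|) := by gcongr
          _ = |C2| := by ring
      have h6 : rh x * (s * |x| / (1 - x ^ 2) * w * |r x|) ≤ s * |C1| := by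
        rcases hs with h | h
        · rw [h]; simp
        · have h7 := hws h
          have h8 : rh x * (s * |x| / (1 - x ^ 2) * w * |r x|)
              = (w / rh x) * (s * |x| * |r x|) := by
            rw [← hρ2]; field_simp
          rw [h8]
          calc (w / rh x) * (s * |x| * |r x|) ≤ 1 * (s * 1 * |C1|) := by
                gcongr
                exact (div_le_one hρ0).2 h7
            _ = s * |C1| := by ring
      calc rh x * |-(s * x / (1 - x ^ 2)) * w * r x + w * r' x|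
          ≤ rh x * (|-(s * x / (1 - x ^ 2)) * w * r x| + |w * r' x|) := by
            gcongr; exact abs_add_le _ _
        _ = rh x * (s * |x| / (1 - x ^ 2) * w * |r x|) + rh x * (w * |r' x|) := by
            rw [abs_mul, abs_mul, abs_mul, abs_neg, abs_div, abs_mul, abs_of_nonneg hs0,
              abs_of_nonneg hw0, abs_of_pos hpos]; ring
        _ ≤ s * |C1| + |C2| := add_le_add h6 h5
        _ ≤ _ := by nlinarith
    · rw [abs_mul, abs_of_nonneg hw0]
      have h9 := h3 x hx h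
      have h10 : C3 * |x| ≤ |C3| * |x| := by gcongr; exact le_abs_self _
      have h11 : |C3| ≤ (1 + s) * (|C1| + |C2| + |C3|) := by nlinarith
      calc w * |r x| ≤ 1 * (|C3| * |x|) := by gcongr; exact h9.trans h10
        _ = |C3| * |x| := one_mul _
        _ ≤ _ := by gcongr

/-- the derivative of a radial function of the form `(1-x²)^(s/2) r(x)` -/
theorem deriv_trunc {s : ℝ} {r r' : ℝ → ℝ} (hr : ∀ x, HasDerivAt r (r' x) x) {x : ℝ}
    (hx : x ^ 2 < 1) :
    deriv (trunc fun x => (1 - x ^ 2) ^ (s / 2) * r x) x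
      = -(s * x / (1 - x ^ 2)) * (1 - x ^ 2) ^ (s / 2) * r x + (1 - x ^ 2) ^ (s / 2) * r' x := by
  have : HasDerivAt (trunc fun x => (1 - x ^ 2) ^ (s / 2) * r x) _ x :=
    ((w_hasDerivAt s (by linarith)).mul (hr x)).congr_of_eventuallyEq (trunc_eventuallyEq hx)
  exact this.deriv

theorem single_mem_VS {q par m : ℕ} (hm : par ≤ m) {R : ℝ → ℝ} (hR : IsRad q m R) :
    Finsupp.single m R ∈ VS q par := by
  classical
  intro k
  by_cases hk : m = k
  · subst hk
    rw [Finsupp.single_eq_same]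
    exact ⟨hR, fun h => absurd hm (by omega)⟩
  · rw [Finsupp.single_eq_of_ne' hk]
    exact ⟨Submodule.zero_mem _, fun _ => rfl⟩

/-! ### spindle functions -/

theorem rQ_neg (d q : ℕ) (μ : ℝ) (j : ℕ) (x : ℝ) : Tri.rQ d q μ j (-x) = Tri.rQ d q μ j x := by
  unfold Tri.rQ; simp

theorem isRad_Rj (d q : ℕ) {m : ℕ} {b : ℝ} (hb : 1 ≤ b) (j : ℕ) :
    IsRad q m (trunc (Rj d q (m * b) j)) := by
  have h0 : Rj d q (m * b) j = fun x =>
      (1 - x ^ 2) ^ ((m * b) / 2 : ℝ) * (jQ d q (m * b) j).eval x := rfl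
  rw [h0]
  refine isRad_of (fun x => (jQ d q (m * b) j).hasDerivAt x)
    (Polynomial.continuous _) (fun x => ?_) (fun hq => ?_) ?_ (fun hm => ?_)
  · rw [Tri.jQ_eval_eq, Tri.jQ_eval_eq, rQ_neg, neg_pow]; ring
  · obtain ⟨C, -, hC⟩ := Tri.exists_rQ_bound d q j (m * b)
    refine ⟨C, fun x hx => ?_⟩
    have hxabs : |x| < 1 := (sq_lt_one_iff_abs_lt_one x).1 hx
    rw [Tri.jQ_eval_eq, abs_mul, abs_pow]
    have h1 := (hC (m * b) ⟨by positivity, le_rfl⟩ x (abs_le.1 hxabs.le)).1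
    have h6 : |x| ^ q ≤ |x| := by
      calc |x| ^ q ≤ |x| ^ 1 := pow_le_pow_of_le_one (abs_nonneg _) hxabs.le hq
        _ = |x| := pow_one _
    calc |x| ^ q * |Tri.rQ d q (m * b) j x| ≤ |x| * C := by gcongr
      _ = C * |x| := mul_comm _ _
  · rcases Nat.eq_zero_or_pos m with h | h
    · left; rw [h]; simp
    · right
      have : (1:ℝ) ≤ m := by exact_mod_cast h
      nlinarith
  · have : (1:ℝ) ≤ m := by exact_mod_cast hm
    nlinarith

open Classical in
/-- the (unnormalised) spindle function with label `(m, j)` at `b = 1/θ` -/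
def psi (d q par : ℕ) (b : ℝ) (m j : ℕ) : VS q par :=
  if h : 1 ≤ b ∧ par ≤ m then
    ⟨Finsupp.single m (trunc (Rj d q (m * b) j)), single_mem_VS h.2 (isRad_Rj d q h.1 j)⟩
  else 0

theorem coe_psi (d q : ℕ) {par : ℕ} {b : ℝ} {m : ℕ} (hb : 1 ≤ b) (hm : par ≤ m) (j : ℕ) :
    (psi d q par b m j : ℕ →₀ (ℝ → ℝ)) = Finsupp.single m (trunc (Rj d q (m * b) j)) := by
  unfold psi; rw [dif_pos ⟨hb, hm⟩]

/-! ### polynomial elements -/

theorem isRad_pol (q m i : ℕ) :
    IsRad q m (trunc fun x => (1 - x ^ 2) ^ ((m : ℝ) / 2) * x ^ (q + 2 * i)) := by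
  refine isRad_of (r' := fun x => ((q + 2 * i : ℕ) : ℝ) * x ^ (q + 2 * i - 1))
    (fun x => hasDerivAt_pow _ x) (by fun_prop) (fun x => ?_) (fun hq => ⟨1, fun x hx => ?_⟩) ?_
    (fun hm => by exact_mod_cast hm)
  · rw [neg_pow, pow_add, pow_mul]; simp
  · have hxabs : |x| < 1 := (sq_lt_one_iff_abs_lt_one x).1 hx
    rw [abs_pow, one_mul]
    calc |x| ^ (q + 2 * i) ≤ |x| ^ 1 := pow_le_pow_of_le_one (abs_nonneg _) hxabs.le (by omega)
      _ = |x| := pow_one _
  · rcases Nat.eq_zero_or_pos m with h | h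
    · left; rw [h]; simp
    · right; exact_mod_cast h

open Classical in
/-- the sector polynomial `x^(q+2i) ρ^m trig(mφ)` -/
def pol (q par m i : ℕ) : VS q par :=
  if h : par ≤ m then
    ⟨Finsupp.single m (trunc fun x => (1 - x ^ 2) ^ ((m : ℝ) / 2) * x ^ (q + 2 * i)),
      single_mem_VS h (isRad_pol q m i)⟩
  else 0

theorem coe_pol (q : ℕ) {par m : ℕ} (hm : par ≤ m) (i : ℕ) :
    (pol q par m i : ℕ →₀ (ℝ → ℝ))
      = Finsupp.single m (trunc fun x => (1 - x ^ 2) ^ ((m : ℝ) / 2) * x ^ (q + 2 * i)) := by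
  unfold pol; rw [dif_pos hm]

/-- sector polynomials of degree `≤ D` -/
def PolD (q par D : ℕ) : Submodule ℝ (VS q par) :=
  Submodule.span ℝ {v | ∃ m i, par ≤ m ∧ q + m + 2 * i ≤ D ∧ v = pol q par m i}

/-- all sector polynomials -/
def Pol (q par : ℕ) : Submodule ℝ (VS q par) :=
  Submodule.span ℝ {v | ∃ m i, par ≤ m ∧ v = pol q par m i}

theorem PolD_le_Pol (q par D : ℕ) : PolD q par D ≤ Pol q par :=
  Submodule.span_mono fun _ ⟨m, i, hm, _, hv⟩ => ⟨m, i, hm, hv⟩

theorem PolD_mono (q par : ℕ) {D E : ℕ} (h : D ≤ E) : PolD q par D ≤ PolD q par E :=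
  Submodule.span_mono fun _ ⟨m, i, hm, hd, hv⟩ => ⟨m, i, hm, hd.trans h, hv⟩

theorem mem_Pol_iff {q par : ℕ} {v : VS q par} : v ∈ Pol q par ↔ ∃ D, v ∈ PolD q par D := by
  constructor
  · intro hv
    induction hv using Submodule.span_induction with
    | mem x hx =>
      obtain ⟨m, i, hm, rfl⟩ := hx
      exact ⟨q + m + 2 * i, Submodule.subset_span ⟨m, i, hm, le_rfl, rfl⟩⟩
    | zero => exact ⟨0, Submodule.zero_mem _⟩
    | add x y _ _ hx hy =>
      obtain ⟨D, hD⟩ := hx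
      obtain ⟨E, hE⟩ := hy
      exact ⟨max D E, Submodule.add_mem _ (PolD_mono q par (le_max_left _ _) hD)
        (PolD_mono q par (le_max_right _ _) hE)⟩
    | smul c x _ hx =>
      obtain ⟨D, hD⟩ := hx
      exact ⟨D, Submodule.smul_mem _ c hD⟩
  · rintro ⟨D, hD⟩
    exact PolD_le_Pol q par D hD

/-! ### the forms -/

/-- coefficients of the `L²` form -/
def Wg : Fin 4 → ℝ × ℝ → ℝ := fun i _ => if i = 0 then 1 else 0

theorem coef_Wg (d : ℕ) : Coef d Wg := by
  refine ⟨fun i => aestronglyMeasurable_const, 1, fun i z _ => ?_⟩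
  unfold Wg; split_ifs <;> simp

/-- the `L²` inner product of the model -/
def g (d q par : ℕ) : LinearMap.BilinForm ℝ (VS q par) := formW q par (coef_Wg d)

theorem g_apply (d : ℕ) {q par : ℕ} (u v : VS q par) :
    g d q par u v = ∫ z, comp d q par u 0 z * comp d q par v 0 z ∂(mu d) := by
  unfold g
  rw [formW_apply]
  congr 1; funext z
  simp [Wg, Fin.sum_univ_four]

/-- admissible conductivity profiles: measurable, `K⁻¹ ≤ P ≤ K` on `Om` -/
structure Adm (d : ℕ) (K : ℝ) (P : ℝ × ℝ → ℝ) : Prop where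
  meas : AEStronglyMeasurable P (mu d)
  K_ge : 1 ≤ K
  low : ∀ z ∈ Om, K⁻¹ ≤ P z
  up : ∀ z ∈ Om, P z ≤ K

theorem adm_one (d : ℕ) : Adm d 1 (fun _ => 1) :=
  ⟨aestronglyMeasurable_const, le_rfl, fun _ _ => by simp, fun _ _ => le_rfl⟩

/-- coefficients of the Dirichlet form of the metric `(b, P)`, `b = 1/θ` -/
def WQ (b : ℝ) (P : ℝ × ℝ → ℝ) : Fin 4 → ℝ × ℝ → ℝ := fun i z =>
  match i with
  | 0 => 0
  | 1 => P z
  | 2 => b ^ 2 / P z
  | 3 => 1

theorem coef_WQ {d : ℕ} {K : ℝ} {P : ℝ × ℝ → ℝ} (hP : Adm d K P) (b : ℝ) :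
    Coef d (WQ b P) := by
  have hK : 0 < K := lt_of_lt_of_le one_pos hP.K_ge
  refine ⟨fun i => ?_, (b ^ 2 + 1) * K, fun i z hz => ?_⟩
  · fin_cases i
    · exact aestronglyMeasurable_const
    · exact hP.meas
    · have := (aestronglyMeasurable_const (b := b ^ 2) (μ := mu d)).mul
        (hP.meas.aemeasurable.inv.aestronglyMeasurable)
      refine this.congr (Filter.Eventually.of_forall fun z => ?_)
      simp [WQ, div_eq_mul_inv]
    · exact aestronglyMeasurable_const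
  · have h1 := hP.low z hz
    have h2 := hP.up z hz
    have h3 : 0 < P z := lt_of_lt_of_le (by positivity) h1
    have hb : 0 ≤ b ^ 2 := sq_nonneg b
    have hK1 := hP.K_ge
    fin_cases i
    · simp only [WQ, Fin.zero_eta, abs_zero]; positivity
    · simp only [WQ, Fin.mk_one]
      rw [abs_of_pos h3]; nlinarith
    · simp only [WQ, Fin.reduceFinMk]
      rw [abs_of_nonneg (by positivity), div_le_iff₀ h3]
      have h4 : 1 ≤ K * P z := by
        calc 1 = K * K⁻¹ := (mul_inv_cancel₀ hK.ne').symm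
          _ ≤ K * P z := by gcongr
      nlinarith
    · simp only [WQ, Fin.reduceFinMk, abs_one]; nlinarith

/-- the Dirichlet form of the metric `(b, P)` -/
def Q {d : ℕ} (q par : ℕ) {K : ℝ} {P : ℝ × ℝ → ℝ} (hP : Adm d K P) (b : ℝ) :
    LinearMap.BilinForm ℝ (VS q par) := formW q par (coef_WQ hP b)

theorem Q_apply {d : ℕ} {q par : ℕ} {K : ℝ} {P : ℝ × ℝ → ℝ} (hP : Adm d K P) (b : ℝ)
    (u v : VS q par) :
    Q q par hP b u v = ∫ z, (P z * comp d q par u 1 z * comp d q par v 1 z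
      + b ^ 2 / P z * comp d q par u 2 z * comp d q par v 2 z
      + comp d q par u 3 z * comp d q par v 3 z) ∂(mu d) := by
  unfold Q
  rw [formW_apply]
  congr 1; funext z
  simp [WQ, Fin.sum_univ_four]

/-- reference form `h = Q 1 1 + g` -/
def href (d q par : ℕ) : LinearMap.BilinForm ℝ (VS q par) := Q q par (adm_one d) 1 + g d q par

end Crest.Agent.R202.Mod
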