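import Mathlib
import Crest.Agent.R202.Model2

/-!
# Row 202: the two-variable model: positivity, comparison (P1), continuity in the metric (P3)
-/

set_option autoImplicit false
set_option linter.unusedSimpArgs false

open MeasureTheory Set Filter Topology
open Crest.Agent.R202

noncomputable section

namespace Crest.Agent.R202.Mod

variable {d q par : ℕ}

theorem formW_symm {W : Fin 4 → ℝ × ℝ → ℝ} (hW : Coef d W) (u v : VS q par) :
    formW q par hW u v = formW q par hW v u := fW_symm d q par W u v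

theorem g_symm (u v : VS q par) : g d q par u v = g d q par v u := formW_symm _ u v

theorem Q_symm {K : ℝ} {P : ℝ × ℝ → ℝ} (hP : Adm d K P) (b : ℝ) (u v : VS q par) :
    Q q par hP b u v = Q q par hP b v u := formW_symm _ u v

theorem formW_mono {W W' : Fin 4 → ℝ × ℝ → ℝ} (hW : Coef d W) (hW' : Coef d W')
    (h : ∀ i, ∀ z ∈ Om, W i z ≤ W' i z) (v : VS q par) :
    formW q par hW v v ≤ formW q par hW' v v := by
  rw [formW_apply, formW_apply]
  refine integral_mono_ae (integrable_sum hW v v) (integrable_sum hW' v v) ?_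
  filter_upwards [ae_mem_Om d] with z hz
  refine Finset.sum_le_sum fun i _ => ?_
  rw [mul_assoc, mul_assoc]
  exact mul_le_mul_of_nonneg_right (h i z hz) (mul_self_nonneg _)

theorem coef_zero (d : ℕ) : Coef d (fun _ _ => 0) :=
  ⟨fun _ => aestronglyMeasurable_const, 0, fun _ _ _ => by simp⟩

theorem formW_zero (u v : VS q par) : formW q par (coef_zero d) u v = 0 := by
  rw [formW_apply]; simp

theorem formW_nonneg {W : Fin 4 → ℝ × ℝ → ℝ} (hW : Coef d W) (h : ∀ i, ∀ z ∈ Om, 0 ≤ W i z)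
    (v : VS q par) : 0 ≤ formW q par hW v v := by
  have := formW_mono (coef_zero d) hW (fun i z hz => h i z hz) v
  rwa [formW_zero] at this

theorem Coef.const_mul {W : Fin 4 → ℝ × ℝ → ℝ} (hW : Coef d W) (c : ℝ) :
    Coef d (fun i z => c * W i z) := by
  obtain ⟨C, hC⟩ := hW.bdd
  refine ⟨fun i => (hW.meas i).const_mul c, |c| * C, fun i z hz => ?_⟩
  rw [abs_mul]
  have := hC i z hz
  gcongr

theorem formW_const_mul {W : Fin 4 → ℝ × ℝ → ℝ} (hW : Coef d W) (c : ℝ) (u v : VS q par) :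
    formW q par (hW.const_mul c) u v = c * formW q par hW u v := by
  rw [formW_apply, formW_apply, ← integral_const_mul]
  congr 1; funext z
  rw [Finset.mul_sum]
  exact Finset.sum_congr rfl fun i _ => by ring

theorem Coef.sub {W W' : Fin 4 → ℝ × ℝ → ℝ} (hW : Coef d W) (hW' : Coef d W') :
    Coef d (fun i z => W i z - W' i z) := by
  obtain ⟨C, hC⟩ := hW.bdd
  obtain ⟨C', hC'⟩ := hW'.bdd
  exact ⟨fun i => (hW.meas i).sub (hW'.meas i), C + C', fun i z hz =>
    (abs_sub _ _).trans (add_le_add (hC i z hz) (hC' i z hz))⟩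

theorem formW_sub {W W' : Fin 4 → ℝ × ℝ → ℝ} (hW : Coef d W) (hW' : Coef d W') (u v : VS q par) :
    formW q par (hW.sub hW') u v = formW q par hW u v - formW q par hW' u v := by
  rw [formW_apply, formW_apply, formW_apply,
    ← integral_sub (integrable_sum hW u v) (integrable_sum hW' u v)]
  congr 1; funext z
  rw [← Finset.sum_sub_distrib]
  exact Finset.sum_congr rfl fun i _ => by ring

/-- Cauchy-Schwarz for nonnegative coefficients -/
theorem formW_cauchy {W : Fin 4 → ℝ × ℝ → ℝ} (hW : Coef d W) (h : ∀ i, ∀ z ∈ Om, 0 ≤ W i z)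
    (u v : VS q par) :
    formW q par hW u v ^ 2 ≤ formW q par hW u u * formW q par hW v v := by
  have h1 : ∀ t : ℝ, 0 ≤ formW q par hW v v * (t * t) + (2 * formW q par hW u v) * t
      + formW q par hW u u := by
    intro t
    have h2 := formW_nonneg hW h (u + t • v)
    have h3 : formW q par hW (u + t • v) (u + t • v)
        = formW q par hW v v * (t * t) + (2 * formW q par hW u v) * t + formW q par hW u u := by
      simp only [map_add, LinearMap.add_apply, map_smul, LinearMap.smul_apply, smul_eq_mul]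
      rw [formW_symm hW v u]; ring
    rw [h3] at h2; exact h2
  have h4 := discrim_le_zero h1
  unfold discrim at h4
  nlinarith

theorem g_nonneg (v : VS q par) : 0 ≤ g d q par v v :=
  formW_nonneg _ (fun i z _ => by unfold Wg; split_ifs <;> norm_num) v

theorem WQ_nonneg {K : ℝ} {P : ℝ × ℝ → ℝ} (hP : Adm d K P) (b : ℝ) :
    ∀ i, ∀ z ∈ Om, 0 ≤ WQ b P i z := by
  intro i z hz
  have hK : 0 < K := lt_of_lt_of_le one_pos hP.K_ge
  have h3 : 0 < P z := lt_of_lt_of_le (by positivity) (hP.low z hz)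
  fin_cases i
  · exact le_rfl
  · exact h3.le
  · exact div_nonneg (sq_nonneg b) h3.le
  · exact zero_le_one

theorem Q_nonneg {K : ℝ} {P : ℝ × ℝ → ℝ} (hP : Adm d K P) (b : ℝ) (v : VS q par) :
    0 ≤ Q q par hP b v v := formW_nonneg _ (WQ_nonneg hP b) v

theorem Q_cauchy {K : ℝ} {P : ℝ × ℝ → ℝ} (hP : Adm d K P) (b : ℝ) (u v : VS q par) :
    Q q par hP b u v ^ 2 ≤ Q q par hP b u u * Q q par hP b v v :=
  formW_cauchy _ (WQ_nonneg hP b) u v

theorem g_cauchy (u v : VS q par) :
    g d q par u v ^ 2 ≤ g d q par u u * g d q par v v :=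
  formW_cauchy _ (fun i z _ => by unfold Wg; split_ifs <;> norm_num) u v

/-! ### (P1) comparison -/

/-- **(P1), lower bound** -/
theorem Q_ge {K : ℝ} {P : ℝ × ℝ → ℝ} (hP : Adm d K P) {b b1 β : ℝ} (hb : 1 ≤ b)
    (hb1 : 0 ≤ b1) (hb1β : b1 ≤ β) (hβ : 1 ≤ β) (v : VS q par) :
    (K * β ^ 2)⁻¹ * Q q par (adm_one d) b1 v v ≤ Q q par hP b v v := by
  unfold Q
  rw [← formW_const_mul]
  have hK : 0 < K := lt_of_lt_of_le one_pos hP.K_ge
  have hK1 := hP.K_ge
  have hββ : 1 ≤ β ^ 2 := by nlinarith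
  have hpos : 0 < K * β ^ 2 := by positivity
  have hinv1 : (K * β ^ 2)⁻¹ ≤ K⁻¹ := by
    apply inv_anti₀ hK; nlinarith
  refine formW_mono _ _ (fun i z hz => ?_) v
  have h1 := hP.low z hz
  have h2 := hP.up z hz
  have h3 : 0 < P z := lt_of_lt_of_le (by positivity) h1
  fin_cases i
  · simp [WQ]
  · simp only [WQ, Fin.mk_one, mul_one]
    exact hinv1.trans h1
  · simp only [WQ, Fin.reduceFinMk, div_one]
    rw [inv_mul_le_iff₀ hpos]
    have h5 : b1 ^ 2 ≤ β ^ 2 := by gcongr
    have h6 : 1 ≤ K * (b ^ 2 / P z) := by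
      rw [mul_div_assoc', le_div_iff₀ h3, one_mul]
      have h7 : 1 ≤ b ^ 2 := by nlinarith
      nlinarith
    calc b1 ^ 2 ≤ β ^ 2 * 1 := by rw [mul_one]; exact h5
      _ ≤ β ^ 2 * (K * (b ^ 2 / P z)) := by gcongr
      _ = K * β ^ 2 * (b ^ 2 / P z) := by ring
  · simp only [WQ, Fin.reduceFinMk, mul_one]
    exact hinv1.trans (inv_le_one_of_one_le₀ hK1)

/-- **(P1), upper bound** -/
theorem Q_le {K : ℝ} {P : ℝ × ℝ → ℝ} (hP : Adm d K P) {b b1 β : ℝ} (hb0 : 0 ≤ b) (hb : b ≤ β)
    (hb1 : 1 ≤ b1) (hβ : 1 ≤ β) (v : VS q par) :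
    Q q par hP b v v ≤ K * β ^ 2 * Q q par (adm_one d) b1 v v := by
  unfold Q
  rw [← formW_const_mul]
  have hK : 0 < K := lt_of_lt_of_le one_pos hP.K_ge
  have hK1 := hP.K_ge
  have hββ : 1 ≤ β ^ 2 := by nlinarith
  have hKβ : 1 ≤ K * β ^ 2 := by nlinarith
  refine formW_mono _ _ (fun i z hz => ?_) v
  have h1 := hP.low z hz
  have h2 := hP.up z hz
  have h3 : 0 < P z := lt_of_lt_of_le (by positivity) h1
  fin_cases i
  · simp [WQ]
  · simp only [WQ, Fin.mk_one, mul_one]
    nlinarith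
  · simp only [WQ, Fin.reduceFinMk, div_one]
    rw [div_le_iff₀ h3]
    have h5 : b ^ 2 ≤ β ^ 2 := by gcongr
    have h6 : 1 ≤ K * P z := by
      calc (1:ℝ) = K * K⁻¹ := (mul_inv_cancel₀ hK.ne').symm
        _ ≤ K * P z := by gcongr
    have h7 : 1 ≤ b1 ^ 2 := by nlinarith
    calc b ^ 2 ≤ β ^ 2 * 1 := by rw [mul_one]; exact h5
      _ ≤ β ^ 2 * (b1 ^ 2 * (K * P z)) := by
        gcongr
        nlinarith
      _ = K * β ^ 2 * b1 ^ 2 * P z := by ring
  · simp only [WQ, Fin.reduceFinMk, mul_one]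
    exact hKβ

/-! ### (P3) continuity in the metric -/

/-- Cauchy-Schwarz for integrals -/
theorem integral_mul_sq_le {α : Type*} [MeasurableSpace α] {μ : Measure α} {f g : α → ℝ}
    (hf : Integrable (fun x => f x ^ 2) μ) (hg : Integrable (fun x => g x ^ 2) μ)
    (hfg : Integrable (fun x => f x * g x) μ) :
    (∫ x, f x * g x ∂μ) ^ 2 ≤ (∫ x, f x ^ 2 ∂μ) * ∫ x, g x ^ 2 ∂μ := by
  have h1 : ∀ t : ℝ, 0 ≤ (∫ x, g x ^ 2 ∂μ) * (t * t) + (2 * ∫ x, f x * g x ∂μ) * t
      + ∫ x, f x ^ 2 ∂μ := by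
    intro t
    have h2 : 0 ≤ ∫ x, (f x + t * g x) ^ 2 ∂μ := integral_nonneg fun x => sq_nonneg _
    have h3 : ∫ x, (f x + t * g x) ^ 2 ∂μ = (∫ x, g x ^ 2 ∂μ) * (t * t)
        + (2 * ∫ x, f x * g x ∂μ) * t + ∫ x, f x ^ 2 ∂μ := by
      have h4 : (fun x => (f x + t * g x) ^ 2)
          = fun x => (t * t) * g x ^ 2 + (2 * t) * (f x * g x) + f x ^ 2 := by
        funext x; ring
      have i1 : Integrable (fun x => (t * t) * g x ^ 2) μ := hg.const_mul _
      have i2 : Integrable (fun x => (2 * t) * (f x * g x)) μ := hfg.const_mul _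
      have i3 : Integrable (fun x => (t * t) * g x ^ 2 + (2 * t) * (f x * g x)) μ := i1.add i2
      rw [h4, integral_add i3 hf, integral_add i1 i2, integral_const_mul, integral_const_mul]
      ring
    rw [h3] at h2; exact h2
  have h4 := discrim_le_zero h1
  unfold discrim at h4
  nlinarith

theorem integrable_comp_sq (u : VS q par) (i : Fin 4) :
    Integrable (fun z => comp d q par u i z ^ 2) (mu d) := by
  have hW : Coef d (fun _ _ => (1:ℝ)) :=
    ⟨fun _ => aestronglyMeasurable_const, 1, fun _ _ _ => by simp⟩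
  have := integrable_term hW u u i
  refine this.congr (Filter.Eventually.of_forall fun z => ?_)
  simp only; ring

/-- the energy controls the components -/
theorem comp_sq_le (v : VS q par) :
    (∫ z, comp d q par v 1 z ^ 2 ∂(mu d)) + ∫ z, comp d q par v 2 z ^ 2 ∂(mu d)
      ≤ Q q par (adm_one d) 1 v v := by
  rw [Q_apply, ← integral_add (integrable_comp_sq v 1) (integrable_comp_sq v 2)]
  refine integral_mono_ae ((integrable_comp_sq v 1).add (integrable_comp_sq v 2)) ?_ ?_
  · have := (((integrable_comp_sq (d := d) v 1).add (integrable_comp_sq v 2)).add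
      (integrable_comp_sq v 3))
    refine this.congr (Filter.Eventually.of_forall fun z => ?_)
    simp only [Pi.add_apply]; ring
  · refine Filter.Eventually.of_forall fun z => ?_
    simp only
    nlinarith [mul_self_nonneg (comp d q par v 3 z)]

theorem Adm.integrable_sq {K : ℝ} {P : ℝ × ℝ → ℝ} (hP : Adm d K P) :
    Integrable (fun z => (P z - 1) ^ 2) (mu d) := by
  refine Integrable.mono' (integrable_const ((K + 1) ^ 2))
    ((hP.meas.sub aestronglyMeasurable_const).pow 2) ?_
  filter_upwards [ae_mem_Om d] with z hz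
  have hK : 0 < K := lt_of_lt_of_le one_pos hP.K_ge
  have h3 : 0 < P z := lt_of_lt_of_le (by positivity) (hP.low z hz)
  have h2 := hP.up z hz
  rw [Real.norm_eq_abs, abs_of_nonneg (sq_nonneg _)]
  nlinarith [hP.K_ge]

/-- the size of the deviation of the profile from the ideal spindle -/
def dev (d : ℕ) (P : ℝ × ℝ → ℝ) : ℝ := Real.sqrt (∫ z, (P z - 1) ^ 2 ∂(mu d))

/-- **(P3)** -/
theorem Q_sub_le (d : ℕ) (u : VS q par) (K β : ℝ) : ∃ C : ℝ, 0 ≤ C ∧
    ∀ (P : ℝ × ℝ → ℝ) (hP : Adm d K P) (b b1 : ℝ), 0 ≤ b → b ≤ β → 0 ≤ b1 → b1 ≤ β →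
      ∀ v : VS q par, |Q q par hP b u v - Q q par (adm_one d) b1 u v|
        ≤ C * (|b - b1| + dev d P) * Real.sqrt (Q q par (adm_one d) 1 v v) := by
  obtain ⟨C1, hC1, h1⟩ := comp_bdd d u 1
  obtain ⟨C2, hC2, h2⟩ := comp_bdd d u 2
  set M := Real.sqrt ((mu d).real univ) with hM
  have hM0 : 0 ≤ M := Real.sqrt_nonneg _
  refine ⟨(C1 + C2) * (1 + |K| * β ^ 2) + C2 * |K| * (2 * |β|) * M, by positivity,
    fun P hP b b1 hb0 hb hb10 hb1 v => ?_⟩
  have hK : 0 < K := lt_of_lt_of_le one_pos hP.K_ge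
  have hβ0 : 0 ≤ β := hb0.trans hb
  set S := Real.sqrt (Q q par (adm_one d) 1 v v) with hS
  have hS0 : 0 ≤ S := Real.sqrt_nonneg _
  set D := dev d P with hD
  have hD0 : 0 ≤ D := Real.sqrt_nonneg _
  -- bounds for the components of `v`
  have hV : ∀ i : Fin 4, (i = 1 ∨ i = 2) →
      Real.sqrt (∫ z, comp d q par v i z ^ 2 ∂(mu d)) ≤ S := by
    intro i hi
    apply Real.sqrt_le_sqrt
    have h3 := comp_sq_le (d := d) v
    have h4 : 0 ≤ ∫ z, comp d q par v 1 z ^ 2 ∂(mu d) := integral_nonneg fun z => sq_nonneg _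
    have h5 : 0 ≤ ∫ z, comp d q par v 2 z ^ 2 ∂(mu d) := integral_nonneg fun z => sq_nonneg _
    rcases hi with rfl | rfl <;> linarith
  -- integrability of `|P - 1| |V_i|`
  have haP : Integrable (fun z => |P z - 1| ^ 2) (mu d) := by
    refine hP.integrable_sq.congr (Filter.Eventually.of_forall fun z => ?_)
    simp only [sq_abs]
  have haV : ∀ i, Integrable (fun z => |comp d q par v i z| ^ 2) (mu d) := fun i => by
    refine (integrable_comp_sq v i).congr (Filter.Eventually.of_forall fun z => ?_)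
    simp only [sq_abs]
  have haPV : ∀ i, Integrable (fun z => |P z - 1| * |comp d q par v i z|) (mu d) := by
    intro i
    refine Integrable.mono' (haP.add (haV i))
      ((hP.meas.sub aestronglyMeasurable_const).norm.mul (aesm_comp d v i).norm) ?_
    refine Filter.Eventually.of_forall fun z => ?_
    rw [Real.norm_eq_abs, abs_of_nonneg (by positivity)]
    simp only [Pi.add_apply]
    nlinarith [sq_nonneg (|P z - 1| - |comp d q par v i z|), abs_nonneg (P z - 1),
      abs_nonneg (comp d q par v i z)]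
  have haV1 : ∀ i, Integrable (fun z => |comp d q par v i z|) (mu d) := by
    intro i
    obtain ⟨A, hA0, hA⟩ := comp_bdd d v i
    refine Integrable.mono' (integrable_const A) (aesm_comp d v i).norm ?_
    filter_upwards [ae_mem_Om d] with z hz
    rw [Real.norm_eq_abs, abs_abs]
    exact hA z hz
  -- the two basic inequalities
  have hCS1 : ∀ i : Fin 4, (i = 1 ∨ i = 2) →
      ∫ z, |P z - 1| * |comp d q par v i z| ∂(mu d) ≤ D * S := by
    intro i hi
    have h3 := integral_mul_sq_le haP (haV i) (haPV i)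
    have h4 : 0 ≤ ∫ z, |P z - 1| * |comp d q par v i z| ∂(mu d) :=
      integral_nonneg fun z => by positivity
    have h5 : ∫ z, |P z - 1| * |comp d q par v i z| ∂(mu d)
        ≤ Real.sqrt ((∫ z, |P z - 1| ^ 2 ∂(mu d)) * ∫ z, |comp d q par v i z| ^ 2 ∂(mu d)) :=
      Real.le_sqrt_of_sq_le h3
    rw [Real.sqrt_mul (integral_nonneg fun z => sq_nonneg _)] at h5
    simp only [sq_abs] at h5
    refine h5.trans ?_
    have h6 := hV i hi
    have h7 : Real.sqrt (∫ z, (P z - 1) ^ 2 ∂(mu d)) = D := rfl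
    rw [h7]
    gcongr
  have hCS2 : ∀ i : Fin 4, (i = 1 ∨ i = 2) →
      ∫ z, |comp d q par v i z| ∂(mu d) ≤ M * S := by
    intro i hi
    have h3 := integral_mul_sq_le (f := fun _ => (1:ℝ)) (g := fun z => |comp d q par v i z|)
      (μ := mu d) (by simp) (haV i) (by simpa using haV1 i)
    simp only [one_mul, one_pow, integral_const, smul_eq_mul, mul_one, sq_abs] at h3
    have h5 : ∫ z, |comp d q par v i z| ∂(mu d)
        ≤ Real.sqrt ((mu d).real univ * ∫ z, comp d q par v i z ^ 2 ∂(mu d)) :=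
      Real.le_sqrt_of_sq_le h3
    rw [Real.sqrt_mul measureReal_nonneg] at h5
    refine h5.trans ?_
    have h6 := hV i hi
    gcongr
  -- pointwise estimate
  have hdiff : Q q par hP b u v - Q q par (adm_one d) b1 u v
      = ∫ z, ((P z - 1) * comp d q par u 1 z * comp d q par v 1 z
        + (b ^ 2 / P z - b1 ^ 2) * comp d q par u 2 z * comp d q par v 2 z) ∂(mu d) := by
    unfold Q
    rw [← formW_sub, formW_apply]
    congr 1; funext z
    simp [WQ, Fin.sum_univ_four]
  rw [hdiff]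
  have hpt : ∀ᵐ z ∂(mu d), ‖(P z - 1) * comp d q par u 1 z * comp d q par v 1 z
        + (b ^ 2 / P z - b1 ^ 2) * comp d q par u 2 z * comp d q par v 2 z‖
      ≤ C1 * (|P z - 1| * |comp d q par v 1 z|) + C2 * (K * β ^ 2) * (|P z - 1| * |comp d q par v 2 z|)
        + C2 * K * (2 * β) * |b - b1| * |comp d q par v 2 z| := by
    filter_upwards [ae_mem_Om d] with z hz
    have hl := hP.low z hz
    have h3 : 0 < P z := lt_of_lt_of_le (by positivity) hl
    have hinv : 1 / P z ≤ K := by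
      rw [div_le_iff₀ h3]
      calc (1:ℝ) = K * K⁻¹ := (mul_inv_cancel₀ hK.ne').symm
        _ ≤ K * P z := by gcongr
    have hcoef : |b ^ 2 / P z - b1 ^ 2| ≤ K * β ^ 2 * |P z - 1| + K * (2 * β) * |b - b1| := by
      have e1 : b ^ 2 / P z - b1 ^ 2
          = (1 / P z) * ((b - b1) * (b + b1)) - (1 / P z) * (b1 ^ 2 * (P z - 1)) := by
        field_simp; ring
      rw [e1]
      refine (abs_sub _ _).trans ?_
      rw [abs_mul, abs_mul, abs_mul, abs_mul, abs_of_nonneg (by positivity : 0 ≤ 1 / P z),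
        abs_of_nonneg (by positivity : 0 ≤ b + b1), abs_of_nonneg (sq_nonneg b1)]
      have h4 : b1 ^ 2 ≤ β ^ 2 := by gcongr
      calc 1 / P z * (|b - b1| * (b + b1)) + 1 / P z * (b1 ^ 2 * |P z - 1|)
          ≤ K * (|b - b1| * (β + β)) + K * (β ^ 2 * |P z - 1|) := by gcongr
        _ = _ := by ring
    rw [Real.norm_eq_abs]
    refine (abs_add_le _ _).trans ?_
    rw [abs_mul, abs_mul, abs_mul, abs_mul]
    have e2 := h1 z hz
    have e3 := h2 z hz
    calc |P z - 1| * |comp d q par u 1 z| * |comp d q par v 1 z|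
          + |b ^ 2 / P z - b1 ^ 2| * |comp d q par u 2 z| * |comp d q par v 2 z|
        ≤ |P z - 1| * C1 * |comp d q par v 1 z|
          + (K * β ^ 2 * |P z - 1| + K * (2 * β) * |b - b1|) * C2 * |comp d q par v 2 z| := by
          gcongr
      _ = _ := by ring
  have hint : Integrable (fun z => C1 * (|P z - 1| * |comp d q par v 1 z|)
      + C2 * (K * β ^ 2) * (|P z - 1| * |comp d q par v 2 z|)
        + C2 * K * (2 * β) * |b - b1| * |comp d q par v 2 z|) (mu d) :=
    (((haPV 1).const_mul _).add ((haPV 2).const_mul _)).add ((haV1 2).const_mul _)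
  have h8 := norm_integral_le_of_norm_le hint hpt
  rw [Real.norm_eq_abs] at h8
  refine h8.trans ?_
  have j1 : Integrable (fun z => C1 * (|P z - 1| * |comp d q par v 1 z|)) (mu d) :=
    (haPV 1).const_mul _
  have j2 : Integrable (fun z => C2 * (K * β ^ 2) * (|P z - 1| * |comp d q par v 2 z|)) (mu d) :=
    (haPV 2).const_mul _
  have j3 : Integrable (fun z => C2 * K * (2 * β) * |b - b1| * |comp d q par v 2 z|) (mu d) :=
    (haV1 2).const_mul _
  have j4 : Integrable (fun z => C1 * (|P z - 1| * |comp d q par v 1 z|)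
      + C2 * (K * β ^ 2) * (|P z - 1| * |comp d q par v 2 z|)) (mu d) := j1.add j2
  rw [integral_add j4 j3, integral_add j1 j2, integral_const_mul,
    integral_const_mul, integral_const_mul]
  have h9 := hCS1 1 (Or.inl rfl)
  have h10 := hCS1 2 (Or.inr rfl)
  have h11 := hCS2 2 (Or.inr rfl)
  have hKabs : |K| = K := abs_of_pos hK
  have hβabs : |β| = β := abs_of_nonneg hβ0
  rw [hKabs, hβabs]
  have hd0 := abs_nonneg (b - b1)
  calc C1 * ∫ z, |P z - 1| * |comp d q par v 1 z| ∂(mu d)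
        + C2 * (K * β ^ 2) * ∫ z, |P z - 1| * |comp d q par v 2 z| ∂(mu d)
        + C2 * K * (2 * β) * |b - b1| * ∫ z, |comp d q par v 2 z| ∂(mu d)
      ≤ C1 * (D * S) + C2 * (K * β ^ 2) * (D * S) + C2 * K * (2 * β) * |b - b1| * (M * S) := by
        gcongr
    _ ≤ ((C1 + C2) * (1 + K * β ^ 2) + C2 * K * (2 * β) * M) * (|b - b1| + D) * S := by
        have e1 : 0 ≤ C2 * D * S := by positivity
        have e2 : 0 ≤ C1 * (K * β ^ 2) * D * S := by positivity
        have e3 : 0 ≤ C2 * K * (2 * β) * M * D * S := by positivity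
        have e4 : 0 ≤ (C1 + C2) * (1 + K * β ^ 2) * |b - b1| * S := by positivity
        nlinarith

end Crest.Agent.R202.Mod
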