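import Mathlib

/-! Row 202, PART C1 (helper816): completeness and Parseval for orthogonal systems
`w(x) p_k(s(x))` with `deg p_k = k` on an interval. -/

set_option autoImplicit false

namespace Crest.Agent.R202

open MeasureTheory Set Polynomial Filter Topology
open scoped ContDiff InnerProductSpace ENNReal

theorem mem_span_of_degrees {p : ℕ → ℝ[X]} (hp : ∀ k, (p k).degree = k) (f : ℝ[X]) :
    f ∈ Submodule.span ℝ (range p) := by
  let S : Polynomial.Sequence ℝ := ⟨p, hp⟩
  have h : Submodule.span ℝ (range S) = ⊤ := by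
    apply S.span
    intro i
    have : (S i) ≠ 0 := S.ne_zero i
    exact (leadingCoeff_ne_zero.mpr this).isUnit
  have h2 : f ∈ Submodule.span ℝ (range S) := by rw [h]; trivial
  exact h2

theorem ae_zero_of_orth {a b : ℝ} {h s σ : ℝ → ℝ} (hs : Continuous s) (hσ : Continuous σ)
    (hσs : ∀ x ∈ Ioo a b, σ (s x) = x) (hh : IntegrableOn h (Ioo a b)) {p : ℕ → ℝ[X]}
    (hp : ∀ k, (p k).degree = k) (horth : ∀ k, ∫ x in Ioo a b, h x * (p k).eval (s x) = 0) :
    ∀ᵐ x ∂(volume.restrict (Ioo a b)), h x = 0 := by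
  have hint : ∀ ψ : ℝ → ℝ, Continuous ψ → IntegrableOn (fun x => h x * ψ x) (Ioo a b) :=
    fun ψ hψ => hh.mul_continuousOn_of_subset hψ.continuousOn measurableSet_Ioo isCompact_Icc
      Ioo_subset_Icc_self
  have hpol : ∀ f : ℝ[X], ∫ x in Ioo a b, h x * f.eval (s x) = 0 := by
    intro f
    have hf := mem_span_of_degrees hp f
    induction hf using Submodule.span_induction with
    | mem f hf => obtain ⟨k, rfl⟩ := hf; exact horth k
    | zero => simp
    | add f g _ _ hf hg =>
      have e : ∀ x, h x * (f + g).eval (s x) = h x * f.eval (s x) + h x * g.eval (s x) := by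
        intro x; rw [eval_add]; ring
      simp_rw [e]
      rw [integral_add (hint (fun x => f.eval (s x)) (f.continuous.comp hs))
        (hint (fun x => g.eval (s x)) (g.continuous.comp hs)), hf, hg, add_zero]
    | smul c f _ hf =>
      have e : ∀ x, h x * (c • f).eval (s x) = c * (h x * f.eval (s x)) := by
        intro x; rw [eval_smul, smul_eq_mul]; ring
      simp_rw [e]
      rw [integral_const_mul, hf, mul_zero]
  have hcont : ∀ ψ : ℝ → ℝ, Continuous ψ → ∫ x in Ioo a b, h x * ψ x = 0 := by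
    intro ψ hψ
    by_cases hab : a < b
    swap
    · rw [Ioo_eq_empty hab]; simp
    obtain ⟨M, hM⟩ := (isCompact_Icc (a := a) (b := b)).exists_bound_of_continuousOn hs.continuousOn
    have hI0 : 0 ≤ ∫ x in Ioo a b, |h x| := integral_nonneg fun x => abs_nonneg _
    have key : ∀ ε : ℝ, 0 < ε →
        |∫ x in Ioo a b, h x * ψ x| ≤ ε * ∫ x in Ioo a b, |h x| := by
      intro ε hε
      obtain ⟨f, hf⟩ := exists_polynomial_near_of_continuousOn (-M) M (fun y => ψ (σ y))
        (hψ.comp hσ).continuousOn ε hε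
      have e1 : ∫ x in Ioo a b, h x * ψ x =
          ∫ x in Ioo a b, h x * (ψ x - f.eval (s x)) := by
        have e : ∀ x, h x * (ψ x - f.eval (s x)) = h x * ψ x - h x * f.eval (s x) := by
          intro x; ring
        simp_rw [e]
        rw [integral_sub (hint _ hψ) (hint (fun x => f.eval (s x)) (f.continuous.comp hs)),
          hpol f, sub_zero]
      rw [e1, ← integral_const_mul]
      rw [← Real.norm_eq_abs]
      refine (norm_integral_le_integral_norm _).trans ?_
      apply integral_mono_ae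
      · exact (hint (fun x => ψ x - f.eval (s x)) (hψ.sub (f.continuous.comp hs))).norm
      · exact hh.abs.const_mul ε
      · filter_upwards [ae_restrict_mem measurableSet_Ioo] with x hx
        simp only [norm_mul, Real.norm_eq_abs]
        have hx' := hM x (Ioo_subset_Icc_self hx)
        rw [Real.norm_eq_abs, abs_le] at hx'
        have h1 := hf (s x) hx'
        rw [hσs x hx] at h1
        rw [abs_sub_comm] at h1
        rw [mul_comm ε]
        exact mul_le_mul_of_nonneg_left h1.le (abs_nonneg _)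
    have hz : |∫ x in Ioo a b, h x * ψ x| ≤ 0 := by
      apply le_of_forall_pos_le_add
      intro δ hδ
      rw [zero_add]
      set I := ∫ x in Ioo a b, |h x|
      have := key (δ / (I + 1)) (by positivity)
      refine this.trans ?_
      rw [div_mul_eq_mul_div, div_le_iff₀ (by positivity)]
      nlinarith
    exact abs_eq_zero.mp (le_antisymm hz (abs_nonneg _))
  have := isOpen_Ioo.ae_eq_zero_of_integral_contDiff_smul_eq_zero (U := Ioo a b) (μ := volume)
    (f := h) hh.locallyIntegrableOn (by
      intro g hg hgc hgs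
      have e : ∫ x, g x • h x = ∫ x in Ioo a b, h x * g x := by
        rw [← setIntegral_eq_integral_of_forall_compl_eq_zero (s := Ioo a b)]
        · apply setIntegral_congr_fun measurableSet_Ioo
          intro x _
          simp only [smul_eq_mul]
          ring
        · intro x hx
          have : g x = 0 := image_eq_zero_of_notMem_tsupport (fun h => hx (hgs h))
          rw [this, zero_smul]
      rw [e]
      exact hcont g hg.continuous)
  rwa [ae_restrict_iff' measurableSet_Ioo]

theorem inner_toLp {ν : Measure ℝ} {u v : ℝ → ℝ} (hu : MemLp u 2 ν) (hv : MemLp v 2 ν) :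
    ⟪hu.toLp u, hv.toLp v⟫_ℝ = ∫ x, u x * v x ∂ν := by
  rw [MeasureTheory.L2.inner_def]
  apply integral_congr_ae
  filter_upwards [hu.coeFn_toLp, hv.coeFn_toLp] with x h1 h2
  rw [h1, h2]
  simp [mul_comm]

/-- Parseval for an orthogonal system `F_k = om · p_k(s)`. -/
theorem parseval_system {a b : ℝ} {om s σ : ℝ → ℝ} (hs : Continuous s)
    (hσ : Continuous σ) (hσs : ∀ x ∈ Ioo a b, σ (s x) = x)
    (hom : AEStronglyMeasurable om (volume.restrict (Ioo a b))) {C : ℝ}
    (hωb : ∀ x ∈ Ioo a b, |om x| ≤ C) (hom0 : ∀ x ∈ Ioo a b, om x ≠ 0)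
    {p : ℕ → ℝ[X]} (hp : ∀ k, (p k).degree = k) {F : ℕ → ℝ → ℝ}
    (hF : ∀ k, ∀ x ∈ Ioo a b, F k x = om x * (p k).eval (s x))
    (hpos : ∀ k, 0 < ∫ x in Ioo a b, F k x ^ 2)
    (horth : ∀ i j, i ≠ j → ∫ x in Ioo a b, F i x * F j x = 0)
    {u v : ℝ → ℝ} (hu : MemLp u 2 (volume.restrict (Ioo a b)))
    (hv : MemLp v 2 (volume.restrict (Ioo a b))) :
    HasSum (fun k => (∫ x in Ioo a b, u x * F k x) * (∫ x in Ioo a b, v x * F k x) /
      ∫ x in Ioo a b, F k x ^ 2) (∫ x in Ioo a b, u x * v x) := by
  set ν := (volume.restrict (Ioo a b) : Measure ℝ) with hν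
  have hωb' : ∀ᵐ x ∂ν, ‖om x‖ ≤ C := by
    rw [hν]
    filter_upwards [ae_restrict_mem measurableSet_Ioo] with x hx
    exact hωb x hx
  have homL : MemLp om ⊤ ν := memLp_top_of_bound hom C hωb'
  have hpL : ∀ k, MemLp (fun x => (p k).eval (s x)) ⊤ ν := by
    intro k
    have hc : Continuous fun x => (p k).eval (s x) := (p k).continuous.comp hs
    obtain ⟨M, hM⟩ := (isCompact_Icc (a := a) (b := b)).exists_bound_of_continuousOn hc.continuousOn
    apply memLp_top_of_bound hc.aestronglyMeasurable M
    rw [hν]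
    filter_upwards [ae_restrict_mem measurableSet_Ioo] with x hx
    exact hM x (Ioo_subset_Icc_self hx)
  have : IsFiniteMeasure ν := by rw [hν]; infer_instance
  have hFL : ∀ k, MemLp (F k) 2 ν := by
    intro k
    have h1 : MemLp (fun x => om x * (p k).eval (s x)) ⊤ ν :=
      MemLp.mul (hpL k) homL
    have h2 : MemLp (fun x => om x * (p k).eval (s x)) 2 ν := h1.mono_exponent le_top
    refine h2.ae_eq ?_
    rw [hν]
    filter_upwards [ae_restrict_mem measurableSet_Ioo] with x hx
    exact (hF k x hx).symm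
  have hN : ∀ k, 0 < ∫ x, F k x ^ 2 ∂ν := hpos
  set c : ℕ → ℝ := fun k => 1 / Real.sqrt (∫ x, F k x ^ 2 ∂ν) with hc
  have hc2 : ∀ k, c k * c k = 1 / ∫ x, F k x ^ 2 ∂ν := by
    intro k
    rw [hc]
    simp only
    rw [div_mul_div_comm, one_mul, Real.mul_self_sqrt (hN k).le]
  have hcpos : ∀ k, 0 < c k := fun k => by
    have := Real.sqrt_pos.mpr (hN k)
    rw [hc]; positivity
  set e : ℕ → Lp ℝ 2 ν := fun k => c k • (hFL k).toLp (F k) with he
  have hee : ∀ i j, ⟪e i, e j⟫_ℝ = c i * c j * ∫ x, F i x * F j x ∂ν := by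
    intro i j
    rw [he]
    simp only
    rw [real_inner_smul_left, real_inner_smul_right, inner_toLp]
    ring
  have hon : Orthonormal ℝ e := by
    rw [orthonormal_iff_ite]
    intro i j
    rw [hee]
    split_ifs with hij
    · subst hij
      have : ∫ x, F i x * F i x ∂ν = ∫ x, F i x ^ 2 ∂ν := by
        congr 1; ext x; ring
      rw [this, hc2, one_div, inv_mul_cancel₀ (hN i).ne']
    · have : ∫ x, F i x * F j x ∂ν = 0 := horth i j hij
      rw [this, mul_zero]
  have hbot : (Submodule.span ℝ (range e))ᗮ = ⊥ := by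
    rw [Submodule.eq_bot_iff]
    intro w hw
    rw [Submodule.mem_orthogonal] at hw
    have hwL : MemLp (fun x => w x) 2 ν := Lp.memLp w
    have hw1 : ∀ k, ∫ x, F k x * w x ∂ν = 0 := by
      intro k
      have h1 := hw (e k) (Submodule.subset_span ⟨k, rfl⟩)
      rw [he] at h1
      simp only at h1
      rw [real_inner_smul_left] at h1
      have h2 := (mul_eq_zero.mp h1).resolve_left (hcpos k).ne'
      have h3 := inner_toLp (hFL k) hwL
      rw [Lp.toLp_coeFn] at h3
      rw [← h3, h2]
    have hz : ∀ᵐ x ∂ν, w x * om x = 0 := by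
      refine ae_zero_of_orth (a := a) (b := b) hs hσ hσs (p := p) (h := fun x => w x * om x)
        ?_ hp ?_
      · have h1 : MemLp (fun x => w x * om x) 2 ν := MemLp.mul (p := 2) (q := ⊤) homL hwL
        exact h1.integrable (by norm_num)
      · intro k
        rw [← hw1 k]
        apply setIntegral_congr_fun measurableSet_Ioo
        intro x hx
        simp only
        rw [hF k x hx]; ring
    have hz2 : ∀ᵐ x ∂ν, w x = 0 := by
      filter_upwards [hz, ae_restrict_mem measurableSet_Ioo] with x h1 hx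
      exact (mul_eq_zero.mp h1).resolve_right (hom0 x hx)
    apply Lp.ext
    filter_upwards [hz2, Lp.coeFn_zero ℝ 2 ν] with x h1 h2
    rw [h1, h2]; rfl
  set B : HilbertBasis ℕ ℝ (Lp ℝ 2 ν) := HilbertBasis.mkOfOrthogonalEqBot hon hbot with hB
  have hBe : ∀ k, B k = e k := by
    intro k
    rw [hB, HilbertBasis.coe_mkOfOrthogonalEqBot]
  have hsum := B.hasSum_inner_mul_inner (hu.toLp u) (hv.toLp v)
  rw [inner_toLp] at hsum
  have e1 : ∀ k, ⟪hu.toLp u, B k⟫_ℝ * ⟪B k, hv.toLp v⟫_ℝ =
      (∫ x, u x * F k x ∂ν) * (∫ x, v x * F k x ∂ν) / ∫ x, F k x ^ 2 ∂ν := by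
    intro k
    have c2 := hc2 k
    rw [hBe, he]
    simp only
    rw [real_inner_smul_left, real_inner_smul_right, inner_toLp, inner_toLp]
    have e3 : ∫ x, F k x * v x ∂ν = ∫ x, v x * F k x ∂ν := by
      congr 1; ext x; ring
    rw [e3]
    linear_combination ((∫ x, u x * F k x ∂ν) * (∫ x, v x * F k x ∂ν)) * c2
  simpa only [e1] using hsum

end Crest.Agent.R202
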