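import Mathlib
import Crest.Agent.R202.SpinOps

/-! Row 202, PART C1-2D (helper206): the trigonometric bases of `L²(0,π)` and Parseval. -/

set_option autoImplicit false

namespace Crest.Agent.R202.Fou

open MeasureTheory Set Polynomial Filter Topology Real

/-- `par = false`: `cos (m φ)`; `par = true`: `sin (m φ)`. -/
noncomputable def trg (par : Bool) (m : ℕ) (φ : ℝ) : ℝ :=
  match par with
  | false => Real.cos (m * φ)
  | true => Real.sin (m * φ)

/-- its derivative -/
noncomputable def dtrg (par : Bool) (m : ℕ) (φ : ℝ) : ℝ :=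
  match par with
  | false => -(m * Real.sin (m * φ))
  | true => m * Real.cos (m * φ)

theorem trg_hasDerivAt (par : Bool) (m : ℕ) (φ : ℝ) :
    HasDerivAt (trg par m) (dtrg par m φ) φ := by
  have h0 : HasDerivAt (fun φ : ℝ => (m : ℝ) * φ) m φ := by
    simpa using (hasDerivAt_id φ).const_mul (m : ℝ)
  cases par
  · have h : HasDerivAt (fun φ : ℝ => Real.cos (m * φ)) _ φ := h0.cos
    refine h.congr_deriv ?_
    simp only [dtrg]; ring
  · have h : HasDerivAt (fun φ : ℝ => Real.sin (m * φ)) _ φ := h0.sin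
    refine h.congr_deriv ?_
    simp only [dtrg]; ring

theorem dtrg_hasDerivAt (par : Bool) (m : ℕ) (φ : ℝ) :
    HasDerivAt (dtrg par m) (-((m : ℝ) ^ 2 * trg par m φ)) φ := by
  have h0 : HasDerivAt (fun φ : ℝ => (m : ℝ) * φ) m φ := by
    simpa using (hasDerivAt_id φ).const_mul (m : ℝ)
  cases par
  · have h : HasDerivAt (fun φ : ℝ => -((m : ℝ) * Real.sin (m * φ))) _ φ :=
      ((h0.sin).const_mul (m : ℝ)).neg
    refine h.congr_deriv ?_
    simp only [trg]; ring
  · have h : HasDerivAt (fun φ : ℝ => ((m : ℝ) * Real.cos (m * φ))) _ φ :=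
      ((h0.cos).const_mul (m : ℝ))
    refine h.congr_deriv ?_
    simp only [trg]; ring

theorem trg_cont (par : Bool) (m : ℕ) : Continuous (trg par m) :=
  continuous_iff_continuousAt.2 fun φ => (trg_hasDerivAt par m φ).continuousAt

theorem dtrg_cont (par : Bool) (m : ℕ) : Continuous (dtrg par m) :=
  continuous_iff_continuousAt.2 fun φ => (dtrg_hasDerivAt par m φ).continuousAt

theorem abs_trg_le (par : Bool) (m : ℕ) (φ : ℝ) : |trg par m φ| ≤ 1 := by
  cases par
  · exact Real.abs_cos_le_one _
  · exact Real.abs_sin_le_one _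

theorem abs_dtrg_le (par : Bool) (m : ℕ) (φ : ℝ) : |dtrg par m φ| ≤ m := by
  cases par
  · simp only [dtrg, abs_neg, abs_mul, Nat.abs_cast]
    have := Real.abs_sin_le_one (m * φ)
    have hm : (0 : ℝ) ≤ m := by positivity
    nlinarith
  · simp only [dtrg, abs_mul, Nat.abs_cast]
    have := Real.abs_cos_le_one (m * φ)
    have hm : (0 : ℝ) ≤ m := by positivity
    nlinarith

/-- index of the first harmonic -/
def m0 (par : Bool) : ℕ := if par then 1 else 0

/-- the Chebyshev polynomial behind the `k`-th basis function -/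
noncomputable def chb (par : Bool) (k : ℕ) : ℝ[X] :=
  match par with
  | false => Chebyshev.T ℝ k
  | true => Chebyshev.U ℝ k

theorem chb_degree (par : Bool) (k : ℕ) : (chb par k).degree = k := by
  cases par
  · simp [chb]
  · exact Chebyshev.degree_U_natCast ℝ k

/-- the weight -/
noncomputable def chw (par : Bool) (φ : ℝ) : ℝ :=
  match par with
  | false => 1
  | true => Real.sin φ

theorem trg_eq_chb (par : Bool) (k : ℕ) (φ : ℝ) :
    trg par (m0 par + k) φ = chw par φ * (chb par k).eval (Real.cos φ) := by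
  cases par
  · simp only [trg, m0, chw, chb, one_mul]
    have := Chebyshev.T_real_cos φ (k : ℤ)
    simp only [Int.cast_natCast] at this
    rw [this]; simp
  · simp only [trg, m0, chw, chb, if_true]
    have := Chebyshev.U_real_cos φ (k : ℤ)
    simp only [Int.cast_natCast] at this
    rw [mul_comm (Real.sin φ), this]
    push_cast
    congr 1; ring

theorem integral_cos_int {k : ℤ} (hk : k ≠ 0) : ∫ φ in Ioo (0 : ℝ) π, Real.cos (k * φ) = 0 := by
  have hk' : (k : ℝ) ≠ 0 := by exact_mod_cast hk
  rw [← integral_Ioc_eq_integral_Ioo, ← intervalIntegral.integral_of_le Real.pi_pos.le,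
    intervalIntegral.integral_comp_mul_left (fun x => Real.cos x) hk', integral_cos]
  simp [Real.sin_int_mul_pi]

theorem integrableOn_cont {f : ℝ → ℝ} (hf : Continuous f) (a b : ℝ) :
    IntegrableOn f (Ioo a b) :=
  (hf.continuousOn.integrableOn_Icc (a := a) (b := b)).mono_set Ioo_subset_Icc_self

theorem integral_trg_mul {par : Bool} {m n : ℕ} :
    ∫ φ in Ioo (0 : ℝ) π, trg par m φ * trg par n φ =
      (∫ φ in Ioo (0 : ℝ) π, Real.cos (((m : ℤ) - n : ℤ) * φ)) / 2 +
      (if par then -1 else 1) * ((∫ φ in Ioo (0 : ℝ) π, Real.cos (((m : ℤ) + n : ℤ) * φ)) / 2) := by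
  have i1 : IntegrableOn (fun φ : ℝ => Real.cos (((m : ℤ) - n : ℤ) * φ)) (Ioo 0 π) :=
    integrableOn_cont (by fun_prop) _ _
  have i2 : IntegrableOn (fun φ : ℝ => Real.cos (((m : ℤ) + n : ℤ) * φ)) (Ioo 0 π) :=
    integrableOn_cont (by fun_prop) _ _
  have e : ∀ φ : ℝ, trg par m φ * trg par n φ =
      Real.cos (((m : ℤ) - n : ℤ) * φ) / 2 +
      (if par then -1 else 1) * (Real.cos (((m : ℤ) + n : ℤ) * φ) / 2) := by
    intro φ
    push_cast
    rw [sub_mul, add_mul, Real.cos_sub, Real.cos_add]
    cases par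
    · simp only [trg]; norm_num; ring
    · simp only [trg]; norm_num; ring
  simp_rw [e]
  rw [integral_add (i1.div_const 2) ((i2.div_const 2).const_mul _), integral_div,
    integral_const_mul, integral_div]

/-- `∫₀^π trg²` -/
noncomputable def ntrg (m : ℕ) : ℝ := if m = 0 then π else π / 2

theorem ntrg_pos (m : ℕ) : 0 < ntrg m := by
  unfold ntrg
  have := Real.pi_pos
  split_ifs <;> positivity

theorem integral_one_pi : ∫ _ in Ioo (0 : ℝ) π, (1 : ℝ) = π := by
  rw [integral_const]
  simp [Real.pi_pos.le]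

theorem integral_trg_sq {par : Bool} {m : ℕ} (hm : m0 par ≤ m) :
    ∫ φ in Ioo (0 : ℝ) π, trg par m φ ^ 2 = ntrg m := by
  have e : ∀ φ, trg par m φ ^ 2 = trg par m φ * trg par m φ := fun φ => by ring
  simp_rw [e]
  rw [integral_trg_mul]
  have h0 : ∫ φ in Ioo (0 : ℝ) π, Real.cos (((m : ℤ) - m : ℤ) * φ) = π := by
    simp only [sub_self, Int.cast_zero, zero_mul, Real.cos_zero]
    exact integral_one_pi
  rw [h0]
  by_cases hm0 : m = 0
  · subst hm0
    cases par
    · simp only [Nat.cast_zero, add_zero, Int.cast_zero, zero_mul, Real.cos_zero]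
      rw [integral_one_pi]
      simp [ntrg]
    · simp [m0] at hm
  · rw [integral_cos_int (by omega)]
    simp [ntrg, hm0]

theorem integral_trg_orth {par : Bool} {m n : ℕ} (hmn : m ≠ n) :
    ∫ φ in Ioo (0 : ℝ) π, trg par m φ * trg par n φ = 0 := by
  rw [integral_trg_mul, integral_cos_int (by omega), integral_cos_int (by omega)]
  simp

theorem chw_pos {par : Bool} {φ : ℝ} (hφ : φ ∈ Ioo (0 : ℝ) π) : 0 < chw par φ := by
  cases par
  · simp [chw]
  · exact Real.sin_pos_of_pos_of_lt_pi hφ.1 hφ.2

/-- **Parseval for the cosine / sine basis of `L²(0,π)`** -/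
theorem parseval_trg (par : Bool) {u v : ℝ → ℝ}
    (hu : MemLp u 2 (volume.restrict (Ioo (0 : ℝ) π)))
    (hv : MemLp v 2 (volume.restrict (Ioo (0 : ℝ) π))) :
    HasSum (fun k : ℕ => (∫ φ in Ioo (0 : ℝ) π, u φ * trg par (m0 par + k) φ) *
        (∫ φ in Ioo (0 : ℝ) π, v φ * trg par (m0 par + k) φ) / ntrg (m0 par + k))
      (∫ φ in Ioo (0 : ℝ) π, u φ * v φ) := by
  have h := parseval_system (a := 0) (b := π) (om := chw par) (s := Real.cos) (σ := Real.arccos)
    Real.continuous_cos Real.continuous_arccos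
    (fun x hx => Real.arccos_cos hx.1.le hx.2.le)
    (by
      cases par
      · exact aestronglyMeasurable_const
      · exact Real.continuous_sin.aestronglyMeasurable)
    (C := 1)
    (by
      intro x _
      cases par
      · simp [chw]
      · exact Real.abs_sin_le_one x)
    (fun x hx => (chw_pos hx).ne')
    (p := chb par) (chb_degree par) (F := fun k => trg par (m0 par + k))
    (fun k x _ => trg_eq_chb par k x)
    (fun k => by
      rw [integral_trg_sq (Nat.le_add_right _ _)]; exact ntrg_pos _)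
    (fun i j hij => integral_trg_orth (by omega))
    hu hv
  have e : ∀ k, ∫ φ in Ioo (0 : ℝ) π, trg par (m0 par + k) φ ^ 2 = ntrg (m0 par + k) :=
    fun k => integral_trg_sq (Nat.le_add_right _ _)
  simp_rw [e] at h
  exact h

end Crest.Agent.R202.Fou
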