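import Mathlib
import Crest.Agent.R202.SecQB

/-! # Row 202, B4a (helper862): sector bases, completeness -/

set_option autoImplicit false

open MvPolynomial MeasureTheory MeasureTheory.Measure Set Metric
open Crest.Agent.R202.Geo

namespace Crest.Agent.R202.Sph

variable {m n : ℕ}

/-! ### linearity of `ip` -/

theorem ip_comm (p h : MvPolynomial (Fin n) ℝ) : ip p h = ip h p := by
  unfold ip; rw [mul_comm]

theorem ip_add_right (p h h' : MvPolynomial (Fin n) ℝ) : ip p (h + h') = ip p h + ip p h' := by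
  unfold ip; rw [mul_add, sph_add]

theorem ip_smul_right (p h : MvPolynomial (Fin n) ℝ) (c : ℝ) : ip p (c • h) = c * ip p h := by
  unfold ip; rw [mul_smul_comm, sph_smul]

/-- `ip p` as a linear map -/
noncomputable def ipL (p : MvPolynomial (Fin n) ℝ) : MvPolynomial (Fin n) ℝ →ₗ[ℝ] ℝ where
  toFun h := ip p h
  map_add' := ip_add_right p
  map_smul' c h := ip_smul_right p h c

@[simp] theorem ipL_apply (p h : MvPolynomial (Fin n) ℝ) : ipL p h = ip p h := rfl

theorem ip_R2 (p g : MvPolynomial (Fin n) ℝ) : ip p (R2 n * g) = ip p g := by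
  unfold ip
  refine sph_congr fun ω hω => ?_
  rw [ev_mul, ev_mul, ev_mul, ev_R2, hω]; ring

theorem ip_R2_pow (p g : MvPolynomial (Fin n) ℝ) (j : ℕ) : ip p (R2 n ^ j * g) = ip p g := by
  induction j with
  | zero => rw [pow_zero, one_mul]
  | succ j ih => rw [pow_succ', mul_assoc, ip_R2, ih]

theorem ip_orth [NeZero n] {k k' : ℕ} (hk : k ≠ k') {p h : MvPolynomial (Fin n) ℝ}
    (hp : p ∈ harm n k) (hh : h ∈ harm n k') : ip p h = 0 := sph_orth hk hp hh

/-! ### linearity of `QB` -/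

theorem integrable_qb {B : EuclideanSpace ℝ (Fin (m + 3)) → Matrix (Fin (m + 3)) (Fin (m + 3)) ℝ}
    (hB : SecForm B) (p h : MvPolynomial (Fin (m + 3)) ℝ) :
    Integrable (fun z : sphere (0 : EuclideanSpace ℝ (Fin (m + 3))) 1 => qb B p h z)
      ((volume : Measure (EuclideanSpace ℝ (Fin (m + 3)))).toSphere) := by
  have hc : Continuous (fun z : sphere (0 : EuclideanSpace ℝ (Fin (m + 3))) 1 => qb B p h z) := by
    unfold qb
    refine continuous_finsetSum _ fun i _ => continuous_finsetSum _ fun j _ => ?_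
    exact ((continuousOn_iff_continuous_domRestrict.1 (hB.cont i j)).mul
      ((continuous_ev _).comp continuous_subtype_val)).mul
      ((continuous_ev _).comp continuous_subtype_val)
  exact hc.integrable_of_hasCompactSupport (HasCompactSupport.of_compactSpace _)

theorem qb_add_right (B : EuclideanSpace ℝ (Fin n) → Matrix (Fin n) (Fin n) ℝ)
    (p h h' : MvPolynomial (Fin n) ℝ) (z : EuclideanSpace ℝ (Fin n)) :
    qb B p (h + h') z = qb B p h z + qb B p h' z := by
  unfold qb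
  simp only [← Finset.sum_add_distrib]
  refine Finset.sum_congr rfl fun i _ => Finset.sum_congr rfl fun j _ => ?_
  rw [map_add, ev_add]; ring

theorem qb_smul_right (B : EuclideanSpace ℝ (Fin n) → Matrix (Fin n) (Fin n) ℝ)
    (p h : MvPolynomial (Fin n) ℝ) (c : ℝ) (z : EuclideanSpace ℝ (Fin n)) :
    qb B p (c • h) z = c * qb B p h z := by
  unfold qb
  simp only [Finset.mul_sum]
  refine Finset.sum_congr rfl fun i _ => Finset.sum_congr rfl fun j _ => ?_
  rw [Derivation.map_smul, ev_smul]; ring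

theorem QB_add_right {B : EuclideanSpace ℝ (Fin (m + 3)) → Matrix (Fin (m + 3)) (Fin (m + 3)) ℝ}
    (hB : SecForm B) (p h h' : MvPolynomial (Fin (m + 3)) ℝ) :
    QB B p (h + h') = QB B p h + QB B p h' := by
  unfold QB
  rw [← integral_add (integrable_qb hB p h) (integrable_qb hB p h')]
  simp only [qb_add_right]

theorem QB_smul_right (B : EuclideanSpace ℝ (Fin n) → Matrix (Fin n) (Fin n) ℝ)
    (p h : MvPolynomial (Fin n) ℝ) (c : ℝ) : QB B p (c • h) = c * QB B p h := by
  unfold QB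
  rw [← integral_const_mul]
  simp only [qb_smul_right]

theorem QB_comm {B : EuclideanSpace ℝ (Fin (m + 3)) → Matrix (Fin (m + 3)) (Fin (m + 3)) ℝ}
    (hB : SecForm B) (p h : MvPolynomial (Fin (m + 3)) ℝ) : QB B p h = QB B h p := by
  rw [QB_eq, QB_eq]
  refine sph_congr fun z hz => ?_
  unfold qb
  rw [Finset.sum_comm]
  refine Finset.sum_congr rfl fun i _ => Finset.sum_congr rfl fun j _ => ?_
  rw [hB.symm z (by rw [mem_sphere_zero_iff_norm]; exact hz) j i]
  ring

/-- `QB B p` as a linear map -/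
noncomputable def QBL {B : EuclideanSpace ℝ (Fin (m + 3)) →
    Matrix (Fin (m + 3)) (Fin (m + 3)) ℝ} (hB : SecForm B) (p : MvPolynomial (Fin (m + 3)) ℝ) :
    MvPolynomial (Fin (m + 3)) ℝ →ₗ[ℝ] ℝ where
  toFun h := QB B p h
  map_add' := QB_add_right hB p
  map_smul' c h := QB_smul_right B p h c

theorem QBL_apply {B : EuclideanSpace ℝ (Fin (m + 3)) →
    Matrix (Fin (m + 3)) (Fin (m + 3)) ℝ} (hB : SecForm B) (p h : MvPolynomial (Fin (m + 3)) ℝ) :
    QBL hB p h = QB B p h := rfl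

theorem QB_R2 {B : EuclideanSpace ℝ (Fin (m + 3)) → Matrix (Fin (m + 3)) (Fin (m + 3)) ℝ}
    (hB : SecForm B) (p g : MvPolynomial (Fin (m + 3)) ℝ) :
    QB B p (R2 (m + 3) * g) = QB B p g := by
  rw [QB_eq, QB_eq]
  refine sph_congr fun z hz => ?_
  have hzs : z ∈ sphere (0 : EuclideanSpace ℝ (Fin (m + 3))) 1 := by
    rw [mem_sphere_zero_iff_norm]; exact hz
  unfold qb
  have e1 : ∀ i j, B z i j * ev (pderiv i p) z * ev (pderiv j (R2 (m + 3) * g)) z
      = 2 * ev g z * ev (pderiv i p) z * (B z i j * z j)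
        + B z i j * ev (pderiv i p) z * ev (pderiv j g) z := by
    intro i j
    rw [pderiv_mul, pderiv_R2, ev_add, ev_mul, ev_mul, ev_mul, ev_C, ev_X, ev_R2, hz]
    ring
  simp only [e1, Finset.sum_add_distrib, ← Finset.mul_sum, hB.tang z hzs, mul_zero,
    zero_add]

theorem QB_R2_pow {B : EuclideanSpace ℝ (Fin (m + 3)) → Matrix (Fin (m + 3)) (Fin (m + 3)) ℝ}
    (hB : SecForm B) (p g : MvPolynomial (Fin (m + 3)) ℝ) (j : ℕ) :
    QB B p (R2 (m + 3) ^ j * g) = QB B p g := by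
  induction j with
  | zero => rw [pow_zero, one_mul]
  | succ j ih => rw [pow_succ', mul_assoc, QB_R2 hB, ih]

theorem QB_zero_of_homog_zero {B : EuclideanSpace ℝ (Fin (m + 3)) →
    Matrix (Fin (m + 3)) (Fin (m + 3)) ℝ} (p : MvPolynomial (Fin (m + 3)) ℝ)
    {h : MvPolynomial (Fin (m + 3)) ℝ} (hh : h.IsHomogeneous 0) : QB B p h = 0 := by
  rw [QB_eq]
  have : (qb B p h) = fun _ => 0 := by
    funext z
    unfold qb
    refine Finset.sum_eq_zero fun i _ => Finset.sum_eq_zero fun j _ => ?_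
    rw [pderiv_eq_zero_of_zero hh, ev_zero, mul_zero]
  rw [this]
  simp [sph]

/-! ### orthonormal bases of subspaces of harmonics -/

/-- the `L²(S)` inner product on a subspace of `harm D q` -/
@[instance_reducible]
noncomputable def subCore {D q : ℕ} [NeZero D] (S : Submodule ℝ (MvPolynomial (Fin D) ℝ))
    (hS : S ≤ harm D q) : InnerProductSpace.Core ℝ S where
  inner p r := ip p.1 r.1
  conj_inner_symm p r := by simp [ip, mul_comm]
  re_inner_nonneg p := by
    show 0 ≤ sph (ev (p.1 * p.1))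
    by_cases h : p.1 = 0
    · rw [h, mul_zero]; simp [sph]
    · exact (sph_sq_pos (hS p.2) h).le
  add_left p r t := by
    show ip (p.1 + r.1) t.1 = ip p.1 t.1 + ip r.1 t.1
    rw [ip_comm, ip_add_right, ip_comm t.1, ip_comm t.1]
  smul_left p r c := by
    show ip (c • p.1) r.1 = c * ip p.1 r.1
    rw [ip_comm, ip_smul_right, ip_comm]
  definite p hp := by
    by_contra hne
    have : p.1 ≠ 0 := fun h => hne (Subtype.ext h)
    exact absurd hp (sph_sq_pos (hS p.2) this).ne'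

theorem exists_onb_sub {D q : ℕ} [NeZero D] (S : Submodule ℝ (MvPolynomial (Fin D) ℝ))
    (hS : S ≤ harm D q) : ∃ (N : ℕ) (b : Fin N → MvPolynomial (Fin D) ℝ), (∀ i, b i ∈ S) ∧
      (∀ i j, ip (b i) (b j) = if i = j then 1 else 0) ∧
      ∀ h ∈ S, h = ∑ i, ip (b i) h • b i := by
  have hfin : Module.Finite ℝ S :=
    Module.Finite.of_injective (Submodule.inclusion (show S ≤
      homogeneousSubmodule (Fin D) ℝ q from fun p hp => (mem_harm.1 (hS hp)).1))
      (Submodule.inclusion_injective _)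
  let _ := (subCore S hS).toNormedAddCommGroup
  let _ : InnerProductSpace ℝ S := InnerProductSpace.ofCore (subCore S hS).toCore
  let e := stdOrthonormalBasis ℝ S
  refine ⟨_, fun i => (e i).1, fun i => (e i).2, fun i j => ?_, fun h hh => ?_⟩
  · exact (orthonormal_iff_ite.1 e.orthonormal) i j
  · have := e.sum_repr' ⟨h, hh⟩
    have h2 := congrArg Subtype.val this
    rw [Submodule.coe_sum] at h2
    exact h2.symm

/-! ### sector bases -/

theorem ip_one_const {k : ℕ} (hk : 0 < k) {p : MvPolynomial (Fin (m + 3)) ℝ}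
    (hp : p ∈ harm (m + 3) k) {h : MvPolynomial (Fin (m + 3)) ℝ} (hh : h ∈ harm (m + 3) 0) :
    ip p h = 0 := ip_orth (by omega) hp hh

/-- orthonormal bases of a sector: all degrees `1 ≤ k ≤ D` -/
theorem sector_onb {q : ℕ} {Y : MvPolynomial (Fin (m + 1)) ℝ} (hY : Y ∈ harm (m + 1) q)
    (ε : ℝ) (D : ℕ) :
    ∃ (N : ℕ) (p : Fin N → MvPolynomial (Fin (m + 3)) ℝ) (e : Fin N → ℕ),
      (∀ i, p i ∈ Sec Y ε (e i)) ∧ (∀ i, 1 ≤ q + e i ∧ q + e i ≤ D) ∧
      (∀ i, lap (m + 3) (p i) = 0) ∧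
      (∀ i j, ip (p i) (p j) = if i = j then 1 else 0) ∧
      (∀ e', 1 ≤ q + e' → q + e' ≤ D → ∀ h ∈ Sec Y ε e', lap (m + 3) h = 0 →
        h = ∑ j, ip (p j) h • p j) := by
  classical
  let H : ℕ → Submodule ℝ (MvPolynomial (Fin (m + 3)) ℝ) := fun e =>
    Sec Y ε e ⊓ LinearMap.ker (lap (m + 3))
  have hH : ∀ e, H e ≤ harm (m + 3) (q + e) := fun e p hp =>
    mem_harm.2 ⟨Sec_homog hY hp.1, hp.2⟩
  choose M b hb1 hb2 hb3 using fun e => exists_onb_sub (H e) (hH e)
  let I := {e : Fin (D + 1) // 1 ≤ q + (e : ℕ) ∧ q + (e : ℕ) ≤ D}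
  let J := Σ e : I, Fin (M e.1)
  let φ := Fintype.equivFin J
  have hmem : ∀ t : J, b t.1.1 t.2 ∈ harm (m + 3) (q + t.1.1) := fun t => hH _ (hb1 _ _)
  have horth : ∀ s t : J, ip (b s.1.1 s.2) (b t.1.1 t.2) = if s = t then 1 else 0 := by
    rintro ⟨s1, s2⟩ ⟨t1, t2⟩
    by_cases hst : s1 = t1
    · subst hst
      dsimp only
      rw [hb2]
      by_cases h2 : s2 = t2
      · subst h2; simp
      · rw [if_neg h2, if_neg]
        intro hcon
        apply h2
        have := (Sigma.mk.inj_iff.1 hcon).2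
        exact eq_of_heq this
    · rw [if_neg (fun hcon => hst (Sigma.mk.inj_iff.1 hcon).1)]
      refine ip_orth (fun hcon => hst ?_) (hmem ⟨s1, s2⟩) (hmem ⟨t1, t2⟩)
      apply Subtype.ext
      apply Fin.ext
      dsimp only at hcon
      omega
  refine ⟨Fintype.card J, fun i => b (φ.symm i).1.1 (φ.symm i).2, fun i => (φ.symm i).1.1,
    fun i => (hb1 _ _).1, fun i => (φ.symm i).1.2, fun i => (hb1 _ _).2, fun i j => ?_, ?_⟩
  · rw [horth]
    simp
  · intro e' h1 h2 h hh hl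
    have hhH : h ∈ H e' := ⟨hh, hl⟩
    have hlt : e' < D + 1 := by omega
    let e0 : I := ⟨⟨e', hlt⟩, h1, h2⟩
    have hs : ∑ j, ip (b (φ.symm j).1.1 (φ.symm j).2) h • b (φ.symm j).1.1 (φ.symm j).2
        = ∑ t : J, ip (b t.1.1 t.2) h • b t.1.1 t.2 :=
      Equiv.sum_comp φ.symm (fun t : J => ip (b t.1.1 t.2) h • b t.1.1 t.2)
    rw [hs, Fintype.sum_sigma, Finset.sum_eq_single e0]
    · exact hb3 e' h hhH
    · intro e1 _ hne
      refine Finset.sum_eq_zero fun i _ => ?_
      have : ip (b e1.1 i) h = 0 := by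
        refine ip_orth (fun hcon => hne ?_) (hmem ⟨e1, i⟩) (hH _ hhH)
        apply Subtype.ext
        apply Fin.ext
        show (e1.1 : ℕ) = e'
        dsimp only at hcon
        omega
      dsimp only
      rw [this, zero_smul]
    · intro hcon
      exact absurd (Finset.mem_univ _) hcon

theorem wh_zero {V : MvPolynomial (Fin 3) ℝ} (hV : V.IsWeightedHomogeneous w3 0) :
    V = C (coeff 0 V) := by
  ext d
  rw [coeff_C]
  by_cases hd : (0 : Fin 3 →₀ ℕ) = d
  · rw [if_pos hd, hd]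
  · rw [if_neg hd]
    by_contra hne
    apply hd
    have h1 := hV hne
    rw [Finsupp.weight_apply, Finsupp.sum_fintype _ _ (by simp)] at h1
    ext i
    have h2 : d i • w3 i ≤ 0 := by
      rw [← h1]
      exact Finset.single_le_sum (f := fun j => d j • w3 j) (fun _ _ => Nat.zero_le _)
        (Finset.mem_univ i)
    have h3 : 0 < w3 i := by fin_cases i <;> decide
    have h4 : d i * w3 i = 0 := Nat.le_zero.1 h2
    rcases Nat.mul_eq_zero.1 h4 with h | h
    · exact h.symm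
    · omega

theorem Sec_neg_zero {Y : MvPolynomial (Fin (m + 1)) ℝ} {h : MvPolynomial (Fin (m + 3)) ℝ}
    (hh : h ∈ Sec Y (-1) 0) : h = 0 := by
  obtain ⟨V, h1, h2, rfl⟩ := hh
  have h3 := wh_zero h1
  rw [h3, refl3_C, ← C_mul] at h2
  have h4 := C_injective _ _ h2
  have h5 : coeff 0 V = 0 := by linarith
  rw [h3, h5, C_0, map_zero, mul_zero]

/-- reduction of a sector polynomial modulo `R2 - 1`, tested by linear functionals -/
theorem sector_expand {q : ℕ} {Y : MvPolynomial (Fin (m + 1)) ℝ} (hY : Y ∈ harm (m + 1) q)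
    {ε : ℝ} {D N : ℕ} {p : Fin N → MvPolynomial (Fin (m + 3)) ℝ} {e : Fin N → ℕ}
    (hp : ∀ i, p i ∈ Sec Y ε (e i)) (he : ∀ i, 1 ≤ q + e i) (hl : ∀ i, lap (m + 3) (p i) = 0)
    (hc : ∀ e', 1 ≤ q + e' → q + e' ≤ D → ∀ h ∈ Sec Y ε e', lap (m + 3) h = 0 →
        h = ∑ j, ip (p j) h • p j)
    {e' : ℕ} (he' : q + e' ≤ D) {h : MvPolynomial (Fin (m + 3)) ℝ} (hh : h ∈ Sec Y ε e') :
    ∃ c0 : MvPolynomial (Fin (m + 3)) ℝ, c0.IsHomogeneous 0 ∧ ((0 < q ∨ ε = -1) → c0 = 0) ∧
      ∀ L : MvPolynomial (Fin (m + 3)) ℝ →ₗ[ℝ] ℝ, (∀ g, L (R2 (m + 3) * g) = L g) →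
        L h = ∑ j, ip (p j) h * L (p j) + L c0 := by
  classical
  obtain ⟨g, hg, hsum⟩ := Sec_fischer hY ε e' hh
  have hgm : ∀ j ∈ Finset.range (e' / 2 + 1), g j ∈ Sec Y ε (e' - 2 * j) ∧
      lap (m + 3) (g j) = 0 := fun j hj => hg j (by have := Finset.mem_range.1 hj; omega)
  have hpow : ∀ L : MvPolynomial (Fin (m + 3)) ℝ →ₗ[ℝ] ℝ, (∀ g, L (R2 (m + 3) * g) = L g) →
      ∀ j f, L (R2 (m + 3) ^ j * f) = L f := by
    intro L hL j f
    induction j with
    | zero => rw [pow_zero, one_mul]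
    | succ j ih => rw [pow_succ', mul_assoc, hL, ih]
  refine ⟨∑ j ∈ Finset.range (e' / 2 + 1), if q + (e' - 2 * j) = 0 then g j else 0, ?_, ?_, ?_⟩
  · refine IsHomogeneous.sum _ _ _ fun j hj => ?_
    split_ifs with h0
    · have := Sec_homog hY (hgm j hj).1
      rwa [h0] at this
    · exact isHomogeneous_zero _ _ _
  · intro hor
    refine Finset.sum_eq_zero fun j hj => ?_
    split_ifs with h0
    · rcases hor with h1 | h1
      · omega
      · have h2 := (hgm j hj).1
        rw [show e' - 2 * j = 0 by omega, h1] at h2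
        exact Sec_neg_zero h2
    · rfl
  · intro L hL
    have e1 : L h = ∑ j ∈ Finset.range (e' / 2 + 1), L (g j) := by
      rw [hsum, _root_.map_sum]
      exact Finset.sum_congr rfl fun j _ => hpow L hL j _
    have e2 : ∀ i, ip (p i) h = ∑ j ∈ Finset.range (e' / 2 + 1), ip (p i) (g j) := by
      intro i
      have : ip (p i) h = ipL (p i) h := rfl
      rw [this, hsum, _root_.map_sum]
      exact Finset.sum_congr rfl fun j _ => by rw [ipL_apply, ip_R2_pow]
    have e3 : ∀ j ∈ Finset.range (e' / 2 + 1), L (g j) = ∑ i, ip (p i) (g j) * L (p i)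
        + L (if q + (e' - 2 * j) = 0 then g j else 0) := by
      intro j hj
      obtain ⟨h1, h2⟩ := hgm j hj
      split_ifs with h0
      · have h3 : ∀ i, ip (p i) (g j) = 0 := fun i => by
          refine ip_orth (k := q + e i) (k' := q + (e' - 2 * j)) (by have := he i; omega)
            (mem_harm.2 ⟨Sec_homog hY (hp i), hl i⟩) (mem_harm.2 ⟨Sec_homog hY h1, h2⟩)
        simp [h3]
      · rw [map_zero, add_zero]
        have h3 := hc (e' - 2 * j) (by omega) (by omega) (g j) h1 h2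
        calc L (g j) = L (∑ i, ip (p i) (g j) • p i) := by rw [← h3]
          _ = _ := by rw [_root_.map_sum]; exact Finset.sum_congr rfl fun i _ => by
                        rw [map_smul, smul_eq_mul]
    rw [e1, Finset.sum_congr rfl e3, Finset.sum_add_distrib, _root_.map_sum, Finset.sum_comm]
    congr 1
    refine Finset.sum_congr rfl fun i _ => ?_
    rw [e2 i, Finset.sum_mul]

/-- **Block diagonality / completeness**: pairing of a sector basis element with an arbitrary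
polynomial of degree `≤ D`. -/
theorem sector_complete {q : ℕ} {Y : MvPolynomial (Fin (m + 1)) ℝ} (hY : Y ∈ harm (m + 1) q)
    (hY1 : sph (ev (Y * Y)) = 1)
    {ε : ℝ} (hε : ε = 1 ∨ ε = -1) {D N : ℕ} {p : Fin N → MvPolynomial (Fin (m + 3)) ℝ}
    {e : Fin N → ℕ}
    (hp : ∀ i, p i ∈ Sec Y ε (e i)) (he : ∀ i, 1 ≤ q + e i) (hl : ∀ i, lap (m + 3) (p i) = 0)
    (hc : ∀ e', 1 ≤ q + e' → q + e' ≤ D → ∀ h ∈ Sec Y ε e', lap (m + 3) h = 0 →
        h = ∑ j, ip (p j) h • p j)
    {B : EuclideanSpace ℝ (Fin (m + 3)) → Matrix (Fin (m + 3)) (Fin (m + 3)) ℝ}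
    (hB : SecForm B) (i : Fin N) (h : MvPolynomial (Fin (m + 3)) ℝ) (hD : h.totalDegree ≤ D) :
    QB B (p i) h = ∑ j, ip (p j) h * QB B (p i) (p j) := by
  let Φ : MvPolynomial (Fin (m + 3)) ℝ →ₗ[ℝ] ℝ :=
    QBL hB (p i) - ∑ j, (QB B (p i) (p j)) • ipL (p j)
  have hΦ : ∀ h, Φ h = QB B (p i) h - ∑ j, ip (p j) h * QB B (p i) (p j) := by
    intro h
    show QBL hB (p i) h - (∑ j, (QB B (p i) (p j)) • ipL (p j)) h = _
    rw [QBL_apply, LinearMap.sum_apply]
    congr 1
    refine Finset.sum_congr rfl fun j _ => ?_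
    rw [LinearMap.smul_apply, ipL_apply, smul_eq_mul, mul_comm]
  suffices hs : Φ h = 0 by
    rw [hΦ] at hs; linarith
  have hgen : ∀ k ≤ D, ∀ g ∈ Gens m k, Φ g = 0 := by
    intro k hk g hg
    obtain ⟨q', e', Y', ε', hke, hY', hε', hgS⟩ := hg
    obtain ⟨V', hV'1, hV'2, rfl⟩ := hgS
    -- orthogonal sectors
    have horth : ∀ Z ∈ harm (m + 1) q', sph (ev (Y * Z)) = 0 → Φ (yI m Z * vI m V') = 0 := by
      intro Z hZ hz
      rw [hΦ]
      obtain ⟨Vi, -, -, hVi⟩ := hp i
      rw [hVi, QB_zero_of_orth hB hY hZ hz Vi V']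
      rw [zero_sub, neg_eq_zero]
      refine Finset.sum_eq_zero fun j _ => ?_
      obtain ⟨Vj, -, -, hVj⟩ := hp j
      rw [hVj, ip_zero_of_orth hY hZ hz Vj V', zero_mul]
    by_cases hqq : q = q'
    · subst hqq
      set c := sph (ev (Y * Y')) with hc'
      have hsplit : yI m Y' * vI m V' = yI m (Y' - c • Y) * vI m V'
          + c • (yI m Y * vI m V') := by
        rw [map_sub, map_smul, sub_mul, smul_mul_assoc]
        abel
      have hZ : Y' - c • Y ∈ harm (m + 1) q := Submodule.sub_mem _ hY' (Submodule.smul_mem _ _ hY)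
      have hz : sph (ev (Y * (Y' - c • Y))) = 0 := by
        have e1 : Y * (Y' - c • Y) = Y * Y' + (-c) • (Y * Y) := by
          rw [mul_sub, neg_smul, mul_smul_comm, sub_eq_add_neg]
        rw [e1, sph_add, sph_smul, hY1, ← hc']
        ring
      rw [hsplit, map_add, map_smul, horth _ hZ hz, zero_add]
      rw [smul_eq_mul]
      refine mul_eq_zero_of_right _ ?_
      -- same `Y`
      by_cases hee : ε = ε'
      · subst hee
        have hgS : yI m Y * vI m V' ∈ Sec Y ε e' := ⟨V', hV'1, hV'2, rfl⟩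
        obtain ⟨c0, hc0, -, hL⟩ := sector_expand hY hp he hl hc (D := D) (e' := e')
          (by omega) hgS
        have h1 := hL (QBL hB (p i)) (fun g => QB_R2 hB (p i) g)
        rw [QBL_apply, QBL_apply, QB_zero_of_homog_zero (p i) hc0, add_zero] at h1
        rw [hΦ, h1, sub_eq_zero]
        rfl
      · have hprod : ε * ε' = -1 := by
          rcases hε with rfl | rfl <;> rcases hε' with rfl | rfl
          · exact absurd rfl hee
          · norm_num
          · norm_num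
          · exact absurd rfl hee
        rw [hΦ]
        obtain ⟨Vi, -, hVi2, hVi⟩ := hp i
        rw [hVi, QB_zero_of_parity hB hY hY hprod hVi2 hV'2]
        rw [zero_sub, neg_eq_zero]
        refine Finset.sum_eq_zero fun j _ => ?_
        obtain ⟨Vj, -, hVj2, hVj⟩ := hp j
        rw [hVj, ip_zero_of_parity hprod hVj2 hV'2, zero_mul]
    · exact horth Y' hY' (sph_orth hqq hY hY')
  rw [← sum_homogeneousComponent h, _root_.map_sum]
  refine Finset.sum_eq_zero fun k hk => ?_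
  have hk' : k ≤ D := by
    have := Finset.mem_range.1 hk
    omega
  have h1 : homogeneousComponent k h ∈ Submodule.span ℝ (Gens m k) :=
    homog_mem_span k (homogeneousComponent_isHomogeneous k h)
  have h2 : Submodule.span ℝ (Gens m k) ≤ LinearMap.ker Φ :=
    Submodule.span_le.2 fun g hg => LinearMap.mem_ker.2 (hgen k hk' g hg)
  exact LinearMap.mem_ker.1 (h2 h1)

/-- **Sector bases.** For a sector `(Y, ε)` (`Y` a normalised harmonic polynomial in the `m + 1`
variables `y`, `ε = ±1` the parity in `x1`) and a degree bound `D`, the harmonic polynomials of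
degrees `1 ≤ k ≤ D` in the sector have an `L²(S)`-orthonormal basis `p`; every invariant tangential
form `B` is block diagonal: the pairing of `p i` with an arbitrary polynomial of degree `≤ D` only
sees its components on the `p j`. -/
theorem sector_basis {q : ℕ} {Y : MvPolynomial (Fin (m + 1)) ℝ} (hY : Y ∈ harm (m + 1) q)
    (hY1 : sph (ev (Y * Y)) = 1) {ε : ℝ} (hε : ε = 1 ∨ ε = -1) (D : ℕ) :
    ∃ (N : ℕ) (p : Fin N → MvPolynomial (Fin (m + 3)) ℝ) (e : Fin N → ℕ)
      (V : Fin N → MvPolynomial (Fin 3) ℝ),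
      (∀ i, p i = yI m Y * vI m (V i)) ∧
      (∀ i, (V i).IsWeightedHomogeneous w3 (e i)) ∧
      (∀ i, refl3 (V i) = C ε * V i) ∧
      (∀ i, 1 ≤ q + e i ∧ q + e i ≤ D) ∧
      (∀ i, (p i).IsHomogeneous (q + e i)) ∧
      (∀ i, lap (m + 3) (p i) = 0) ∧
      (∀ i j, ip (p i) (p j) = if i = j then 1 else 0) ∧
      (∀ B : EuclideanSpace ℝ (Fin (m + 3)) → Matrix (Fin (m + 3)) (Fin (m + 3)) ℝ, SecForm B →
        ∀ i, ∀ h : MvPolynomial (Fin (m + 3)) ℝ, h.totalDegree ≤ D →
          QB B (p i) h = ∑ j, ip (p j) h * QB B (p i) (p j)) ∧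
      (∀ e', q + e' ≤ D → ∀ V' : MvPolynomial (Fin 3) ℝ, V'.IsWeightedHomogeneous w3 e' →
        refl3 V' = C ε * V' → ∃ c0 : ℝ, (0 < q ∨ ε = -1 → c0 = 0) ∧
        ∀ z : EuclideanSpace ℝ (Fin (m + 3)), ‖z‖ = 1 →
          ev (yI m Y * vI m V') z = ∑ j, ip (p j) (yI m Y * vI m V') * ev (p j) z + c0) := by
  obtain ⟨N, p, e, hp, he, hl, ho, hc⟩ := sector_onb hY ε D
  choose V hV1 hV2 hV3 using hp
  have hp : ∀ i, p i ∈ Sec Y ε (e i) := fun i => ⟨V i, hV1 i, hV2 i, hV3 i⟩
  refine ⟨N, p, e, V, hV3, hV1, hV2, he, fun i => Sec_homog hY (hp i), hl, ho,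
    fun B hB i h hh => sector_complete hY hY1 hε hp (fun i => (he i).1) hl hc hB i h hh, ?_⟩
  intro e' he' V' hV'1 hV'2
  have hgS : yI m Y * vI m V' ∈ Sec Y ε e' := ⟨V', hV'1, hV'2, rfl⟩
  obtain ⟨c0, hc0, hc1, hL⟩ := sector_expand hY hp (fun i => (he i).1) hl hc (D := D) (e' := e')
    he' hgS
  have hC : c0 = C (coeff 0 c0) :=
    totalDegree_eq_zero_iff_eq_C.1 ((totalDegree_zero_iff_isHomogeneous _).2 hc0)
  refine ⟨coeff 0 c0, fun h => by rw [hc1 h, coeff_zero], fun z hz => ?_⟩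
  let L : MvPolynomial (Fin (m + 3)) ℝ →ₗ[ℝ] ℝ :=
    { toFun := fun g => ev g z
      map_add' := fun a b => ev_add a b z
      map_smul' := fun c a => ev_smul c a z }
  have h1 := hL L (fun g => by
    show ev (R2 (m + 3) * g) z = ev g z
    rw [ev_mul, ev_R2, hz]; ring)
  have h2 : ev (yI m Y * vI m V') z = ∑ j, ip (p j) (yI m Y * vI m V') * ev (p j) z + ev c0 z := h1
  rw [h2]
  congr 1
  conv_lhs => rw [hC]
  exact ev_C _ _

end Crest.Agent.R202.Sph
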