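import Mathlib
import Crest.Agent.R202.SecBasis

/-! # Row 202, B4a (helper862): sector bases uniform in the harmonic `Y` -/

set_option autoImplicit false

open MvPolynomial MeasureTheory MeasureTheory.Measure Set Metric
open Crest.Agent.R202.Geo

namespace Crest.Agent.R202.Sph

variable {m n : ℕ}

/-! ### independence of the normalised harmonic -/

theorem ip_add_left (p p' h : MvPolynomial (Fin n) ℝ) : ip (p + p') h = ip p h + ip p' h := by
  rw [ip_comm, ip_add_right, ip_comm h, ip_comm h]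

theorem ip_smul_left (p h : MvPolynomial (Fin n) ℝ) (c : ℝ) : ip (c • p) h = c * ip p h := by
  rw [ip_comm, ip_smul_right, ip_comm]

theorem orth_pm {Y Y' : MvPolynomial (Fin n) ℝ} (h : sph (ev (Y * Y)) = sph (ev (Y' * Y'))) :
    sph (ev ((Y + Y') * (Y + (-1 : ℝ) • Y'))) = 0 := by
  have e : (Y + Y') * (Y + (-1 : ℝ) • Y') = Y * Y + (-1 : ℝ) • (Y' * Y') := by
    simp only [neg_smul, one_smul]; ring
  rw [e, sph_add, sph_smul, h]
  ring

/-- general bilinear principle: a symmetric-in-swap bilinear functional vanishing on orthogonal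
pairs takes the same value on normalised harmonics -/
theorem indep_of {q : ℕ} {Y Y' : MvPolynomial (Fin (m + 1)) ℝ} (hY : Y ∈ harm (m + 1) q)
    (hY' : Y' ∈ harm (m + 1) q) (hn : sph (ev (Y * Y)) = sph (ev (Y' * Y')))
    (F : MvPolynomial (Fin (m + 1)) ℝ → MvPolynomial (Fin (m + 1)) ℝ → ℝ)
    (h0 : ∀ Z ∈ harm (m + 1) q, ∀ Z' ∈ harm (m + 1) q, sph (ev (Z * Z')) = 0 → F Z Z' = 0)
    (ha : ∀ Z1 Z2 Z', F (Z1 + Z2) Z' = F Z1 Z' + F Z2 Z')
    (hb : ∀ Z Z1 Z2, F Z (Z1 + Z2) = F Z Z1 + F Z Z2)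
    (hc : ∀ (c : ℝ) Z Z', F Z (c • Z') = c * F Z Z')
    (hs : F Y Y' = F Y' Y) : F Y Y = F Y' Y' := by
  have h1 := h0 (Y + Y') (Submodule.add_mem _ hY hY') (Y + (-1 : ℝ) • Y')
    (Submodule.add_mem _ hY (Submodule.smul_mem _ _ hY')) (orth_pm hn)
  rw [ha, hb, hb, hc, hc, hs] at h1
  linarith

theorem ip_indep {q : ℕ} {Y Y' : MvPolynomial (Fin (m + 1)) ℝ} (hY : Y ∈ harm (m + 1) q)
    (hY' : Y' ∈ harm (m + 1) q) (hn : sph (ev (Y * Y)) = sph (ev (Y' * Y')))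
    (V V' : MvPolynomial (Fin 3) ℝ) :
    ip (yI m Y * vI m V) (yI m Y * vI m V') = ip (yI m Y' * vI m V) (yI m Y' * vI m V') := by
  refine indep_of hY hY' hn (fun Z Z' => ip (yI m Z * vI m V) (yI m Z' * vI m V')) ?_ ?_ ?_ ?_ ?_
  · intro Z hZ Z' hZ' h0
    exact ip_zero_of_orth hZ hZ' h0 V V'
  · intro Z1 Z2 Z'
    rw [map_add, add_mul, ip_add_left]
  · intro Z Z1 Z2
    rw [map_add, add_mul, ip_add_right]
  · intro c Z Z'
    rw [map_smul, smul_mul_assoc, ip_smul_right]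
  · show ip (yI m Y * vI m V) (yI m Y' * vI m V') = ip (yI m Y' * vI m V) (yI m Y * vI m V')
    unfold ip
    congr 2
    ring

theorem QB_swap {B : EuclideanSpace ℝ (Fin (m + 3)) → Matrix (Fin (m + 3)) (Fin (m + 3)) ℝ}
    (hB : SecForm B) {q : ℕ} {Y Y' : MvPolynomial (Fin (m + 1)) ℝ} (hY : Y.IsHomogeneous q)
    (hY' : Y'.IsHomogeneous q) (V V' : MvPolynomial (Fin 3) ℝ) :
    QB B (yI m Y * vI m V) (yI m Y' * vI m V') = QB B (yI m Y' * vI m V) (yI m Y * vI m V') := by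
  obtain ⟨c1, c2, c3, -, -, -, hrep⟩ := hB.repr
  rw [← sub_eq_zero]
  unfold QB
  rw [← integral_sub (integrable_qb hB _ _) (integrable_qb hB _ _)]
  refine sph_zero_of_slices (fun z => qb B (yI m Y * vI m V) (yI m Y' * vI m V') z
    - qb B (yI m Y' * vI m V) (yI m Y * vI m V') z) fun a b s ha hs hsum => ?_
  have : sph (fun _ : EuclideanSpace ℝ (Fin (m + 1)) => (0 : ℝ)) = 0 := by simp [sph]
  rw [← this]
  refine sph_congr fun ω hω => ?_
  have hn : ‖s • ω‖ = s := by rw [norm_smul, Real.norm_eq_abs, abs_of_pos hs, hω, mul_one]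
  have hsig : sig (mkPt a b (s • ω)) = s := by rw [sig_mkPt, hn]
  have hz : ‖mkPt a b (s • ω)‖ = 1 := by
    have h1 := norm_sq_mkPt a b (s • ω)
    rw [hn, hsum] at h1
    have h2 := norm_nonneg (mkPt a b (s • ω))
    nlinarith
  have hzs : mkPt a b (s • ω) ∈ sphere (0 : EuclideanSpace ℝ (Fin (m + 3))) 1 := by
    rw [mem_sphere_zero_iff_norm]; exact hz
  have hsne : sig (mkPt a b (s • ω)) ≠ 0 := by rw [hsig]; exact hs.ne'
  rw [qb_formula hY hY' V V' hz hsne (hrep _ hzs (by rw [mkPt_zero]; exact ha) hsne),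
    qb_formula hY' hY V V' hz hsne (hrep _ hzs (by rw [mkPt_zero]; exact ha) hsne)]
  have e1 : Y * Y' = Y' * Y := mul_comm _ _
  have e2 : gp Y Y' = gp Y' Y := by
    unfold gp
    exact Finset.sum_congr rfl fun i _ => mul_comm _ _
  rw [e1, e2]
  unfold alp bet
  ring

theorem QB_add_left {B : EuclideanSpace ℝ (Fin (m + 3)) → Matrix (Fin (m + 3)) (Fin (m + 3)) ℝ}
    (hB : SecForm B) (p p' h : MvPolynomial (Fin (m + 3)) ℝ) :
    QB B (p + p') h = QB B p h + QB B p' h := by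
  rw [QB_comm hB, QB_add_right hB, QB_comm hB h, QB_comm hB h]

theorem QB_smul_left {B : EuclideanSpace ℝ (Fin (m + 3)) → Matrix (Fin (m + 3)) (Fin (m + 3)) ℝ}
    (hB : SecForm B) (p h : MvPolynomial (Fin (m + 3)) ℝ) (c : ℝ) :
    QB B (c • p) h = c * QB B p h := by
  rw [QB_comm hB, QB_smul_right, QB_comm hB]

/-- the sector pairing does not depend on the normalised harmonic -/
theorem QB_indep {B : EuclideanSpace ℝ (Fin (m + 3)) → Matrix (Fin (m + 3)) (Fin (m + 3)) ℝ}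
    (hB : SecForm B) {q : ℕ} {Y Y' : MvPolynomial (Fin (m + 1)) ℝ} (hY : Y ∈ harm (m + 1) q)
    (hY' : Y' ∈ harm (m + 1) q) (hn : sph (ev (Y * Y)) = sph (ev (Y' * Y')))
    (V V' : MvPolynomial (Fin 3) ℝ) :
    QB B (yI m Y * vI m V) (yI m Y * vI m V') = QB B (yI m Y' * vI m V) (yI m Y' * vI m V') := by
  refine indep_of hY hY' hn (fun Z Z' => QB B (yI m Z * vI m V) (yI m Z' * vI m V')) ?_ ?_ ?_ ?_ ?_
  · intro Z hZ Z' hZ' h0
    exact QB_zero_of_orth hB hZ hZ' h0 V V'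
  · intro Z1 Z2 Z'
    rw [map_add, add_mul, QB_add_left hB]
  · intro Z Z1 Z2
    rw [map_add, add_mul, QB_add_right hB]
  · intro c Z Z'
    rw [map_smul, smul_mul_assoc, QB_smul_right]
  · exact QB_swap hB (mem_harm.1 hY).1 (mem_harm.1 hY').1 V V'

theorem yI_ne_zero {Y : MvPolynomial (Fin (m + 1)) ℝ} (h1 : sph (ev (Y * Y)) = 1) :
    yI m Y ≠ 0 := by
  intro h
  have hinj : Function.Injective (yI m) :=
    rename_injective _ fun i j hij => Fin.succ_injective _ (Fin.succ_injective _ hij)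
  have h2 : Y = 0 := hinj (by rw [h, map_zero])
  rw [h2, mul_zero] at h1
  simp [sph] at h1

/-- **Sector bases, uniform in `Y`.** -/
theorem sector_basis_unif (m q : ℕ) {ε : ℝ} (hε : ε = 1 ∨ ε = -1) (D : ℕ) :
    ∃ (N : ℕ) (e : Fin N → ℕ) (V : Fin N → MvPolynomial (Fin 3) ℝ),
      (∀ i, (V i).IsWeightedHomogeneous w3 (e i)) ∧
      (∀ i, refl3 (V i) = C ε * V i) ∧
      (∀ i, 1 ≤ q + e i ∧ q + e i ≤ D) ∧
      ∀ Y ∈ harm (m + 1) q, sph (ev (Y * Y)) = 1 →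
      (∀ i, (yI m Y * vI m (V i)).IsHomogeneous (q + e i)) ∧
      (∀ i, lap (m + 3) (yI m Y * vI m (V i)) = 0) ∧
      (∀ i j, ip (yI m Y * vI m (V i)) (yI m Y * vI m (V j)) = if i = j then 1 else 0) ∧
      (∀ B : EuclideanSpace ℝ (Fin (m + 3)) → Matrix (Fin (m + 3)) (Fin (m + 3)) ℝ, SecForm B →
        ∀ i, ∀ h : MvPolynomial (Fin (m + 3)) ℝ, h.totalDegree ≤ D →
          QB B (yI m Y * vI m (V i)) h = ∑ j, ip (yI m Y * vI m (V j)) h *
            QB B (yI m Y * vI m (V i)) (yI m Y * vI m (V j))) ∧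
      (∀ e', q + e' ≤ D → ∀ V' : MvPolynomial (Fin 3) ℝ, V'.IsWeightedHomogeneous w3 e' →
        refl3 V' = C ε * V' → ∃ c0 : ℝ, (0 < q ∨ ε = -1 → c0 = 0) ∧
        ∀ z : EuclideanSpace ℝ (Fin (m + 3)), ‖z‖ = 1 →
          ev (yI m Y * vI m V') z = ∑ j, ip (yI m Y * vI m (V j)) (yI m Y * vI m V') *
            ev (yI m Y * vI m (V j)) z + c0) := by
  by_cases hex : ∃ Y0 ∈ harm (m + 1) q, sph (ev (Y0 * Y0)) = 1
  · obtain ⟨Y0, hY0, hY01⟩ := hex
    obtain ⟨N, p, e, hp, he, hl, ho, hc⟩ := sector_onb hY0 ε D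
    choose V hV1 hV2 hV3 using hp
    refine ⟨N, e, V, hV1, hV2, he, fun Y hY hY1 => ?_⟩
    have hne0 := yI_ne_zero hY01
    have hne := yI_ne_zero hY1
    have hpY : ∀ i, yI m Y * vI m (V i) ∈ Sec Y ε (e i) := fun i => ⟨V i, hV1 i, hV2 i, rfl⟩
    have hlY : ∀ i, lap (m + 3) (yI m Y * vI m (V i)) = 0 := by
      intro i
      have h1 := hl i
      rw [hV3, lap_sector hY0] at h1
      rw [lap_sector hY, (mul_eq_zero.1 h1).resolve_left hne0, mul_zero]
    have hoY : ∀ i j, ip (yI m Y * vI m (V i)) (yI m Y * vI m (V j)) = if i = j then 1 else 0 := by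
      intro i j
      rw [ip_indep hY hY0 (by rw [hY1, hY01]), ← hV3, ← hV3, ho]
    have hcY : ∀ e', 1 ≤ q + e' → q + e' ≤ D → ∀ h ∈ Sec Y ε e', lap (m + 3) h = 0 →
        h = ∑ j, ip (yI m Y * vI m (V j)) h • (yI m Y * vI m (V j)) := by
      rintro e' h1 h2 _ ⟨V', hV'1, hV'2, rfl⟩ hlap
      rw [lap_sector hY] at hlap
      have hlap0 : lap (m + 3) (yI m Y0 * vI m V') = 0 := by
        rw [lap_sector hY0, (mul_eq_zero.1 hlap).resolve_left hne, mul_zero]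
      have h3 := hc e' h1 h2 _ ⟨V', hV'1, hV'2, rfl⟩ hlap0
      have h4 : yI m Y0 * (vI m V' - ∑ j, ip (p j) (yI m Y0 * vI m V') • vI m (V j)) = 0 := by
        rw [mul_sub, Finset.mul_sum, sub_eq_zero]
        conv_lhs => rw [h3]
        refine Finset.sum_congr rfl fun j _ => ?_
        rw [mul_smul_comm, ← hV3]
      have h5 := sub_eq_zero.1 ((mul_eq_zero.1 h4).resolve_left hne0)
      conv_lhs => rw [h5]
      rw [Finset.mul_sum]
      refine Finset.sum_congr rfl fun j _ => ?_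
      rw [mul_smul_comm, hV3, ip_indep hY hY0 (by rw [hY1, hY01])]
    refine ⟨fun i => Sec_homog hY (hpY i), hlY, hoY, fun B hB i h hh =>
      sector_complete hY hY1 hε hpY (fun i => (he i).1) hlY hcY hB i h hh, ?_⟩
    intro e' he' V' hV'1 hV'2
    have hgS : yI m Y * vI m V' ∈ Sec Y ε e' := ⟨V', hV'1, hV'2, rfl⟩
    obtain ⟨c0, hc0, hc1, hL⟩ := sector_expand hY hpY (fun i => (he i).1) hlY hcY (D := D)
      (e' := e') he' hgS
    have hC : c0 = C (coeff 0 c0) :=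
      totalDegree_eq_zero_iff_eq_C.1 ((totalDegree_zero_iff_isHomogeneous _).2 hc0)
    refine ⟨coeff 0 c0, fun h => by rw [hc1 h, coeff_zero], fun z hz => ?_⟩
    let L : MvPolynomial (Fin (m + 3)) ℝ →ₗ[ℝ] ℝ :=
      { toFun := fun g => ev g z
        map_add' := fun a b => ev_add a b z
        map_smul' := fun c a => ev_smul c a z }
    have h1 := hL L (fun g => by
      show ev (R2 (m + 3) * g) z = ev g z
      rw [ev_mul, ev_R2, hz]; ring)
    have h2 : ev (yI m Y * vI m V') z = ∑ j, ip (yI m Y * vI m (V j)) (yI m Y * vI m V') *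
      ev (yI m Y * vI m (V j)) z + ev c0 z := h1
    rw [h2]
    congr 1
    conv_lhs => rw [hC]
    exact ev_C _ _
  · refine ⟨0, Fin.elim0, Fin.elim0, fun i => i.elim0, fun i => i.elim0, fun i => i.elim0,
      fun Y hY hY1 => ?_⟩
    exact absurd ⟨Y, hY, hY1⟩ hex

end Crest.Agent.R202.Sph
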