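import Mathlib
import Crest.Agent.R202.WgtSep

/-! # Row 202, part B4b (helper728): completeness of the model elements in the reduced sector and
the transfer of separating frames. -/

set_option autoImplicit false
set_option linter.unusedSectionVars false
set_option linter.deprecated false

open MeasureTheory Filter Topology Set Metric MvPolynomial
open scoped InnerProductSpace ContDiff

namespace Crest.Agent.R202.Wgt

open Crest.Agent.R202.Geo Crest.Agent.R202.Sph Crest.Agent.R202.Sch Crest.Agent.R202.Mod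
open Crest.Agent.R202.CT

noncomputable section

variable {m : ℕ}

/-- a point of the unit sphere where `Y` does not vanish -/
theorem exists_unit_ne {Y : MvPolynomial (Fin (m + 1)) ℝ} (hY1 : sph (Sph.ev (Y * Y)) = 1) :
    ∃ o : EuclideanSpace ℝ (Fin (m + 1)), ‖o‖ = 1 ∧ Sph.ev Y o ≠ 0 := by
  by_contra hcon
  have h0 : ∀ o : EuclideanSpace ℝ (Fin (m + 1)), ‖o‖ = 1 → Sph.ev Y o = 0 := by
    intro o ho
    by_contra h
    exact hcon ⟨o, ho, h⟩
  have : sph (Sph.ev (Y * Y)) = 0 := by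
    unfold sph
    rw [integral_congr_ae (g := fun _ => (0 : ℝ)) (Filter.Eventually.of_forall fun o => ?_)]
    · simp
    · dsimp only
      rw [Sph.ev_mul, h0 _ (mem_sphere_zero_iff_norm.1 o.2), zero_mul]
  linarith

/-- value of a sector polynomial in polar coordinates -/
theorem ev_polar {q : ℕ} {Y : MvPolynomial (Fin (m + 1)) ℝ} (hY : Y.IsHomogeneous q)
    (V : MvPolynomial (Fin 3) ℝ) {o : EuclideanSpace ℝ (Fin (m + 1))} (ho : ‖o‖ = 1)
    {z : ℝ × ℝ} (hz : z ∈ Mod.Om) :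
    Sph.ev (yI m Y * vI m V)
      (mkPt (rh z.1 * Real.cos z.2) (rh z.1 * Real.sin z.2) (z.1 • o)) = Sph.ev Y o * uV q V z := by
  have hn : ‖z.1 • o‖ = z.1 := by
    rw [norm_smul, ho, mul_one, Real.norm_eq_abs, abs_of_pos hz.1.1]
  rw [Sph.ev_mul, ev_yI, ev_vI', yPart_mkPt, sig_mkPt, mkPt_zero, mkPt_one, hn, ev_smul_arg hY]
  unfold evV uV
  ring

theorem norm_polar {o : EuclideanSpace ℝ (Fin (m + 1))} (ho : ‖o‖ = 1)
    {z : ℝ × ℝ} (hz : z ∈ Mod.Om) :
    ‖mkPt (rh z.1 * Real.cos z.2) (rh z.1 * Real.sin z.2) (z.1 • o)‖ = 1 := by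
  have hn : ‖z.1 • o‖ = z.1 := by
    rw [norm_smul, ho, mul_one, Real.norm_eq_abs, abs_of_pos hz.1.1]
  have h1 := norm_sq_mkPt (rh z.1 * Real.cos z.2) (rh z.1 * Real.sin z.2) (z.1 • o)
  rw [hn] at h1
  have h2 := rh_sq (sq_lt_one_of_mem hz.1)
  have h3 := Real.cos_sq_add_sin_sq z.2
  have h4 : ‖mkPt (rh z.1 * Real.cos z.2) (rh z.1 * Real.sin z.2) (z.1 • o)‖ ^ 2 = 1 := by
    rw [h1]
    linear_combination (rh z.1 ^ 2) * h3 + h2
  nlinarith [norm_nonneg (mkPt (rh z.1 * Real.cos z.2) (rh z.1 * Real.sin z.2) (z.1 • o))]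

section Complete

variable {q par D N : ℕ} {e : Fin N → ℕ} {V : Fin N → MvPolynomial (Fin 3) ℝ}
  {w : Fin N → VS q par}

theorem isMdl_one : IsMdl (1 : MvPolynomial (Fin 3) ℝ) (pol 0 0 0 0) := by
  intro z hz
  rw [ev_pol (by norm_num) 0 0 (sq_lt_one_of_mem hz.1)]
  simp [uV, trig]

/-- the constants are orthogonal to the model elements (sector `(0,0)`) -/
theorem MB.g_one {D N : ℕ} {e : Fin N → ℕ} {V : Fin N → MvPolynomial (Fin 3) ℝ}
    {w : Fin N → VS 0 0} (hb : MB m 0 0 D N e V w) (hg : T4g m)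
    {Y : MvPolynomial (Fin (m + 1)) ℝ} (hY : Y ∈ harm (m + 1) 0)
    (hY1 : sph (Sph.ev (Y * Y)) = 1) (i : Fin N) : g m 0 0 (w i) (pol 0 0 0 0) = 0 := by
  have h1 := hg 0 0 (by norm_num) Y hY hY1 (V i) 1 (hb.refl i) (by simp) (w i) (pol 0 0 0 0)
    (hb.mdl i) isMdl_one
  have hd := hb.deg i
  have h2 : ip (yI m Y * vI m (V i)) (yI m Y * vI m 1) = 0 := by
    have h0 : yI m Y * vI m 1 ∈ harm (m + 3) 0 := by
      rw [map_one, mul_one]
      have hh := yI_homog (m := m) (mem_harm.1 hY).1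
      exact mem_harm.2 ⟨hh, lap_eq_zero_of_lt (by norm_num) hh⟩
    exact ip_orth (k := 0 + e i) (k' := 0) (by omega)
      (mem_harm.2 ⟨hb.homog Y hY hY1 i, hb.lap0 Y hY hY1 i⟩) h0
  rw [h2] at h1
  linarith

/-- the constants have positive norm -/
theorem g_one_pos (hg : T4g m) {Y : MvPolynomial (Fin (m + 1)) ℝ} (hY : Y ∈ harm (m + 1) 0)
    (hY1 : sph (Sph.ev (Y * Y)) = 1) : 0 < g m 0 0 (pol 0 0 0 0) (pol 0 0 0 0) := by
  have h1 := hg 0 0 (by norm_num) Y hY hY1 1 1 (by simp) (by simp) (pol 0 0 0 0) (pol 0 0 0 0)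
    isMdl_one isMdl_one
  have h0 : yI m Y ∈ harm (m + 3) 0 := by
    have hh := yI_homog (m := m) (mem_harm.1 hY).1
    exact mem_harm.2 ⟨hh, lap_eq_zero_of_lt (by norm_num) hh⟩
  have h2 : yI m Y ≠ 0 := by
    intro h
    obtain ⟨o, -, ho2⟩ := exists_unit_ne hY1
    apply ho2
    have := ev_yI (m := m) Y (mkPt 0 0 o)
    rw [h, yPart_mkPt] at this
    rw [← this]
    simp [Sph.ev]
  have h3 := sph_sq_pos h0 h2
  rw [map_one, mul_one] at h1
  have h4 : ip (yI m Y) (yI m Y) = sph (Sph.ev (yI m Y * yI m Y)) := rfl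
  rw [h4] at h1
  linarith

theorem MB.reduced_vec (hb : MB m q par D N e V w) (hg : T4g m)
    {Y : MvPolynomial (Fin (m + 1)) ℝ} (hY : Y ∈ harm (m + 1) q)
    (hY1 : sph (Sph.ev (Y * Y)) = 1) (x : EuclideanSpace ℝ (Fin N)) :
    Reduced m (q, par) (vec w x) := by
  intro h
  obtain ⟨h1, h2⟩ := Prod.mk.inj h
  subst h1; subst h2
  show g m 0 0 (vec w x) (pol 0 0 0 0) = 0
  rw [vec_apply, map_sum, LinearMap.sum_apply]
  refine Finset.sum_eq_zero fun i _ => ?_
  rw [map_smul, LinearMap.smul_apply, hb.g_one hg hY hY1 i, smul_zero]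

/-- **completeness**: polynomials of the reduced sector of degree `≤ D` -/
theorem MB.complete (hb : MB m q par D N e V w) (hg : T4g m)
    {Y : MvPolynomial (Fin (m + 1)) ℝ} (hY : Y ∈ harm (m + 1) q)
    (hY1 : sph (Sph.ev (Y * Y)) = 1) {v : VS q par} (hv : v ∈ PolD q par D)
    (hred : Reduced m (q, par) v) : vec w (crd m w v) = v := by
  obtain ⟨W, hW1, hW2, hW3, hW4⟩ := exists_V_of_pol_graded q hb.par_le hv
  have h5 : ∀ e', ∃ u : VS q par, IsMdl (W e') u := fun e' => by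
    obtain ⟨u, -, hu⟩ := exists_pol_of_V q hb.par_le (hW1 e') (hW2 e')
    exact ⟨u, fun z hz => hu z (sq_lt_one_of_mem hz.1)⟩
  choose u hu using h5
  -- `v = Σ u e'`
  have hvu : v = ∑ e' ∈ Finset.range (D + 1), u e' := by
    refine eq_of_ev hb.par_le fun z hz => ?_
    rw [hW4 z (sq_lt_one_of_mem hz.1), Submodule.coe_sum, Mod.ev_sum]
    exact Finset.sum_congr rfl fun e' _ => (hu e' z hz).symm
  have hip : ∀ e' j, ip (yI m Y * vI m (V j)) (yI m Y * vI m (W e'))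
      = 2 * g m q par (w j) (u e') := fun e' j =>
    hg q par hb.par_le Y hY hY1 _ _ (hb.refl j) (hW2 e') _ _ (hb.mdl j) (hu e')
  -- expansion of the pieces
  have h6 : ∀ e', ∃ c0 : ℝ, (0 < q ∨ par = 1 → c0 = 0) ∧
        ∀ z : EuclideanSpace ℝ (Fin (m + 3)), ‖z‖ = 1 →
          Sph.ev (yI m Y * vI m (W e')) z = ∑ j, ip (yI m Y * vI m (V j)) (yI m Y * vI m (W e')) *
            Sph.ev (yI m Y * vI m (V j)) z + c0 := by
    intro e'
    by_cases h : q + e' ≤ D
    · exact hb.sector Y hY hY1 e' h (W e') (hW1 e') (hW2 e')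
    · refine ⟨0, fun _ => rfl, fun z _ => ?_⟩
      rw [hW3 e' (by omega)]
      simp [ip, Sph.ev, sph]
  choose c0 hc0 hc using h6
  have h7 : ∀ o : EuclideanSpace ℝ (Fin (m + 1)), ‖o‖ = 1 → ∀ z ∈ Mod.Om,
      Sph.ev Y o * (Mod.ev par (v : ℕ →₀ (ℝ → ℝ)) z
        - Mod.ev par (vec w (crd m w v) : ℕ →₀ (ℝ → ℝ)) z)
        = ∑ e' ∈ Finset.range (D + 1), c0 e' := by
    intro o ho z hz
    have hn := norm_polar ho hz
    have h8 : Sph.ev Y o * Mod.ev par (v : ℕ →₀ (ℝ → ℝ)) z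
        = ∑ e' ∈ Finset.range (D + 1), ((∑ j, (2 * g m q par (w j) (u e')) *
            (Sph.ev Y o * Mod.ev par (w j : ℕ →₀ (ℝ → ℝ)) z)) + c0 e') := by
      rw [hW4 z (sq_lt_one_of_mem hz.1), Finset.mul_sum]
      refine Finset.sum_congr rfl fun e' _ => ?_
      rw [← ev_polar (mem_harm.1 hY).1 (W e') ho hz, hc e' _ hn]
      congr 1
      refine Finset.sum_congr rfl fun j _ => ?_
      rw [hip, ev_polar (mem_harm.1 hY).1 (V j) ho hz, hb.mdl j z hz]
    have h9 : Mod.ev par (vec w (crd m w v) : ℕ →₀ (ℝ → ℝ)) z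
        = ∑ j, crd m w v j * Mod.ev par (w j : ℕ →₀ (ℝ → ℝ)) z := by
      rw [vec_apply, Submodule.coe_sum, Mod.ev_sum]
      refine Finset.sum_congr rfl fun j _ => ?_
      rw [Submodule.coe_smul, Mod.ev_smul]
    have h10 : ∀ j, crd m w v j = ∑ e' ∈ Finset.range (D + 1), 2 * g m q par (w j) (u e') := by
      intro j
      rw [crd_apply, ← Finset.mul_sum, ← map_sum, ← hvu]
    rw [mul_sub, h8, h9, Finset.sum_add_distrib, Finset.sum_comm]
    have h11 : ∀ j ∈ (Finset.univ : Finset (Fin N)),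
        ∑ e' ∈ Finset.range (D + 1), (2 * g m q par (w j) (u e')) *
            (Sph.ev Y o * Mod.ev par (w j : ℕ →₀ (ℝ → ℝ)) z)
          = Sph.ev Y o * (crd m w v j * Mod.ev par (w j : ℕ →₀ (ℝ → ℝ)) z) := by
      intro j _
      rw [← Finset.sum_mul, ← h10 j]; ring
    rw [Finset.sum_congr rfl h11, Finset.mul_sum]
    ring
  obtain ⟨o, ho1, ho2⟩ := exists_unit_ne hY1
  by_cases hqp : 0 < q ∨ par = 1
  · refine (eq_of_ev hb.par_le fun z hz => ?_).symm
    have h8 := h7 o ho1 z hz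
    rw [Finset.sum_eq_zero fun e' _ => hc0 e' hqp] at h8
    have := (mul_eq_zero.1 h8).resolve_left ho2
    linarith
  · have hq0 : q = 0 := by omega
    have hp0 : par = 0 := by have := hb.par_le; omega
    subst hq0; subst hp0
    set c := (∑ e' ∈ Finset.range (D + 1), c0 e') / Sph.ev Y o with hcdef
    have h8 : v = vec w (crd m w v) + c • pol 0 0 0 0 := by
      refine eq_of_ev hb.par_le fun z hz => ?_
      rw [Submodule.coe_add, Submodule.coe_smul, Mod.ev_add, Mod.ev_smul,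
        ev_pol (by norm_num) 0 0 (sq_lt_one_of_mem hz.1)]
      have h9 := h7 o ho1 z hz
      have h10 : c = Mod.ev 0 (v : ℕ →₀ (ℝ → ℝ)) z
        - Mod.ev 0 (vec w (crd m w v) : ℕ →₀ (ℝ → ℝ)) z := by
        rw [hcdef, ← h9]; field_simp
      rw [h10]
      simp [trig]
    have h11 : g m 0 0 v (pol 0 0 0 0) = 0 := hred rfl
    have h12 : g m 0 0 (vec w (crd m w v)) (pol 0 0 0 0) = 0 :=
      hb.reduced_vec hg hY hY1 (crd m w v) rfl
    have h13 : c = 0 := by
      have h14 : g m 0 0 v (pol 0 0 0 0) = g m 0 0 (vec w (crd m w v) + c • pol 0 0 0 0)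
        (pol 0 0 0 0) := by rw [← h8]
      rw [map_add, map_smul, LinearMap.add_apply, LinearMap.smul_apply, h11, h12, zero_add,
        smul_eq_mul] at h14
      exact (mul_eq_zero.1 h14.symm).resolve_right (g_one_pos hg hY hY1).ne'
    rw [h13, zero_smul, add_zero] at h8
    exact h8.symm

end Complete

end

end Crest.Agent.R202.Wgt
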