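import Mathlib
import Crest.Agent.R202.WgtSepB

/-! # Row 202, part B4b (helper728): the transfer of separating frames to the Galerkin operators. -/

set_option autoImplicit false
set_option linter.unusedSectionVars false
set_option linter.deprecated false

open MeasureTheory Filter Topology Set Metric MvPolynomial
open scoped InnerProductSpace ContDiff

namespace Crest.Agent.R202.Wgt

open Crest.Agent.R202.Geo Crest.Agent.R202.Sph Crest.Agent.R202.Sch Crest.Agent.R202.Mod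
open Crest.Agent.R202.CT

noncomputable section

variable {m : ℕ} {q par D N : ℕ} {e : Fin N → ℕ} {V : Fin N → MvPolynomial (Fin 3) ℝ}
  {w : Fin N → VS q par}

/-- the frame in coordinates -/
def fr (m : ℕ) {q par N l : ℕ} (w : Fin N → VS q par) (p : Fin l → VV (q, par)) :
    Fin l → EuclideanSpace ℝ (Fin N) := fun i => crd m w (p i)

theorem fr_apply {l : ℕ} (w : Fin N → VS q par) (p : Fin l → VV (q, par)) (i : Fin l) :
    fr m w p i = crd m w (p i) := rfl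

theorem QF_congr (m : ℕ) (σ : ℕ × ℕ) (b : ℝ) {P P' : ℝ × ℝ → ℝ} (h : ∀ z ∈ Mod.Om, P z = P' z)
    (u v : VV σ) : QF m σ b P u v = QF m σ b P' u v := by
  unfold QF fW
  refine integral_congr_ae ?_
  filter_upwards [ae_mem_Om m] with z hz
  refine Finset.sum_congr rfl fun i _ => ?_
  have : WQ b P i z = WQ b P' i z := by
    fin_cases i <;> simp [WQ, h z hz]
  rw [this]

/-- **transfer of separating frames** -/
theorem MB.sep (hb : MB m q par D N e V w) (hg : T4g m) (hQ : T4Q m)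
    {Y : MvPolynomial (Fin (m + 1)) ℝ} (hY : Y ∈ harm (m + 1) q)
    (hY1 : sph (Sph.ev (Y * Y)) = 1) {b : ℝ} {P : ℝ → ℂ → ℝ} (hF : Frz b⁻¹ P)
    (hev : ∀ X u, P X ((starRingEnd ℂ) u) = P X u) {K : ℝ}
    (hP : Adm m K fun z => P z.1 (ee z.2)) {l : ℕ} {p : Fin l → VV (q, par)} {A B : ℝ}
    {PP : ℝ × ℝ → ℝ} (hPP : ∀ z ∈ Mod.Om, PP z = P z.1 (ee z.2))
    (hp : ∀ i, p i ∈ PolD q par D) (h : SepP m (q, par) l p A B b PP) :
    LowF.Sep (Sop (pY m V Y) b⁻¹ P) (fr m w p)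
      ((b⁻¹) ^ ((2 : ℝ) / ((m : ℝ) + 2)) * A) ((b⁻¹) ^ ((2 : ℝ) / ((m : ℝ) + 2)) * B) := by
  have hort := hb.gorth hg hY hY1
  have hθ : 0 ≤ (b⁻¹) ^ ((2 : ℝ) / ((m : ℝ) + 2)) := Real.rpow_nonneg hF.θ_pos.le _
  have hcmp : ∀ i, vec w (crd m w (p i)) = p i := fun i => hb.complete hg hY hY1 (hp i) (h.red i)
  have hQQ : ∀ u v : VS q par, Q q par hP b u v = QF m (q, par) b PP u v := fun u v => by
    rw [QF_congr m (q, par) b hPP u v]; rfl
  refine ⟨?_, ?_, ?_⟩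
  · have h1 : LinearIndependent ℝ (vec w ∘ fr m w p) := by
      have : (vec w ∘ fr m w p) = p := funext hcmp
      rw [this]; exact h.li
    exact h1.of_comp (vec w)
  · intro x hx
    have h1 : vec w x ∈ Submodule.span ℝ (range p) := by
      have h2 : vec w x ∈ (Submodule.span ℝ (range (fr m w p))).map (vec w) :=
        Submodule.mem_map_of_mem hx
      rw [Submodule.map_span, ← range_comp] at h2
      have : (vec w ∘ fr m w p) = p := funext hcmp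
      rwa [this] at h2
    have h3 := h.le _ h1
    rw [hb.inner_Sop hQ hY hY1 hF hev hP, norm_sq_eq_g hort, inv_inv, hQQ]
    have h4 : gF m (q, par) (vec w x) (vec w x) = g m q par (vec w x) (vec w x) := rfl
    rw [h4] at h3
    calc 2 * (b⁻¹) ^ ((2 : ℝ) / ((m : ℝ) + 2)) * QF m (q, par) b PP (vec w x) (vec w x)
        ≤ 2 * (b⁻¹) ^ ((2 : ℝ) / ((m : ℝ) + 2)) * (A * g m q par (vec w x) (vec w x)) :=
          mul_le_mul_of_nonneg_left h3 (by positivity)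
      _ = _ := by ring
  · intro x hx
    have h3 := h.ge (vec w x) (hb.reduced_vec hg hY hY1 x) fun i => by
      have h5 := hx i
      rw [fr_apply, inner_crd, g_symm] at h5
      show g m q par (vec w x) (p i) = 0
      linarith
    rw [hb.inner_Sop hQ hY hY1 hF hev hP, norm_sq_eq_g hort, inv_inv, hQQ]
    have h4 : gF m (q, par) (vec w x) (vec w x) = g m q par (vec w x) (vec w x) := rfl
    rw [h4] at h3
    calc (b⁻¹) ^ ((2 : ℝ) / ((m : ℝ) + 2)) * B * (2 * g m q par (vec w x) (vec w x))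
        = 2 * (b⁻¹) ^ ((2 : ℝ) / ((m : ℝ) + 2)) * (B * g m q par (vec w x) (vec w x)) := by ring
      _ ≤ 2 * (b⁻¹) ^ ((2 : ℝ) / ((m : ℝ) + 2)) * QF m (q, par) b PP (vec w x) (vec w x) :=
          mul_le_mul_of_nonneg_left h3 (by positivity)

/-- the pairing matrix of the transferred frames -/
theorem MB.gm_fr (hb : MB m q par D N e V w) (hg : T4g m)
    {Y : MvPolynomial (Fin (m + 1)) ℝ} (hY : Y ∈ harm (m + 1) q)
    (hY1 : sph (Sph.ev (Y * Y)) = 1) {l : ℕ} {p p' : Fin l → VV (q, par)}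
    (hp' : ∀ i, p' i ∈ PolD q par D) (hr : ∀ i, Reduced m (q, par) (p' i)) :
    LowF.gm (fr m w p) (fr m w p')
      = (2 : ℝ) • Matrix.of fun a b => gF m (q, par) (p a) (p' b) := by
  ext a c
  show ⟪crd m w (p a), crd m w (p' c)⟫_ℝ = _
  rw [inner_crd, hb.complete hg hY hY1 (hp' c) (hr c)]
  rfl

theorem MB.det_gm_fr (hb : MB m q par D N e V w) (hg : T4g m)
    {Y : MvPolynomial (Fin (m + 1)) ℝ} (hY : Y ∈ harm (m + 1) q)
    (hY1 : sph (Sph.ev (Y * Y)) = 1) {l : ℕ} {p p' : Fin l → VV (q, par)}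
    (hp' : ∀ i, p' i ∈ PolD q par D) (hr : ∀ i, Reduced m (q, par) (p' i)) :
    (LowF.gm (fr m w p) (fr m w p')).det
      = 2 ^ l * (Matrix.of fun a b => gF m (q, par) (p a) (p' b)).det := by
  rw [hb.gm_fr hg hY hY1 hp' hr, Matrix.det_smul, Fintype.card_fin]

/-! ### homes and loops -/

variable {y0 y1 Xa Xb X0 X1 : ℝ} {h : ℝ → ℝ}

theorem adm_loop (d : ℕ) (hp : Prof X0 X1 h) (hy0 : 1 ≤ y0) (L : YLoop y0 y1 Xa Xb) (τ : ℝ)
    {κ : ℝ} (hκ : κ ∈ Icc (-1 : ℝ) 1) :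
    Adm d (y1 + 2) (fun z => Ptip h (L.y τ) z.1 (ee z.2) + L.Gh τ κ z.1 (ret (ee z.2))) := by
  have h1 := (L.y_mem τ).1
  have h2 := (L.y_mem τ).2
  have hee : Continuous ee := by unfold ee; fun_prop
  refine ⟨?_, by linarith, fun z _ => ?_, fun z _ => ?_⟩
  · have hc := (continuous_P_loop' hp hy0 L τ κ).comp
      (continuous_fst.prodMk (hee.comp continuous_snd) :
        Continuous fun z : ℝ × ℝ => (z.1, ee z.2))
    exact hc.aestronglyMeasurable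
  · have h3 : 1 / 2 ≤ Ptip h (L.y τ) z.1 (ee z.2) + L.Gh τ κ z.1 (ret (ee z.2)) := by
      unfold Ptip
      have := mul_nonneg (by linarith : 0 ≤ L.y τ - 1) (hp.nonneg z.1)
      have h4 := abs_le.1 (L.Gh_small τ κ hκ z.1 (ret (ee z.2)) (norm_ret_le _))
      linarith [h4.1]
    refine le_trans ?_ h3
    rw [one_div]
    exact inv_anti₀ (by norm_num) (by linarith)
  · unfold Ptip
    have := mul_le_mul_of_nonneg_left (hp.le_one z.1) (by linarith : 0 ≤ L.y τ - 1)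
    have h4 := abs_le.1 (L.Gh_small τ κ hκ z.1 (ret (ee z.2)) (norm_ret_le _))
    linarith [h4.2]

theorem adm_tip (d : ℕ) (hp : Prof X0 X1 h) {y : ℝ} (hy : 1 ≤ y) :
    Adm d (y + 2) (fun z => Ptip h y z.1 (ee z.2)) := by
  refine ⟨?_, by linarith, fun z _ => ?_, fun z _ => ?_⟩
  · have hc : Continuous fun z : ℝ × ℝ => Ptip h y z.1 (ee z.2) := by
      unfold Ptip
      exact continuous_const.add (continuous_const.mul (hp.smooth.continuous.comp continuous_fst))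
    exact hc.aestronglyMeasurable
  · have h3 : 1 ≤ Ptip h y z.1 (ee z.2) := by
      unfold Ptip
      have := mul_nonneg (by linarith : 0 ≤ y - 1) (hp.nonneg z.1)
      linarith
    refine le_trans ?_ h3
    exact inv_le_one_of_one_le₀ (by linarith)
  · unfold Ptip
    have := mul_le_mul_of_nonneg_left (hp.le_one z.1) (by linarith : 0 ≤ y - 1)
    linarith

theorem frz_loop (hp : Prof X0 X1 h) (hX0 : 0 < X0) (h0a : X0 < Xa) (hb1 : Xb < X1) (hX1 : X1 < 1)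
    (hy0 : 1 ≤ y0) (L : YLoop y0 y1 Xa Xb) (τ : ℝ) {κ : ℝ} (hκ : κ ∈ Icc (-1 : ℝ) 1) :
    Frz (L.y τ)⁻¹ (fun X u => Ptip h (L.y τ) X u + L.Gh τ κ X (ret u)) := by
  have hd := datum_loop hp h0a hb1 (hy0.trans (L.y_mem τ).1)
      (fun X u hu => L.Gh_small τ κ hκ X u hu) (fun X u hX => L.Gh_supp τ κ X u hX)
  exact ⟨hd.θ_pos, continuous_P_loop' hp hy0 L τ κ, hd.P_pos, ⟨X0, hX0, hd.P_low⟩,
    ⟨X1, hX1, hd.P_high⟩⟩

theorem frz_tip (hp : Prof X0 X1 h) (hX0 : 0 < X0) (hX1 : X1 < 1) {y : ℝ} (hy : 1 ≤ y) :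
    Frz y⁻¹ (Ptip h y) := by
  have hd := datum_tip hp hy
  refine ⟨hd.θ_pos, ?_, hd.P_pos, ⟨X0, hX0, hd.P_low⟩, ⟨X1, hX1, hd.P_high⟩⟩
  unfold Ptip
  exact continuous_const.add (continuous_const.mul (hp.smooth.continuous.comp continuous_fst))

theorem ret_conj (u : ℂ) : ret ((starRingEnd ℂ) u) = (starRingEnd ℂ) (ret u) := by
  unfold ret
  rw [RCLike.norm_conj, Complex.real_smul, Complex.real_smul, map_mul, Complex.conj_ofReal]

theorem loop_even (L : YLoop y0 y1 Xa Xb) (hL : ∀ τ κ X u, L.Gh τ κ X (star u) = L.Gh τ κ X u)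
    (τ κ X : ℝ) (u : ℂ) :
    Ptip h (L.y τ) X ((starRingEnd ℂ) u) + L.Gh τ κ X (ret ((starRingEnd ℂ) u))
      = Ptip h (L.y τ) X u + L.Gh τ κ X (ret u) := by
  rw [ret_conj]
  congr 1
  exact hL τ κ X (ret u)

/-- transfer along the loops -/
theorem MB.sep_loop (hb : MB m q par D N e V w) (hg : T4g m) (hQ : T4Q m)
    {Y : MvPolynomial (Fin (m + 1)) ℝ} (hY : Y ∈ harm (m + 1) q)
    (hY1 : sph (Sph.ev (Y * Y)) = 1)
    (hp : Prof X0 X1 h) (hX0 : 0 < X0) (h0a : X0 < Xa) (hb1 : Xb < X1) (hX1 : X1 < 1)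
    (hy0 : 1 ≤ y0) (L : YLoop y0 y1 Xa Xb)
    (hL : ∀ τ κ X u, L.Gh τ κ X (star u) = L.Gh τ κ X u) (τ : ℝ) {κ : ℝ}
    (hκ : κ ∈ Icc (-1 : ℝ) 1) {l : ℕ} {p : Fin l → VV (q, par)} {A B : ℝ}
    (hpD : ∀ i, p i ∈ PolD q par D)
    (hs : SepP m (q, par) l p A B (L.y τ) (PF h (L.y τ) (L.Gh τ κ))) :
    LowF.Sep (loopS (pY m V Y) h L τ κ) (fr m w p)
      (((L.y τ)⁻¹) ^ ((2 : ℝ) / ((m : ℝ) + 2)) * A)
      (((L.y τ)⁻¹) ^ ((2 : ℝ) / ((m : ℝ) + 2)) * B) := by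
  unfold loopS
  refine hb.sep hg hQ hY hY1 (frz_loop hp hX0 h0a hb1 hX1 hy0 L τ hκ)
    (loop_even L hL τ κ) (adm_loop m hp hy0 L τ hκ) ?_ hpD hs
  intro z _
  rw [ret_ee]
  rfl

/-- transfer at home -/
theorem MB.sep_home (hb : MB m q par D N e V w) (hg : T4g m) (hQ : T4Q m)
    {Y : MvPolynomial (Fin (m + 1)) ℝ} (hY : Y ∈ harm (m + 1) q)
    (hY1 : sph (Sph.ev (Y * Y)) = 1)
    (hp : Prof X0 X1 h) (hX0 : 0 < X0) (hX1 : X1 < 1)
    (hy0 : 1 ≤ y0) {l : ℕ} {p : Fin l → VV (q, par)} {A B : ℝ}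
    (hpD : ∀ i, p i ∈ PolD q par D)
    (hs : SepP m (q, par) l p A B y0 (PF h y0 fun _ _ => 0)) :
    LowF.Sep (homeS (pY m V Y) h y0) (fr m w p)
      ((y0⁻¹) ^ ((2 : ℝ) / ((m : ℝ) + 2)) * A) ((y0⁻¹) ^ ((2 : ℝ) / ((m : ℝ) + 2)) * B) := by
  unfold homeS
  refine hb.sep hg hQ hY hY1 (frz_tip hp hX0 hX1 hy0) (fun _ _ => rfl) (adm_tip m hp hy0) ?_ hpD hs
  intro z _
  unfold PF Ptip
  ring

/-- the operators of a loop do not depend on the choice of `Y` -/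
theorem MB.loopS_indep {Y Y' : MvPolynomial (Fin (m + 1)) ℝ}
    (hY : Y ∈ harm (m + 1) q) (hY1 : sph (Sph.ev (Y * Y)) = 1)
    (hY' : Y' ∈ harm (m + 1) q) (hY1' : sph (Sph.ev (Y' * Y')) = 1)
    (hp : Prof X0 X1 h) (hX0 : 0 < X0) (h0a : X0 < Xa) (hb1 : Xb < X1) (hX1 : X1 < 1)
    (hy0 : 1 ≤ y0) (L : YLoop y0 y1 Xa Xb)
    (hL : ∀ τ κ X u, L.Gh τ κ X (star u) = L.Gh τ κ X u) (τ : ℝ) {κ : ℝ}
    (hκ : κ ∈ Icc (-1 : ℝ) 1) :
    loopS (pY m V Y) h L τ κ = loopS (pY m V Y') h L τ κ :=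
  MB.Sop_indep hY hY1 hY' hY1' (frz_loop hp hX0 h0a hb1 hX1 hy0 L τ hκ) (loop_even L hL τ κ)

theorem MB.homeS_indep {Y Y' : MvPolynomial (Fin (m + 1)) ℝ}
    (hY : Y ∈ harm (m + 1) q) (hY1 : sph (Sph.ev (Y * Y)) = 1)
    (hY' : Y' ∈ harm (m + 1) q) (hY1' : sph (Sph.ev (Y' * Y')) = 1)
    (hp : Prof X0 X1 h) (hX0 : 0 < X0) (hX1 : X1 < 1) (hy0 : 1 ≤ y0) :
    homeS (pY m V Y) h y0 = homeS (pY m V Y') h y0 :=
  MB.Sop_indep hY hY1 hY' hY1' (frz_tip hp hX0 hX1 hy0) (fun _ _ => rfl)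

end

end Crest.Agent.R202.Wgt
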