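/-
R202, final export of part B (helper846): frames of a loop with constants independent of the degree.
-/
import Crest.Agent.R202.WgtSepC
import Crest.Agent.R202.LowFrame
import Crest.Agent.R202.BFinHome
import Crest.Agent.R202.BFinSeg
import Crest.Agent.R202.BFinWy
import Crest.Agent.R202.TopChoice

set_option autoImplicit false

open Set Filter Topology
open scoped InnerProductSpace
open Crest.Agent.R202.Mod Crest.Agent.R202.Sch Crest.Agent.R202.CT Crest.Agent.R202.Main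
open Crest.Agent.R202.Wgt

noncomputable section

namespace Crest.Agent.R202.BFin

/-! ### finitely many patches -/

theorem exists_consts {l q par : ℕ} (F : Finset ((Fin l → VV (q, par)) × ℝ × ℝ)) :
    ∃ (η M : ℝ) (D0 : ℕ), 0 < η ∧ 0 ≤ M ∧ ∀ a ∈ F,
      (a.2.1 < a.2.2 → a.2.1 + 2 * η ≤ a.2.2) ∧ (|a.2.1| ≤ M ∧ |a.2.2| ≤ M) ∧
      ((∀ i, a.1 i ∈ Pol q par) → ∀ i, a.1 i ∈ PolD q par D0) := by
  classical
  induction F using Finset.induction_on with
  | empty => exact ⟨1, 0, 0, one_pos, le_rfl, fun a ha => absurd ha (by simp)⟩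
  | insert a F _ ih =>
    obtain ⟨η, M, D0, hη, hM, h⟩ := ih
    obtain ⟨Da, hDa⟩ : ∃ Da, (∀ i, a.1 i ∈ Pol q par) → ∀ i, a.1 i ∈ PolD q par Da := by
      by_cases hp : ∀ i, a.1 i ∈ Pol q par
      · choose d hd using fun i => mem_Pol_iff.1 (hp i)
        exact ⟨Finset.univ.sup d, fun _ i =>
          PolD_mono q par (Finset.le_sup (f := d) (Finset.mem_univ i)) (hd i)⟩
      · exact ⟨0, fun h => absurd h hp⟩
    obtain ⟨ηa, hηa, hηa'⟩ : ∃ ηa : ℝ, 0 < ηa ∧ (a.2.1 < a.2.2 → a.2.1 + 2 * ηa ≤ a.2.2) := by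
      by_cases hp : a.2.1 < a.2.2
      · exact ⟨(a.2.2 - a.2.1) / 2, by linarith, fun _ => by linarith⟩
      · exact ⟨1, one_pos, fun h => absurd h hp⟩
    refine ⟨min η ηa, max M (max |a.2.1| |a.2.2|), max D0 Da, lt_min hη hηa,
      hM.trans (le_max_left _ _), fun b hb => ?_⟩
    rcases Finset.mem_insert.1 hb with h1 | h1
    · subst h1
      refine ⟨fun h2 => ?_, ⟨(le_max_left _ _).trans (le_max_right _ _),
        (le_max_right _ _).trans (le_max_right _ _)⟩, fun h2 i =>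
        PolD_mono q par (le_max_right _ _) (hDa h2 i)⟩
      have h3 := hηa' h2
      have h4 := min_le_right η ηa
      linarith
    · obtain ⟨h2, h3, h4⟩ := h b h1
      refine ⟨fun h5 => ?_, ⟨h3.1.trans (le_max_left _ _), h3.2.trans (le_max_left _ _)⟩,
        fun h5 i => PolD_mono q par (le_max_left _ _) (h4 h5 i)⟩
      have h6 := h2 h5
      have h7 := min_le_left η ηa
      linarith

theorem exact_smul {G : Type*} [NormedAddCommGroup G] [InnerProductSpace ℝ G] {T : G →L[ℝ] G}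
    {V : Submodule ℝ G} {A B c : ℝ} (hc : 0 ≤ c) (h : LowF.Exact T V A B) :
    LowF.Exact (c • T) V (c * A) (c * B) where
  symm x y := by
    rw [smul_apply, smul_apply, real_inner_smul_left, real_inner_smul_right, h.symm]
  inv x hx := by
    rw [smul_apply]
    exact V.smul_mem c (h.inv x hx)
  low x hx := by
    have := mul_le_mul_of_nonneg_left (h.low x hx) hc
    rw [smul_apply, real_inner_smul_left, mul_assoc]; exact this
  high x hx := by
    have := mul_le_mul_of_nonneg_left (h.high x hx) hc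
    rw [smul_apply, real_inner_smul_left, mul_assoc]; exact this

variable {m : ℕ} {v : ℝ} {k : ℕ} {D : CountData m v k} {εh : ℝ}

theorem Kset_compact (P : Prop) : IsCompact {κ : ℝ | κ ∈ Icc (-1 : ℝ) 1 ∧ (P ∨ κ = 1 ∨ κ = -1)} := by
  by_cases hP : P
  · have : {κ : ℝ | κ ∈ Icc (-1 : ℝ) 1 ∧ (P ∨ κ = 1 ∨ κ = -1)} = Icc (-1 : ℝ) 1 := by
      ext κ; simp [hP]
    rw [this]; exact isCompact_Icc
  · have : {κ : ℝ | κ ∈ Icc (-1 : ℝ) 1 ∧ (P ∨ κ = 1 ∨ κ = -1)} = {1, -1} := by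
      ext κ
      simp only [hP, false_or, mem_ofPred_eq, mem_insert_iff, mem_singleton_iff]
      constructor
      · exact fun h => h.2
      · rintro (h | h) <;> subst h <;> simp
    rw [this]
    exact (Set.toFinite _).isCompact

/-- **frames of a cut along a loop**, constants independent of the degree -/
theorem exists_opn (hg : T4g m) (hQ : T4Q m) (c : Top.Choice D εh) {q par : ℕ}
    (hσ : (q, par) ∈ D.S) (j : Gate D) (l : ℕ) (hl0 : D.i0 (q, par) ≤ l)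
    (hl : l ≤ D.N (q, par)) :
    ∃ (η M C : ℝ) (D0 : ℕ), 0 < η ∧ 0 ≤ M ∧ 0 ≤ C ∧ ∀ Deg, D0 ≤ Deg →
    ∀ {N : ℕ} {e : Fin N → ℕ} {V : Fin N → MvPolynomial (Fin 3) ℝ} {w : Fin N → VS q par}
      (_ : MB m q par Deg N e V w) {Y : MvPolynomial (Fin (m + 1)) ℝ}
      (_ : Y ∈ Sph.harm (m + 1) q) (_ : Sph.sph (Sph.ev (Y * Y)) = 1)
      (f0 : Fin l → EuclideanSpace ℝ (Fin N)) (_ : LinearIndependent ℝ f0) (a b : ℝ) (_ : a < b)
      (_ : LowF.Exact (homeS (pY m V Y) c.h D.b0) (Submodule.span ℝ (range f0)) a b),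
    ∀ κ ∈ Icc (-1 : ℝ) 1, (((q, par), l) ≠ j.1 ∨ κ = 1 ∨ κ = -1) →
      ∃ (μ μ' : ℝ → ℝ) (f : ℝ → Fin l → EuclideanSpace ℝ (Fin N))
        (O : Matrix (Fin l) (Fin l) ℝ),
        (∀ τ, HasDerivAt μ (μ' τ) τ) ∧ (∀ τ, |μ' τ| ≤ C) ∧ (∀ τ, |μ τ| ≤ M) ∧
        Continuous f ∧ (∀ τ, LinearIndependent ℝ (f τ)) ∧
        (∀ τ, LowF.Sep (loopS (pY m V Y) c.h (c.L j) τ κ) (f τ) (μ τ - η) (μ τ + η)) ∧
        (∀ τ, 1 ≤ τ → f τ = f0) ∧ (∀ τ, τ ≤ 0 → f τ = LowF.act O f0) ∧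
        (((q, par), l) = j.1 → 0 < κ * O.det) := by
  have hb0 : 1 ≤ D.b0 := D.b0_gt.le
  -- the uniform patches
  set K : Set ℝ := {κ : ℝ | κ ∈ Icc (-1 : ℝ) 1 ∧ (((q, par), l) ≠ j.1 ∨ κ = 1 ∨ κ = -1)} with hK
  have hKc : IsCompact K := Kset_compact _
  obtain ⟨r, F, hr, hF⟩ := LowF.exists_patches (α := (Fin l → VV (q, par)) × ℝ × ℝ)
    (Q := fun a τ κ => SepP m (q, par) l a.1 a.2.1 a.2.2 ((c.L j).y τ)
      (PF c.h ((c.L j).y τ) ((c.L j).Gh τ κ))) hKc (fun τ0 hτ0 κ0 hκ0 => by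
        obtain ⟨p, A, B, h⟩ := c.cout.sep j (q, par) hσ l hl0 hl τ0 hτ0 κ0 hκ0.1 hκ0.2
        exact ⟨(p, A, B), h⟩)
  obtain ⟨η, M, D0, hη, hM, hF2⟩ := exists_consts F
  obtain ⟨w', Cw, wmin, hCw, hwmin, hw', hwC, hwm⟩ := exists_wy m hb0 (c.L j)
  -- the chains
  have hsg : ∃ Ds : ℕ, ∀ κ : ℝ, (κ = 1 ∨ κ = -1) → ((q, par), l) = j.1 →
      ∃ (rr : ℕ) (t : ℕ → ℝ) (f : ℕ → Fin l → VV (q, par)) (A B : ℕ → ℝ),
      0 < rr ∧ Monotone t ∧ t 0 = 0 ∧ t rr = 1 ∧ f rr = f 0 ∧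
      (∀ i < rr, ∀ τ ∈ Icc (t i) (t (i + 1)),
        SepP m (q, par) l (f i) (A i) (B i) ((c.L j).y τ)
          (PF c.h ((c.L j).y τ) ((c.L j).Gh τ κ))) ∧
      (∀ i ≤ rr, ∀ a, f i a ∈ PolD q par Ds ∧ Reduced m (q, par) (f i a)) ∧
      0 < κ * ∏ i ∈ Finset.range rr,
        (Matrix.of fun a b => gF m (q, par) (f i a) (f (i + 1) b)).det := by
    by_cases hj : ((q, par), l) = j.1
    · obtain ⟨⟨⟨q', par'⟩, l'⟩, hj1, hj2, hj3⟩ := j
      obtain ⟨h1, h2⟩ := Prod.mk.inj hj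
      obtain ⟨h3, h4⟩ := Prod.mk.inj h1
      subst h3; subst h4; subst h2
      have key : ∀ κ : ℝ, (κ = 1 ∨ κ = -1) → ∃ Ds : ℕ, 
          ∃ (rr : ℕ) (t : ℕ → ℝ) (f : ℕ → Fin l → VV (q, par)) (A B : ℕ → ℝ),
          0 < rr ∧ Monotone t ∧ t 0 = 0 ∧ t rr = 1 ∧ f rr = f 0 ∧
          (∀ i < rr, ∀ τ ∈ Icc (t i) (t (i + 1)),
            SepP m (q, par) l (f i) (A i) (B i) ((c.L ⟨((q, par), l), hj1, hj2, hj3⟩).y τ)
              (PF c.h ((c.L ⟨((q, par), l), hj1, hj2, hj3⟩).y τ)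
                ((c.L ⟨((q, par), l), hj1, hj2, hj3⟩).Gh τ κ))) ∧
          (∀ i ≤ rr, ∀ a, f i a ∈ PolD q par Ds ∧ Reduced m (q, par) (f i a)) ∧
          0 < κ * ∏ i ∈ Finset.range rr,
            (Matrix.of fun a b => gF m (q, par) (f i a) (f (i + 1) b)).det := by
        intro κ hκ
        obtain ⟨rr, t, f, A, B, h1, h2, h3, h4, h5, h6, h7⟩ :=
          c.cout.sign ⟨((q, par), l), hj1, hj2, hj3⟩ κ hκ
        have h8 : ∀ i < rr, ∀ a, f i a ∈ Pol q par ∧ Reduced m (q, par) (f i a) := fun i hi a => by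
          have h9 := h6 i hi (t i) ⟨le_rfl, h2 (Nat.le_succ i)⟩
          exact ⟨h9.pol a, h9.red a⟩
        have h9 : ∀ i ≤ rr, ∀ a, f i a ∈ Pol q par ∧ Reduced m (q, par) (f i a) := fun i hi a => by
          rcases hi.lt_or_eq with h10 | h10
          · exact h8 i h10 a
          · rw [h10, h5]; exact h8 0 h1 a
        have h10 : ∀ i : Fin (rr + 1), ∀ a : Fin l, ∃ d, f i a ∈ PolD q par d := fun i a =>
          mem_Pol_iff.1 (h9 i (by omega) a).1
        choose d hd using h10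
        refine ⟨Finset.univ.sup fun i => Finset.univ.sup (d i), rr, t, f, A, B, h1, h2, h3, h4, h5,
          h6, fun i hi a => ⟨?_, (h9 i hi a).2⟩, h7⟩
        have h11 : d ⟨i, by omega⟩ a ≤ Finset.univ.sup (d ⟨i, by omega⟩) :=
          Finset.le_sup (f := d ⟨i, by omega⟩) (Finset.mem_univ a)
        have h12 : Finset.univ.sup (d ⟨i, by omega⟩) ≤
            Finset.univ.sup fun i : Fin (rr + 1) => Finset.univ.sup (d i) :=
          Finset.le_sup (f := fun i : Fin (rr + 1) => Finset.univ.sup (d i))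
            (Finset.mem_univ (⟨i, by omega⟩ : Fin (rr + 1)))
        exact PolD_mono q par (h11.trans h12) (hd ⟨i, by omega⟩ a)
      obtain ⟨D1, H1⟩ := key 1 (Or.inl rfl)
      obtain ⟨D2, H2⟩ := key (-1) (Or.inr rfl)
      refine ⟨max D1 D2, fun κ hκ _ => ?_⟩
      rcases hκ with h | h
      · subst h
        obtain ⟨rr, t, f, A, B, h1, h2, h3, h4, h5, h6, h7, h8⟩ := H1
        exact ⟨rr, t, f, A, B, h1, h2, h3, h4, h5, h6, fun i hi a =>
          ⟨PolD_mono q par (le_max_left _ _) (h7 i hi a).1, (h7 i hi a).2⟩, h8⟩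
      · subst h
        obtain ⟨rr, t, f, A, B, h1, h2, h3, h4, h5, h6, h7, h8⟩ := H2
        exact ⟨rr, t, f, A, B, h1, h2, h3, h4, h5, h6, fun i hi a =>
          ⟨PolD_mono q par (le_max_right _ _) (h7 i hi a).1, (h7 i hi a).2⟩, h8⟩
    · exact ⟨0, fun κ _ h => absurd h hj⟩
  obtain ⟨Ds, hDs⟩ := hsg
  set C0 : ℝ := r * (2 * M * (LowF.stC * r)) with hC0
  have hC0n : 0 ≤ C0 := by
    have := LowF.stC_pos
    rw [hC0]; positivity
  refine ⟨wmin * η, M, Cw * M + C0, max D0 Ds, by positivity, hM, by positivity, ?_⟩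
  intro Deg hDeg N e V w hb Y hY hY1 f0 hf0 a b hab hE κ hκ hκ'
  -- the unscaled operators
  set W : ℝ → ℝ := fun τ => ((c.L j).y τ)⁻¹ ^ ((2 : ℝ) / ((m : ℝ) + 2)) with hW
  have hWpos : ∀ τ, 0 < W τ := fun τ => lt_of_lt_of_le hwmin (hwm τ).1
  set S : ℝ → EuclideanSpace ℝ (Fin N) →L[ℝ] EuclideanSpace ℝ (Fin N) := fun τ =>
    (W τ)⁻¹ • loopS (pY m V Y) c.h (c.L j) τ κ with hS
  have hSl : ∀ τ, W τ • S τ = loopS (pY m V Y) c.h (c.L j) τ κ := fun τ => by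
    rw [hS]; dsimp only
    rw [smul_smul, mul_inv_cancel₀ (hWpos τ).ne', one_smul]
  have hSep : ∀ τ {p : Fin l → VV (q, par)} {A B : ℝ}, (∀ i, p i ∈ PolD q par Deg) →
      SepP m (q, par) l p A B ((c.L j).y τ) (PF c.h ((c.L j).y τ) ((c.L j).Gh τ κ)) →
      LowF.Sep (S τ) (fr m w p) A B := by
    intro τ p A B hp hs
    have h1 := hb.sep_loop hg hQ hY hY1 c.prof c.X0_pos c.X0a c.Xb1 c.X1_lt hb0 (c.L j)
      (c.even j) τ hκ hp hs
    have h2 := h1.smul (inv_nonneg.2 (hWpos τ).le)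
    rw [← mul_assoc, ← mul_assoc, inv_mul_cancel₀ (hWpos τ).ne', one_mul, one_mul] at h2
    exact h2
  have hWleft : ∀ τ ≤ 0, W τ = W 0 := fun τ hτ => by
    simp only [hW, (c.L j).y_left τ hτ, (c.L j).y_left 0 le_rfl]
  have hWright : ∀ τ, 1 ≤ τ → W τ = W 0 := fun τ hτ => by
    simp only [hW, (c.L j).y_right τ hτ, (c.L j).y_left 0 le_rfl]
  have hS0 : S 0 = (W 0)⁻¹ • homeS (pY m V Y) c.h D.b0 := by
    rw [hS]; dsimp only; rw [loopS_left _ (c.L j) le_rfl κ]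
  have hSleft : ∀ τ ≤ 0, S τ = S 0 := fun τ hτ => by
    rw [hS0, hS]; dsimp only; rw [loopS_left _ (c.L j) hτ κ, hWleft τ hτ]
  have hSright : ∀ τ, 1 ≤ τ → S τ = S 0 := fun τ hτ => by
    rw [hS0, hS]; dsimp only; rw [loopS_right _ (c.L j) hτ κ, hWright τ hτ]
  have hWc : Continuous W := continuous_iff_continuousAt.2 fun τ => (hw' τ).continuousAt
  have hSc : Continuous S := by
    rw [hS]
    refine (hWc.inv₀ fun τ => (hWpos τ).ne').smul ?_
    have := (continuous_loopS (p := pY m V Y) c.prof hb0 (c.L j)).comp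
      (Continuous.prodMk continuous_id (continuous_const (y := (⟨κ, hκ⟩ : Icc (-1 : ℝ) 1))))
    exact this
  have hSs : ∀ x y, ∀ τ, ⟪S τ x, y⟫_ℝ = ⟪x, S τ y⟫_ℝ := fun x y τ => by
    rw [hS]; dsimp only
    rw [smul_apply, smul_apply, real_inner_smul_left, real_inner_smul_right,
      loopS_symm _ c.prof hb0 (c.L j) τ hκ]
  -- patches
  have hch : ∀ i : ℕ, ∃ a' : (Fin l → VV (q, par)) × ℝ × ℝ, i < r → a' ∈ F ∧ ∀ τ,
      (i : ℝ) / r ≤ τ → τ ≤ ((i : ℝ) + 2) / r → SepP m (q, par) l a'.1 a'.2.1 a'.2.2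
        ((c.L j).y τ) (PF c.h ((c.L j).y τ) ((c.L j).Gh τ κ)) := by
    intro i
    by_cases hi : i < r
    · obtain ⟨a', ha', h⟩ := hF κ ⟨hκ, hκ'⟩ i hi
      exact ⟨a', fun _ => ⟨ha', h⟩⟩
    · exact ⟨(0, 0, 0), fun h => absurd h hi⟩
  choose ap hap using hch
  have hr' : (0 : ℝ) < r := by exact_mod_cast hr
  have hSPi : ∀ i < r, SepP m (q, par) l (ap i).1 (ap i).2.1 (ap i).2.2
        ((c.L j).y ((i : ℝ) / r)) (PF c.h ((c.L j).y ((i : ℝ) / r))
          ((c.L j).Gh ((i : ℝ) / r) κ)) := fun i hi =>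
    (hap i hi).2 _ le_rfl (by gcongr; linarith)
  have hPat : LowF.Patches S r (fun i => fr m w (ap i).1) (fun i => (ap i).2.1)
      (fun i => (ap i).2.2) η := by
    refine ⟨hr, hη, fun i hi => ((hF2 _ (hap i hi).1).1 (hSPi i hi).lt), fun i hi τ _ h1 h2 => ?_⟩
    refine hSep τ (fun i' => ?_) ((hap i hi).2 τ h1 h2)
    exact PolD_mono q par ((le_max_left _ _).trans hDeg)
      ((hF2 _ (hap i hi).1).2.2 (fun i'' => (hSPi i hi).pol i'') i')
  have hE0 : LowF.Exact (S 0) (Submodule.span ℝ (range f0)) ((W 0)⁻¹ * a) ((W 0)⁻¹ * b) := by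
    rw [hS0]; exact exact_smul (inv_nonneg.2 (hWpos 0).le) hE
  obtain ⟨LF⟩ := hPat.exists_lowFrame hSc.continuousOn hSs
    (fun τ hτ => hτ.elim (hSleft τ) (hSright τ)) (fun i hi => (hF2 _ (hap i hi).1).2.1) hf0
    (mul_lt_mul_of_pos_left hab (inv_pos.2 (hWpos 0))) hE0
  obtain ⟨f, O, hf1, hf2, hf3, hf4, hf5, -, hf7⟩ := LF.reverse
  refine ⟨fun τ => W τ * LF.μ τ, fun τ => w' τ * LF.μ τ + W τ * LF.μ' τ, f, O,
    fun τ => (hw' τ).mul (LF.deriv τ), fun τ => ?_, fun τ => ?_, hf1, hf2, fun τ => ?_, hf4, hf3,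
    fun hj => ?_⟩
  · have h1 : |w' τ * LF.μ τ| ≤ Cw * M := by
      rw [abs_mul]
      exact mul_le_mul (hwC τ) (LF.μ_le τ) (abs_nonneg _) hCw
    have h2 : |W τ * LF.μ' τ| ≤ C0 := by
      rw [abs_mul, abs_of_pos (hWpos τ)]
      calc W τ * |LF.μ' τ| ≤ 1 * C0 := mul_le_mul (hwm τ).2 (LF.deriv_le τ) (abs_nonneg _)
            zero_le_one
        _ = C0 := one_mul _
    exact (abs_add_le _ _).trans (add_le_add h1 h2)
  · rw [abs_mul, abs_of_pos (hWpos τ)]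
    calc W τ * |LF.μ τ| ≤ 1 * M := mul_le_mul (hwm τ).2 (LF.μ_le τ) (abs_nonneg _)
            zero_le_one
      _ = M := one_mul _
  · have h1 := (hf7 τ).smul (hWpos τ).le
    rw [hSl] at h1
    have h2 : wmin * η ≤ W τ * η := mul_le_mul_of_nonneg_right (hwm τ).1 hη.le
    refine h1.mono ?_ ?_
    · rw [mul_sub]; linarith
    · rw [mul_add]; linarith
  · -- the sign
    have hκ1 : κ = 1 ∨ κ = -1 := by
      rcases hκ' with h | h
      · exact absurd hj h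
      · exact h
    obtain ⟨rr, t, g, A, B, h1, h2, h3, h4, h5, h6, h7, h8⟩ := hDs κ hκ1 hj
    have hgD : ∀ i ≤ rr, ∀ a, g i a ∈ PolD q par Deg := fun i hi a =>
      PolD_mono q par ((le_max_right _ _).trans hDeg) (h7 i hi a).1
    have h9 := LF.sign rr t (fun i => fr m w (g i)) A B h1 h2 h3 h4 (by simp only [h5])
      (fun i hi => (h6 i hi (t i) ⟨le_rfl, h2 (Nat.le_succ i)⟩).lt)
      (fun i hi τ hτ => hSep τ (hgD i hi.le) (h6 i hi τ hτ))
    have h10 : ∏ i ∈ Finset.range rr, (LowF.gm (fr m w (g i)) (fr m w (g (i + 1)))).det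
        = (2 ^ l) ^ rr * ∏ i ∈ Finset.range rr,
          (Matrix.of fun a b => gF m (q, par) (g i a) (g (i + 1) b)).det := by
      rw [show ((2 : ℝ) ^ l) ^ rr = ∏ _i ∈ Finset.range rr, (2 : ℝ) ^ l by
        rw [Finset.prod_const, Finset.card_range], ← Finset.prod_mul_distrib]
      refine Finset.prod_congr rfl fun i hi => ?_
      have hi' : i + 1 ≤ rr := Finset.mem_range.1 hi
      exact hb.det_gm_fr hg hY hY1 (hgD (i + 1) hi') fun a => (h7 (i + 1) hi' a).2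
    rw [h10] at h9
    set Pi := ∏ i ∈ Finset.range rr,
          (Matrix.of fun a b => gF m (q, par) (g i a) (g (i + 1) b)).det with hPi
    have h2l : (0 : ℝ) < (2 ^ l) ^ rr := by positivity
    have h11 : 0 < LF.O.det * Pi := by
      have : 0 < (2 ^ l) ^ rr * (LF.O.det * Pi) := by
        calc 0 < _ := h9
          _ = _ := by ring
      exact (mul_pos_iff_of_pos_left h2l).1 this
    have h12 : 0 < κ * LF.O.det := by
      have h13 : 0 < (κ * LF.O.det) * Pi ^ 2 := by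
        calc 0 < (κ * Pi) * (LF.O.det * Pi) := mul_pos h8 h11
          _ = _ := by ring
      have h14 : 0 ≤ Pi ^ 2 := sq_nonneg _
      by_contra hcon
      exact absurd h13 (not_lt.2 (mul_nonpos_of_nonpos_of_nonneg (not_lt.1 hcon) h14))
    have h15 : 0 < (κ * O.det) * (κ * LF.O.det) := by
      have : (κ * O.det) * (κ * LF.O.det) = κ ^ 2 * (O.det * LF.O.det) := by ring
      rw [this, hf5, mul_one]
      rcases hκ1 with h | h <;> subst h <;> norm_num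
    exact (mul_pos_iff_of_pos_right h12).1 h15

end Crest.Agent.R202.BFin
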