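/-
R202, final export of part B (helper846): the `LoopSys` of a choice, with constants independent of
the degree of the Galerkin space.
-/
import Crest.Agent.R202.BFinLoopA

set_option autoImplicit false

open Set Filter Topology
open scoped InnerProductSpace
open Crest.Agent.R202.Mod Crest.Agent.R202.Sch Crest.Agent.R202.CT Crest.Agent.R202.Main
open Crest.Agent.R202.Wgt

noncomputable section

namespace Crest.Agent.R202.BFin

theorem exists_pos_le_all {X : Type*} [Finite X] (f : X → ℝ) (hf : ∀ x, 0 < f x) :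
    ∃ η : ℝ, 0 < η ∧ η ≤ 1 ∧ ∀ x, η ≤ f x := by
  rcases isEmpty_or_nonempty X with h | h
  · exact ⟨1, one_pos, le_rfl, fun x => (h.false x).elim⟩
  · obtain ⟨x0, hx0⟩ := Finite.exists_min f
    exact ⟨min 1 (f x0), lt_min one_pos (hf x0), min_le_left _ _,
      fun x => (min_le_right _ _).trans (hx0 x)⟩

theorem exists_ge_all {X : Type*} [Finite X] (f : X → ℝ) :
    ∃ M : ℝ, 0 ≤ M ∧ ∀ x, f x ≤ M := by
  rcases isEmpty_or_nonempty X with h | h
  · exact ⟨0, le_rfl, fun x => (h.false x).elim⟩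
  · obtain ⟨x0, hx0⟩ := Finite.exists_max f
    exact ⟨max 0 (f x0), le_max_left _ _, fun x => (hx0 x).trans (le_max_right _ _)⟩

theorem exists_ge_all_nat {X : Type*} [Finite X] (f : X → ℕ) : ∃ M : ℕ, ∀ x, f x ≤ M := by
  rcases isEmpty_or_nonempty X with h | h
  · exact ⟨0, fun x => (h.false x).elim⟩
  · obtain ⟨x0, hx0⟩ := Finite.exists_max f
    exact ⟨f x0, hx0⟩

variable {m : ℕ} {v : ℝ} {k : ℕ} {D : CountData m v k} {εh : ℝ}

theorem finite_gates (D : CountData m v k) : Finite (Gate D) := by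
  have h1 : ({j : (ℕ × ℕ) × ℕ | j.1 ∈ D.S ∧ D.i0 j.1 ≤ j.2 ∧ j.2 < D.N j.1}).Finite := by
    refine Set.Finite.subset
      ((D.S ×ˢ Finset.range ((D.S.sup D.N) + 1) : Finset ((ℕ × ℕ) × ℕ)).finite_toSet) ?_
    rintro ⟨σ, l⟩ ⟨h1, h2, h3⟩
    simp only [Finset.coe_product, Finset.coe_range, mem_prod, Finset.mem_coe, mem_Iio]
    refine ⟨h1, ?_⟩
    have : D.N σ ≤ D.S.sup D.N := Finset.le_sup (f := D.N) h1
    simp only at h3
    omega
  exact h1.to_subtype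

/-- the span of eigenvectors is an exact space -/
theorem exact_of_eig {G : Type*} [NormedAddCommGroup G] [InnerProductSpace ℝ G] {N l : ℕ}
    {H : G →L[ℝ] G} (hs : ∀ x y, ⟪H x, y⟫_ℝ = ⟪x, H y⟫_ℝ) {e : Fin N → G} {lam : Fin N → ℝ}
    (he : ∀ i, H (e i) = lam i • e i) (hl : l ≤ N) {A B : ℝ}
    (h : Jac.SepF H (fun i : Fin l => e (Fin.castLE hl i)) A B) :
    LowF.Exact H (Submodule.span ℝ (range fun i : Fin l => e (Fin.castLE hl i))) A B where
  symm := hs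
  inv x hx := by
    induction hx using Submodule.span_induction with
    | mem x hx =>
      obtain ⟨i, rfl⟩ := hx
      rw [he]
      exact Submodule.smul_mem _ _ (Submodule.subset_span ⟨i, rfl⟩)
    | zero => rw [map_zero]; exact Submodule.zero_mem _
    | add x y _ _ h1 h2 => rw [map_add]; exact Submodule.add_mem _ h1 h2
    | smul c x _ h1 => rw [map_smul]; exact Submodule.smul_mem _ c h1
  low := h.le
  high x hx := h.ge x fun i => by
    exact (Submodule.mem_orthogonal _ x).1 hx _ (Submodule.subset_span ⟨i, rfl⟩)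

/-- **the loops of a choice in the Galerkin spaces**, with the separation of the eigenframe -/
theorem exists_loopSys' (hg : T4g m) (hQ : T4Q m) (c : Top.Choice D εh) {q par : ℕ}
    (hσ : (q, par) ∈ D.S) :
    ∃ (η Cμ Mμ : ℝ) (D0 : ℕ) (F : Fin (D.N (q, par)) → VV (q, par)) (A B : ℝ),
      0 < η ∧ 0 ≤ Cμ ∧ A < B ∧ (∀ i, F i ∈ Pol q par) ∧ (∀ i, Reduced m (q, par) (F i)) ∧
      LinearIndependent ℝ F ∧ ∀ Deg, D0 ≤ Deg → (∀ i, F i ∈ PolD q par Deg) ∧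
      ∀ {N : ℕ} {e : Fin N → ℕ} {V : Fin N → MvPolynomial (Fin 3) ℝ} {w : Fin N → VS q par}
        (_ : MB m q par Deg N e V w) {Y : MvPolynomial (Fin (m + 1)) ℝ}
        (_ : Y ∈ Sph.harm (m + 1) q) (_ : Sph.sph (Sph.ev (Y * Y)) = 1),
      ∃ LS : LoopSys (EuclideanSpace ℝ (Fin N)) (Gate D) (D.N (q, par)) (D.i0 (q, par)) η Cμ Mμ
          (fun l => ((D.b0)⁻¹) ^ ((2 : ℝ) / ((m : ℝ) + 2)) * (homeLev D (q, par) (l - 1) + εh)),
        (∀ j τ κ, LS.S j τ κ = loopS (pY m V Y) c.h (c.L j) τ κ) ∧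
        LS.H = homeS (pY m V Y) c.h D.b0 ∧
        (∀ j, LS.des j = if j.1.1 = (q, par) then some j.1.2 else none) ∧
        (∀ j, LS.sgn j = 1) ∧ Jac.SepF LS.H (fr m w F) A B ∧ Jac.SepF LS.H LS.e A B := by
  classical
  have : Finite (Gate D) := finite_gates D
  have hb0 : 1 ≤ D.b0 := D.b0_gt.le
  set i0 := D.i0 (q, par) with hi0
  set Nσ := D.N (q, par) with hNσ
  have hiN : i0 ≤ Nσ := (D.i0_lt _ hσ).le
  set W0 : ℝ := ((D.b0)⁻¹) ^ ((2 : ℝ) / ((m : ℝ) + 2)) with hW0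
  have hW0pos : 0 < W0 := Real.rpow_pos_of_pos (inv_pos.2 (by linarith)) _
  -- homes
  have hhome : ∀ l : ℕ, ∃ (p : Fin l → VV (q, par)) (A B : ℝ), i0 ≤ l → l ≤ Nσ →
      SepP m (q, par) l p A B D.b0 (PF c.h D.b0 fun _ _ => 0) ∧
        A ≤ homeLev D (q, par) (l - 1) + εh := by
    intro l
    by_cases h : i0 ≤ l ∧ l ≤ Nσ
    · obtain ⟨p, A, B, h1, h2, -⟩ := c.cout.home (q, par) hσ l h.1 h.2
      exact ⟨p, A, B, fun _ _ => ⟨h1, h2⟩⟩
    · exact ⟨0, 0, 0, fun h1 h2 => absurd ⟨h1, h2⟩ h⟩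
  choose ph Ah Bh hh using hhome
  have hdh : ∀ l : ℕ, ∃ d : ℕ, i0 ≤ l → l ≤ Nσ → ∀ i, ph l i ∈ PolD q par d := by
    intro l
    by_cases h : i0 ≤ l ∧ l ≤ Nσ
    · choose d hd using fun i => mem_Pol_iff.1 ((hh l h.1 h.2).1.pol i)
      exact ⟨Finset.univ.sup d, fun _ _ i =>
        PolD_mono q par (Finset.le_sup (f := d) (Finset.mem_univ i)) (hd i)⟩
    · exact ⟨0, fun h1 h2 => absurd ⟨h1, h2⟩ h⟩
  choose dh hdh using hdh
  -- gates
  have hgate : ∀ x : Gate D × Fin (Nσ + 1), ∃ (η M C : ℝ) (D0 : ℕ), 0 < η ∧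
      (i0 ≤ x.2.1 → ∀ Deg, D0 ≤ Deg →
    ∀ {N : ℕ} {e : Fin N → ℕ} {V : Fin N → MvPolynomial (Fin 3) ℝ} {w : Fin N → VS q par}
      (_ : MB m q par Deg N e V w) {Y : MvPolynomial (Fin (m + 1)) ℝ}
      (_ : Y ∈ Sph.harm (m + 1) q) (_ : Sph.sph (Sph.ev (Y * Y)) = 1)
      (f0 : Fin x.2.1 → EuclideanSpace ℝ (Fin N)) (_ : LinearIndependent ℝ f0) (a b : ℝ)
      (_ : a < b)
      (_ : LowF.Exact (homeS (pY m V Y) c.h D.b0) (Submodule.span ℝ (range f0)) a b),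
    ∀ κ ∈ Icc (-1 : ℝ) 1, (((q, par), x.2.1) ≠ x.1.1 ∨ κ = 1 ∨ κ = -1) →
      ∃ (μ μ' : ℝ → ℝ) (f : ℝ → Fin x.2.1 → EuclideanSpace ℝ (Fin N))
        (O : Matrix (Fin x.2.1) (Fin x.2.1) ℝ),
        (∀ τ, HasDerivAt μ (μ' τ) τ) ∧ (∀ τ, |μ' τ| ≤ C) ∧ (∀ τ, |μ τ| ≤ M) ∧
        Continuous f ∧ (∀ τ, LinearIndependent ℝ (f τ)) ∧
        (∀ τ, LowF.Sep (loopS (pY m V Y) c.h (c.L x.1) τ κ) (f τ) (μ τ - η) (μ τ + η)) ∧
        (∀ τ, 1 ≤ τ → f τ = f0) ∧ (∀ τ, τ ≤ 0 → f τ = LowF.act O f0) ∧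
        (((q, par), x.2.1) = x.1.1 → 0 < κ * O.det)) := by
    intro x
    by_cases h : i0 ≤ x.2.1
    · obtain ⟨η, M, C, D0, h1, -, -, h2⟩ := exists_opn hg hQ c hσ x.1 x.2.1 h (by omega)
      exact ⟨η, M, C, D0, h1, fun _ => h2⟩
    · exact ⟨1, 0, 0, 0, one_pos, fun h1 => absurd h1 h⟩
  choose ηg Mg Cg Dg hηg hg2 using hgate
  -- the constants
  have hgap : ∀ l : Fin (Nσ + 1), 0 < if i0 ≤ l.1 then W0 * (Bh l - Ah l) / 2 else 1 := by
    intro l
    split_ifs with h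
    · have := (hh l h (by omega)).1.lt
      have h2 : 0 < Bh l - Ah l := by linarith
      positivity
    · exact one_pos
  obtain ⟨η1, hη1, hη1', hη1l⟩ := exists_pos_le_all _ hgap
  obtain ⟨η2, hη2, hη2', hη2l⟩ := exists_pos_le_all ηg hηg
  obtain ⟨M1, hM1, hM1l⟩ := exists_ge_all fun l : Fin (Nσ + 1) => W0 * (Ah l + Bh l) / 2
  obtain ⟨M2, hM2, hM2l⟩ := exists_ge_all Mg
  obtain ⟨C2, hC2, hC2l⟩ := exists_ge_all Cg
  obtain ⟨Dg', hDg'⟩ := exists_ge_all_nat Dg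
  obtain ⟨Dh', hDh'⟩ := exists_ge_all_nat fun l : Fin (Nσ + 1) => dh l
  set η : ℝ := min η1 η2 with hη
  have hηpos : 0 < η := lt_min hη1 hη2
  have hSN := (hh Nσ hiN le_rfl).1
  refine ⟨η, C2, max M1 M2 + η, max Dg' Dh', ph Nσ, W0 * Ah Nσ, W0 * Bh Nσ, hηpos, hC2,
    mul_lt_mul_of_pos_left hSN.lt hW0pos, hSN.pol, hSN.red, hSN.li, fun Deg hDeg => ⟨?_, ?_⟩⟩
  · intro i
    exact PolD_mono q par ((hDh' ⟨Nσ, by omega⟩).trans ((le_max_right _ _).trans hDeg))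
      (hdh Nσ hiN le_rfl i)
  intro N e V w hb Y hY hY1
  set H := homeS (pY m V Y) c.h D.b0 with hH
  have hHs : ∀ x y, ⟪H x, y⟫_ℝ = ⟪x, H y⟫_ℝ := homeS_symm _ c.prof hb0
  have hF : ∀ l, i0 ≤ l → l ≤ Nσ → Jac.SepF H (fr m w (ph l)) (W0 * Ah l) (W0 * Bh l) := by
    intro l h1 h2
    have h3 := (hh l h1 h2).1
    have h4 := hb.sep_home hg hQ hY hY1 c.prof c.X0_pos c.X1_lt hb0 (p := ph l) (fun i =>
      PolD_mono q par ((hDh' ⟨l, by omega⟩).trans ((le_max_right _ _).trans hDeg))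
        (hdh l h1 h2 i)) h3
    exact ⟨h4.li, mul_lt_mul_of_pos_left h3.lt hW0pos, h4.low, h4.high⟩
  obtain ⟨eb, lam, horth, hlam, hsep⟩ := exists_home hiN hHs (A := fun l => W0 * Ah l)
    (B := fun l => W0 * Bh l) (fun l h1 h2 => ⟨_, hF l h1 h2⟩)
  have hmul : ∀ x : ℝ, ∀ y : EuclideanSpace ℝ (Fin N), 0 ≤ x → 0 ≤ x * ‖y‖ ^ 2 := fun x y hx => by
    positivity
  refine ⟨{
    S := fun j τ κ => loopS (pY m V Y) c.h (c.L j) τ κ
    H := H
    e := eb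
    lam := lam
    des := fun j => if j.1.1 = (q, par) then some j.1.2 else none
    sgn := fun _ => 1
    orth := horth
    H_symm := hHs
    H_e := hlam
    S_nonneg := fun j τ κ hκ x => ?_
    H_nonneg := fun x => homeS_nonneg _ c.prof hb0 x
    S_left := fun j τ κ hτ => loopS_left _ (c.L j) hτ κ
    S_right := fun j τ κ hτ => loopS_right _ (c.L j) hτ κ
    slow := fun l hl hil x hx => ?_
    des_ge := fun j l h => ?_
    des_lt := fun j l h => ?_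
    sgn_sq := fun _ => Or.inl rfl
    home_gap := fun l hl hil => ?_
    opn := fun j κ hκ l hl hil hd => ?_ }, fun _ _ _ => rfl, rfl, fun _ => rfl, fun _ => rfl,
    hF Nσ hiN le_rfl, hsep Nσ le_rfl hiN⟩
  · refine Sop_nonneg _ (inv_pos.2 ?_) (continuous_P_loop' c.prof hb0 (c.L j) τ κ)
      (P_loop_pos c.prof hb0 (c.L j) τ hκ) x
    linarith [((c.L j).y_mem τ).1]
  · refine ((hsep l hl hil).le x hx).trans (mul_le_mul_of_nonneg_right ?_ (by positivity))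
    exact mul_le_mul_of_nonneg_left (hh l hil hl).2 hW0pos.le
  · split_ifs at h with h1
    have h2 := j.2.2.1
    rw [h1] at h2
    rw [← Option.some.inj h]; exact h2
  · split_ifs at h with h1
    have h2 := j.2.2.2
    rw [h1] at h2
    rw [← Option.some.inj h]; exact h2
  · have h1 := hη1l ⟨l, by omega⟩
    rw [if_pos hil] at h1
    have h2 := hM1l ⟨l, by omega⟩
    dsimp only at h1 h2
    have h3 : η ≤ η1 := min_le_left _ _
    have h4 := le_max_left M1 M2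
    refine ⟨W0 * (Ah l + Bh l) / 2, by linarith, fun x hx => ?_, fun x hx => ?_⟩
    · refine ((hsep l hl hil).le x hx).trans (mul_le_mul_of_nonneg_right ?_ (by positivity))
      linarith
    · refine le_trans (mul_le_mul_of_nonneg_right ?_ (by positivity)) ((hsep l hl hil).ge x hx)
      linarith
  · have hlf : (⟨l, by omega⟩ : Fin (Nσ + 1)).1 = l := rfl
    have h1 := hg2 (j, ⟨l, by omega⟩) hil Deg ((hDg' _).trans ((le_max_left _ _).trans hDeg)) hb hY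
      hY1 (fun i : Fin l => eb (Fin.castLE hl i))
      (horth.linearIndependent.comp _ (Fin.castLE_injective hl)) _ _ (hsep l hl hil).lt
      (exact_of_eig hHs hlam hl (hsep l hl hil)) κ hκ (by
        rcases hd with h | h
        · left
          intro h2
          apply h
          have h3 : j.1.1 = (q, par) := by rw [← h2]
          have h4 : j.1.2 = l := by rw [← h2]
          rw [if_pos h3, h4]
        · exact Or.inr h)
    obtain ⟨μ, μ', f, O, a1, a2, a3, a4, a5, a6, a7, a8, a9⟩ := h1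
    have h2 : ηg (j, ⟨l, by omega⟩) ≥ η := (min_le_right _ _).trans (hη2l _)
    have h3 := hM2l (j, (⟨l, by omega⟩ : Fin (Nσ + 1)))
    have h4 := hC2l (j, (⟨l, by omega⟩ : Fin (Nσ + 1)))
    have h5 := le_max_right M1 M2
    refine ⟨μ, μ', f, O, a1, fun τ => (a2 τ).trans h4, fun τ => ?_, a4, a5, fun τ x hx => ?_,
      fun τ x hx => ?_, fun τ hτ i => ?_, fun τ hτ i => ?_, fun h => ?_⟩
    · have := (le_abs_self _).trans (a3 τ)
      linarith
    · refine ((a6 τ).low x hx).trans (mul_le_mul_of_nonneg_right ?_ (by positivity))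
      linarith
    · refine le_trans (mul_le_mul_of_nonneg_right ?_ (by positivity)) ((a6 τ).high x hx)
      linarith
    · rw [a7 τ hτ]
    · rw [a8 τ hτ]; rfl
    · split_ifs at h with h6
      have h7 := Option.some.inj h
      rw [one_mul]
      exact a9 (Prod.ext h6.symm h7.symm)

/-- **the loops of a choice in the Galerkin spaces** -/
theorem exists_loopSys (hg : T4g m) (hQ : T4Q m) (c : Top.Choice D εh) {q par : ℕ}
    (hσ : (q, par) ∈ D.S) :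
    ∃ (η Cμ Mμ : ℝ) (D0 : ℕ) (F : Fin (D.N (q, par)) → VV (q, par)) (A B : ℝ),
      0 < η ∧ 0 ≤ Cμ ∧ A < B ∧ (∀ i, F i ∈ Pol q par) ∧ (∀ i, Reduced m (q, par) (F i)) ∧
      LinearIndependent ℝ F ∧ ∀ Deg, D0 ≤ Deg → (∀ i, F i ∈ PolD q par Deg) ∧
      ∀ {N : ℕ} {e : Fin N → ℕ} {V : Fin N → MvPolynomial (Fin 3) ℝ} {w : Fin N → VS q par}
        (_ : MB m q par Deg N e V w) {Y : MvPolynomial (Fin (m + 1)) ℝ}
        (_ : Y ∈ Sph.harm (m + 1) q) (_ : Sph.sph (Sph.ev (Y * Y)) = 1),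
      ∃ LS : LoopSys (EuclideanSpace ℝ (Fin N)) (Gate D) (D.N (q, par)) (D.i0 (q, par)) η Cμ Mμ
          (fun l => ((D.b0)⁻¹) ^ ((2 : ℝ) / ((m : ℝ) + 2)) * (homeLev D (q, par) (l - 1) + εh)),
        (∀ j τ κ, LS.S j τ κ = loopS (pY m V Y) c.h (c.L j) τ κ) ∧
        LS.H = homeS (pY m V Y) c.h D.b0 ∧
        (∀ j, LS.des j = if j.1.1 = (q, par) then some j.1.2 else none) ∧
        (∀ j, LS.sgn j = 1) ∧ Jac.SepF LS.H (fr m w F) A B := by
  obtain ⟨η, Cμ, Mμ, D0, F, A, B, h1, h2, h3, h4, h5, h6, h7⟩ := exists_loopSys' hg hQ c hσ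
  refine ⟨η, Cμ, Mμ, D0, F, A, B, h1, h2, h3, h4, h5, h6, fun Deg hDeg => ⟨(h7 Deg hDeg).1, ?_⟩⟩
  intro N e V w hb Y hY hY1
  obtain ⟨LS, a1, a2, a3, a4, a5, -⟩ := (h7 Deg hDeg).2 hb hY hY1
  exact ⟨LS, a1, a2, a3, a4, a5⟩

end Crest.Agent.R202.BFin
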