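import Mathlib

/-! # Row 202, PART B2 (gates): gap transfer `K → Λ`, finite-dimensional linear algebra (helper557) -/

set_option autoImplicit false
set_option linter.unusedSectionVars false
set_option linter.unusedVariables false

open Set Module
open scoped InnerProductSpace

namespace Crest.Agent.R202.GateLin

variable {G : Type*} [NormedAddCommGroup G] [InnerProductSpace ℝ G] [FiniteDimensional ℝ G]

/-- Two-sided bound of a symmetric operator on a space and its complement gives invertibility. -/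
theorem norm_ge_of_sep {Q : G →L[ℝ] G} (hQ : ∀ x y, ⟪Q x, y⟫_ℝ = ⟪x, Q y⟫_ℝ)
    {W : Submodule ℝ G} {η : ℝ}
    (hW : ∀ x ∈ W, ⟪Q x, x⟫_ℝ ≤ -η * ‖x‖ ^ 2) (hW' : ∀ x ∈ Wᗮ, η * ‖x‖ ^ 2 ≤ ⟪Q x, x⟫_ℝ) (x : G) :
    η * ‖x‖ ≤ ‖Q x‖ := by
  obtain ⟨y, hy, z, hz, rfl⟩ := W.exists_add_mem_mem_orthogonal x
  have hyz : ⟪y, z⟫_ℝ = 0 := Submodule.inner_right_of_mem_orthogonal hy hz
  have hzy : ⟪z, y⟫_ℝ = 0 := by rw [real_inner_comm]; exact hyz
  have h1 : ⟪Q (y + z), z - y⟫_ℝ = ⟪Q z, z⟫_ℝ - ⟪Q y, y⟫_ℝ := by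
    have h2 : ⟪Q y, z⟫_ℝ = ⟪Q z, y⟫_ℝ := by rw [hQ, real_inner_comm]
    rw [map_add, inner_add_left, inner_sub_right, inner_sub_right]
    linarith
  have n1 : ‖y + z‖ ^ 2 = ‖y‖ ^ 2 + ‖z‖ ^ 2 := by
    rw [norm_add_sq_real, hyz]; ring
  have n2 : ‖z - y‖ ^ 2 = ‖y‖ ^ 2 + ‖z‖ ^ 2 := by
    rw [norm_sub_sq_real, hzy]; ring
  have n3 : ‖z - y‖ = ‖y + z‖ := by
    have : ‖z - y‖ ^ 2 = ‖y + z‖ ^ 2 := by rw [n1, n2]
    exact (pow_left_inj₀ (norm_nonneg _) (norm_nonneg _) two_ne_zero).1 this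
  have h3 : η * ‖y + z‖ ^ 2 ≤ ⟪Q (y + z), z - y⟫_ℝ := by
    rw [h1, n1]
    have := hW y hy
    have := hW' z hz
    nlinarith
  have h4 : ⟪Q (y + z), z - y⟫_ℝ ≤ ‖Q (y + z)‖ * ‖y + z‖ := by
    rw [← n3]; exact real_inner_le_norm _ _
  rcases (norm_nonneg (y + z)).eq_or_lt with h0 | h0
  · rw [← h0, mul_zero]; exact norm_nonneg _
  · have : η * ‖y + z‖ * ‖y + z‖ ≤ ‖Q (y + z)‖ * ‖y + z‖ := by nlinarith
    exact le_of_mul_le_mul_right this h0

section Spec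

variable (L : G →L[ℝ] G) (hL : (L : G →ₗ[ℝ] G).IsSymmetric)

/-- eigenbasis -/
noncomputable def bs : OrthonormalBasis (Fin (finrank ℝ G)) ℝ G := hL.eigenvectorBasis rfl

/-- eigenvalues -/
noncomputable def ev : Fin (finrank ℝ G) → ℝ := hL.eigenvalues rfl

theorem L_bs (i) : L (bs L hL i) = ev L hL i • bs L hL i :=
  hL.apply_eigenvectorBasis rfl i

theorem inner_L_bs (x : G) (i) : ⟪L x, bs L hL i⟫_ℝ = ev L hL i * ⟪x, bs L hL i⟫_ℝ := by
  have h := hL x (bs L hL i)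
  have h2 : ⟪L x, bs L hL i⟫_ℝ = ⟪x, L (bs L hL i)⟫_ℝ := h
  rw [h2, L_bs, real_inner_smul_right]

theorem inner_L (x y : G) :
    ⟪L x, y⟫_ℝ = ∑ i, ev L hL i * (⟪x, bs L hL i⟫_ℝ * ⟪y, bs L hL i⟫_ℝ) := by
  rw [← (bs L hL).sum_inner_mul_inner]
  refine Finset.sum_congr rfl fun i _ => ?_
  rw [inner_L_bs, real_inner_comm y]; ring

theorem norm_sq_eq (x : G) : ‖x‖ ^ 2 = ∑ i, ⟪x, bs L hL i⟫_ℝ ^ 2 := by
  rw [← real_inner_self_eq_norm_sq, ← (bs L hL).sum_inner_mul_inner]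
  refine Finset.sum_congr rfl fun i _ => ?_
  rw [real_inner_comm x]; ring

theorem norm_L_sub_sq (γ : ℝ) (x : G) :
    ‖L x - γ • x‖ ^ 2 = ∑ i, (ev L hL i - γ) ^ 2 * ⟪x, bs L hL i⟫_ℝ ^ 2 := by
  rw [norm_sq_eq L hL]
  refine Finset.sum_congr rfl fun i _ => ?_
  rw [inner_sub_left, inner_L_bs, real_inner_smul_left]; ring

theorem norm_L_sub_ge {γ δ : ℝ} (hδ : 0 ≤ δ) (h : ∀ i, δ ≤ |ev L hL i - γ|) (x : G) :
    δ * ‖x‖ ≤ ‖L x - γ • x‖ := by
  have h1 : (δ * ‖x‖) ^ 2 ≤ ‖L x - γ • x‖ ^ 2 := by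
    rw [mul_pow, norm_sq_eq L hL x, norm_L_sub_sq L hL, Finset.mul_sum]
    refine Finset.sum_le_sum fun i _ => ?_
    have h2 : δ ^ 2 ≤ (ev L hL i - γ) ^ 2 := by
      rw [← sq_abs (ev L hL i - γ)]
      exact pow_le_pow_left₀ hδ (h i) 2
    exact mul_le_mul_of_nonneg_right h2 (sq_nonneg _)
  exact le_of_sq_le_sq h1 (norm_nonneg _)

/-- span of the eigenvectors with index in `S` -/
noncomputable def espan (S : Set (Fin (finrank ℝ G))) : Submodule ℝ G :=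
  Submodule.span ℝ (Set.range fun i : S => bs L hL i)

theorem inner_espan {S : Set (Fin (finrank ℝ G))} {x : G} (hx : x ∈ espan L hL S)
    {i : Fin (finrank ℝ G)} (hi : i ∉ S) : ⟪x, bs L hL i⟫_ℝ = 0 := by
  unfold espan at hx
  induction hx using Submodule.span_induction with
  | mem x h =>
    obtain ⟨k, rfl⟩ := h
    have hk : (k : Fin (finrank ℝ G)) ≠ i := fun h => hi (h ▸ k.2)
    exact (bs L hL).orthonormal.2 hk
  | zero => simp
  | add x y _ _ hx hy => rw [inner_add_left, hx, hy, add_zero]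
  | smul a x _ hx => rw [real_inner_smul_left, hx, mul_zero]

theorem finrank_espan (S : Set (Fin (finrank ℝ G))) [Fintype S] :
    finrank ℝ (espan L hL S) = Fintype.card S := by
  unfold espan
  rw [finrank_span_eq_card]
  exact ((bs L hL).orthonormal.linearIndependent.comp (fun i : S => (i : Fin (finrank ℝ G)))
    Subtype.val_injective)

end Spec

/-- Hypotheses of the gap transfer at one time. -/
structure GapHyp (K L : G →L[ℝ] G) (b m η ρ γ : ℝ) (W : Submodule ℝ G) : Prop where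
  symm : ∀ x y, ⟪L x, y⟫_ℝ = ⟪x, L y⟫_ℝ
  pos : ∀ x, 0 ≤ ⟪L x, x⟫_ℝ
  b_nonneg : 0 ≤ b
  m_nonneg : 0 ≤ m
  ρ_nonneg : 0 ≤ ρ
  ρ_le : ρ ≤ 1
  ρ_small : ρ * (m + 3) ≤ η
  γ_nonneg : 0 ≤ γ
  γ_eq : γ ^ 2 + b * γ = m
  bound : ∀ x, |⟪K x, x⟫_ℝ - b * ⟪L x, x⟫_ℝ - ‖L x‖ ^ 2| ≤ ρ * (⟪L x, x⟫_ℝ + ‖x‖ ^ 2)
  low : ∀ x ∈ W, ⟪K x, x⟫_ℝ ≤ (m - η) * ‖x‖ ^ 2
  high : ∀ x ∈ Wᗮ, (m + η) * ‖x‖ ^ 2 ≤ ⟪K x, x⟫_ℝ

namespace GapHyp

variable {K L : G →L[ℝ] G} {b m η ρ γ : ℝ} {W : Submodule ℝ G}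

theorem inner_le (h : GapHyp K L b m η ρ γ W) (x : G) :
    2 * ⟪L x, x⟫_ℝ ≤ ‖L x‖ ^ 2 + ‖x‖ ^ 2 := by
  have h1 := real_inner_le_norm (L x) x
  nlinarith [sq_nonneg (‖L x‖ - ‖x‖)]

theorem η_nonneg (h : GapHyp K L b m η ρ γ W) : 0 ≤ η :=
  (mul_nonneg h.ρ_nonneg (by linarith [h.m_nonneg])).trans h.ρ_small

/-- `Λ² + bΛ ≤ m - η/2` on `W`. -/
theorem q_low (h : GapHyp K L b m η ρ γ W) {x : G} (hx : x ∈ W) :
    ‖L x‖ ^ 2 + b * ⟪L x, x⟫_ℝ - m * ‖x‖ ^ 2 ≤ -(η / 4) * ‖x‖ ^ 2 := by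
  have h1 := abs_le.1 (h.bound x)
  have h2 := h.low x hx
  have h3 := h.inner_le x
  have h4 := h.ρ_nonneg
  have h5 := h.ρ_le
  have h6 := mul_nonneg h.b_nonneg (h.pos x)
  have h7 := mul_le_mul_of_nonneg_right h.ρ_small (sq_nonneg ‖x‖)
  have h8 := h.η_nonneg
  have h9 := mul_nonneg h8 (sq_nonneg ‖x‖)
  set A := ‖L x‖ ^ 2 with hA
  set B := ⟪L x, x⟫_ℝ with hB
  set N := ‖x‖ ^ 2 with hN
  have hA0 : 0 ≤ A := sq_nonneg _
  have hN0 : 0 ≤ N := sq_nonneg _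
  set q := A + b * B - m * N with hq
  -- q ≤ -η N + ρ (B + N)
  have e1 : q ≤ -η * N + ρ * (B + N) := by nlinarith
  -- ρ B ≤ ρ/2 (q + (m+1) N)
  have e2 : ρ * B ≤ ρ / 2 * (q + (m + 1) * N) := by
    have : 2 * B ≤ q + (m + 1) * N := by nlinarith
    nlinarith
  have e3 : (1 - ρ / 2) * q ≤ -(η / 2) * N := by nlinarith
  by_contra hcon
  push Not at hcon
  have : (1 - ρ / 2) * (-(η / 4) * N) < (1 - ρ / 2) * q :=
    mul_lt_mul_of_pos_left hcon (by linarith)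
  nlinarith

theorem q_high (h : GapHyp K L b m η ρ γ W) {x : G} (hx : x ∈ Wᗮ) :
    (η / 4) * ‖x‖ ^ 2 ≤ ‖L x‖ ^ 2 + b * ⟪L x, x⟫_ℝ - m * ‖x‖ ^ 2 := by
  have h1 := abs_le.1 (h.bound x)
  have h2 := h.high x hx
  have h3 := h.inner_le x
  have h4 := h.ρ_nonneg
  have h5 := h.ρ_le
  have h6 := mul_nonneg h.b_nonneg (h.pos x)
  have h7 := mul_le_mul_of_nonneg_right h.ρ_small (sq_nonneg ‖x‖)
  have h8 := h.η_nonneg
  have h9 := mul_nonneg h8 (sq_nonneg ‖x‖)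
  set A := ‖L x‖ ^ 2 with hA
  set B := ⟪L x, x⟫_ℝ with hB
  set N := ‖x‖ ^ 2 with hN
  have hA0 : 0 ≤ A := sq_nonneg _
  have hN0 : 0 ≤ N := sq_nonneg _
  set q := A + b * B - m * N with hq
  have e1 : η * N - ρ * (B + N) ≤ q := by nlinarith
  have e2 : ρ * B ≤ ρ / 2 * (q + (m + 1) * N) := by
    have : 2 * B ≤ q + (m + 1) * N := by nlinarith
    nlinarith
  have e3 : (η / 2) * N ≤ (1 + ρ / 2) * q := by nlinarith
  by_contra hcon
  push Not at hcon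
  have : (1 + ρ / 2) * q < (1 + ρ / 2) * ((η / 4) * N) :=
    mul_lt_mul_of_pos_left hcon (by linarith)
  nlinarith

/-- the operator `Λ² + bΛ - m` -/
noncomputable def Q (L : G →L[ℝ] G) (b m : ℝ) : G →L[ℝ] G :=
  L.comp L + b • L - m • ContinuousLinearMap.id ℝ G

theorem Q_apply (x : G) : Q L b m x = L (L x) + b • L x - m • x := rfl

theorem inner_Q (h : GapHyp K L b m η ρ γ W) (x : G) :
    ⟪Q L b m x, x⟫_ℝ = ‖L x‖ ^ 2 + b * ⟪L x, x⟫_ℝ - m * ‖x‖ ^ 2 := by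
  rw [Q_apply, inner_sub_left, inner_add_left, real_inner_smul_left, real_inner_smul_left,
    h.symm, real_inner_self_eq_norm_sq, real_inner_self_eq_norm_sq]

theorem symm_Q (h : GapHyp K L b m η ρ γ W) (x y : G) :
    ⟪Q L b m x, y⟫_ℝ = ⟪x, Q L b m y⟫_ℝ := by
  rw [Q_apply, Q_apply, inner_sub_left, inner_add_left, real_inner_smul_left,
    real_inner_smul_left, inner_sub_right, inner_add_right, real_inner_smul_right,
    real_inner_smul_right, h.symm, h.symm, h.symm]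

theorem norm_Q (h : GapHyp K L b m η ρ γ W) (x : G) : (η / 4) * ‖x‖ ≤ ‖Q L b m x‖ := by
  refine norm_ge_of_sep h.symm_Q (W := W) (fun y hy => ?_) (fun y hy => ?_) x
  · rw [h.inner_Q]; exact h.q_low hy
  · rw [h.inner_Q]; exact h.q_high hy

theorem isSymm (h : GapHyp K L b m η ρ γ W) : (L : G →ₗ[ℝ] G).IsSymmetric := fun x y => h.symm x y

theorem ev_nonneg (h : GapHyp K L b m η ρ γ W) (i) : 0 ≤ ev L h.isSymm i := by
  have h1 := h.pos (bs L h.isSymm i)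
  rw [L_bs, real_inner_smul_left, real_inner_self_eq_norm_sq,
    (bs L h.isSymm).orthonormal.1 i] at h1
  simpa using h1

/-- The eigenvalues of `Λ` stay away from `γ`. -/
theorem ev_gap (h : GapHyp K L b m η ρ γ W) {δ : ℝ} (hδ0 : 0 < δ) (hδ1 : δ ≤ 1)
    (hδ : 4 * δ * (2 * γ + b + 1) ≤ η) (i) : δ ≤ |ev L h.isSymm i - γ| := by
  set p := ev L h.isSymm i with hp
  have hp0 : 0 ≤ p := h.ev_nonneg i
  have h1 := h.norm_Q (bs L h.isSymm i)
  have h2 : Q L b m (bs L h.isSymm i) = (p ^ 2 + b * p - m) • bs L h.isSymm i := by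
    rw [Q_apply, L_bs, map_smul, L_bs, ← hp]
    module
  rw [h2, norm_smul, (bs L h.isSymm).orthonormal.1 i, mul_one, mul_one, Real.norm_eq_abs] at h1
  have h3 : p ^ 2 + b * p - m = (p - γ) * (p + γ + b) := by rw [← h.γ_eq]; ring
  have hb := h.b_nonneg
  have hγ := h.γ_nonneg
  rw [h3, abs_mul, abs_of_nonneg (by linarith : 0 ≤ p + γ + b)] at h1
  by_contra hcon
  push Not at hcon
  have h4 : |p - γ| < 1 := by linarith
  have h5 := (abs_lt.1 h4).2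
  have h6 : p + γ + b < 2 * γ + b + 1 := by linarith
  have h7 : |p - γ| * (p + γ + b) < δ * (2 * γ + b + 1) := by
    have h8 : 0 ≤ |p - γ| := abs_nonneg _
    calc |p - γ| * (p + γ + b) ≤ |p - γ| * (2 * γ + b + 1) :=
          mul_le_mul_of_nonneg_left h6.le h8
      _ < δ * (2 * γ + b + 1) := mul_lt_mul_of_pos_right hcon (by linarith)
  linarith

theorem norm_ge (h : GapHyp K L b m η ρ γ W) {δ : ℝ} (hδ0 : 0 < δ) (hδ1 : δ ≤ 1)
    (hδ : 4 * δ * (2 * γ + b + 1) ≤ η) (x : G) : δ * ‖x‖ ≤ ‖L x - γ • x‖ :=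
  norm_L_sub_ge L h.isSymm hδ0.le (h.ev_gap hδ0 hδ1 hδ) x

/-- `Λ ≤ γ - δ` on `W`. -/
theorem low_L (h : GapHyp K L b m η ρ γ W) {δ : ℝ} (hδ0 : 0 < δ)
    (hδ : 4 * δ * (2 * γ + b + 1) ≤ η) {x : G} (hx : x ∈ W) :
    ⟪L x, x⟫_ℝ ≤ (γ - δ) * ‖x‖ ^ 2 := by
  have h1 := h.q_low hx
  have h2 := real_inner_le_norm (L x) x
  have h3 := h.pos x
  have hb := h.b_nonneg
  have hγ := h.γ_nonneg
  rcases (norm_nonneg x).eq_or_lt with h0 | h0
  · have : x = 0 := norm_eq_zero.1 h0.symm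
    simp [this]
  by_contra hcon
  push Not at hcon
  set B := ⟪L x, x⟫_ℝ
  set A := ‖L x‖
  set N := ‖x‖
  -- `B > (γ - δ) N²`, `B ≤ A N`, `A² + b B ≤ (m - η/4) N²`
  have hN2 : 0 < N ^ 2 := by positivity
  have hA0 : 0 ≤ A := norm_nonneg _
  rcases le_or_gt (γ - δ) 0 with hγδ | hγδ
  · -- then m - η/4 < 0
    have hA2 : 0 ≤ A ^ 2 + b * B := by positivity
    have h5 : (η / 4) * N ^ 2 ≤ m * N ^ 2 := by nlinarith
    have h6 : η / 4 ≤ m := le_of_mul_le_mul_right h5 hN2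
    have h7 : m ≤ γ * (γ + b) := by rw [← h.γ_eq]; nlinarith
    have h8 : γ * (γ + b) ≤ δ * (γ + b) := mul_le_mul_of_nonneg_right (by linarith) (by linarith)
    have h9 : δ * (γ + b) < δ * (2 * γ + b + 1) := mul_lt_mul_of_pos_left (by linarith) hδ0
    linarith
  · have h5 : ((γ - δ) * N) ^ 2 ≤ A ^ 2 := by
      apply pow_le_pow_left₀ (by positivity)
      have : (γ - δ) * N * N ≤ A * N := by nlinarith
      exact le_of_mul_le_mul_right this h0
    have h6 : b * ((γ - δ) * N ^ 2) ≤ b * B := mul_le_mul_of_nonneg_left hcon.le hb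
    have h7 : ((γ - δ) ^ 2 + b * (γ - δ)) * N ^ 2 ≤ (m - η / 4) * N ^ 2 := by nlinarith
    have h8 : (γ - δ) ^ 2 + b * (γ - δ) ≤ m - η / 4 := le_of_mul_le_mul_right h7 hN2
    have h9 : (γ - δ) ^ 2 + b * (γ - δ) = m - δ * (2 * γ + b) + δ ^ 2 := by
      rw [← h.γ_eq]; ring
    nlinarith

/-- Nondegeneracy: `u` in the cone `Λ ≤ γ` and `(Λ-γ)`-orthogonal to `W` vanishes. -/
theorem nondeg (h : GapHyp K L b m η ρ γ W) (hη : 0 < η) {u : G}
    (hu : ⟪L u - γ • u, u⟫_ℝ ≤ 0) (hW : ∀ x ∈ W, ⟪L x - γ • x, u⟫_ℝ = 0) : u = 0 := by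
  classical
  have hb := h.b_nonneg
  have hγ := h.γ_nonneg
  obtain ⟨δ, hδ0, hδ1, hδ⟩ : ∃ δ : ℝ, 0 < δ ∧ δ ≤ 1 ∧ 4 * δ * (2 * γ + b + 1) ≤ η := by
    have hc : 0 < 4 * (2 * γ + b + 1) := by linarith
    refine ⟨min 1 (η / (4 * (2 * γ + b + 1))), lt_min one_pos (by positivity), min_le_left _ _, ?_⟩
    have := min_le_right 1 (η / (4 * (2 * γ + b + 1)))
    calc 4 * min 1 (η / (4 * (2 * γ + b + 1))) * (2 * γ + b + 1)
        = min 1 (η / (4 * (2 * γ + b + 1))) * (4 * (2 * γ + b + 1)) := by ring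
      _ ≤ η / (4 * (2 * γ + b + 1)) * (4 * (2 * γ + b + 1)) :=
          mul_le_mul_of_nonneg_right this hc.le
      _ = η := div_mul_cancel₀ _ hc.ne'
  have hgap := h.ev_gap hδ0 hδ1 hδ
  set e := bs L h.isSymm with he
  set p := ev L h.isSymm with hp
  -- spectral spaces
  set Sm : Set (Fin (finrank ℝ G)) := {i | p i < γ} with hSm
  set Sp : Set (Fin (finrank ℝ G)) := {i | γ < p i} with hSp
  have hSmp : ∀ i, i ∉ Sp → i ∈ Sm := by
    intro i hi
    have h1 : ¬ γ < p i := hi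
    have h2 : p i ≠ γ := by
      intro h3
      have := hgap i
      rw [h3] at this
      simp at this
      linarith
    exact lt_of_le_of_ne (not_lt.1 h1) h2
  have hcard : Fintype.card Sm + Fintype.card Sp = finrank ℝ G := by
    have h1 : Sp = Smᶜ := by
      ext i
      constructor
      · intro h1 h2
        exact absurd (lt_trans (show γ < p i from h1) (show p i < γ from h2)) (lt_irrefl _)
      · intro h1
        by_contra h2
        exact h1 (hSmp i h2)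
    have h2 := Fintype.card_compl_set Sm
    have h3 : Fintype.card Sp = Fintype.card ↥(Smᶜ) := by
      simp only [h1]
    have h4 : Fintype.card Sm ≤ Fintype.card (Fin (finrank ℝ G)) := set_fintype_card_le_univ Sm
    rw [Fintype.card_fin] at h2 h4
    omega
  -- `finrank E₋ + finrank W^⊥ ≤ finrank G`
  have hEm : finrank ℝ (espan L h.isSymm Sm) + finrank ℝ Wᗮ ≤ finrank ℝ G := by
    apply Submodule.finrank_add_finrank_le_of_disjoint
    rw [Submodule.disjoint_def]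
    intro x hx1 hx2
    have h1 := h.q_high hx2
    have h2 : ‖L x‖ ^ 2 + b * ⟪L x, x⟫_ℝ - m * ‖x‖ ^ 2 ≤ 0 := by
      have e1 : ‖L x‖ ^ 2 = ∑ i, (p i) ^ 2 * ⟪x, e i⟫_ℝ ^ 2 := by
        have := norm_L_sub_sq L h.isSymm 0 x
        simpa using this
      rw [e1, inner_L L h.isSymm, norm_sq_eq L h.isSymm x, Finset.mul_sum, Finset.mul_sum,
        ← Finset.sum_add_distrib, ← Finset.sum_sub_distrib]
      refine Finset.sum_nonpos fun i _ => ?_
      rw [← hp, ← he]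
      by_cases hi : i ∈ Sm
      · have h3 : p i < γ := hi
        have h4 : 0 ≤ p i := h.ev_nonneg i
        have h5 : (p i) ^ 2 + b * p i - m ≤ 0 := by
          rw [← h.γ_eq]; nlinarith
        nlinarith [sq_nonneg ⟪x, e i⟫_ℝ]
      · have h3 := inner_espan L h.isSymm hx1 hi
        rw [← he] at h3
        rw [h3]; simp
    have h3 : (η / 4) * ‖x‖ ^ 2 ≤ 0 := h1.trans h2
    have h4 : ‖x‖ ^ 2 ≤ 0 := by
      by_contra h5
      push Not at h5
      have : 0 < (η / 4) * ‖x‖ ^ 2 := by positivity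
      linarith
    have h5 : ‖x‖ = 0 := by
      have := sq_nonneg ‖x‖
      have h6 : ‖x‖ ^ 2 = 0 := le_antisymm h4 this
      exact pow_eq_zero_iff (two_ne_zero) |>.1 h6
    exact norm_eq_zero.1 h5
  rw [finrank_espan] at hEm
  have hWW : finrank ℝ W + finrank ℝ Wᗮ = finrank ℝ G := W.finrank_add_finrank_orthogonal
  -- assume `u ≠ 0`
  by_contra hu0
  set Z : Submodule ℝ G := W ⊔ Submodule.span ℝ {u} with hZ
  have huW : u ∉ W := by
    intro hmem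
    have h1 := h.low_L hδ0 hδ hmem
    have h2 := hW u hmem
    rw [inner_sub_left, real_inner_smul_left, real_inner_self_eq_norm_sq] at h2
    have h3 : 0 < ‖u‖ ^ 2 := by
      have : 0 < ‖u‖ := norm_pos_iff.2 hu0
      positivity
    nlinarith
  have hZdim : finrank ℝ Z = finrank ℝ W + 1 := by
    have h1 : Disjoint W (Submodule.span ℝ {u}) := by
      rw [Submodule.disjoint_span_singleton' hu0]
      exact huW
    have h2 := Submodule.finrank_sup_add_finrank_inf_eq W (Submodule.span ℝ {u})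
    rw [h1.eq_bot, finrank_bot, add_zero, finrank_span_singleton hu0] at h2
    exact h2
  -- form nonpositive on `Z`
  have hZneg : ∀ x ∈ Z, ⟪L x - γ • x, x⟫_ℝ ≤ 0 := by
    intro x hx
    obtain ⟨y, hy, z, hz, rfl⟩ := Submodule.mem_sup.1 hx
    obtain ⟨c, rfl⟩ := Submodule.mem_span_singleton.1 hz
    have h1 := h.low_L hδ0 hδ hy
    have h2 := hW y hy
    have h3 : ⟪L y - γ • y, y⟫_ℝ ≤ 0 := by
      rw [inner_sub_left, real_inner_smul_left, real_inner_self_eq_norm_sq]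
      nlinarith [sq_nonneg ‖y‖]
    have h4 : ⟪L u - γ • u, y⟫_ℝ = 0 := by
      rw [inner_sub_left, real_inner_smul_left, h.symm, real_inner_comm] 
      rw [inner_sub_left, real_inner_smul_left] at h2
      rw [real_inner_comm u y] at h2
      linarith
    have e1 : L (y + c • u) - γ • (y + c • u) = (L y - γ • y) + c • (L u - γ • u) := by
      rw [map_add, map_smul]; module
    rw [e1, inner_add_left, inner_add_right, inner_add_right, real_inner_smul_right,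
      real_inner_smul_left, real_inner_smul_left, real_inner_smul_right, h2, h4]
    nlinarith [mul_nonneg (mul_self_nonneg c) (neg_nonneg.2 hu)]
  -- `Z ∩ E₊ = 0`
  have hdis : Disjoint Z (espan L h.isSymm Sp) := by
    rw [Submodule.disjoint_def]
    intro x hx1 hx2
    have h1 := hZneg x hx1
    have h2 : δ * ‖x‖ ^ 2 ≤ ⟪L x - γ • x, x⟫_ℝ := by
      rw [inner_sub_left, real_inner_smul_left, real_inner_self_eq_norm_sq,
        inner_L L h.isSymm, norm_sq_eq L h.isSymm x, Finset.mul_sum, Finset.mul_sum,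
        ← Finset.sum_sub_distrib]
      refine Finset.sum_le_sum fun i _ => ?_
      rw [← hp, ← he]
      by_cases hi : i ∈ Sp
      · have h3 : γ < p i := hi
        have h4 := hgap i
        rw [abs_of_pos (by linarith)] at h4
        nlinarith [sq_nonneg ⟪x, e i⟫_ℝ]
      · have h3 := inner_espan L h.isSymm hx2 hi
        rw [← he] at h3
        rw [h3]; simp
    have h3 : ‖x‖ ^ 2 ≤ 0 := by
      by_contra h5
      push Not at h5
      have : 0 < δ * ‖x‖ ^ 2 := by positivity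
      linarith
    have h6 : ‖x‖ ^ 2 = 0 := le_antisymm h3 (sq_nonneg _)
    exact norm_eq_zero.1 (pow_eq_zero_iff (two_ne_zero) |>.1 h6)
  have hfin := Submodule.finrank_add_finrank_le_of_disjoint hdis
  rw [finrank_espan, hZdim] at hfin
  omega

end GapHyp

end Crest.Agent.R202.GateLin
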