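import Mathlib
import Crest.Agent.R202.SegDefs
import Crest.Agent.R202.GateLin

/-! # Row 202, PART B2 (gates): `gateCone` and `gateSign` (helper557) -/

set_option autoImplicit false

open Set
open scoped InnerProductSpace

namespace Crest.Agent.R202.Seg

open Crest.Agent.R202.GateLin (GapHyp)

theorem freq_nonneg {b m : ℝ} (_hb : 0 ≤ b) (hm : 0 ≤ m) : 0 ≤ freq b m := by
  unfold freq
  have h1 : b / 2 ≤ Real.sqrt (b ^ 2 / 4 + m) := by
    apply Real.le_sqrt_of_sq_le
    nlinarith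
  linarith

theorem freq_eq {b m : ℝ} (hm : 0 ≤ m) : freq b m ^ 2 + b * freq b m = m := by
  unfold freq
  have h1 := Real.sq_sqrt (show 0 ≤ b ^ 2 / 4 + m by positivity)
  nlinarith

theorem freq_le {b m M : ℝ} (hb : 0 ≤ b) (hm : 0 ≤ m) (hM : m ≤ M) : freq b m ≤ 1 + M := by
  have h1 := freq_nonneg hb hm
  have h2 := freq_eq (b := b) hm
  have h3 := mul_nonneg hb h1
  by_contra h
  push Not at h
  nlinarith

theorem hasDerivAt_freq {b m : ℝ → ℝ} {b' m' : ℝ} {t : ℝ} (hb : HasDerivAt b b' t)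
    (hm : HasDerivAt m m' t) (hpos : 0 < b t ^ 2 / 4 + m t) :
    HasDerivAt (fun s => freq (b s) (m s))
      (-(b' / 2) + (b t * b' / 2 + m') / (2 * Real.sqrt (b t ^ 2 / 4 + m t))) t := by
  unfold freq
  have h1 : HasDerivAt (fun s => b s ^ 2 / 4 + m s) (b t * b' / 2 + m') t := by
    have := ((hb.pow 2).div_const 4).add hm
    refine this.congr_deriv ?_
    simp
    ring
  have h2 := h1.sqrt hpos.ne'
  exact (hb.div_const 2).neg.add h2

theorem freq_deriv_le {b b' m m' δ M : ℝ} (hb : 1 / 2 ≤ b) (hbM : b ≤ M) (hm : 0 ≤ m)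
    (hb' : |b'| ≤ δ) (hm' : |m'| ≤ δ) :
    |-(b' / 2) + (b * b' / 2 + m') / (2 * Real.sqrt (b ^ 2 / 4 + m))| ≤ δ * (5 / 2 + M) := by
  have hδ : 0 ≤ δ := (abs_nonneg _).trans hb'
  have h1 : 1 / 4 ≤ Real.sqrt (b ^ 2 / 4 + m) := by
    apply Real.le_sqrt_of_sq_le
    nlinarith
  have h2 : |(b * b' / 2 + m') / (2 * Real.sqrt (b ^ 2 / 4 + m))| ≤ 2 * (M * δ / 2 + δ) := by
    rw [abs_div, abs_of_pos (by linarith : 0 < 2 * Real.sqrt (b ^ 2 / 4 + m))]
    rw [div_le_iff₀ (by linarith)]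
    have h3 : |b * b' / 2 + m'| ≤ M * δ / 2 + δ := by
      have h4 : |b * b' / 2| ≤ M * δ / 2 := by
        rw [abs_div, abs_mul, abs_of_pos (by linarith : 0 < b), abs_two]
        have : b * |b'| ≤ M * δ := mul_le_mul hbM hb' (abs_nonneg _) (by linarith)
        linarith
      exact (abs_add_le _ _).trans (add_le_add h4 hm')
    have h5 : 0 ≤ M * δ / 2 + δ := by
      have : 0 ≤ M := by linarith
      positivity
    nlinarith
  have h6 : |-(b' / 2)| ≤ δ / 2 := by
    rw [abs_neg, abs_div, abs_two]; linarith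
  calc |-(b' / 2) + (b * b' / 2 + m') / (2 * Real.sqrt (b ^ 2 / 4 + m))|
      ≤ |-(b' / 2)| + |(b * b' / 2 + m') / (2 * Real.sqrt (b ^ 2 / 4 + m))| := abs_add_le _ _
    _ ≤ δ / 2 + 2 * (M * δ / 2 + δ) := add_le_add h6 h2
    _ = δ * (5 / 2 + M) := by ring

/-- If `B` can only vanish with positive derivative, then `B ≤ 0` is inherited inwards. -/
theorem nonpos_of_deriv_pos {B B' : ℝ → ℝ} {a c : ℝ}
    (hB : ∀ t ∈ Icc a c, HasDerivAt B (B' t) t)
    (hpos : ∀ t ∈ Icc a c, B t = 0 → 0 < B' t) (hc : B c ≤ 0) {t : ℝ} (ht : t ∈ Icc a c) :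
    B t ≤ 0 := by
  have h1 : ∀ s ∈ Icc a c, HasDerivAt (fun s => B (a + c - s)) (-B' (a + c - s)) s := by
    intro s hs
    have h2 : a + c - s ∈ Icc a c := ⟨by linarith [hs.2], by linarith [hs.1]⟩
    have h3 : HasDerivAt (fun s : ℝ => a + c - s) (-1) s := by
      simpa using (hasDerivAt_id s).const_sub (a + c)
    have h4 := (hB _ h2).comp s h3
    refine h4.congr_deriv ?_
    ring
  have key := image_le_of_deriv_right_lt_deriv_boundary' (f := fun s => B (a + c - s))
    (f' := fun s => -B' (a + c - s)) (a := a) (b := c)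
    (fun s hs => (h1 s hs).continuousAt.continuousWithinAt)
    (fun s hs => (h1 s ⟨hs.1, hs.2.le⟩).hasDerivWithinAt)
    (B := fun _ => 0) (B' := fun _ => 0) (by simpa using hc) continuousOn_const
    (fun s _ => hasDerivWithinAt_const _ _ _) (fun s hs h0 => by
      have h2 : a + c - s ∈ Icc a c := ⟨by linarith [hs.2], by linarith [hs.1]⟩
      have := hpos _ h2 h0
      linarith)
  have h5 : a + c - t ∈ Icc a c := ⟨by linarith [ht.2], by linarith [ht.1]⟩
  have h6 := key h5
  simpa using h6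

variable {G : Type} [NormedAddCommGroup G] [InnerProductSpace ℝ G]

namespace Flow

variable (F : Flow G)

theorem hasDerivAt_u {t : ℝ} (ht : F.t1 < t) (x : G) :
    HasDerivAt (fun s => F.U s x) (F.L t (F.U t x)) t := by
  have h := (F.hasDerivAt_U t ht).clm_apply (hasDerivAt_const t x)
  simpa using h

theorem hasDerivAt_Lu {t : ℝ} (ht : F.t1 < t) (x : G) :
    HasDerivAt (fun s => F.L s (F.U s x)) (F.K t (F.U t x) - F.b t • F.L t (F.U t x)) t := by
  have h := (F.riccati t ht).clm_apply (F.hasDerivAt_u ht x)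
  refine h.congr_deriv ?_
  simp

/-- derivative of the frequency defect -/
theorem hasDerivAt_defect {t γ' : ℝ} {γ : ℝ → ℝ} (ht : F.t1 < t) (hγ : HasDerivAt γ γ' t)
    (x : G) :
    HasDerivAt (fun s => ⟪F.L s (F.U s x), F.U s x⟫_ℝ - γ s * ‖F.U s x‖ ^ 2)
      (2 * ‖F.L t (F.U t x) - γ t • F.U t x‖ ^ 2
        + 2 * γ t * (⟪F.L t (F.U t x), F.U t x⟫_ℝ - γ t * ‖F.U t x‖ ^ 2)
        + (⟪F.K t (F.U t x), F.U t x⟫_ℝ - F.b t * ⟪F.L t (F.U t x), F.U t x⟫_ℝ
          - ‖F.L t (F.U t x)‖ ^ 2)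
        - γ' * ‖F.U t x‖ ^ 2) t := by
  have h1 := (F.hasDerivAt_Lu ht x).inner ℝ (F.hasDerivAt_u ht x)
  have h2 := (F.hasDerivAt_u ht x).norm_sq
  have h3 := h1.sub (hγ.mul h2)
  refine h3.congr_deriv ?_
  rw [norm_sub_sq_real, norm_smul, Real.norm_eq_abs, mul_pow, sq_abs, real_inner_smul_right,
    inner_sub_left, real_inner_smul_left, real_inner_self_eq_norm_sq,
    real_inner_comm (F.L t (F.U t x)) (F.U t x)]
  ring

end Flow

namespace OpenCut

variable {F : Flow G} {l : ℕ} {η M δ : ℝ} {m m' b' : ℝ → ℝ} {f : ℝ → Fin l → G} {a c : ℝ}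

theorem t1_lt' (h : OpenCut F l η M δ m m' b' f a c) {t : ℝ} (ht : t ∈ Icc a c) : F.t1 < t :=
  lt_of_lt_of_le h.t1_lt ht.1

theorem restrict (h : OpenCut F l η M δ m m' b' f a c) {t : ℝ} (ht : t ∈ Icc a c) :
    OpenCut F l η M δ m m' b' f t c := by
  have hs : Icc t c ⊆ Icc a c := Icc_subset_Icc_left ht.1
  exact ⟨h.t1_lt' ht, ht.2, fun s hs' => h.li s (hs hs'), h.cont.mono hs,
    fun s hs' => h.low s (hs hs'), fun s hs' => h.high s (hs hs'),
    fun s hs' => h.m_deriv s (hs hs'), fun s hs' => h.m'_le s (hs hs'),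
    fun s hs' => h.b_deriv s (hs hs'), fun s hs' => h.b'_le s (hs hs'),
    fun s hs' => h.b_le s (hs hs'), fun s hs' => h.m_ge s (hs hs'),
    fun s hs' => h.m_le s (hs hs'), fun s hs' => h.ρ_le s (hs hs')⟩

/-- the gap hypotheses at time `t` -/
theorem gapHyp (h : OpenCut F l η M δ m m' b' f a c) (hη : 0 < η) (hδ1 : δ ≤ 1)
    (hδ : δ * (M + 3) ≤ η) {t : ℝ} (ht : t ∈ Icc a c) :
    GapHyp (F.K t) (F.L t) (F.b t) (m t) η (F.ρ t) (freq (F.b t) (m t))
      (Submodule.span ℝ (range (f t))) := by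
  have ht1 := h.t1_lt' ht
  have hm0 : 0 ≤ m t := hη.le.trans (h.m_ge t ht)
  have hb0 : 0 ≤ F.b t := by linarith [F.b_ge t ht1]
  have hρ := h.ρ_le t ht
  have hρ0 := F.ρ_nonneg t ht1
  refine ⟨F.symm t ht1, F.nonneg t ht1, hb0, hm0, hρ0, hρ.trans hδ1, ?_, freq_nonneg hb0 hm0,
    freq_eq hm0, F.bound t ht1, h.low t ht, ?_⟩
  · have hmM := h.m_le t ht
    calc F.ρ t * (m t + 3) ≤ δ * (M + 3) :=
          mul_le_mul hρ (by linarith) (by linarith) (hρ0.trans hρ)
      _ ≤ η := hδ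
  · intro x hx
    apply h.high t ht x
    intro i
    exact Submodule.inner_right_of_mem_orthogonal (Submodule.subset_span (mem_range_self i)) hx

theorem freq_mem (h : OpenCut F l η M δ m m' b' f a c) (hη : 0 < η) {t : ℝ} (ht : t ∈ Icc a c) :
    0 ≤ freq (F.b t) (m t) ∧ freq (F.b t) (m t) ≤ 1 + M := by
  have ht1 := h.t1_lt' ht
  have hm0 : 0 ≤ m t := hη.le.trans (h.m_ge t ht)
  have hb0 : 0 ≤ F.b t := by linarith [F.b_ge t ht1]
  exact ⟨freq_nonneg hb0 hm0, freq_le hb0 hm0 (by linarith [h.m_le t ht])⟩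

end OpenCut

/-- (G1) -/
theorem gateCone : GateCone := by
  intro η M hη hM
  set g : ℝ := min 1 (η / (12 * (1 + M))) with hg
  have hM1 : 0 < 12 * (1 + M) := by linarith
  have hg0 : 0 < g := lt_min one_pos (by positivity)
  have hg1 : g ≤ 1 := min_le_left _ _
  have hg2 : g * (12 * (1 + M)) ≤ η := by
    have := min_le_right 1 (η / (12 * (1 + M)))
    calc g * (12 * (1 + M)) ≤ η / (12 * (1 + M)) * (12 * (1 + M)) :=
          mul_le_mul_of_nonneg_right this hM1.le
      _ = η := div_mul_cancel₀ _ hM1.ne'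
  set δ : ℝ := min 1 (min (η / (M + 3)) (g ^ 2 / (2 * M + 5))) with hδ
  have hδ0 : 0 < δ := lt_min one_pos (lt_min (by positivity) (by positivity))
  have hδ1 : δ ≤ 1 := min_le_left _ _
  have hδ2 : δ * (M + 3) ≤ η := by
    have h1 : δ ≤ η / (M + 3) := (min_le_right _ _).trans (min_le_left _ _)
    have h2 : 0 < M + 3 := by linarith
    calc δ * (M + 3) ≤ η / (M + 3) * (M + 3) := mul_le_mul_of_nonneg_right h1 h2.le
      _ = η := div_mul_cancel₀ _ h2.ne'
  have hδ3 : δ * (2 * M + 5) ≤ g ^ 2 := by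
    have h1 : δ ≤ g ^ 2 / (2 * M + 5) := (min_le_right _ _).trans (min_le_right _ _)
    have h2 : 0 < 2 * M + 5 := by linarith
    calc δ * (2 * M + 5) ≤ g ^ 2 / (2 * M + 5) * (2 * M + 5) :=
          mul_le_mul_of_nonneg_right h1 h2.le
      _ = g ^ 2 := div_mul_cancel₀ _ h2.ne'
  refine ⟨δ, hδ0, ?_⟩
  intro G _ _ _ F l m m' b' f a c h x hc
  by_cases hx : x = 0
  · subst hx
    simp [FCone]
  set γ : ℝ → ℝ := fun s => freq (F.b s) (m s) with hγdef
  have hγd : ∀ t ∈ Icc a c, HasDerivAt γ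
      (-(b' t / 2) + (F.b t * b' t / 2 + m' t) / (2 * Real.sqrt (F.b t ^ 2 / 4 + m t))) t := by
    intro t ht
    have hm0 : 0 < m t := lt_of_lt_of_le hη (h.m_ge t ht)
    exact hasDerivAt_freq (h.b_deriv t ht) (h.m_deriv t ht) (by positivity)
  have hfin : ⟪F.L a (F.U a x), F.U a x⟫_ℝ - γ a * ‖F.U a x‖ ^ 2 ≤ 0 := by
    refine nonpos_of_deriv_pos (B := fun s => ⟪F.L s (F.U s x), F.U s x⟫_ℝ
      - γ s * ‖F.U s x‖ ^ 2) (fun t ht => F.hasDerivAt_defect (h.t1_lt' ht) (hγd t ht) x) ?_ ?_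
      (left_mem_Icc.2 h.le)
    · intro t ht h0
      have ht1 := h.t1_lt' ht
      have hu0 : F.U t x ≠ 0 := by
        intro h1
        exact hx (F.inj t ht1 (by rw [h1, map_zero]))
      have hgap := h.gapHyp hη hδ1 hδ2 ht
      have hγb := h.freq_mem hη ht
      have hbM := h.b_le t ht
      have h2 : g * ‖F.U t x‖ ≤ ‖F.L t (F.U t x) - γ t • F.U t x‖ := by
        refine hgap.norm_ge hg0 hg1 ?_ _
        calc 4 * g * (2 * freq (F.b t) (m t) + F.b t + 1) ≤ 4 * g * (2 * (1 + M) + M + 1) := by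
              apply mul_le_mul_of_nonneg_left _ (by positivity)
              linarith [hγb.2]
          _ ≤ g * (12 * (1 + M)) := by nlinarith
          _ ≤ η := hg2
      have h3 : g ^ 2 * ‖F.U t x‖ ^ 2 ≤ ‖F.L t (F.U t x) - γ t • F.U t x‖ ^ 2 := by
        rw [← mul_pow]
        exact pow_le_pow_left₀ (by positivity) h2 2
      have h4 := (abs_le.1 (F.bound t ht1 (F.U t x))).1
      have h5 : ⟪F.L t (F.U t x), F.U t x⟫_ℝ = γ t * ‖F.U t x‖ ^ 2 := by
        linarith
      have hm0 : 0 ≤ m t := hη.le.trans (h.m_ge t ht)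
      have h6 := (abs_le.1 (freq_deriv_le (F.b_ge t ht1) hbM hm0 (h.b'_le t ht)
        (h.m'_le t ht))).2
      have hN : 0 < ‖F.U t x‖ ^ 2 := by
        have : 0 < ‖F.U t x‖ := norm_pos_iff.2 hu0
        positivity
      have h7 : F.ρ t * (⟪F.L t (F.U t x), F.U t x⟫_ℝ + ‖F.U t x‖ ^ 2)
          ≤ δ * (2 + M) * ‖F.U t x‖ ^ 2 := by
        rw [h5]
        have e1 : γ t * ‖F.U t x‖ ^ 2 + ‖F.U t x‖ ^ 2 = (γ t + 1) * ‖F.U t x‖ ^ 2 := by ring
        rw [e1, ← mul_assoc]
        apply mul_le_mul_of_nonneg_right _ hN.le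
        exact mul_le_mul (h.ρ_le t ht) (by linarith [hγb.2]) (by linarith [hγb.1]) hδ0.le
      have h8 := mul_le_mul_of_nonneg_right h6 hN.le
      have h9 : γ t * ‖F.U t x‖ ^ 2 - γ t * ‖F.U t x‖ ^ 2 = 0 := by ring
      rw [h5] at h4 h7 ⊢
      rw [h9, mul_zero]
      have h10 : δ * (2 + M) + δ * (5 / 2 + M) < 2 * g ^ 2 := by
        have : 0 < g ^ 2 := by positivity
        nlinarith
      nlinarith
    · have := hc
      unfold FCone at this
      simp only [hγdef]
      linarith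
  unfold FCone
  simp only [hγdef] at hfin
  linarith

/-- (G2) -/
theorem gateSign : GateSign := by
  intro η M hη hM
  obtain ⟨δ₁, hδ₁, hcone⟩ := gateCone η M hη hM
  set δ : ℝ := min δ₁ (min 1 (η / (M + 3))) with hδ
  have hδ0 : 0 < δ := lt_min hδ₁ (lt_min one_pos (by positivity))
  have hδ1 : δ ≤ 1 := (min_le_right _ _).trans (min_le_left _ _)
  have hδ2 : δ * (M + 3) ≤ η := by
    have h1 : δ ≤ η / (M + 3) := (min_le_right _ _).trans (min_le_right _ _)
    have h2 : 0 < M + 3 := by linarith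
    calc δ * (M + 3) ≤ η / (M + 3) * (M + 3) := mul_le_mul_of_nonneg_right h1 h2.le
      _ = η := div_mul_cancel₀ _ h2.ne'
  refine ⟨δ, hδ0, ?_⟩
  intro G _ _ _ F l m m' b' f a c h v hv hcv
  -- monotonicity in `δ`
  have h' : OpenCut F l η M δ₁ m m' b' f a c :=
    ⟨h.t1_lt, h.le, h.li, h.cont, h.low, h.high, h.m_deriv,
      fun t ht => (h.m'_le t ht).trans (min_le_left _ _), h.b_deriv,
      fun t ht => (h.b'_le t ht).trans (min_le_left _ _), h.b_le, h.m_ge, h.m_le,
      fun t ht => (h.ρ_le t ht).trans (min_le_left _ _)⟩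
  -- continuity
  have hcontL : ContinuousOn F.L (Icc a c) := fun t ht =>
    (F.riccati t (h.t1_lt' ht)).continuousAt.continuousWithinAt
  have hcontU : ∀ w, ContinuousOn (fun t => F.U t w) (Icc a c) := fun w t ht =>
    (F.hasDerivAt_u (h.t1_lt' ht) w).continuousAt.continuousWithinAt
  have hcontf : ∀ i, ContinuousOn (fun t => f t i) (Icc a c) := fun i =>
    (continuous_apply i).comp_continuousOn h.cont
  have hcontγ : ContinuousOn (fun t => freq (F.b t) (m t)) (Icc a c) := by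
    intro t ht
    have hm0 : 0 < m t := lt_of_lt_of_le hη (h.m_ge t ht)
    exact (hasDerivAt_freq (h.b_deriv t ht) (h.m_deriv t ht)
      (by positivity)).continuousAt.continuousWithinAt
  have hcont : ContinuousOn (orDet F m f v) (Icc a c) := by
    unfold orDet
    have h1 : ContinuousOn (fun t => (Matrix.of fun i j => ⟪F.L t (f t i), F.U t (v j)⟫_ℝ -
        freq (F.b t) (m t) * ⟪f t i, F.U t (v j)⟫_ℝ : Matrix (Fin l) (Fin l) ℝ)) (Icc a c) := by
      apply continuousOn_pi.2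
      intro i
      apply continuousOn_pi.2
      intro k
      exact ((hcontL.clm_apply (hcontf i)).inner (hcontU (v k))).sub
        (hcontγ.mul ((hcontf i).inner (hcontU (v k))))
    exact (Continuous.matrix_det continuous_id).comp_continuousOn h1
  -- nonvanishing
  have hne : ∀ t ∈ Icc a c, orDet F m f v t ≠ 0 := by
    intro t ht h0
    unfold orDet at h0
    obtain ⟨y, hy0, hy⟩ := Matrix.exists_mulVec_eq_zero_iff.2 h0
    set w : G := ∑ k, y k • v k with hw
    have hwspan : w ∈ Submodule.span ℝ (range v) :=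
      Submodule.sum_mem _ fun k _ => Submodule.smul_mem _ _
        (Submodule.subset_span (mem_range_self k))
    have hcw : FCone F m t (F.U t w) :=
      hcone G F l m m' b' f t c (h'.restrict ht) w (hcv w hwspan)
    have hgap := h.gapHyp hη hδ1 hδ2 ht
    have horth : ∀ x ∈ Submodule.span ℝ (range (f t)),
        ⟪F.L t x - freq (F.b t) (m t) • x, F.U t w⟫_ℝ = 0 := by
      intro x hx
      induction hx using Submodule.span_induction with
      | mem x hx =>
        obtain ⟨i, rfl⟩ := hx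
        have h1 := congrFun hy i
        simp only [Matrix.mulVec, dotProduct, Matrix.of_apply, Pi.zero_apply] at h1
        rw [hw, map_sum, inner_sum, ← h1]
        refine Finset.sum_congr rfl fun k _ => ?_
        rw [map_smul, real_inner_smul_right, inner_sub_left, real_inner_smul_left]
        ring
      | zero => simp
      | add x y _ _ hx hy =>
        have e1 : F.L t (x + y) - freq (F.b t) (m t) • (x + y) =
            (F.L t x - freq (F.b t) (m t) • x) + (F.L t y - freq (F.b t) (m t) • y) := by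
          rw [map_add]; module
        rw [e1, inner_add_left, hx, hy, add_zero]
      | smul r x _ hx =>
        have e1 : F.L t (r • x) - freq (F.b t) (m t) • (r • x) =
            r • (F.L t x - freq (F.b t) (m t) • x) := by
          rw [map_smul]; module
        rw [e1, real_inner_smul_left, hx, mul_zero]
    have hu0 : F.U t w = 0 := by
      refine hgap.nondeg hη ?_ horth
      unfold FCone at hcw
      rw [inner_sub_left, real_inner_smul_left, real_inner_self_eq_norm_sq]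
      linarith
    have hw0 : w = 0 := F.inj t (h.t1_lt' ht) (by rw [hu0, map_zero])
    have h2 := (Fintype.linearIndependent_iff.1 hv) y (by rw [← hw, hw0])
    exact hy0 (funext h2)
  -- sign
  by_contra hcon
  push Not at hcon
  have ha := hne a (left_mem_Icc.2 h.le)
  have hcc := hne c (right_mem_Icc.2 h.le)
  have hivt := intermediate_value_uIcc (f := orDet F m f v) (a := a) (b := c)
    (by rw [uIcc_of_le h.le]; exact hcont)
  have hmem : (0 : ℝ) ∈ uIcc (orDet F m f v a) (orDet F m f v c) := by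
    rcases lt_or_gt_of_ne ha with h1 | h1
    · have h2 : 0 ≤ orDet F m f v c := by
        by_contra h3
        push Not at h3
        have := mul_pos_of_neg_of_neg h1 h3
        linarith
      exact mem_uIcc.2 (Or.inl ⟨h1.le, h2⟩)
    · have h2 : orDet F m f v c ≤ 0 := by
        by_contra h3
        push Not at h3
        have := mul_pos h1 h3
        linarith
      exact mem_uIcc.2 (Or.inr ⟨h2, h1.le⟩)
  obtain ⟨t, ht, ht0⟩ := hivt hmem
  rw [uIcc_of_le h.le] at ht
  exact hne t ht ht0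

end Crest.Agent.R202.Seg
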