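import Crest.Agent.R202.HomeBar
import Crest.Agent.R202.SegDefs

/-! # Row 202, PART B2: the home lemmas `homeNarrow`, `homePtoF`, `homeFtoP`, `homeGrowth`
(helper384) -/

set_option autoImplicit false
open Set Filter Topology
open scoped InnerProductSpace

namespace Crest.Agent.R202.Seg

open Crest.Agent.R202.Mix Crest.Agent.R202.HomeL

variable {G : Type} [NormedAddCommGroup G] [InnerProductSpace ℝ G]

/-! ## The projection as a continuous linear map -/

lemma pr_symm {N : ℕ} {e : Fin N → G} (he : Orthonormal ℝ e) (l : ℕ) (x y : G) :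
    ⟪pr e l x, y⟫_ℝ = ⟪x, pr e l y⟫_ℝ := by
  rw [inner_pr_self he, real_inner_comm, inner_pr_self he]
  refine Finset.sum_congr rfl fun j _ => ?_
  split_ifs
  · ring
  · rfl

lemma pr_idem {N : ℕ} {e : Fin N → G} (he : Orthonormal ℝ e) (l : ℕ) (x : G) :
    pr e l (pr e l x) = pr e l x := by
  conv_lhs => rw [pr_apply]
  conv_rhs => rw [pr_apply]
  refine Finset.sum_congr rfl fun j _ => ?_
  split_ifs with h
  · rw [inner_pr he, if_pos h]
  · rfl

lemma mem_span_of_pr {N : ℕ} {e : Fin N → G} {l : ℕ} (hl : l ≤ N) {x : G} (hx : pr e l x = x) :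
    x ∈ Submodule.span ℝ (range fun i : Fin l => e (Fin.castLE hl i)) := by
  rw [← hx, pr_apply]
  refine Submodule.sum_mem _ fun j _ => ?_
  split_ifs with h
  · refine Submodule.smul_mem _ _ (Submodule.subset_span ⟨⟨j.1, h⟩, ?_⟩)
    simp only
    congr 1
  · exact Submodule.zero_mem _

lemma inner_eq_zero_of_pr {N : ℕ} {e : Fin N → G} (he : Orthonormal ℝ e) {l : ℕ} (hl : l ≤ N)
    {y : G} (hy : pr e l y = 0) (i : Fin l) : ⟪e (Fin.castLE hl i), y⟫_ℝ = 0 := by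
  have := inner_pr he l (Fin.castLE hl i) y
  rw [hy, inner_zero_right, if_pos (by simp)] at this
  exact this.symm

/-! ## Constants -/

/-- half of the frequency gap -/
noncomputable def gg (η M : ℝ) : ℝ := η / (12 * (M + 1))

noncomputable def dl0 (η M : ℝ) : ℝ := min (1 / 2) (η / (12 * (M + 3)))

noncomputable def dlt (N : ℕ) (η M θ₁ θ₂ : ℝ) : ℝ :=
  min (dl0 η M) (θ₁ * gg η M / (2 * (M + 2) * (N + 1) * (1 + θ₂ ^ 2)))

lemma gg_pos {η M : ℝ} (hη : 0 < η) (hM : 0 < M) : 0 < gg η M := by unfold gg; positivity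

lemma dl0_pos {η M : ℝ} (hη : 0 < η) (hM : 0 < M) : 0 < dl0 η M := by
  unfold dl0; exact lt_min (by norm_num) (by positivity)

lemma dlt_pos {N : ℕ} {η M θ₁ θ₂ : ℝ} (hη : 0 < η) (hM : 0 < M) (h1 : 0 < θ₁) :
    0 < dlt N η M θ₁ θ₂ := by
  unfold dlt
  have := gg_pos hη hM
  exact lt_min (dl0_pos hη hM) (by positivity)

/-- the off-diagonal constant -/
noncomputable def zt (N : ℕ) (M δ : ℝ) : ℝ := 2 * δ * (M + 2) * (N + 1)

lemma zt_le {N : ℕ} {η M θ₁ θ₂ δ : ℝ} (_hη : 0 < η) (hM : 0 < M)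
    (hδ : δ ≤ dlt N η M θ₁ θ₂) : 2 * zt N M δ * (1 + θ₂ ^ 2) ≤ θ₁ * (2 * gg η M) := by
  have h1 : δ ≤ θ₁ * gg η M / (2 * (M + 2) * (N + 1) * (1 + θ₂ ^ 2)) := hδ.trans (min_le_right _ _)
  have hpos : 0 < 2 * (M + 2) * ((N:ℝ) + 1) * (1 + θ₂ ^ 2) := by positivity
  rw [le_div_iff₀ hpos] at h1
  unfold zt
  nlinarith

/-- facts on the frequency -/
lemma freq_facts {η M b m : ℝ} (hη : 0 < η) (hb : 1 / 2 ≤ b) (hbM : b ≤ M) (hm : η ≤ m)
    (hmM : m + η ≤ M) :
    freq b m ^ 2 + b * freq b m = m ∧ gg η M ≤ freq b m ∧ freq b m ≤ M + 1 := by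
  have hm0 : 0 ≤ b ^ 2 / 4 + m := by nlinarith [sq_nonneg b]
  have e1 : freq b m ^ 2 + b * freq b m = m := by
    unfold freq
    have := Real.sq_sqrt hm0
    nlinarith
  have h0 : 0 < freq b m := by
    unfold freq
    have : b / 2 < √(b ^ 2 / 4 + m) := by
      apply Real.lt_sqrt_of_sq_lt
      nlinarith
    linarith
  have h1 : freq b m ≤ M + 1 := by
    by_contra hcon
    push Not at hcon
    nlinarith
  refine ⟨e1, ?_, h1⟩
  unfold gg
  rw [div_le_iff₀ (by linarith)]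
  nlinarith

section
variable [FiniteDimensional ℝ G]

/-- block data at a time of a home -/
lemma HomeCut.blk {N : ℕ} {F : Flow G} {e : Fin N → G} {l : ℕ} {hl : l ≤ N} {η M δ : ℝ}
    {m m' b' : ℝ → ℝ} {ta tc : ℝ} (h : HomeCut F e l hl η M δ m m' b' ta tc)
    (hδ : δ ≤ 1 / 2) {t : ℝ} (ht : t ∈ Icc ta tc) {lo : ℝ}
    (hlo : ∀ x, pr e l x = x → ⟪F.K t x, x⟫_ℝ ≤ lo * ‖x‖ ^ 2) :
    Blk (F.K t) (F.L t) (F.K t - F.b t • F.L t - (F.L t).comp (F.L t))
      (pr e l).toContinuousLinearMap (F.b t) (F.ρ t) lo (m t + η) := by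
  have ht1 : F.t1 < t := h.opn.t1_lt.trans_le ht.1
  have hsymm := F.symm
  refine
    { Lsym := F.symm t ht1
      Lpos := F.nonneg t ht1
      Dsym := ?_
      eq := fun x => ?_
      Dle := fun x => ?_
      Psym := fun x y => pr_symm h.orth l x y
      Pidem := fun x => pr_idem h.orth l x
      KP := fun x => h.comm t ht x
      lo_le := fun x hx => hlo x hx
      hi_le := fun x hx => h.opn.high t ht x fun i => inner_eq_zero_of_pr h.orth hl hx i
      b_ge := F.b_ge t ht1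
      ρ_nonneg := F.ρ_nonneg t ht1
      ρ_le := ((h.opn.ρ_le t ht).trans hδ).trans (F.b_ge t ht1) }
  · intro x y
    have hr := F.riccati t ht1
    have h1 : HasDerivAt (fun s => ⟪F.L s x, y⟫_ℝ)
        (⟪(F.K t - F.b t • F.L t - (F.L t).comp (F.L t)) x, y⟫_ℝ) t := by
      have := (hr.clm_apply (hasDerivAt_const t x)).inner ℝ (hasDerivAt_const t y)
      simpa using this
    have h2 : HasDerivAt (fun s => ⟪x, F.L s y⟫_ℝ)
        (⟪x, (F.K t - F.b t • F.L t - (F.L t).comp (F.L t)) y⟫_ℝ) t := by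
      have := (hasDerivAt_const t x).inner ℝ (hr.clm_apply (hasDerivAt_const t y))
      simpa using this
    have h3 : (fun s => ⟪F.L s x, y⟫_ℝ) =ᶠ[𝓝 t] fun s => ⟪x, F.L s y⟫_ℝ := by
      filter_upwards [lt_mem_nhds ht1] with s hs
      exact F.symm s hs x y
    exact (h1.congr_of_eventuallyEq h3.symm).unique h2
  · simp only [sub_apply, smul_apply, ContinuousLinearMap.comp_apply]
    abel
  · have := F.bound t ht1 x
    have e1 : ⟪(F.K t - F.b t • F.L t - (F.L t).comp (F.L t)) x, x⟫_ℝ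
        = ⟪F.K t x, x⟫_ℝ - F.b t * ⟪F.L t x, x⟫_ℝ - ‖F.L t x‖ ^ 2 := by
      simp only [sub_apply, smul_apply, ContinuousLinearMap.comp_apply,
        inner_sub_left, real_inner_smul_left]
      rw [F.symm t ht1 (F.L t x) x, real_inner_self_eq_norm_sq]
    rw [e1]
    exact this

lemma finrank_pr_le {N : ℕ} {e : Fin N → G} {l : ℕ} (hl : l ≤ N) (he : Orthonormal ℝ e) :
    (Module.finrank ℝ (LinearMap.range (((pr e l).toContinuousLinearMap : G →L[ℝ] G) : G →ₗ[ℝ] G)) : ℝ)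
      ≤ N := by
  have h1 : LinearMap.range (((pr e l).toContinuousLinearMap : G →L[ℝ] G) : G →ₗ[ℝ] G)
      ≤ Submodule.span ℝ (range e) := by
    rintro x ⟨y, rfl⟩
    have hx : pr e l (pr e l y) = pr e l y := pr_idem he l y
    have := mem_span_of_pr hl hx
    refine Submodule.span_mono ?_ this
    rintro _ ⟨i, rfl⟩
    exact ⟨_, rfl⟩
  have h2 := Submodule.finrank_mono h1
  have h3 : Module.finrank ℝ (Submodule.span ℝ (range e)) ≤ N := by
    have := finrank_range_le_card (R := ℝ) e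
    simpa [Set.finrank] using this
  exact_mod_cast h2.trans h3

set_option maxHeartbeats 1000000 in
/-- **block bounds on a home** -/
theorem HomeCut.homeB {N : ℕ} {F : Flow G} {e : Fin N → G} {l : ℕ} {hl : l ≤ N} {η M δ : ℝ}
    {m m' b' : ℝ → ℝ} {ta tc : ℝ} (h : HomeCut F e l hl η M δ m m' b' ta tc)
    (hη : 0 < η) (hM : 0 < M) (hδ0 : 0 < δ) (hδ : δ ≤ dl0 η M) :
    HomeB F.L (pr e l).toContinuousLinearMap (fun t => freq (F.b t) (m t) - gg η M)
      (fun t => freq (F.b t) (m t) + gg η M) (2 * gg η M) (zt N M δ) ta tc := by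
  have hδ12 : δ ≤ 1 / 2 := hδ.trans (min_le_left _ _)
  have hδ3 : δ * (12 * (M + 3)) ≤ η := by
    have := hδ.trans (min_le_right _ _)
    rwa [le_div_iff₀ (by positivity)] at this
  have hg := gg_pos hη hM
  have hgη : gg η M * (12 * (M + 1)) = η := by unfold gg; field_simp
  have key : ∀ t ∈ Icc ta tc, F.t1 < t ∧
      freq (F.b t) (m t) ^ 2 + F.b t * freq (F.b t) (m t) = m t ∧ gg η M ≤ freq (F.b t) (m t) ∧
      freq (F.b t) (m t) ≤ M + 1 ∧ 1 / 2 ≤ F.b t ∧ F.b t ≤ M ∧ 0 ≤ F.ρ t ∧ F.ρ t ≤ δ ∧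
      m t - η ≤ (freq (F.b t) (m t) - gg η M) ^ 2 + F.b t * (freq (F.b t) (m t) - gg η M)
        - F.ρ t * ((freq (F.b t) (m t) - gg η M) + 1) ∧
      (freq (F.b t) (m t) + gg η M) ^ 2 + F.b t * (freq (F.b t) (m t) + gg η M)
        + (4 * F.ρ t ^ 2 + F.ρ t) * ((freq (F.b t) (m t) + gg η M) + 1) ≤ m t + η := by
    intro t ht
    have ht1 : F.t1 < t := h.opn.t1_lt.trans_le ht.1
    have hb := F.b_ge t ht1
    have hbM := h.opn.b_le t ht
    have hm := h.opn.m_ge t ht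
    have hmM := h.opn.m_le t ht
    have hρ0 := F.ρ_nonneg t ht1
    have hρ := h.opn.ρ_le t ht
    obtain ⟨e1, e2, e3⟩ := freq_facts hη hb hbM hm hmM
    set γ := freq (F.b t) (m t) with hγ
    set g := gg η M with hgd
    have hηM : η ≤ M := by linarith
    have hg1 : g ≤ 1 := by nlinarith
    have hγ0 : 0 ≤ γ := hg.le.trans e2
    have h1 : g * (2 * γ + F.b t) ≤ η / 4 := by
      have : g * (2 * γ + F.b t) ≤ g * (3 * (M + 1)) := by
        apply mul_le_mul_of_nonneg_left _ hg.le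
        linarith
      linarith
    have h2 : F.ρ t * (γ + 1) ≤ η / 4 := by
      calc F.ρ t * (γ + 1) ≤ δ * (M + 2) := by
            apply mul_le_mul hρ (by linarith) (by linarith) hδ0.le
        _ ≤ η / 4 := by nlinarith
    have h3 : F.ρ t * (γ - g + 1) ≤ η / 4 := by
      refine le_trans ?_ h2
      apply mul_le_mul_of_nonneg_left _ hρ0
      linarith
    have h4 : (4 * F.ρ t ^ 2 + F.ρ t) * (γ + g + 1) ≤ η / 4 := by
      have h5 : 4 * F.ρ t ^ 2 + F.ρ t ≤ 3 * δ := by nlinarith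
      calc (4 * F.ρ t ^ 2 + F.ρ t) * (γ + g + 1) ≤ 3 * δ * (M + 3) := by
            apply mul_le_mul h5 (by linarith) (by linarith) (by positivity)
        _ ≤ η / 4 := by nlinarith
    have h5 : g ^ 2 ≤ η / 12 := by
      have : g ^ 2 ≤ g * 1 := by nlinarith
      have h6 : g ≤ η / 12 := by nlinarith
      linarith
    refine ⟨ht1, e1, e2, e3, hb, hbM, hρ0, hρ, ?_, ?_⟩
    · nlinarith [sq_nonneg g]
    · nlinarith
  have hζ0 : 0 ≤ zt N M δ := by unfold zt; positivity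
  refine
    { Psym := fun x y => pr_symm h.orth l x y
      Pidem := fun x => pr_idem h.orth l x
      Lsym := fun t ht => F.symm t (key t ht).1
      up := fun t ht x hx => ?_
      low := fun t ht y hy => ?_
      off := fun t ht x y hx hy => ?_
      a_nonneg := fun t ht => by have := (key t ht).2.2.1; linarith
      ac := fun t _ => by linarith
      g_pos := by linarith
      ζ_nonneg := hζ0 }
  · obtain ⟨-, -, k1, -, -, -, -, -, k2, -⟩ := key t ht
    have hB := h.blk hδ12 ht (lo := m t - η)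
      (fun x hx => h.opn.low t ht x (mem_span_of_pr hl hx))
    exact hB.upper (by linarith) k2 hx
  · obtain ⟨-, -, k1, -, -, -, -, -, -, k2⟩ := key t ht
    have hB := h.blk hδ12 ht (lo := m t - η)
      (fun x hx => h.opn.low t ht x (mem_span_of_pr hl hx))
    exact hB.lower (by linarith) k2 hy
  · obtain ⟨-, -, k1, k3, -, -, k4, k5, k2, -⟩ := key t ht
    have hB := h.blk hδ12 ht (lo := m t - η)
      (fun x hx => h.opn.low t ht x (mem_span_of_pr hl hx))
    have h1 := hB.offdiag (by linarith) k2 hx hy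
    have h2 : ⟪F.L t x, y⟫_ℝ ^ 2 ≤ (zt N M δ * (‖x‖ * ‖y‖)) ^ 2 := by
      refine h1.trans ?_
      have hfr := finrank_pr_le hl h.orth (e := e)
      set fr := (Module.finrank ℝ
        (LinearMap.range (((pr e l).toContinuousLinearMap : G →L[ℝ] G) : G →ₗ[ℝ] G)) : ℝ) with hfrd
      have hfr0 : 0 ≤ fr := by rw [hfrd]; positivity
      have hρ2 : F.ρ t ^ 2 ≤ δ ^ 2 := pow_le_pow_left₀ k4 k5 2
      have hA : freq (F.b t) (m t) - gg η M + 1 ≤ M + 2 := by linarith
      have hA0 : 0 ≤ freq (F.b t) (m t) - gg η M + 1 := by linarith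
      calc 4 * F.ρ t ^ 2 * (freq (F.b t) (m t) - gg η M + 1) * fr * (‖x‖ ^ 2 * ‖y‖ ^ 2)
          ≤ 4 * δ ^ 2 * (M + 2) * (N:ℝ) * (‖x‖ ^ 2 * ‖y‖ ^ 2) := by gcongr
        _ ≤ 4 * δ ^ 2 * (M + 2) ^ 2 * ((N:ℝ) + 1) ^ 2 * (‖x‖ ^ 2 * ‖y‖ ^ 2) := by
            have h3 : M + 2 ≤ (M + 2) ^ 2 := by nlinarith
            have h4 : (N:ℝ) ≤ ((N:ℝ) + 1) ^ 2 := by
              have : (0:ℝ) ≤ N := Nat.cast_nonneg N
              nlinarith
            gcongr
        _ = (zt N M δ * (‖x‖ * ‖y‖)) ^ 2 := by unfold zt; ring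
    have h3 : 0 ≤ zt N M δ * (‖x‖ * ‖y‖) :=
      mul_nonneg hζ0 (mul_nonneg (norm_nonneg _) (norm_nonneg _))
    exact abs_le_of_sq_le_sq h2 h3

omit [FiniteDimensional ℝ G] in
lemma Flow.sol (F : Flow G) {ta tc : ℝ} (h : F.t1 < ta) (x : G) :
    Sol F.L (fun t => F.U t x) ta tc := by
  intro t ht
  have h1 := F.hasDerivAt_U t (h.trans_le ht.1)
  have := h1.clm_apply (hasDerivAt_const t x)
  simpa using this

end

/-! ## The home lemmas -/

theorem homeNarrow : HomeNarrow := by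
  intro N η M C κ hη hM hC hκ
  have hθ : 0 < min κ C := lt_min hκ hC
  refine ⟨dlt N η M (min κ C) C, dlt_pos hη hM hθ,
    2 / (2 * gg η M) * Real.log (C / min κ C) + 1, ?_, ?_⟩
  · have h1 : 0 ≤ Real.log (C / min κ C) :=
      Real.log_nonneg ((one_le_div hθ).2 (min_le_right _ _))
    have h2 := gg_pos hη hM
    positivity
  intro G _ _ _ F e l hl m m' b' ta tc h x hx
  have hB := h.homeB hη hM (dlt_pos hη hM hθ) (min_le_left _ _)
  have hS := F.sol (tc := tc) h.opn.t1_lt x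
  have hz := zt_le (N := N) (θ₁ := min κ C) (θ₂ := C) hη hM le_rfl
  have hg := gg_pos hη hM
  have hz' : 2 * zt N M (dlt N η M (min κ C) C) * (1 + C ^ 2) ≤ C * (2 * gg η M) := by
    refine hz.trans ?_
    gcongr
    exact min_le_right _ _
  refine ⟨fun t ht => ?_, fun hT => ?_⟩
  · exact (hB.mono ht.1 le_rfl).cone_inward (hS.mono ht.1 le_rfl) ht.2 hC hz' hx
  · have := hB.narrow hS hθ (min_le_right _ _) hz (by linarith) hx
    unfold PCone
    calc ‖F.U ta x - pr e l (F.U ta x)‖ ≤ min κ C * ‖pr e l (F.U ta x)‖ := this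
      _ ≤ κ * ‖pr e l (F.U ta x)‖ := by
        gcongr
        exact min_le_left _ _

theorem homeFtoP : HomeFtoP := by
  intro N η M hη hM
  have hg := gg_pos hη hM
  refine ⟨dlt N η M 1 0, dlt_pos hη hM one_pos,
    (M + 1 + 2 * gg η M) / gg η M + 1, by positivity, ?_⟩
  intro G _ _ _ F e l hl m m' b' ta tc h t ht u hu
  have hB := h.homeB hη hM (dlt_pos hη hM one_pos) (min_le_left _ _)
  have hz := zt_le (N := N) (θ₁ := 1) (θ₂ := 0) hη hM le_rfl
  set ζ := zt N M (dlt N η M 1 0) with hζd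
  have hζ : ζ ≤ gg η M := by nlinarith
  have ht1 : F.t1 < t := h.opn.t1_lt.trans_le ht.1
  obtain ⟨-, e2, e3⟩ := freq_facts hη (F.b_ge t ht1) (h.opn.b_le t ht) (h.opn.m_ge t ht)
    (h.opn.m_le t ht)
  unfold FCone at hu
  unfold PCone
  set γ := freq (F.b t) (m t) with hγ
  set P := (pr e l).toContinuousLinearMap with hP
  have hPa : ∀ z, P z = pr e l z := fun z => rfl
  set x := pr e l u with hx
  set y := u - pr e l u with hy
  have hpx : P x = x := by rw [hPa]; exact pr_idem h.orth l u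
  have hpy : P y = 0 := by rw [hPa, hy, map_sub, pr_idem h.orth, sub_self]
  have huxy : u = x + y := by rw [hx, hy]; abel
  have hlow := hB.low t ht y hpy
  have hoff := (abs_le.1 (hB.off t ht x y hpx hpy)).1
  have hpos := F.nonneg t ht1 x
  have e4 : ⟪F.L t u, u⟫_ℝ = ⟪F.L t x, x⟫_ℝ + 2 * ⟪F.L t x, y⟫_ℝ + ⟪F.L t y, y⟫_ℝ := by
    have hs : ⟪F.L t y, x⟫_ℝ = ⟪F.L t x, y⟫_ℝ := by
      rw [F.symm t ht1, real_inner_comm]
    rw [huxy, map_add, inner_add_left, inner_add_right, inner_add_right, hs]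
    ring
  have e5 : ‖u‖ ^ 2 = ‖x‖ ^ 2 + ‖y‖ ^ 2 := norm_sq_split h.orth l u
  rw [e4, e5] at hu
  set X := ‖x‖ with hX
  set Y := ‖y‖ with hY
  have hX0 : 0 ≤ X := norm_nonneg _
  have hY0 : 0 ≤ Y := norm_nonneg _
  -- `g Y² ≤ γ X² + 2 ζ X Y`
  have h1 : gg η M * Y ^ 2 ≤ (M + 1) * X ^ 2 + 2 * gg η M * (X * Y) := by
    have h2 : ζ * (X * Y) ≤ gg η M * (X * Y) := by gcongr
    have h3 : γ * X ^ 2 ≤ (M + 1) * X ^ 2 := by gcongr
    nlinarith
  by_contra hcon
  push Not at hcon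
  have hC : ((M + 1 + 2 * gg η M) / gg η M + 1) * gg η M = M + 1 + 3 * gg η M := by
    field_simp; ring
  set CC := (M + 1 + 2 * gg η M) / gg η M + 1 with hCC
  have hCC1 : 1 ≤ CC := by
    have : 0 ≤ (M + 1 + 2 * gg η M) / gg η M := by positivity
    linarith
  have hXY : X ≤ Y := by nlinarith
  have hYpos : 0 < Y := by nlinarith
  -- `g Y² ≥ g CC X Y = (M + 1 + 3 g) X Y`
  have h4 : gg η M * (CC * X) * Y < gg η M * Y * Y := by
    have : gg η M * (CC * X) < gg η M * Y := by gcongr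
    exact mul_lt_mul_of_pos_right this hYpos
  have h5 : gg η M * (CC * X) * Y = (M + 1 + 3 * gg η M) * (X * Y) := by
    rw [← hC]; ring
  have h6 : X ^ 2 ≤ X * Y := by nlinarith
  nlinarith

theorem homeGrowth : HomeGrowth := by
  intro N η M C ε hη hM hC hε
  have hg := gg_pos hη hM
  set δ := min (dlt N η M C C) (min (ε / (4 * (M + ε + 1))) (ε / (4 * (M + 2) * (N + 1) * C)))
    with hδd
  have hδ0 : 0 < δ := lt_min (dlt_pos hη hM hC) (lt_min (by positivity) (by positivity))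
  refine ⟨δ, hδ0, ?_⟩
  intro G _ _ _ F e l hl m m' b' ta tc s h hs0 hsM hK x hx
  have hδ1 : δ ≤ dlt N η M C C := min_le_left _ _
  have hδ2 : δ * (4 * (M + ε + 1)) ≤ ε := by
    have := (min_le_right (dlt N η M C C) _).trans (min_le_left (ε / (4 * (M + ε + 1)))
      (ε / (4 * (M + 2) * (N + 1) * C)))
    rwa [← hδd, le_div_iff₀ (by positivity)] at this
  have hδ3 : δ * (4 * (M + 2) * (N + 1) * C) ≤ ε := by
    have := (min_le_right (dlt N η M C C) _).trans (min_le_right (ε / (4 * (M + ε + 1)))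
      (ε / (4 * (M + 2) * (N + 1) * C)))
    rwa [← hδd, le_div_iff₀ (by positivity)] at this
  have hδ4 : δ ≤ dl0 η M := hδ1.trans (min_le_left _ _)
  have hB := h.homeB hη hM hδ0 hδ4
  have hS := F.sol (tc := tc) h.opn.t1_lt x
  have hz := zt_le (N := N) (θ₁ := C) (θ₂ := C) hη hM hδ1
  have hup : ∀ t ∈ Icc ta tc, ∀ x, (pr e l).toContinuousLinearMap x = x →
      ⟪F.L t x, x⟫_ℝ ≤ (s + ε / 2) * ‖x‖ ^ 2 := by
    intro t ht z hz
    have ht1 : F.t1 < t := h.opn.t1_lt.trans_le ht.1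
    have hb := F.b_ge t ht1
    have hρ0 := F.ρ_nonneg t ht1
    have hρ := h.opn.ρ_le t ht
    have hBl := h.blk (hδ4.trans (min_le_left _ _)) ht (lo := s ^ 2 + F.b t * s)
      (fun x hx => hK t ht x (mem_span_of_pr hl hx))
    refine hBl.upper (by positivity) ?_ hz
    have h1 : F.ρ t * (s + ε / 2 + 1) ≤ ε / 4 := by
      calc F.ρ t * (s + ε / 2 + 1) ≤ δ * (M + ε + 1) := by
            apply mul_le_mul hρ (by linarith) (by positivity) hδ0.le
        _ ≤ ε / 4 := by linarith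
    nlinarith [mul_nonneg hs0 hε.le]
  have hmain := hB.growth hS h.opn.le hC hz hup hx
  have hζ : zt N M δ * C ≤ ε / 2 := by unfold zt; nlinarith
  refine hmain.trans ?_
  have hlen : 0 ≤ tc - ta := by have := h.opn.le; linarith
  have hexp : s + ε / 2 + zt N M δ * C ≤ s + ε := by linarith
  gcongr

theorem homePtoF (hG : GateCone) : HomePtoF := by
  intro N η M C hη hM hC
  obtain ⟨δ₁, hδ₁, hG'⟩ := hG η M hη hM
  have hg := gg_pos hη hM
  set δ := min δ₁ (dlt N η M (C / 2) C) with hδd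
  have hδ0 : 0 < δ := lt_min hδ₁ (dlt_pos hη hM (by positivity))
  refine ⟨δ, hδ0, Real.log (1 + C ^ 2) / gg η M + 1, ?_, ?_⟩
  · have : 0 ≤ Real.log (1 + C ^ 2) := Real.log_nonneg (by nlinarith [sq_nonneg C])
    positivity
  intro G _ _ _ F e l hl m m' b' ta tc h hT x hx
  have hδ1 : δ ≤ dlt N η M (C / 2) C := min_le_right _ _
  have hB := h.homeB hη hM hδ0 (hδ1.trans (min_le_left _ _))
  have hS := F.sol (tc := tc) h.opn.t1_lt x
  have hz := zt_le (N := N) (θ₁ := C / 2) (θ₂ := C) hη hM hδ1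
  by_cases hx0 : x = 0
  · subst hx0
    unfold FCone
    simp
  have hne : ∀ t ∈ Icc ta tc, F.U t x ≠ 0 := fun t ht h0 =>
    hx0 (F.inj t (h.opn.t1_lt.trans_le ht.1) (by rw [h0, map_zero]))
  have hζ0 := hB.ζ_nonneg
  obtain ⟨t, ht, hft⟩ := hB.exists_freq hS h.opn.le (θ := C) hC
    (hz.trans (by nlinarith)) (by nlinarith) (by
      have e1 : 2 * gg η M / 2 * (tc - ta) = gg η M * (tc - ta) := by ring
      rw [e1]
      have h1 : Real.log (1 + C ^ 2) < gg η M * (tc - ta) := by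
        have h2 : Real.log (1 + C ^ 2) / gg η M < tc - ta := by linarith
        rwa [div_lt_iff₀ hg, mul_comm] at h2
      rwa [← Real.log_lt_iff_lt_exp (by positivity)])
    hx (hne tc (right_mem_Icc.2 h.opn.le)) (hne ta (left_mem_Icc.2 h.opn.le))
  have hopn : OpenCut F l η M δ₁ m m' b' (fun _ i => e (Fin.castLE hl i)) ta t :=
    { t1_lt := h.opn.t1_lt
      le := ht.1
      li := fun τ hτ => h.opn.li τ ⟨hτ.1, hτ.2.trans ht.2⟩
      cont := h.opn.cont.mono (Icc_subset_Icc le_rfl ht.2)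
      low := fun τ hτ => h.opn.low τ ⟨hτ.1, hτ.2.trans ht.2⟩
      high := fun τ hτ => h.opn.high τ ⟨hτ.1, hτ.2.trans ht.2⟩
      m_deriv := fun τ hτ => h.opn.m_deriv τ ⟨hτ.1, hτ.2.trans ht.2⟩
      m'_le := fun τ hτ => (h.opn.m'_le τ ⟨hτ.1, hτ.2.trans ht.2⟩).trans (min_le_left _ _)
      b_deriv := fun τ hτ => h.opn.b_deriv τ ⟨hτ.1, hτ.2.trans ht.2⟩
      b'_le := fun τ hτ => (h.opn.b'_le τ ⟨hτ.1, hτ.2.trans ht.2⟩).trans (min_le_left _ _)
      b_le := fun τ hτ => h.opn.b_le τ ⟨hτ.1, hτ.2.trans ht.2⟩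
      m_ge := fun τ hτ => h.opn.m_ge τ ⟨hτ.1, hτ.2.trans ht.2⟩
      m_le := fun τ hτ => h.opn.m_le τ ⟨hτ.1, hτ.2.trans ht.2⟩
      ρ_le := fun τ hτ => (h.opn.ρ_le τ ⟨hτ.1, hτ.2.trans ht.2⟩).trans (min_le_left _ _) }
  refine hG' G F l m m' b' _ ta t hopn x ?_
  unfold FCone
  refine hft.trans (le_of_eq ?_)
  ring

end Crest.Agent.R202.Seg
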