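import Crest.Agent.R202.HomeSeg

/-! # Row 202, PART B2: the home lemma `homeSign` (helper384) -/

set_option autoImplicit false
open Set Filter Topology
open scoped InnerProductSpace

namespace Crest.Agent.R202.Seg

open Crest.Agent.R202.Mix Crest.Agent.R202.HomeL

lemma mul_pos_of_continuousOn {D : ℝ → ℝ} (hc : ContinuousOn D (Icc 0 1))
    (hne : ∀ τ ∈ Icc (0:ℝ) 1, D τ ≠ 0) : 0 < D 0 * D 1 := by
  by_contra hcon
  push Not at hcon
  have h0 := hne 0 (left_mem_Icc.2 zero_le_one)
  have h1 := hne 1 (right_mem_Icc.2 zero_le_one)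
  have hmem : (0:ℝ) ∈ uIcc (D 0) (D 1) := by
    rcases lt_or_gt_of_ne h0 with h | h
    · have : 0 ≤ D 1 := by by_contra hh; push Not at hh; nlinarith [mul_pos_of_neg_of_neg h hh]
      rw [uIcc_of_le (h.le.trans this)]; exact ⟨h.le, this⟩
    · have : D 1 ≤ 0 := by by_contra hh; push Not at hh; nlinarith [mul_pos h hh]
      rw [uIcc_of_ge (this.trans h.le)]; exact ⟨this, h.le⟩
  have := intermediate_value_uIcc (a := (0:ℝ)) (b := 1) (f := D)
    (by rwa [uIcc_of_le zero_le_one]) hmem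
  obtain ⟨τ, hτ, h⟩ := this
  rw [uIcc_of_le zero_le_one] at hτ
  exact hne τ hτ h

variable {G : Type} [NormedAddCommGroup G] [InnerProductSpace ℝ G]

lemma pr_eq_sum {N : ℕ} (e : Fin N → G) {l : ℕ} (hl : l ≤ N) (u : G) :
    pr e l u = ∑ i : Fin l, ⟪e (Fin.castLE hl i), u⟫_ℝ • e (Fin.castLE hl i) := by
  classical
  rw [pr_apply]
  rw [← Finset.sum_filter]
  symm
  refine Finset.sum_bij (fun i _ => Fin.castLE hl i) ?_ ?_ ?_ ?_
  · intro i _; simp
  · intro i _ j _ h; exact Fin.castLE_injective hl h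
  · intro j hj
    rw [Finset.mem_filter] at hj
    exact ⟨⟨j.1, hj.2⟩, Finset.mem_univ _, by ext; simp⟩
  · intro i _; rfl

theorem homeSign : HomeSign := by
  intro N η M C hη hM hC
  have hg := gg_pos hη hM
  refine ⟨dlt N η M (C / 2) C, dlt_pos hη hM (by positivity), ?_⟩
  intro G _ _ _ F e l hl m m' b' ta tc h t ht v hv hcone
  set δ := dlt N η M (C / 2) C with hδ
  have hδ0 : 0 < δ := dlt_pos hη hM (by positivity)
  have hB := h.homeB hη hM hδ0 (min_le_left _ _)
  have hz := zt_le (N := N) (θ₁ := C / 2) (θ₂ := C) hη hM (le_refl δ)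
  have ht1 : F.t1 < t := h.opn.t1_lt.trans_le ht.1
  have hζC : zt N M δ * C < gg η M := by
    have hζ0 := hB.ζ_nonneg
    nlinarith [sq_nonneg C]
  set γ := freq (F.b t) (m t) with hγ
  set P := (pr e l).toContinuousLinearMap with hP
  have hPa : ∀ z, P z = pr e l z := fun z => rfl
  set ei : Fin l → G := fun i => e (Fin.castLE hl i) with hei
  have heo : Orthonormal ℝ ei := h.orth.comp _ (Fin.castLE_injective hl)
  set X : Matrix (Fin l) (Fin l) ℝ := Matrix.of fun i j => ⟪ei i, F.U t (v j)⟫_ℝ with hX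
  set Q : Matrix (Fin l) (Fin l) ℝ := Matrix.of fun i j =>
    ⟪F.L t (ei i), F.U t (v j)⟫_ℝ - γ * ⟪ei i, F.U t (v j)⟫_ℝ with hQ
  -- solutions with coefficients `d`
  have hsol : ∀ d : Fin l → ℝ, F.U t (∑ j, d j • v j) = ∑ j, d j • F.U t (v j) := by
    intro d; simp only [map_sum, map_smul]
  have hXd : ∀ (d : Fin l → ℝ) (i : Fin l),
      ⟪ei i, F.U t (∑ j, d j • v j)⟫_ℝ = (X.mulVec d) i := by
    intro d i
    rw [hsol, inner_sum]
    simp only [Matrix.mulVec, dotProduct, hX, Matrix.of_apply]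
    refine Finset.sum_congr rfl fun j _ => ?_
    rw [real_inner_smul_right]; ring
  have hmem : ∀ d : Fin l → ℝ, ∑ j, d j • v j ∈ Submodule.span ℝ (range v) := fun d =>
    Submodule.sum_mem _ fun j _ => Submodule.smul_mem _ _ (Submodule.subset_span ⟨j, rfl⟩)
  have hXdet : X.det ≠ 0 := by
    intro h0
    obtain ⟨d, hd0, hd⟩ := Matrix.exists_mulVec_eq_zero_iff.2 h0
    have hpr : pr e l (F.U t (∑ j, d j • v j)) = 0 := by
      rw [pr_eq_sum e hl]
      refine Finset.sum_eq_zero fun i _ => ?_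
      have := hXd d i
      simp only [hei] at this
      rw [this, hd]; simp
    have hc := hcone _ (hmem d)
    unfold PCone at hc
    rw [hpr, norm_zero, mul_zero, sub_zero] at hc
    have hu0 : F.U t (∑ j, d j • v j) = 0 := norm_le_zero_iff.1 hc
    have hw0 : ∑ j, d j • v j = 0 := F.inj t ht1 (by rw [hu0, map_zero])
    exact hd0 (funext fun j => (Fintype.linearIndependent_iff.1 hv) d hw0 j)
  have hne : ∀ τ ∈ Icc (0:ℝ) 1, ((1 - τ) • Q - τ • X).det ≠ 0 := by
    intro τ hτ h0
    obtain ⟨c, hc0, hc⟩ := Matrix.exists_vecMul_eq_zero_iff.2 h0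
    set d : Fin l → ℝ := X⁻¹.mulVec c with hd
    have hXdc : X.mulVec d = c := by
      rw [hd, Matrix.mulVec_mulVec, Matrix.mul_nonsing_inv X (isUnit_iff_ne_zero.2 hXdet),
        Matrix.one_mulVec]
    set u := F.U t (∑ j, d j • v j) with hu
    set x := pr e l u with hx
    set y := u - pr e l u with hy
    have hxs : x = ∑ i, c i • ei i := by
      rw [hx, pr_eq_sum e hl]
      refine Finset.sum_congr rfl fun i _ => ?_
      have := hXd d i
      rw [hXdc] at this
      simp only [hei] at this ⊢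
      rw [this]
    have hxne : x ≠ 0 := by
      intro hx0
      rw [hxs] at hx0
      exact hc0 (funext fun i =>
        (Fintype.linearIndependent_iff.1 heo.linearIndependent) c hx0 i)
    have hxpos : 0 < ‖x‖ ^ 2 := by have := norm_pos_iff.2 hxne; positivity
    have hcn := hcone _ (hmem d)
    unfold PCone at hcn
    rw [← hu, ← hy, ← hx] at hcn
    have hpx : P x = x := by rw [hPa]; exact pr_idem h.orth l u
    have hpy : P y = 0 := by rw [hPa, hy, map_sub, pr_idem h.orth, sub_self]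
    have huxy : u = x + y := by rw [hx, hy]; abel
    have hxu : ⟪x, u⟫_ℝ = ‖x‖ ^ 2 := by
      have h1 : ⟪x, y⟫_ℝ = 0 := inner_pr_sub h.orth l u u
      rw [huxy, inner_add_right, h1, real_inner_self_eq_norm_sq, add_zero]
    have hLx : ⟪F.L t x, u⟫_ℝ ≤ (γ - gg η M + zt N M δ * C) * ‖x‖ ^ 2 := by
      have h1 := hB.up t ht x hpx
      have h2 := (abs_le.1 (hB.off t ht x y hpx hpy)).2
      have h3 : zt N M δ * (‖x‖ * ‖y‖) ≤ zt N M δ * (‖x‖ * (C * ‖x‖)) := by
        apply mul_le_mul_of_nonneg_left _ hB.ζ_nonneg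
        gcongr
      have e1 : ⟪F.L t x, u⟫_ℝ = ⟪F.L t x, x⟫_ℝ + ⟪F.L t x, y⟫_ℝ := by
        rw [← inner_add_right, ← huxy]
      rw [e1]
      nlinarith
    -- the pairing of `c` and `d`
    have hpair : dotProduct (Matrix.vecMul c ((1 - τ) • Q - τ • X)) d
        = (1 - τ) * (⟪F.L t x, u⟫_ℝ - γ * ⟪x, u⟫_ℝ) - τ * ⟪x, u⟫_ℝ := by
      have e1 : ⟪x, u⟫_ℝ = ∑ i, c i * (X.mulVec d) i := by
        rw [hxs, sum_inner]
        refine Finset.sum_congr rfl fun i _ => ?_
        rw [real_inner_smul_left, hu, hXd]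
      have e2 : ⟪F.L t x, u⟫_ℝ - γ * ⟪x, u⟫_ℝ = ∑ i, c i * (Q.mulVec d) i := by
        have e3 : ∀ i, (Q.mulVec d) i = ⟪F.L t (ei i), u⟫_ℝ - γ * ⟪ei i, u⟫_ℝ := by
          intro i
          rw [hu, hsol, inner_sum, inner_sum, Finset.mul_sum, ← Finset.sum_sub_distrib]
          simp only [Matrix.mulVec, dotProduct, hQ, Matrix.of_apply]
          refine Finset.sum_congr rfl fun j _ => ?_
          rw [real_inner_smul_right, real_inner_smul_right]; ring
        rw [hxs, map_sum, sum_inner, sum_inner, Finset.mul_sum, ← Finset.sum_sub_distrib]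
        refine Finset.sum_congr rfl fun i _ => ?_
        rw [e3, map_smul, real_inner_smul_left, real_inner_smul_left]; ring
      rw [← Matrix.dotProduct_mulVec, Matrix.sub_mulVec, Matrix.smul_mulVec, Matrix.smul_mulVec,
        dotProduct_sub, dotProduct_smul, dotProduct_smul, e2, e1]
      simp only [dotProduct, smul_eq_mul]
    rw [hc, zero_dotProduct, hxu] at hpair
    have hτ0 := hτ.1
    have hτ1 := hτ.2
    have h5 : (1 - τ) * (⟪F.L t x, u⟫_ℝ - γ * ‖x‖ ^ 2)
        ≤ (1 - τ) * ((zt N M δ * C - gg η M) * ‖x‖ ^ 2) := by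
      apply mul_le_mul_of_nonneg_left _ (by linarith)
      linarith
    have h6 : (1 - τ) * ((zt N M δ * C - gg η M) * ‖x‖ ^ 2) - τ * ‖x‖ ^ 2 < 0 := by
      rcases eq_or_lt_of_le hτ0 with h7 | h7
      · rw [← h7]; nlinarith
      · have : (1 - τ) * ((gg η M - zt N M δ * C) * ‖x‖ ^ 2) ≥ 0 := by
          apply mul_nonneg (by linarith)
          apply mul_nonneg (by linarith) hxpos.le
        nlinarith
    linarith
  have hcont : ContinuousOn (fun τ : ℝ => ((1 - τ) • Q - τ • X).det) (Icc 0 1) := by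
    apply Continuous.continuousOn
    apply Continuous.matrix_det
    fun_prop
  have hprod := mul_pos_of_continuousOn hcont hne
  simp only [sub_zero, one_smul, zero_smul, sub_self, zero_sub] at hprod
  rw [Matrix.det_neg, Fintype.card_fin] at hprod
  have e1 : orDet F m (fun _ i => e (Fin.castLE hl i)) v t = Q.det := rfl
  rw [e1]
  calc 0 < Q.det * ((-1) ^ l * X.det) := hprod
    _ = (-1) ^ l * Q.det * X.det := by ring

end Crest.Agent.R202.Seg
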