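/-
R202, final export of part B (helper846), step 3: closing the finite-dimensional export.
-/
import Crest.Agent.R202.BFinSeg
import Crest.Agent.R202.GateCone
import Crest.Agent.R202.HomeSeg
import Crest.Agent.R202.HomeSign

set_option autoImplicit false

open Set
open scoped InnerProductSpace

namespace Crest.Agent.R202.BFin

open Crest.Agent.R202.Mix (MixData)
open Crest.Agent.R202.Seg
open Crest.Agent.R202.Sch (hs he Th Tg sf)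

/-- FINITE-DIMENSIONAL EXPORT OF PART B (all lemmas discharged) -/
theorem exists_mixDataL
    (mm : ℕ) {sI : ℝ} (hsI : 0 < sI) {N i0 : ℕ} (hi0 : 1 ≤ i0) (hiN : i0 ≤ N)
    {η Cμ Mμ ε : ℝ} {Λ a : ℕ → ℝ} (hη : 0 < η) (hCμ : 0 ≤ Cμ) (hε : 0 < ε)
    (ha : ∀ l, i0 ≤ l → l ≤ N → 0 ≤ a l ∧ Real.exp (2 * sI) * Λ l ≤ a l ^ 2 + (mm + 1) * a l) :
    ∃ δ > 0, ∃ Lc0 > 0, ∃ CΓ > 0, ∃ M > 0, ∀ Lc : ℝ, Lc0 ≤ Lc →
      ∃ A0 : ℝ, 1 ≤ A0 ∧ ∀ A : ℝ, A0 ≤ A →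
      2 * Lc + 1 ≤ A ∧
      ∀ (G : Type) [NormedAddCommGroup G] [InnerProductSpace ℝ G] [FiniteDimensional ℝ G]
        (ι : Type) (LS : LoopSys G ι N i0 η Cμ Mμ Λ) (P : ℕ) (jq : ℕ → ι)
        (FF : FlowFam LS mm sI A δ P jq), ∃ D : MixData G N P,
        D.e = LS.e ∧ D.i0 = i0 ∧ (D.a = fun l => a l + ε) ∧
        (D.T = fun q => Th A q - 2 * Lc) ∧ (D.ε = fun _ => Real.log 4) ∧
        (D.d = fun k => LS.des (jq k.1)) ∧
        (D.Γ = fun k => CΓ * Real.exp (M * (Tg A k.1 + 2 * Lc))) ∧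
        (∀ q κ u, D.Jm q κ u = (FF.F κ).U (hs A q + Lc)
          (Ring.inverse ((FF.F κ).U (he A P - Lc)) (∑ j, u j • LS.e j))) ∧
        (∀ q κ u, D.Jp q κ u = (FF.F κ).U (he A q - Lc)
          (Ring.inverse ((FF.F κ).U (he A P - Lc)) (∑ j, u j • LS.e j))) :=
  exists_mixData_of_loopsL gateCone gateSign homeNarrow (homePtoF gateCone) homeFtoP homeGrowth
    homeSign mm hsI hi0 hiN hη hCμ hε ha

/-- FINITE-DIMENSIONAL EXPORT OF PART B (all lemmas discharged) -/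
theorem exists_mixData
    (mm : ℕ) {sI : ℝ} (hsI : 0 < sI) {N i0 : ℕ} (hi0 : 1 ≤ i0) (hiN : i0 ≤ N)
    {η Cμ Mμ ε : ℝ} {Λ a : ℕ → ℝ} (hη : 0 < η) (hCμ : 0 ≤ Cμ) (hε : 0 < ε)
    (ha : ∀ l, i0 ≤ l → l ≤ N → 0 ≤ a l ∧ Real.exp (2 * sI) * Λ l ≤ a l ^ 2 + (mm + 1) * a l) :
    ∃ δ > 0, ∃ Lc > 0, ∃ CΓ > 0, ∃ M > 0, ∃ A0 : ℝ, 1 ≤ A0 ∧ ∀ A : ℝ, A0 ≤ A →
      2 * Lc + 1 ≤ A ∧
      ∀ (G : Type) [NormedAddCommGroup G] [InnerProductSpace ℝ G] [FiniteDimensional ℝ G]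
        (ι : Type) (LS : LoopSys G ι N i0 η Cμ Mμ Λ) (P : ℕ) (jq : ℕ → ι)
        (FF : FlowFam LS mm sI A δ P jq), ∃ D : MixData G N P,
        D.e = LS.e ∧ D.i0 = i0 ∧ (D.a = fun l => a l + ε) ∧
        (D.T = fun q => Th A q - 2 * Lc) ∧ (D.ε = fun _ => Real.log 4) ∧
        (D.d = fun k => LS.des (jq k.1)) ∧
        (D.Γ = fun k => CΓ * Real.exp (M * (Tg A k.1 + 2 * Lc))) ∧
        (∀ q κ u, D.Jm q κ u = (FF.F κ).U (hs A q + Lc)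
          (Ring.inverse ((FF.F κ).U (he A P - Lc)) (∑ j, u j • LS.e j))) ∧
        (∀ q κ u, D.Jp q κ u = (FF.F κ).U (he A q - Lc)
          (Ring.inverse ((FF.F κ).U (he A P - Lc)) (∑ j, u j • LS.e j))) :=
  exists_mixData_of_loops gateCone gateSign homeNarrow (homePtoF gateCone) homeFtoP homeGrowth
    homeSign mm hsI hi0 hiN hη hCμ hε ha

variable {G : Type} [NormedAddCommGroup G] [InnerProductSpace ℝ G] {ι : Type}
  {N i0 : ℕ} {η Cμ Mμ : ℝ} {Λ : ℕ → ℝ}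

/-- flows with a smaller error bound -/
def FlowFam.mono {LS : LoopSys G ι N i0 η Cμ Mμ Λ} {mm : ℕ} {sI A δ δ' : ℝ} {P : ℕ} {jq : ℕ → ι}
    (FF : FlowFam LS mm sI A δ P jq) (h : δ ≤ δ') : FlowFam LS mm sI A δ' P jq where
  F := FF.F
  K_gate := FF.K_gate
  K_home := FF.K_home
  b_eq := FF.b_eq
  t1_lt := FF.t1_lt
  ρ_le := fun κ t ht => (FF.ρ_le κ t ht).trans h
  cont := FF.cont

/-- the value at time `t` of the solution with boundary data `u` -/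
noncomputable def FlowFam.sol {LS : LoopSys G ι N i0 η Cμ Mμ Λ} {mm : ℕ} {sI A δ : ℝ} {P : ℕ}
    {jq : ℕ → ι} (FF : FlowFam LS mm sI A δ P jq) (Lc : ℝ) (κ : Mix.Cube P) (t : ℝ)
    (u : Fin N → ℝ) : G :=
  (FF.F κ).U t (Ring.inverse ((FF.F κ).U (he A P - Lc)) (∑ j, u j • LS.e j))

/-- FINITE-DIMENSIONAL EXPORT OF PART B, with the normalisation facts in home `0`:
(E1) at the inner end of home `0` all solutions are in the `κn`-cone around the span of `e`;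
(E2) their frequency is `≤ M2` on a unit interval after it. -/
theorem exists_mixDataL'
    (mm : ℕ) {sI : ℝ} (hsI : 0 < sI) {N i0 : ℕ} (hi0 : 1 ≤ i0) (hiN : i0 ≤ N)
    {η Cμ Mμ ε κn : ℝ} {Λ a : ℕ → ℝ} (hη : 0 < η) (hCμ : 0 ≤ Cμ) (hε : 0 < ε) (hκn : 0 < κn)
    (ha : ∀ l, i0 ≤ l → l ≤ N → 0 ≤ a l ∧ Real.exp (2 * sI) * Λ l ≤ a l ^ 2 + (mm + 1) * a l) :
    ∃ δ > 0, ∃ Lc0 > 0, ∃ CΓ > 0, ∃ M > 0, ∃ M2 > 0, ∀ Lc : ℝ, Lc0 ≤ Lc →
      ∃ A0 : ℝ, 1 ≤ A0 ∧ ∀ A : ℝ, A0 ≤ A →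
      2 * Lc + 1 ≤ A ∧
      ∀ (G : Type) [NormedAddCommGroup G] [InnerProductSpace ℝ G] [FiniteDimensional ℝ G]
        (ι : Type) (LS : LoopSys G ι N i0 η Cμ Mμ Λ) (P : ℕ) (jq : ℕ → ι)
        (FF : FlowFam LS mm sI A δ P jq), ∃ D : MixData G N P,
        D.e = LS.e ∧ D.i0 = i0 ∧ (D.a = fun l => a l + ε) ∧
        (D.T = fun q => Th A q - 2 * Lc) ∧ (D.ε = fun _ => Real.log 4) ∧
        (D.d = fun k => LS.des (jq k.1)) ∧
        (D.Γ = fun k => CΓ * Real.exp (M * (Tg A k.1 + 2 * Lc))) ∧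
        (∀ q κ u, D.Jm q κ u = FF.sol Lc κ (hs A q + Lc) u) ∧
        (∀ q κ u, D.Jp q κ u = FF.sol Lc κ (he A q - Lc) u) ∧
        (∀ κ u, PCone LS.e N κn (FF.sol Lc κ (hs A 0 + Lc) u)) ∧
        (∀ κ u, ∀ t ∈ Icc (hs A 0 + Lc) (hs A 0 + Lc + 1),
          ⟪(FF.F κ).L t (FF.sol Lc κ t u), FF.sol Lc κ t u⟫_ℝ ≤ M2 * ‖FF.sol Lc κ t u‖ ^ 2) := by
  obtain ⟨δ, hδ, Lc0, hLc0, CΓ, hCΓ, M, hM, hmainL⟩ :=
    exists_mixDataL mm hsI hi0 hiN hη hCμ hε ha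
  -- size constant for home `0`
  set M1 : ℝ := (mm + 1 : ℝ) + Real.exp (2 * sI) * |Mμ| with hM1
  have hexp : 0 < Real.exp (2 * sI) := Real.exp_pos _
  have h0 : (0 : ℝ) ≤ mm := Nat.cast_nonneg mm
  have hM1pos : 0 < M1 := by rw [hM1]; positivity
  obtain ⟨δ1, hδ1, T1, hT1, hn⟩ := homeNarrow N η M1 1 κn hη hM1pos one_pos hκn
  obtain ⟨δ2, hδ2, T2, hT2, hf⟩ := homePtoF gateCone N η M1 1 hη hM1pos one_pos
  set δ' : ℝ := min δ (min δ1 δ2) with hδ'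
  have hδ'pos : 0 < δ' := by rw [hδ']; simp only [lt_min_iff]; exact ⟨hδ, hδ1, hδ2⟩
  have hd0 : δ' ≤ δ := min_le_left _ _
  have hd1 : δ' ≤ δ1 := (min_le_right _ _).trans (min_le_left _ _)
  have hd2 : δ' ≤ δ2 := (min_le_right _ _).trans (min_le_right _ _)
  -- the slope bound
  obtain ⟨c0, hc0, hc0a, hc0b, hc0c⟩ : ∃ c0 : ℝ, 0 < c0 ∧ c0 ≤ 1 ∧
      (mm + 2) * c0 ≤ δ' ∧ Real.exp (2 * sI) * (2 * c0 * Mμ) ≤ δ' / 2 := by
    have q2 : (0 : ℝ) < 4 * Real.exp (2 * sI) * (|Mμ| + 1) := by positivity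
    set c1 := min 1 (min (δ' / (mm + 2)) (δ' / (4 * Real.exp (2 * sI) * (|Mμ| + 1)))) with hc1
    have h3 : 0 < c1 := by
      rw [hc1]
      simp only [lt_min_iff]
      refine ⟨one_pos, by positivity, by positivity⟩
    refine ⟨c1, h3, min_le_left _ _, ?_, ?_⟩
    · have h1 : c1 ≤ δ' / (mm + 2) := (min_le_right _ _).trans (min_le_left _ _)
      have h2 := mul_le_mul_of_nonneg_left h1 (by positivity : (0 : ℝ) ≤ (mm : ℝ) + 2)
      refine h2.trans (le_of_eq ?_)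
      field_simp
    · have h1 : c1 ≤ δ' / (4 * Real.exp (2 * sI) * (|Mμ| + 1)) :=
        (min_le_right _ _).trans (min_le_right _ _)
      calc Real.exp (2 * sI) * (2 * c1 * Mμ) ≤ Real.exp (2 * sI) * (2 * c1 * (|Mμ| + 1)) := by
            refine mul_le_mul_of_nonneg_left (mul_le_mul_of_nonneg_left ?_ (by positivity)) hexp.le
            linarith [le_abs_self Mμ]
        _ ≤ Real.exp (2 * sI) * (2 * (δ' / (4 * Real.exp (2 * sI) * (|Mμ| + 1))) *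
            (|Mμ| + 1)) := by gcongr
        _ = δ' / 2 := by field_simp; ring
  obtain ⟨A1, hA1, hsch⟩ := Sch.exists_A hsI hc0 0 one_pos
  refine ⟨δ', hδ'pos, Lc0, hLc0, CΓ, hCΓ, M, hM, M1 + 1, by linarith, fun Lc hLcc => ?_⟩
  have hLc : 0 < Lc := lt_of_lt_of_le hLc0 hLcc
  obtain ⟨A0, hA0, hmain⟩ := hmainL Lc hLcc
  refine ⟨max A0 (max A1 (max (T1 + T2 + 1 + 2 * Lc) (2 * Real.exp (2 * sI) * Cμ / δ'))),
    hA0.trans (le_max_left _ _), fun A hA => ?_⟩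
  have hAA0 : A0 ≤ A := (le_max_left _ _).trans hA
  have hAA1 : A1 ≤ A := (le_max_left _ _).trans ((le_max_right _ _).trans hA)
  have hAA2 : T1 + T2 + 1 + 2 * Lc ≤ A :=
    (le_max_left _ _).trans ((le_max_right _ _).trans ((le_max_right _ _).trans hA))
  have hAA3 : 2 * Real.exp (2 * sI) * Cμ / δ' ≤ A :=
    (le_max_right _ _).trans ((le_max_right _ _).trans ((le_max_right _ _).trans hA))
  obtain ⟨hLA, hmain'⟩ := hmain A hAA0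
  refine ⟨hLA, ?_⟩
  intro G _ _ _ ι LS P jq FF
  have hApos : 0 < A := by linarith
  have hA5 : Real.exp (2 * sI) * (Cμ * (1 / A)) ≤ δ' / 2 := by
    rw [div_le_iff₀ hδ'pos] at hAA3
    have h4 : Real.exp (2 * sI) * (Cμ * (1 / A)) = (2 * Real.exp (2 * sI) * Cμ) / (2 * A) := by
      field_simp
    rw [h4, div_le_iff₀ (by positivity)]
    nlinarith
  obtain ⟨hsA, -, -⟩ := hsch A hAA1
  obtain ⟨D, e1, e2, e3, e4, e5, e6, e7, e8, e9⟩ := hmain' G ι LS P jq (FF.mono hd0)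
  -- home `0` as a home cut, cut `N`
  obtain ⟨μ, hμM, hlow, hhigh⟩ := LS.home_gap N le_rfl hiN
  have hTh : A ≤ Th A 0 := by unfold Th; norm_num
  have hcut : ∀ (κ : Mix.Cube P) (α β : ℝ), hs A 0 + Lc ≤ α → α ≤ β → β ≤ he A 0 - Lc →
      HomeCut (FF.F κ) LS.e N le_rfl η M1 δ' (mfun sI (fun _ => μ) 0 A)
        (mfun' sI (fun _ => μ) (fun _ => 0) 0 A)
        (fun t => -((mm + 2) * deriv (deriv (sf sI)) t)) α β := by
    intro κ α β hα hαβ hβ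
    have h2A : 2 * A ≤ hs A 0 := Sch.two_mul_le_hs hApos 0
    refine homeCut_of (c0 := c0) (A := A) (Mμ := Mμ) (Cμ := Cμ) (μ := fun _ => μ)
      (μ' := fun _ => 0) (c := 0) (T := A) hsI LS (FF.F κ) (by omega) le_rfl hη hApos le_rfl
      (lt_of_lt_of_le (FF.t1_lt κ) (by linarith)) hαβ ?_
      (FF.b_eq κ) ?_ ?_ ?_ (by rw [mul_add]; linarith) hc0b
      (by rw [hM1]; have := mul_nonneg hexp.le (abs_nonneg Mμ); linarith)
      (by rw [hM1]; have h8 := mul_le_mul_of_nonneg_left (le_abs_self Mμ) hexp.le; linarith)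
      hCμ (fun τ => hasDerivAt_const τ μ) ?_ (fun _ => hμM) ?_ ?_
    · intro t ht
      exact FF.K_home κ 0 (Nat.zero_le P) t (by linarith [ht.1]) (by linarith [ht.2])
    · intro t ht
      exact FF.ρ_le κ t (by linarith [ht.1])
    · intro t ht
      exact (hsA t (by linarith [ht.1])).2.1
    · intro t ht
      have h1 := (hsA t (by linarith [ht.1])).2.2
      have h2 := (hsA t (by linarith [ht.1])).2.1
      have h3 := Sch.deriv_sf_nonneg hsI t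
      nlinarith
    · intro τ; simpa using hCμ
    · intro t _ x hx
      exact hlow x hx
    · intro t _ x hx
      exact hhigh x hx
  have hend : hs A 0 + Lc + (T1 + T2 + 1) ≤ he A 0 - Lc := by
    rw [Sch.he_eq]
    linarith
  have hP1 : ∀ (κ : Mix.Cube P) (u : Fin N → ℝ), PCone LS.e N 1 ((FF.F κ).U (he A 0 - Lc)
      (Ring.inverse ((FF.F κ).U (he A P - Lc)) (∑ j, u j • LS.e j))) := by
    intro κ u
    have h1 := D.coneN_p 0 (Nat.zero_le P) κ u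
    rw [e9, e1] at h1
    unfold PCone
    rw [one_mul]
    exact h1
  refine ⟨D, e1, e2, e3, e4, e5, e6, e7, e8, e9, ?_, ?_⟩
  · intro κ u
    exact (hn G (FF.F κ) LS.e N le_rfl _ _ _ _ _ ((hcut κ (hs A 0 + Lc) (he A 0 - Lc) le_rfl
      (by linarith) le_rfl).mono hd1) _ (hP1 κ u)).2 (by linarith)
  · intro κ u t ht
    have hc := hcut κ t (he A 0 - Lc) ht.1 (by linarith [ht.2]) le_rfl
    have h1 := hf G (FF.F κ) LS.e N le_rfl _ _ _ _ _ (hc.mono hd2) (by linarith [ht.2]) _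
      (hP1 κ u)
    unfold FCone at h1
    refine h1.trans (mul_le_mul_of_nonneg_right ?_ (by positivity))
    have h2 := hc.opn.m_le t ⟨le_rfl, hc.opn.le⟩
    have h3 := (FF.F κ).b_ge t (lt_of_lt_of_le hc.opn.t1_lt le_rfl)
    have h4 := freq_le_add_one (b := (FF.F κ).b t) (by linarith) hM1pos.le
      (by linarith : mfun sI (fun _ => μ) 0 A t ≤ M1)
    linarith

/-- FINITE-DIMENSIONAL EXPORT OF PART B, with the normalisation facts in home `0`: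
(E1) at the inner end of home `0` all solutions are in the `κn`-cone around the span of `e`;
(E2) their frequency is `≤ M2` on a unit interval after it. -/
theorem exists_mixData'
    (mm : ℕ) {sI : ℝ} (hsI : 0 < sI) {N i0 : ℕ} (hi0 : 1 ≤ i0) (hiN : i0 ≤ N)
    {η Cμ Mμ ε κn : ℝ} {Λ a : ℕ → ℝ} (hη : 0 < η) (hCμ : 0 ≤ Cμ) (hε : 0 < ε) (hκn : 0 < κn)
    (ha : ∀ l, i0 ≤ l → l ≤ N → 0 ≤ a l ∧ Real.exp (2 * sI) * Λ l ≤ a l ^ 2 + (mm + 1) * a l) :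
    ∃ δ > 0, ∃ Lc > 0, ∃ CΓ > 0, ∃ M > 0, ∃ M2 > 0, ∃ A0 : ℝ, 1 ≤ A0 ∧ ∀ A : ℝ, A0 ≤ A →
      2 * Lc + 1 ≤ A ∧
      ∀ (G : Type) [NormedAddCommGroup G] [InnerProductSpace ℝ G] [FiniteDimensional ℝ G]
        (ι : Type) (LS : LoopSys G ι N i0 η Cμ Mμ Λ) (P : ℕ) (jq : ℕ → ι)
        (FF : FlowFam LS mm sI A δ P jq), ∃ D : MixData G N P,
        D.e = LS.e ∧ D.i0 = i0 ∧ (D.a = fun l => a l + ε) ∧
        (D.T = fun q => Th A q - 2 * Lc) ∧ (D.ε = fun _ => Real.log 4) ∧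
        (D.d = fun k => LS.des (jq k.1)) ∧
        (D.Γ = fun k => CΓ * Real.exp (M * (Tg A k.1 + 2 * Lc))) ∧
        (∀ q κ u, D.Jm q κ u = FF.sol Lc κ (hs A q + Lc) u) ∧
        (∀ q κ u, D.Jp q κ u = FF.sol Lc κ (he A q - Lc) u) ∧
        (∀ κ u, PCone LS.e N κn (FF.sol Lc κ (hs A 0 + Lc) u)) ∧
        (∀ κ u, ∀ t ∈ Icc (hs A 0 + Lc) (hs A 0 + Lc + 1),
          ⟪(FF.F κ).L t (FF.sol Lc κ t u), FF.sol Lc κ t u⟫_ℝ ≤ M2 * ‖FF.sol Lc κ t u‖ ^ 2) := by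
  obtain ⟨δ, hδ, Lc, hLc, CΓ, hCΓ, M, hM, M2, hM2, h⟩ := exists_mixDataL' (κn := κn) mm hsI hi0 hiN
    hη hCμ hε hκn ha
  exact ⟨δ, hδ, Lc, hLc, CΓ, hCΓ, M, hM, M2, hM2, h Lc le_rfl⟩

end Crest.Agent.R202.BFin
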