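import Mathlib
import Crest.Agent.R202.GalErr
import Crest.Agent.R202.SegDefs

/-! # Row 202, B1 (final export): the Galerkin flow is a `Seg.Flow` (helper514)

`Sol C U V`: the operator valued solution of `u'' + b u' = K u` with regular data.
`Sol.L`: the Dirichlet-to-Neumann operator, `L U = U'`; Riccati equation; symmetry; positivity.
`exists_flow`: for a compact family of coefficients, the family of `Seg.Flow`s. -/

set_option autoImplicit false
set_option linter.unusedSectionVars false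
set_option linter.unusedVariables false

open Set Filter Topology
open scoped InnerProductSpace

namespace Crest.Agent.R202.Gal

/-- The operator valued solution of the Galerkin system with regular data. -/
structure Sol {G : Type*} [NormedAddCommGroup G] [InnerProductSpace ℝ G] (C : Coef G)
    (U V : ℝ → G →L[ℝ] G) : Prop where
  U0 : U C.t0 = ContinuousLinearMap.id ℝ G
  V0 : V C.t0 = C.L0
  dU : ∀ t, HasDerivAt U (V t) t
  dV : ∀ t, HasDerivAt V ((C.K t).comp (U t) - C.b t • V t) t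

section Basic

variable {G : Type*} [NormedAddCommGroup G] [InnerProductSpace ℝ G]
variable {C : Coef G} {U V : ℝ → G →L[ℝ] G}

theorem Sol.reg (h : Sol C U V) (c : G) : Reg C (fun t => U t c) (fun t => V t c) where
  du t := by
    have := (h.dU t).clm_apply (hasDerivAt_const t c)
    simpa using this
  dv t := by
    have := (h.dV t).clm_apply (hasDerivAt_const t c)
    simpa using this
  init := by
    show V C.t0 c = C.L0 (U C.t0 c)
    rw [h.U0, h.V0]; rfl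

theorem Sol.norm_le (h : Sol C U V) {t : ℝ} (ht : C.t0 ≤ t) (c : G) : ‖c‖ ≤ ‖U t c‖ := by
  have := (h.reg c).norm_mono le_rfl ht
  simpa [h.U0] using this

theorem Sol.norm_mono (h : Sol C U V) {s t : ℝ} (hs : C.t0 ≤ s) (hst : s ≤ t) (c : G) :
    ‖U s c‖ ≤ ‖U t c‖ := (h.reg c).norm_mono hs hst

theorem Sol.inj (h : Sol C U V) {t : ℝ} (ht : C.t0 ≤ t) : Function.Injective (U t) := by
  rw [injective_iff_map_eq_zero]
  intro c hc
  have := h.norm_le ht c
  rw [hc, norm_zero] at this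
  exact norm_le_zero_iff.1 this

variable [FiniteDimensional ℝ G]

theorem isUnit_of_inj {A : G →L[ℝ] G} (h : Function.Injective A) : IsUnit A := by
  set L : G ≃ₗ[ℝ] G := LinearEquiv.ofInjectiveEndo (A : G →ₗ[ℝ] G) h with hL
  set Lc : G ≃L[ℝ] G := L.toContinuousLinearEquiv with hLc
  refine ⟨⟨A, (Lc.symm : G →L[ℝ] G), ?_, ?_⟩, rfl⟩
  · ext x
    have : A (Lc.symm x) = Lc (Lc.symm x) := rfl
    show A (Lc.symm x) = x
    rw [this, ContinuousLinearEquiv.apply_symm_apply]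
  · ext x
    have : A x = Lc x := rfl
    show Lc.symm (A x) = x
    rw [this, ContinuousLinearEquiv.symm_apply_apply]

theorem Sol.isUnit (h : Sol C U V) {t : ℝ} (ht : C.t0 ≤ t) : IsUnit (U t) :=
  isUnit_of_inj (h.inj ht)

theorem Sol.surj (h : Sol C U V) {t : ℝ} (ht : C.t0 ≤ t) (x : G) : ∃ c, U t c = x := by
  have h1 : U t * Ring.inverse (U t) = 1 := Ring.mul_inverse_cancel _ (h.isUnit ht)
  exact ⟨Ring.inverse (U t) x, DFunLike.congr_fun h1 x⟩

/-- the Dirichlet-to-Neumann operator -/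
noncomputable def dn (U V : ℝ → G →L[ℝ] G) (t : ℝ) : G →L[ℝ] G := V t * Ring.inverse (U t)

theorem Sol.dn_mul (h : Sol C U V) {t : ℝ} (ht : C.t0 ≤ t) : dn U V t * U t = V t := by
  rw [dn, mul_assoc, Ring.inverse_mul_cancel _ (h.isUnit ht), mul_one]

theorem Sol.dn_apply (h : Sol C U V) {t : ℝ} (ht : C.t0 ≤ t) (c : G) :
    dn U V t (U t c) = V t c := DFunLike.congr_fun (h.dn_mul ht) c

theorem Sol.dn_symm (h : Sol C U V) {t : ℝ} (ht : C.t0 ≤ t) (x y : G) :
    ⟪dn U V t x, y⟫_ℝ = ⟪x, dn U V t y⟫_ℝ := by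
  obtain ⟨c, rfl⟩ := h.surj ht x
  obtain ⟨d, rfl⟩ := h.surj ht y
  rw [h.dn_apply ht, h.dn_apply ht]
  exact (h.reg c).symm (h.reg d) t

theorem Sol.dn_nonneg (h : Sol C U V) {t : ℝ} (ht : C.t0 ≤ t) (x : G) :
    0 ≤ ⟪dn U V t x, x⟫_ℝ := by
  obtain ⟨c, rfl⟩ := h.surj ht x
  rw [h.dn_apply ht]
  exact (h.reg c).freq_nonneg ht

theorem Sol.dn_bound (h : Sol C U V) {t ρ : ℝ} (ht : C.t0 ≤ t) (hs : C.Small ρ t) (x : G) :
    |⟪C.K t x, x⟫_ℝ - C.b t * ⟪dn U V t x, x⟫_ℝ - ‖dn U V t x‖ ^ 2| ≤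
      ρ * (⟪dn U V t x, x⟫_ℝ + ‖x‖ ^ 2) := by
  obtain ⟨c, rfl⟩ := h.surj ht x
  have := hs _ _ (h.reg c)
  rw [Coef.err] at this
  rw [h.dn_apply ht]
  convert this using 2
  ring

theorem Sol.riccati (h : Sol C U V) {t : ℝ} (ht : C.t0 ≤ t) :
    HasDerivAt (dn U V) (C.K t - C.b t • dn U V t - (dn U V t).comp (dn U V t)) t := by
  haveI : CompleteSpace G := FiniteDimensional.complete ℝ G
  obtain ⟨x, hx⟩ := h.isUnit ht
  have h1 : HasFDerivAt (Ring.inverse : (G →L[ℝ] G) → (G →L[ℝ] G))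
      (-ContinuousLinearMap.mulLeftRight ℝ (G →L[ℝ] G) ↑x⁻¹ ↑x⁻¹) (U t) := by
    rw [← hx]
    exact hasFDerivAt_ringInverse x
  have h2 := h1.comp_hasDerivAt t (h.dU t)
  have h3 := (h.dV t).mul h2
  have hinv : Ring.inverse (U t) = ↑x⁻¹ := by rw [← hx, Ring.inverse_unit]
  have hUx : U t * (↑x⁻¹ : G →L[ℝ] G) = 1 := by rw [← hx]; simp
  have hdn : dn U V t = V t * ↑x⁻¹ := by rw [dn, hinv]
  refine HasDerivAt.congr_deriv h3 ?_
  rw [hdn, Function.comp_apply, hinv]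
  show ((C.K t) * (U t) - C.b t • V t) * ↑x⁻¹ +
    V t * (-(↑x⁻¹ * V t * ↑x⁻¹)) = C.K t - C.b t • (V t * ↑x⁻¹) - (V t * ↑x⁻¹) * (V t * ↑x⁻¹)
  rw [sub_mul, mul_assoc, hUx, mul_one, smul_mul_assoc, mul_neg, ← sub_eq_add_neg]
  simp only [mul_assoc]

end Basic

/-! ### explicit rates -/

section Rates

variable {G : Type*} [NormedAddCommGroup G] [InnerProductSpace ℝ G] {C : Coef G}

/-- smallness from rates: `rm` before `t - L`, `rr` on `[t - L, t]` -/
theorem Coef.small_of_rates {t L rm rr : ℝ} (hL : 0 < L) (htL : C.t0 ≤ t - L)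
    (h1 : ∀ s ∈ Icc C.t0 (t - L), C.Rate rm s) (h2 : ∀ s ∈ Icc (t - L) t, C.Rate rr s) :
    C.Small (rr + 2 * rm / L) t := fun _ _ h => h.err_bound hL htL h1 h2

theorem Coef.Small.mono {η η' t : ℝ} (h : C.Small η t) (hη : η ≤ η') (ht : C.t0 ≤ t) :
    C.Small η' t := fun u v hr => (h u v hr).trans
  (mul_le_mul_of_nonneg_right hη (add_nonneg (hr.freq_nonneg ht) (sq_nonneg _)))

theorem Coef.Rate.mono {r r' s : ℝ} (h : C.Rate r s) (hr : r ≤ r') : C.Rate r' s :=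
  ⟨fun x => (h.1 x).trans (mul_le_mul_of_nonneg_right hr (C.nonneg s x)), h.2.trans hr⟩

end Rates

/-! ### the family of flows -/

section Flow

variable {G : Type} [NormedAddCommGroup G] [InnerProductSpace ℝ G] [FiniteDimensional ℝ G]
variable {C : Coef G} {U V : ℝ → G →L[ℝ] G}

/-- the `Seg.Flow` of a solution -/
noncomputable def Sol.flow (h : Sol C U V) (t1 : ℝ) (ρ : ℝ → ℝ) (h1 : C.t0 ≤ t1)
    (hρ : ∀ t, t1 < t → 0 ≤ ρ t) (hs : ∀ t, t1 < t → C.Small (ρ t) t) : Seg.Flow G where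
  t1 := t1
  K := C.K
  L := dn U V
  U := U
  b := C.b
  ρ := ρ
  b_ge t _ := C.b_pos t
  ρ_nonneg := hρ
  symm t ht x y := h.dn_symm (h1.trans ht.le) x y
  nonneg t ht x := h.dn_nonneg (h1.trans ht.le) x
  hasDerivAt_U t ht := by
    have h2 := h.dU t
    rw [← h.dn_mul (h1.trans ht.le)] at h2
    exact h2
  inj t ht := h.inj (h1.trans ht.le)
  riccati t ht := h.riccati (h1.trans ht.le)
  bound t ht x := h.dn_bound (h1.trans ht.le) (hs t ht) x

/-- FINAL EXPORT OF B1.  For a compact family of coefficients: operator solutions `U κ`, `V κ`,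
jointly continuous in `(κ, t)`, and the family of `Seg.Flow`s built on them. -/
theorem exists_flow {X : Type*} [TopologicalSpace X] [CompactSpace X] (C : X → Coef G)
    (t0 : ℝ) (ht0 : ∀ κ, (C κ).t0 = t0)
    (hK : Continuous (Function.uncurry fun κ t => (C κ).K t))
    (hb : Continuous (Function.uncurry fun κ t => (C κ).b t))
    (hL : Continuous fun κ => (C κ).L0) :
    ∃ U V : X → ℝ → G →L[ℝ] G, Continuous (Function.uncurry U) ∧
      Continuous (Function.uncurry V) ∧ (∀ κ, Sol (C κ) (U κ) (V κ)) ∧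
      ∀ (t1 : ℝ) (ρ : X → ℝ → ℝ), t0 ≤ t1 → (∀ κ t, t1 < t → 0 ≤ ρ κ t) →
        (∀ κ t, t1 < t → (C κ).Small (ρ κ t) t) →
        ∃ F : X → Seg.Flow G, ∀ κ, (F κ).t1 = t1 ∧ (F κ).K = (C κ).K ∧ (F κ).U = U κ ∧
          (F κ).b = (C κ).b ∧ (F κ).ρ = ρ κ ∧ (F κ).L = dn (U κ) (V κ) := by
  obtain ⟨U, V, hU, hV, h0, h0', hd, hd'⟩ := exists_sol C t0 ht0 hK hb hL
  have hS : ∀ κ, Sol (C κ) (U κ) (V κ) := fun κ =>
    ⟨by rw [ht0, h0], by rw [ht0, h0'], hd κ, hd' κ⟩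
  refine ⟨U, V, hU, hV, hS, fun t1 ρ h1 hρ hs => ?_⟩
  exact ⟨fun κ => (hS κ).flow t1 (ρ κ) (by rw [ht0]; exact h1) (hρ κ) (hs κ),
    fun κ => ⟨rfl, rfl, rfl, rfl, rfl, rfl⟩⟩

/-- continuity in the parameter at a fixed time -/
theorem continuous_param {X : Type*} [TopologicalSpace X] {U : X → ℝ → G →L[ℝ] G}
    (hU : Continuous (Function.uncurry U)) (t : ℝ) : Continuous fun κ => U κ t :=
  hU.comp (continuous_id.prodMk continuous_const)

end Flow

end Crest.Agent.R202.Gal
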