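import Mathlib
import Crest.Agent.R202.GalFlow

/-! # Row 202, B1: convenience lemmas (helper514)

* `Coef.small_of_late`: rates bounded everywhere and small after `tb` ⇒ `Small`.
* `Reg.flux_le`, `Reg.energy_eq`, `Reg.energy_le`: Caccioppoli type bounds. -/

set_option autoImplicit false
set_option linter.unusedSectionVars false
set_option linter.unusedVariables false

open Set Filter Topology MeasureTheory
open scoped InnerProductSpace

namespace Crest.Agent.R202.Gal

variable {G : Type*} [NormedAddCommGroup G] [InnerProductSpace ℝ G]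
variable {C : Coef G} {u v : ℝ → G}

/-- rates `≤ rm` everywhere, `≤ rr` after `tb` ⇒ small errors after `tb + 2 rm / rr` -/
theorem Coef.small_of_late {rm rr tb t : ℝ} (hrm : 0 < rm) (hrr : 0 < rr) (htb : C.t0 ≤ tb)
    (h1 : ∀ s, C.t0 ≤ s → C.Rate rm s) (h2 : ∀ s, tb ≤ s → C.Rate rr s)
    (ht : tb + 2 * rm / rr ≤ t) : C.Small (2 * rr) t := by
  have hL : 0 < t - tb := lt_of_lt_of_le (by positivity) (by linarith : 2 * rm / rr ≤ t - tb)
  have h3 : C.Small (rr + 2 * rm / (t - tb)) t := by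
    refine Coef.small_of_rates hL (by linarith) (fun s hs => h1 s hs.1) (fun s hs => h2 s ?_)
    have := hs.1
    linarith
  refine h3.mono ?_ (by linarith)
  have h4 : 2 * rm / (t - tb) ≤ rr := by
    rw [div_le_iff₀ hL]
    have h5 : 2 * rm / rr ≤ t - tb := by linarith
    rw [div_le_iff₀ hrr] at h5
    linarith
  linarith

/-- the same with a target `δ` -/
theorem Coef.small_of_late' {rm δ tb t : ℝ} (hrm : 0 < rm) (hδ : 0 < δ) (htb : C.t0 ≤ tb)
    (h1 : ∀ s, C.t0 ≤ s → C.Rate rm s) (h2 : ∀ s, tb ≤ s → C.Rate (δ / 2) s)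
    (ht : tb + 4 * rm / δ ≤ t) : C.Small δ t := by
  have h3 := Coef.small_of_late (C := C) (t := t) hrm (half_pos hδ) htb h1 h2
    (by
      have : 2 * rm / (δ / 2) = 4 * rm / δ := by field_simp; ring
      rw [this]; exact ht)
  have e : 2 * (δ / 2) = δ := by ring
  rwa [e] at h3

/-- the flux at an earlier time is controlled by the norm at a later time -/
theorem Reg.flux_le (h : Reg C u v) {s t : ℝ} (hs : C.t0 ≤ s) (hst : s ≤ t) :
    (t - s) * (C.wt s * ⟪v s, u s⟫_ℝ) ≤ C.wt t / 2 * ‖u t‖ ^ 2 := by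
  have := le_of_hasDerivAt
    (f := fun r => C.wt t / 2 * ‖u r‖ ^ 2 - (C.wt s * ⟪v s, u s⟫_ℝ) * (r - s))
    (f' := fun r => C.wt t / 2 * (2 * ⟪v r, u r⟫_ℝ) - (C.wt s * ⟪v s, u s⟫_ℝ) * 1) hst
    (fun r _ => ((h.hasDerivAt_normSq r).const_mul _).sub
      (((hasDerivAt_id r).sub_const _).const_mul _))
    (fun r hr => by
      have h5 := h.flux_mono hr.1
      have hw := C.wt_mono hr.2
      have hf := h.freq_nonneg (hs.trans hr.1)
      have : C.wt r * ⟪v r, u r⟫_ℝ ≤ C.wt t * ⟪v r, u r⟫_ℝ := mul_le_mul_of_nonneg_right hw hf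
      linarith)
  have h4 : 0 ≤ C.wt t / 2 * ‖u s‖ ^ 2 := mul_nonneg (by linarith [C.wt_pos t]) (sq_nonneg _)
  have e1 : s - s = 0 := by ring
  rw [e1] at this
  linarith

/-- continuity of the energy density -/
theorem Reg.continuous_density (h : Reg C u v) :
    Continuous fun t => C.wt t * (‖v t‖ ^ 2 + ⟪C.K t (u t), u t⟫_ℝ) := by
  have cu : Continuous u := continuous_iff_continuousAt.2 fun t => (h.du t).continuousAt
  have cv : Continuous v := continuous_iff_continuousAt.2 fun t => (h.dv t).continuousAt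
  have cK : Continuous C.K := continuous_iff_continuousAt.2 fun t => (C.hK t).continuousAt
  have cw : Continuous C.wt := continuous_iff_continuousAt.2 fun t => (C.hasDerivAt_wt t).continuousAt
  exact cw.mul ((cv.norm.pow 2).add ((cK.clm_apply cu).inner cu))

/-- energy identity -/
theorem Reg.energy_eq (h : Reg C u v) (s t : ℝ) :
    ∫ r in s..t, C.wt r * (‖v r‖ ^ 2 + ⟪C.K r (u r), u r⟫_ℝ) =
      C.wt t * ⟪v t, u t⟫_ℝ - C.wt s * ⟪v s, u s⟫_ℝ :=
  intervalIntegral.integral_eq_sub_of_hasDerivAt (fun r _ => h.hasDerivAt_flux r)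
    (h.continuous_density.intervalIntegrable _ _)

/-- Caccioppoli: the energy on `[s, t]` is controlled by the norm at `t + 1` -/
theorem Reg.energy_le (h : Reg C u v) {s t : ℝ} (hs : C.t0 ≤ s) (hst : s ≤ t) :
    ∫ r in s..t, C.wt r * (‖v r‖ ^ 2 + ⟪C.K r (u r), u r⟫_ℝ) ≤
      C.wt (t + 1) / 2 * ‖u (t + 1)‖ ^ 2 := by
  rw [h.energy_eq]
  have h1 := h.flux_le (hs.trans hst) (by linarith : t ≤ t + 1)
  have h2 := h.flux_nonneg hs
  have e : t + 1 - t = 1 := by ring
  rw [e, one_mul] at h1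
  linarith

/-- `Coef.wt` only depends on `b` on the interval; explicit value when `b = -(log p)'`… :
if `q` is positive with `q' = b q` then `wt t = q t / q t0`. -/
theorem Coef.wt_eq {q : ℝ → ℝ} (hq : ∀ t, 0 < q t) (hd : ∀ t, HasDerivAt q (C.b t * q t) t)
    (t : ℝ) : C.wt t = q t / q C.t0 := by
  have hd2 : ∀ t, HasDerivAt (fun t => C.wt t / q t) 0 t := by
    intro t
    have h1 := (C.hasDerivAt_wt t).div (hd t) (hq t).ne'
    refine HasDerivAt.congr_deriv h1 ?_
    have : C.b t * C.wt t * q t - C.wt t * (C.b t * q t) = 0 := by ring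
    rw [this, zero_div]
  have hc : C.wt t / q t = C.wt C.t0 / q C.t0 :=
    is_const_of_deriv_eq_zero (f := fun t => C.wt t / q t)
      (fun t => (hd2 t).differentiableAt) (fun t => (hd2 t).deriv) t C.t0
  rw [C.wt_t0, div_eq_div_iff (hq t).ne' (hq _).ne'] at hc
  rw [eq_div_iff (hq _).ne']
  linarith

/-- the two-sided frequency bound which follows from smallness: an a priori bound of `|u'|` -/
theorem Reg.norm_v_sq_le (h : Reg C u v) {η t : ℝ} (ht : C.t0 ≤ t) (hs : C.Small η t)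
    (hη : η ≤ 1 / 2) :
    ‖v t‖ ^ 2 ≤ ⟪C.K t (u t), u t⟫_ℝ + 1 / 2 * ‖u t‖ ^ 2 := by
  have h1 := (abs_le.1 (hs u v h)).1
  rw [Coef.err] at h1
  have h2 := h.freq_nonneg ht
  have h3 := C.b_pos t
  have h4 : 0 ≤ ⟪v t, u t⟫_ℝ + ‖u t‖ ^ 2 := add_nonneg h2 (sq_nonneg _)
  have h5 : η * (⟪v t, u t⟫_ℝ + ‖u t‖ ^ 2) ≤ 1 / 2 * (⟪v t, u t⟫_ℝ + ‖u t‖ ^ 2) :=
    mul_le_mul_of_nonneg_right hη h4
  have h6 : 1 / 2 * ⟪v t, u t⟫_ℝ ≤ C.b t * ⟪v t, u t⟫_ℝ := mul_le_mul_of_nonneg_right h3 h2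
  linarith

end Crest.Agent.R202.Gal
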