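import Crest.Agent.R202.SchScal

/-! # Row 202, module SCH, part 7: global bounds of `s'`, `s''` (helper821) -/

set_option autoImplicit false

open Set Filter
open scoped Topology ContDiff

namespace Crest.Agent.R202.Sch

noncomputable section

variable {sI : ℝ}

theorem deriv2_sf_zero {t : ℝ} (ht : t < 0) : deriv (deriv (sf sI)) t = 0 := by
  have e : deriv (sf sI) =ᶠ[𝓝 t] fun _ => (0 : ℝ) := by
    filter_upwards [gt_mem_nhds ht] with x hx
    rw [deriv_sf]
    simp only [fw_zero (le_of_lt hx), mul_zero]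
  rw [e.deriv_eq]
  simp

theorem deriv_sf_contDiff (sI : ℝ) : ContDiff ℝ ∞ (deriv (sf sI)) :=
  (contDiff_succ_iff_deriv (n := ∞).1 (by simpa using sf_contDiff sI)).2.2

theorem deriv2_sf_contDiff (sI : ℝ) : ContDiff ℝ ∞ (deriv (deriv (sf sI))) :=
  (contDiff_succ_iff_deriv (n := ∞).1 (by simpa using deriv_sf_contDiff sI)).2.2

theorem tendsto_deriv2_sf (hs : 0 < sI) : Tendsto (deriv (deriv (sf sI))) atTop (𝓝 0) := by
  rw [tendsto_zero_iff_abs_tendsto_zero]
  refine squeeze_zero' (Eventually.of_forall fun t => abs_nonneg _) ?_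
    (by simpa using (tendsto_deriv_sf hs).const_mul (6 / 5))
  filter_upwards [eventually_ge_atTop (1 : ℝ)] with t ht
  refine (abs_deriv2_sf_le hs ht).trans ?_
  have h1 : (6 / 5) / t ≤ 6 / 5 := div_le_self (by norm_num) ht
  exact mul_le_mul_of_nonneg_right h1 (deriv_sf_nonneg hs t)

/-- `s''` is bounded -/
theorem deriv2_sf_bdd (hs : 0 < sI) : ∃ B : ℝ, 0 ≤ B ∧ ∀ t, |deriv (deriv (sf sI)) t| ≤ B := by
  obtain ⟨B, hB⟩ := isCompact_Icc.exists_bound_of_continuousOn
    (deriv2_sf_contDiff sI).continuous.continuousOn (s := Icc (0 : ℝ) 1)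
  refine ⟨|B| + 6 / 5, by positivity, fun t => ?_⟩
  rcases lt_or_ge t 0 with h | h
  · rw [deriv2_sf_zero h, abs_zero]; positivity
  rcases le_or_gt t 1 with h1 | h1
  · have h2 := hB t ⟨h, h1⟩
    rw [Real.norm_eq_abs] at h2
    linarith [le_abs_self B]
  · have h2 := abs_deriv2_sf_le hs h1.le
    have h3 := deriv_sf_le hs t
    have h4 := deriv_sf_nonneg hs t
    have h5 : (6 / 5) / t ≤ 6 / 5 := div_le_self (by norm_num) h1.le
    have h6 : (6 / 5) / t * deriv (sf sI) t ≤ 6 / 5 * 1 := by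
      apply mul_le_mul h5 (by linarith) h4 (by norm_num)
    linarith [abs_nonneg B]

/-- `|s'| ≤ 1/4` -/
theorem abs_deriv_sf_le (hs : 0 < sI) (t : ℝ) : |deriv (sf sI) t| ≤ 1 / 4 := by
  rw [abs_of_nonneg (deriv_sf_nonneg hs t)]
  exact deriv_sf_le hs t

/-- the rates of `s` are eventually small -/
theorem rates_small (hs : 0 < sI) {η : ℝ} (hη : 0 < η) : ∃ tb : ℝ, 0 ≤ tb ∧ ∀ t, tb ≤ t →
    |deriv (sf sI) t| ≤ η ∧ |deriv (deriv (sf sI)) t| ≤ η := by
  have e1 : ∀ᶠ t in atTop, |deriv (sf sI) t| < η := by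
    have := (tendsto_zero_iff_abs_tendsto_zero _).1 (tendsto_deriv_sf hs)
    exact this.eventually (gt_mem_nhds hη)
  have e2 : ∀ᶠ t in atTop, |deriv (deriv (sf sI)) t| < η := by
    have := (tendsto_zero_iff_abs_tendsto_zero _).1 (tendsto_deriv2_sf hs)
    exact this.eventually (gt_mem_nhds hη)
  obtain ⟨B, hB⟩ := eventually_atTop.1 (e1.and e2)
  exact ⟨max B 0, le_max_right _ _, fun t ht =>
    ⟨(hB t ((le_max_left _ _).trans ht)).1.le, (hB t ((le_max_left _ _).trans ht)).2.le⟩⟩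

end

end Crest.Agent.R202.Sch
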