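import Crest.Agent.R202.SchScal
import Crest.Agent.R202.GeoDefs

/-! # Row 202, module SCH, part 2: assembly of installation path, homes and gates (helper821)

Time table (`A` large): `t ≤ A` round (`θ = 1`, `P = 1`), installation on `[A, 2A]`,
home `q` on `[hs A q, he A q]` (length `Th A q = A (q+1)^4`),
gate `q` on `[he A q, hs A (q+1)]` (length `Tg A q = A (q+1)^3`), `q = 0, 1, 2, …`.
Gate `q` runs the loop `G q` with parameter `κ q`.
-/

set_option autoImplicit false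

open MeasureTheory Set Filter
open scoped Topology ContDiff

namespace Crest.Agent.R202.Sch

noncomputable section

/-- A loop of cross-section data based at `(θ₀, P₀)`, with parameter `κ`. -/
structure Loop (θ₀ : ℝ) (P₀ : ℝ → ℂ → ℝ) where
  th : ℝ → ℝ → ℝ
  P : ℝ → ℝ → ℝ → ℂ → ℝ
  smooth_th : ContDiff ℝ ∞ (fun q : ℝ × ℝ => th q.1 q.2)
  smooth_P : ContDiff ℝ ∞ (fun q : ℝ × ℝ × ℝ × ℂ => P q.1 q.2.1 q.2.2.1 q.2.2.2)
  th_left : ∀ τ κ, τ ≤ 0 → th τ κ = θ₀
  th_right : ∀ τ κ, 1 ≤ τ → th τ κ = θ₀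
  P_left : ∀ τ κ X u, τ ≤ 0 → P τ κ X u = P₀ X u
  P_right : ∀ τ κ X u, 1 ≤ τ → P τ κ X u = P₀ X u

/-- The installation path from the round datum `(1, 1)` to the home datum `(θ₀, P₀)`. -/
structure Inst (θ₀ : ℝ) (P₀ : ℝ → ℂ → ℝ) where
  th : ℝ → ℝ
  P : ℝ → ℝ → ℂ → ℝ
  smooth_th : ContDiff ℝ ∞ th
  smooth_P : ContDiff ℝ ∞ (fun q : ℝ × ℝ × ℂ => P q.1 q.2.1 q.2.2)
  th_left : ∀ τ, τ ≤ 0 → th τ = 1
  th_right : ∀ τ, 1 ≤ τ → th τ = θ₀
  P_left : ∀ τ X u, τ ≤ 0 → P τ X u = 1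
  P_right : ∀ τ X u, 1 ≤ τ → P τ X u = P₀ X u

/-! ### General gluing -/

section Glue

variable {E : Type*}

/-- glue the installation function `i0` and the loops `L q` at the base value `b` -/
def glue (A : ℝ) (i0 : ℝ → E → ℝ) (L : ℕ → ℝ → E → ℝ) (b : E → ℝ) (t : ℝ) (e : E) : ℝ :=
  i0 ((t - A) / A) e + ∑ᶠ q, (L q ((t - he A q) / Tg A q) e - b e)

structure GlueHyp (i0 : ℝ → E → ℝ) (L : ℕ → ℝ → E → ℝ) (b : E → ℝ) : Prop where
  i_right : ∀ τ e, 1 ≤ τ → i0 τ e = b e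
  l_left : ∀ q τ e, τ ≤ 0 → L q τ e = b e
  l_right : ∀ q τ e, 1 ≤ τ → L q τ e = b e

variable {A : ℝ} {i0 : ℝ → E → ℝ} {L : ℕ → ℝ → E → ℝ} {b : E → ℝ}

theorem GlueHyp.term_left (h : GlueHyp i0 L b) (hA : 0 < A) {q : ℕ} {t : ℝ} (e : E)
    (ht : t ≤ he A q) : L q ((t - he A q) / Tg A q) e - b e = 0 := by
  rw [h.l_left q _ e (div_nonpos_of_nonpos_of_nonneg (by linarith) (Tg_pos hA q).le), sub_self]

theorem GlueHyp.term_right (h : GlueHyp i0 L b) (hA : 0 < A) {q : ℕ} {t : ℝ} (e : E)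
    (ht : hs A (q + 1) ≤ t) : L q ((t - he A q) / Tg A q) e - b e = 0 := by
  rw [h.l_right q _ e ((one_le_div (Tg_pos hA q)).2 (by rw [hs_succ] at ht; linarith)), sub_self]

theorem GlueHyp.glue_inst (h : GlueHyp i0 L b) (hA : 0 < A) {t : ℝ} (e : E) (ht : t ≤ he A 0) :
    glue A i0 L b t e = i0 ((t - A) / A) e := by
  have : ∀ q, L q ((t - he A q) / Tg A q) e - b e = 0 := fun q =>
    h.term_left hA e (ht.trans ((he_strictMono hA).monotone (Nat.zero_le q)))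
  unfold glue
  simp only [this, finsum_zero, add_zero]

theorem GlueHyp.glue_gate (h : GlueHyp i0 L b) (hA : 0 < A) {q : ℕ} {t : ℝ} (e : E)
    (h1 : hs A q ≤ t) (h2 : t ≤ he A (q + 1)) :
    glue A i0 L b t e = L q ((t - he A q) / Tg A q) e := by
  have hi : i0 ((t - A) / A) e = b e := by
    refine h.i_right _ e ((one_le_div hA).2 ?_)
    linarith [two_mul_le_hs hA q]
  have hz : ∀ j, j ≠ q → L j ((t - he A j) / Tg A j) e - b e = 0 := by
    intro j hj
    rcases lt_or_gt_of_ne hj with hlt | hgt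
    · exact h.term_right hA e (((hs_strictMono hA).monotone (Nat.succ_le_of_lt hlt)).trans h1)
    · exact h.term_left hA e (h2.trans ((he_strictMono hA).monotone (Nat.succ_le_of_lt hgt)))
  unfold glue
  rw [hi, finsum_eq_single _ q hz]
  ring

theorem cover (hA : 0 < A) (t : ℝ) : t < he A 0 ∨ ∃ q, hs A q < t ∧ t < he A (q + 1) := by
  rcases lt_or_ge t (he A 0) with h | h
  · exact Or.inl h
  · right
    have h2 : 2 * A ≤ t := by
      rw [he_eq, hs_zero] at h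
      linarith [Th_pos hA 0]
    obtain ⟨q, hq1, hq2⟩ := exists_slot hA h2
    rcases hq1.lt_or_eq with h3 | h3
    · exact ⟨q, h3, hq2.trans (hs_lt_he hA (q + 1))⟩
    · cases q with
      | zero =>
        exfalso
        rw [← h3] at h
        exact absurd (hs_lt_he hA 0) (not_lt.2 h)
      | succ k =>
        refine ⟨k, ?_, ?_⟩
        · rw [← h3]; exact hs_strictMono hA (Nat.lt_succ_self k)
        · rw [← h3]; exact hs_lt_he hA (k + 1)

theorem GlueHyp.contDiff [NormedAddCommGroup E] [NormedSpace ℝ E] (h : GlueHyp i0 L b)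
    (hA : 0 < A) (hi : ContDiff ℝ ∞ (fun p : ℝ × E => i0 p.1 p.2))
    (hL : ∀ q, ContDiff ℝ ∞ (fun p : ℝ × E => L q p.1 p.2)) :
    ContDiff ℝ ∞ (fun p : ℝ × E => glue A i0 L b p.1 p.2) := by
  rw [contDiff_iff_contDiffAt]
  intro p
  rcases cover hA p.1 with ht | ⟨q, h1, h2⟩
  · have hc : ContDiff ℝ ∞ (fun p : ℝ × E => i0 ((p.1 - A) / A) p.2) :=
      hi.comp (((contDiff_fst.sub contDiff_const).div_const A).prodMk contDiff_snd)
    refine hc.contDiffAt.congr_of_eventuallyEq ?_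
    have : ∀ᶠ p' : ℝ × E in 𝓝 p, p'.1 < he A 0 :=
      continuous_fst.continuousAt.eventually (gt_mem_nhds ht)
    filter_upwards [this] with p' hp'
    exact h.glue_inst hA p'.2 hp'.le
  · have hc : ContDiff ℝ ∞ (fun p : ℝ × E => L q ((p.1 - he A q) / Tg A q) p.2) :=
      (hL q).comp (((contDiff_fst.sub contDiff_const).div_const _).prodMk contDiff_snd)
    refine hc.contDiffAt.congr_of_eventuallyEq ?_
    have e1 : ∀ᶠ p' : ℝ × E in 𝓝 p, p'.1 < he A (q + 1) :=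
      continuous_fst.continuousAt.eventually (gt_mem_nhds h2)
    have e2 : ∀ᶠ p' : ℝ × E in 𝓝 p, hs A q < p'.1 :=
      continuous_fst.continuousAt.eventually (lt_mem_nhds h1)
    filter_upwards [e1, e2] with p' hp1 hp2
    exact h.glue_gate hA p'.2 hp2.le hp1.le

/-- joint continuity, also in a parameter `k` -/
theorem GlueHyp.continuous_param {K : Type*} [TopologicalSpace K] [TopologicalSpace E]
    {L' : K → ℕ → ℝ → E → ℝ} (h : ∀ k, GlueHyp i0 (L' k) b)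
    (hA : 0 < A) (hi : Continuous (fun p : ℝ × E => i0 p.1 p.2))
    (hL : ∀ q, Continuous (fun p : K × ℝ × E => L' p.1 q p.2.1 p.2.2)) :
    Continuous (fun p : K × ℝ × E => glue A i0 (L' p.1) b p.2.1 p.2.2) := by
  rw [continuous_iff_continuousAt]
  intro p
  have hc1 : Continuous fun p : K × ℝ × E => p.2.1 := by fun_prop
  rcases cover hA p.2.1 with ht | ⟨q, h1, h2⟩
  · have hc : Continuous (fun p : K × ℝ × E => i0 ((p.2.1 - A) / A) p.2.2) :=
      hi.comp (((hc1.sub continuous_const).div_const A).prodMk (by fun_prop))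
    refine hc.continuousAt.congr ?_
    have : ∀ᶠ p' : K × ℝ × E in 𝓝 p, p'.2.1 < he A 0 :=
      hc1.continuousAt.eventually (gt_mem_nhds ht)
    filter_upwards [this] with p' hp'
    exact ((h p'.1).glue_inst hA p'.2.2 hp'.le).symm
  · have hc : Continuous (fun p : K × ℝ × E => L' p.1 q ((p.2.1 - he A q) / Tg A q) p.2.2) :=
      (hL q).comp (continuous_fst.prodMk (((hc1.sub continuous_const).div_const _).prodMk
        (by fun_prop)))
    refine hc.continuousAt.congr ?_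
    have e1 : ∀ᶠ p' : K × ℝ × E in 𝓝 p, p'.2.1 < he A (q + 1) :=
      hc1.continuousAt.eventually (gt_mem_nhds h2)
    have e2 : ∀ᶠ p' : K × ℝ × E in 𝓝 p, hs A q < p'.2.1 :=
      hc1.continuousAt.eventually (lt_mem_nhds h1)
    filter_upwards [e1, e2] with p' hp1 hp2
    exact ((h p'.1).glue_gate hA p'.2.2 hp2.le hp1.le).symm

end Glue

/-! ### The assembled data -/

variable {θ₀ : ℝ} {P₀ : ℝ → ℂ → ℝ}

/-- the assembled `θ(t)` -/
def thS (A : ℝ) (I : Inst θ₀ P₀) (G : ℕ → Loop θ₀ P₀) (κ : ℕ → ℝ) (t : ℝ) : ℝ :=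
  glue A (fun τ (_ : ℝ) => I.th τ) (fun q τ _ => (G q).th τ (κ q)) (fun _ => θ₀) t 0

/-- the assembled `P(t, X, u)` -/
def PS (A : ℝ) (I : Inst θ₀ P₀) (G : ℕ → Loop θ₀ P₀) (κ : ℕ → ℝ) (t X : ℝ) (u : ℂ) : ℝ :=
  glue A (fun τ (e : ℝ × ℂ) => I.P τ e.1 e.2) (fun q τ e => (G q).P τ (κ q) e.1 e.2)
    (fun e => P₀ e.1 e.2) t (X, u)

variable (I : Inst θ₀ P₀) (G : ℕ → Loop θ₀ P₀) (κ : ℕ → ℝ) {A : ℝ}

theorem hyp_th : GlueHyp (fun τ (_ : ℝ) => I.th τ) (fun q τ _ => (G q).th τ (κ q))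
    (fun _ => θ₀) where
  i_right τ _ h := I.th_right τ h
  l_left q τ _ h := (G q).th_left τ _ h
  l_right q τ _ h := (G q).th_right τ _ h

theorem hyp_P : GlueHyp (fun τ (e : ℝ × ℂ) => I.P τ e.1 e.2)
    (fun q τ e => (G q).P τ (κ q) e.1 e.2) (fun e => P₀ e.1 e.2) where
  i_right τ e h := I.P_right τ _ _ h
  l_left q τ e h := (G q).P_left τ _ _ _ h
  l_right q τ e h := (G q).P_right τ _ _ _ h

theorem thS_inst (hA : 0 < A) {t : ℝ} (ht : t ≤ he A 0) :
    thS A I G κ t = I.th ((t - A) / A) := (hyp_th I G κ).glue_inst hA 0 ht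

theorem thS_gate (hA : 0 < A) {q : ℕ} {t : ℝ} (h1 : hs A q ≤ t) (h2 : t ≤ he A (q + 1)) :
    thS A I G κ t = (G q).th ((t - he A q) / Tg A q) (κ q) := (hyp_th I G κ).glue_gate hA 0 h1 h2

theorem PS_inst (hA : 0 < A) {t : ℝ} (ht : t ≤ he A 0) (X : ℝ) (u : ℂ) :
    PS A I G κ t X u = I.P ((t - A) / A) X u := (hyp_P I G κ).glue_inst hA (X, u) ht

theorem PS_gate (hA : 0 < A) {q : ℕ} {t : ℝ} (h1 : hs A q ≤ t) (h2 : t ≤ he A (q + 1))
    (X : ℝ) (u : ℂ) :
    PS A I G κ t X u = (G q).P ((t - he A q) / Tg A q) (κ q) X u :=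
  (hyp_P I G κ).glue_gate hA (X, u) h1 h2

/-- in the homes -/
theorem thS_home (hA : 0 < A) {q : ℕ} {t : ℝ} (h1 : hs A q ≤ t) (h2 : t ≤ he A q) :
    thS A I G κ t = θ₀ := by
  rw [thS_gate I G κ hA h1 (h2.trans (he_strictMono hA (Nat.lt_succ_self q)).le)]
  exact (G q).th_left _ _ (div_nonpos_of_nonpos_of_nonneg (by linarith) (Tg_pos hA q).le)

theorem PS_home (hA : 0 < A) {q : ℕ} {t : ℝ} (h1 : hs A q ≤ t) (h2 : t ≤ he A q)
    (X : ℝ) (u : ℂ) : PS A I G κ t X u = P₀ X u := by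
  rw [PS_gate I G κ hA h1 (h2.trans (he_strictMono hA (Nat.lt_succ_self q)).le)]
  exact (G q).P_left _ _ _ _ (div_nonpos_of_nonpos_of_nonneg (by linarith) (Tg_pos hA q).le)

/-- in the round phase -/
theorem thS_round (hA : 0 < A) {t : ℝ} (h : t ≤ A) : thS A I G κ t = 1 := by
  rw [thS_inst I G κ hA (by rw [he_eq, hs_zero]; linarith [Th_pos hA 0])]
  exact I.th_left _ (div_nonpos_of_nonpos_of_nonneg (by linarith) hA.le)

theorem PS_round (hA : 0 < A) {t : ℝ} (h : t ≤ A) (X : ℝ) (u : ℂ) : PS A I G κ t X u = 1 := by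
  rw [PS_inst I G κ hA (by rw [he_eq, hs_zero]; linarith [Th_pos hA 0])]
  exact I.P_left _ _ _ (div_nonpos_of_nonpos_of_nonneg (by linarith) hA.le)

theorem thS_contDiff (hA : 0 < A) : ContDiff ℝ ∞ (thS A I G κ) := by
  have h := (hyp_th I G κ).contDiff hA (I.smooth_th.comp contDiff_fst)
    (fun q => (G q).smooth_th.comp (contDiff_fst.prodMk contDiff_const))
  exact h.comp (contDiff_id.prodMk contDiff_const)

theorem PS_contDiff (hA : 0 < A) :
    ContDiff ℝ ∞ (fun q : ℝ × ℝ × ℂ => PS A I G κ q.1 q.2.1 q.2.2) := by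
  refine (hyp_P I G κ).contDiff hA I.smooth_P (fun q => ?_)
  exact (G q).smooth_P.comp (contDiff_fst.prodMk (contDiff_const.prodMk contDiff_snd))

theorem thS_continuous_param (hA : 0 < A) :
    Continuous (fun p : (ℕ → ℝ) × ℝ => thS A I G p.1 p.2) := by
  have h := GlueHyp.continuous_param (K := ℕ → ℝ) (A := A) (b := fun _ : ℝ => θ₀)
    (L' := fun κ q τ _ => (G q).th τ (κ q)) (i0 := fun τ (_ : ℝ) => I.th τ)
    (fun κ => hyp_th I G κ) hA (I.smooth_th.continuous.comp continuous_fst)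
    (fun q => (G q).smooth_th.continuous.comp
      (show Continuous fun p : (ℕ → ℝ) × ℝ × ℝ => (p.2.1, p.1 q) by fun_prop))
  exact h.comp (show Continuous fun p : (ℕ → ℝ) × ℝ => (p.1, p.2, (0 : ℝ)) by fun_prop)

theorem PS_continuous_param (hA : 0 < A) :
    Continuous (fun p : (ℕ → ℝ) × ℝ × ℝ × ℂ => PS A I G p.1 p.2.1 p.2.2.1 p.2.2.2) := by
  have h := GlueHyp.continuous_param (K := ℕ → ℝ) (A := A) (b := fun e : ℝ × ℂ => P₀ e.1 e.2)
    (L' := fun κ q τ e => (G q).P τ (κ q) e.1 e.2) (i0 := fun τ (e : ℝ × ℂ) => I.P τ e.1 e.2)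
    (fun κ => hyp_P I G κ) hA I.smooth_P.continuous
    (fun q => (G q).smooth_P.continuous.comp
      (show Continuous fun p : (ℕ → ℝ) × ℝ × ℝ × ℂ => (p.2.1, p.1 q, p.2.2.1, p.2.2.2) by
        fun_prop))
  exact h

/-- Any property of single data which holds for the round datum and for all members of the
installation path and of the loops holds along the assembled family. -/
theorem forall_datum (hA : 0 < A) (hκ : ∀ q, κ q ∈ Icc (-1 : ℝ) 1)
    {D : ℝ → (ℝ → ℂ → ℝ) → Prop}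
    (hI : ∀ τ ∈ Icc (0 : ℝ) 1, D (I.th τ) (I.P τ))
    (hG : ∀ q, ∀ τ ∈ Icc (0 : ℝ) 1, ∀ k ∈ Icc (-1 : ℝ) 1, D ((G q).th τ k) ((G q).P τ k))
    (t : ℝ) : D (thS A I G κ t) (PS A I G κ t) := by
  rcases le_total t (hs A 0) with h | h
  · have ht : t ≤ he A 0 := h.trans (hs_lt_he hA 0).le
    have hP : PS A I G κ t = I.P (max 0 ((t - A) / A)) := by
      funext X u
      rw [PS_inst I G κ hA ht]
      rcases le_total ((t - A) / A) 0 with h0 | h0
      · rw [max_eq_left h0, I.P_left _ _ _ h0, I.P_left _ _ _ le_rfl]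
      · rw [max_eq_right h0]
    have hθ : thS A I G κ t = I.th (max 0 ((t - A) / A)) := by
      rw [thS_inst I G κ hA ht]
      rcases le_total ((t - A) / A) 0 with h0 | h0
      · rw [max_eq_left h0, I.th_left _ h0, I.th_left _ le_rfl]
      · rw [max_eq_right h0]
    rw [hP, hθ]
    refine hI _ ⟨le_max_left _ _, max_le zero_le_one ((div_le_one hA).2 ?_)⟩
    rw [hs_zero] at h
    linarith
  · rw [hs_zero] at h
    obtain ⟨q, h1, h2⟩ := exists_slot hA h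
    have h3 : t ≤ he A (q + 1) := (h2.trans (hs_lt_he hA (q + 1))).le
    have hP : PS A I G κ t = (G q).P (max 0 ((t - he A q) / Tg A q)) (κ q) := by
      funext X u
      rw [PS_gate I G κ hA h1 h3]
      rcases le_total ((t - he A q) / Tg A q) 0 with h0 | h0
      · rw [max_eq_left h0, (G q).P_left _ _ _ _ h0, (G q).P_left _ _ _ _ le_rfl]
      · rw [max_eq_right h0]
    have hθ : thS A I G κ t = (G q).th (max 0 ((t - he A q) / Tg A q)) (κ q) := by
      rw [thS_gate I G κ hA h1 h3]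
      rcases le_total ((t - he A q) / Tg A q) 0 with h0 | h0
      · rw [max_eq_left h0, (G q).th_left _ _ h0, (G q).th_left _ _ le_rfl]
      · rw [max_eq_right h0]
    rw [hP, hθ]
    refine hG q _ ⟨le_max_left _ _, max_le zero_le_one ((div_le_one (Tg_pos hA q)).2 ?_)⟩ _ (hκ q)
    rw [hs_succ] at h2
    linarith

/-- a single admissible datum -/
structure Datum (X0 X1 θ : ℝ) (P : ℝ → ℂ → ℝ) : Prop where
  θ_pos : 0 < θ
  θ_le : θ ≤ 1
  P_pos : ∀ X u, 0 < P X u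
  P_low : ∀ X u, X ≤ X0 → P X u = 1
  P_high : ∀ X u, X1 ≤ X → P X u = θ⁻¹

/-- the assembled family is a `Geo.Fam` with `t0 = 0` -/
theorem fam {sI : ℝ} {X0 X1 : ℝ} (h0 : 0 < X0) (h01 : X0 < X1) (h1 : X1 < 1)
    (hA : 0 < A) (hκ : ∀ q, κ q ∈ Icc (-1 : ℝ) 1)
    (hI : ∀ τ ∈ Icc (0 : ℝ) 1, Datum X0 X1 (I.th τ) (I.P τ))
    (hG : ∀ q, ∀ τ ∈ Icc (0 : ℝ) 1, ∀ k ∈ Icc (-1 : ℝ) 1,
      Datum X0 X1 ((G q).th τ k) ((G q).P τ k)) :
    Geo.Fam (sf sI) (thS A I G κ) (PS A I G κ) 0 X0 X1 where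
  hX0 := h0
  hX01 := h01
  hX1 := h1
  smooth_s := sf_contDiff sI
  smooth_θ := thS_contDiff I G κ hA
  smooth_P := PS_contDiff I G κ hA
  θ_pos t := (forall_datum I G κ hA hκ (D := Datum X0 X1) hI hG t).θ_pos
  θ_le t := (forall_datum I G κ hA hκ (D := Datum X0 X1) hI hG t).θ_le
  P_pos t := (forall_datum I G κ hA hκ (D := Datum X0 X1) hI hG t).P_pos
  P_low t := (forall_datum I G κ hA hκ (D := Datum X0 X1) hI hG t).P_low
  P_high t := (forall_datum I G κ hA hκ (D := Datum X0 X1) hI hG t).P_high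
  s_init t ht := sf_zero ht
  θ_init t ht := thS_round I G κ hA (ht.trans hA.le)
  P_init t ht X u := PS_round I G κ hA (ht.trans hA.le) X u

/-- LOCAL REPRESENTATION with the rate: near every time `t ≥ A` the assembled data are a member
of the installation path or of a loop, run with slope `σ` such that `(C σ)² ≤ c0 s'(t)`. -/
theorem local_rep {sI c0 C : ℝ} (hsI : 0 < sI) (hc0 : 0 < c0) (hA : 0 < A)
    (hr0 : ∀ t, A ≤ t → t ≤ 2 * A → (C / A) ^ 2 ≤ c0 * deriv (sf sI) t)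
    (hr1 : ∀ q, ∀ t, A ≤ t → t ≤ hs A (q + 1) → (C / Tg A q) ^ 2 ≤ c0 * deriv (sf sI) t)
    {t : ℝ} (ht : A ≤ t) :
    (t ≤ 2 * A ∧ ∃ c ∈ Icc (0 : ℝ) 1, ∃ σ : ℝ, 0 ≤ σ ∧ (C * σ) ^ 2 ≤ c0 * deriv (sf sI) t ∧
      ∀ᶠ t' in 𝓝 t, thS A I G κ t' = I.th (c + σ * (t' - t)) ∧
        ∀ X u, PS A I G κ t' X u = I.P (c + σ * (t' - t)) X u) ∨
    (∃ q, hs A q < t ∧ t ≤ hs A (q + 1) ∧ ∃ c ∈ Icc (0 : ℝ) 1, ∃ σ : ℝ, 0 ≤ σ ∧
      (C * σ) ^ 2 ≤ c0 * deriv (sf sI) t ∧
      ∀ᶠ t' in 𝓝 t, thS A I G κ t' = (G q).th (c + σ * (t' - t)) (κ q) ∧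
        ∀ X u, PS A I G κ t' X u = (G q).P (c + σ * (t' - t)) (κ q) X u) := by
  rcases le_or_gt t (2 * A) with h | h
  · left
    refine ⟨h, (t - A) / A, ⟨div_nonneg (by linarith) hA.le, (div_le_one hA).2 (by linarith)⟩,
      1 / A, by positivity, ?_, ?_⟩
    · rw [mul_one_div]; exact hr0 t ht h
    · have : ∀ᶠ t' in 𝓝 t, t' < he A 0 :=
        gt_mem_nhds (by rw [he_eq, hs_zero]; linarith [Th_pos hA 0])
      filter_upwards [this] with t' ht'
      have e : (t - A) / A + 1 / A * (t' - t) = (t' - A) / A := by field_simp; ring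
      rw [e]
      exact ⟨thS_inst I G κ hA ht'.le, fun X u => PS_inst I G κ hA ht'.le X u⟩
  · right
    obtain ⟨q, h1, h2⟩ : ∃ q, hs A q < t ∧ t ≤ hs A (q + 1) := by
      obtain ⟨q, h1, h2⟩ := exists_slot hA h.le
      rcases h1.lt_or_eq with h3 | h3
      · exact ⟨q, h3, h2.le⟩
      · cases q with
        | zero => rw [hs_zero] at h3; linarith
        | succ k => exact ⟨k, by rw [← h3]; exact hs_strictMono hA (Nat.lt_succ_self k), h3.ge⟩
    refine ⟨q, h1, h2, ?_⟩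
    rcases lt_or_ge t (he A q) with h3 | h3
    · refine ⟨0, ⟨le_rfl, zero_le_one⟩, 0, le_rfl, ?_, ?_⟩
      · simp only [mul_zero, ne_eq, OfNat.ofNat_ne_zero, not_false_eq_true, zero_pow]
        exact mul_nonneg hc0.le (deriv_sf_nonneg hsI t)
      · filter_upwards [lt_mem_nhds h1, gt_mem_nhds h3] with t' h4 h5
        rw [zero_mul, add_zero, (G q).th_left _ _ le_rfl]
        refine ⟨thS_home I G κ hA h4.le h5.le, fun X u => ?_⟩
        rw [(G q).P_left _ _ _ _ le_rfl]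
        exact PS_home I G κ hA h4.le h5.le X u
    · refine ⟨(t - he A q) / Tg A q, ⟨div_nonneg (by linarith) (Tg_pos hA q).le,
        (div_le_one (Tg_pos hA q)).2 (by rw [hs_succ] at h2; linarith)⟩,
        1 / Tg A q, (one_div_pos.2 (Tg_pos hA q)).le, ?_, ?_⟩
      · rw [mul_one_div]; exact hr1 q t ht h2
      · filter_upwards [lt_mem_nhds h1, gt_mem_nhds (h2.trans_lt (hs_lt_he hA (q + 1)))]
          with t' h4 h5
        have hT := (Tg_pos hA q).ne'
        have e : (t - he A q) / Tg A q + 1 / Tg A q * (t' - t) = (t' - he A q) / Tg A q := by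
          field_simp; ring
        rw [e]
        exact ⟨thS_gate I G κ hA h4.le h5.le, fun X u => PS_gate I G κ hA h4.le h5.le X u⟩

end

end Crest.Agent.R202.Sch
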