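import Mathlib
import Crest.Agent.R202.GeoCoef
import Crest.Agent.R202.SchPath

/-!
Row 202 (helper523): the coefficient field `coefF s θ P` depends continuously on parameters;
uniform convergence on bounded sets; locality of the scheduled data.
-/

set_option autoImplicit false

open scoped ContDiff Matrix
open Set Filter Topology
open Crest.GeometryTopology.CoordMetric

namespace Crest.Agent.R202.Geo

/-- A family of data depending continuously on a parameter. -/
structure ContFam (K : Type*) [TopologicalSpace K] (s : ℝ → ℝ) (θ : K → ℝ → ℝ)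
    (P : K → ℝ → ℝ → ℂ → ℝ) (t0 X0 X1 : ℝ) : Prop where
  fam : ∀ k, Fam s (θ k) (P k) t0 X0 X1
  cont_θ : Continuous fun p : K × ℝ => θ p.1 p.2
  cont_P : Continuous fun p : K × ℝ × ℝ × ℂ => P p.1 p.2.1 p.2.2.1 p.2.2.2

namespace ContFam

variable {m : ℕ} {K : Type*} [TopologicalSpace K] {s : ℝ → ℝ} {θ : K → ℝ → ℝ}
  {P : K → ℝ → ℝ → ℂ → ℝ} {t0 X0 X1 : ℝ}

lemma continuousAt_log {x : En (m + 3)} (hx : x ≠ 0) (k : K) :
    ContinuousAt (fun p : K × En (m + 3) => Real.log ‖p.2‖) (k, x) :=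
  (continuous_snd.norm.continuousAt).log (norm_ne_zero_iff.2 hx)

lemma continuousAt_θ (h : ContFam K s θ P t0 X0 X1) {x : En (m + 3)} (hx : x ≠ 0) (k : K) :
    ContinuousAt (fun p : K × En (m + 3) => θ p.1 (Real.log ‖p.2‖)) (k, x) :=
  ContinuousAt.comp (g := fun p : K × ℝ => θ p.1 p.2)
    (f := fun p : K × En (m + 3) => (p.1, Real.log ‖p.2‖)) h.cont_θ.continuousAt
    (continuousAt_fst.prodMk (continuousAt_log hx k))

lemma continuousAt_kap (h : ContFam K s θ P t0 X0 X1) {x : En (m + 3)} (hx : x ≠ 0) (k : K) :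
    ContinuousAt (fun p : K × En (m + 3) => kap m (θ p.1) (Real.log ‖p.2‖)) (k, x) :=
  (h.continuousAt_θ hx k).rpow_const (Or.inl ((h.fam k).θ_pos _).ne')

lemma continuousAt_snd_comp {f : En (m + 3) → ℝ} {x : En (m + 3)} (hf : ContinuousAt f x) (k : K) :
    ContinuousAt (fun p : K × En (m + 3) => f p.2) (k, x) :=
  ContinuousAt.comp (g := f) (f := fun p : K × En (m + 3) => p.2) hf continuousAt_snd

lemma continuousAt_P (h : ContFam K s θ P t0 X0 X1) {x : En (m + 3)} (hx : x ≠ 0)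
    (hr : rho x ≠ 0) (k : K) :
    ContinuousAt (fun p : K × En (m + 3) => P p.1 (Real.log ‖p.2‖) (XX p.2) (uu p.2)) (k, x) := by
  refine ContinuousAt.comp (g := fun p : K × ℝ × ℝ × ℂ => P p.1 p.2.1 p.2.2.1 p.2.2.2)
    (f := fun p : K × En (m + 3) => (p.1, Real.log ‖p.2‖, XX p.2, uu p.2))
    h.cont_P.continuousAt ?_
  refine continuousAt_fst.prodMk ((continuousAt_log hx k).prodMk (ContinuousAt.prodMk ?_ ?_))
  · exact continuousAt_snd_comp (Fam.continuousAt_XX hx) k
  · exact ContinuousAt.comp (g := uu) (f := fun p : K × En (m + 3) => p.2)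
      (cd_uu hr).continuousAt continuousAt_snd

theorem continuousAt_Afam (h : ContFam K s θ P t0 X0 X1) {x : En (m + 3)} (hx : x ≠ 0) (k : K)
    (i j : Fin (m + 3)) :
    ContinuousAt (fun p : K × En (m + 3) => Afam (θ p.1) (P p.1) p.2 i j) (k, x) := by
  have hne : ∀ᶠ p : K × En (m + 3) in 𝓝 (k, x), p.2 ≠ 0 :=
    continuousAt_snd.eventually (isOpen_compl_singleton.mem_nhds hx)
  have hnu : ContinuousAt (fun p : K × En (m + 3) => outer (nu p.2) i j) (k, x) :=
    continuousAt_snd_comp (f := fun x => outer (nu x) i j) (cd_outer_nu hx i j).continuousAt k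
  have hkap := h.continuousAt_kap hx k
  have hθ := h.continuousAt_θ hx k
  have h0 := h.fam k
  by_cases hr : rho x = 0
  · have hs : sig x ≠ 0 := (rho_or_sig hx).resolve_left (not_not.2 hr)
    have hX : ∀ᶠ p : K × En (m + 3) in 𝓝 (k, x), X1 ≤ XX p.2 := by
      have := (continuousAt_snd_comp (K := K) (Fam.continuousAt_XX hx) k).eventually
        (lt_mem_nhds (by rw [Fam.XX_one hx hr]; exact h0.hX1 : X1 < XX x))
      exact this.mono fun y hy => hy.le
    have hTT : ContinuousAt (fun p : K × En (m + 3) => TT p.2 i j) (k, x) :=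
      continuousAt_snd_comp (f := fun x => TT x i j) (cd_TT hx hs i j).continuousAt k
    refine ContinuousAt.congr_of_eventuallyEq (g := fun p : K × En (m + 3) => Afam (θ p.1) (P p.1) p.2 i j)
      (f := fun p : K × En (m + 3) => outer (nu p.2) i j +
      kap m (θ p.1) (Real.log ‖p.2‖) * ((1 : Matrix (Fin (m + 3)) (Fin (m + 3)) ℝ) i j
        - outer (nu p.2) i j
        + (θ p.1 (Real.log ‖p.2‖) - 1) * TT p.2 i j)) ?_ ?_
    · exact hnu.add (hkap.mul ((continuousAt_const.sub hnu).add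
        ((hθ.sub continuousAt_const).mul hTT)))
    · filter_upwards [hX, hne] with y hy hy0
      rw [(h.fam y.1).Afam_high hy0 hy]
      simp only [Matrix.add_apply, Matrix.smul_apply, Matrix.sub_apply, smul_eq_mul]
  · have he2 : ∀ i, ContinuousAt (fun p : K × En (m + 3) => e2 p.2 i) (k, x) := fun i =>
      continuousAt_snd_comp (f := fun x => e2 x i) (cd_e2 hr i).continuousAt k
    by_cases hs : sig x = 0
    · have hX : ∀ᶠ p : K × En (m + 3) in 𝓝 (k, x), XX p.2 ≤ X0 := by
        have := (continuousAt_snd_comp (K := K) (Fam.continuousAt_XX hx) k).eventually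
          (gt_mem_nhds (by rw [Fam.XX_zero hs]; exact h0.hX0 : XX x < X0))
        exact this.mono fun y hy => hy.le
      refine ContinuousAt.congr_of_eventuallyEq (g := fun p : K × En (m + 3) => Afam (θ p.1) (P p.1) p.2 i j)
        (f := fun p : K × En (m + 3) => outer (nu p.2) i j +
        kap m (θ p.1) (Real.log ‖p.2‖) * ((1 : Matrix (Fin (m + 3)) (Fin (m + 3)) ℝ) i j
          - outer (nu p.2) i j
          + ((θ p.1 (Real.log ‖p.2‖)) ^ 2 - 1) * (e2 p.2 i * e2 p.2 j))) ?_ ?_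
      · exact hnu.add (hkap.mul ((continuousAt_const.sub hnu).add
          (((hθ.pow 2).sub continuousAt_const).mul ((he2 i).mul (he2 j)))))
      · filter_upwards [hX, hne] with y hy hy0
        rw [(h.fam y.1).Afam_low hy0 hy]
        simp only [Matrix.add_apply, Matrix.smul_apply, Matrix.sub_apply, smul_eq_mul, outer]
    · have hr' : ∀ᶠ p : K × En (m + 3) in 𝓝 (k, x), rho p.2 ≠ 0 :=
        (continuousAt_snd_comp (K := K) continuous_rho.continuousAt k).eventually
          (isOpen_compl_singleton.mem_nhds hr)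
      have he1 : ∀ i, ContinuousAt (fun p : K × En (m + 3) => e1 p.2 i) (k, x) := fun i =>
        continuousAt_snd_comp (f := fun x => e1 x i) (cd_e1 hx hr hs i).continuousAt k
      have hP := h.continuousAt_P hx hr k
      have hP0 : P k (Real.log ‖x‖) (XX x) (uu x) ≠ 0 := (h0.P_pos _ _ _).ne'
      refine ContinuousAt.congr_of_eventuallyEq (g := fun p : K × En (m + 3) => Afam (θ p.1) (P p.1) p.2 i j)
        (f := fun p : K × En (m + 3) => outer (nu p.2) i j +
        kap m (θ p.1) (Real.log ‖p.2‖) * ((1 : Matrix (Fin (m + 3)) (Fin (m + 3)) ℝ) i j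
          - outer (nu p.2) i j
          + (((P p.1 (Real.log ‖p.2‖) (XX p.2) (uu p.2))⁻¹ - 1) * (e1 p.2 i * e1 p.2 j)
          + ((θ p.1 (Real.log ‖p.2‖)) ^ 2 * P p.1 (Real.log ‖p.2‖) (XX p.2) (uu p.2) - 1)
            * (e2 p.2 i * e2 p.2 j)))) ?_ ?_
      · exact hnu.add (hkap.mul ((continuousAt_const.sub hnu).add
          ((((hP.inv₀ hP0).sub continuousAt_const).mul ((he1 i).mul (he1 j))).add
          ((((hθ.pow 2).mul hP).sub continuousAt_const).mul ((he2 i).mul (he2 j))))))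
      · filter_upwards [hr', hne] with y hy hy0
        rw [Fam.Afam_mid _ _ hy]
        simp only [Matrix.add_apply, Matrix.smul_apply, Matrix.sub_apply, smul_eq_mul, outer]

theorem coefF_eq_one (h : ContFam K s θ P t0 X0 X1) (k : K) {x : En (m + 3)}
    (hx : ‖x‖ < Real.exp t0) : coefF s (θ k) (P k) x = 1 := by
  have e : sigOf s x = 0 ∧ fixA (Afam (θ k) (P k)) x = 1 := by
    by_cases h0 : x = 0
    · simp [sigOf, fixA, h0]
    · have hx' : 0 < ‖x‖ := norm_pos_iff.2 h0
      have ht := (Real.log_le_iff_le_exp hx').2 hx.le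
      simp only [sigOf, fixA, h0, if_false]
      exact ⟨(h.fam k).s_init _ ht, (h.fam k).Afam_init h0 ht⟩
  simp [coefF, coefR, gRInv, e.1, e.2]

/-- **Joint continuity of the coefficient field.** -/
theorem continuous_coefF (h : ContFam K s θ P t0 X0 X1) (i j : Fin (m + 3)) :
    Continuous fun p : K × En (m + 3) => coefF s (θ p.1) (P p.1) p.2 i j := by
  rw [continuous_iff_continuousAt]
  rintro ⟨k, x⟩
  by_cases hx : x = 0
  · subst hx
    have h1 : ∀ᶠ p : K × En (m + 3) in 𝓝 (k, 0), ‖p.2‖ < Real.exp t0 :=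
      Filter.Tendsto.eventually (f := fun p : K × En (m + 3) => ‖p.2‖)
        (continuous_snd.norm.continuousAt (x := (k, (0 : En (m + 3)))))
        (gt_mem_nhds (by simpa using Real.exp_pos t0))
    refine ContinuousAt.congr_of_eventuallyEq
      (f := fun _ => (1 : Matrix (Fin (m + 3)) (Fin (m + 3)) ℝ) i j) continuousAt_const ?_
    filter_upwards [h1] with p hp
    rw [h.coefF_eq_one p.1 hp]
  · have hne : ∀ᶠ p : K × En (m + 3) in 𝓝 (k, x), p.2 ≠ 0 :=
      continuousAt_snd.eventually (isOpen_compl_singleton.mem_nhds hx)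
    have hA : ContinuousAt (fun p : K × En (m + 3) => Afam (θ p.1) (P p.1) p.2) (k, x) :=
      continuousAt_pi.2 fun i => continuousAt_pi.2 fun j => h.continuousAt_Afam hx k i j
    have hadj : ContinuousAt (fun p : K × En (m + 3) =>
        (Afam (θ p.1) (P p.1) p.2).adjugate) (k, x) :=
      ContinuousAt.comp (g := fun B : Matrix (Fin (m + 3)) (Fin (m + 3)) ℝ => B.adjugate)
        (f := fun p : K × En (m + 3) => Afam (θ p.1) (P p.1) p.2)
        (continuous_id.matrix_adjugate).continuousAt hA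
    have hadj' : ContinuousAt (fun p : K × En (m + 3) =>
        (Afam (θ p.1) (P p.1) p.2).adjugate i j) (k, x) :=
      continuousAt_pi.1 (continuousAt_pi.1 hadj i) j
    have hs : ContinuousAt (fun p : K × En (m + 3) => s (Real.log ‖p.2‖)) (k, x) :=
      ContinuousAt.comp (g := s) (f := fun p : K × En (m + 3) => Real.log ‖p.2‖)
        (h.fam k).smooth_s.continuous.continuousAt (continuousAt_log hx k)
    have hnu : ContinuousAt (fun p : K × En (m + 3) => outer (nu p.2) i j) (k, x) :=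
      continuousAt_snd_comp (f := fun x => outer (nu x) i j) (cd_outer_nu hx i j).continuousAt k
    refine ContinuousAt.congr_of_eventuallyEq (f := fun p : K × En (m + 3) =>
      Real.exp (-(((m + 3 : ℕ) : ℝ) - 1) * s (Real.log ‖p.2‖)) * (outer (nu p.2) i j +
        Real.exp (2 * s (Real.log ‖p.2‖)) * ((Afam (θ p.1) (P p.1) p.2).adjugate i j
          - outer (nu p.2) i j))) ?_ ?_
    · exact ((continuousAt_const.mul hs).rexp).mul
        (hnu.add (((continuousAt_const.mul hs).rexp).mul (hadj'.sub hnu)))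
    · filter_upwards [hne] with p hp
      have e1 : sigOf s p.2 = s (Real.log ‖p.2‖) := by simp [sigOf, hp]
      have e2 := (h.fam p.1).radData.inv_eq_adjugate p.2
      have e3 : fixA (Afam (θ p.1) (P p.1)) p.2 = Afam (θ p.1) (P p.1) p.2 := by
        simp [fixA, hp]
      rw [e3] at e2
      simp only [coefF, coefR, gRInv, e1, e3, e2, radP_eq_outer, Matrix.add_apply,
        Matrix.smul_apply, Matrix.sub_apply, smul_eq_mul]

/-- convergence uniform on compact sets -/
theorem tendstoUniformlyOn (h : ContFam K s θ P t0 X0 X1) {ι : Type*} {l : Filter ι}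
    {κs : ι → K} {κ : K} (hκ : Tendsto κs l (𝓝 κ)) {C : Set (En (m + 3))} (hC : IsCompact C)
    (i j : Fin (m + 3)) :
    TendstoUniformlyOn (fun a x => coefF s (θ (κs a)) (P (κs a)) x i j)
      (fun x => coefF s (θ κ) (P κ) x i j) l C := by
  let F : C(K × En (m + 3), ℝ) := ⟨_, h.continuous_coefF i j⟩
  have h1 : Tendsto (fun a => F.curry (κs a)) l (𝓝 (F.curry κ)) :=
    (F.curry.continuous.tendsto κ).comp hκ
  exact ContinuousMap.tendsto_iff_forall_isCompact_tendstoUniformlyOn.1 h1 C hC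

/-- convergence in the form used by part F (`hconv` of `Lim4`) -/
theorem hconv (h : ContFam K s θ P t0 X0 X1) {ι : Type*} {l : Filter ι}
    {κs : ι → K} {κ : K} (hκ : Tendsto κs l (𝓝 κ)) (R ε : ℝ) (hε : 0 < ε) :
    ∀ᶠ a in l, ∀ x ∈ Metric.closedBall (0 : En (m + 3)) R, ∀ i j,
      |coefF s (θ (κs a)) (P (κs a)) x i j - coefF s (θ κ) (P κ) x i j| ≤ ε := by
  have h1 : ∀ i j : Fin (m + 3), ∀ᶠ a in l, ∀ x ∈ Metric.closedBall (0 : En (m + 3)) R,
      |coefF s (θ (κs a)) (P (κs a)) x i j - coefF s (θ κ) (P κ) x i j| ≤ ε := by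
    intro i j
    have := Metric.tendstoUniformlyOn_iff.1
      (h.tendstoUniformlyOn hκ (isCompact_closedBall (0 : En (m + 3)) R) i j) ε hε
    filter_upwards [this] with a ha x hx
    have h2 := ha x hx
    rw [Real.dist_eq, abs_sub_comm] at h2
    exact h2.le
  have h2 := eventually_all.2 fun i => eventually_all.2 fun j => h1 i j
  filter_upwards [h2] with a ha x hx i j
  exact ha i j x hx

end ContFam

/-! ### Locality -/

section congr

variable {m : ℕ}

lemma Afam_congr {θ θ' : ℝ → ℝ} {P P' : ℝ → ℝ → ℂ → ℝ} {x : En (m + 3)}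
    (hθ : θ (Real.log ‖x‖) = θ' (Real.log ‖x‖))
    (hP : ∀ X u, P (Real.log ‖x‖) X u = P' (Real.log ‖x‖) X u) :
    Afam θ P x = Afam θ' P' x := by
  unfold Afam
  rw [hθ, hP]

/-- the coefficient field at `x` only depends on the data at time `log ‖x‖` -/
theorem coefF_congr (s : ℝ → ℝ) {θ θ' : ℝ → ℝ} {P P' : ℝ → ℝ → ℂ → ℝ} {x : En (m + 3)}
    (hθ : θ (Real.log ‖x‖) = θ' (Real.log ‖x‖))
    (hP : ∀ X u, P (Real.log ‖x‖) X u = P' (Real.log ‖x‖) X u) :
    coefF s θ P x = coefF s θ' P' x := by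
  have h1 : fixA (Afam θ P) x = fixA (Afam θ' P') x := by
    simp only [fixA, Afam_congr hθ hP]
  simp only [coefF, coefR, gRInv, h1]

end congr

end Crest.Agent.R202.Geo

namespace Crest.Agent.R202.Sch

open Geo

variable {θ₀ : ℝ} {P₀ : ℝ → ℂ → ℝ} (I : Inst θ₀ P₀) (G : ℕ → Loop θ₀ P₀) {A : ℝ}

/-- the data at times `t ≤ he A q` only depend on `κ j`, `j < q` -/
theorem thS_local (hA : 0 < A) {κ κ' : ℕ → ℝ} {q : ℕ} {t : ℝ} (ht : t ≤ he A q)
    (h : ∀ j < q, κ j = κ' j) : thS A I G κ t = thS A I G κ' t := by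
  unfold thS glue
  congr 1
  refine finsum_congr fun j => ?_
  rcases lt_or_ge j q with hj | hj
  · simp only [h j hj]
  · have h1 := (he_strictMono hA).monotone hj
    rw [(hyp_th I G κ).term_left hA (0 : ℝ) (ht.trans h1),
      (hyp_th I G κ').term_left hA (0 : ℝ) (ht.trans h1)]

theorem PS_local (hA : 0 < A) {κ κ' : ℕ → ℝ} {q : ℕ} {t : ℝ} (ht : t ≤ he A q)
    (h : ∀ j < q, κ j = κ' j) (X : ℝ) (u : ℂ) : PS A I G κ t X u = PS A I G κ' t X u := by
  unfold PS glue
  congr 1
  refine finsum_congr fun j => ?_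
  rcases lt_or_ge j q with hj | hj
  · simp only [h j hj]
  · have h1 := (he_strictMono hA).monotone hj
    rw [(hyp_P I G κ).term_left hA (X, u) (ht.trans h1),
      (hyp_P I G κ').term_left hA (X, u) (ht.trans h1)]

/-- hence the coefficient field on `‖x‖ ≤ exp (he A q)` only depends on `κ j`, `j < q` -/
theorem coefF_local {m : ℕ} (s : ℝ → ℝ) (hA : 0 < A) {κ κ' : ℕ → ℝ} {q : ℕ}
    (h : ∀ j < q, κ j = κ' j) {x : En (m + 3)} (hx : ‖x‖ ≤ Real.exp (he A q)) :
    coefF s (thS A I G κ) (PS A I G κ) x = coefF s (thS A I G κ') (PS A I G κ') x := by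
  by_cases h0 : x = 0
  · subst h0
    simp [coefF, coefR, gRInv, sigOf, fixA]
  · have ht : Real.log ‖x‖ ≤ he A q := (Real.log_le_iff_le_exp (norm_pos_iff.2 h0)).2 hx
    exact coefF_congr s (thS_local I G hA ht h) fun X u => PS_local I G hA ht h X u

/-- the scheduled data are a continuous family -/
theorem contFam {sI t0 X0 X1 : ℝ} (hA : 0 < A)
    (hF : ∀ κ : ℕ → ℝ, (∀ q, κ q ∈ Icc (-1 : ℝ) 1) →
      Fam (sf sI) (thS A I G κ) (PS A I G κ) t0 X0 X1) :
    ContFam (ℕ → Icc (-1 : ℝ) 1) (sf sI) (fun κ => thS A I G fun q => κ q)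
      (fun κ => PS A I G fun q => κ q) t0 X0 X1 where
  fam κ := hF _ fun q => (κ q).2
  cont_θ := (thS_continuous_param I G hA).comp
    (show Continuous fun p : (ℕ → Icc (-1 : ℝ) 1) × ℝ => ((fun q => (p.1 q : ℝ)), p.2) from
      (continuous_pi fun q => continuous_subtype_val.comp
        ((continuous_apply q).comp continuous_fst)).prodMk continuous_snd)
  cont_P := (PS_continuous_param I G hA).comp
    (show Continuous fun p : (ℕ → Icc (-1 : ℝ) 1) × ℝ × ℝ × ℂ => ((fun q => (p.1 q : ℝ)), p.2) from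
      (continuous_pi fun q => continuous_subtype_val.comp
        ((continuous_apply q).comp continuous_fst)).prodMk continuous_snd)

/-- **(SC1)** convergence of the coefficient fields when `κ^(a) → κ` coordinatewise. -/
theorem coefF_hconv {m : ℕ} {sI t0 X0 X1 : ℝ} (hA : 0 < A)
    (hF : ∀ κ : ℕ → ℝ, (∀ q, κ q ∈ Icc (-1 : ℝ) 1) →
      Fam (sf sI) (thS A I G κ) (PS A I G κ) t0 X0 X1)
    {ι : Type*} {l : Filter ι} {κs : ι → ℕ → ℝ} {κ : ℕ → ℝ}
    (h0 : ∀ a q, κs a q ∈ Icc (-1 : ℝ) 1) (h1 : ∀ q, κ q ∈ Icc (-1 : ℝ) 1)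
    (hκ : ∀ q, Tendsto (fun a => κs a q) l (𝓝 (κ q))) (R ε : ℝ) (hε : 0 < ε) :
    ∀ᶠ a in l, ∀ x ∈ Metric.closedBall (0 : En (m + 3)) R, ∀ i j,
      |coefF (sf sI) (thS A I G (κs a)) (PS A I G (κs a)) x i j
        - coefF (sf sI) (thS A I G κ) (PS A I G κ) x i j| ≤ ε := by
  have h2 : Tendsto (fun a => (fun q => (⟨κs a q, h0 a q⟩ : Icc (-1 : ℝ) 1))) l
      (𝓝 (fun q => (⟨κ q, h1 q⟩ : Icc (-1 : ℝ) 1))) := by
    rw [tendsto_pi_nhds]
    intro q
    rw [tendsto_subtype_rng]
    exact hκ q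
  exact (contFam I G hA hF).hconv h2 R ε hε

end Crest.Agent.R202.Sch
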