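import Mathlib
import Crest.Agent.R202.GalSmall
import Crest.Agent.R202.SchBar
import Crest.Agent.R202.SchConv
import Crest.Agent.R202.MixDefs

/-! # Row 202, PART B: the family of flows, generic part (helper514)

* `exists_flow_late`: compact family of coefficients, bounded rates, small late rates ⇒ family of
  `Seg.Flow`s with constant `ρ = δ` after an explicit time.
* `extK`: extension of `κ : Cube P` by `1`.
* `ContFam.comp`: pull back of a continuous family of data. -/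

set_option autoImplicit false
set_option linter.unusedSectionVars false
set_option linter.unusedVariables false

open Set Filter Topology
open scoped InnerProductSpace ContDiff

namespace Crest.Agent.R202.BFlow

open Crest.Agent.R202.Gal
open Crest.Agent.R202.Mix (Cube)

section Generic

variable {G : Type} [NormedAddCommGroup G] [InnerProductSpace ℝ G] [FiniteDimensional ℝ G]

/-- compact family of coefficients with bounded rates which are small after `tb` -/
theorem exists_flow_late {X : Type*} [TopologicalSpace X] [CompactSpace X] (C : X → Coef G)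
    (t0 : ℝ) (ht0 : ∀ κ, (C κ).t0 = t0)
    (hK : Continuous (Function.uncurry fun κ t => (C κ).K t))
    (hb : Continuous (Function.uncurry fun κ t => (C κ).b t))
    (hL : Continuous fun κ => (C κ).L0) {rm δ tb : ℝ} (hrm : 0 < rm) (hδ : 0 < δ)
    (htb : t0 ≤ tb) (h1 : ∀ κ s, t0 ≤ s → (C κ).Rate rm s)
    (h2 : ∀ κ s, tb ≤ s → (C κ).Rate (δ / 2) s) :
    ∃ (U V : X → ℝ → G →L[ℝ] G) (F : X → Seg.Flow G), Continuous (Function.uncurry U) ∧
      Continuous (Function.uncurry V) ∧ (∀ κ, Sol (C κ) (U κ) (V κ)) ∧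
      (∀ t, Continuous fun κ => U κ t) ∧
      ∀ κ, (F κ).t1 = tb + 4 * rm / δ ∧ (F κ).K = (C κ).K ∧ (F κ).U = U κ ∧
        (F κ).b = (C κ).b ∧ ((F κ).ρ = fun _ => δ) ∧ (F κ).L = dn (U κ) (V κ) := by
  obtain ⟨U, V, hU, hV, hS, H⟩ := exists_flow C t0 ht0 hK hb hL
  have h3 : 0 < 4 * rm / δ := by positivity
  obtain ⟨F, hF⟩ := H (tb + 4 * rm / δ) (fun _ _ => δ) (by linarith) (fun _ _ _ => hδ.le)
    (fun κ t ht => Coef.small_of_late' hrm hδ (by rw [ht0]; exact htb)
      (fun s hs => h1 κ s (by rw [← ht0 κ]; exact hs)) (h2 κ) ht.le)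
  exact ⟨U, V, F, hU, hV, hS, fun t => continuous_param hU t, hF⟩

end Generic

/-- input: family of Galerkin coefficients of the scheduled metrics -/
structure GalFam {G : Type} [NormedAddCommGroup G] [InnerProductSpace ℝ G] (mm : ℕ) (sI A R : ℝ)
    {X : Type} [TopologicalSpace X] (C : X → Coef G) : Prop where
  t0 : ∀ κ, (C κ).t0 = 0
  cK : Continuous (Function.uncurry fun κ t => (C κ).K t)
  cL : Continuous fun κ => (C κ).L0
  b_eq : ∀ κ t, (C κ).b t = (mm + 1 : ℝ) - (mm + 2) * deriv (Sch.sf sI) t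
  rate : ∀ κ t r, 0 ≤ t → |deriv (Sch.sf sI) t| ≤ r → R / A ≤ r → ∀ x,
    |⟪(C κ).K' t x, x⟫_ℝ| ≤ 6 * r * ⟪(C κ).K t x, x⟫_ℝ

section Sched

variable {G : Type} [NormedAddCommGroup G] [InnerProductSpace ℝ G]
variable {mm : ℕ} {sI A R : ℝ} {X : Type} [TopologicalSpace X] {C : X → Coef G}

theorem GalFam.b'_eq (h : GalFam mm sI A R C) (κ : X) (t : ℝ) :
    (C κ).b' t = -((mm + 2) * deriv (deriv (Sch.sf sI)) t) := by
  have h0 : HasDerivAt (deriv (Sch.sf sI)) (deriv (deriv (Sch.sf sI)) t) t :=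
    ((Sch.deriv_sf_contDiff sI).differentiable (by simp) t).hasDerivAt
  have h3 : (C κ).b = fun t => (mm + 1 : ℝ) - (mm + 2) * deriv (Sch.sf sI) t :=
    funext (h.b_eq κ)
  have h4 := (h0.const_mul ((mm : ℝ) + 2)).const_sub (mm + 1 : ℝ)
  have h5 := (C κ).hb t
  rw [h3] at h5
  exact h5.unique h4

theorem GalFam.cont_b (h : GalFam mm sI A R C) :
    Continuous (Function.uncurry fun κ t => (C κ).b t) := by
  have h1 : (Function.uncurry fun κ t => (C κ).b t) =
      fun p : X × ℝ => (mm + 1 : ℝ) - (mm + 2) * deriv (Sch.sf sI) p.2 := by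
    funext p
    exact h.b_eq p.1 p.2
  rw [h1]
  exact continuous_const.sub (continuous_const.mul
    ((Sch.deriv_sf_contDiff sI).continuous.comp continuous_snd))

/-- **Flow family of the scheduled metrics.**  `A1` depends on `sI, R, δ, m` only. -/
theorem exists_schedFlow {mm : ℕ} {sI R δ : ℝ} (hsI : 0 < sI) (hR : 0 ≤ R) (hδ : 0 < δ) :
    ∃ A1 : ℝ, 1 ≤ A1 ∧ ∀ A : ℝ, A1 ≤ A → ∀ (G : Type) [NormedAddCommGroup G]
      [InnerProductSpace ℝ G] [FiniteDimensional ℝ G] (X : Type) [TopologicalSpace X]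
      [CompactSpace X] (C : X → Coef G), GalFam mm sI A R C →
      ∃ (U V : X → ℝ → G →L[ℝ] G) (F : X → Seg.Flow G), Continuous (Function.uncurry U) ∧
        Continuous (Function.uncurry V) ∧ (∀ κ, Sol (C κ) (U κ) (V κ)) ∧
        (∀ t, Continuous fun κ => U κ t) ∧
        ∀ κ, (F κ).t1 < Sch.hs A 0 ∧ (F κ).K = (C κ).K ∧ (F κ).U = U κ ∧
          (F κ).b = (C κ).b ∧ ((F κ).ρ = fun _ => δ) ∧ (F κ).L = dn (U κ) (V κ) := by
  obtain ⟨B, hB0, hB⟩ := Sch.deriv2_sf_bdd hsI
  set η : ℝ := δ / (2 * ((mm : ℝ) + 8)) with hη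
  have hη0 : 0 < η := by positivity
  obtain ⟨tb, htb0, htb⟩ := Sch.rates_small hsI hη0
  set r1 : ℝ := max (1 / 4) R with hr1
  have hr10 : 0 < r1 := lt_of_lt_of_le (by norm_num) (le_max_left _ _)
  set rm : ℝ := 6 * r1 + ((mm : ℝ) + 2) * B with hrm
  have hrm0 : 0 < rm := by positivity
  refine ⟨max 1 (max (R / η) (tb + 4 * rm / δ)), le_max_left _ _, ?_⟩
  intro A hA G _ _ _ X _ _ C hC
  have hA1 : 1 ≤ A := (le_max_left _ _).trans hA
  have hA2 : R / η ≤ A := ((le_max_left _ _).trans (le_max_right _ _)).trans hA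
  have hA3 : tb + 4 * rm / δ ≤ A := ((le_max_right _ _).trans (le_max_right _ _)).trans hA
  have hA0 : 0 < A := by linarith
  have hRA : R / A ≤ R := div_le_self hR hA1
  have hRη : R / A ≤ η := by
    rw [div_le_iff₀ hη0] at hA2
    rw [div_le_iff₀ hA0]
    linarith
  have hm0 : (0 : ℝ) ≤ (mm : ℝ) := Nat.cast_nonneg mm
  have hb'abs : ∀ κ s, |(C κ).b' s| = ((mm : ℝ) + 2) * |deriv (deriv (Sch.sf sI)) s| := by
    intro κ s
    rw [hC.b'_eq, abs_neg, abs_mul, abs_of_nonneg (by positivity : (0 : ℝ) ≤ (mm : ℝ) + 2)]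
  have h1 : ∀ κ s, 0 ≤ s → (C κ).Rate rm s := by
    intro κ s hs
    constructor
    · intro x
      refine (hC.rate κ s r1 hs ((Sch.abs_deriv_sf_le hsI s).trans (le_max_left _ _))
        (hRA.trans (le_max_right _ _)) x).trans ?_
      refine mul_le_mul_of_nonneg_right ?_ ((C κ).nonneg s x)
      have : 0 ≤ ((mm : ℝ) + 2) * B := by positivity
      linarith
    · rw [hb'abs]
      have := mul_le_mul_of_nonneg_left (hB s) (by positivity : (0 : ℝ) ≤ (mm : ℝ) + 2)
      linarith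
  have h2 : ∀ κ s, tb ≤ s → (C κ).Rate (δ / 2) s := by
    intro κ s hs
    obtain ⟨a1, a2⟩ := htb s hs
    have e1 : η * (2 * ((mm : ℝ) + 8)) = δ := by
      rw [hη]; field_simp
    have e2 : 0 ≤ η * (mm : ℝ) := by positivity
    constructor
    · intro x
      refine (hC.rate κ s η (htb0.trans hs) a1 hRη x).trans ?_
      refine mul_le_mul_of_nonneg_right ?_ ((C κ).nonneg s x)
      linarith
    · rw [hb'abs]
      have := mul_le_mul_of_nonneg_left a2 (by positivity : (0 : ℝ) ≤ (mm : ℝ) + 2)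
      have e3 : ((mm : ℝ) + 2) * η ≤ δ / 2 := by linarith
      linarith
  obtain ⟨U, V, F, hU, hV, hS, hc, hF⟩ := exists_flow_late C 0 hC.t0 hC.cK hC.cont_b hC.cL
    hrm0 hδ htb0 h1 h2
  refine ⟨U, V, F, hU, hV, hS, hc, fun κ => ?_⟩
  obtain ⟨f1, f2⟩ := hF κ
  refine ⟨?_, f2⟩
  rw [f1, Sch.hs_zero]
  linarith

end Sched

/-- extension of `κ : Cube P` by `1` beyond `P` -/
noncomputable def extK {P : ℕ} (κ : Cube P) (q : ℕ) : Icc (-1 : ℝ) 1 :=
  if h : q < P then κ ⟨q, h⟩ else ⟨1, by norm_num, le_rfl⟩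

theorem extK_lt {P : ℕ} (κ : Cube P) {q : ℕ} (h : q < P) : extK κ q = κ ⟨q, h⟩ := dif_pos h

theorem extK_val {P : ℕ} (κ : Cube P) (k : Fin P) : (extK κ k.1 : ℝ) = κ k := by
  rw [extK_lt κ k.2]

theorem extK_ge {P : ℕ} (κ : Cube P) {q : ℕ} (h : P ≤ q) : (extK κ q : ℝ) = 1 := by
  rw [extK, dif_neg (not_lt.2 h)]

theorem extK_mem {P : ℕ} (κ : Cube P) (q : ℕ) : (extK κ q : ℝ) ∈ Icc (-1 : ℝ) 1 := (extK κ q).2

theorem continuous_extK {P : ℕ} : Continuous (extK : Cube P → ℕ → Icc (-1 : ℝ) 1) := by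
  refine continuous_pi fun q => ?_
  by_cases h : q < P
  · have : (fun κ : Cube P => extK κ q) = fun κ => κ ⟨q, h⟩ := funext fun κ => extK_lt κ h
    rw [this]
    exact continuous_apply _
  · have : (fun κ : Cube P => extK κ q) = fun _ => ⟨1, by norm_num, le_rfl⟩ := by
      funext κ
      rw [extK, dif_neg h]
    rw [this]
    exact continuous_const

/-- pull back of a continuous family of data -/
theorem _root_.Crest.Agent.R202.Geo.ContFam.comp {K Y : Type*} [TopologicalSpace K]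
    [TopologicalSpace Y] {s : ℝ → ℝ} {θ : K → ℝ → ℝ} {P : K → ℝ → ℝ → ℂ → ℝ} {t0 X0 X1 : ℝ}
    (h : Geo.ContFam K s θ P t0 X0 X1) {f : Y → K} (hf : Continuous f) :
    Geo.ContFam Y s (fun y => θ (f y)) (fun y => P (f y)) t0 X0 X1 where
  fam y := h.fam (f y)
  cont_θ := h.cont_θ.comp ((hf.comp continuous_fst).prodMk continuous_snd)
  cont_P := h.cont_P.comp ((hf.comp continuous_fst).prodMk continuous_snd)

end Crest.Agent.R202.BFlow
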