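import Mathlib
import Crest.Agent.R202.BFlow
import Crest.Agent.R202.BFinSeg

/-! # Row 202, PART B: `FlowFam` from the Galerkin coefficients (helper514) -/

set_option autoImplicit false
set_option linter.unusedSectionVars false
set_option linter.unusedVariables false

open Set Filter Topology
open scoped InnerProductSpace ContDiff

namespace Crest.Agent.R202.BFlow

open Crest.Agent.R202.Gal
open Crest.Agent.R202.Mix (Cube)
open Crest.Agent.R202.BFin (LoopSys FlowFam)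
open Crest.Agent.R202.Sch (hs he Th Tg sf)

/-- **`FlowFam` of the scheduled metrics**, together with the operator solutions `U`, `V`. -/
theorem exists_flowFam {mm : ℕ} {sI R δ : ℝ} (hsI : 0 < sI) (hR : 0 ≤ R) (hδ : 0 < δ) :
    ∃ A1 : ℝ, 1 ≤ A1 ∧ ∀ A : ℝ, A1 ≤ A → ∀ (G : Type) [NormedAddCommGroup G]
      [InnerProductSpace ℝ G] [FiniteDimensional ℝ G] (ι : Type) (N i0 : ℕ) (η Cμ Mμ : ℝ)
      (Λ : ℕ → ℝ) (LS : LoopSys G ι N i0 η Cμ Mμ Λ) (P : ℕ) (jq : ℕ → ι)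
      (C : Cube P → Coef G), GalFam mm sI A R C →
      (∀ κ (k : Fin P) t, hs A k.1 ≤ t → t ≤ he A (k.1 + 1) →
        (C κ).K t = Real.exp (2 * sf sI t) • LS.S (jq k.1) ((t - he A k.1) / Tg A k.1) (κ k)) →
      (∀ κ q, q ≤ P → ∀ t, hs A q ≤ t → t ≤ he A q →
        (C κ).K t = Real.exp (2 * sf sI t) • LS.H) →
      ∃ (U V : Cube P → ℝ → G →L[ℝ] G) (FF : FlowFam LS mm sI A δ P jq),
        Continuous (Function.uncurry U) ∧ Continuous (Function.uncurry V) ∧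
        (∀ κ, Sol (C κ) (U κ) (V κ)) ∧
        ∀ κ, (FF.F κ).K = (C κ).K ∧ (FF.F κ).U = U κ ∧
          (FF.F κ).b = (C κ).b ∧ ((FF.F κ).ρ = fun _ => δ) ∧ (FF.F κ).L = dn (U κ) (V κ) := by
  obtain ⟨A1, hA1, H⟩ := exists_schedFlow (mm := mm) hsI hR hδ
  refine ⟨A1, hA1, ?_⟩
  intro A hA G _ _ _ ι N i0 η Cμ Mμ Λ LS P jq C hC hKg hKh
  obtain ⟨U, V, F, hU, hV, hS, hc, hF⟩ := H A hA G (Cube P) C hC
  refine ⟨U, V,
    { F := F
      K_gate := fun κ k t h1 h2 => by rw [(hF κ).2.1]; exact hKg κ k t h1 h2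
      K_home := fun κ q hq t h1 h2 => by rw [(hF κ).2.1]; exact hKh κ q hq t h1 h2
      b_eq := fun κ t => by rw [(hF κ).2.2.2.1]; exact hC.b_eq κ t
      t1_lt := fun κ => (hF κ).1
      ρ_le := fun κ t _ => by rw [(hF κ).2.2.2.2.1]
      cont := fun t _ => ?_ }, hU, hV, hS, fun κ => (hF κ).2⟩
  have : (fun κ => (F κ).U t) = fun κ => U κ t := funext fun κ => by rw [(hF κ).2.2.1]
  rw [this]
  exact hc t

end Crest.Agent.R202.BFlow
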