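import Mathlib
import Crest.Agent.R202.GeoCoef
import Crest.Agent.R202.GeoHyp
import Crest.Agent.R202.MainDefs

/-!
Row 202, part D (helper523): all geometric clauses (`Main.GeoOut`) for `gfam s θ P`.
-/

set_option autoImplicit false

open scoped ContDiff
open Set Filter Topology
open Crest.GeometryTopology.CoordMetric Crest.GeometryTopology.ChartCurvature

namespace Crest.Agent.R202.Geo

/-! ### Flatness near the origin -/

section flat

variable {n : ℕ} {g : MetricField n}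

lemma pderiv_eq_zero_of_const {f : En n → ℝ} {c : ℝ} {x : En n} (h : ∀ᶠ y in 𝓝 x, f y = c)
    (i : Fin n) : pderiv i f x = 0 := by
  have h1 : f =ᶠ[𝓝 x] fun _ => c := h
  unfold pderiv
  rw [h1.fderiv_eq]
  simp

lemma christoffel_eventually_zero {x : En n} (h : ∀ᶠ y in 𝓝 x, g y = 1) (k i j : Fin n) :
    ∀ᶠ y in 𝓝 x, christoffel g y k i j = 0 := by
  filter_upwards [h.eventually_nhds] with y hy
  have hz : ∀ a b l : Fin n, pderiv l (fun z => g z a b) y = 0 := fun a b l =>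
    pderiv_eq_zero_of_const (c := (1 : Matrix (Fin n) (Fin n) ℝ) a b)
      (hy.mono fun z hz => by rw [hz]) l
  unfold christoffel
  simp [hz]

lemma ricci_eq_zero_of_flat {x : En n} (h : ∀ᶠ y in 𝓝 x, g y = 1) (i j : Fin n) :
    ricci g x i j = 0 := by
  have h0 := fun k i j => christoffel_eventually_zero h k i j
  have hx : ∀ k i j, christoffel g x k i j = 0 := fun k i j => (h0 k i j).self_of_nhds
  have h1 : ∀ k, pderiv k (fun y => christoffel g y k i j) x = 0 := fun k =>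
    pderiv_eq_zero_of_const (h0 k i j) k
  have h2 : pderiv j (fun y => ∑ k, christoffel g y k k i) x = 0 := by
    refine pderiv_eq_zero_of_const (c := 0) ?_ j
    have : ∀ᶠ y in 𝓝 x, ∀ k, christoffel g y k k i = 0 :=
      eventually_all.2 fun k => h0 k k i
    filter_upwards [this] with y hy
    exact Finset.sum_eq_zero fun k _ => hy k
  unfold ricci
  rw [h2]
  simp [h1, hx]

end flat

/-- The Ricci theorem of part D (GeoRic, helper580). -/
def RicThm (m : ℕ) : Prop :=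
  ∀ K μ X0 X1 : ℝ, 1 ≤ K → 0 < μ → 0 < X0 → X1 < 1 → ∃ c : ℝ, 0 < c ∧ c ≤ 1 ∧
    ∀ (s θ : ℝ → ℝ) (P : ℝ → ℝ → ℂ → ℝ) (t0 : ℝ), Fam s θ P t0 X0 X1 →
      ∀ x : En (m + 3), x ≠ 0 →
        (DefPhase m s θ P K μ c (Real.log ‖x‖) ∨ RoundPhase s θ P (Real.log ‖x‖)) →
        ∀ v : En (m + 3), c * deriv s (Real.log ‖x‖) / ‖x‖ ^ 2 * quadForm (gfam s θ P) x v ≤
          ∑ i, ∑ j, ricci (gfam s θ P) x i j * v i * v j

/-- Negatively curved planes containing the radial direction at infinity (the clause of S0309). -/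
def NegRad {m : ℕ} (g : MetricField (m + 3)) : Prop :=
  ∃ p : ℕ → En (m + 3), Tendsto (fun j => ‖p j‖) atTop atTop ∧
    ∀ j, ∃ w : En (m + 3), 0 < gramDet g (p j) (p j) w ∧ secNumer g (p j) (p j) w < 0

/-- The statement of GeoNeg (helper248). -/
def NegThm (m : ℕ) : Prop :=
  ∀ (s θ : ℝ → ℝ) (P : ℝ → ℝ → ℂ → ℝ) (t0 X0 X1 : ℝ), Fam s θ P t0 X0 X1 →
    (∀ T : ℝ, ∃ t1 t2, T ≤ t1 ∧ t1 < t2 ∧
      (-(s t1) - Real.log (θ t1) / ((m : ℝ) + 2))
        + deriv (fun t => -(s t) - Real.log (θ t) / ((m : ℝ) + 2)) t1 <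
      (-(s t2) - Real.log (θ t2) / ((m : ℝ) + 2))
        + deriv (fun t => -(s t) - Real.log (θ t) / ((m : ℝ) + 2)) t2) →
    NegRad (gfam (m := m) s θ P)

/-- All geometric clauses, from the Ricci lower bound. -/
theorem Fam.geoOut {m : ℕ} {s θ : ℝ → ℝ} {P : ℝ → ℝ → ℂ → ℝ} {t0 X0 X1 : ℝ}
    (h : Fam s θ P t0 X0 X1) {c v T1 : ℝ} (hc : 0 < c) (hv : 0 < v)
    (hric : ∀ x : En (m + 3), x ≠ 0 → ∀ w : En (m + 3),
      c * deriv s (Real.log ‖x‖) / ‖x‖ ^ 2 * quadForm (gfam s θ P) x w ≤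
          ∑ i, ∑ j, ricci (gfam s θ P) x i j * w i * w j)
    (hs0 : ∀ t, 0 ≤ deriv s t) (hs1 : ∀ t, T1 < t → 0 < deriv s t)
    (hlim : Tendsto s atTop (𝓝 (-Real.log v / ((m : ℝ) + 2))))
    (hneg : NegRad (gfam (m := m) s θ P)) :
    Main.GeoOut m v (gfam s θ P) where
  riem := (h.radialMetric (m := m)).riem
  complete := (h.radialMetric (m := m)).complete
  near_zero := h.gfam_near_zero
  ric_nonneg := by
    intro x _ w
    by_cases hx : x = 0
    · obtain ⟨r, hr, h1⟩ := h.gfam_near_zero (m := m)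
      have h2 : ∀ᶠ y in 𝓝 x, gfam s θ P y = 1 := by
        rw [hx]
        filter_upwards [Metric.ball_mem_nhds (0 : En (m + 3)) hr] with y hy
        exact h1 y (by simpa using hy)
      simp [ricci_eq_zero_of_flat h2]
    · refine le_trans ?_ (hric x hx w)
      have hq : 0 ≤ quadForm (gfam s θ P) x w := (h.radialMetric (m := m)).quadForm_nonneg x w
      have := hs0 (Real.log ‖x‖)
      positivity
  ric_pos := by
    refine ⟨Real.exp T1, fun x hx w hw => ?_⟩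
    have hx0 : 0 < ‖x‖ := (Real.exp_pos _).trans hx
    have hne : x ≠ 0 := norm_pos_iff.1 hx0
    refine lt_of_lt_of_le ?_ (hric x hne w)
    have h1 : T1 < Real.log ‖x‖ := (Real.lt_log_iff_exp_lt hx0).2 hx
    have h2 := hs1 _ h1
    have h3 := (h.radialMetric (m := m)).quadForm_pos x w hw
    positivity
  avr := by
    refine h.volRatio ?_
    have h1 : Tendsto (fun t => -((m : ℝ) + 2) * s t) atTop
        (𝓝 (-((m : ℝ) + 2) * (-Real.log v / ((m : ℝ) + 2)))) := hlim.const_mul _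
    have h2 : -((m : ℝ) + 2) * (-Real.log v / ((m : ℝ) + 2)) = Real.log v := by
      have : (m : ℝ) + 2 ≠ 0 := by positivity
      field_simp
    rw [h2] at h1
    have h3 := (Real.continuous_exp.tendsto _).comp h1
    rwa [Real.exp_log hv] at h3
  neg := hneg

/-- All geometric clauses from the phases (form used by `Top.lean`). -/
theorem geoOut_of_phases {m : ℕ} (hR : RicThm m) (hN : NegThm m) {K μ X0 X1 : ℝ} (hK : 1 ≤ K)
    (hμ : 0 < μ) (hX0 : 0 < X0) (hX1 : X1 < 1) :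
    ∃ c : ℝ, 0 < c ∧ c ≤ 1 ∧ ∀ (s θ : ℝ → ℝ) (P : ℝ → ℝ → ℂ → ℝ) (t0 T1 v : ℝ),
      Fam s θ P t0 X0 X1 → 0 < v →
      (∀ t, DefPhase m s θ P K μ c t ∨ RoundPhase s θ P t) →
      (∀ t, T1 < t → 0 < deriv s t) →
      Tendsto s atTop (𝓝 (-Real.log v / ((m : ℝ) + 2))) →
      (∀ T : ℝ, ∃ t1 t2, T ≤ t1 ∧ t1 < t2 ∧
        (-(s t1) - Real.log (θ t1) / ((m : ℝ) + 2))
          + deriv (fun t => -(s t) - Real.log (θ t) / ((m : ℝ) + 2)) t1 <
        (-(s t2) - Real.log (θ t2) / ((m : ℝ) + 2))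
          + deriv (fun t => -(s t) - Real.log (θ t) / ((m : ℝ) + 2)) t2) →
      Main.GeoOut m v (gfam s θ P) := by
  obtain ⟨c, hc, hc1, H⟩ := hR K μ X0 X1 hK hμ hX0 hX1
  refine ⟨c, hc, hc1, fun s θ P t0 T1 v hF hv hph hs1 hlim hneg => ?_⟩
  refine hF.geoOut hc hv (fun x hx w => H s θ P t0 hF x hx (hph _) w) (fun t => ?_) hs1 hlim
    (hN s θ P t0 X0 X1 hF hneg)
  rcases hph t with h1 | h1
  · exact h1.s1_nonneg
  · exact h1.s1_nonneg

end Crest.Agent.R202.Geo
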