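import Mathlib
import Crest.Prelude.Def_CoordMetric
import Crest.Prelude.Def_ChartCurvature

/-!
Row 202: curvature quantities only depend on the germ of the metric field.
-/

set_option autoImplicit false

open scoped ContDiff Topology
open Filter Set
open Crest.GeometryTopology.CoordMetric Crest.GeometryTopology.ChartCurvature

namespace Crest.Agent.R202.Tens

variable {n : ℕ} {g1 g2 : MetricField n} {x : EuclideanSpace ℝ (Fin n)}

theorem christoffel_congr (h : g1 =ᶠ[𝓝 x] g2) (k i j : Fin n) :
    christoffel g1 x k i j = christoffel g2 x k i j := by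
  have hp : ∀ l i j, pderiv l (fun y => g1 y i j) x = pderiv l (fun y => g2 y i j) x := by
    intro l i j
    unfold pderiv
    have : (fun y => g1 y i j) =ᶠ[𝓝 x] fun y => g2 y i j := by
      filter_upwards [h] with y hy
      rw [hy]
    rw [this.fderiv_eq]
  unfold christoffel inverseField
  rw [h.self_of_nhds]
  simp only [hp]

theorem christoffel_eventually (h : g1 =ᶠ[𝓝 x] g2) (k i j : Fin n) :
    (fun y => christoffel g1 y k i j) =ᶠ[𝓝 x] fun y => christoffel g2 y k i j := by
  filter_upwards [h.eventually_nhds] with y hy using christoffel_congr hy k i j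

theorem pderiv_christoffel_congr (h : g1 =ᶠ[𝓝 x] g2) (l k i j : Fin n) :
    pderiv l (fun y => christoffel g1 y k i j) x
      = pderiv l (fun y => christoffel g2 y k i j) x := by
  unfold pderiv
  rw [(christoffel_eventually h k i j).fderiv_eq]

theorem riemann_congr (h : g1 =ᶠ[𝓝 x] g2) (l k i j : Fin n) :
    riemann g1 x l k i j = riemann g2 x l k i j := by
  unfold riemann
  simp only [pderiv_christoffel_congr h, christoffel_congr h]

theorem ricci_congr (h : g1 =ᶠ[𝓝 x] g2) (i j : Fin n) : ricci g1 x i j = ricci g2 x i j := by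
  unfold ricci
  have hs : pderiv j (fun y => ∑ k, christoffel g1 y k k i) x
      = pderiv j (fun y => ∑ k, christoffel g2 y k k i) x := by
    unfold pderiv
    have : (fun y => ∑ k, christoffel g1 y k k i) =ᶠ[𝓝 x]
        fun y => ∑ k, christoffel g2 y k k i := by
      filter_upwards [h.eventually_nhds] with y hy
      exact Finset.sum_congr rfl fun k _ => christoffel_congr hy k k i
    rw [this.fderiv_eq]
  rw [hs]
  simp only [pderiv_christoffel_congr h, christoffel_congr h]

theorem secNumer_congr (h : g1 =ᶠ[𝓝 x] g2) (u v : EuclideanSpace ℝ (Fin n)) :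
    secNumer g1 x u v = secNumer g2 x u v := by
  unfold secNumer
  rw [h.self_of_nhds]
  simp only [riemann_congr h]

theorem quadForm_congr (h : g1 x = g2 x) (v : EuclideanSpace ℝ (Fin n)) :
    quadForm g1 x v = quadForm g2 x v := by
  unfold quadForm; rw [h]

theorem gramDet_congr (h : g1 x = g2 x) (u v : EuclideanSpace ℝ (Fin n)) :
    gramDet g1 x u v = gramDet g2 x u v := by
  unfold gramDet; rw [quadForm_congr h, quadForm_congr h, h]

theorem laplaceBeltrami_congr (h : g1 =ᶠ[𝓝 x] g2) {f1 f2 : EuclideanSpace ℝ (Fin n) → ℝ}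
    (hf : f1 =ᶠ[𝓝 x] f2) : laplaceBeltrami g1 f1 x = laplaceBeltrami g2 f2 x := by
  unfold laplaceBeltrami
  rw [h.self_of_nhds]
  congr 1
  refine Finset.sum_congr rfl fun i _ => ?_
  unfold pderiv
  have : (fun y => Real.sqrt (g1 y).det * ∑ j, inverseField g1 y i j *
      fderiv ℝ f1 y (EuclideanSpace.single j 1)) =ᶠ[𝓝 x] fun y => Real.sqrt (g2 y).det *
        ∑ j, inverseField g2 y i j * fderiv ℝ f2 y (EuclideanSpace.single j 1) := by
    filter_upwards [h, hf.eventually_nhds] with y hy hfy
    have hfy' : f1 =ᶠ[𝓝 y] f2 := hfy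
    unfold inverseField
    rw [hy, hfy'.fderiv_eq]
  rw [this.fderiv_eq]

end Crest.Agent.R202.Tens
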