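import Crest.Agent.R202.GeoPull
import Crest.Agent.R202.GeoCongr

/-!
Row 202, Part D: planes containing the radial direction with negative curvature.
-/

set_option autoImplicit false

open scoped ContDiff Topology
open Filter Set
open Crest.GeometryTopology.CoordMetric Crest.GeometryTopology.ChartCurvature

namespace Crest.Agent.R202.Geo

noncomputable section

variable {n m : ℕ}

/-- Curvature component `R^p_{i p i}` of a diagonal metric with `a_p = x_p`. -/
theorem riemann_diag {a : Fin n → EuclideanSpace ℝ (Fin n) → ℝ} {x : EuclideanSpace ℝ (Fin n)}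
    (ha : ∀ i, ContDiffAt ℝ 2 (a i) x) {p i : Fin n} (hpi : p ≠ i)
    (hap : a p = fun y => y p) :
    riemann (diagMetric a) x p i p i =
      -(Real.exp (2 * (a i x - a p x)) *
        (pderiv p (pderiv p (a i)) x + pderiv p (a i) x ^ 2 - pderiv p (a i) x)) := by
  have hda : ∀ i, DifferentiableAt ℝ (a i) x := fun i => (ha i).differentiableAt (by norm_num)
  have hp1 : ∀ j y, pderiv j (a p) y = if j = p then 1 else 0 := by
    intro j y
    rw [hap]
    unfold pderiv
    have : HasFDerivAt (fun y : EuclideanSpace ℝ (Fin n) => y p)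
        (EuclideanSpace.proj p : EuclideanSpace ℝ (Fin n) →L[ℝ] ℝ) y :=
      (EuclideanSpace.proj p : EuclideanSpace ℝ (Fin n) →L[ℝ] ℝ).hasFDerivAt
    rw [this.fderiv, Tens.prj_apply]
    by_cases h : j = p
    · subst h; simp
    · have h' : ¬ p = j := fun h' => h h'.symm
      simp [h, h']
  have hip : i ≠ p := hpi.symm
  have hpp : ∀ k j, pderiv k (pderiv j (a p)) x = 0 := by
    intro k j
    have : pderiv j (a p) = fun _ => if j = p then 1 else 0 := by
      funext y; exact hp1 j y
    rw [this]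
    simp
  unfold riemann
  rw [pderiv_christoffel_diagMetric ha, pderiv_christoffel_diagMetric ha]
  have hsum : ∑ b, (christoffel (diagMetric a) x p p b * christoffel (diagMetric a) x b i i
      - christoffel (diagMetric a) x p i b * christoffel (diagMetric a) x b p i)
      = -(Real.exp (2 * (a i x - a p x)) * pderiv p (a i) x)
        + Real.exp (2 * (a i x - a p x)) * pderiv p (a i) x ^ 2 := by
    rw [Finset.sum_sub_distrib]
    have e1 : ∑ b, christoffel (diagMetric a) x p p b * christoffel (diagMetric a) x b i i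
        = -(Real.exp (2 * (a i x - a p x)) * pderiv p (a i) x) := by
      rw [Finset.sum_eq_single p]
      · rw [christoffel_diagMetric hda, christoffel_diagMetric hda]
        simp [hp1, hip]
      · intro b _ hb
        have hb' : ¬ p = b := fun h => hb h.symm
        rw [christoffel_diagMetric hda]
        simp [hp1, hb, hb']
      · simp
    have e2 : ∑ b, christoffel (diagMetric a) x p i b * christoffel (diagMetric a) x b p i
        = -(Real.exp (2 * (a i x - a p x)) * pderiv p (a i) x ^ 2) := by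
      rw [Finset.sum_eq_single i]
      · rw [christoffel_diagMetric hda, christoffel_diagMetric hda]
        simp [hp1, hip, hpi]
        ring
      · intro b _ hb
        have hb' : ¬ i = b := fun h => hb h.symm
        rw [christoffel_diagMetric hda]
        simp [hp1, hip, hb']
      · simp
    rw [e1, e2]; ring
  rw [hsum]
  simp [hp1, hip, hpi, hpp]
  ring

/-- the sectional curvature numerator of the plane spanned by `∂_p` and `∂_i`. -/
theorem secNumer_diag {a : Fin n → EuclideanSpace ℝ (Fin n) → ℝ} {x : EuclideanSpace ℝ (Fin n)}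
    (ha : ∀ i, ContDiffAt ℝ 2 (a i) x) {p i : Fin n} (hpi : p ≠ i)
    (hap : a p = fun y => y p) :
    secNumer (diagMetric a) x (EuclideanSpace.single p 1) (EuclideanSpace.single i 1) =
      -(Real.exp (2 * a i x) *
        (pderiv p (pderiv p (a i)) x + pderiv p (a i) x ^ 2 - pderiv p (a i) x)) := by
  unfold secNumer
  rw [Finset.sum_eq_single p]
  · rw [Finset.sum_eq_single p]
    · rw [Finset.sum_eq_single i]
      · rw [Finset.sum_eq_single p]
        · rw [Finset.sum_eq_single i]
          · rw [riemann_diag ha hpi hap, diagMetric_apply]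
            have e2 : Real.exp (2 * (a i x - a p x)) =
                Real.exp (-(2 * a p x)) * Real.exp (2 * a i x) := by
              rw [← Real.exp_add]; congr 1; ring
            have e1 : Real.exp (2 * a p x) * Real.exp (-(2 * a p x)) = 1 := by
              rw [← Real.exp_add]; simp
            rw [e2]
            simp only [if_true, PiLp.single_apply, mul_one]
            linear_combination -(Real.exp (2 * a i x) *
              (pderiv p (pderiv p (a i)) x + pderiv p (a i) x ^ 2 - pderiv p (a i) x)) * e1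
          · intro b _ hb; simp [hb]
          · simp
        · intro b _ hb; simp [hb]
        · simp
      · intro b _ hb; simp [hb]
      · simp
    · intro b _ hb; simp [hb]
    · simp
  · intro b _ hb
    apply Finset.sum_eq_zero
    intro c _
    by_cases h : c = p
    · subst h
      rw [diagMetric_apply, if_neg hb]; ring
    · simp [h]
  · simp

theorem gramDet_diag {a : Fin n → EuclideanSpace ℝ (Fin n) → ℝ} (x : EuclideanSpace ℝ (Fin n))
    {p i : Fin n} (hpi : p ≠ i) :
    0 < gramDet (diagMetric a) x (EuclideanSpace.single p 1) (EuclideanSpace.single i 1) := by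
  have h : ∀ j k : Fin n, Tens.bil (diagMetric a x) (EuclideanSpace.single j 1)
      (EuclideanSpace.single k 1) = if j = k then Real.exp (2 * a j x) else 0 := by
    intro j k
    rw [Tens.bil_apply, Finset.sum_eq_single j, Finset.sum_eq_single k]
    · rw [diagMetric_apply]; simp
    · intro b _ hb; simp [hb]
    · simp
    · intro b _ hb
      apply Finset.sum_eq_zero
      intro c _
      simp [hb]
    · simp
  rw [Tens.gramDet_eq, h, h, h, if_pos rfl, if_pos rfl, if_neg hpi]
  have h1 := Real.exp_pos (2 * a p x)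
  have h2 := Real.exp_pos (2 * a i x)
  have := mul_pos h1 h2
  linarith

/-! ### Negative radial planes for `gfam` -/

/-- exponent of the cross-section scaling near `X = 0`. -/
def bneg (m : ℕ) (s θ : ℝ → ℝ) (t : ℝ) : ℝ := -(s t) - Real.log (θ t) / ((m : ℝ) + 2)

theorem contDiff_bneg {s θ : ℝ → ℝ} (hs : ContDiff ℝ ∞ s) (hθ : ContDiff ℝ ∞ θ)
    (hpos : ∀ t, 0 < θ t) : ContDiff ℝ ∞ (bneg m s θ) := by
  unfold bneg
  exact hs.neg.sub ((hθ.log fun t => (hpos t).ne').div_const _)

theorem hasFDerivAt_comp_zero {f : ℝ → ℝ} {q : EuclideanSpace ℝ (Fin (m + 3))}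
    (hf : DifferentiableAt ℝ f (q 0)) :
    HasFDerivAt (fun q : EuclideanSpace ℝ (Fin (m + 3)) => f (q 0)) (deriv f (q 0) • pr 0) q :=
  hf.hasDerivAt.comp_hasFDerivAt q (hasFDerivAt_pr 0 q)

theorem pderiv_comp_zero {f : ℝ → ℝ} {q : EuclideanSpace ℝ (Fin (m + 3))}
    (hf : DifferentiableAt ℝ f (q 0)) :
    pderiv 0 (fun q : EuclideanSpace ℝ (Fin (m + 3)) => f (q 0)) q = deriv f (q 0) := by
  unfold pderiv
  rw [(hasFDerivAt_comp_zero hf).fderiv]
  simp

/-- Negative curvature of the plane spanned by the position vector and `∂_X`. -/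
theorem secNumer_gfam {s θ : ℝ → ℝ} {P : ℝ → ℝ → ℂ → ℝ} {t0 X0 X1 : ℝ}
    (hF : Fam s θ P t0 X0 X1) (hR : IsRiemannianOn (gfam (m := m) s θ P) univ)
    {q : EuclideanSpace ℝ (Fin (m + 3))} (hq : q ∈ VV m) (hX : q 1 < X0)
    (hb : 0 < deriv (deriv (bneg m s θ)) (q 0) + deriv (bneg m s θ) (q 0)) :
    0 < gramDet (gfam s θ P) (Psi 1 q) (Psi 1 q) (fderiv ℝ (Psi 1) q (EuclideanSpace.single 1 1)) ∧
    secNumer (gfam s θ P) (Psi 1 q) (Psi 1 q)
      (fderiv ℝ (Psi 1) q (EuclideanSpace.single 1 1)) < 0 := by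
  have h1 : (1:ℝ) ^ 2 = 1 := by norm_num
  have hpull := pull_gfam h1 hR
  have hbs : ContDiff ℝ ∞ (bneg m s θ) := contDiff_bneg hF.smooth_s hF.smooth_θ hF.θ_pos
  -- positivity of `pp`
  have hpp : ∀ q : EuclideanSpace ℝ (Fin (m + 3)), 0 < pp P q := fun q => hF.P_pos _ _ _
  -- the pulled back metric is diagonal near `q`
  have hev : gpull 1 s θ P =ᶠ[𝓝 q] diagMetric (aa s θ P) := by
    filter_upwards [isOpen_VV.mem_nhds hq] with z hz
    exact gpull_eq h1 hz (hpp z) (hF.θ_pos _)
  -- smoothness of the exponents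
  have hcoord : ∀ i : Fin (m + 3), ContDiffAt ℝ ∞
      (fun q : EuclideanSpace ℝ (Fin (m + 3)) => q i) q := fun i => (contDiff_coordP i).contDiffAt
  have hsq : ContDiffAt ℝ ∞ (fun q : EuclideanSpace ℝ (Fin (m + 3)) => s (q 0)) q :=
    (hF.smooth_s.contDiffAt).comp q (hcoord 0)
  have hθq : ContDiffAt ℝ ∞ (fun q : EuclideanSpace ℝ (Fin (m + 3)) => Real.log (θ (q 0))) q :=
    ((hF.smooth_θ.contDiffAt).comp q (hcoord 0)).log (hF.θ_pos _).ne'
  have hppq : ContDiffAt ℝ ∞ (fun q : EuclideanSpace ℝ (Fin (m + 3)) => Real.log (pp P q)) q := by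
    refine ContDiffAt.log ?_ (hpp q).ne'
    have hexp : ContDiff ℝ ∞ (fun q : EuclideanSpace ℝ (Fin (m + 3)) =>
        Complex.exp ((q 2 : ℂ) * Complex.I)) := by
      have : ContDiff ℝ ∞ (fun q : EuclideanSpace ℝ (Fin (m + 3)) => ((q 2 : ℝ) : ℂ)) :=
        Complex.ofRealCLM.contDiff.comp (contDiff_coordP 2)
      exact (this.mul contDiff_const).cexp
    exact (hF.smooth_P.comp ((contDiff_coordP 0).prodMk
      ((contDiff_coordP 1).prodMk hexp))).contDiffAt
  have hX1q : ContDiffAt ℝ ∞ (fun q : EuclideanSpace ℝ (Fin (m + 3)) =>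
      Real.log (1 - q 1 ^ 2)) q :=
    (contDiffAt_const.sub ((hcoord 1).pow 2)).log (one_sub_sq_pos hq).ne'
  have ha : ∀ i, ContDiffAt ℝ 2 ((aa (m := m) s θ P) i) q := by
    have h2 : (2 : WithTop ℕ∞) ≤ ∞ := WithTop.coe_le_coe.2 le_top
    apply forall_fin3
    · rw [aa_zero]; exact (hcoord 0).of_le h2
    · rw [aa_one]; unfold aX
      exact (((((hcoord 0).sub hsq).sub (hθq.div_const _)).sub
        (contDiffAt_const.mul hppq)).sub (contDiffAt_const.mul hX1q)).of_le h2
    · rw [aa_two]; unfold aphi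
      exact (((((hcoord 0).sub hsq).add (contDiffAt_const.mul hθq)).add
        (contDiffAt_const.mul hppq)).add (contDiffAt_const.mul hX1q)).of_le h2
    · intro k
      rw [aa_succ]; unfold aeta
      refine (((((hcoord 0).sub hsq).sub (hθq.div_const _)).add
        ((hcoord 1).log hq.1.ne')).add ?_).of_le h2
      exact contDiffAt_const.sub
        ((contDiffAt_const.add contDiff_NN_pull.contDiffAt).log (NN_pos' q).ne')
  -- exponent `aX` near `q`
  have haX : ∀ᶠ z in 𝓝 q, aX s θ P z = z 0 + bneg m s θ (z 0) - 1 / 2 * Real.log (1 - z 1 ^ 2) := by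
    have hc : Continuous fun q : EuclideanSpace ℝ (Fin (m + 3)) => q 1 := by fun_prop
    filter_upwards [(isOpen_lt hc continuous_const).mem_nhds hX] with z hz
    unfold aX bneg pp
    rw [hF.P_low _ _ _ (le_of_lt hz), Real.log_one]
    ring
  -- first derivative near `q`
  have hd1 : ∀ᶠ z in 𝓝 q, pderiv 0 (aX s θ P) z = 1 + deriv (bneg m s θ) (z 0) := by
    filter_upwards [haX.eventually_nhds, isOpen_VV.mem_nhds hq] with z hz hzV
    have e : aX s θ P =ᶠ[𝓝 z] fun z => z 0 + bneg m s θ (z 0) - 1 / 2 * Real.log (1 - z 1 ^ 2) := hz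
    rw [pderiv_congr e]
    have d0 : DifferentiableAt ℝ (fun z : EuclideanSpace ℝ (Fin (m + 3)) => z 0) z :=
      (contDiff_coordP 0).contDiffAt.differentiableAt (by norm_num)
    have db : DifferentiableAt ℝ (bneg m s θ) (z 0) :=
      hbs.contDiffAt.differentiableAt (by norm_num)
    have d1 : DifferentiableAt ℝ (fun z : EuclideanSpace ℝ (Fin (m + 3)) => bneg m s θ (z 0)) z :=
      (hasFDerivAt_comp_zero db).differentiableAt
    have d2 : DifferentiableAt ℝ (fun z : EuclideanSpace ℝ (Fin (m + 3)) =>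
        Real.log (1 - z 1 ^ 2)) z :=
      ((contDiffAt_const.sub ((contDiff_coordP 1).contDiffAt.pow 2)).log
        (one_sub_sq_pos hzV).ne').differentiableAt (by norm_num : (∞ : WithTop ℕ∞) ≠ 0)
    rw [pderiv_sub (d0.fun_add d1) (d2.const_mul _), pderiv_add d0 d1, pderiv_const_mul _ d2]
    have e0 : pderiv 0 (fun z : EuclideanSpace ℝ (Fin (m + 3)) => z 0) z = 1 := by
      unfold pderiv; rw [(hasFDerivAt_pr 0 z).fderiv]; simp
    have e1 : pderiv 0 (fun z : EuclideanSpace ℝ (Fin (m + 3)) => bneg m s θ (z 0)) z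
        = deriv (bneg m s θ) (z 0) := pderiv_comp_zero db
    have e2 : pderiv 0 (fun z : EuclideanSpace ℝ (Fin (m + 3)) =>
        Real.log (1 - z 1 ^ 2)) z = 0 := by
      unfold pderiv
      have h := (((hasFDerivAt_pr (m := m) 1 z).pow 2).const_sub 1).log (one_sub_sq_pos hzV).ne'
      rw [h.fderiv]
      have : (EuclideanSpace.single (0 : Fin (m + 3)) (1:ℝ)) 1 = 0 := by
        rw [PiLp.single_apply, if_neg one_ne_zero3]
      simp [this]
    rw [e0, e1, e2]; ring
  have hd1q := hd1.self_of_nhds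
  have hd2q : pderiv 0 (pderiv 0 (aX s θ P)) q = deriv (deriv (bneg m s θ)) (q 0) := by
    rw [pderiv_congr hd1]
    have hdd : DifferentiableAt ℝ (deriv (bneg m s θ)) (q 0) := by
      have : ContDiff ℝ ∞ (deriv (bneg m s θ)) := (contDiff_infty_iff_deriv.1 hbs).2
      exact this.contDiffAt.differentiableAt (by norm_num)
    rw [pderiv_add (differentiableAt_const _) (hasFDerivAt_comp_zero hdd).differentiableAt,
      pderiv_comp_zero hdd]
    simp
  have hne : (0 : Fin (m + 3)) ≠ 1 := fun h => one_ne_zero3 h.symm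
  have hx0 : fderiv ℝ (Psi 1) q (EuclideanSpace.single 0 1) = Psi 1 q := fderiv_Psi_bv_zero 1 hq
  have hgq : gpull 1 s θ P q = diagMetric (aa s θ P) q := hev.self_of_nhds
  -- transfer of the two quantities to the diagonal metric
  have hgram := hpull.gramDet_pull hq (EuclideanSpace.single 0 1) (EuclideanSpace.single 1 1)
  have hsec := hpull.secNumer_pull hq (EuclideanSpace.single 0 1) (EuclideanSpace.single 1 1)
  rw [hx0] at hgram hsec
  rw [← hgram, ← hsec]
  constructor
  · have : gramDet (gpull 1 s θ P) q (EuclideanSpace.single 0 1) (EuclideanSpace.single 1 1)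
        = gramDet (diagMetric (aa s θ P)) q (EuclideanSpace.single 0 1)
          (EuclideanSpace.single 1 1) := by
      rw [Tens.gramDet_eq, Tens.gramDet_eq, hgq]
    rw [this]
    exact gramDet_diag q hne
  · have hsecD : secNumer (gpull 1 s θ P) q (EuclideanSpace.single 0 1) (EuclideanSpace.single 1 1)
        = secNumer (diagMetric (aa s θ P)) q (EuclideanSpace.single 0 1)
          (EuclideanSpace.single 1 1) := Tens.secNumer_congr hev _ _
    rw [hsecD, secNumer_diag ha hne (aa_zero s θ P), aa_one, hd2q, hd1q]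
    have hpos := Real.exp_pos (2 * aX s θ P q)
    have : 0 < deriv (deriv (bneg m s θ)) (q 0) + (1 + deriv (bneg m s θ) (q 0)) ^ 2
        - (1 + deriv (bneg m s θ) (q 0)) := by
      nlinarith [sq_nonneg (deriv (bneg m s θ) (q 0))]
    have := mul_pos hpos this
    linarith

/-- Existence of radial planes of negative curvature at some radius between two times at which
`b + b'` increases. -/
theorem neg_radial {s θ : ℝ → ℝ} {P : ℝ → ℝ → ℂ → ℝ} {t0 X0 X1 : ℝ}
    (hF : Fam s θ P t0 X0 X1) (hR : IsRiemannianOn (gfam (m := m) s θ P) univ)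
    {t1 t2 : ℝ} (h12 : t1 < t2)
    (hb : bneg m s θ t1 + deriv (bneg m s θ) t1 < bneg m s θ t2 + deriv (bneg m s θ) t2) :
    ∃ x : EuclideanSpace ℝ (Fin (m + 3)), Real.exp t1 ≤ ‖x‖ ∧ ∃ w,
      0 < gramDet (gfam s θ P) x x w ∧ secNumer (gfam s θ P) x x w < 0 := by
  have hbs : ContDiff ℝ ∞ (bneg m s θ) := contDiff_bneg hF.smooth_s hF.smooth_θ hF.θ_pos
  have hbd : Differentiable ℝ (bneg m s θ) := hbs.differentiable (by norm_num)
  have hbs' : ContDiff ℝ ∞ (deriv (bneg m s θ)) := (contDiff_infty_iff_deriv.1 hbs).2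
  have hbdd : Differentiable ℝ (deriv (bneg m s θ)) := hbs'.differentiable (by norm_num)
  obtain ⟨t, ht, hts⟩ := exists_hasDerivAt_eq_slope
    (fun t => bneg m s θ t + deriv (bneg m s θ) t)
    (fun t => deriv (bneg m s θ) t + deriv (deriv (bneg m s θ)) t) h12
    ((hbd.add hbdd).continuous.continuousOn)
    (fun t _ => (hbd t).hasDerivAt.add (hbdd t).hasDerivAt)
  have hpos : 0 < deriv (deriv (bneg m s θ)) t + deriv (bneg m s θ) t := by
    rw [add_comm, hts]
    exact div_pos (by linarith) (by linarith [h12])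
  -- the point
  let q : EuclideanSpace ℝ (Fin (m + 3)) :=
    WithLp.toLp 2 (Fin.cons t (Fin.cons (X0 / 2) fun _ => 0))
  have q0 : q 0 = t := rfl
  have q1 : q 1 = X0 / 2 := rfl
  have hq : q ∈ VV m := by
    refine ⟨?_, ?_⟩
    · rw [q1]; linarith [hF.hX0]
    · rw [q1]; linarith [hF.hX0, hF.hX01, hF.hX1]
  have h := secNumer_gfam (m := m) hF hR hq (by rw [q1]; linarith [hF.hX0]) (by rw [q0]; exact hpos)
  refine ⟨Psi 1 q, ?_, _, h.1, h.2⟩
  rw [norm_Psi (by norm_num) hq, q0]
  exact Real.exp_le_exp.2 ht.1.le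

/-- The clause of S0309 about negatively curved planes containing the radial direction. -/
theorem neg_radial_seq {s θ : ℝ → ℝ} {P : ℝ → ℝ → ℂ → ℝ} {t0 X0 X1 : ℝ}
    (hF : Fam s θ P t0 X0 X1) (hR : IsRiemannianOn (gfam (m := m) s θ P) univ)
    (h : ∀ T : ℝ, ∃ t1 t2, T ≤ t1 ∧ t1 < t2 ∧
      bneg m s θ t1 + deriv (bneg m s θ) t1 < bneg m s θ t2 + deriv (bneg m s θ) t2) :
    ∃ p : ℕ → EuclideanSpace ℝ (Fin (m + 3)),
      Tendsto (fun j => ‖p j‖) atTop atTop ∧
      ∀ j, ∃ w : EuclideanSpace ℝ (Fin (m + 3)),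
        0 < gramDet (gfam s θ P) (p j) (p j) w ∧ secNumer (gfam s θ P) (p j) (p j) w < 0 := by
  have : ∀ j : ℕ, ∃ x : EuclideanSpace ℝ (Fin (m + 3)), (j : ℝ) ≤ ‖x‖ ∧ ∃ w,
      0 < gramDet (gfam s θ P) x x w ∧ secNumer (gfam s θ P) x x w < 0 := by
    intro j
    obtain ⟨t1, t2, hT, h12, hb⟩ := h j
    obtain ⟨x, hx, w, hw⟩ := neg_radial hF hR h12 hb
    refine ⟨x, ?_, w, hw⟩
    have h1 : (j : ℝ) ≤ Real.exp t1 := by
      have := Real.add_one_le_exp t1
      linarith
    exact h1.trans hx
  choose p hp hw using this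
  refine ⟨p, ?_, hw⟩
  exact tendsto_atTop_mono hp tendsto_natCast_atTop_atTop

end

end Crest.Agent.R202.Geo
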