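import Mathlib
import Crest.Agent.R202.GeoFinal
import Crest.Agent.R202.GeoNeg

/-!
Row 202, part D (helper248): the statement `NegThm` of `GeoFinal`.
-/

set_option autoImplicit false

open Set Filter Topology
open Crest.GeometryTopology.CoordMetric Crest.GeometryTopology.ChartCurvature

namespace Crest.Agent.R202.Geo

theorem negThm (m : ℕ) : NegThm m := by
  intro s θ P t0 X0 X1 hF h
  exact neg_radial_seq hF hF.radialMetric.riem h

end Crest.Agent.R202.Geo
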