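import Mathlib
import Crest.Agent.R202.SchConv
import Crest.Agent.R202.SchY
import Crest.Agent.R202.GeoNegThm

/-!
Row 202 (helper523): the scheduled metrics satisfy all geometric clauses (`sched_geoOut`).
-/

set_option autoImplicit false

open scoped ContDiff
open Set Filter Topology
open Crest.GeometryTopology.CoordMetric

namespace Crest.Agent.R202.Sch

open Geo

/-- the hypothesis of `NegThm` from: `s → sI`, all rates `→ 0`, and `log θ` drops by `η`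
arbitrarily late -/
theorem neg_hyp {m : ℕ} {s θ : ℝ → ℝ} {K sI η : ℝ} (hη : 0 < η) (hK : 0 < K)
    (hθd : Differentiable ℝ θ) (hsd : Differentiable ℝ s)
    (hθ : ∀ t, K⁻¹ ≤ θ t) (hs : Tendsto s atTop (𝓝 sI)) (hs' : Tendsto (deriv s) atTop (𝓝 0))
    (hθ' : Tendsto (deriv θ) atTop (𝓝 0))
    (hm : ∀ T : ℝ, ∃ t1 t2, T ≤ t1 ∧ t1 < t2 ∧ Real.log (θ t2) + η ≤ Real.log (θ t1)) (T : ℝ) :
    ∃ t1 t2, T ≤ t1 ∧ t1 < t2 ∧
        (-(s t1) - Real.log (θ t1) / ((m : ℝ) + 2))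
          + deriv (fun t => -(s t) - Real.log (θ t) / ((m : ℝ) + 2)) t1 <
        (-(s t2) - Real.log (θ t2) / ((m : ℝ) + 2))
          + deriv (fun t => -(s t) - Real.log (θ t) / ((m : ℝ) + 2)) t2 := by
  have hKi : 0 < K⁻¹ := inv_pos.2 hK
  have hpos : ∀ t, 0 < θ t := fun t => hKi.trans_le (hθ t)
  have hM : (0 : ℝ) < (m : ℝ) + 2 := by positivity
  have hder : ∀ t, deriv (fun t => -(s t) - Real.log (θ t) / ((m : ℝ) + 2)) t
      = -(deriv s t) - (deriv θ t / θ t) / ((m : ℝ) + 2) := by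
    intro t
    exact (((hsd t).hasDerivAt.neg).sub (((hθd t).hasDerivAt.log (hpos t).ne').div_const _)).deriv
  set ε : ℝ := η / ((m : ℝ) + 2) / 8 with hε
  have hε0 : 0 < ε := by positivity
  have e1 : ∀ᶠ t in atTop, |s t - sI| < ε := by
    have := Metric.tendsto_nhds.1 hs ε hε0
    simpa [Real.dist_eq] using this
  have e2 : ∀ᶠ t in atTop, |deriv s t| < ε := by
    have := Metric.tendsto_nhds.1 hs' ε hε0
    simpa [Real.dist_eq] using this
  have e3 : ∀ᶠ t in atTop, |deriv θ t| < ε / K := by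
    have := Metric.tendsto_nhds.1 hθ' (ε / K) (by positivity)
    simpa [Real.dist_eq] using this
  obtain ⟨T0, hT0⟩ := eventually_atTop.1 (e1.and (e2.and e3))
  obtain ⟨t1, t2, h1, h2, h3⟩ := hm (max T T0)
  refine ⟨t1, t2, (le_max_left _ _).trans h1, h2, ?_⟩
  have b : ∀ t, T0 ≤ t → |s t - sI| < ε ∧ |deriv s t| < ε ∧ |deriv θ t / θ t| < ε := by
    intro t ht
    obtain ⟨a1, a2, a3⟩ := hT0 t ht
    refine ⟨a1, a2, ?_⟩
    rw [abs_div, abs_of_pos (hpos t), div_lt_iff₀ (hpos t)]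
    calc |deriv θ t| < ε / K := a3
      _ = ε * K⁻¹ := div_eq_mul_inv _ _
      _ ≤ ε * θ t := mul_le_mul_of_nonneg_left (hθ t) hε0.le
  obtain ⟨a1, a2, a3⟩ := b t1 ((le_max_right _ _).trans h1)
  obtain ⟨c1, c2, c3⟩ := b t2 (((le_max_right _ _).trans h1).trans h2.le)
  rw [hder, hder]
  have hdiv : ∀ r : ℝ, |r| < ε → |r / ((m : ℝ) + 2)| < ε := by
    intro r hr
    rw [abs_div, abs_of_pos hM, div_lt_iff₀ hM]
    have hm0 : (0 : ℝ) ≤ m := Nat.cast_nonneg m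
    nlinarith
  have a4 := abs_lt.1 (hdiv _ a3)
  have c4 := abs_lt.1 (hdiv _ c3)
  have a1' := abs_lt.1 a1
  have a2' := abs_lt.1 a2
  have c1' := abs_lt.1 c1
  have c2' := abs_lt.1 c2
  have h5 : (Real.log (θ t2) + η) / ((m : ℝ) + 2) ≤ Real.log (θ t1) / ((m : ℝ) + 2) :=
    div_le_div_of_nonneg_right h3 hM.le
  rw [add_div] at h5
  have h6 : η / ((m : ℝ) + 2) = 8 * ε := by rw [hε]; ring
  rw [h6] at h5
  linarith [a4.1, a4.2, c4.1, c4.2, a1'.1, a1'.2, a2'.1, a2'.2, c1'.1, c1'.2, c2'.1, c2'.2]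

section

variable {y0 y1 Xa Xb X0 X1 : ℝ} {h : ℝ → ℝ}

/-- the scheduled `θ` -/
noncomputable abbrev thY {ι : Type*} (A : ℝ) (hp : Prof X0 X1 h) (hy0 : 1 ≤ y0)
    (L : ι → YLoop y0 y1 Xa Xb) (j : ℕ → ι) (κ : ℕ → ℝ) : ℝ → ℝ :=
  thS A (yInst hp hy0) (fun q => (L (j q)).toLoop hp hy0) κ

/-- the scheduled `P` -/
noncomputable abbrev PY {ι : Type*} (A : ℝ) (hp : Prof X0 X1 h) (hy0 : 1 ≤ y0)
    (L : ι → YLoop y0 y1 Xa Xb) (j : ℕ → ι) (κ : ℕ → ℝ) : ℝ → ℝ → ℂ → ℝ :=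
  PS A (yInst hp hy0) (fun q => (L (j q)).toLoop hp hy0) κ

/-- **All geometric clauses for the scheduled metrics.** -/
theorem sched_geoOut {m : ℕ} (hR : RicThm m) {μ v δ e : ℝ} (hμ : 0 < μ) (hv : 0 < v) (hv1 : v < 1)
    (hδ : 0 < δ) (h0 : 0 < X0) (h0a : X0 < Xa) (hab : Xa ≤ Xb) (hb1 : Xb < X1) (h1 : X1 < 1)
    (hp : Prof X0 X1 h) (hy0 : 1 ≤ y0)
    (hnum : (1 + μ) * Real.exp (-2 * (-Real.log v / ((m : ℝ) + 2) - δ))
      * y1 ^ ((2 : ℝ) / ((m : ℝ) + 2)) ≤ 1 - e)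
    {ι : Type*} [Finite ι] (L : ι → YLoop y0 y1 Xa Xb)
    (cT : ∀ y ∈ Icc 1 y0, ConeS m ((m + 1) * (1 - e)) y⁻¹ (Ptip h y)) (hy01 : y0 ≤ y1)
    (cL : ∀ i, ∀ τ ∈ Icc (0 : ℝ) 1, ∀ k ∈ Icc (-1 : ℝ) 1,
      ConeS m ((m + 1) * (1 - e)) ((L i).y τ)⁻¹
        (fun X u => 1 + ((L i).y τ - 1) * h X + (L i).Gh τ k X u)) :
    ∃ K C : ℝ, 1 ≤ K ∧ 0 ≤ C ∧ ∃ A0 : ℝ, 1 ≤ A0 ∧ ∀ A : ℝ, A0 ≤ A →
      ∀ (j : ℕ → ι) (κ : ℕ → ℝ), (∀ q, κ q ∈ Icc (-1 : ℝ) 1) →
        (∀ N : ℕ, ∃ q, N ≤ q ∧ ∃ τ ∈ Icc (0 : ℝ) 1, y0 < (L (j q)).y τ) →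
        Fam (sf (-Real.log v / ((m : ℝ) + 2))) (thY A hp hy0 L j κ) (PY A hp hy0 L j κ) 0 X0 X1 ∧
        (∀ t, RateAt (sf (-Real.log v / ((m : ℝ) + 2))) (thY A hp hy0 L j κ)
          (PY A hp hy0 L j κ) K (C / A) t) ∧
        Main.GeoOut m v (gfam (sf (-Real.log v / ((m : ℝ) + 2))) (thY A hp hy0 L j κ)
          (PY A hp hy0 L j κ)) := by
  set sI : ℝ := -Real.log v / ((m : ℝ) + 2) with hsIdef
  have hM : (0 : ℝ) < (m : ℝ) + 2 := by positivity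
  have hsI : 0 < sI := by
    rw [hsIdef]
    exact div_pos (neg_pos.2 (Real.log_neg hv hv1)) hM
  obtain ⟨K, C, hK, hC, H⟩ := exists_mainY (m := m) hμ.le hsI hδ h0 h0a hab hb1 h1 hp hy0 hnum L cT
    hy01 cL
  obtain ⟨c, hc, hc1, G⟩ := geoOut_of_phases hR (negThm m) hK hμ h0 h1
  obtain ⟨A0, hA0, HA⟩ := H c hc
  refine ⟨K, C, hK, hC, A0, hA0, fun A hA j κ hκ hmove => ?_⟩
  have hApos : 0 < A := by linarith
  obtain ⟨hF, hrate, hdef, hround⟩ := HA A hA j κ hκ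
  refine ⟨hF, hrate, ?_⟩
  refine G (sf sI) _ _ 0 0 v hF hv (fun t => ?_) (fun t ht => deriv_sf_pos hsI ht)
    (tendsto_sf hsI) ?_
  · rcases le_or_gt A t with ht | ht
    · exact Or.inl (hdef t ht)
    · exact Or.inr (hround t ht)
  -- the negative clause
  have hθ' : Tendsto (deriv (thY A hp hy0 L j κ)) atTop (𝓝 0) := by
    have h2 : Tendsto (fun t => Real.sqrt (c * deriv (sf sI) t)) atTop (𝓝 0) := by
      have := ((tendsto_deriv_sf hsI).const_mul c).sqrt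
      simpa using this
    rw [tendsto_zero_iff_abs_tendsto_zero]
    refine squeeze_zero' (Eventually.of_forall fun t => abs_nonneg _) ?_ h2
    filter_upwards [eventually_ge_atTop A] with t ht
    obtain ⟨ρ, hρ0, hρ, hr⟩ := (hdef t ht).rate
    exact hr.θ_t.trans (Real.le_sqrt_of_sq_le hρ)
  -- the drop of `log θ`
  classical
  have hfin : ∃ η : ℝ, 0 < η ∧ ∀ i : ι, (∃ τ ∈ Icc (0 : ℝ) 1, y0 < (L i).y τ) →
      ∃ τ ∈ Icc (0 : ℝ) 1, Real.log y0 + η ≤ Real.log ((L i).y τ) := by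
    have : ∀ i : ι, ∃ η : ℝ, 0 < η ∧ ((∃ τ ∈ Icc (0 : ℝ) 1, y0 < (L i).y τ) →
        ∃ τ ∈ Icc (0 : ℝ) 1, Real.log y0 + η ≤ Real.log ((L i).y τ)) := by
      intro i
      by_cases hi : ∃ τ ∈ Icc (0 : ℝ) 1, y0 < (L i).y τ
      · obtain ⟨τ, hτ, hy⟩ := hi
        refine ⟨Real.log ((L i).y τ) - Real.log y0,
          sub_pos.2 (Real.log_lt_log (by linarith) hy), fun _ => ⟨τ, hτ, by linarith⟩⟩
      · exact ⟨1, one_pos, fun hh => absurd hh hi⟩
    choose η hη0 hη using this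
    cases nonempty_fintype ι
    have hne : (insert (1 : ℝ) (Finset.univ.image η)).Nonempty := Finset.insert_nonempty _ _
    refine ⟨(insert (1 : ℝ) (Finset.univ.image η)).min' hne, ?_, fun i hi => ?_⟩
    · rw [Finset.lt_min'_iff]
      intro y hy
      rcases Finset.mem_insert.1 hy with rfl | hy
      · exact one_pos
      · obtain ⟨i, -, rfl⟩ := Finset.mem_image.1 hy
        exact hη0 i
    · obtain ⟨τ, hτ, hy⟩ := hη i hi
      refine ⟨τ, hτ, le_trans ?_ hy⟩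
      have := Finset.min'_le (insert (1 : ℝ) (Finset.univ.image η)) (η i)
        (Finset.mem_insert_of_mem (Finset.mem_image_of_mem _ (Finset.mem_univ i)))
      linarith
  obtain ⟨η, hη0, hη⟩ := hfin
  refine neg_hyp (K := K) hη0 (by linarith) (hF.smooth_θ.differentiable (by simp))
    (hF.smooth_s.differentiable (by simp)) (fun t => (hrate t).θ_low) (tendsto_sf hsI)
    (tendsto_deriv_sf hsI) hθ' ?_
  intro T
  obtain ⟨N, hN⟩ := ((tendsto_hs hApos).eventually_ge_atTop T).exists_forall_of_atTop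
  obtain ⟨q, hq, hmv⟩ := hmove N
  obtain ⟨τ, hτ, hlog⟩ := hη (j q) hmv
  have hTg := Tg_pos hApos q
  have hy0p : 0 < y0 := by linarith
  have hτ0 : 0 < τ := by
    rcases hτ.1.lt_or_eq with h3 | h3
    · exact h3
    · exfalso
      rw [← h3, (L (j q)).y_left 0 le_rfl] at hlog
      linarith
  have hle : τ * Tg A q ≤ Tg A q := by
    have := mul_le_mul_of_nonneg_right hτ.2 hTg.le
    linarith
  refine ⟨he A q, he A q + τ * Tg A q, ?_, ?_, ?_⟩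
  · exact (hN q hq).trans (hs_lt_he hApos q).le
  · have := mul_pos hτ0 hTg
    linarith
  · have g1 : thY A hp hy0 L j κ (he A q) = y0⁻¹ :=
      thS_home _ _ _ hApos (hs_lt_he hApos q).le le_rfl
    have hup : he A q + τ * Tg A q ≤ he A (q + 1) := by
      have h4 := hs_lt_he hApos (q + 1)
      rw [hs_succ] at h4
      linarith
    have hlo : hs A q ≤ he A q + τ * Tg A q := by
      have := mul_pos hτ0 hTg
      linarith [hs_lt_he hApos q]
    have g2 : thY A hp hy0 L j κ (he A q + τ * Tg A q) = ((L (j q)).y τ)⁻¹ := by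
      rw [thY, thS_gate _ _ _ hApos hlo hup]
      have : (he A q + τ * Tg A q - he A q) / Tg A q = τ := by
        field_simp
        ring
      rw [this]
      rfl
    rw [g1, g2, Real.log_inv, Real.log_inv]
    linarith

end

end Crest.Agent.R202.Sch
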