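import Mathlib
import Crest.Agent.R202.BFlowFam
import Crest.Agent.R202.WgtFlow
import Crest.Agent.R202.SchGeo

/-! # Row 202, PART B: the Galerkin coefficients of the scheduled metrics (helper514)

`schedCoef`: 728's `coefOf` for the scheduled data; `GalFam`; `K_gate`, `K_home`; `FlowFam`. -/

set_option autoImplicit false
set_option linter.unusedSectionVars false
set_option linter.unusedVariables false

open Set Filter Topology MvPolynomial
open scoped InnerProductSpace ContDiff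

namespace Crest.Agent.R202.BFlow

open Crest.Agent.R202.Gal
open Crest.Agent.R202.Mix (Cube)
open Crest.Agent.R202.BFin (LoopSys FlowFam)
open Crest.Agent.R202.Sch Crest.Agent.R202.Geo Crest.Agent.R202.Wgt

noncomputable section

variable {m : ℕ} {sI A X0 X1 Xa Xb y0 y1 : ℝ} {h : ℝ → ℝ} {ι : Type} {N : ℕ}
  {p : Fin N → MvPolynomial (Fin (m + 3)) ℝ} {l : Fin N → ℕ}

/-- operator of the loop `L` at `(τ, κ)` -/
def Sloop (p : Fin N → MvPolynomial (Fin (m + 3)) ℝ) (h : ℝ → ℝ) (L : YLoop y0 y1 Xa Xb)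
    (τ κ : ℝ) : EuclideanSpace ℝ (Fin N) →L[ℝ] EuclideanSpace ℝ (Fin N) :=
  Sop p (L.y τ)⁻¹ fun X u => Ptip h (L.y τ) X u + L.Gh τ κ X (ret u)

/-- home operator -/
def Hhome (p : Fin N → MvPolynomial (Fin (m + 3)) ℝ) (h : ℝ → ℝ) (y0 : ℝ) :
    EuclideanSpace ℝ (Fin N) →L[ℝ] EuclideanSpace ℝ (Fin N) := Sop p y0⁻¹ (Ptip h y0)

theorem Sloop_left (L : YLoop y0 y1 Xa Xb) {τ : ℝ} (hτ : τ ≤ 0) (κ : ℝ) :
    Sloop p h L τ κ = Hhome p h y0 := by
  unfold Sloop Hhome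
  rw [L.y_left τ hτ]
  congr 1
  funext X u
  rw [L.Gh_left _ _ _ _ hτ, add_zero]

theorem Sloop_right (L : YLoop y0 y1 Xa Xb) {τ : ℝ} (hτ : 1 ≤ τ) (κ : ℝ) :
    Sloop p h L τ κ = Hhome p h y0 := by
  unfold Sloop Hhome
  rw [L.y_right τ hτ]
  congr 1
  funext X u
  rw [L.Gh_right _ _ _ _ hτ, add_zero]

/-- all members of the scheduled family are admissible -/
def AllFam (sI A : ℝ) (hp : Prof X0 X1 h) (hy0 : 1 ≤ y0) (L : ι → YLoop y0 y1 Xa Xb)
    (j : ℕ → ι) : Prop :=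
  ∀ κ : ℕ → ℝ, (∀ q, κ q ∈ Icc (-1 : ℝ) 1) →
    Fam (sf sI) (thY A hp hy0 L j κ) (PY A hp hy0 L j κ) 0 X0 X1

/-- rates of the scheduled family -/
def AllRate (sI A K ρ : ℝ) (hp : Prof X0 X1 h) (hy0 : 1 ≤ y0) (L : ι → YLoop y0 y1 Xa Xb)
    (j : ℕ → ι) : Prop :=
  ∀ κ : ℕ → ℝ, (∀ q, κ q ∈ Icc (-1 : ℝ) 1) → ∀ t,
    RateAt (sf sI) (thY A hp hy0 L j κ) (PY A hp hy0 L j κ) K ρ t

/-- the Galerkin coefficients of the scheduled metric with `κ` extended by `1` -/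
def schedCoef (hb : SBasis p l) (hsI : 0 < sI) (hp : Prof X0 X1 h) (hy0 : 1 ≤ y0)
    (L : ι → YLoop y0 y1 Xa Xb) (j : ℕ → ι) (hF : AllFam sI A hp hy0 L j) {P : ℕ} (κ : Cube P) :
    Coef (EuclideanSpace ℝ (Fin N)) :=
  coefOf hb (hF (fun q => extK κ q) (extK_mem κ)) (deriv_sf_le hsI)

section

variable (hb : SBasis p l) (hsI : 0 < sI) (hp : Prof X0 X1 h) (hy0 : 1 ≤ y0)
  (L : ι → YLoop y0 y1 Xa Xb) (j : ℕ → ι) (hF : AllFam sI A hp hy0 L j)

theorem schedCoef_K {P : ℕ} (κ : Cube P) : (schedCoef hb hsI hp hy0 L j hF κ).K =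
    Kop p (sf sI) (thY A hp hy0 L j fun q => extK κ q) (PY A hp hy0 L j fun q => extK κ q) := rfl

theorem schedCoef_b {P : ℕ} (κ : Cube P) (t : ℝ) : (schedCoef hb hsI hp hy0 L j hF κ).b t =
    ((m : ℝ) + 1) - ((m : ℝ) + 2) * deriv (sf sI) t := rfl

theorem schedCoef_t0 {P : ℕ} (κ : Cube P) : (schedCoef hb hsI hp hy0 L j hF κ).t0 = 0 := rfl

theorem schedCoef_L0 {P : ℕ} (κ : Cube P) : (schedCoef hb hsI hp hy0 L j hF κ).L0 = L0op l := rfl

/-- gates -/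
theorem schedCoef_gate (hA : 0 < A) {P : ℕ} (κ : Cube P) (k : Fin P) {t : ℝ}
    (h1 : hs A k.1 ≤ t) (h2 : t ≤ he A (k.1 + 1)) :
    (schedCoef hb hsI hp hy0 L j hF κ).K t =
      Real.exp (2 * sf sI t) • Sloop p h (L (j k.1)) ((t - he A k.1) / Tg A k.1) (κ k) := by
  rw [schedCoef_K]
  unfold Kop Sloop
  congr 1
  have e1 : thY A hp hy0 L j (fun q => (extK κ q : ℝ)) t =
      ((L (j k.1)).y ((t - he A k.1) / Tg A k.1))⁻¹ := by
    rw [thY, thS_gate _ _ _ hA h1 h2]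
    rfl
  have e2 : PY A hp hy0 L j (fun q => (extK κ q : ℝ)) t = fun X u =>
      Ptip h ((L (j k.1)).y ((t - he A k.1) / Tg A k.1)) X u +
        (L (j k.1)).Gh ((t - he A k.1) / Tg A k.1) (κ k) X (ret u) := by
    funext X u
    rw [PY, PS_gate _ _ _ hA h1 h2, extK_val]
    rfl
  rw [e1, e2]

/-- homes -/
theorem schedCoef_home (hA : 0 < A) {P : ℕ} (κ : Cube P) {q : ℕ} {t : ℝ}
    (h1 : hs A q ≤ t) (h2 : t ≤ he A q) :
    (schedCoef hb hsI hp hy0 L j hF κ).K t = Real.exp (2 * sf sI t) • Hhome p h y0 := by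
  rw [schedCoef_K]
  unfold Kop Hhome
  congr 1
  have e1 : thY A hp hy0 L j (fun q => (extK κ q : ℝ)) t = y0⁻¹ := by
    rw [thY, thS_home _ _ _ hA h1 h2]
  have e2 : PY A hp hy0 L j (fun q => (extK κ q : ℝ)) t = Ptip h y0 := by
    funext X u
    rw [PY, PS_home _ _ _ hA h1 h2]
  rw [e1, e2]

/-- the scheduled Galerkin coefficients form a `GalFam` -/
theorem schedCoef_galFam (hA : 0 < A) {K C : ℝ} (hK : 0 < K) (hC : 0 ≤ C)
    (hR : AllRate sI A K (C / A) hp hy0 L j) (P : ℕ) :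
    GalFam m sI A (K * C) (fun κ : Cube P => schedCoef hb hsI hp hy0 L j hF κ) where
  t0 κ := rfl
  cK := by
    have hCF : ContFam (Cube P) (sf sI) (fun κ => thY A hp hy0 L j fun q => extK κ q)
        (fun κ => PY A hp hy0 L j fun q => extK κ q) 0 X0 X1 :=
      (contFam (yInst hp hy0) (fun q => (L (j q)).toLoop hp hy0) hA hF).comp continuous_extK
    exact continuous_Kop_joint p (sf_contDiff sI).continuous hCF.cont_θ hCF.cont_P
      (fun κ t => (hCF.fam κ).θ_pos t) (fun κ t X u => (hCF.fam κ).P_pos t X u)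
  cL := continuous_const
  b_eq κ t := rfl
  rate κ t r ht h1 h2 x := by
    set κ' : ℕ → ℝ := fun q => extK κ q with hκ'
    have hF' := hF κ' (extK_mem κ)
    have hR' := hR κ' (extK_mem κ) t
    have hρ0 : 0 ≤ C / A := by positivity
    have hρ : K * (C / A) ≤ r := by
      rw [← mul_div_assoc]; exact h2
    show |⟪Kop' p (sf sI) (thY A hp hy0 L j κ') (PY A hp hy0 L j κ') t x, x⟫_ℝ| ≤
      6 * r * ⟪Kop p (sf sI) (thY A hp hy0 L j κ') (PY A hp hy0 L j κ') t x, x⟫_ℝ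
    refine Kop'_rate p hF' h1 ?_ (fun X hX u hu => ?_) x
    · have h3 : C / A ≤ K * (C / A) * thY A hp hy0 L j κ' t := by
        have h4 := hR'.θ_low
        calc C / A = K * (C / A) * K⁻¹ := by field_simp
          _ ≤ K * (C / A) * thY A hp hy0 L j κ' t :=
            mul_le_mul_of_nonneg_left h4 (by positivity)
      exact (hR'.θ_t.trans h3).trans (mul_le_mul_of_nonneg_right hρ (hF'.θ_pos t).le)
    · obtain ⟨φ, rfl⟩ := exists_phi hu
      have h5 := hR'.P_low X φ hX.1 hX.2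
      have h6 := hR'.P_t X φ hX.1 hX.2
      have h7 : PP (PY A hp hy0 L j κ') t X φ =
        PY A hp hy0 L j κ' t X (Complex.exp ((φ : ℂ) * Complex.I)) := rfl
      rw [h7] at h5
      have h8 : Pt (PY A hp hy0 L j κ') t X (Complex.exp ((φ : ℂ) * Complex.I)) =
        dT (PP (PY A hp hy0 L j κ')) t X φ := rfl
      rw [h8]
      have h9 : C / A ≤ K * (C / A) *
          PY A hp hy0 L j κ' t X (Complex.exp ((φ : ℂ) * Complex.I)) := by
        calc C / A = K * (C / A) * K⁻¹ := by field_simp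
          _ ≤ _ := mul_le_mul_of_nonneg_left h5 (by positivity)
      exact (h6.trans h9).trans (mul_le_mul_of_nonneg_right hρ (hF'.P_pos _ _ _).le)

end

/-- **FINAL EXPORT.**  `FlowFam` of the scheduled metrics and the operator solutions.
`A1` depends on `sI, K, C, δ, m` only. -/
theorem exists_flowFam_sched {m : ℕ} {sI K C δ : ℝ} (hsI : 0 < sI) (hK : 0 < K) (hC : 0 ≤ C)
    (hδ : 0 < δ) :
    ∃ A1 : ℝ, 1 ≤ A1 ∧ ∀ A : ℝ, A1 ≤ A →
      ∀ (X0 X1 Xa Xb y0 y1 : ℝ) (h : ℝ → ℝ) (hp : Prof X0 X1 h) (hy0 : 1 ≤ y0) (ι : Type)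
        (L : ι → YLoop y0 y1 Xa Xb) (j : ℕ → ι) (hF : AllFam sI A hp hy0 L j)
        (_ : AllRate sI A K (C / A) hp hy0 L j)
        (n : ℕ) (p : Fin n → MvPolynomial (Fin (m + 3)) ℝ) (l : Fin n → ℕ) (hb : SBasis p l)
        (N i0 : ℕ) (η Cμ Mμ : ℝ) (Λ : ℕ → ℝ)
        (LS : LoopSys (EuclideanSpace ℝ (Fin n)) ι N i0 η Cμ Mμ Λ),
        (∀ i τ κ, LS.S i τ κ = Sloop p h (L i) τ κ) → LS.H = Hhome p h y0 → ∀ P : ℕ,
        ∃ (U V : Cube P → ℝ → EuclideanSpace ℝ (Fin n) →L[ℝ] EuclideanSpace ℝ (Fin n))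
          (FF : FlowFam LS m sI A δ P j),
          Continuous (Function.uncurry U) ∧ Continuous (Function.uncurry V) ∧
          (∀ κ, Sol (schedCoef hb hsI hp hy0 L j hF κ) (U κ) (V κ)) ∧
          ∀ κ, (FF.F κ).K = (schedCoef hb hsI hp hy0 L j hF κ).K ∧ (FF.F κ).U = U κ ∧
            (FF.F κ).b = (schedCoef hb hsI hp hy0 L j hF κ).b ∧ ((FF.F κ).ρ = fun _ => δ) ∧
            (FF.F κ).L = dn (U κ) (V κ) := by
  obtain ⟨A1, hA1, H⟩ := exists_flowFam (mm := m) (R := K * C) hsI (by positivity) hδ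
  refine ⟨A1, hA1, ?_⟩
  intro A hA X0 X1 Xa Xb y0 y1 h hp hy0 ι L j hF hR n p l hb N i0 η Cμ Mμ Λ LS hS hH P
  have hA0 : 0 < A := by linarith
  refine H A hA _ ι N i0 η Cμ Mμ Λ LS P j (fun κ => schedCoef hb hsI hp hy0 L j hF κ)
    (schedCoef_galFam hb hsI hp hy0 L j hF hA0 hK hC hR P) ?_ ?_
  · intro κ k t h1 h2
    rw [hS]
    exact schedCoef_gate hb hsI hp hy0 L j hF hA0 κ k h1 h2
  · intro κ q _ t h1 h2
    rw [hH]
    exact schedCoef_home hb hsI hp hy0 L j hF hA0 κ h1 h2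

end

end Crest.Agent.R202.BFlow
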