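import Mathlib

/-! # Row 202, PART A2: the potential and the growth recursion (helper14)

Levels `0,…,m` (level `0` is the block of the modes below the first cut, level `c` is the
`c`-th single mode above it) with exponents `β 0 ≤ … ≤ β m`.  The gates are numbered by `q`
(between home `q` and home `q+1`); with a cycle of `M ≥ m` slots and an offset `off`, gate `q`
has the slot `s = (q + off) % M`; if `s < m` it mixes the levels `s` and `s+1` in such a way that
level `s+1` is sent to level `s`; if `m ≤ s` nothing happens in this sector. -/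

set_option autoImplicit false

namespace Crest.Agent.R202.Mix

open Finset

noncomputable section

/-- mean of the levels -/
def abar (β : ℕ → ℝ) (m : ℕ) : ℝ := (∑ c ∈ range (m + 1), β c) / (m + 1)

/-- centred level -/
def bt (β : ℕ → ℝ) (m : ℕ) (c : ℕ) : ℝ := β c - abar β m

/-- partial sums of the centred levels -/
def SS (β : ℕ → ℝ) (m : ℕ) (c : ℕ) : ℝ := ∑ i ∈ range c, bt β m i

/-- the potential -/
def Ph (β : ℕ → ℝ) (m M : ℕ) (c s : ℕ) : ℝ :=
  if c = s then - SS β m c
  else if c < s then ((M : ℝ) - s + c) * bt β m c + ((M : ℝ) - 1) * SS β m c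
  else ((c : ℝ) - s) * bt β m c + ((M : ℝ) - 1) * SS β m c

/-- the potential in home `q` -/
def Phi (β : ℕ → ℝ) (m M off : ℕ) (q c : ℕ) : ℝ := Ph β m M c ((q + off) % M)

/-- the allowed transitions at the gate between home `q` and home `q+1` -/
def Rl (m M off : ℕ) (q j j' : ℕ) : Prop :=
  ((q + off) % M < m ∧ j = (q + off) % M ∧ (j' = (q + off) % M ∨ j' = (q + off) % M + 1)) ∨
  ((q + off) % M < m ∧ j = (q + off) % M + 1 ∧ j' = (q + off) % M) ∨
  ((m ≤ (q + off) % M ∨ (j ≠ (q + off) % M ∧ j ≠ (q + off) % M + 1)) ∧ j' = j)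

variable {β : ℕ → ℝ} {m M off : ℕ}

lemma SS_zero : SS β m 0 = 0 := by simp [SS]

lemma SS_succ (c : ℕ) : SS β m (c + 1) = SS β m c + bt β m c := by
  simp [SS, sum_range_succ]

lemma SS_last : SS β m (m + 1) = 0 := by
  unfold SS bt
  rw [sum_sub_distrib, sum_const, card_range, nsmul_eq_mul, abar]
  have : ((m + 1 : ℕ) : ℝ) ≠ 0 := by positivity
  push_cast at this ⊢
  field_simp
  ring

lemma SS_nonpos (hβ : ∀ i j, i ≤ j → j ≤ m → β i ≤ β j) (c : ℕ) (hc : c ≤ m + 1) :
    SS β m c ≤ 0 := by
  by_contra h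
  push Not at h
  have h1 : ∃ i ∈ range c, 0 < bt β m i := by
    by_contra hn
    push Not at hn
    exact absurd (sum_nonpos hn) (not_le.2 h)
  obtain ⟨i, hi, hib⟩ := h1
  rw [mem_range] at hi
  have h2 : SS β m (m + 1) = SS β m c + ∑ k ∈ Ico c (m + 1), bt β m k := by
    unfold SS
    rw [range_eq_Ico, range_eq_Ico, sum_Ico_consecutive _ (Nat.zero_le _) hc]
  have h3 : 0 ≤ ∑ k ∈ Ico c (m + 1), bt β m k := by
    refine sum_nonneg fun k hk => ?_
    rw [mem_Ico] at hk
    have := hβ i k (by omega) (by omega)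
    unfold bt at hib ⊢
    linarith
  rw [SS_last] at h2
  linarith

/-- next gate index -/
lemma next_mod (hM : 1 ≤ M) (q : ℕ) :
    (q % M + 1 < M ∧ (q + 1) % M = q % M + 1) ∨ (q % M + 1 = M ∧ (q + 1) % M = 0) := by
  have h1 : q % M < M := Nat.mod_lt _ (by omega)
  have h2 : (q + 1) % M = (q % M + 1) % M := by rw [Nat.add_mod, Nat.add_mod (q % M)]; simp
  rcases lt_or_eq_of_le (Nat.succ_le_of_lt h1) with h | h
  · left
    exact ⟨h, by rw [h2]; exact Nat.mod_eq_of_lt h⟩
  · right
    refine ⟨h, ?_⟩
    rw [h2]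
    have : q % M + 1 = M := h
    rw [this, Nat.mod_self]

/-- **The potential is a supersolution.** -/
theorem Phi_super (hm : 1 ≤ m) (hM : m ≤ M) (hβ : ∀ i j, i ≤ j → j ≤ m → β i ≤ β j)
    (q j j' : ℕ) (hj : j ≤ m) (hR : Rl m M off q j j') :
    β j - abar β m + Phi β m M off (q + 1) j' ≤ Phi β m M off q j := by
  have hS := fun c hc => SS_nonpos (β := β) (m := m) hβ c hc
  have hM1 : (1 : ℝ) ≤ M := by exact_mod_cast hm.trans hM
  have hmod := next_mod (hm.trans hM) (q + off)
  have hlt : (q + off) % M < M := Nat.mod_lt _ (by omega)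
  have hl : SS β m (m + 1) = 0 := SS_last
  have hle : SS β m (m + 1) = SS β m m + bt β m m := SS_succ m
  rw [show q + off + 1 = q + 1 + off by ring] at hmod
  obtain ⟨s, hs⟩ : ∃ s, (q + off) % M = s := ⟨_, rfl⟩
  unfold Rl at hR
  rw [hs] at hR hmod hlt
  have e2 : β j - abar β m = bt β m j := rfl
  rw [e2]
  unfold Phi
  rw [hs]
  rcases hR with ⟨h0, h1, h2⟩ | ⟨h0, h1, h2⟩ | ⟨h1, h2⟩
  · -- level `s`, it stays or climbs
    subst h1
    have e1 : Ph β m M j j = - SS β m j := by rw [Ph, if_pos rfl]
    rw [e1]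
    have hSs := SS_succ (β := β) (m := m) j
    have hSn := hS (j + 1) (by omega)
    rcases h2 with h2 | h2
    · -- stays
      rw [h2]
      have e3 : Ph β m M j ((q + 1 + off) % M) = ((M : ℝ) - 1) * SS β m (j + 1) := by
        rcases hmod with ⟨ha, hb⟩ | ⟨ha, hb⟩
        · rw [hb, Ph, if_neg (by omega), if_pos (by omega), hSs]
          push_cast
          ring
        · rw [hb, Ph]
          by_cases hs0 : j = 0
          · have hM' : M = 1 := by omega
            rw [if_pos hs0, hs0, SS_zero, hM']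
            simp
          · rw [if_neg hs0, if_neg (by omega), hSs]
            have : (M : ℝ) = j + 1 := by exact_mod_cast ha.symm
            rw [this]
            push_cast
            ring
      rw [e3]
      nlinarith
    · -- climbs
      rw [h2]
      have e3 : Ph β m M (j + 1) ((q + 1 + off) % M) = - SS β m (j + 1) := by
        rcases hmod with ⟨ha, hb⟩ | ⟨ha, hb⟩
        · rw [hb, Ph, if_pos rfl]
        · rw [hb, Ph, if_neg (by omega), if_neg (by omega)]
          have hjm : j + 1 = m := by omega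
          rw [← hjm] at hl hle
          rw [hjm] at hl hle ⊢
          have hMr : (M : ℝ) = m := by
            have : M = m := by omega
            exact_mod_cast this
          have : bt β m m = - SS β m m := by linarith
          rw [this, hMr]
          push_cast
          ring
      rw [e3, hSs]
      linarith
  · -- level `s+1` falls
    subst h2
    rw [h1]
    have e1 : Ph β m M (j' + 1) j' = bt β m (j' + 1) + ((M : ℝ) - 1) * SS β m (j' + 1) := by
      rw [Ph, if_neg (by omega), if_neg (by omega)]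
      push_cast
      ring
    have e3 : Ph β m M j' ((q + 1 + off) % M) = ((M : ℝ) - 1) * SS β m (j' + 1) := by
      rcases hmod with ⟨ha, hb⟩ | ⟨ha, hb⟩
      · rw [hb, Ph, if_neg (by omega), if_pos (by omega), SS_succ]
        push_cast
        ring
      · rw [hb, Ph]
        by_cases hs0 : j' = 0
        · have hM' : M = 1 := by omega
          rw [if_pos hs0, hs0, SS_zero, hM']
          simp
        · rw [if_neg hs0, if_neg (by omega), SS_succ]
          have : (M : ℝ) = j' + 1 := by exact_mod_cast ha.symm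
          rw [this]
          push_cast
          ring
    rw [e1, e3]
  · -- the level stays
    subst h2
    by_cases hcs : j' = s
    · -- then `s = m` and the gate is not active
      have hsm : s = m := by omega
      have hjm : j' = m := by omega
      have hb0 : bt β m m = - SS β m m := by linarith
      rw [hjm, hsm]
      have e1 : Ph β m M m m = - SS β m m := by rw [Ph, if_pos rfl]
      rw [e1]
      rcases hmod with ⟨ha, hb⟩ | ⟨ha, hb⟩
      · rw [hb, hsm, Ph, if_neg (by omega), if_pos (by omega), hb0]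
        push_cast
        apply le_of_eq
        ring
      · rw [hb, Ph, if_neg (by omega), if_neg (by omega), hb0]
        have hMr : (M : ℝ) = m + 1 := by
          have : M = m + 1 := by omega
          rw [this]; push_cast; ring
        rw [hMr]
        push_cast
        apply le_of_eq
        ring
    · rcases hmod with ⟨ha, hb⟩ | ⟨ha, hb⟩
      · rw [hb, Ph, Ph, if_neg (show ¬ j' = s + 1 by omega), if_neg hcs]
        by_cases hc : j' < s
        · rw [if_pos (show j' < s + 1 by omega), if_pos hc]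
          push_cast
          apply le_of_eq
          ring
        · rw [if_neg (show ¬ j' < s + 1 by omega), if_neg hc]
          push_cast
          apply le_of_eq
          ring
      · rw [hb, Ph, Ph, if_neg hcs, if_pos (show j' < s by omega)]
        have hMr : (M : ℝ) = s + 1 := by exact_mod_cast ha.symm
        by_cases hc : j' = 0
        · rw [if_pos hc, hc, SS_zero, hMr]
          apply le_of_eq
          push_cast
          ring
        · rw [if_neg hc, if_neg (by omega), hMr]
          apply le_of_eq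
          push_cast
          ring

/-- The case of one level. -/
lemma Ph_zero (hM1 : 1 ≤ M) (s : ℕ) (hs : s < M) : Ph β 0 M 0 s = 0 := by
  have h0 : bt β 0 0 = 0 := by simp [bt, abar]
  rw [Ph]
  split_ifs with h1 h2
  · rw [SS_zero, neg_zero]
  · rw [h0, SS_zero]; ring
  · omega

/-- The potential is a supersolution (`m = 0` allowed). -/
theorem Phi_super' (hM1 : 1 ≤ M) (hM : m ≤ M) (hβ : ∀ i j, i ≤ j → j ≤ m → β i ≤ β j)
    (q j j' : ℕ) (hj : j ≤ m) (hR : Rl m M off q j j') :
    β j - abar β m + Phi β m M off (q + 1) j' ≤ Phi β m M off q j := by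
  rcases Nat.eq_zero_or_pos m with hm | hm
  · subst hm
    have hj0 : j = 0 := by omega
    subst hj0
    have hj' : j' = 0 := by
      rcases hR with ⟨h1, -⟩ | ⟨h1, -⟩ | ⟨-, h1⟩
      · omega
      · omega
      · exact h1
    subst hj'
    have h0 : β 0 - abar β 0 = 0 := by simp [abar]
    rw [Phi, Phi, Ph_zero hM1 _ (Nat.mod_lt _ (by omega)), Ph_zero hM1 _ (Nat.mod_lt _ (by omega)),
      h0]
    simp
  · exact Phi_super hm hM hβ q j j' hj hR

/-- bound of the potential -/
def MP (β : ℕ → ℝ) (m M : ℕ) : ℝ := ∑ c ∈ range (m + 1), ∑ s ∈ range M, |Ph β m M c s|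

lemma MP_nonneg : 0 ≤ MP β m M := sum_nonneg fun _ _ => sum_nonneg fun _ _ => abs_nonneg _

lemma Phi_le_MP (hM : 1 ≤ M) (q j : ℕ) (hj : j ≤ m) : |Phi β m M off q j| ≤ MP β m M := by
  unfold Phi
  have h1 : j ∈ range (m + 1) := by rw [mem_range]; omega
  have h2 : (q + off) % M ∈ range M := by rw [mem_range]; exact Nat.mod_lt _ (by omega)
  refine le_trans ?_ (single_le_sum (f := fun c => ∑ s ∈ range M, |Ph β m M c s|)
    (fun c _ => sum_nonneg fun _ _ => abs_nonneg _) h1)
  exact single_le_sum (f := fun s => |Ph β m M j s|) (fun _ _ => abs_nonneg _) h2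

open Classical in
/-- **Growth recursion** (abstract supersolution lemma). -/
theorem super_rec (N : ℕ) (α : ℕ → ℝ) (a M : ℝ) (Φ : ℕ → ℕ → ℝ) (R : ℕ → ℕ → ℕ → Prop)
    (hΦ : ∀ q, ∀ j < N, |Φ q j| ≤ M)
    (hR : ∀ q, ∀ j < N, ∀ j' < N, R q j j' → α j - a + Φ (q + 1) j' ≤ Φ q j)
    (T K : ℕ → ℝ) (x : ℕ → ℕ → ℝ) (P : ℕ) (hx : ∀ q j, 0 ≤ x q j) (hK : ∀ q, 0 ≤ K q)
    (hT : ∀ q, 0 ≤ T q)
    (hstep : ∀ q < P, ∀ j' < N, x (q + 1) j' ≤
      K q * ∑ j ∈ range N, if R q j j' then Real.exp (α j * T q) * x q j else 0) :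
    ∀ q ≤ P, ∑ j ∈ range N, x q j ≤ Real.exp (M * (T q + T 0)) * (∏ i ∈ range q, (N * K i)) *
      Real.exp (a * ∑ i ∈ range q, T i + M * ∑ i ∈ range q, |T (i + 1) - T i|) *
        ∑ j ∈ range N, x 0 j := by
  -- the weighted sums
  set b : ℕ → ℝ := fun q => ∑ j ∈ range N, Real.exp (T q * Φ q j) * x q j with hb
  have hb0 : ∀ q, 0 ≤ b q := fun q => sum_nonneg fun j _ => mul_nonneg (Real.exp_pos _).le (hx _ _)
  have step : ∀ q < P, b (q + 1) ≤
      (N * K q) * Real.exp (a * T q + M * |T (q + 1) - T q|) * b q := by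
    intro q hq
    have h1 : ∀ j' ∈ range N, Real.exp (T (q + 1) * Φ (q + 1) j') * x (q + 1) j' ≤
        K q * Real.exp (a * T q + M * |T (q + 1) - T q|) * b q := by
      intro j' hj'
      rw [mem_range] at hj'
      refine le_trans (mul_le_mul_of_nonneg_left (hstep q hq j' hj') (Real.exp_pos _).le) ?_
      rw [show ∀ y : ℝ, Real.exp (T (q + 1) * Φ (q + 1) j') * (K q * y) =
        K q * (Real.exp (T (q + 1) * Φ (q + 1) j') * y) from fun y => by ring, mul_assoc]
      refine mul_le_mul_of_nonneg_left ?_ (hK q)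
      rw [hb, mul_sum, mul_sum]
      refine sum_le_sum fun j hj => ?_
      rw [mem_range] at hj
      split_ifs with hr
      · rw [← mul_assoc, ← mul_assoc, ← Real.exp_add, ← Real.exp_add]
        refine mul_le_mul_of_nonneg_right (Real.exp_le_exp.2 ?_) (hx _ _)
        have e1 := hR q j hj j' hj' hr
        have e2 := hΦ (q + 1) j' hj'
        have e3 : (T (q + 1) - T q) * Φ (q + 1) j' ≤ M * |T (q + 1) - T q| := by
          calc (T (q + 1) - T q) * Φ (q + 1) j' ≤ |(T (q + 1) - T q) * Φ (q + 1) j'| := le_abs_self _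
            _ = |T (q + 1) - T q| * |Φ (q + 1) j'| := abs_mul _ _
            _ ≤ |T (q + 1) - T q| * M := mul_le_mul_of_nonneg_left e2 (abs_nonneg _)
            _ = _ := mul_comm _ _
        have e4 : T q * (α j - a + Φ (q + 1) j') ≤ T q * Φ q j :=
          mul_le_mul_of_nonneg_left e1 (hT q)
        nlinarith
      · rw [mul_zero]
        exact mul_nonneg (Real.exp_pos _).le (mul_nonneg (Real.exp_pos _).le (hx _ _))
    calc b (q + 1) ≤ ∑ j' ∈ range N, K q * Real.exp (a * T q + M * |T (q + 1) - T q|) * b q :=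
          sum_le_sum h1
      _ = _ := by rw [sum_const, card_range, nsmul_eq_mul]; ring
  have main : ∀ q ≤ P, b q ≤ (∏ i ∈ range q, (N * K i)) *
      Real.exp (a * ∑ i ∈ range q, T i + M * ∑ i ∈ range q, |T (i + 1) - T i|) * b 0 := by
    intro q
    induction q with
    | zero => intro _; simp
    | succ q ih =>
      intro hq
      refine (step q (by omega)).trans ?_
      have h2 := ih (by omega)
      have h3 : 0 ≤ (N * K q) * Real.exp (a * T q + M * |T (q + 1) - T q|) :=
        mul_nonneg (mul_nonneg (Nat.cast_nonneg _) (hK q)) (Real.exp_pos _).le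
      refine (mul_le_mul_of_nonneg_left h2 h3).trans (le_of_eq ?_)
      rw [prod_range_succ, sum_range_succ, sum_range_succ,
        show a * (∑ i ∈ range q, T i + T q) + M * (∑ i ∈ range q, |T (i + 1) - T i| +
          |T (q + 1) - T q|) = (a * T q + M * |T (q + 1) - T q|) +
            (a * ∑ i ∈ range q, T i + M * ∑ i ∈ range q, |T (i + 1) - T i|) by ring,
        Real.exp_add (a * T q + M * |T (q + 1) - T q|)]
      generalize Real.exp (a * T q + M * |T (q + 1) - T q|) = A
      generalize Real.exp (a * ∑ i ∈ range q, T i + M * ∑ i ∈ range q, |T (i + 1) - T i|) = B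
      ring
  intro q hq
  have hlow : ∑ j ∈ range N, x q j ≤ Real.exp (M * T q) * b q := by
    rw [hb, mul_sum]
    refine sum_le_sum fun j hj => ?_
    rw [mem_range] at hj
    rw [← mul_assoc, ← Real.exp_add]
    refine le_mul_of_one_le_left (hx _ _) (Real.one_le_exp ?_)
    have := (abs_le.1 (hΦ q j hj)).1
    nlinarith [hT q]
  have hup : b 0 ≤ Real.exp (M * T 0) * ∑ j ∈ range N, x 0 j := by
    rw [hb, mul_sum]
    refine sum_le_sum fun j hj => ?_
    rw [mem_range] at hj
    refine mul_le_mul_of_nonneg_right (Real.exp_le_exp.2 ?_) (hx _ _)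
    have := (abs_le.1 (hΦ 0 j hj)).2
    nlinarith [hT 0]
  have hPn : 0 ≤ ∏ i ∈ range q, (N * K i) :=
    prod_nonneg fun i _ => mul_nonneg (Nat.cast_nonneg _) (hK i)
  calc ∑ j ∈ range N, x q j ≤ Real.exp (M * T q) * b q := hlow
    _ ≤ Real.exp (M * T q) * ((∏ i ∈ range q, (N * K i)) *
        Real.exp (a * ∑ i ∈ range q, T i + M * ∑ i ∈ range q, |T (i + 1) - T i|) * b 0) :=
        mul_le_mul_of_nonneg_left (main q hq) (Real.exp_pos _).le
    _ ≤ Real.exp (M * T q) * ((∏ i ∈ range q, (N * K i)) *
        Real.exp (a * ∑ i ∈ range q, T i + M * ∑ i ∈ range q, |T (i + 1) - T i|) *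
          (Real.exp (M * T 0) * ∑ j ∈ range N, x 0 j)) := by
        refine mul_le_mul_of_nonneg_left ?_ (Real.exp_pos _).le
        exact mul_le_mul_of_nonneg_left hup (mul_nonneg hPn (Real.exp_pos _).le)
    _ = _ := by
        rw [show M * (T q + T 0) = M * T q + M * T 0 by ring, Real.exp_add (M * T q)]
        generalize Real.exp (a * ∑ i ∈ range q, T i + M * ∑ i ∈ range q, |T (i + 1) - T i|) = B
        ring

end

end Crest.Agent.R202.Mix
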