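import Mathlib
import Crest.Agent.R202.MixDefs
import Crest.Agent.R202.MixPot

/-! # Row 202, PART A2: growth from the flags (helper14)

`E` = space of solutions (finite dimensional, `finrank E = N = i0 + m`), cuts `l ∈ [i0, N]`.
Levels `c = 0,…,m`: level `0` = the block of the modes `0,…,i0-1`, level `c` = mode `i0+c-1`. -/

set_option autoImplicit false

open scoped InnerProductSpace

namespace Crest.Agent.R202.Mix

open Finset

noncomputable section

/-! ## One home -/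

section Home

variable {H : Type*} [NormedAddCommGroup H] [InnerProductSpace ℝ H] {N : ℕ} {e : Fin N → H}

/-- Transversality of a slow and a fast cone, quantitatively. -/
lemma split_bound (he : Orthonormal ℝ e) (l : ℕ) {y z : H}
    (hy : ‖y - pr e l y‖ ≤ (3 / 20) * ‖pr e l y‖) (hz : ‖pr e l z‖ ≤ 3 * ‖z - pr e l z‖) :
    ‖y‖ ≤ 8 * ‖y + z‖ := by
  have h1 := norm_sq_split he l (y + z)
  have h2 := norm_sq_split he l y
  have h3 : ‖pr e l y‖ ≤ ‖pr e l (y + z)‖ + ‖pr e l z‖ := by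
    have : pr e l y = pr e l (y + z) - pr e l z := by rw [map_add]; abel
    rw [this]
    exact norm_sub_le _ _
  have h4 : ‖z - pr e l z‖ ≤ ‖y + z - pr e l (y + z)‖ + ‖y - pr e l y‖ := by
    have : z - pr e l z = (y + z - pr e l (y + z)) - (y - pr e l y) := by rw [map_add]; abel
    rw [this]
    exact norm_sub_le _ _
  refine le_of_sq_le_sq ?_ (by positivity)
  generalize ‖pr e l (y + z)‖ = X at *
  generalize ‖y + z - pr e l (y + z)‖ = W at *
  generalize hA : ‖pr e l y‖ = A at *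
  generalize hB : ‖y - pr e l y‖ = B at *
  generalize ‖z - pr e l z‖ = C at *
  generalize ‖pr e l z‖ = D at *
  have hA0 : 0 ≤ A := by rw [← hA]; exact norm_nonneg _
  have hB0 : 0 ≤ B := by rw [← hB]; exact norm_nonneg _
  have h5 : (11 / 20) * A ≤ X + 3 * W := by linarith
  have h6 : ((11 / 20) * A) ^ 2 ≤ (X + 3 * W) ^ 2 := by
    have := mul_self_le_mul_self (by positivity : 0 ≤ (11 / 20) * A) h5
    nlinarith
  have h7 : (X + 3 * W) ^ 2 ≤ 10 * (X ^ 2 + W ^ 2) := by nlinarith [sq_nonneg (3 * X - W)]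
  rw [h2, mul_pow, h1]
  have h9 : B ^ 2 ≤ ((3 / 20) * A) ^ 2 := by nlinarith
  nlinarith

end Home

/-! ## The chain -/

/-- Data of PART A2: one sector, one parameter `κ`. -/
structure FlagChain (H : Type*) [NormedAddCommGroup H] [InnerProductSpace ℝ H]
    (E : Type*) [AddCommGroup E] [Module ℝ E] (N i0 m P : ℕ) where
  /-- the modes -/
  e : Fin N → H
  /-- growth bounds of the homes, per cut -/
  G : ℕ → ℕ → ℝ
  /-- gate bounds (outward) -/
  Γ : ℕ → ℝ
  /-- designated cuts, `0` = none -/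
  d : ℕ → ℕ
  /-- values at the inner end -/
  Jm : ℕ → E →ₗ[ℝ] H
  /-- values at the outer end -/
  Jp : ℕ → E →ₗ[ℝ] H
  /-- slow spaces -/
  V : ℕ → ℕ → Submodule ℝ E
  /-- past-fast spaces -/
  U : ℕ → ℕ → Submodule ℝ E
  hN : N = i0 + m
  hi0 : 1 ≤ i0
  finE : Module.finrank ℝ E = N
  orth : Orthonormal ℝ e
  inj_m : ∀ q ≤ P, ∀ u, Jm q u = 0 → u = 0
  V_mono : ∀ q ≤ P, ∀ l, i0 ≤ l → l < N → V q l ≤ V q (l + 1)
  U_anti : ∀ q ≤ P, ∀ l, i0 ≤ l → l < N → U q (l + 1) ≤ U q l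
  finrank_V : ∀ q ≤ P, ∀ l, i0 ≤ l → l ≤ N → Module.finrank ℝ (V q l) = l
  finrank_U : ∀ q ≤ P, ∀ l, i0 ≤ l → l ≤ N → Module.finrank ℝ (U q l) = N - l
  cone_V : ∀ q ≤ P, ∀ l, i0 ≤ l → l ≤ N → ∀ u ∈ V q l,
    ‖Jm q u - pr e l (Jm q u)‖ ≤ (3 / 20) * ‖pr e l (Jm q u)‖
  cone_U : ∀ q ≤ P, ∀ l, i0 ≤ l → l ≤ N → ∀ u ∈ U q l,
    ‖pr e l (Jm q u)‖ ≤ 3 * ‖Jm q u - pr e l (Jm q u)‖
  grow : ∀ q ≤ P, ∀ l, i0 ≤ l → l ≤ N → ∀ u ∈ V q l, ‖Jp q u‖ ≤ G q l * ‖Jm q u‖
  V_const : ∀ k < P, ∀ l, i0 ≤ l → l ≤ N → l ≠ d k → V (k + 1) l = V k l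
  U_const : ∀ k < P, ∀ l, i0 ≤ l → l ≤ N → l ≠ d k → U (k + 1) l = U k l
  meet : ∀ k < P, i0 ≤ d k → d k < N → ∃ u ∈ V (k + 1) (d k), u ∈ U k (d k) ∧ u ≠ 0
  norm_gate : ∀ k < P, ∀ u, ‖Jm (k + 1) u‖ ≤ Γ k * ‖Jp k u‖

namespace FlagChain

variable {H : Type*} [NormedAddCommGroup H] [InnerProductSpace ℝ H]
  {E : Type*} [AddCommGroup E] [Module ℝ E] {N i0 m P : ℕ} (F : FlagChain H E N i0 m P)

include F in
lemma finiteE : Module.Finite ℝ E := by
  apply Module.finite_of_finrank_pos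
  rw [F.finE, F.hN]
  have := F.hi0
  omega

/-- slow space of the cut index `c` -/
def Vc (q c : ℕ) : Submodule ℝ E := if c = 0 then ⊥ else F.V q (i0 + c - 1)

/-- fast space of the cut index `c` -/
def Uc (q c : ℕ) : Submodule ℝ E := if c = 0 then ⊤ else F.U q (i0 + c - 1)

lemma Vc_zero (q : ℕ) : F.Vc q 0 = ⊥ := if_pos rfl
lemma Uc_zero (q : ℕ) : F.Uc q 0 = ⊤ := if_pos rfl
lemma Vc_succ (q c : ℕ) : F.Vc q (c + 1) = F.V q (i0 + c) := by
  rw [Vc, if_neg (by omega)]; rfl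
lemma Uc_succ (q c : ℕ) : F.Uc q (c + 1) = F.U q (i0 + c) := by
  rw [Uc, if_neg (by omega)]; rfl

lemma Vc_mono {q : ℕ} (hq : q ≤ P) {c : ℕ} (hc : c ≤ m) : F.Vc q c ≤ F.Vc q (c + 1) := by
  rcases Nat.eq_zero_or_pos c with rfl | h
  · rw [Vc_zero]; exact bot_le
  · obtain ⟨c, rfl⟩ : ∃ b, c = b + 1 := ⟨c - 1, by omega⟩
    rw [Vc_succ, Vc_succ]
    exact F.V_mono q hq (i0 + c) (by omega) (by have := F.hN; omega)

lemma Uc_anti {q : ℕ} (hq : q ≤ P) {c : ℕ} (hc : c ≤ m) : F.Uc q (c + 1) ≤ F.Uc q c := by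
  rcases Nat.eq_zero_or_pos c with rfl | h
  · rw [Uc_zero]; exact le_top
  · obtain ⟨c, rfl⟩ : ∃ b, c = b + 1 := ⟨c - 1, by omega⟩
    rw [Uc_succ, Uc_succ]
    exact F.U_anti q hq (i0 + c) (by omega) (by have := F.hN; omega)

lemma Vc_le {q : ℕ} (hq : q ≤ P) {a b : ℕ} (hab : a ≤ b) (hb : b ≤ m + 1) :
    F.Vc q a ≤ F.Vc q b := by
  induction b, hab using Nat.le_induction with
  | base => exact le_rfl
  | succ k hk ih => exact (ih (by omega)).trans (F.Vc_mono hq (by omega))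

lemma Uc_le {q : ℕ} (hq : q ≤ P) {a b : ℕ} (hab : a ≤ b) (hb : b ≤ m + 1) :
    F.Uc q b ≤ F.Uc q a := by
  induction b, hab using Nat.le_induction with
  | base => exact le_rfl
  | succ k hk ih => exact (F.Uc_anti hq (by omega)).trans (ih (by omega))

lemma split {q : ℕ} (hq : q ≤ P) {l : ℕ} (h0 : i0 ≤ l) (hl : l ≤ N) {v w : E} (hv : v ∈ F.V q l)
    (hw : w ∈ F.U q l) : ‖F.Jm q v‖ ≤ 8 * ‖F.Jm q (v + w)‖ := by
  rw [map_add]
  exact split_bound F.orth l (F.cone_V q hq l h0 hl v hv) (F.cone_U q hq l h0 hl w hw)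

lemma disj {q : ℕ} (hq : q ≤ P) {l : ℕ} (h0 : i0 ≤ l) (hl : l ≤ N) :
    Disjoint (F.V q l) (F.U q l) := by
  rw [Submodule.disjoint_def]
  intro u hu hu'
  have h1 := F.split hq h0 hl hu ((F.U q l).neg_mem hu')
  rw [add_neg_cancel, map_zero, norm_zero, mul_zero] at h1
  exact F.inj_m q hq u (norm_le_zero_iff.1 h1)

lemma compl {q : ℕ} (hq : q ≤ P) {c : ℕ} (hc : c ≤ m + 1) : IsCompl (F.Vc q c) (F.Uc q c) := by
  have := F.finiteE
  rcases Nat.eq_zero_or_pos c with rfl | h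
  · rw [Vc_zero, Uc_zero]; exact isCompl_bot_top
  · obtain ⟨c, rfl⟩ : ∃ b, c = b + 1 := ⟨c - 1, by omega⟩
    have hN := F.hN
    rw [Vc_succ, Uc_succ]
    have hd := F.disj hq (l := i0 + c) (by omega) (by omega)
    refine ⟨hd, ?_⟩
    rw [codisjoint_iff]
    apply Submodule.eq_top_of_finrank_eq
    have h1 := Submodule.finrank_sup_add_finrank_inf_eq (F.V q (i0 + c)) (F.U q (i0 + c))
    rw [hd.eq_bot, finrank_bot, add_zero, F.finrank_V q hq _ (by omega) (by omega),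
      F.finrank_U q hq _ (by omega) (by omega)] at h1
    rw [h1, F.finE]
    omega

lemma exists_proj {q : ℕ} (hq : q ≤ P) {c : ℕ} (hc : c ≤ m + 1) :
    ∃ π : E →ₗ[ℝ] E, (∀ x, π x ∈ F.Vc q c) ∧ ∀ x, x - π x ∈ F.Uc q c := by
  have h := F.compl hq hc
  refine ⟨(F.Vc q c).projection _ h, fun x => Submodule.projection_apply_mem h x, fun x => ?_⟩
  rw [← Submodule.projection_eq_self_sub_projection h x]
  exact Submodule.projection_apply_mem h.symm x

open Classical in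
/-- the projection onto `Vc q c` along `Uc q c` -/
def proj (q c : ℕ) : E →ₗ[ℝ] E :=
  if h : q ≤ P ∧ c ≤ m + 1 then (F.exists_proj h.1 h.2).choose else 0

lemma proj_mem {q : ℕ} (hq : q ≤ P) {c : ℕ} (hc : c ≤ m + 1) (x : E) : F.proj q c x ∈ F.Vc q c := by
  rw [proj, dif_pos ⟨hq, hc⟩]
  exact (F.exists_proj hq hc).choose_spec.1 x

lemma sub_proj_mem {q : ℕ} (hq : q ≤ P) {c : ℕ} (hc : c ≤ m + 1) (x : E) :
    x - F.proj q c x ∈ F.Uc q c := by
  rw [proj, dif_pos ⟨hq, hc⟩]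
  exact (F.exists_proj hq hc).choose_spec.2 x

lemma proj_eq {q : ℕ} (hq : q ≤ P) {c : ℕ} (hc : c ≤ m + 1) {x a : E} (ha : a ∈ F.Vc q c)
    (hb : x - a ∈ F.Uc q c) : F.proj q c x = a := by
  have h1 := F.proj_mem hq hc x
  have h2 := F.sub_proj_mem hq hc x
  have h3 : F.proj q c x - a ∈ F.Vc q c := Submodule.sub_mem _ h1 ha
  have h4 : F.proj q c x - a ∈ F.Uc q c := by
    have := Submodule.sub_mem _ hb h2
    have e : x - a - (x - F.proj q c x) = F.proj q c x - a := by abel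
    rwa [e] at this
  have h5 := (Submodule.disjoint_def.1 (F.compl hq hc).disjoint) _ h3 h4
  exact sub_eq_zero.1 h5

lemma proj_of_mem {q : ℕ} (hq : q ≤ P) {a c : ℕ} (hac : a ≤ c) (hc : c ≤ m + 1) {x : E}
    (hx : x ∈ F.Vc q a) : F.proj q c x = x :=
  F.proj_eq hq hc (F.Vc_le hq hac hc hx) (by rw [sub_self]; exact Submodule.zero_mem _)

lemma proj_of_mem_U {q : ℕ} (hq : q ≤ P) {b c : ℕ} (hcb : c ≤ b) (hb : b ≤ m + 1) {x : E}
    (hx : x ∈ F.Uc q b) : F.proj q c x = 0 :=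
  F.proj_eq hq (hcb.trans hb) (Submodule.zero_mem _) (by rw [sub_zero]; exact F.Uc_le hq hcb hb hx)

lemma proj_zero {q : ℕ} (hq : q ≤ P) (x : E) : F.proj q 0 x = 0 :=
  F.proj_of_mem_U hq le_rfl (Nat.zero_le _) (x := x) (by rw [Uc_zero]; trivial)

lemma Vc_last {q : ℕ} (hq : q ≤ P) : F.Vc q (m + 1) = ⊤ := by
  have := F.finiteE
  rw [Vc_succ]
  apply Submodule.eq_top_of_finrank_eq
  have hN := F.hN
  rw [F.finrank_V q hq _ (by omega) (by omega), F.finE, hN]

lemma proj_last {q : ℕ} (hq : q ≤ P) (x : E) : F.proj q (m + 1) x = x :=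
  F.proj_of_mem hq le_rfl le_rfl (by rw [F.Vc_last hq]; trivial)

lemma norm_proj {q : ℕ} (hq : q ≤ P) {c : ℕ} (hc : c ≤ m + 1) (x : E) :
    ‖F.Jm q (F.proj q c x)‖ ≤ 8 * ‖F.Jm q x‖ := by
  rcases Nat.eq_zero_or_pos c with rfl | h
  · rw [F.proj_zero hq, map_zero, norm_zero]; positivity
  · obtain ⟨c, rfl⟩ : ∃ b, c = b + 1 := ⟨c - 1, by omega⟩
    have h1 := F.proj_mem hq hc x
    have h2 := F.sub_proj_mem hq hc x
    rw [Vc_succ] at h1
    rw [Uc_succ] at h2
    have hN := F.hN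
    have h3 := F.split hq (by omega) (by omega) h1 h2
    rwa [add_sub_cancel] at h3

/-- the component of `u` in the level `c` -/
def comp (q c : ℕ) (u : E) : E := F.proj q (c + 1) u - F.proj q c u

lemma comp_mem_V {q : ℕ} (hq : q ≤ P) {c : ℕ} (hc : c ≤ m) (u : E) :
    F.comp q c u ∈ F.Vc q (c + 1) :=
  Submodule.sub_mem _ (F.proj_mem hq (by omega) u)
    (F.Vc_mono hq hc (F.proj_mem hq (by omega) u))

lemma comp_mem_U {q : ℕ} (hq : q ≤ P) {c : ℕ} (hc : c ≤ m) (u : E) :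
    F.comp q c u ∈ F.Uc q c := by
  have h1 := F.sub_proj_mem hq (c := c) (by omega) u
  have h2 := F.Uc_anti hq hc (F.sub_proj_mem hq (c := c + 1) (by omega) u)
  have e : F.comp q c u = (u - F.proj q c u) - (u - F.proj q (c + 1) u) := by
    rw [comp]; abel
  rw [e]
  exact Submodule.sub_mem _ h1 h2

lemma norm_comp {q : ℕ} (hq : q ≤ P) {c : ℕ} (hc : c ≤ m) (u : E) :
    ‖F.Jm q (F.comp q c u)‖ ≤ 16 * ‖F.Jm q u‖ := by
  rw [comp, map_sub]
  have h1 := F.norm_proj hq (c := c + 1) (by omega) u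
  have h2 := F.norm_proj hq (c := c) (by omega) u
  have := norm_sub_le (F.Jm q (F.proj q (c + 1) u)) (F.Jm q (F.proj q c u))
  linarith

lemma sum_comp {q : ℕ} (hq : q ≤ P) (u : E) : ∑ c ∈ range (m + 1), F.comp q c u = u := by
  unfold comp
  rw [sum_range_sub (fun c => F.proj q c u), F.proj_last hq, F.proj_zero hq, sub_zero]

/-- growth of a level in a home -/
lemma level_growth {q : ℕ} (hq : q ≤ P) {c : ℕ} (hc : c ≤ m) (u : E) :
    ‖F.Jp q (F.comp q c u)‖ ≤ F.G q (i0 + c) * ‖F.Jm q (F.comp q c u)‖ := by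
  have h1 := F.comp_mem_V hq hc u
  rw [Vc_succ] at h1
  have hN := F.hN
  exact F.grow q hq _ (by omega) (by omega) _ h1

/-! ### The gates -/

variable {F}

/-- components of an element of `V_a ∩ U_b` vanish outside `[b, a)` -/
lemma comp_zero {q : ℕ} (hq : q ≤ P) {a b j : ℕ} (hb : b ≤ m + 1) (hj : j ≤ m)
    {z : E} (hz : z ∈ F.Vc q a) (hz' : z ∈ F.Uc q b) (h : a ≤ j ∨ j < b) : F.comp q j z = 0 := by
  rw [comp]
  rcases h with h | h
  · rw [F.proj_of_mem hq (a := a) (by omega) (by omega) hz,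
      F.proj_of_mem hq (a := a) (by omega) (by omega) hz, sub_self]
  · rw [F.proj_of_mem_U hq (b := b) (by omega) hb hz',
      F.proj_of_mem_U hq (b := b) (by omega) hb hz', sub_self]

lemma Vc_const {k : ℕ} (hk : k < P) {c : ℕ} (hc : c ≤ m + 1)
    (h : c = 0 ∨ i0 + c ≠ F.d k + 1) :
    F.Vc (k + 1) c = F.Vc k c := by
  rcases Nat.eq_zero_or_pos c with rfl | h0
  · rw [Vc_zero, Vc_zero]
  · obtain ⟨c, rfl⟩ : ∃ b, c = b + 1 := ⟨c - 1, by omega⟩
    rw [Vc_succ, Vc_succ]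
    have hN := F.hN
    exact F.V_const k hk _ (by omega) (by omega) (by omega)

lemma Uc_const {k : ℕ} (hk : k < P) {c : ℕ} (hc : c ≤ m + 1)
    (h : c = 0 ∨ i0 + c ≠ F.d k + 1) :
    F.Uc (k + 1) c = F.Uc k c := by
  rcases Nat.eq_zero_or_pos c with rfl | h0
  · rw [Uc_zero, Uc_zero]
  · obtain ⟨c, rfl⟩ : ∃ b, c = b + 1 := ⟨c - 1, by omega⟩
    rw [Uc_succ, Uc_succ]
    have hN := F.hN
    exact F.U_const k hk _ (by omega) (by omega) (by omega)

/-- At the designated cut `i0 + s` the level `s+1` inside is contained in the slow space of the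
outside. -/
lemma level_falls {k : ℕ} (hk : k < P) {s : ℕ} (hs : s < m) (hd : F.d k = i0 + s) {z : E}
    (hz : z ∈ F.Vc k (s + 2)) (hz' : z ∈ F.Uc k (s + 1)) : z ∈ F.Vc (k + 1) (s + 1) := by
  have := F.finiteE
  have hN := F.hN
  obtain ⟨u, hu, hu', hu0⟩ := F.meet k hk (by omega) (by omega)
  rw [hd, ← Vc_succ] at hu
  rw [hd, ← Uc_succ] at hu'
  have h1 : u ∈ F.Vc k (s + 2) := by
    rw [← F.Vc_const hk (c := s + 2) (by omega) (by omega)]
    exact F.Vc_mono (by omega) (c := s + 1) (by omega) hu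
  have h2 : Module.finrank ℝ ↥(F.Vc k (s + 2) ⊓ F.Uc k (s + 1)) ≤ 1 := by
    have e1 := Submodule.finrank_sup_add_finrank_inf_eq (F.Vc k (s + 2) ⊓ F.Uc k (s + 1))
      (F.Vc k (s + 1))
    have e2 : (F.Vc k (s + 2) ⊓ F.Uc k (s + 1)) ⊓ F.Vc k (s + 1) = ⊥ := by
      rw [eq_bot_iff]
      rintro x ⟨⟨-, hx1⟩, hx2⟩
      exact (Submodule.mem_bot ℝ).2 ((Submodule.disjoint_def.1
        (F.compl (show k ≤ P by omega) (show s + 1 ≤ m + 1 by omega)).disjoint) x hx2 hx1)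
    have e3 : (F.Vc k (s + 2) ⊓ F.Uc k (s + 1)) ⊔ F.Vc k (s + 1) ≤ F.Vc k (s + 2) :=
      sup_le inf_le_left (F.Vc_mono (by omega) (by omega))
    have e4 := Submodule.finrank_mono e3
    have e5 : Module.finrank ℝ (F.Vc k (s + 2)) = i0 + (s + 1) := by
      rw [Vc_succ]; exact F.finrank_V k (by omega) _ (by omega) (by omega)
    have e6 : Module.finrank ℝ (F.Vc k (s + 1)) = i0 + s := by
      rw [Vc_succ]; exact F.finrank_V k (by omega) _ (by omega) (by omega)
    rw [e2, finrank_bot] at e1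
    omega
  obtain ⟨v, hv⟩ := finrank_le_one_iff.1 h2
  obtain ⟨c1, hc1⟩ := hv ⟨u, h1, hu'⟩
  obtain ⟨c2, hc2⟩ := hv ⟨z, hz, hz'⟩
  have hc1' : c1 • (v : E) = u := by
    have := congrArg Subtype.val hc1
    simpa using this
  have hc2' : c2 • (v : E) = z := by
    have := congrArg Subtype.val hc2
    simpa using this
  have hc10 : c1 ≠ 0 := by
    rintro rfl
    rw [zero_smul] at hc1'
    exact hu0 hc1'.symm
  have : z = (c2 * c1⁻¹) • u := by
    rw [← hc1', smul_smul, mul_assoc, inv_mul_cancel₀ hc10, mul_one, hc2']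
  rw [this]
  exact Submodule.smul_mem _ _ hu

/-- Only the allowed transitions occur. -/
lemma trans_zero {k M off : ℕ} (hk : k < P)
    (hd : F.d k = if (k + off) % M < m then i0 + (k + off) % M else 0)
    {j j' : ℕ} (hj : j ≤ m) (hj' : j' ≤ m) (hR : ¬ Rl m M off k j j') (u : E) :
    F.comp (k + 1) j' (F.comp k j u) = 0 := by
  have hi0 := F.hi0
  have hq : k ≤ P := hk.le
  have hq' : k + 1 ≤ P := hk
  have h1 := F.comp_mem_V hq hj u
  have h2 := F.comp_mem_U hq hj u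
  unfold Rl at hR
  generalize (k + off) % M = s at hd hR
  push Not at hR
  obtain ⟨hR1, hR2, hR3⟩ := hR
  split_ifs at hd with hs
  · by_cases c1 : j = s
    · -- level `s`
      have hR1' := hR1 hs c1
      have h1' : F.comp k j u ∈ F.Vc (k + 1) (s + 2) := by
        rw [F.Vc_const hk (c := s + 2) (by omega) (by omega)]
        rw [c1] at h1 ⊢
        exact F.Vc_mono hq (c := s + 1) (by omega) h1
      have h2' : F.comp k j u ∈ F.Uc (k + 1) s := by
        rw [F.Uc_const hk (c := s) (by omega) (by omega)]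
        rw [c1] at h2 ⊢
        exact h2
      exact comp_zero hq' (by omega) hj' h1' h2' (by omega)
    · by_cases c2 : j = s + 1
      · -- level `s+1`
        have hR2' := hR2 hs c2
        rw [c2] at h1 h2 ⊢
        have h1' := level_falls hk hs hd h1 h2
        have h2' : F.comp k (s + 1) u ∈ F.Uc (k + 1) s := by
          rw [F.Uc_const hk (c := s) (by omega) (by omega)]
          exact F.Uc_anti hq (c := s) (by omega) h2
        exact comp_zero hq' (by omega) hj' h1' h2' (by omega)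
      · have hR3' := hR3 (Or.inr ⟨c1, c2⟩)
        rw [← F.Vc_const hk (c := j + 1) (by omega) (by omega)] at h1
        rw [← F.Uc_const hk (c := j) (by omega) (by omega)] at h2
        exact comp_zero hq' (by omega) hj' h1 h2 (by omega)
  · have hR3' := hR3 (Or.inl (by omega))
    rw [← F.Vc_const hk (c := j + 1) (by omega) (by omega)] at h1
    rw [← F.Uc_const hk (c := j) (by omega) (by omega)] at h2
    exact comp_zero hq' (by omega) hj' h1 h2 (by omega)

/-- **Growth from the flags.** -/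
theorem growth (F : FlagChain H E N i0 m P) (M off : ℕ) (hM1 : 1 ≤ M) (hM : m ≤ M)
    (hd : ∀ k < P, F.d k = if (k + off) % M < m then i0 + (k + off) % M else 0)
    (β : ℕ → ℝ) (hβ : ∀ i j, i ≤ j → j ≤ m → β i ≤ β j)
    (T ρ : ℕ → ℝ) (hT : ∀ q, 0 ≤ T q) (hρ : ∀ q, 0 ≤ ρ q)
    (hG : ∀ q ≤ P, ∀ c ≤ m, F.G q (i0 + c) ≤ ρ q * Real.exp (β c * T q))
    (hΓ : ∀ q, 0 ≤ F.Γ q) :
    ∀ q ≤ P, ∀ u, ‖F.Jm q u‖ ≤
      16 * (m + 1) * Real.exp (MP β m M * (T q + T 0)) *
        (∏ i ∈ range q, (16 * (m + 1) * F.Γ i * ρ i)) *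
        Real.exp (abar β m * ∑ i ∈ range q, T i + MP β m M * ∑ i ∈ range q, |T (i + 1) - T i|) *
        ‖F.Jm 0 u‖ := by
  classical
  intro q hq u
  have key := super_rec (m + 1) β (abar β m) (MP β m M) (Phi β m M off) (Rl m M off)
    (fun q j hj => Phi_le_MP hM1 q j (by omega))
    (fun q j hj j' _ hR => Phi_super' hM1 hM hβ q j j' (by omega) hR)
    T (fun i => 16 * F.Γ i * ρ i) (fun q j => ‖F.Jm q (F.comp q j u)‖) P
    (fun q j => norm_nonneg _) (fun i => mul_nonneg (mul_nonneg (by norm_num) (hΓ i)) (hρ i)) hT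
    ?_ q hq
  · have h1 : ‖F.Jm q u‖ ≤ ∑ j ∈ range (m + 1), ‖F.Jm q (F.comp q j u)‖ := by
      conv_lhs => rw [← F.sum_comp hq u, map_sum]
      exact norm_sum_le _ _
    have h2 : ∑ j ∈ range (m + 1), ‖F.Jm 0 (F.comp 0 j u)‖ ≤ 16 * (m + 1) * ‖F.Jm 0 u‖ := by
      calc ∑ j ∈ range (m + 1), ‖F.Jm 0 (F.comp 0 j u)‖
          ≤ ∑ j ∈ range (m + 1), 16 * ‖F.Jm 0 u‖ := by
            refine sum_le_sum fun j hj => ?_
            rw [mem_range] at hj
            exact F.norm_comp (Nat.zero_le _) (by omega) u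
        _ = 16 * (m + 1) * ‖F.Jm 0 u‖ := by
            rw [sum_const, card_range, nsmul_eq_mul]; push_cast; ring
    have h3 : (∏ i ∈ range q, (((m + 1 : ℕ) : ℝ) * (16 * F.Γ i * ρ i))) =
        ∏ i ∈ range q, (16 * (m + 1) * F.Γ i * ρ i) := by
      refine prod_congr rfl fun i _ => ?_
      push_cast
      ring
    rw [h3] at key
    have h4 : 0 ≤ ∏ i ∈ range q, (16 * (m + 1) * F.Γ i * ρ i) :=
      prod_nonneg fun i _ => mul_nonneg (mul_nonneg (by positivity) (hΓ i)) (hρ i)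
    refine h1.trans (key.trans ?_)
    refine (mul_le_mul_of_nonneg_left h2 (mul_nonneg (mul_nonneg (Real.exp_pos _).le h4)
      (Real.exp_pos _).le)).trans (le_of_eq ?_)
    ring
  · intro k hk j' hj'
    have hk' : k ≤ P := hk.le
    have e1 : F.comp (k + 1) j' u = ∑ j ∈ range (m + 1), F.comp (k + 1) j' (F.comp k j u) := by
      conv_lhs => rw [← F.sum_comp hk' u]
      unfold comp
      rw [map_sum, map_sum, ← sum_sub_distrib]
    have e2 : ‖F.Jm (k + 1) (F.comp (k + 1) j' u)‖ ≤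
        ∑ j ∈ range (m + 1), ‖F.Jm (k + 1) (F.comp (k + 1) j' (F.comp k j u))‖ := by
      rw [e1, map_sum]
      exact norm_sum_le _ _
    refine e2.trans ?_
    rw [mul_sum]
    refine sum_le_sum fun j hj => ?_
    rw [mem_range] at hj
    split_ifs with hR
    · have f1 := F.norm_comp (q := k + 1) hk (c := j') (by omega) (F.comp k j u)
      have f2 := F.norm_gate k hk (F.comp k j u)
      have f3 := F.level_growth hk' (c := j) (by omega) u
      have f4 := hG k hk' j (by omega)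
      set X := ‖F.Jp k (F.comp k j u)‖
      set Y := ‖F.Jm k (F.comp k j u)‖
      have hY : 0 ≤ Y := norm_nonneg _
      have f5 : X ≤ (ρ k * Real.exp (β j * T k)) * Y := f3.trans (mul_le_mul_of_nonneg_right f4 hY)
      calc ‖F.Jm (k + 1) (F.comp (k + 1) j' (F.comp k j u))‖
          ≤ 16 * ‖F.Jm (k + 1) (F.comp k j u)‖ := f1
        _ ≤ 16 * (F.Γ k * X) := mul_le_mul_of_nonneg_left f2 (by norm_num)
        _ ≤ 16 * (F.Γ k * ((ρ k * Real.exp (β j * T k)) * Y)) :=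
            mul_le_mul_of_nonneg_left (mul_le_mul_of_nonneg_left f5 (hΓ k)) (by norm_num)
        _ = _ := by ring
    · rw [trans_zero hk (hd k hk) (by omega) (by omega) hR u, map_zero, norm_zero, mul_zero]

end FlagChain

/-! ## The flags of the mixing theorem -/

section Flags

variable {H : Type*} [NormedAddCommGroup H] [InnerProductSpace ℝ H] {N P : ℕ}
  {D : MixData H N P} {κ : Cube P}

/-- designated cut as a number, `0` = none -/
def dNat (D : MixData H N P) (k : ℕ) : ℕ :=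
  if h : k < P then (D.d ⟨k, h⟩).getD 0 else 0

lemma dNat_eq (D : MixData H N P) {k : ℕ} (hk : k < P) {l : ℕ} (hl : 1 ≤ l) :
    dNat D k = l ↔ D.d ⟨k, hk⟩ = some l := by
  rw [dNat, dif_pos hk]
  cases h : D.d ⟨k, hk⟩ with
  | none => simp; omega
  | some a => simp

/-- The flags give a chain. -/
def Flags.toChain (F : Flags D κ) (Γ : ℕ → ℝ) (hΓ : ∀ k : Fin P, D.Γ k ≤ Γ k.1) :
    FlagChain H (Fin N → ℝ) N D.i0 (N - D.i0) P where
  e := D.e
  G := fun q l => Real.exp (D.a l * D.T q + D.ε q)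
  Γ := Γ
  d := dNat D
  Jm := fun q => D.Jm q κ
  Jp := fun q => D.Jp q κ
  V := F.V
  U := F.U
  hN := by have := D.i0_le; omega
  hi0 := D.i0_pos
  finE := by simp
  orth := D.orth
  inj_m := fun q hq u h => D.inj_m q hq κ u h
  V_mono := F.V_mono
  U_anti := F.U_anti
  finrank_V := F.finrank_V
  finrank_U := F.finrank_U
  cone_V := by
    intro q hq l h0 hl u hu
    have h1 := F.cone_V q hq l h0 hl u hu
    have h2 := D.home_cone q hq κ l h0 hl u (h1.trans (by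
      linarith [norm_nonneg (pr D.e l (D.Jp q κ u))]))
    linarith [norm_nonneg (pr D.e l (D.Jm q κ u))]
  cone_U := F.cone_U
  grow := fun q hq l h0 hl u hu => D.home_growth q hq κ l h0 hl u (F.cone_V q hq l h0 hl u hu)
  V_const := by
    intro k hk l h0 hl hne
    refine F.V_const ⟨k, hk⟩ l h0 hl fun h => hne ?_
    exact ((dNat_eq D hk (D.i0_pos.trans h0)).2 h).symm
  U_const := by
    intro k hk l h0 hl hne
    refine F.U_const ⟨k, hk⟩ l h0 hl fun h => hne ?_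
    exact ((dNat_eq D hk (D.i0_pos.trans h0)).2 h).symm
  meet := by
    intro k hk h0 _
    exact F.meet ⟨k, hk⟩ _ ((dNat_eq D hk (D.i0_pos.trans h0)).1 rfl)
  norm_gate := fun k hk u => (D.norm_gate ⟨k, hk⟩ κ u).trans
    (mul_le_mul_of_nonneg_right (hΓ ⟨k, hk⟩) (norm_nonneg _))

/-- **PART A2**: growth of all solutions, in one sector, from the flags.  `M` = number of slots of
a cycle, `off` = offset of the sector, `Γ` = bounds of the gates. -/
theorem Flags.growth (F : Flags D κ) (M off : ℕ) (hM1 : 1 ≤ M) (hM : N - D.i0 ≤ M)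
    (hd : ∀ k : Fin P, D.d k =
      if (k.1 + off) % M < N - D.i0 then some (D.i0 + (k.1 + off) % M) else none)
    (ha : ∀ i j, D.i0 ≤ i → i ≤ j → j ≤ N → D.a i ≤ D.a j)
    (Γ : ℕ → ℝ) (hΓ0 : ∀ k, 0 ≤ Γ k) (hΓ : ∀ k : Fin P, D.Γ k ≤ Γ k.1) :
    ∀ q ≤ P, ∀ u, ‖D.Jm q κ u‖ ≤
      16 * ((N - D.i0 : ℕ) + 1) *
        Real.exp (MP (fun c => D.a (D.i0 + c)) (N - D.i0) M * (D.T q + D.T 0)) *
        (∏ i ∈ range q, (16 * ((N - D.i0 : ℕ) + 1) * Γ i * Real.exp (D.ε i))) *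
        Real.exp (abar (fun c => D.a (D.i0 + c)) (N - D.i0) * ∑ i ∈ range q, D.T i +
          MP (fun c => D.a (D.i0 + c)) (N - D.i0) M * ∑ i ∈ range q, |D.T (i + 1) - D.T i|) *
        ‖D.Jm 0 κ u‖ := by
  intro q hq u
  have hi0 := D.i0_pos
  have hi0N := D.i0_le
  have key := FlagChain.growth (F.toChain Γ hΓ) M off hM1 hM ?_
    (fun c => D.a (D.i0 + c)) ?_ (fun i => if i ≤ P then D.T i else 0)
    (fun i => Real.exp (D.ε i)) ?_ (fun i => (Real.exp_pos _).le) ?_ hΓ0 q hq u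
  · have e1 : ∑ i ∈ range q, (if i ≤ P then D.T i else 0) = ∑ i ∈ range q, D.T i := by
      refine sum_congr rfl fun i hi => ?_
      rw [mem_range] at hi
      rw [if_pos (by omega)]
    have e2 : ∑ i ∈ range q, |(if i + 1 ≤ P then D.T (i + 1) else 0) - (if i ≤ P then D.T i else 0)|
        = ∑ i ∈ range q, |D.T (i + 1) - D.T i| := by
      refine sum_congr rfl fun i hi => ?_
      rw [mem_range] at hi
      rw [if_pos (by omega), if_pos (by omega)]
    simp only [e1, e2, if_pos hq, if_pos (Nat.zero_le P)] at key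
    exact key
  · intro k hk
    have h := hd ⟨k, hk⟩
    simp only at h
    split_ifs with hs
    · rw [if_pos hs] at h
      exact (dNat_eq D hk (by omega)).2 h
    · rw [if_neg hs] at h
      change dNat D k = 0
      rw [dNat, dif_pos hk, h]
      rfl
  · intro i j hij hj
    exact ha _ _ (by omega) (by omega) (by omega)
  · intro i
    split_ifs with h
    · exact (D.T_pos i h).le
    · exact le_rfl
  · intro i hi c _
    rw [if_pos hi]
    change Real.exp (D.a (D.i0 + c) * D.T i + D.ε i) ≤ _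
    rw [← Real.exp_add]
    exact Real.exp_le_exp.2 (by linarith)

end Flags

end

end Crest.Agent.R202.Mix
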