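import Mathlib
import Crest.Agent.R202.MixGrow

/-! # Row 202, PART A3: uniform exponential growth (helper14)

From `Flags.growth` to a bound `C * exp (K * ∑_{i<q} T i)` with `C` independent of the number `P`
of homes, for every `K` larger than the mean exponent. -/

set_option autoImplicit false

open scoped InnerProductSpace Topology
open Filter Finset

namespace Crest.Agent.R202.Mix

/-- summation of an eventual inequality -/
lemma sum_le_of_eventually {f T : ℕ → ℝ} {lam : ℝ} (h : ∀ᶠ i in atTop, f i ≤ lam * T i) :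
    ∃ B : ℝ, 0 ≤ B ∧ ∀ q, ∑ i ∈ range q, f i ≤ lam * ∑ i ∈ range q, T i + B := by
  obtain ⟨n0, hn0⟩ := eventually_atTop.1 h
  refine ⟨∑ i ∈ range n0, |f i - lam * T i|, sum_nonneg fun _ _ => abs_nonneg _, fun q => ?_⟩
  have h1 : ∑ i ∈ range q, (f i - lam * T i) ≤ ∑ i ∈ range n0, |f i - lam * T i| := by
    calc ∑ i ∈ range q, (f i - lam * T i)
        ≤ ∑ i ∈ range q, (if i < n0 then |f i - lam * T i| else 0) := by
          refine sum_le_sum fun i _ => ?_
          split_ifs with hi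
          · exact le_abs_self _
          · linarith [hn0 i (by omega)]
      _ = ∑ i ∈ (range q).filter (· < n0), |f i - lam * T i| := by rw [sum_filter]
      _ ≤ ∑ i ∈ range n0, |f i - lam * T i| := by
          refine sum_le_sum_of_subset_of_nonneg ?_ fun _ _ _ => abs_nonneg _
          intro i hi
          rw [mem_filter] at hi
          exact mem_range.2 hi.2
  rw [sum_sub_distrib, ← mul_sum] at h1
  linarith

/-- `T q` is small compared with the sum of the previous ones -/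
lemma last_le_sum {T : ℕ → ℝ} (hT : ∀ q, 0 < T q)
    (hr : Tendsto (fun q => (T (q + 1) - T q) / T q) atTop (𝓝 0)) {η : ℝ} (hη : 0 < η) :
    ∃ B : ℝ, 0 ≤ B ∧ ∀ q, T q ≤ η * ∑ i ∈ range q, T i + B := by
  have h1 : ∀ᶠ i in atTop, T (i + 1) - T i ≤ η * T i := by
    filter_upwards [hr.eventually (gt_mem_nhds hη)] with i hi
    rw [div_lt_iff₀ (hT i)] at hi
    exact hi.le
  obtain ⟨B, hB, h⟩ := sum_le_of_eventually h1
  refine ⟨B + T 0, add_nonneg hB (hT 0).le, fun q => ?_⟩
  have h2 := h q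
  rw [sum_range_sub] at h2
  linarith

/-- **Asymptotic form of the growth bound.** -/
theorem asym_bound (L Mp ab δ K : ℝ) (hMp : 0 ≤ Mp) (hL : 0 < L) (hK : ab + δ < K)
    {T g : ℕ → ℝ} (hT : ∀ q, 0 < T q) (hTinf : Tendsto T atTop atTop)
    (hr : Tendsto (fun q => (T (q + 1) - T q) / T q) atTop (𝓝 0))
    (hg : Tendsto (fun q => g q / T q) atTop (𝓝 0))
    {ρ : ℕ → ℝ} (hρ0 : ∀ i, 0 ≤ ρ i) (hρ : ∀ i, ρ i ≤ Real.exp (δ * T i + g i)) :
    ∃ C : ℝ, 0 < C ∧ ∀ q, Real.exp (Mp * (T q + T 0)) * (∏ i ∈ range q, (L * ρ i)) *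
      Real.exp (ab * ∑ i ∈ range q, T i + Mp * ∑ i ∈ range q, |T (i + 1) - T i|) ≤
      C * Real.exp (K * ∑ i ∈ range q, T i) := by
  set η : ℝ := (K - ab - δ) / 4 with hη
  have hη0 : 0 < η := by rw [hη]; linarith
  -- the summands
  have h1 : ∀ᶠ i in atTop, Real.log L + (δ * T i + g i) + ab * T i + Mp * |T (i + 1) - T i| ≤
      (ab + δ + 3 * η) * T i := by
    have e1 : Tendsto (fun i => Real.log L / T i) atTop (𝓝 0) :=
      Tendsto.div_atTop tendsto_const_nhds hTinf
    have e2 : Tendsto (fun q => Mp * |(T (q + 1) - T q) / T q|) atTop (𝓝 0) := by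
      have := (hr.abs.const_mul Mp)
      simpa using this
    filter_upwards [e1.eventually (gt_mem_nhds hη0), e2.eventually (gt_mem_nhds hη0),
      hg.eventually (gt_mem_nhds hη0)] with i h1 h2 h3
    have hTi := hT i
    rw [div_lt_iff₀ hTi] at h1 h3
    rw [abs_div, abs_of_pos hTi, ← mul_div_assoc, div_lt_iff₀ hTi] at h2
    linarith
  obtain ⟨B1, hB1, hs⟩ := sum_le_of_eventually h1
  obtain ⟨B2, hB2, hl⟩ := last_le_sum hT hr (η := η / (Mp + 1)) (by positivity)
  refine ⟨Real.exp (B1 + Mp * B2 + Mp * T 0), Real.exp_pos _, fun q => ?_⟩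
  have hp : ∏ i ∈ range q, (L * ρ i) ≤
      Real.exp (∑ i ∈ range q, (Real.log L + (δ * T i + g i))) := by
    rw [Real.exp_sum]
    refine prod_le_prod (fun i _ => mul_nonneg hL.le (hρ0 i)) fun i _ => ?_
    rw [Real.exp_add, Real.exp_log hL]
    exact mul_le_mul_of_nonneg_left (hρ i) hL.le
  have hS0 : 0 ≤ ∑ i ∈ range q, T i := sum_nonneg fun i _ => (hT i).le
  have hTq : Mp * T q ≤ η * ∑ i ∈ range q, T i + Mp * B2 := by
    have h2 := mul_le_mul_of_nonneg_left (hl q) hMp
    have h3 : Mp * (η / (Mp + 1) * ∑ i ∈ range q, T i) ≤ η * ∑ i ∈ range q, T i := by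
      have h4 : Mp / (Mp + 1) ≤ 1 := by rw [div_le_one (by linarith)]; linarith
      have h5 : 0 ≤ η * ∑ i ∈ range q, T i := mul_nonneg hη0.le hS0
      calc Mp * (η / (Mp + 1) * ∑ i ∈ range q, T i)
          = Mp / (Mp + 1) * (η * ∑ i ∈ range q, T i) := by ring
        _ ≤ 1 * (η * ∑ i ∈ range q, T i) := mul_le_mul_of_nonneg_right h4 h5
        _ = _ := one_mul _
    linarith
  calc Real.exp (Mp * (T q + T 0)) * (∏ i ∈ range q, (L * ρ i)) *
      Real.exp (ab * ∑ i ∈ range q, T i + Mp * ∑ i ∈ range q, |T (i + 1) - T i|)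
      ≤ Real.exp (Mp * (T q + T 0)) *
        Real.exp (∑ i ∈ range q, (Real.log L + (δ * T i + g i))) *
        Real.exp (ab * ∑ i ∈ range q, T i + Mp * ∑ i ∈ range q, |T (i + 1) - T i|) := by
        gcongr
    _ = Real.exp (Mp * (T q + T 0) + ∑ i ∈ range q, (Real.log L + (δ * T i + g i) + ab * T i +
          Mp * |T (i + 1) - T i|)) := by
        rw [← Real.exp_add, ← Real.exp_add]
        congr 1
        have : ∑ i ∈ range q, (Real.log L + (δ * T i + g i) + ab * T i +
          Mp * |T (i + 1) - T i|) = ∑ i ∈ range q, (Real.log L + (δ * T i + g i)) +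
            (ab * ∑ i ∈ range q, T i + Mp * ∑ i ∈ range q, |T (i + 1) - T i|) := by
          rw [mul_sum, mul_sum, ← sum_add_distrib, ← sum_add_distrib]
          exact sum_congr rfl fun i _ => by ring
        rw [this]
        ring
    _ ≤ Real.exp ((B1 + Mp * B2 + Mp * T 0) + K * ∑ i ∈ range q, T i) := by
        refine Real.exp_le_exp.2 ?_
        have h2 := hs q
        have h6 : K = ab + δ + 4 * η := by rw [hη]; ring
        rw [h6]
        nlinarith
    _ = _ := by rw [Real.exp_add]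

/-- Fixed data of a sector (independent of the number of homes). -/
structure SecData where
  /-- number of modes -/
  N : ℕ
  /-- first cut -/
  i0 : ℕ
  /-- exponents of the cuts -/
  a : ℕ → ℝ
  /-- offset of the sector in the schedule -/
  off : ℕ
  i0_pos : 1 ≤ i0
  i0_le : i0 ≤ N
  mono : ∀ i j, i0 ≤ i → i ≤ j → j ≤ N → a i ≤ a j

/-- the mean of the exponents of the cuts `i0, …, N` -/
noncomputable def SecData.mean (s : SecData) : ℝ :=
  (∑ c ∈ range (s.N - s.i0 + 1), s.a (s.i0 + c)) / ((s.N - s.i0 : ℕ) + 1)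

/-- Fixed schedule (independent of the number of homes). -/
structure Sched where
  /-- lengths of the homes -/
  T : ℕ → ℝ
  /-- errors -/
  ε : ℕ → ℝ
  /-- bounds of the gates -/
  Γ : ℕ → ℝ
  /-- small exponent -/
  δ : ℝ
  /-- lower order terms -/
  g : ℕ → ℝ
  /-- number of slots of a cycle -/
  M : ℕ
  M_pos : 1 ≤ M
  T_pos : ∀ q, 0 < T q
  T_inf : Tendsto T atTop atTop
  T_rel : Tendsto (fun q => (T (q + 1) - T q) / T q) atTop (𝓝 0)
  g_rel : Tendsto (fun q => g q / T q) atTop (𝓝 0)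
  Γ_ge : ∀ q, 1 ≤ Γ q
  rate : ∀ q, Γ q * Real.exp (ε q) ≤ Real.exp (δ * T q + g q)

/-- `D` is an instance of the sector `s` with the schedule `S`. -/
structure Fits {H : Type*} [NormedAddCommGroup H] [InnerProductSpace ℝ H] (s : SecData) (S : Sched)
    {P : ℕ} (D : MixData H s.N P) : Prop where
  i0 : D.i0 = s.i0
  a : ∀ l, s.i0 ≤ l → l ≤ s.N → D.a l = s.a l
  T : ∀ q, q ≤ P → D.T q = S.T q
  ε : ∀ q, q ≤ P → D.ε q = S.ε q
  Γ : ∀ k : Fin P, D.Γ k ≤ S.Γ k.1
  d : ∀ k : Fin P, D.d k =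
    if (k.1 + s.off) % S.M < s.N - s.i0 then some (s.i0 + (k.1 + s.off) % S.M) else none

lemma MP_congr {β β' : ℕ → ℝ} {m M : ℕ} (h : ∀ c ≤ m, β c = β' c) : MP β m M = MP β' m M := by
  have h1 : abar β m = abar β' m := by
    unfold abar
    congr 1
    refine sum_congr rfl fun c hc => h c ?_
    rw [mem_range] at hc
    omega
  unfold MP
  refine sum_congr rfl fun c hc => sum_congr rfl fun s _ => ?_
  rw [mem_range] at hc
  have h2 : bt β m c = bt β' m c := by rw [bt, bt, h1, h c (by omega)]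
  have h3 : SS β m c = SS β' m c := by
    unfold SS
    refine sum_congr rfl fun i hi => ?_
    rw [mem_range] at hi
    rw [bt, bt, h1, h i (by omega)]
  unfold Ph
  rw [h2, h3]

lemma abar_congr {β β' : ℕ → ℝ} {m : ℕ} (h : ∀ c ≤ m, β c = β' c) : abar β m = abar β' m := by
  unfold abar
  congr 1
  refine sum_congr rfl fun c hc => h c ?_
  rw [mem_range] at hc
  omega

/-- **Uniform growth** in one sector: the constant does not depend on the number of homes, on the
space `H`, on the data nor on the parameter. -/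
theorem uniform_growth (s : SecData) (S : Sched) (hM : s.N - s.i0 ≤ S.M) {K : ℝ}
    (hK : s.mean + S.δ < K) :
    ∃ C : ℝ, 0 < C ∧ ∀ (H : Type*) [NormedAddCommGroup H] [InnerProductSpace ℝ H] (P : ℕ)
      (D : MixData H s.N P) (_ : Fits s S D) (κ : Cube P) (_ : Flags D κ),
      ∀ q ≤ P, ∀ u, ‖D.Jm q κ u‖ ≤ C * Real.exp (K * ∑ i ∈ range q, S.T i) * ‖D.Jm 0 κ u‖ ∧
        ‖D.Jp q κ u‖ ≤ C * Real.exp (K * ∑ i ∈ range q, S.T i) * ‖D.Jm 0 κ u‖ := by
  set m := s.N - s.i0 with hm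
  set β : ℕ → ℝ := fun c => s.a (s.i0 + c) with hβ
  set K' : ℝ := (s.mean + S.δ + K) / 2 with hK'
  have hKK' : K' < K := by rw [hK']; linarith
  have hmean : s.mean = abar β m := rfl
  obtain ⟨C0, hC0, h0⟩ := asym_bound (16 * ((m : ℝ) + 1)) (MP β m S.M) (abar β m) S.δ K' MP_nonneg
    (by positivity) (by rw [← hmean, hK']; linarith) S.T_pos S.T_inf S.T_rel S.g_rel
    (ρ := fun i => S.Γ i * Real.exp (S.ε i))
    (fun i => mul_nonneg (zero_le_one.trans (S.Γ_ge i)) (Real.exp_pos _).le) S.rate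
  -- the last home
  have hlast : ∃ B : ℝ, 0 ≤ B ∧ ∀ q, s.a s.N * S.T q + S.ε q ≤
      (K - K') * ∑ i ∈ range q, S.T i + B := by
    have e1 : ∀ᶠ q in atTop, S.g q ≤ 1 * S.T q := by
      filter_upwards [S.g_rel.eventually (gt_mem_nhds one_pos)] with q hq
      rw [div_lt_iff₀ (S.T_pos q)] at hq
      exact hq.le
    obtain ⟨n0, hn0⟩ := eventually_atTop.1 e1
    have e2 : ∀ q, S.g q ≤ S.T q + ∑ i ∈ range n0, |S.g i| := by
      intro q
      by_cases hq : n0 ≤ q
      · have := hn0 q hq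
        have h2 : 0 ≤ ∑ i ∈ range n0, |S.g i| := sum_nonneg fun _ _ => abs_nonneg _
        linarith
      · have h2 : |S.g q| ≤ ∑ i ∈ range n0, |S.g i| :=
          single_le_sum (f := fun i => |S.g i|) (fun _ _ => abs_nonneg _)
            (mem_range.2 (by omega))
        have h3 := le_abs_self (S.g q)
        have h4 := (S.T_pos q).le
        linarith
    have e3 : ∀ q, S.ε q ≤ S.δ * S.T q + S.g q := by
      intro q
      have h1 : Real.exp (S.ε q) ≤ Real.exp (S.δ * S.T q + S.g q) := by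
        refine le_trans ?_ (S.rate q)
        exact le_mul_of_one_le_left (Real.exp_pos _).le (S.Γ_ge q)
      exact Real.exp_le_exp.1 h1
    set A : ℝ := |s.a s.N| + |S.δ| + 1 with hA
    have hA0 : 0 < A := by positivity
    obtain ⟨B, hB, hl⟩ := last_le_sum S.T_pos S.T_rel (η := (K - K') / A)
      (div_pos (by linarith) hA0)
    refine ⟨A * B + ∑ i ∈ range n0, |S.g i|,
      add_nonneg (mul_nonneg hA0.le hB) (sum_nonneg fun _ _ => abs_nonneg _), fun q => ?_⟩
    have hT := (S.T_pos q).le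
    have f1 : s.a s.N * S.T q + S.ε q ≤ A * S.T q + ∑ i ∈ range n0, |S.g i| := by
      have g1 : s.a s.N * S.T q ≤ |s.a s.N| * S.T q :=
        mul_le_mul_of_nonneg_right (le_abs_self _) hT
      have g2 : S.δ * S.T q ≤ |S.δ| * S.T q := mul_le_mul_of_nonneg_right (le_abs_self _) hT
      have g3 := e2 q
      have g4 := e3 q
      rw [hA]
      linarith
    have f2 := mul_le_mul_of_nonneg_left (hl q) hA0.le
    have f3 : A * ((K - K') / A * ∑ i ∈ range q, S.T i + B) =
        (K - K') * ∑ i ∈ range q, S.T i + A * B := by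
      field_simp
    linarith
  obtain ⟨B, hB, hlast⟩ := hlast
  refine ⟨16 * ((m : ℝ) + 1) * C0 * Real.exp B, by positivity, ?_⟩
  intro H _ _ P D hf κ F q hq u
  have hi0 := hf.i0
  have hNm : s.N - D.i0 = m := by rw [hi0]
  have hβD : ∀ c ≤ m, D.a (D.i0 + c) = β c := by
    intro c hc
    rw [hi0, hf.a _ (by omega) (by have := s.i0_le; omega)]
  have hMPD : MP (fun c => D.a (D.i0 + c)) m S.M = MP β m S.M := MP_congr hβD
  have habD : abar (fun c => D.a (D.i0 + c)) m = abar β m := abar_congr hβD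
  have key := F.growth S.M s.off S.M_pos (by rw [hNm]; exact hM)
    (by intro k; rw [hf.d k, hi0])
    (by
      intro i j h1 h2 h3
      rw [hi0] at h1
      rw [hf.a i h1 (by omega), hf.a j (by omega) h3]
      exact s.mono i j h1 h2 h3)
    S.Γ (fun k => zero_le_one.trans (S.Γ_ge k)) hf.Γ q hq u
  rw [hNm, hMPD, habD] at key
  have hS0 : 0 ≤ ∑ i ∈ range q, S.T i := sum_nonneg fun i _ => (S.T_pos i).le
  have e1 : ∑ i ∈ range q, D.T i = ∑ i ∈ range q, S.T i := by
    refine sum_congr rfl fun i hi => ?_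
    rw [mem_range] at hi
    exact hf.T i (by omega)
  have e2 : ∑ i ∈ range q, |D.T (i + 1) - D.T i| = ∑ i ∈ range q, |S.T (i + 1) - S.T i| := by
    refine sum_congr rfl fun i hi => ?_
    rw [mem_range] at hi
    rw [hf.T i (by omega), hf.T (i + 1) (by omega)]
  have e3 : ∏ i ∈ range q, (16 * ((m : ℝ) + 1) * S.Γ i * Real.exp (D.ε i)) =
      ∏ i ∈ range q, (16 * ((m : ℝ) + 1) * (S.Γ i * Real.exp (S.ε i))) := by
    refine prod_congr rfl fun i hi => ?_
    rw [mem_range] at hi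
    rw [hf.ε i (by omega)]
    ring
  rw [e1, e2, e3, hf.T q hq, hf.T 0 (Nat.zero_le _)] at key
  have h0q := h0 q
  have hJ0 : 0 ≤ ‖D.Jm 0 κ u‖ := norm_nonneg _
  have hm0 : 0 ≤ 16 * ((m : ℝ) + 1) := by positivity
  have hJm : ‖D.Jm q κ u‖ ≤ 16 * ((m : ℝ) + 1) * C0 * Real.exp (K' * ∑ i ∈ range q, S.T i) *
      ‖D.Jm 0 κ u‖ := by
    refine key.trans ?_
    refine mul_le_mul_of_nonneg_right ?_ hJ0
    have := mul_le_mul_of_nonneg_left h0q hm0
    linarith
  constructor
  · refine hJm.trans (mul_le_mul_of_nonneg_right ?_ hJ0)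
    have f1 : Real.exp (K' * ∑ i ∈ range q, S.T i) ≤ Real.exp (K * ∑ i ∈ range q, S.T i) :=
      Real.exp_le_exp.2 (mul_le_mul_of_nonneg_right hKK'.le hS0)
    have f2 : 1 ≤ Real.exp B := Real.one_le_exp hB
    calc 16 * ((m : ℝ) + 1) * C0 * Real.exp (K' * ∑ i ∈ range q, S.T i)
        ≤ 16 * ((m : ℝ) + 1) * C0 * Real.exp (K * ∑ i ∈ range q, S.T i) :=
          mul_le_mul_of_nonneg_left f1 (by positivity)
      _ = 16 * ((m : ℝ) + 1) * C0 * 1 * Real.exp (K * ∑ i ∈ range q, S.T i) := by ring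
      _ ≤ 16 * ((m : ℝ) + 1) * C0 * Real.exp B * Real.exp (K * ∑ i ∈ range q, S.T i) := by
          gcongr
  · have hc := D.coneN_p q hq κ u
    have hg := D.home_growth q hq κ s.N D.i0_le le_rfl u
      (hc.trans (by linarith [norm_nonneg (pr D.e s.N (D.Jp q κ u))]))
    rw [hf.a s.N s.i0_le le_rfl, hf.T q hq, hf.ε q hq] at hg
    have f1 : Real.exp (s.a s.N * S.T q + S.ε q) ≤
        Real.exp ((K - K') * ∑ i ∈ range q, S.T i) * Real.exp B := by
      rw [← Real.exp_add]
      exact Real.exp_le_exp.2 (hlast q)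
    calc ‖D.Jp q κ u‖ ≤ Real.exp (s.a s.N * S.T q + S.ε q) * ‖D.Jm q κ u‖ := hg
      _ ≤ (Real.exp ((K - K') * ∑ i ∈ range q, S.T i) * Real.exp B) *
          (16 * ((m : ℝ) + 1) * C0 * Real.exp (K' * ∑ i ∈ range q, S.T i) * ‖D.Jm 0 κ u‖) :=
          mul_le_mul f1 hJm (norm_nonneg _) (by positivity)
      _ = 16 * ((m : ℝ) + 1) * C0 * Real.exp B * (Real.exp ((K - K') * ∑ i ∈ range q, S.T i) *
          Real.exp (K' * ∑ i ∈ range q, S.T i)) * ‖D.Jm 0 κ u‖ := by ring
      _ = _ := by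
          rw [← Real.exp_add]
          congr 3
          ring

end Crest.Agent.R202.Mix
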