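import Mathlib
import Crest.Agent.R202.MixDefs

/-! # Row 202, PART A1: linear algebra of frames (helper206) -/

set_option autoImplicit false

open Set
open scoped InnerProductSpace

namespace Crest.Agent.R202.Mix

section Frames

variable {N : ℕ} {E : Type*} [AddCommGroup E] [Module ℝ E]

/-- Span of the frame vectors with index in `S`. -/
def sp (v : Fin N → E) (S : Set (Fin N)) : Submodule ℝ E := Submodule.span ℝ (v '' S)

theorem mem_sp_iff (v : Fin N → E) (S : Set (Fin N)) (x : E) :
    x ∈ sp v S ↔ ∃ c : Fin N → ℝ, (∀ j, j ∉ S → c j = 0) ∧ ∑ j, c j • v j = x := by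
  classical
  constructor
  · intro hx
    refine Submodule.span_induction (p := fun y _ => ∃ c : Fin N → ℝ, (∀ j, j ∉ S → c j = 0) ∧
      ∑ j, c j • v j = y) ?_ ?_ ?_ ?_ hx
    · rintro _ ⟨i, hi, rfl⟩
      refine ⟨Pi.single i 1, ?_, ?_⟩
      · intro j hj
        have : j ≠ i := fun h => hj (h ▸ hi)
        simp [this]
      · rw [Finset.sum_eq_single i]
        · simp
        · intro j _ hj; simp [hj]
        · intro h; exact absurd (Finset.mem_univ i) h
    · exact ⟨0, fun _ _ => rfl, by simp⟩
    · rintro a b _ _ ⟨c, hc, rfl⟩ ⟨c', hc', rfl⟩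
      refine ⟨c + c', fun j hj => by simp [hc j hj, hc' j hj], ?_⟩
      rw [← Finset.sum_add_distrib]
      refine Finset.sum_congr rfl fun j _ => ?_
      rw [Pi.add_apply, add_smul]
    · rintro t a _ ⟨c, hc, rfl⟩
      refine ⟨t • c, fun j hj => by simp [hc j hj], ?_⟩
      rw [Finset.smul_sum]
      refine Finset.sum_congr rfl fun j _ => ?_
      rw [Pi.smul_apply, smul_eq_mul, mul_smul]
  · rintro ⟨c, hc, rfl⟩
    refine Submodule.sum_mem _ fun j _ => ?_
    by_cases hj : j ∈ S
    · exact Submodule.smul_mem _ _ (Submodule.subset_span ⟨j, hj, rfl⟩)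
    · rw [hc j hj, zero_smul]; exact Submodule.zero_mem _

theorem sum_mem_sp (v : Fin N → E) (S : Set (Fin N)) (c : Fin N → ℝ) (hc : ∀ j, j ∉ S → c j = 0) :
    ∑ j, c j • v j ∈ sp v S := (mem_sp_iff v S _).2 ⟨c, hc, rfl⟩

theorem sp_mono (v : Fin N → E) {S R : Set (Fin N)} (h : S ⊆ R) : sp v S ≤ sp v R :=
  Submodule.span_mono (Set.image_mono h)

theorem mem_sp_of_mem (v : Fin N → E) {S : Set (Fin N)} {j : Fin N} (h : j ∈ S) : v j ∈ sp v S :=
  Submodule.subset_span ⟨j, h, rfl⟩

theorem finrank_sp (v : Fin N → E) (hv : LinearIndependent ℝ v) (S : Set (Fin N)) [Fintype S] :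
    Module.finrank ℝ (sp v S) = Fintype.card S := by
  have h1 : LinearIndependent ℝ (fun j : S => v j) := hv.comp _ Subtype.val_injective
  have h2 := finrank_span_eq_card h1
  have h3 : Set.range (fun j : S => v j) = v '' S := by
    rw [Set.image_eq_range]
  rw [h3] at h2
  exact h2

theorem exchange (v : Fin N → E) (hv : LinearIndependent ℝ v) (S B : Set (Fin N))
    [DecidablePred (· ∈ B)] (hSB : ∀ i ∈ S, i ∉ B) (φ : Fin N → E →ₗ[ℝ] ℝ) (z : Fin N → E)
    (hz : ∀ j ∈ B, z j ∈ sp v (S ∪ B))
    (h1 : ∀ i ∈ B, ∀ j ∈ B, φ i (z j) = if i = j then 1 else 0)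
    (h5 : ∀ i ∈ S, ∀ j ∈ B, φ i (z j) = 0)
    (h7 : ∀ y ∈ sp v S, (∀ i ∈ S, φ i y = 0) → y = 0) :
    LinearIndependent ℝ (fun j => if j ∈ B then z j else v j) ∧
    ∀ R : Set (Fin N), S ⊆ R → B ⊆ R →
      sp (fun j => if j ∈ B then z j else v j) R = sp v R := by
  classical
  set v' : Fin N → E := fun j => if j ∈ B then z j else v j with hv'
  have hvB : ∀ j ∈ B, v' j = z j := fun j hj => by simp [hv', hj]
  have hvo : ∀ j, j ∉ B → v' j = v j := fun j hj => by simp [hv', hj]
  have hind : LinearIndependent ℝ v' := by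
    rw [Fintype.linearIndependent_iff]
    intro g hg
    set g' : Fin N → ℝ := fun i => if i ∈ B then 0 else g i with hg'
    set x : E := ∑ j, (if j ∈ B then g j • z j else 0) with hx
    have hsum : ∑ i, g' i • v i + x = 0 := by
      rw [← hg, hx, ← Finset.sum_add_distrib]
      refine Finset.sum_congr rfl fun i _ => ?_
      by_cases hi : i ∈ B
      · simp [hg', hi, hvB i hi]
      · simp [hg', hi, hvo i hi]
    have hxm : x ∈ sp v (S ∪ B) := by
      rw [hx]
      refine Submodule.sum_mem _ fun j _ => ?_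
      split_ifs with hj
      · exact Submodule.smul_mem _ _ (hz j hj)
      · exact Submodule.zero_mem _
    obtain ⟨c, hc, hc'⟩ := (mem_sp_iff _ _ _).1 hxm
    have hcoef : ∑ i, (g' i + c i) • v i = 0 := by
      rw [← hsum, ← hc', ← Finset.sum_add_distrib]
      exact Finset.sum_congr rfl fun i _ => add_smul _ _ _
    have hzero := (Fintype.linearIndependent_iff.1 hv) _ hcoef
    have hout : ∀ i, i ∉ S → g' i = 0 := by
      intro i hi
      by_cases hb : i ∈ B
      · simp [hg', hb]
      · have := hzero i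
        rw [hc i (by simp [hi, hb])] at this
        simpa using this
    have hyS : ∑ i, g' i • v i ∈ sp v S := sum_mem_sp v S g' hout
    have hφx : ∀ i ∈ S, φ i x = 0 := by
      intro i hi
      rw [hx, map_sum]
      refine Finset.sum_eq_zero fun j _ => ?_
      split_ifs with hj
      · rw [map_smul, h5 i hi j hj, smul_zero]
      · exact map_zero _
    have hy0 : ∑ i, g' i • v i = 0 := by
      refine h7 _ hyS fun i hi => ?_
      have := congrArg (φ i) hsum
      rw [map_add, hφx i hi, map_zero, add_zero] at this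
      exact this
    have hg'0 := (Fintype.linearIndependent_iff.1 hv) _ hy0
    rw [hy0, zero_add] at hsum
    intro i
    by_cases hi : i ∈ B
    · have h2 := congrArg (φ i) hsum
      rw [hx, map_sum, map_zero, Finset.sum_eq_single i] at h2
      · rw [if_pos hi, map_smul, h1 i hi i hi, if_pos rfl, smul_eq_mul, mul_one] at h2
        exact h2
      · intro j _ hj
        split_ifs with hjB
        · rw [map_smul, h1 i hi j hjB, if_neg (Ne.symm hj), smul_zero]
        · exact map_zero _
      · intro h; exact absurd (Finset.mem_univ i) h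
    · have := hg'0 i
      simpa [hg', hi] using this
  refine ⟨hind, fun R hSR hBR => ?_⟩
  have hsub : S ∪ B ⊆ R := Set.union_subset hSR hBR
  have hle : sp v' R ≤ sp v R := by
    refine Submodule.span_le.2 ?_
    rintro _ ⟨i, hi, rfl⟩
    by_cases hb : i ∈ B
    · rw [SetLike.mem_coe, hvB i hb]; exact sp_mono v hsub (hz i hb)
    · rw [SetLike.mem_coe, hvo i hb]; exact mem_sp_of_mem v hi
  have : Fintype R := Fintype.ofFinite R
  have : Module.Finite ℝ (sp v R) := by
    unfold sp
    exact Module.Finite.span_of_finite ℝ (Set.toFinite _)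
  exact Submodule.eq_of_le_of_finrank_eq hle (by rw [finrank_sp v' hind, finrank_sp v hv])

end Frames

section Solve

variable {N : ℕ}

/-- The solution of the linear system `G c = b` by Cramer's rule. -/
noncomputable def sol (G : Matrix (Fin N) (Fin N) ℝ) (b : Fin N → ℝ) : Fin N → ℝ :=
  (G.det)⁻¹ • G.cramer b

theorem mulVec_sol (G : Matrix (Fin N) (Fin N) ℝ) (hG : G.det ≠ 0) (b : Fin N → ℝ) :
    G.mulVec (sol G b) = b := by
  rw [sol, Matrix.mulVec_smul, Matrix.mulVec_cramer, smul_smul, inv_mul_cancel₀ hG, one_smul]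

theorem continuous_sol {X : Type*} [TopologicalSpace X] (G : X → Matrix (Fin N) (Fin N) ℝ)
    (hG : Continuous G) (hd : ∀ x, (G x).det ≠ 0) (b : Fin N → ℝ) (j : Fin N) :
    Continuous fun x => sol (G x) b j := by
  have h1 : Continuous fun x => (G x).det := hG.matrix_det
  have h2 : Continuous fun x => (G x).cramer b j := by
    simp only [Matrix.cramer_apply]
    exact (hG.matrix_updateCol j continuous_const).matrix_det
  have : (fun x => sol (G x) b j) = fun x => ((G x).det)⁻¹ * (G x).cramer b j := by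
    funext x; simp [sol]
  rw [this]
  exact (h1.inv₀ hd).mul h2

/-- General block matrix: `a` on `S × S`, identity elsewhere. -/
def blkS (S : Set (Fin N)) [DecidablePred (· ∈ S)] (a : Fin N → Fin N → ℝ) :
    Matrix (Fin N) (Fin N) ℝ :=
  fun i j => if i ∈ S ∧ j ∈ S then a i j else if i = j then 1 else 0

theorem blk_eq_blkS (d : ℕ) (a : Fin N → Fin N → ℝ) : blk d a = blkS {j : Fin N | j.1 < d} a := by
  funext i j
  simp [blk, blkS]

theorem continuous_blkS {X : Type*} [TopologicalSpace X] (S : Set (Fin N)) [DecidablePred (· ∈ S)]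
    (a : X → Fin N → Fin N → ℝ) (ha : ∀ i j, Continuous fun x => a x i j) :
    Continuous fun x => blkS S (a x) := by
  refine continuous_pi fun i => continuous_pi fun j => ?_
  unfold blkS
  by_cases h : i ∈ S ∧ j ∈ S
  · simp only [h, if_true, and_self]; exact ha i j
  · simp only [h, if_false]; exact continuous_const

theorem blkS_mulVec_mem (S : Set (Fin N)) [DecidablePred (· ∈ S)] (a : Fin N → Fin N → ℝ)
    (c : Fin N → ℝ) (i : Fin N) (hi : i ∈ S) (hc : ∀ j, j ∉ S → c j = 0) :
    (blkS S a).mulVec c i = ∑ j, c j * a i j := by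
  rw [Matrix.mulVec, dotProduct]
  refine Finset.sum_congr rfl fun j _ => ?_
  by_cases hj : j ∈ S
  · simp [blkS, hi, hj, mul_comm]
  · simp [hc j hj]

theorem blkS_mulVec_notMem (S : Set (Fin N)) [DecidablePred (· ∈ S)] (a : Fin N → Fin N → ℝ)
    (c : Fin N → ℝ) (i : Fin N) (hi : i ∉ S) :
    (blkS S a).mulVec c i = c i := by
  rw [Matrix.mulVec, dotProduct, Finset.sum_eq_single i]
  · simp [blkS, hi]
  · intro j _ hj
    simp [blkS, hi, Ne.symm hj]
  · intro h; exact absurd (Finset.mem_univ i) h

theorem blkS_det_ne_zero (S : Set (Fin N)) [DecidablePred (· ∈ S)] (a : Fin N → Fin N → ℝ)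
    (h : ∀ c : Fin N → ℝ, (∀ j, j ∉ S → c j = 0) → (∀ i ∈ S, ∑ j, c j * a i j = 0) → c = 0) :
    (blkS S a).det ≠ 0 := by
  intro hdet
  obtain ⟨c, hc, hc0⟩ := Matrix.exists_mulVec_eq_zero_iff.2 hdet
  refine hc ?_
  have hout : ∀ j, j ∉ S → c j = 0 := by
    intro j hj
    rw [← blkS_mulVec_notMem S a c j hj, hc0]; rfl
  refine h c hout fun i hi => ?_
  rw [← blkS_mulVec_mem S a c i hi hout, hc0]; rfl

theorem sol_notMem (S : Set (Fin N)) [DecidablePred (· ∈ S)] (a : Fin N → Fin N → ℝ)
    (hdet : (blkS S a).det ≠ 0) (m : Fin N) (hm : m ∈ S) (j : Fin N) (hj : j ∉ S) :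
    sol (blkS S a) (Pi.single m 1) j = 0 := by
  have h1 := blkS_mulVec_notMem S a (sol (blkS S a) (Pi.single m 1)) j hj
  rw [mulVec_sol _ hdet] at h1
  have : j ≠ m := fun h => hj (h ▸ hm)
  rw [← h1]
  simp [this]

theorem sol_mem (S : Set (Fin N)) [DecidablePred (· ∈ S)] (a : Fin N → Fin N → ℝ)
    (hdet : (blkS S a).det ≠ 0) (m : Fin N) (hm : m ∈ S) (i : Fin N) (hi : i ∈ S) :
    ∑ j, sol (blkS S a) (Pi.single m 1) j * a i j = if i = m then 1 else 0 := by
  have h1 := blkS_mulVec_mem S a (sol (blkS S a) (Pi.single m 1)) i hi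
    (fun j hj => sol_notMem S a hdet m hm j hj)
  rw [mulVec_sol _ hdet] at h1
  rw [← h1]
  by_cases h : i = m
  · subst h; simp
  · simp [h]

/-- Sign of the determinant of a matrix whose columns are transversal. -/
theorem det_block_sign (S : Set (Fin N)) [DecidablePred (· ∈ S)] (M : Matrix (Fin N) (Fin N) ℝ)
    (h : ∀ s ∈ Set.Icc (0 : ℝ) 1, ∀ c : Fin N → ℝ,
      (∀ i ∈ S, ∑ j, (if j ∈ S then M i j * c j else s * M i j * c j) = 0) →
      (∀ i, i ∉ S → ∑ j, (if j ∈ S then s * M i j * c j else M i j * c j) = 0) → c = 0) :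
    0 < M.det * (blkS S M).det * (blkS Sᶜ M).det := by
  classical
  let W : ℝ → Matrix (Fin N) (Fin N) ℝ := fun s i j =>
    if (i ∈ S ∧ j ∈ S) ∨ (i ∉ S ∧ j ∉ S) then M i j else s * M i j
  have hWc : Continuous W := by
    refine continuous_pi fun i => continuous_pi fun j => ?_
    simp only [W]
    by_cases hh : (i ∈ S ∧ j ∈ S) ∨ (i ∉ S ∧ j ∉ S)
    · simp only [hh, if_true]; exact continuous_const
    · simp only [hh, if_false]; exact continuous_id.mul continuous_const
  have hW1 : W 1 = M := by
    funext i j; simp [W]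
  have hW0 : W 0 = blkS S M * blkS Sᶜ M := by
    funext i j
    rw [Matrix.mul_apply]
    by_cases hi : i ∈ S
    · by_cases hj : j ∈ S
      · rw [Finset.sum_eq_single j]
        · simp [W, blkS, hi, hj]
        · intro k _ hk
          by_cases hkS : k ∈ S
          · simp [blkS, hkS, hk]
          · have : i ≠ k := fun h => hkS (h ▸ hi)
            simp [blkS, hkS, this]
        · intro h; exact absurd (Finset.mem_univ j) h
      · rw [Finset.sum_eq_zero]
        · simp [W, hi, hj]
        · intro k _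
          by_cases hkS : k ∈ S
          · have : k ≠ j := fun h => hj (h ▸ hkS)
            simp [blkS, hkS, this]
          · have : i ≠ k := fun h => hkS (h ▸ hi)
            simp [blkS, hkS, this]
    · rw [Finset.sum_eq_single i]
      · by_cases hj : j ∈ S
        · have : i ≠ j := fun h => hi (h ▸ hj)
          simp [W, blkS, hi, hj, this]
        · simp [W, blkS, hi, hj]
      · intro k _ hk
        simp [blkS, hi, Ne.symm hk]
      · intro h; exact absurd (Finset.mem_univ i) h
  have hne : ∀ s ∈ Set.Icc (0 : ℝ) 1, (W s).det ≠ 0 := by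
    intro s hs hdet
    obtain ⟨c, hc, hc0⟩ := Matrix.exists_mulVec_eq_zero_iff.2 hdet
    refine hc (h s hs c ?_ ?_)
    · intro i hi
      have := congrFun hc0 i
      rw [Matrix.mulVec, dotProduct, Pi.zero_apply] at this
      rw [← this]
      refine Finset.sum_congr rfl fun j _ => ?_
      by_cases hj : j ∈ S <;> simp [W, hi, hj]
    · intro i hi
      have := congrFun hc0 i
      rw [Matrix.mulVec, dotProduct, Pi.zero_apply] at this
      rw [← this]
      refine Finset.sum_congr rfl fun j _ => ?_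
      by_cases hj : j ∈ S <;> simp [W, hi, hj]
  have hdc : Continuous fun s => (W s).det := hWc.matrix_det
  have h0 : (W 0).det = (blkS S M).det * (blkS Sᶜ M).det := by rw [hW0, Matrix.det_mul]
  have h1 : (W 1).det = M.det := by rw [hW1]
  have hne0 := hne 0 ⟨le_refl _, zero_le_one⟩
  have hne1 := hne 1 ⟨zero_le_one, le_refl _⟩
  have hsame : 0 < (W 1).det * (W 0).det := by
    by_contra hcon
    push Not at hcon
    have hneg : (W 1).det * (W 0).det < 0 := lt_of_le_of_ne hcon (mul_ne_zero hne1 hne0)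
    rcases lt_or_gt_of_ne hne0 with hlt | hgt
    · have hp : 0 < (W 1).det := by
        by_contra hq; push Not at hq
        have := mul_nonneg_of_nonpos_of_nonpos hq hlt.le
        linarith
      obtain ⟨s, hs, hs0⟩ := intermediate_value_Icc (zero_le_one) hdc.continuousOn
        (show (0 : ℝ) ∈ Set.Icc (W 0).det (W 1).det from ⟨hlt.le, hp.le⟩)
      exact hne s hs hs0
    · have hp : (W 1).det < 0 := by
        by_contra hq; push Not at hq
        have := mul_nonneg hq hgt.le
        linarith
      obtain ⟨s, hs, hs0⟩ := intermediate_value_Icc' (zero_le_one) hdc.continuousOn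
        (show (0 : ℝ) ∈ Set.Icc (W 1).det (W 0).det from ⟨hp.le, hgt.le⟩)
      exact hne s hs hs0
  rw [h0, h1, ← mul_assoc] at hsame
  exact hsame

end Solve

end Crest.Agent.R202.Mix
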