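import Mathlib
import Crest.Agent.R202.MixLin

/-! # Row 202, PART A1: the exchange steps of the flags (helper206) -/

set_option autoImplicit false

open Set
open scoped InnerProductSpace

namespace Crest.Agent.R202.Mix

variable {H : Type*} [NormedAddCommGroup H] [InnerProductSpace ℝ H] {N P : ℕ}

/-- continuity of `J κ (f κ)` -/
theorem continuous_apply_J {X : Type*} [TopologicalSpace X] (J : X → (Fin N → ℝ) →ₗ[ℝ] H)
    (hJ : ∀ u, Continuous fun x => J x u) (f : X → Fin N → ℝ) (hf : Continuous f) :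
    Continuous fun x => J x (f x) := by
  have h : ∀ x, J x (f x) = ∑ m, f x m • J x (Pi.single m 1) := by
    intro x
    conv_lhs => rw [pi_eq_sum_univ' (f x)]
    rw [map_sum]
    refine Finset.sum_congr rfl fun m _ => ?_
    rw [map_smul]
  simp only [h]
  refine continuous_finset_sum _ fun m _ => ?_
  exact ((continuous_apply m).comp hf).smul (hJ _)

/-- The generic exchange step of frames depending on a parameter. -/
theorem frame_step {X : Type*} [TopologicalSpace X] (e : Fin N → H)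
    (v : X → Fin N → Fin N → ℝ) (hvc : ∀ j, Continuous fun x => v x j)
    (hvi : ∀ x, LinearIndependent ℝ (v x))
    (J : X → (Fin N → ℝ) →ₗ[ℝ] H) (hJ : ∀ u, Continuous fun x => J x u)
    (S B : Set (Fin N)) (hSB : ∀ i ∈ S, i ∉ B)
    (hK : ∀ x, ∀ y ∈ sp (v x) (S ∪ B), (∀ i ∈ S ∪ B, ⟪e i, J x y⟫_ℝ = 0) → y = 0)
    (hK' : ∀ x, ∀ y ∈ sp (v x) S, (∀ i ∈ S, ⟪e i, J x y⟫_ℝ = 0) → y = 0) :
    ∃ v' : X → Fin N → Fin N → ℝ, (∀ j, Continuous fun x => v' x j) ∧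
      (∀ x, LinearIndependent ℝ (v' x)) ∧
      (∀ x (R : Set (Fin N)), S ⊆ R → B ⊆ R → sp (v' x) R = sp (v x) R) ∧
      (∀ x j, j ∉ B → v' x j = v x j) ∧
      (∀ x, ∀ j ∈ B, v' x j ∈ sp (v x) (S ∪ B) ∧
        ∀ i ∈ S ∪ B, ⟪e i, J x (v' x j)⟫_ℝ = if i = j then 1 else 0) := by
  classical
  let G : X → Matrix (Fin N) (Fin N) ℝ := fun x => blkS (S ∪ B) fun i j => ⟪e i, J x (v x j)⟫_ℝ
  have hJv : ∀ j, Continuous fun x => J x (v x j) := fun j => continuous_apply_J J hJ _ (hvc j)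
  have hGc : Continuous G := continuous_blkS _ _ fun i j => continuous_const.inner (hJv j)
  have hlin : ∀ x (c : Fin N → ℝ) (i : Fin N),
      ⟪e i, J x (∑ j, c j • v x j)⟫_ℝ = ∑ j, c j * ⟪e i, J x (v x j)⟫_ℝ := by
    intro x c i
    rw [map_sum, inner_sum]
    refine Finset.sum_congr rfl fun j _ => ?_
    rw [map_smul, real_inner_smul_right]
  have hGd : ∀ x, (G x).det ≠ 0 := by
    intro x
    refine blkS_det_ne_zero _ _ fun c hc hc' => ?_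
    have h1 := hK x (∑ j, c j • v x j) (sum_mem_sp _ _ _ hc) (fun i hi => by
      rw [hlin]; exact hc' i hi)
    funext j
    exact (Fintype.linearIndependent_iff.1 (hvi x)) c h1 j
  let z : X → Fin N → Fin N → ℝ := fun x m => ∑ j, sol (G x) (Pi.single m 1) j • v x j
  have hzc : ∀ m, Continuous fun x => z x m := by
    intro m
    refine continuous_finset_sum _ fun j _ => ?_
    exact (continuous_sol G hGc hGd _ j).smul (hvc j)
  have hzm : ∀ x, ∀ m ∈ B, z x m ∈ sp (v x) (S ∪ B) := by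
    intro x m hm
    exact sum_mem_sp _ _ _ fun j hj => sol_notMem _ _ (hGd x) m (Or.inr hm) j hj
  have hzi : ∀ x, ∀ m ∈ B, ∀ i ∈ S ∪ B, ⟪e i, J x (z x m)⟫_ℝ = if i = m then 1 else 0 := by
    intro x m hm i hi
    rw [hlin]
    exact sol_mem _ _ (hGd x) m (Or.inr hm) i hi
  have hex := fun x => exchange (v x) (hvi x) S B hSB
    (fun i => (innerₛₗ ℝ (e i)).comp (J x)) (z x) (hzm x)
    (fun i hi j hj => hzi x j hj i (Or.inr hi))
    (fun i hi j hj => by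
      have := hzi x j hj i (Or.inl hi)
      have hne : i ≠ j := fun h => hSB i hi (h ▸ hj)
      rw [if_neg hne] at this
      exact this)
    (fun y hy hy' => hK' x y hy hy')
  refine ⟨fun x j => if j ∈ B then z x j else v x j, ?_, fun x => (hex x).1,
    fun x R h1 h2 => (hex x).2 R h1 h2, ?_, ?_⟩
  · intro j
    by_cases hj : j ∈ B
    · simp only [hj, if_true]; exact hzc j
    · simp only [hj, if_false]; exact hvc j
  · intro x j hj
    simp [hj]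
  · intro x j hj
    simp only [hj, if_true]
    exact ⟨hzm x j hj, fun i hi => hzi x j hj i hi⟩

variable (D : MixData H N P)

/-- invariant of the slow frames at home `q` -/
def VGood (q : ℕ) (v : Cube P → Fin N → Fin N → ℝ) : Prop :=
  (∀ j, Continuous fun κ => v κ j) ∧ (∀ κ, LinearIndependent ℝ (v κ)) ∧
  ∀ κ l, D.i0 ≤ l → l ≤ N → ∀ u ∈ sp (v κ) {j | j.1 < l},
    ‖D.Jp q κ u - pr D.e l (D.Jp q κ u)‖ ≤ 3 * ‖pr D.e l (D.Jp q κ u)‖

/-- invariant of the fast frames at home `q` -/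
def UGood (q : ℕ) (w : Cube P → Fin N → Fin N → ℝ) : Prop :=
  (∀ j, Continuous fun κ => w κ j) ∧ (∀ κ, LinearIndependent ℝ (w κ)) ∧
  ∀ κ l, D.i0 ≤ l → l ≤ N → ∀ u ∈ sp (w κ) {j | l ≤ j.1},
    ‖pr D.e l (D.Jm q κ u)‖ ≤ 3 * ‖D.Jm q κ u - pr D.e l (D.Jm q κ u)‖

variable {D}

theorem VGood.cone_m {q : ℕ} (hq : q ≤ P) {v : Cube P → Fin N → Fin N → ℝ} (h : VGood D q v)
    (κ : Cube P) (l : ℕ) (h1 : D.i0 ≤ l) (h2 : l ≤ N) (u : Fin N → ℝ)
    (hu : u ∈ sp (v κ) {j | j.1 < l}) :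
    ‖D.Jm q κ u - pr D.e l (D.Jm q κ u)‖ ≤ (1 / 20) * ‖pr D.e l (D.Jm q κ u)‖ :=
  D.home_cone q hq κ l h1 h2 u ((h.2.2 κ l h1 h2 u hu).trans
    (by linarith [norm_nonneg (pr D.e l (D.Jp q κ u))]))

/-- after the gate: cone `1` at the outer end of the next home -/
theorem VGood.gate {k : Fin P} {v : Cube P → Fin N → Fin N → ℝ} (h : VGood D (k.1 + 1) v)
    (κ : Cube P) (l : ℕ) (h1 : D.i0 ≤ l) (h2 : l ≤ N)
    (hd : D.d k ≠ some l ∨ (κ k : ℝ) = 1 ∨ (κ k : ℝ) = -1) (u : Fin N → ℝ)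
    (hu : u ∈ sp (v κ) {j | j.1 < l}) :
    ‖D.Jp k.1 κ u - pr D.e l (D.Jp k.1 κ u)‖ ≤ ‖pr D.e l (D.Jp k.1 κ u)‖ :=
  D.gate k κ l h1 h2 hd u ((h.cone_m (by have := k.2; omega) κ l h1 h2 u hu).trans
    (by linarith [norm_nonneg (pr D.e l (D.Jm (k.1 + 1) κ u))]))

theorem UGood.strict_p {q : ℕ} (hq : q ≤ P) {w : Cube P → Fin N → Fin N → ℝ} (h : UGood D q w)
    (κ : Cube P) (l : ℕ) (h1 : D.i0 ≤ l) (h2 : l ≤ N) (u : Fin N → ℝ)
    (hu : u ∈ sp (w κ) {j | l ≤ j.1}) (hu0 : u ≠ 0) :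
    20 * ‖pr D.e l (D.Jp q κ u)‖ < ‖D.Jp q κ u - pr D.e l (D.Jp q κ u)‖ := by
  by_contra hcon
  push Not at hcon
  have h3 := D.home_cone q hq κ l h1 h2 u hcon
  have h4 := h.2.2 κ l h1 h2 u hu
  have h5 : ‖D.Jm q κ u - pr D.e l (D.Jm q κ u)‖ = 0 := by
    have := norm_nonneg (D.Jm q κ u - pr D.e l (D.Jm q κ u))
    linarith
  have h6 : ‖pr D.e l (D.Jm q κ u)‖ = 0 := by
    have := norm_nonneg (pr D.e l (D.Jm q κ u))
    linarith
  have h7 := norm_sq_split D.orth l (D.Jm q κ u)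
  rw [h5, h6] at h7
  have h8 : D.Jm q κ u = 0 := by
    have : ‖D.Jm q κ u‖ ^ 2 = 0 := by rw [h7]; ring
    exact norm_eq_zero.1 (pow_eq_zero_iff (two_ne_zero) |>.1 this)
  exact hu0 (D.inj_m q hq κ u h8)

theorem UGood.gate {k : Fin P} {w : Cube P → Fin N → Fin N → ℝ} (h : UGood D k.1 w)
    (κ : Cube P) (l : ℕ) (h1 : D.i0 ≤ l) (h2 : l ≤ N)
    (hd : D.d k ≠ some l ∨ (κ k : ℝ) = 1 ∨ (κ k : ℝ) = -1) (u : Fin N → ℝ)
    (hu : u ∈ sp (w κ) {j | l ≤ j.1}) :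
    ‖pr D.e l (D.Jm (k.1 + 1) κ u)‖ ≤ ‖D.Jm (k.1 + 1) κ u - pr D.e l (D.Jm (k.1 + 1) κ u)‖ := by
  by_cases hu0 : u = 0
  · subst hu0; simp
  by_contra hcon
  push Not at hcon
  have h3 := D.gate k κ l h1 h2 hd u hcon.le
  have h4 := h.strict_p (by have := k.2; omega) κ l h1 h2 u hu hu0
  have := norm_nonneg (pr D.e l (D.Jp k.1 κ u))
  linarith

/-- pythagoras for nested projections -/
theorem norm_pr_sq_split {e : Fin N → H} (he : Orthonormal ℝ e) {l m : ℕ} (h : l ≤ m) (x : H) :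
    ‖pr e m x‖ ^ 2 = ‖pr e l x‖ ^ 2 + ‖pr e m x - pr e l x‖ ^ 2 := by
  have := norm_sq_split he l (pr e m x)
  rw [pr_pr he, min_eq_left h] at this
  exact this

theorem norm_sub_pr_sq_split {e : Fin N → H} (he : Orthonormal ℝ e) {l m : ℕ} (h : l ≤ m) (x : H) :
    ‖x - pr e l x‖ ^ 2 = ‖pr e m x - pr e l x‖ ^ 2 + ‖x - pr e m x‖ ^ 2 := by
  have h1 := norm_sq_split he l x
  have h2 := norm_sq_split he m x
  have h3 := norm_pr_sq_split he h x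
  linarith

/-- arithmetic of the V-step -/
theorem arith_V {A b c s h g : ℝ} (hA : 0 ≤ A) (hb : 0 ≤ b) (hh : 0 ≤ h) (hs : 0 ≤ s)
    (h1 : b ^ 2 + h ^ 2 ≤ A ^ 2) (h2 : c ≤ s + b) (hc : 0 ≤ c) (hg : g ≤ h + c) (hg0 : 0 ≤ g) :
    g ^ 2 ≤ 9 * (A ^ 2 + s ^ 2) := by
  have h3 : g ≤ h + s + b := by linarith
  have h4 : g ^ 2 ≤ (h + s + b) ^ 2 := by
    exact pow_le_pow_left₀ hg0 h3 2
  nlinarith [sq_nonneg (h - s), sq_nonneg (h - b), sq_nonneg (s - b)]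

/-- arithmetic of the U-step -/
theorem arith_U {F R B b c f r g Y : ℝ} (hF : 0 ≤ F) (hR : 0 ≤ R) (hB : 0 ≤ B)
    (hc0 : 0 ≤ c) (hf0 : 0 ≤ f) (hr0 : 0 ≤ r) (hg0 : 0 ≤ g) (hY : 0 ≤ Y)
    (hb : b ≤ F) (hg : g ≤ F) (hc : c ≤ B + b) (hFR : F ≤ R + c * f) (hf : f ≤ 2 / 25)
    (hr : r ≤ 51 / 50) (hY2 : Y ^ 2 = B ^ 2 + R ^ 2) : g + c * r ≤ 3 * Y := by
  have h1 : c ≤ B + F := by linarith
  have h2 : c * f ≤ (B + F) * (2 / 25) := mul_le_mul h1 hf hf0 (by linarith)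
  have h3 : c * r ≤ (B + F) * (51 / 50) := mul_le_mul h1 hr hr0 (by linarith)
  have h4 : F ≤ (R + (2 / 25) * B) * (25 / 23) := by linarith
  have h5 : g + c * r ≤ (11 / 5) * R + (6 / 5) * B := by linarith
  have h6 : (11 / 5) * R + (6 / 5) * B ≤ 3 * Y := by
    refine le_of_sq_le_sq ?_ (by linarith)
    have : (3 * Y) ^ 2 = 9 * (B ^ 2 + R ^ 2) := by rw [mul_pow, hY2]; ring
    rw [this]
    nlinarith [sq_nonneg (R - B), sq_nonneg R, sq_nonneg B]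
  linarith

end Crest.Agent.R202.Mix
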