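import Mathlib
import Crest.Agent.R202.MixStep

/-! # Row 202, PART A1: the V-step and the U-step of the flags (helper206) -/

set_option autoImplicit false

open Set
open scoped InnerProductSpace

namespace Crest.Agent.R202.Mix

variable {H : Type*} [NormedAddCommGroup H] [InnerProductSpace ℝ H] {N P : ℕ}

theorem sp_empty' (v : Fin N → Fin N → ℝ) (S : Set (Fin N)) (hS : ∀ j, j ∉ S) (u : Fin N → ℝ)
    (hu : u ∈ sp v S) : u = 0 := by
  obtain ⟨c, hc, rfl⟩ := (mem_sp_iff _ _ _).1 hu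
  exact Finset.sum_eq_zero fun j _ => by rw [hc j (hS j), zero_smul]

/-- spans only depend on the frame vectors with index in the set -/
theorem sp_congr (v v' : Fin N → Fin N → ℝ) (S : Set (Fin N)) (h : ∀ j ∈ S, v' j = v j) :
    sp v' S = sp v S := by
  unfold sp
  congr 1
  exact Set.image_congr h

theorem eq_zero_of_norms {e : Fin N → H} (he : Orthonormal ℝ e) (l : ℕ) (x : H)
    (h1 : ‖pr e l x‖ = 0) (h2 : ‖x - pr e l x‖ = 0) : x = 0 := by
  have h7 := norm_sq_split he l x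
  rw [h1, h2] at h7
  have : ‖x‖ ^ 2 = 0 := by rw [h7]; ring
  exact norm_eq_zero.1 (pow_eq_zero_iff (two_ne_zero) |>.1 this)

/-- two projections agree if the coordinates in between vanish -/
theorem pr_eq_pr {e : Fin N → H} (l m : ℕ) (x : H) (hlm : l ≤ m)
    (h : ∀ i : Fin N, l ≤ i.1 → i.1 < m → ⟪e i, x⟫_ℝ = 0) : pr e l x = pr e m x := by
  rw [pr_apply, pr_apply]
  refine Finset.sum_congr rfl fun j _ => ?_
  by_cases h1 : j.1 < l
  · have h2 : j.1 < m := by omega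
    simp [h1, h2]
  · by_cases h2 : j.1 < m
    · simp [h1, h2, h j (by omega) h2]
    · simp [h1, h2]

theorem V_step (D : MixData H N P) (k : Fin P) (v : Cube P → Fin N → Fin N → ℝ)
    (hv : VGood D (k.1 + 1) v) :
    ∃ v' : Cube P → Fin N → Fin N → ℝ, VGood D k.1 v' ∧
      ∀ κ l, D.i0 ≤ l → l ≤ N → D.d k ≠ some l →
        sp (v κ) {j | j.1 < l} = sp (v' κ) {j | j.1 < l} := by
  classical
  rcases hd : D.d k with _ | d
  · refine ⟨v, ⟨hv.1, hv.2.1, fun κ l h1 h2 u hu => ?_⟩, fun κ l _ _ _ => rfl⟩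
    have := hv.gate κ l h1 h2 (Or.inl (by rw [hd]; simp)) u hu
    linarith [norm_nonneg (pr D.e l (D.Jp k.1 κ u))]
  have hd1 := D.d_ge k d hd
  have hd2 := D.d_lt k d hd
  have hkP := k.2
  set p : ℕ := if d = D.i0 then 0 else d - 1 with hp
  have hpd : p ≤ d := by rw [hp]; split_ifs <;> omega
  have hpcase : p = 0 ∨ (D.i0 ≤ p ∧ p ≠ d) := by
    rw [hp]; split_ifs with h
    · exact Or.inl rfl
    · right
      have := D.i0_pos
      constructor <;> omega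
  have hplow : ∀ l, D.i0 ≤ l → l ≤ N → l ≠ d → l ≤ p ∨ d + 1 ≤ l := by
    intro l h1 h2 h3
    rw [hp]; split_ifs with h
    · right; omega
    · by_cases h4 : l ≤ d - 1
      · left; exact h4
      · right; omega
  have hdp : p < d ∨ d = 0 := by
    have := D.i0_pos
    rw [hp]; split_ifs <;> omega
  have hd0 : d ≠ 0 := by have := D.i0_pos; omega
  have hpd' : p < d := by rcases hdp with h | h; exact h; exact absurd h hd0
  set S : Set (Fin N) := {j | j.1 < p} with hS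
  set B : Set (Fin N) := {j | p ≤ j.1 ∧ j.1 < d + 1} with hB
  have hSBu : S ∪ B = {j | j.1 < d + 1} := by
    ext j; simp only [hS, hB, Set.mem_union, Set.mem_ofPred_eq]; omega
  have hSB : ∀ i ∈ S, i ∉ B := by
    intro i hi hb
    simp only [hS, hB, Set.mem_ofPred_eq] at hi hb
    omega
  -- cone at the cut d+1
  have hcone1 : ∀ κ, ∀ u ∈ sp (v κ) {j | j.1 < d + 1},
      ‖D.Jp k.1 κ u - pr D.e (d + 1) (D.Jp k.1 κ u)‖ ≤ ‖pr D.e (d + 1) (D.Jp k.1 κ u)‖ := by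
    intro κ u hu
    exact hv.gate κ (d + 1) (by omega) (by omega) (Or.inl (by rw [hd]; simp)) u hu
  have hconep : ∀ κ, ∀ u ∈ sp (v κ) {j | j.1 < p},
      ‖D.Jp k.1 κ u - pr D.e p (D.Jp k.1 κ u)‖ ≤ ‖pr D.e p (D.Jp k.1 κ u)‖ := by
    intro κ u hu
    rcases hpcase with h0 | ⟨h1, h2⟩
    · have : u = 0 := sp_empty' _ _ (fun j => by simp [h0]) u hu
      subst this; simp
    · exact hv.gate κ p h1 (by omega) (Or.inl (by rw [hd]; simpa using (Ne.symm h2))) u hu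
  have hkill : ∀ κ l, l ≤ N → ∀ u, 
      ‖D.Jp k.1 κ u - pr D.e l (D.Jp k.1 κ u)‖ ≤ ‖pr D.e l (D.Jp k.1 κ u)‖ →
      (∀ i : Fin N, i.1 < l → ⟪D.e i, D.Jp k.1 κ u⟫_ℝ = 0) → u = 0 := by
    intro κ l hl u hu h
    have h1 := (pr_eq_zero_iff D.orth l (D.Jp k.1 κ u)).2 h
    rw [h1, norm_zero] at hu
    have h2 : ‖D.Jp k.1 κ u - pr D.e l (D.Jp k.1 κ u)‖ = 0 := by
      rw [h1]; exact le_antisymm hu (norm_nonneg _)
    exact D.inj k.1 (by omega) κ u (eq_zero_of_norms D.orth l _ (by rw [h1, norm_zero]) h2)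
  obtain ⟨v', hv'c, hv'i, hv'R, hv'o, hv'B⟩ := frame_step D.e v hv.1 hv.2.1 (fun κ => D.Jp k.1 κ)
    (fun u => D.cont_p k.1 (by omega) u) S B hSB
    (fun κ y hy h => hkill κ (d + 1) (by omega) y (hcone1 κ y (by rw [← hSBu]; exact hy))
      (fun i hi => h i (by rw [hSBu]; exact hi)))
    (fun κ y hy h => hkill κ p (by omega) y (hconep κ y hy) (fun i hi => h i hi))
  have hspan : ∀ κ l, D.i0 ≤ l → l ≤ N → l ≠ d →
      sp (v κ) {j | j.1 < l} = sp (v' κ) {j | j.1 < l} := by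
    intro κ l h1 h2 h3
    rcases hplow l h1 h2 h3 with h4 | h4
    · refine (sp_congr _ _ _ fun j hj => hv'o κ j ?_).symm
      simp only [hB, Set.mem_ofPred_eq] at hj ⊢
      omega
    · refine (hv'R κ _ ?_ ?_).symm
      · intro j hj; simp only [hS, Set.mem_ofPred_eq] at hj ⊢; omega
      · intro j hj; simp only [hB, Set.mem_ofPred_eq] at hj ⊢; omega
  refine ⟨v', ⟨hv'c, hv'i, fun κ l h1 h2 u hu => ?_⟩, fun κ l h1 h2 h3 =>
    hspan κ l h1 h2 (fun h => h3 (by rw [h]))⟩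
  by_cases hld : l = d
  swap
  · rw [← hspan κ l h1 h2 hld] at hu
    have := hv.gate κ l h1 h2 (Or.inl (by rw [hd]; simpa using (Ne.symm hld))) u hu
    linarith [norm_nonneg (pr D.e l (D.Jp k.1 κ u))]
  -- the new cone
  subst hld
  obtain ⟨c, hc, rfl⟩ := (mem_sp_iff _ _ _).1 hu
  set y : Fin N → ℝ := ∑ j, (if j.1 < p then c j else 0) • v' κ j with hy
  set z : Fin N → ℝ := ∑ j, (if j.1 < p then 0 else c j) • v' κ j with hz
  have huyz : ∑ j, c j • v' κ j = y + z := by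
    rw [hy, hz, ← Finset.sum_add_distrib]
    refine Finset.sum_congr rfl fun j _ => ?_
    split_ifs <;> simp
  have hyS : y ∈ sp (v κ) {j | j.1 < p} := by
    rw [← sp_congr (v κ) (v' κ) {j | j.1 < p} (fun j hj => hv'o κ j (hSB j hj))]
    exact sum_mem_sp _ _ _ fun j hj => if_neg hj
  have hzm : z ∈ sp (v κ) {j | j.1 < l + 1} := by
    rw [← hSBu, hz]
    refine Submodule.sum_mem _ fun j _ => ?_
    split_ifs with hj
    · rw [zero_smul]; exact Submodule.zero_mem _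
    · by_cases hjl : j.1 < l
      · refine Submodule.smul_mem _ _ (hv'B κ j ?_).1
        simp only [hB, Set.mem_ofPred_eq]; omega
      · rw [hc j (by simpa using hjl), zero_smul]; exact Submodule.zero_mem _
  have hzcoord : ∀ i : Fin N, i.1 < l + 1 →
      ⟪D.e i, D.Jp k.1 κ z⟫_ℝ = if i.1 < p then 0 else c i := by
    intro i hi
    rw [hz, map_sum, inner_sum, Finset.sum_eq_single i]
    · by_cases hip : i.1 < p
      · simp [hip]
      · have hiB : i ∈ B := by simp only [hB, Set.mem_ofPred_eq]; omega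
        rw [if_neg hip, map_smul, real_inner_smul_right,
          (hv'B κ i hiB).2 i (Or.inr hiB), if_pos rfl, mul_one]
    · intro j _ hj
      by_cases hjp : j.1 < p
      · simp [hjp]
      · rw [if_neg hjp, map_smul, real_inner_smul_right]
        by_cases hjl : j.1 < l
        · have hjB : j ∈ B := by simp only [hB, Set.mem_ofPred_eq]; omega
          rw [(hv'B κ j hjB).2 i (by rw [hSBu]; exact hi), if_neg (Ne.symm hj), mul_zero]
        · rw [hc j (by simpa using hjl), zero_mul]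
    · intro h; exact absurd (Finset.mem_univ i) h
  rw [huyz, map_add]
  set Y := D.Jp k.1 κ y with hY
  set Z := D.Jp k.1 κ z with hZ
  have hprZ0 : pr D.e p Z = 0 := by
    rw [pr_eq_zero_iff D.orth]
    intro j hj
    rw [hzcoord j (by omega), if_pos hj]
  have hZl : ⟪D.e ⟨l, hd2⟩, Z⟫_ℝ = 0 := by
    rw [hzcoord ⟨l, hd2⟩ (by simp), if_neg (by simp; omega)]
    exact hc _ (by simp)
  have hprZ : pr D.e (l + 1) Z = pr D.e l Z := by
    rw [pr_succ D.e l hd2, hZl, zero_smul, add_zero]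
  have hcz := hcone1 κ z hzm
  rw [← hZ, hprZ] at hcz
  have hcy := hconep κ y hyS
  rw [← hY] at hcy
  have hsq : ‖(Y + Z) - pr D.e l (Y + Z)‖ ^ 2 ≤ 9 * ‖pr D.e l (Y + Z)‖ ^ 2 := by
    have e1 : ‖pr D.e l (Y + Z)‖ ^ 2 = ‖pr D.e p Y‖ ^ 2
        + ‖(pr D.e l Y - pr D.e p Y) + pr D.e l Z‖ ^ 2 := by
      rw [norm_pr_sq_split D.orth hpd]
      rw [map_add, map_add, hprZ0, add_zero]
      congr 2
      congr 1
      abel
    rw [e1]
    refine arith_V (A := ‖pr D.e p Y‖) (b := ‖pr D.e l Y - pr D.e p Y‖) (c := ‖pr D.e l Z‖)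
      (s := ‖(pr D.e l Y - pr D.e p Y) + pr D.e l Z‖) (h := ‖Y - pr D.e l Y‖)
      (norm_nonneg _) (norm_nonneg _) (norm_nonneg _) (norm_nonneg _) ?_ ?_ (norm_nonneg _) ?_
      (norm_nonneg _)
    · have h3 := norm_sub_pr_sq_split D.orth hpd Y
      have h4 : ‖Y - pr D.e p Y‖ ^ 2 ≤ ‖pr D.e p Y‖ ^ 2 :=
        pow_le_pow_left₀ (norm_nonneg _) hcy 2
      linarith
    · have : pr D.e l Z = ((pr D.e l Y - pr D.e p Y) + pr D.e l Z)
          - (pr D.e l Y - pr D.e p Y) := by abel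
      calc ‖pr D.e l Z‖ = ‖((pr D.e l Y - pr D.e p Y) + pr D.e l Z)
          - (pr D.e l Y - pr D.e p Y)‖ := by rw [← this]
        _ ≤ _ := norm_sub_le _ _
    · have : (Y + Z) - pr D.e l (Y + Z) = (Y - pr D.e l Y) + (Z - pr D.e l Z) := by
        rw [map_add]; abel
      rw [this]
      exact (norm_add_le _ _).trans (by linarith)
  refine le_of_sq_le_sq ?_ (by positivity)
  have h9 : (3 * ‖pr D.e l (Y + Z)‖) ^ 2 = 9 * ‖pr D.e l (Y + Z)‖ ^ 2 := by ring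
  rw [h9]
  exact hsq

theorem U_step (D : MixData H N P) (k : Fin P) (w : Cube P → Fin N → Fin N → ℝ)
    (hw : UGood D k.1 w) :
    ∃ w' : Cube P → Fin N → Fin N → ℝ, UGood D (k.1 + 1) w' ∧
      ∀ κ l, D.i0 ≤ l → l ≤ N → D.d k ≠ some l →
        sp (w' κ) {j | l ≤ j.1} = sp (w κ) {j | l ≤ j.1} := by
  classical
  have hkP := k.2
  rcases hd : D.d k with _ | d
  · refine ⟨w, ⟨hw.1, hw.2.1, fun κ l h1 h2 u hu => ?_⟩, fun κ l _ _ _ => rfl⟩
    have := hw.gate κ l h1 h2 (Or.inl (by rw [hd]; simp)) u hu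
    linarith [norm_nonneg (D.Jm (k.1 + 1) κ u - pr D.e l (D.Jm (k.1 + 1) κ u))]
  have hd1 := D.d_ge k d hd
  have hd2 := D.d_lt k d hd
  set p : ℕ := if d = D.i0 then 0 else d - 1 with hp
  have hd0 : d ≠ 0 := by have := D.i0_pos; omega
  have hpd' : p < d := by have := D.i0_pos; rw [hp]; split_ifs <;> omega
  have hpcase : p = 0 ∨ (D.i0 ≤ p ∧ p ≠ d) := by
    rw [hp]; split_ifs with h
    · exact Or.inl rfl
    · right
      have := D.i0_pos
      constructor <;> omega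
  have hplow : ∀ l, D.i0 ≤ l → l ≤ N → l ≠ d → l ≤ p ∨ d + 1 ≤ l := by
    intro l h1 h2 h3
    rw [hp]; split_ifs with h
    · right; omega
    · by_cases h4 : l ≤ d - 1
      · left; exact h4
      · right; omega
  set S : Set (Fin N) := {j | d + 1 ≤ j.1} with hS
  set B : Set (Fin N) := {j | p ≤ j.1 ∧ j.1 < d + 1} with hB
  have hSBu : S ∪ B = {j | p ≤ j.1} := by
    ext j; simp only [hS, hB, Set.mem_union, Set.mem_ofPred_eq]; omega
  have hSB : ∀ i ∈ S, i ∉ B := by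
    intro i hi hb
    simp only [hS, hB, Set.mem_ofPred_eq] at hi hb
    omega
  have hcone1 : ∀ κ, ∀ u ∈ sp (w κ) {j | d + 1 ≤ j.1},
      ‖pr D.e (d + 1) (D.Jm (k.1 + 1) κ u)‖
        ≤ ‖D.Jm (k.1 + 1) κ u - pr D.e (d + 1) (D.Jm (k.1 + 1) κ u)‖ := by
    intro κ u hu
    exact hw.gate κ (d + 1) (by omega) (by omega) (Or.inl (by rw [hd]; simp)) u hu
  have hconep : ∀ κ, ∀ u ∈ sp (w κ) {j | p ≤ j.1},
      ‖pr D.e p (D.Jm (k.1 + 1) κ u)‖
        ≤ ‖D.Jm (k.1 + 1) κ u - pr D.e p (D.Jm (k.1 + 1) κ u)‖ := by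
    intro κ u hu
    rcases hpcase with h0 | ⟨h1, h2⟩
    · rw [h0, pr_zero, norm_zero]; exact norm_nonneg _
    · exact hw.gate κ p h1 (by omega) (Or.inl (by rw [hd]; simpa using (Ne.symm h2))) u hu
  have hkill : ∀ κ l, l ≤ N → ∀ u,
      ‖pr D.e l (D.Jm (k.1 + 1) κ u)‖ ≤ ‖D.Jm (k.1 + 1) κ u - pr D.e l (D.Jm (k.1 + 1) κ u)‖ →
      (∀ i : Fin N, l ≤ i.1 → ⟪D.e i, D.Jm (k.1 + 1) κ u⟫_ℝ = 0) → u = 0 := by
    intro κ l hl u hu h
    have h1 : pr D.e l (D.Jm (k.1 + 1) κ u) = pr D.e N (D.Jm (k.1 + 1) κ u) :=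
      pr_eq_pr l N _ hl (fun i hi _ => h i hi)
    have h2 := D.coneN_m (k.1 + 1) (by omega) κ u
    rw [← h1] at h2
    have h3 := norm_nonneg (pr D.e l (D.Jm (k.1 + 1) κ u))
    have h4 := norm_nonneg (D.Jm (k.1 + 1) κ u - pr D.e l (D.Jm (k.1 + 1) κ u))
    exact D.inj_m (k.1 + 1) (by omega) κ u
      (eq_zero_of_norms D.orth l _ (by linarith) (by linarith))
  obtain ⟨w', hw'c, hw'i, hw'R, hw'o, hw'B⟩ := frame_step D.e w hw.1 hw.2.1
    (fun κ => D.Jm (k.1 + 1) κ)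
    (fun u => D.cont_m (k.1 + 1) (by omega) u) S B hSB
    (fun κ y hy h => hkill κ p (by omega) y (hconep κ y (by rw [← hSBu]; exact hy))
      (fun i hi => h i (by rw [hSBu]; exact hi)))
    (fun κ y hy h => hkill κ (d + 1) (by omega) y (hcone1 κ y hy) (fun i hi => h i hi))
  have hspan : ∀ κ l, D.i0 ≤ l → l ≤ N → l ≠ d →
      sp (w' κ) {j | l ≤ j.1} = sp (w κ) {j | l ≤ j.1} := by
    intro κ l h1 h2 h3
    rcases hplow l h1 h2 h3 with h4 | h4
    · refine hw'R κ _ ?_ ?_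
      · intro j hj; simp only [hS, Set.mem_ofPred_eq] at hj ⊢; omega
      · intro j hj; simp only [hB, Set.mem_ofPred_eq] at hj ⊢; omega
    · refine sp_congr _ _ _ fun j hj => hw'o κ j ?_
      simp only [hB, Set.mem_ofPred_eq] at hj ⊢
      omega
  refine ⟨w', ⟨hw'c, hw'i, fun κ l h1 h2 u hu => ?_⟩, fun κ l h1 h2 h3 =>
    hspan κ l h1 h2 (fun h => h3 (by rw [h]))⟩
  by_cases hld : l = d
  swap
  · rw [hspan κ l h1 h2 hld] at hu
    have := hw.gate κ l h1 h2 (Or.inl (by rw [hd]; simpa using (Ne.symm hld))) u hu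
    linarith [norm_nonneg (D.Jm (k.1 + 1) κ u - pr D.e l (D.Jm (k.1 + 1) κ u))]
  subst hld
  obtain ⟨c, hc, rfl⟩ := (mem_sp_iff _ _ _).1 hu
  set m : Fin N := ⟨l, hd2⟩ with hm
  have hmB : m ∈ B := by simp only [hB, hm, Set.mem_ofPred_eq]; omega
  set y : Fin N → ℝ := ∑ j, (if j = m then 0 else c j) • w' κ j with hy
  have huyz : ∑ j, c j • w' κ j = y + c m • w' κ m := by
    have : ∀ j, c j • w' κ j = (if j = m then 0 else c j) • w' κ j
        + (if j = m then c m • w' κ m else 0) := by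
      intro j
      by_cases hj : j = m
      · subst hj; simp
      · simp [hj]
    rw [Finset.sum_congr rfl fun j _ => this j, Finset.sum_add_distrib]
    simp [hy]
  have hyS : y ∈ sp (w κ) {j | l + 1 ≤ j.1} := by
    rw [← sp_congr (w κ) (w' κ) {j | l + 1 ≤ j.1} (fun j hj => hw'o κ j (hSB j hj))]
    refine sum_mem_sp _ _ _ fun j hj => ?_
    by_cases hjm : j = m
    · rw [if_pos hjm]
    · rw [if_neg hjm]
      refine hc j ?_
      simp only [Set.mem_ofPred_eq] at hj ⊢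
      intro h
      apply hjm
      apply Fin.ext
      simp only [hm]
      omega
  rw [huyz, map_add, map_smul]
  set Y := D.Jm (k.1 + 1) κ y with hY
  set Z := D.Jm (k.1 + 1) κ (w' κ m) with hZ
  have hZc : ∀ i : Fin N, p ≤ i.1 → ⟪D.e i, Z⟫_ℝ = if i = m then 1 else 0 := by
    intro i hi
    exact (hw'B κ m hmB).2 i (by rw [hSBu]; exact hi)
  have hZl : ⟪D.e m, Z⟫_ℝ = 1 := by rw [hZc m (by simp only [hm]; omega), if_pos rfl]
  have hprp : pr D.e p Z = pr D.e l Z := pr_eq_pr p l Z (by omega) (fun i h3 h4 => by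
    rw [hZc i h3, if_neg]; intro h; rw [h, hm] at h4; simp at h4)
  have hprN : pr D.e (l + 1) Z = pr D.e N Z := pr_eq_pr (l + 1) N Z (by omega) (fun i h3 h4 => by
    rw [hZc i (by omega), if_neg]; intro h; rw [h, hm] at h3; simp at h3)
  have hZr : ‖pr D.e l Z‖ ≤ ‖Z - pr D.e l Z‖ := by
    have := hconep κ (w' κ m) (by rw [← hSBu]; exact (hw'B κ m hmB).1)
    rw [← hZ, hprp] at this
    exact this
  have hZf : ‖Z - pr D.e (l + 1) Z‖ ≤ (1 / 20) * ‖pr D.e (l + 1) Z‖ := by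
    have := D.coneN_m (k.1 + 1) (by omega) κ (w' κ m)
    rw [← hZ, ← hprN] at this
    exact this
  have hZ1 := norm_pr_succ_sq D.orth l hd2 Z
  have hZ2 := norm_sub_pr_succ_sq D.orth l hd2 Z
  rw [← hm, hZl] at hZ1 hZ2
  have hr0 := norm_nonneg (pr D.e l Z)
  have hf0 := norm_nonneg (Z - pr D.e (l + 1) Z)
  have hr2 : ‖pr D.e l Z‖ ^ 2 ≤ ‖Z - pr D.e (l + 1) Z‖ ^ 2 + 1 := by
    have := pow_le_pow_left₀ hr0 hZr 2
    linarith
  have hf2 : ‖Z - pr D.e (l + 1) Z‖ ^ 2 ≤ (1 / 400) * (‖pr D.e l Z‖ ^ 2 + 1) := by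
    have := pow_le_pow_left₀ hf0 hZf 2
    rw [mul_pow, hZ1] at this
    linarith
  have hf : ‖Z - pr D.e (l + 1) Z‖ ≤ 2 / 25 := by
    refine le_of_sq_le_sq ?_ (by norm_num)
    linarith
  have hr : ‖pr D.e l Z‖ ≤ 51 / 50 := by
    refine le_of_sq_le_sq ?_ (by norm_num)
    linarith
  have hcy := hcone1 κ y hyS
  rw [← hY] at hcy
  have hY1 := norm_pr_succ_sq D.orth l hd2 Y
  rw [← hm] at hY1
  have hF0 := norm_nonneg (Y - pr D.e (l + 1) Y)
  have hYF := pow_le_pow_left₀ (norm_nonneg _) hcy 2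
  have hg : ‖pr D.e l Y‖ ≤ ‖Y - pr D.e (l + 1) Y‖ := by
    refine le_of_sq_le_sq ?_ hF0
    nlinarith [sq_nonneg ⟪D.e m, Y⟫_ℝ]
  have hb : |⟪D.e m, Y⟫_ℝ| ≤ ‖Y - pr D.e (l + 1) Y‖ := by
    refine abs_le_of_sq_le_sq ?_ hF0
    nlinarith [sq_nonneg ‖pr D.e l Y‖]
  have hX := norm_sub_pr_succ_sq D.orth l hd2 (Y + c m • Z)
  rw [← hm] at hX
  have hXm : ⟪D.e m, Y + c m • Z⟫_ℝ = ⟪D.e m, Y⟫_ℝ + c m := by
    rw [inner_add_right, real_inner_smul_right, hZl, mul_one]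
  have hmain := arith_U (F := ‖Y - pr D.e (l + 1) Y‖)
    (R := ‖(Y + c m • Z) - pr D.e (l + 1) (Y + c m • Z)‖)
    (B := |⟪D.e m, Y⟫_ℝ + c m|) (b := |⟪D.e m, Y⟫_ℝ|) (c := |c m|)
    (f := ‖Z - pr D.e (l + 1) Z‖) (r := ‖pr D.e l Z‖) (g := ‖pr D.e l Y‖)
    (Y := ‖(Y + c m • Z) - pr D.e l (Y + c m • Z)‖)
    hF0 (norm_nonneg _) (abs_nonneg _) (abs_nonneg _) hf0 hr0 (norm_nonneg _) (norm_nonneg _)
    hb hg ?_ ?_ hf hr ?_
  · refine le_trans ?_ hmain
    rw [map_add, map_smul]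
    refine (norm_add_le _ _).trans ?_
    rw [norm_smul, Real.norm_eq_abs]
  · have : c m = (⟪D.e m, Y⟫_ℝ + c m) - ⟪D.e m, Y⟫_ℝ := by ring
    calc |c m| = |(⟪D.e m, Y⟫_ℝ + c m) - ⟪D.e m, Y⟫_ℝ| := by rw [← this]
      _ ≤ _ := abs_sub _ _
  · have : Y - pr D.e (l + 1) Y = ((Y + c m • Z) - pr D.e (l + 1) (Y + c m • Z))
        - c m • (Z - pr D.e (l + 1) Z) := by
      rw [map_add, map_smul, smul_sub]; abel
    calc ‖Y - pr D.e (l + 1) Y‖ = ‖((Y + c m • Z) - pr D.e (l + 1) (Y + c m • Z))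
        - c m • (Z - pr D.e (l + 1) Z)‖ := by rw [← this]
      _ ≤ _ := norm_sub_le _ _
      _ = _ := by rw [norm_smul, Real.norm_eq_abs]
  · rw [hX, hXm, sq_abs]; ring

end Crest.Agent.R202.Mix
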