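import Mathlib
import Crest.Agent.R202.MixStepV

/-! # Row 202, PART A1: existence of the flags (helper206) -/

set_option autoImplicit false

open Set
open scoped InnerProductSpace

namespace Crest.Agent.R202.Mix

variable {H : Type*} [NormedAddCommGroup H] [InnerProductSpace ℝ H] {N P : ℕ}

theorem card_lt_set (l : ℕ) (hl : l ≤ N) [Fintype ({j : Fin N | j.1 < l} : Set (Fin N))] :
    Fintype.card ({j : Fin N | j.1 < l} : Set (Fin N)) = l := by
  have e : ({j : Fin N | j.1 < l} : Set (Fin N)) ≃ Fin l :=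
    { toFun := fun j => ⟨j.1.1, j.2⟩
      invFun := fun i => ⟨⟨i.1, lt_of_lt_of_le i.2 hl⟩, i.2⟩
      left_inv := fun j => rfl
      right_inv := fun i => rfl }
  rw [Fintype.card_congr e, Fintype.card_fin]

theorem card_ge_set (l : ℕ) (hl : l ≤ N) [Fintype ({j : Fin N | l ≤ j.1} : Set (Fin N))] :
    Fintype.card ({j : Fin N | l ≤ j.1} : Set (Fin N)) = N - l := by
  have e : ({j : Fin N | l ≤ j.1} : Set (Fin N)) ≃ Fin (N - l) :=
    { toFun := fun j => ⟨j.1.1 - l, by
        have h1 := j.1.2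
        have h2 : l ≤ j.1.1 := j.2
        omega⟩
      invFun := fun i => ⟨⟨i.1 + l, by have := i.2; omega⟩, by
        show l ≤ i.1 + l
        omega⟩
      left_inv := fun j => by
        have h2 : l ≤ j.1.1 := j.2
        apply Subtype.ext
        apply Fin.ext
        show j.1.1 - l + l = j.1.1
        omega
      right_inv := fun i => by
        apply Fin.ext
        show i.1 + l - l = i.1
        omega }
  rw [Fintype.card_congr e, Fintype.card_fin]

theorem linInd_single : LinearIndependent ℝ (fun j : Fin N => (Pi.single j 1 : Fin N → ℝ)) := by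
  have := (Pi.basisFun ℝ (Fin N)).linearIndependent
  convert this using 2
  rename_i j
  exact (Pi.basisFun_apply ℝ (Fin N) j).symm

theorem V_base (D : MixData H N P) : ∃ v : Cube P → Fin N → Fin N → ℝ, VGood D P v := by
  classical
  refine ⟨fun _ j => Pi.single j 1, fun j => continuous_const, fun _ => linInd_single,
    fun κ l h1 h2 u hu => ?_⟩
  obtain ⟨c, hc, rfl⟩ := (mem_sp_iff _ _ _).1 hu
  have hcu : ∑ j, c j • (Pi.single j 1 : Fin N → ℝ) = c := by
    rw [← pi_eq_sum_univ' c]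
  rw [hcu]
  set y := D.Jp P κ c with hy
  set s := ∑ j, c j • D.e j with hs
  have hsi : ∀ j, ⟪D.e j, s⟫_ℝ = c j := by
    intro j
    rw [hs, inner_sum, Finset.sum_eq_single j]
    · rw [real_inner_smul_right, orthonormal_iff_ite.1 D.orth j j]; simp
    · intro i _ hi
      rw [real_inner_smul_right, orthonormal_iff_ite.1 D.orth j i]; simp [Ne.symm hi]
    · intro h; exact absurd (Finset.mem_univ j) h
  have hs1 : pr D.e l s = s := by
    rw [pr_apply]
    conv_rhs => rw [hs]
    refine Finset.sum_congr rfl fun j _ => ?_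
    rw [hsi]
    by_cases hj : j.1 < l
    · rw [if_pos hj]
    · rw [if_neg hj, hc j hj, zero_smul]
  have hs2 : ‖s‖ ^ 2 = ∑ j, c j ^ 2 := by
    rw [← hs1, norm_pr_sq D.orth]
    refine Finset.sum_congr rfl fun j _ => ?_
    rw [hsi]
    by_cases hj : j.1 < l
    · rw [if_pos hj]
    · rw [if_neg hj, hc j hj]; ring
  have ht := D.top κ c
  rw [← hs2] at ht
  have ht' : ‖y - s‖ ≤ (1 / 20) * ‖s‖ := by
    refine le_of_sq_le_sq ?_ (by positivity)
    calc ‖y - s‖ ^ 2 ≤ (1 / 400) * ‖s‖ ^ 2 := ht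
      _ = ((1 / 20) * ‖s‖) ^ 2 := by ring
  have h1 : ‖y - pr D.e l y‖ ≤ ‖y - s‖ := by
    have e1 : y - pr D.e l y = (y - s) - pr D.e l (y - s) := by
      rw [map_sub, hs1]; abel
    rw [e1]
    have := norm_sq_split D.orth l (y - s)
    refine le_of_sq_le_sq ?_ (norm_nonneg _)
    nlinarith [sq_nonneg ‖pr D.e l (y - s)‖]
  have h2 : ‖s‖ - ‖y - s‖ ≤ ‖pr D.e l y‖ := by
    have e1 : s = pr D.e l y - pr D.e l (y - s) := by
      rw [map_sub, hs1]; abel
    have h3 : ‖pr D.e l (y - s)‖ ≤ ‖y - s‖ := by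
      have := norm_sq_split D.orth l (y - s)
      refine le_of_sq_le_sq ?_ (norm_nonneg _)
      nlinarith [sq_nonneg ‖(y - s) - pr D.e l (y - s)‖]
    have h4 : ‖s‖ ≤ ‖pr D.e l y‖ + ‖pr D.e l (y - s)‖ := by
      calc ‖s‖ = ‖pr D.e l y - pr D.e l (y - s)‖ := by rw [← e1]
        _ ≤ _ := norm_sub_le _ _
    linarith
  have h5 := norm_nonneg s
  linarith

theorem U_base (D : MixData H N P) : ∃ w : Cube P → Fin N → Fin N → ℝ, UGood D 0 w := by
  classical
  have hkill : ∀ κ u, (∀ i : Fin N, ⟪D.e i, D.Jm 0 κ u⟫_ℝ = 0) → u = 0 := by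
    intro κ u h
    have h1 := (pr_eq_zero_iff D.orth N (D.Jm 0 κ u)).2 (fun j _ => h j)
    have h2 := D.coneN_m 0 (Nat.zero_le _) κ u
    rw [h1, norm_zero, mul_zero] at h2
    exact D.inj_m 0 (Nat.zero_le _) κ u (eq_zero_of_norms D.orth N _ (by rw [h1, norm_zero])
      (by rw [h1]; exact le_antisymm h2 (norm_nonneg _)))
  obtain ⟨w, hwc, hwi, -, -, hwB⟩ := frame_step D.e
    (fun (_ : Cube P) (j : Fin N) => (Pi.single j 1 : Fin N → ℝ))
    (fun j => continuous_const) (fun _ => linInd_single) (fun κ => D.Jm 0 κ)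
    (fun u => D.cont_m 0 (Nat.zero_le _) u) ∅ Set.univ (fun i hi => absurd hi (by simp))
    (fun κ y _ h => hkill κ y (fun i => h i (Or.inr (Set.mem_univ i))))
    (fun κ y hy _ => sp_empty' _ _ (fun j => by simp) y hy)
  refine ⟨w, hwc, hwi, fun κ l h1 h2 u hu => ?_⟩
  obtain ⟨c, hc, rfl⟩ := (mem_sp_iff _ _ _).1 hu
  have : pr D.e l (D.Jm 0 κ (∑ j, c j • w κ j)) = 0 := by
    rw [pr_eq_zero_iff D.orth]
    intro i hi
    rw [map_sum, inner_sum]
    refine Finset.sum_eq_zero fun j _ => ?_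
    rw [map_smul, real_inner_smul_right, (hwB κ j (Set.mem_univ j)).2 i (Or.inr (Set.mem_univ i))]
    by_cases hij : i = j
    · subst hij
      rw [hc i (by simpa using hi), zero_mul]
    · rw [if_neg hij, mul_zero]
  rw [this, norm_zero]
  positivity

theorem V_chain (D : MixData H N P) : ∃ v : ℕ → Cube P → Fin N → Fin N → ℝ,
    (∀ q, q ≤ P → VGood D q (v q)) ∧
    ∀ (k : Fin P) κ l, D.i0 ≤ l → l ≤ N → D.d k ≠ some l →
        sp (v (k.1 + 1) κ) {j | j.1 < l} = sp (v k.1 κ) {j | j.1 < l} := by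
  classical
  have key : ∀ n, n ≤ P → ∃ v : ℕ → Cube P → Fin N → Fin N → ℝ,
      (∀ q, q ≤ P → P - n ≤ q → VGood D q (v q)) ∧
      ∀ (k : Fin P), P - n ≤ k.1 → ∀ κ l, D.i0 ≤ l → l ≤ N → D.d k ≠ some l →
        sp (v (k.1 + 1) κ) {j | j.1 < l} = sp (v k.1 κ) {j | j.1 < l} := by
    intro n
    induction n with
    | zero =>
      intro _
      obtain ⟨v0, hv0⟩ := V_base D
      refine ⟨fun _ => v0, fun q h1 h2 => ?_, fun k hk => ?_⟩
      · have : q = P := by omega
        subst this; exact hv0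
      · have := k.2; omega
    | succ n ih =>
      intro hn
      obtain ⟨v, hv1, hv2⟩ := ih (by omega)
      have hk : P - (n + 1) < P := by omega
      set k : Fin P := ⟨P - (n + 1), hk⟩ with hkdef
      have hk1 : k.1 + 1 = P - n := by simp only [hkdef]; omega
      obtain ⟨v', hv'1, hv'2⟩ := V_step D k (v (k.1 + 1)) (hv1 _ (by omega) (by omega))
      refine ⟨Function.update v k.1 v', fun q h1 h2 => ?_, fun k' hk' => ?_⟩
      · by_cases hq : q = k.1
        · subst hq; rw [Function.update_self]; exact hv'1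
        · rw [Function.update_of_ne hq]
          refine hv1 q h1 ?_
          have : k.1 = P - (n + 1) := rfl
          omega
      · by_cases hkk : k'.1 = k.1
        · have hkeq : k' = k := Fin.ext hkk
          subst hkeq
          intro κ l h1 h2 h3
          rw [Function.update_self, Function.update_of_ne (by omega)]
          exact hv'2 κ l h1 h2 h3
        · intro κ l h1 h2 h3
          have : k.1 = P - (n + 1) := rfl
          rw [Function.update_of_ne hkk, Function.update_of_ne (by omega)]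
          exact hv2 k' (by omega) κ l h1 h2 h3
  obtain ⟨v, hv1, hv2⟩ := key P le_rfl
  exact ⟨v, fun q hq => hv1 q hq (by omega), fun k => hv2 k (by omega)⟩

theorem U_chain (D : MixData H N P) : ∃ w : ℕ → Cube P → Fin N → Fin N → ℝ,
    (∀ q, q ≤ P → UGood D q (w q)) ∧
    ∀ (k : Fin P) κ l, D.i0 ≤ l → l ≤ N → D.d k ≠ some l →
        sp (w (k.1 + 1) κ) {j | l ≤ j.1} = sp (w k.1 κ) {j | l ≤ j.1} := by
  classical
  have key : ∀ n, n ≤ P → ∃ w : ℕ → Cube P → Fin N → Fin N → ℝ,
      (∀ q, q ≤ n → UGood D q (w q)) ∧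
      ∀ (k : Fin P), k.1 < n → ∀ κ l, D.i0 ≤ l → l ≤ N → D.d k ≠ some l →
        sp (w (k.1 + 1) κ) {j | l ≤ j.1} = sp (w k.1 κ) {j | l ≤ j.1} := by
    intro n
    induction n with
    | zero =>
      intro _
      obtain ⟨w0, hw0⟩ := U_base D
      refine ⟨fun _ => w0, fun q h1 => ?_, fun k hk => absurd hk (by omega)⟩
      have : q = 0 := by omega
      subst this; exact hw0
    | succ n ih =>
      intro hn
      obtain ⟨w, hw1, hw2⟩ := ih (by omega)
      set k : Fin P := ⟨n, by omega⟩ with hkdef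
      have hkn : k.1 = n := rfl
      obtain ⟨w', hw'1, hw'2⟩ := U_step D k (w k.1) (hw1 _ (by omega))
      refine ⟨Function.update w (n + 1) w', fun q h1 => ?_, fun k' hk' => ?_⟩
      · by_cases hq : q = n + 1
        · subst hq; rw [Function.update_self]; exact hw'1
        · rw [Function.update_of_ne hq]; exact hw1 q (by omega)
      · by_cases hkk : k'.1 = n
        · have hkeq : k' = k := Fin.ext hkk
          subst hkeq
          intro κ l h1 h2 h3
          have e1 : k.1 + 1 = n + 1 := by omega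
          rw [e1, Function.update_self, Function.update_of_ne (by omega)]
          exact hw'2 κ l h1 h2 h3
        · intro κ l h1 h2 h3
          rw [Function.update_of_ne (by omega), Function.update_of_ne (by omega)]
          exact hw2 k' (by omega) κ l h1 h2 h3
  obtain ⟨w, hw1, hw2⟩ := key P le_rfl
  exact ⟨w, fun q hq => hw1 q hq, fun k => hw2 k k.2⟩

/-- The matrix whose vanishing determinant means that the outer slow space meets the inner fast
space. -/
noncomputable def cmat (D : MixData H N P) (v w : Cube P → Fin N → Fin N → ℝ) (k : Fin P) (d : ℕ)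
    (κ : Cube P) : Matrix (Fin N) (Fin N) ℝ :=
  fun i j => ⟪D.e i, D.Jp k.1 κ (if j.1 < d then v κ j else w κ j)⟫_ℝ

/-- The scalar function of the gate `k`. -/
noncomputable def cfun (D : MixData H N P) (v w : Cube P → Fin N → Fin N → ℝ) (k : Fin P) (d : ℕ)
    (κ : Cube P) : ℝ :=
  D.σ k * (cmat D v w k d κ).det *
    (blk d fun i j => ⟪D.e i, D.Jm (k.1 + 1) κ (v κ j)⟫_ℝ).det *
    (blkS {j : Fin N | j.1 < d}ᶜ (cmat D v w k d κ)).det

theorem cfun_continuous (D : MixData H N P) (v w : Cube P → Fin N → Fin N → ℝ) (k : Fin P) (d : ℕ)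
    (hv : ∀ j, Continuous fun κ => v κ j) (hw : ∀ j, Continuous fun κ => w κ j) :
    Continuous (cfun D v w k d) := by
  have hk := k.2
  have h1 : Continuous (cmat D v w k d) := by
    refine continuous_pi fun i => continuous_pi fun j => ?_
    unfold cmat
    refine continuous_const.inner (continuous_apply_J (fun κ => D.Jp k.1 κ)
      (fun u => D.cont_p k.1 (by omega) u) _ ?_)
    by_cases hj : j.1 < d
    · simp only [hj, if_true]; exact hv j
    · simp only [hj, if_false]; exact hw j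
  have h2 : Continuous fun κ => blk d fun i j => ⟪D.e i, D.Jm (k.1 + 1) κ (v κ j)⟫_ℝ := by
    simp only [blk_eq_blkS]
    refine continuous_blkS _ _ fun i j => continuous_const.inner
      (continuous_apply_J (fun κ => D.Jm (k.1 + 1) κ) (fun u => D.cont_m (k.1 + 1) (by omega) u) _
        (hv j))
  have h3 : Continuous fun κ => blkS {j : Fin N | j.1 < d}ᶜ (cmat D v w k d κ) := by
    refine continuous_blkS _ _ fun i j => ?_
    exact (continuous_apply j).comp ((continuous_apply i).comp h1)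
  unfold cfun
  exact ((continuous_const.mul h1.matrix_det).mul h2.matrix_det).mul h3.matrix_det

section Gate

variable (D : MixData H N P) (k : Fin P) (d : ℕ) (hd : D.d k = some d)
  (v w : Cube P → Fin N → Fin N → ℝ) (hv : VGood D (k.1 + 1) v) (hw : UGood D k.1 w)

include hd hv in
theorem detA_ne (κ : Cube P) :
    (blk d fun i j => ⟪D.e i, D.Jm (k.1 + 1) κ (v κ j)⟫_ℝ).det ≠ 0 := by
  have hk := k.2
  rw [blk_eq_blkS]
  refine blkS_det_ne_zero _ _ fun c hc hc' => ?_
  set u : Fin N → ℝ := ∑ j, c j • v κ j with hu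
  have hu1 : u ∈ sp (v κ) {j | j.1 < d} := sum_mem_sp _ _ _ hc
  have h1 : pr D.e d (D.Jm (k.1 + 1) κ u) = 0 := by
    rw [pr_eq_zero_iff D.orth]
    intro i hi
    rw [hu, map_sum, inner_sum, ← hc' i hi]
    refine Finset.sum_congr rfl fun j _ => ?_
    rw [map_smul, real_inner_smul_right]
  have h2 := hv.cone_m (by omega) κ d (D.d_ge k d hd) (D.d_lt k d hd).le u hu1
  rw [h1, norm_zero, mul_zero] at h2
  have h3 : u = 0 := D.inj_m (k.1 + 1) (by omega) κ u
    (eq_zero_of_norms D.orth d _ (by rw [h1, norm_zero]) (by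
      rw [h1]; exact le_antisymm h2 (norm_nonneg _)))
  funext j
  exact (Fintype.linearIndependent_iff.1 (hv.2.1 κ)) c h3 j

include hd hw in
theorem U_kill_p (κ : Cube P) (x : Fin N → ℝ) (hx : x ∈ sp (w κ) {j | d ≤ j.1})
    (h : ‖pr D.e N (D.Jp k.1 κ x) - pr D.e d (D.Jp k.1 κ x)‖ ≤ ‖pr D.e d (D.Jp k.1 κ x)‖) :
    x = 0 := by
  have hk := k.2
  by_contra hx0
  have h1 := hw.strict_p (by omega) κ d (D.d_ge k d hd) (D.d_lt k d hd).le x hx hx0
  have h2 := D.coneN_p k.1 (by omega) κ x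
  have h3 := norm_sub_pr_sq_split D.orth (D.d_lt k d hd).le (D.Jp k.1 κ x)
  have h4 := norm_pr_sq_split D.orth (D.d_lt k d hd).le (D.Jp k.1 κ x)
  have h5 := norm_nonneg (pr D.e d (D.Jp k.1 κ x))
  have h6 := norm_nonneg (D.Jp k.1 κ x - pr D.e N (D.Jp k.1 κ x))
  have h7 := norm_nonneg (pr D.e N (D.Jp k.1 κ x) - pr D.e d (D.Jp k.1 κ x))
  have h8 := pow_le_pow_left₀ h6 h2 2
  have h9 := pow_le_pow_left₀ h7 h 2
  have h10 : (20 * ‖pr D.e d (D.Jp k.1 κ x)‖) ^ 2
      < ‖D.Jp k.1 κ x - pr D.e d (D.Jp k.1 κ x)‖ ^ 2 :=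
    pow_lt_pow_left₀ h1 (by positivity) (by norm_num)
  rw [mul_pow] at h10
  nlinarith [sq_nonneg ‖pr D.e d (D.Jp k.1 κ x)‖]

include hd hw in
theorem detW_ne (κ : Cube P) :
    (blkS {j : Fin N | j.1 < d}ᶜ (cmat D v w k d κ)).det ≠ 0 := by
  have hk := k.2
  refine blkS_det_ne_zero _ _ fun c hc hc' => ?_
  set u : Fin N → ℝ := ∑ j, c j • w κ j with hu
  have hu1 : u ∈ sp (w κ) {j | d ≤ j.1} := sum_mem_sp _ _ _ (fun j hj => hc j (by
    simpa using hj))
  have h1 : ∀ i : Fin N, d ≤ i.1 → ⟪D.e i, D.Jp k.1 κ u⟫_ℝ = 0 := by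
    intro i hi
    rw [hu, map_sum, inner_sum, ← hc' i (by simpa using hi)]
    refine Finset.sum_congr rfl fun j _ => ?_
    rw [map_smul, real_inner_smul_right]
    by_cases hj : j.1 < d
    · rw [hc j (by simpa using hj), zero_mul, zero_mul]
    · simp only [cmat, hj, if_false]
  have h2 : pr D.e d (D.Jp k.1 κ u) = pr D.e N (D.Jp k.1 κ u) :=
    pr_eq_pr d N _ (D.d_lt k d hd).le (fun i hi _ => h1 i hi)
  have h3 : u = 0 := U_kill_p D k d hd w hw κ u hu1 (by
    rw [← h2, sub_self, norm_zero]; exact norm_nonneg _)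
  funext j
  exact (Fintype.linearIndependent_iff.1 (hw.2.1 κ)) c h3 j

include hd hv hw in
theorem block_sign (κ : Cube P) (hκ : (κ k : ℝ) = 1 ∨ (κ k : ℝ) = -1) :
    0 < (cmat D v w k d κ).det * (blkS {j : Fin N | j.1 < d} (cmat D v w k d κ)).det *
      (blkS {j : Fin N | j.1 < d}ᶜ (cmat D v w k d κ)).det := by
  have hk := k.2
  have hd1 := D.d_ge k d hd
  have hd2 := D.d_lt k d hd
  refine det_block_sign {j : Fin N | j.1 < d} (cmat D v w k d κ) ?_
  intro s hs c h1 h2
  set cv : Fin N → ℝ := fun j => if j.1 < d then c j else 0 with hcv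
  set cw : Fin N → ℝ := fun j => if j.1 < d then 0 else c j with hcw
  set y : Fin N → ℝ := ∑ j, cv j • v κ j with hy
  set x : Fin N → ℝ := ∑ j, cw j • w κ j with hx
  have hym : y ∈ sp (v κ) {j | j.1 < d} := sum_mem_sp _ _ _ (fun j hj => by
    simp only [hcv]; exact if_neg hj)
  have hxm : x ∈ sp (w κ) {j | d ≤ j.1} := sum_mem_sp _ _ _ (fun j hj => by
    have : j.1 < d := by simpa using hj
    simp [hcw, this])
  set Y := D.Jp k.1 κ y with hY
  set X := D.Jp k.1 κ x with hX
  have hYi : ∀ i, ⟪D.e i, Y⟫_ℝ = ∑ j, (if j.1 < d then cmat D v w k d κ i j * c j else 0) := by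
    intro i
    rw [hY, hy, map_sum, inner_sum]
    refine Finset.sum_congr rfl fun j _ => ?_
    rw [map_smul, real_inner_smul_right]
    by_cases hj : j.1 < d
    · simp only [hcv, cmat, hj, if_true]; ring
    · simp only [hcv, hj, if_false, zero_mul]
  have hXi : ∀ i, ⟪D.e i, X⟫_ℝ = ∑ j, (if j.1 < d then 0 else cmat D v w k d κ i j * c j) := by
    intro i
    rw [hX, hx, map_sum, inner_sum]
    refine Finset.sum_congr rfl fun j _ => ?_
    rw [map_smul, real_inner_smul_right]
    by_cases hj : j.1 < d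
    · simp only [hcw, hj, if_true, zero_mul]
    · simp only [hcw, cmat, hj, if_false]; ring
  have hlow : ∀ i : Fin N, i.1 < d → ⟪D.e i, Y + s • X⟫_ℝ = 0 := by
    intro i hi
    rw [inner_add_right, real_inner_smul_right, hYi, hXi, Finset.mul_sum, ← Finset.sum_add_distrib]
    refine Eq.trans ?_ (h1 i hi)
    refine Finset.sum_congr rfl fun j _ => ?_
    by_cases hj : j.1 < d
    · rw [if_pos hj, if_pos hj, if_pos (show j ∈ {j : Fin N | j.1 < d} from hj)]; ring
    · rw [if_neg hj, if_neg hj, if_neg (show j ∉ {j : Fin N | j.1 < d} from hj)]; ring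
  have hhigh : ∀ i : Fin N, ¬ i.1 < d → ⟪D.e i, s • Y + X⟫_ℝ = 0 := by
    intro i hi
    rw [inner_add_right, real_inner_smul_right, hYi, hXi, Finset.mul_sum, ← Finset.sum_add_distrib]
    refine Eq.trans ?_ (h2 i hi)
    refine Finset.sum_congr rfl fun j _ => ?_
    by_cases hj : j.1 < d
    · rw [if_pos hj, if_pos hj, if_pos (show j ∈ {j : Fin N | j.1 < d} from hj)]; ring
    · rw [if_neg hj, if_neg hj, if_neg (show j ∉ {j : Fin N | j.1 < d} from hj)]; ring
  -- low parts
  have e1 : pr D.e d Y = - (s • pr D.e d X) := by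
    have h3 := (pr_eq_zero_iff D.orth d (Y + s • X)).2 hlow
    rw [map_add, map_smul] at h3
    exact eq_neg_of_add_eq_zero_left h3
  have e2 : pr D.e N X - pr D.e d X = - (s • (pr D.e N Y - pr D.e d Y)) := by
    have h3 : pr D.e d (s • Y + X) = pr D.e N (s • Y + X) :=
      pr_eq_pr d N _ hd2.le (fun i hi _ => hhigh i (by omega))
    rw [map_add, map_add, map_smul, map_smul] at h3
    rw [smul_sub]
    have h4 : s • pr D.e N Y + pr D.e N X - (s • pr D.e d Y + pr D.e d X) = 0 :=
      sub_eq_zero.2 h3.symm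
    have h5 : pr D.e N X - pr D.e d X + (s • pr D.e N Y - s • pr D.e d Y) = 0 := by
      rw [← h4]; abel
    exact eq_neg_of_add_eq_zero_left h5
  have hs1 : |s| ≤ 1 := by rw [abs_le]; constructor <;> linarith [hs.1, hs.2]
  have n1 : ‖pr D.e d Y‖ ≤ ‖pr D.e d X‖ := by
    rw [e1, norm_neg, norm_smul, Real.norm_eq_abs]
    exact mul_le_of_le_one_left (norm_nonneg _) hs1
  have n2 : ‖pr D.e N X - pr D.e d X‖ ≤ ‖pr D.e N Y - pr D.e d Y‖ := by
    rw [e2, norm_neg, norm_smul, Real.norm_eq_abs]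
    exact mul_le_of_le_one_left (norm_nonneg _) hs1
  have n3 : ‖pr D.e N Y - pr D.e d Y‖ ≤ ‖Y - pr D.e d Y‖ := by
    have := norm_sub_pr_sq_split D.orth hd2.le Y
    refine le_of_sq_le_sq ?_ (norm_nonneg _)
    nlinarith [sq_nonneg ‖Y - pr D.e N Y‖]
  have n4 : ‖Y - pr D.e d Y‖ ≤ ‖pr D.e d Y‖ := hv.gate κ d hd1 hd2.le (Or.inr hκ) y hym
  have hx0 : x = 0 := U_kill_p D k d hd w hw κ x hxm (by rw [← hX]; linarith)
  have hX0 : X = 0 := by rw [hX, hx0, map_zero]
  have hY0 : y = 0 := by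
    refine D.inj k.1 (by omega) κ y (eq_zero_of_norms D.orth d _ ?_ ?_)
    · have : ‖pr D.e d X‖ = 0 := by rw [hX0, map_zero, norm_zero]
      rw [this] at n1
      exact le_antisymm n1 (norm_nonneg _)
    · have : ‖pr D.e d X‖ = 0 := by rw [hX0, map_zero, norm_zero]
      rw [this] at n1
      exact le_antisymm (n4.trans n1) (norm_nonneg _)
  have c1 := (Fintype.linearIndependent_iff.1 (hv.2.1 κ)) cv hY0
  have c2 := (Fintype.linearIndependent_iff.1 (hw.2.1 κ)) cw hx0
  funext j
  by_cases hj : j.1 < d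
  · have := c1 j; simpa [hcv, hj] using this
  · have := c2 j; simpa [hcw, hj] using this

include hd hv hw in
theorem cfun_sign (κ : Cube P) (hκ : (κ k : ℝ) = 1 ∨ (κ k : ℝ) = -1) :
    0 < (κ k : ℝ) * cfun D v w k d κ := by
  have hk := k.2
  have hd1 := D.d_ge k d hd
  have hd2 := D.d_lt k d hd
  have h1 := block_sign D k d hd v w hv hw κ hκ
  have h2 := D.sign k d hd κ hκ (v κ) (hv.2.1 κ) (fun c hc => by
    have := hv.cone_m (by omega) κ d hd1 hd2.le (∑ j, c j • v κ j)
      (sum_mem_sp _ _ _ (fun j hj => hc j (by simpa using hj)))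
    linarith [norm_nonneg (pr D.e d (D.Jm (k.1 + 1) κ (∑ j, c j • v κ j)))])
  have hA : (blkS {j : Fin N | j.1 < d} (cmat D v w k d κ)).det
      = (blk d fun i j => ⟪D.e i, D.Jp k.1 κ (v κ j)⟫_ℝ).det := by
    rw [blk_eq_blkS]
    congr 1
    funext i j
    unfold blkS
    by_cases h : i ∈ {j : Fin N | j.1 < d} ∧ j ∈ {j : Fin N | j.1 < d}
    · rw [if_pos h, if_pos h]
      have : j.1 < d := h.2
      simp only [cmat, this, if_true]
    · rw [if_neg h, if_neg h]
  rw [hA] at h1
  set a := (blk d fun i j => ⟪D.e i, D.Jp k.1 κ (v κ j)⟫_ℝ).det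
  set b := (blk d fun i j => ⟪D.e i, D.Jm (k.1 + 1) κ (v κ j)⟫_ℝ).det
  set m := (cmat D v w k d κ).det
  set t := (blkS {j : Fin N | j.1 < d}ᶜ (cmat D v w k d κ)).det
  have h3 := mul_pos h1 h2
  have ha : a ≠ 0 := by
    intro h0
    rw [h0] at h1; simp at h1
  have h4 : 0 < a ^ 2 := by positivity
  have h5 : m * a * t * (D.σ k * (κ k : ℝ) * a * b) = a ^ 2 * ((κ k : ℝ) * (D.σ k * m * b * t)) := by
    ring
  rw [h5] at h3
  have := (mul_pos_iff_of_pos_left h4).1 h3
  simpa [cfun] using this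

include hd hv hw in
theorem cfun_zero (κ : Cube P) (h : cfun D v w k d κ = 0) :
    ∃ u ∈ sp (v κ) {j | j.1 < d}, u ∈ sp (w κ) {j | d ≤ j.1} ∧ u ≠ 0 := by
  have hk := k.2
  have hσ : D.σ k ≠ 0 := by rcases D.σ_sq k with h | h <;> rw [h] <;> norm_num
  have hm : (cmat D v w k d κ).det = 0 := by
    unfold cfun at h
    rcases mul_eq_zero.1 h with h | h
    · rcases mul_eq_zero.1 h with h | h
      · rcases mul_eq_zero.1 h with h | h
        · exact absurd h hσ
        · exact h
      · exact absurd h (detA_ne D k d hd v hv κ)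
    · exact absurd h (detW_ne D k d hd v w hw κ)
  obtain ⟨c, hc, hc0⟩ := Matrix.exists_mulVec_eq_zero_iff.2 hm
  set x : Fin N → Fin N → ℝ := fun j => if j.1 < d then v κ j else w κ j with hx
  have h1 : D.Jp k.1 κ (∑ j, c j • x j) = 0 := by
    have h2 : pr D.e N (D.Jp k.1 κ (∑ j, c j • x j)) = 0 := by
      rw [pr_eq_zero_iff D.orth]
      intro i _
      have := congrFun hc0 i
      rw [Matrix.mulVec, dotProduct, Pi.zero_apply] at this
      rw [map_sum, inner_sum, ← this]
      refine Finset.sum_congr rfl fun j _ => ?_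
      rw [map_smul, real_inner_smul_right]
      simp only [cmat, hx]
      ring
    have h3 := D.coneN_p k.1 (by omega) κ (∑ j, c j • x j)
    rw [h2, norm_zero] at h3
    exact eq_zero_of_norms D.orth N _ (by rw [h2, norm_zero]) (by
      rw [h2]; exact le_antisymm h3 (norm_nonneg _))
  have h2 : ∑ j, c j • x j = 0 := D.inj k.1 (by omega) κ _ h1
  set cv : Fin N → ℝ := fun j => if j.1 < d then c j else 0 with hcv
  set cw : Fin N → ℝ := fun j => if j.1 < d then 0 else - c j with hcw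
  have h3 : ∑ j, cv j • v κ j = ∑ j, cw j • w κ j := by
    rw [← sub_eq_zero, ← Finset.sum_sub_distrib, ← h2]
    refine Finset.sum_congr rfl fun j _ => ?_
    by_cases hj : j.1 < d
    · simp [hcv, hcw, hx, hj]
    · simp [hcv, hcw, hx, hj]
  refine ⟨∑ j, cv j • v κ j, sum_mem_sp _ _ _ (fun j hj => by
      simp only [hcv]; exact if_neg hj), ?_, ?_⟩
  · rw [h3]
    refine sum_mem_sp _ _ _ (fun j hj => ?_)
    have : j.1 < d := by simpa using hj
    simp [hcw, this]
  · intro h0
    have c1 := (Fintype.linearIndependent_iff.1 (hv.2.1 κ)) cv h0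
    rw [h3] at h0
    have c2 := (Fintype.linearIndependent_iff.1 (hw.2.1 κ)) cw h0
    apply hc
    funext j
    by_cases hj : j.1 < d
    · have := c1 j; simpa [hcv, hj] using this
    · have := c2 j; simpa [hcw, hj] using this

end Gate

/-- Poincaré–Miranda on the cube as a type. -/
theorem pm_cube (F : Fin P → Cube P → ℝ) (hF : ∀ k, Continuous (F k))
    (h1 : ∀ k κ, (κ k : ℝ) = 1 → 0 ≤ F k κ) (h2 : ∀ k κ, (κ k : ℝ) = -1 → F k κ ≤ 0) :
    ∃ κ : Cube P, ∀ k, F k κ = 0 := by
  let pj : (Fin P → ℝ) → Cube P := fun x i => Set.projIcc (-1 : ℝ) 1 (by norm_num) (x i)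
  have hpj : Continuous pj :=
    continuous_pi fun i => continuous_projIcc.comp (continuous_apply i)
  obtain ⟨x, hx, hx0⟩ := poincare_miranda (fun x k => F k (pj x))
    (continuous_pi fun k => (hF k).comp hpj).continuousOn
    (fun x hx i hi => h1 i _ (by
      simp only [pj, hi, Set.projIcc_right]))
    (fun x hx i hi => h2 i _ (by
      simp only [pj, hi, Set.projIcc_left]))
  exact ⟨pj x, hx0⟩

/-- One sector: scalar functions whose common zeros give flags. -/
theorem sector_flags (D : MixData H N P) : ∃ F : Fin P → Cube P → ℝ,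
    (∀ k, D.d k ≠ none → Continuous (F k)) ∧
    (∀ k, D.d k ≠ none → ∀ κ, (κ k : ℝ) = 1 → 0 ≤ F k κ) ∧
    (∀ k, D.d k ≠ none → ∀ κ, (κ k : ℝ) = -1 → F k κ ≤ 0) ∧
    ∀ κ, (∀ k, D.d k ≠ none → F k κ = 0) → Nonempty (Flags D κ) := by
  classical
  obtain ⟨v, hv1, hv2⟩ := V_chain D
  obtain ⟨w, hw1, hw2⟩ := U_chain D
  refine ⟨fun k => cfun D (v (k.1 + 1)) (w k.1) k ((D.d k).getD 0), ?_, ?_, ?_, ?_⟩
  · intro k _
    have hk := k.2
    exact cfun_continuous D _ _ k _ (hv1 (k.1 + 1) (by omega)).1 (hw1 k.1 (by omega)).1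
  · intro k hk κ hκ
    obtain ⟨d, hd⟩ := Option.ne_none_iff_exists'.1 hk
    have hkP := k.2
    have := cfun_sign D k d hd _ _ (hv1 (k.1 + 1) (by omega)) (hw1 k.1 (by omega)) κ (Or.inl hκ)
    rw [hκ, one_mul] at this
    simp only [hd, Option.getD_some]
    exact this.le
  · intro k hk κ hκ
    obtain ⟨d, hd⟩ := Option.ne_none_iff_exists'.1 hk
    have hkP := k.2
    have := cfun_sign D k d hd _ _ (hv1 (k.1 + 1) (by omega)) (hw1 k.1 (by omega)) κ (Or.inr hκ)
    rw [hκ] at this
    simp only [hd, Option.getD_some]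
    linarith
  · intro κ hκ
    refine ⟨{ V := fun q l => sp (v q κ) {j | j.1 < l}
              U := fun q l => sp (w q κ) {j | l ≤ j.1}
              V_mono := ?_, U_anti := ?_, finrank_V := ?_, finrank_U := ?_, cone_V := ?_,
              cone_U := ?_, V_const := ?_, U_const := ?_, meet := ?_ }⟩
    · intro q _ l _ _
      refine sp_mono _ fun j hj => ?_
      simp only [Set.mem_ofPred_eq] at hj ⊢; omega
    · intro q _ l _ _
      refine sp_mono _ fun j hj => ?_
      simp only [Set.mem_ofPred_eq] at hj ⊢; omega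
    · intro q hq l _ hl
      rw [finrank_sp _ ((hv1 q hq).2.1 κ)]
      exact card_lt_set l hl
    · intro q hq l _ hl
      rw [finrank_sp _ ((hw1 q hq).2.1 κ)]
      exact card_ge_set l hl
    · intro q hq l h1 h2 u hu
      exact (hv1 q hq).2.2 κ l h1 h2 u hu
    · intro q hq l h1 h2 u hu
      exact (hw1 q hq).2.2 κ l h1 h2 u hu
    · intro k l h1 h2 h3
      exact hv2 k κ l h1 h2 h3
    · intro k l h1 h2 h3
      exact hw2 k κ l h1 h2 h3
    · intro k l hd
      have hkP := k.2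
      have h0 := hκ k (by rw [hd]; simp)
      simp only [hd, Option.getD_some] at h0
      exact cfun_zero D k l hd _ _ (hv1 (k.1 + 1) (by omega)) (hw1 k.1 (by omega)) κ h0

/-- **PART A1**: finitely many (indeed arbitrarily many) sectors, one common parameter. -/
theorem exists_flags {ι : Type*} {Hs : ι → Type*} [∀ s, NormedAddCommGroup (Hs s)]
    [∀ s, InnerProductSpace ℝ (Hs s)] {Ns : ι → ℕ} (D : ∀ s, MixData (Hs s) (Ns s) P)
    (huniq : ∀ k s s', (D s).d k ≠ none → (D s').d k ≠ none → s = s') :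
    ∃ κ : Cube P, ∀ s, Nonempty (Flags (D s) κ) := by
  classical
  choose F hF1 hF2 hF3 hF4 using fun s => sector_flags (D s)
  let G : Fin P → Cube P → ℝ := fun k κ =>
    if h : ∃ s, (D s).d k ≠ none then F h.choose k κ else (κ k : ℝ)
  obtain ⟨κ, hκ⟩ := pm_cube G (by
    intro k
    by_cases h : ∃ s, (D s).d k ≠ none
    · simp only [G, h, dif_pos]
      exact hF1 _ k h.choose_spec
    · simp only [G, h, dif_neg, not_false_eq_true]
      exact continuous_subtype_val.comp (continuous_apply k)) (by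
    intro k κ hκ
    by_cases h : ∃ s, (D s).d k ≠ none
    · simp only [G, h, dif_pos]
      exact hF2 _ k h.choose_spec κ hκ
    · simp only [G, h, dif_neg, not_false_eq_true, hκ]
      norm_num) (by
    intro k κ hκ
    by_cases h : ∃ s, (D s).d k ≠ none
    · simp only [G, h, dif_pos]
      exact hF3 _ k h.choose_spec κ hκ
    · simp only [G, h, dif_neg, not_false_eq_true, hκ]
      norm_num)
  refine ⟨κ, fun s => hF4 s κ fun k hk => ?_⟩
  have h : ∃ s, (D s).d k ≠ none := ⟨s, hk⟩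
  have h1 := hκ k
  simp only [G, h, dif_pos] at h1
  have h2 : h.choose = s := huniq k _ _ h.choose_spec hk
  rw [h2] at h1
  exact h1

end Crest.Agent.R202.Mix
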