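import Mathlib
import Crest.Agent.R202.MixAsym
import Crest.Agent.R202.MixFlag

/-! # Row 202, PART A: the mixing theorem (helper14, on top of helper206's `exists_flags`) -/

set_option autoImplicit false

open scoped InnerProductSpace Topology
open Filter Finset

namespace Crest.Agent.R202.Mix

/-- **THE MIXING THEOREM.**  Finitely many sectors, one schedule; the constant `C` does not depend
on the number of homes, on the spaces and on the data; one parameter for all sectors. -/
theorem mixing {ι : Type*} [Finite ι] (sd : ι → SecData) (S : Sched)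
    (hM : ∀ s, (sd s).N - (sd s).i0 ≤ S.M)
    (huniq : ∀ k s s', (k + (sd s).off) % S.M < (sd s).N - (sd s).i0 →
      (k + (sd s').off) % S.M < (sd s').N - (sd s').i0 → s = s')
    {K : ℝ} (hK : ∀ s, (sd s).mean + S.δ < K) :
    ∃ C : ℝ, 0 < C ∧ ∀ (P : ℕ) (Hs : ι → Type*) [∀ s, NormedAddCommGroup (Hs s)]
      [∀ s, InnerProductSpace ℝ (Hs s)] (D : ∀ s, MixData (Hs s) (sd s).N P)
      (_ : ∀ s, Fits (sd s) S (D s)),
      ∃ κ : Cube P, ∀ s, ∀ q ≤ P, ∀ u,
        ‖(D s).Jm q κ u‖ ≤ C * Real.exp (K * ∑ i ∈ range q, S.T i) * ‖(D s).Jm 0 κ u‖ ∧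
        ‖(D s).Jp q κ u‖ ≤ C * Real.exp (K * ∑ i ∈ range q, S.T i) * ‖(D s).Jm 0 κ u‖ := by
  classical
  choose C hC0 hC using fun s => uniform_growth (sd s) S (hM s) (hK s)
  cases nonempty_fintype ι
  refine ⟨1 + ∑ s, C s, by
    have : 0 ≤ ∑ s, C s := sum_nonneg fun s _ => (hC0 s).le
    linarith, ?_⟩
  intro P Hs _ _ D hf
  obtain ⟨κ, hκ⟩ := exists_flags D (by
    intro k s s' h1 h2
    refine huniq k.1 s s' ?_ ?_
    · by_contra h
      exact h1 (by rw [(hf s).d k, if_neg h])
    · by_contra h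
      exact h2 (by rw [(hf s').d k, if_neg h]))
  refine ⟨κ, fun s q hq u => ?_⟩
  obtain ⟨F⟩ := hκ s
  have h := hC s (Hs s) P (D s) (hf s) κ F q hq u
  have hle : C s ≤ 1 + ∑ s, C s := by
    have := single_le_sum (f := C) (fun s _ => (hC0 s).le) (mem_univ s)
    linarith
  have h2 : C s * Real.exp (K * ∑ i ∈ range q, S.T i) * ‖(D s).Jm 0 κ u‖ ≤
      (1 + ∑ s, C s) * Real.exp (K * ∑ i ∈ range q, S.T i) * ‖(D s).Jm 0 κ u‖ := by
    gcongr
  exact ⟨h.1.trans h2, h.2.trans h2⟩

/-- Existence of a schedule of slots: sector `s` gets `m s` consecutive slots. -/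
theorem exists_slots {n : ℕ} (m : Fin n → ℕ) :
    ∃ (M : ℕ) (off : Fin n → ℕ), 1 ≤ M ∧ (∀ s, m s ≤ M) ∧
      ∀ k s s', (k + off s) % M < m s → (k + off s') % M < m s' → s = s' := by
  set st : ℕ → ℕ := fun i => ∑ j : Fin n, if j.1 < i then m j else 0 with hst
  have hmono : ∀ i j, i ≤ j → st i ≤ st j := by
    intro i j hij
    refine sum_le_sum fun a _ => ?_
    split_ifs with h1 h2
    · exact le_rfl
    · omega
    · exact Nat.zero_le _
    · exact le_rfl
  have hsucc : ∀ s : Fin n, st (s.1 + 1) = st s.1 + m s := by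
    intro s
    have h1 : st (s.1 + 1) = ∑ j : Fin n, ((if j.1 < s.1 then m j else 0) +
        if j = s then m j else 0) := by
      refine sum_congr rfl fun j _ => ?_
      by_cases hj : j = s
      · subst hj; simp
      · have : j.1 ≠ s.1 := fun h => hj (Fin.ext h)
        by_cases h1 : j.1 < s.1
        · simp [h1, hj, show j.1 < s.1 + 1 by omega]
        · simp [h1, hj, show ¬ j.1 < s.1 + 1 by omega]
    rw [h1, sum_add_distrib]
    congr 1
    simp
  have hle : ∀ s : Fin n, st s.1 + m s ≤ st n := by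
    intro s
    rw [← hsucc]
    exact hmono _ _ s.2
  refine ⟨st n + 1, fun s => st n + 1 - st s.1, by omega, fun s => ?_, ?_⟩
  · have := hle s
    omega
  · -- the residue lies in the slot interval
    have key : ∀ k (s : Fin n), (k + (st n + 1 - st s.1)) % (st n + 1) < m s →
        st s.1 ≤ k % (st n + 1) ∧ k % (st n + 1) < st s.1 + m s := by
      intro k s h
      have h1 := hle s
      have h2 : k % (st n + 1) < st n + 1 := Nat.mod_lt _ (by omega)
      have h3 : (k + (st n + 1 - st s.1)) % (st n + 1) =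
          (k % (st n + 1) + (st n + 1 - st s.1)) % (st n + 1) := by
        rw [Nat.add_mod, Nat.add_mod (k % (st n + 1))]; simp
      rw [h3] at h
      by_cases hc : st s.1 ≤ k % (st n + 1)
      · have h4 : k % (st n + 1) + (st n + 1 - st s.1) =
            (k % (st n + 1) - st s.1) + (st n + 1) := by omega
        rw [h4, Nat.add_mod_right, Nat.mod_eq_of_lt (by omega)] at h
        omega
      · rw [Nat.mod_eq_of_lt (by omega)] at h
        omega
    intro k s s' h h'
    have h1 := key k s h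
    have h2 := key k s' h'
    by_contra hne
    have hne' : s.1 ≠ s'.1 := fun h => hne (Fin.ext h)
    rcases Nat.lt_or_gt_of_ne hne' with hlt | hlt
    · have := hmono (s.1 + 1) s'.1 hlt
      rw [hsucc] at this
      omega
    · have := hmono (s'.1 + 1) s.1 hlt
      rw [hsucc] at this
      omega

/-- The concrete schedule `T q = A (q+1)^2`. -/
theorem sq_T_inf {A : ℝ} (hA : 0 < A) : Tendsto (fun q : ℕ => A * ((q : ℝ) + 1) ^ 2) atTop atTop := by
  refine Tendsto.const_mul_atTop hA ?_
  have h1 : Tendsto (fun q : ℕ => (q : ℝ) + 1) atTop atTop :=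
    tendsto_atTop_add_const_right _ _ tendsto_natCast_atTop_atTop
  exact (tendsto_pow_atTop two_ne_zero).comp h1

theorem sq_T_rel {A : ℝ} (hA : 0 < A) : Tendsto (fun q : ℕ =>
    (A * (((q + 1 : ℕ) : ℝ) + 1) ^ 2 - A * ((q : ℝ) + 1) ^ 2) / (A * ((q : ℝ) + 1) ^ 2))
    atTop (𝓝 0) := by
  have h1 : Tendsto (fun q : ℕ => (q : ℝ) + 1) atTop atTop :=
    tendsto_atTop_add_const_right _ _ tendsto_natCast_atTop_atTop
  have h2 : Tendsto (fun q : ℕ => 2 * ((q : ℝ) + 1)⁻¹ + (((q : ℝ) + 1)⁻¹) ^ 2) atTop (𝓝 0) := by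
    have h3 := tendsto_inv_atTop_zero.comp h1
    have h4 := (h3.const_mul 2).add (h3.pow 2)
    simpa using h4
  refine h2.congr fun q => ?_
  have hq : (q : ℝ) + 1 ≠ 0 := by positivity
  push_cast
  field_simp
  ring

end Crest.Agent.R202.Mix
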