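import Mathlib

/-!
Row 202, GLUE (helper632): cyclic schedule of the designated (sector, cut) pairs.
`M = ∑ w i` slots; the slots of the sector `i` are consecutive.
-/

set_option autoImplicit false

namespace Crest.Agent.R202.Main

theorem exists_schedule_fin {r : ℕ} (w : Fin r → ℕ) (hM : 0 < ∑ i, w i) :
    ∃ (jt : ℕ → (i : Fin r) × Fin (w i)) (off : Fin r → ℕ), ∀ k i,
      ((k + off i) % (∑ i, w i) < w i ↔ (jt k).1 = i) ∧
      ((jt k).1 = i → ((jt k).2 : ℕ) = (k + off i) % (∑ i, w i)) := by
  classical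
  set M := ∑ i, w i with hMdef
  let pre : Fin r → ℕ := fun i => ∑ j : Fin i.1, w (Fin.castLE i.2.le j)
  have hpre : ∀ i : Fin r, pre i + w i ≤ M := by
    intro i
    have h1 : w i ≤ M - pre i ∧ pre i ≤ M := by
      have h2 := (finSigmaFinEquiv (n := w))
      by_cases hw : w i = 0
      · refine ⟨by omega, ?_⟩
        have h3 : pre i = ∑ j ∈ Finset.univ.filter (fun j : Fin r => j < i), w j := by
          symm
          refine Finset.sum_bij' (fun (j : Fin r) (hj : j ∈ _) =>
              (⟨j.1, by simpa using hj⟩ : Fin i.1)) (fun j _ => Fin.castLE i.2.le j) ?_ ?_ ?_ ?_ ?_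
          · intro a ha; exact Finset.mem_univ _
          · intro a ha
            rw [Finset.mem_filter]
            refine ⟨Finset.mem_univ _, ?_⟩
            exact a.2
          · intro a ha; rfl
          · intro a ha; rfl
          · intro a ha; rfl
        rw [h3]
        exact Finset.sum_le_sum_of_subset (Finset.filter_subset _ _)
      · have h4 : ((finSigmaFinEquiv ⟨i, ⟨w i - 1, by omega⟩⟩ : Fin (∑ i, w i)) : ℕ) < M :=
          (finSigmaFinEquiv ⟨i, ⟨w i - 1, by omega⟩⟩).2
        rw [finSigmaFinEquiv_apply] at h4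
        simp only at h4
        change pre i + (w i - 1) < M at h4
        omega
    omega
  let jt : ℕ → (i : Fin r) × Fin (w i) := fun k =>
    finSigmaFinEquiv.symm ⟨k % M, Nat.mod_lt _ hM⟩
  have hjt : ∀ k, pre (jt k).1 + ((jt k).2 : ℕ) = k % M := by
    intro k
    have h1 : finSigmaFinEquiv (jt k) = ⟨k % M, Nat.mod_lt _ hM⟩ := by simp [jt]
    have h2 := congrArg Fin.val h1
    rw [finSigmaFinEquiv_apply] at h2
    exact h2
  refine ⟨jt, fun i => M - pre i, ?_⟩
  intro k i
  have hs : k % M < M := Nat.mod_lt _ hM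
  have hp := hpre i
  -- value of the slot
  have hval : (k + (M - pre i)) % M = if pre i ≤ k % M then k % M - pre i
      else k % M + (M - pre i) := by
    rw [Nat.add_mod]
    split_ifs with h
    · by_cases h0 : pre i = 0
      · rw [h0, Nat.sub_zero, Nat.mod_self, Nat.add_zero, Nat.mod_mod, Nat.sub_zero]
      · rw [Nat.mod_eq_of_lt (show M - pre i < M by omega)]
        rw [show k % M + (M - pre i) = (k % M - pre i) + M by omega, Nat.add_mod_right,
          Nat.mod_eq_of_lt (by omega)]
    · rw [Nat.mod_eq_of_lt (show M - pre i < M by omega), Nat.mod_eq_of_lt (by omega)]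
  have hiff : (k + (M - pre i)) % M < w i ↔ pre i ≤ k % M ∧ k % M < pre i + w i := by
    rw [hval]
    split_ifs with h
    · omega
    · constructor
      · intro h1; omega
      · intro h1; omega
  -- uniqueness of the block
  have huniq : ∀ i' : Fin r, pre i' ≤ k % M → k % M < pre i' + w i' → (jt k).1 = i' := by
    intro i' h1 h2
    have h3 : finSigmaFinEquiv ⟨i', (⟨k % M - pre i', by omega⟩ : Fin (w i'))⟩
        = (⟨k % M, hs⟩ : Fin (∑ i, w i)) := by
      apply Fin.ext
      rw [finSigmaFinEquiv_apply]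
      change pre i' + (k % M - pre i') = k % M
      omega
    have h4 : jt k = ⟨i', (⟨k % M - pre i', by omega⟩ : Fin (w i'))⟩ := by
      simp only [jt]
      rw [← h3, Equiv.symm_apply_apply]
    rw [h4]
  have hblock := hjt k
  have hlt : ((jt k).2 : ℕ) < w (jt k).1 := (jt k).2.2
  constructor
  · rw [hiff]
    constructor
    · rintro ⟨h1, h2⟩
      exact huniq i h1 h2
    · rintro rfl
      omega
  · rintro rfl
    show ((jt k).2 : ℕ) = (k + (M - pre (jt k).1)) % M
    rw [hval, if_pos (by omega)]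
    omega

/-- cyclic schedule: `jt k` = designated pair of gate `k` -/
theorem exists_schedule {ι : Type} [Fintype ι] (w : ι → ℕ) (hM : 0 < ∑ i, w i) :
    ∃ (jt : ℕ → (i : ι) × Fin (w i)) (off : ι → ℕ), ∀ k i,
      ((k + off i) % (∑ i, w i) < w i ↔ (jt k).1 = i) ∧
      ((jt k).1 = i → ((jt k).2 : ℕ) = (k + off i) % (∑ i, w i)) := by
  classical
  let E := Fintype.equivFin ι
  have hsum : ∑ i : Fin (Fintype.card ι), w (E.symm i) = ∑ i, w i :=
    Equiv.sum_comp E.symm w
  obtain ⟨jt, off, h⟩ := exists_schedule_fin (fun i => w (E.symm i)) (by rw [hsum]; exact hM)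
  rw [hsum] at h
  refine ⟨fun k => ⟨E.symm (jt k).1, (jt k).2⟩, fun i => off (E i), ?_⟩
  intro k i
  have h1 := h k (E i)
  rw [Equiv.symm_apply_apply] at h1
  have h2 : E.symm (jt k).1 = i ↔ (jt k).1 = E i := by
    constructor
    · intro h; rw [← h, Equiv.apply_symm_apply]
    · intro h; rw [h, Equiv.symm_apply_apply]
  refine ⟨?_, ?_⟩
  · show _ ↔ E.symm (jt k).1 = i
    rw [h2]; exact h1.1
  · intro h3
    exact h1.2 (h2.1 h3)

end Crest.Agent.R202.Main
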