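import Crest.Agent.R202.Lim5

/-!
# Row 202, part F: the limit function
-/

set_option autoImplicit false
open MeasureTheory Metric Set Filter Topology
open scoped ContDiff RealInnerProductSpace ENNReal
open Crest.GeometryTopology.CoordMetric
open Crest.Agent.R202.Ell (divA EllRegularity)

namespace Crest.Agent.R202.Lim

noncomputable section

variable {n : ℕ}

lemma continuous_divA {A : EuclideanSpace ℝ (Fin n) → Matrix (Fin n) (Fin n) ℝ}
    (hA : ∀ i l, ContDiff ℝ ∞ fun x => A x i l)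
    {φ : EuclideanSpace ℝ (Fin n) → ℝ} (hφ : ContDiff ℝ ∞ φ) :
    Continuous (divA A φ) := by
  have hpφ : ∀ j, ContDiff ℝ ∞ (pderiv j φ) := by
    intro j
    have : ContDiff ℝ ∞ (fderiv ℝ φ) := hφ.fderiv_right (m := ∞) (by norm_cast)
    exact this.clm_apply contDiff_const
  unfold divA
  refine continuous_finsetSum _ fun i _ => ?_
  apply continuous_pderiv
  have : ContDiff ℝ ∞ (fun y => ∑ j, A y i j * pderiv j φ y) :=
    ContDiff.sum fun j _ => (hA i j).mul (hpφ j)
  exact this.of_le (by norm_cast)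

lemma divA_eq_zero_of_notMem {A : EuclideanSpace ℝ (Fin n) → Matrix (Fin n) (Fin n) ℝ}
    {φ : EuclideanSpace ℝ (Fin n) → ℝ} {x : EuclideanSpace ℝ (Fin n)}
    (hx : x ∉ tsupport φ) : divA A φ x = 0 := by
  unfold divA
  refine Finset.sum_eq_zero fun i _ => ?_
  apply pderiv_eq_zero_of_notMem
  intro h
  apply hx
  refine closure_minimal ?_ (isClosed_tsupport φ) h
  intro y hy
  by_contra hn
  apply hy
  simp [pderiv_eq_zero_of_notMem hn]

lemma ind_sq {α : Type*} (B : Set α) (U : α → ℝ) (x : α) :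
    B.indicator U x ^ 2 = B.indicator (fun x => U x ^ 2) x := by
  by_cases hx : x ∈ B
  · simp [indicator_of_mem hx]
  · simp [indicator_of_notMem hx]

lemma mul_ind {α : Type*} (B : Set α) (U : α → ℝ) (x : α) :
    U x * B.indicator U x = B.indicator (fun x => U x ^ 2) x := by
  by_cases hx : x ∈ B
  · simp [indicator_of_mem hx, sq]
  · simp [indicator_of_notMem hx]

lemma mul_ind_le {α : Type*} (B : Set α) (u U : α → ℝ) (x : α) :
    |u x * B.indicator U x| ≤ (B.indicator (fun x => u x ^ 2) x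
      + B.indicator (fun x => U x ^ 2) x) / 2 := by
  by_cases hx : x ∈ B
  · simp only [indicator_of_mem hx]
    rw [abs_mul, ← sq_abs (u x), ← sq_abs (U x)]
    nlinarith [sq_nonneg (|u x| - |U x|)]
  · simp [indicator_of_notMem hx]

lemma weak_growth {κ : Type*} {F : Filter κ} [F.NeBot]
    {u : κ → EuclideanSpace ℝ (Fin n) → ℝ} {U : EuclideanSpace ℝ (Fin n) → ℝ}
    {B : Set (EuclideanSpace ℝ (Fin n))} (hB : MeasurableSet B) (hUL : MemLp (B.indicator U) 2)
    (hi : ∀ᶠ k in F, IntegrableOn (fun x => u k x ^ 2) B) {C : ℝ}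
    (hg : ∀ᶠ k in F, ∫ x in B, u k x ^ 2 ≤ C)
    (ht : Tendsto (fun k => ∫ x, u k x * B.indicator U x) F (𝓝 (∫ x, U x * B.indicator U x))) :
    ∫ x in B, U x ^ 2 ≤ C := by
  have hI : Integrable (B.indicator (fun x => U x ^ 2)) := by
    have := (memLp_two_iff_integrable_sq hUL.1).mp hUL
    simp_rw [ind_sq] at this
    exact this
  have e1 : ∫ x, U x * B.indicator U x = ∫ x in B, U x ^ 2 := by
    simp_rw [mul_ind]
    rw [integral_indicator hB]
  rw [e1] at ht
  have hle : ∀ᶠ k in F, ∫ x, u k x * B.indicator U x ≤ (C + ∫ x in B, U x ^ 2) / 2 := by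
    filter_upwards [hi, hg] with k hik hk
    have i1 : Integrable (B.indicator (fun x => u k x ^ 2)) := hik.integrable_indicator hB
    calc ∫ x, u k x * B.indicator U x
        ≤ |∫ x, u k x * B.indicator U x| := le_abs_self _
      _ ≤ ∫ x, (B.indicator (fun x => u k x ^ 2) x + B.indicator (fun x => U x ^ 2) x) / 2 := by
          rw [← Real.norm_eq_abs]
          refine norm_integral_le_of_norm_le ((i1.add hI).div_const 2) ?_
          exact Eventually.of_forall fun x => by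
            rw [Real.norm_eq_abs]; exact mul_ind_le B (u k) U x
      _ = ((∫ x in B, u k x ^ 2) + ∫ x in B, U x ^ 2) / 2 := by
          rw [integral_div, integral_add i1 hI, integral_indicator hB, integral_indicator hB]
      _ ≤ (C + ∫ x in B, U x ^ 2) / 2 := by linarith
  have := le_of_tendsto ht hle
  linarith

/-- **Limit theorem.** -/
theorem exists_limit (hreg : EllRegularity n) {κ : Type*} (𝒰 : Ultrafilter κ)
    (A : κ → EuclideanSpace ℝ (Fin n) → Matrix (Fin n) (Fin n) ℝ)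
    (Ai : EuclideanSpace ℝ (Fin n) → Matrix (Fin n) (Fin n) ℝ)
    (u : κ → EuclideanSpace ℝ (Fin n) → ℝ)
    (hA : ∀ᶠ k in 𝒰, ∀ i l, Continuous fun x => A k x i l)
    (hAi : ∀ i l, ContDiff ℝ ∞ fun x => Ai x i l) (hpos : ∀ x, (Ai x).PosDef)
    (hconv : ∀ R, ∀ ε > 0, ∀ᶠ k in 𝒰, ∀ x ∈ closedBall (0 : EuclideanSpace ℝ (Fin n)) R,
      ∀ i l, |A k x i l - Ai x i l| ≤ ε)
    (hu : ∀ᶠ k in 𝒰, ContDiff ℝ 1 (u k))
    (hen : ∀ R, ∃ C, ∀ᶠ k in 𝒰,
      ∫ x in closedBall (0 : EuclideanSpace ℝ (Fin n)) R, ‖fderiv ℝ (u k) x‖ ^ 2 ≤ C)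
    (Cg : ℝ → ℝ) (hg : ∀ R, ∀ᶠ k in 𝒰,
      ∫ x in ball (0 : EuclideanSpace ℝ (Fin n)) R, u k x ^ 2 ≤ Cg R)
    {r0 : ℝ} (hr0 : 0 < r0)
    (hw0 : ∀ φ : EuclideanSpace ℝ (Fin n) → ℝ, ContDiff ℝ ∞ φ → HasCompactSupport φ →
      tsupport φ ⊆ ball 0 r0 → ∀ᶠ k in 𝒰, ∫ x, Q (A k) (u k) φ x = 0)
    (hw1 : ∀ χ : ℝ → ℝ, ContDiff ℝ ∞ χ → HasCompactSupport χ → tsupport χ ⊆ Ioi 0 →
      ∀ p : MvPolynomial (Fin n) ℝ, ∀ᶠ k in 𝒰,
        ∫ x, Q (A k) (u k) (fun x => χ ‖x‖ * pe p x) x = 0) :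
    ∃ f : EuclideanSpace ℝ (Fin n) → ℝ, ContDiff ℝ ∞ f ∧ (∀ x, divA Ai f x = 0) ∧
      (∀ R, ∫ x in ball (0 : EuclideanSpace ℝ (Fin n)) R, f x ^ 2 ≤ Cg R) ∧
      ∀ (R : ℝ) (g : EuclideanSpace ℝ (Fin n) → ℝ), MemLp g 2 →
        (∀ x ∉ ball (0 : EuclideanSpace ℝ (Fin n)) R, g x = 0) →
        Tendsto (fun k => ∫ x, u k x * g x) 𝒰 (𝓝 (∫ x, f x * g x)) := by
  have huc : ∀ᶠ k in (𝒰 : Filter κ), Continuous (u k) := hu.mono fun k hk => hk.continuous
  obtain ⟨U, hUm, hUL, hUt⟩ := exists_weak_limit_loc 𝒰 u huc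
    (fun m => ⟨Cg ((m : ℝ) + 1), hg _⟩)
  -- growth
  have hU2 : ∀ R, ∫ x in ball (0 : EuclideanSpace ℝ (Fin n)) R, U x ^ 2 ≤ Cg R := by
    intro R
    refine weak_growth measurableSet_ball (hUL R) ?_ (hg R)
      (hUt R _ (hUL R) (fun x hx => indicator_of_notMem hx _))
    filter_upwards [huc] with k huk
    exact ((huk.pow 2).continuousOn.integrableOn_compact (isCompact_closedBall _ _)).mono_set
      ball_subset_closedBall
  -- local integrability
  have hUloc : LocallyIntegrable U := by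
    rw [locallyIntegrable_iff]
    intro K hK
    obtain ⟨R, hR⟩ := hK.isBounded.subset_ball 0
    have h1 : MemLp U 2 (volume.restrict (ball (0 : EuclideanSpace ℝ (Fin n)) R)) :=
      (memLp_indicator_iff_restrict measurableSet_ball).mp (hUL R)
    have hfin : IsFiniteMeasure (volume.restrict (ball (0 : EuclideanSpace ℝ (Fin n)) R)) :=
      ⟨by rw [Measure.restrict_apply_univ]; exact measure_ball_lt_top⟩
    have h2 : IntegrableOn U (ball (0 : EuclideanSpace ℝ (Fin n)) R) :=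
      h1.integrable (by norm_num)
    exact h2.mono_set hR
  -- the equation
  have hsym : ∀ x i l, Ai x i l = Ai x l i := by
    intro x i l
    have := (hpos x).isHermitian.apply l i
    simpa using this
  have hweak : ∀ φ : EuclideanSpace ℝ (Fin n) → ℝ, ContDiff ℝ ∞ φ → HasCompactSupport φ →
      tsupport φ ⊆ univ → ∫ x, U x * divA Ai φ x = ∫ x, (0 : EuclideanSpace ℝ (Fin n) → ℝ) x * φ x := by
    intro φ hφ hφc _
    have hT1 := tendsto_integral_mul_divA A Ai u hA hAi hsym hconv hu hen hr0 hw0 hw1 hφ hφc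
    have hcont := continuous_divA hAi hφ
    have hcs : HasCompactSupport (divA Ai φ) :=
      HasCompactSupport.intro hφc.isCompact fun x hx => divA_eq_zero_of_notMem hx
    obtain ⟨R, hR⟩ := hφc.isCompact.isBounded.subset_ball 0
    have hT2 := hUt R (divA Ai φ) (hcont.memLp_of_hasCompactSupport hcs)
      (fun x hx => divA_eq_zero_of_notMem fun h => hx (hR h))
    rw [tendsto_nhds_unique hT2 hT1]
    simp
  obtain ⟨f, hf1, hf2, hf3⟩ := hreg univ isOpen_univ Ai (fun i j => (hAi i j).contDiffOn)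
    (fun x _ => hpos x) 0 contDiffOn_const U (hUloc.locallyIntegrableOn univ) hweak
  have hfU : f =ᵐ[volume] U := by
    filter_upwards [hf2] with x hx using hx (mem_univ x)
  refine ⟨f, contDiffOn_univ.mp hf1, fun x => hf3 x (mem_univ x), fun R => ?_, fun R g hgL hgs => ?_⟩
  · have : ∫ x in ball (0 : EuclideanSpace ℝ (Fin n)) R, f x ^ 2
        = ∫ x in ball (0 : EuclideanSpace ℝ (Fin n)) R, U x ^ 2 := by
      apply integral_congr_ae
      filter_upwards [ae_restrict_of_ae hfU] with x hx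
      rw [hx]
    rw [this]; exact hU2 R
  · have : ∫ x, f x * g x = ∫ x, U x * g x := by
      apply integral_congr_ae
      filter_upwards [hfU] with x hx
      rw [hx]
    rw [this]; exact hUt R g hgL hgs

end

end Crest.Agent.R202.Lim
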