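import Crest.Agent.R202.GeoFinal
import Crest.Agent.R202.GeoDist
import Crest.Agent.R202.Moser
import Crest.Agent.R202.Lim6
import Crest.Agent.R202.EllFinal

/-!
Row 202, GLUE (helper632): from the Galerkin functions `F k j` on `ℝ^{m+3}` to the harmonic
functions of `MainThm` (limit, regularity, linear independence, pointwise growth).
-/

set_option autoImplicit false

open scoped ContDiff RealInnerProductSpace Gradient
open Set Filter Topology MeasureTheory Metric
open Crest.GeometryTopology.CoordMetric Crest.GeometryTopology.ChartCurvature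
open Crest.Agent.R202.Geo Crest.Agent.R202.Main

namespace Crest.Agent.R202.Top

variable {m : ℕ} {s θ : ℝ → ℝ} {P : ℝ → ℝ → ℂ → ℝ} {t0 X0 X1 : ℝ}

lemma gradient_apply {n : ℕ} (v : EuclideanSpace ℝ (Fin n) → ℝ) (x : EuclideanSpace ℝ (Fin n))
    (i : Fin n) : (∇ v x) i = pderiv i v x := by
  have h1 : ⟪∇ v x, EuclideanSpace.single i (1 : ℝ)⟫
      = fderiv ℝ v x (EuclideanSpace.single i 1) := by
    unfold gradient
    exact InnerProductSpace.toDual_symm_apply
  unfold pderiv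
  rw [← h1, EuclideanSpace.inner_single_right]
  simp

/-- A smooth solution is a weak solution in the sense of Moser. -/
theorem weakSol (h : Fam s θ P t0 X0 X1) {f : EuclideanSpace ℝ (Fin (m + 3)) → ℝ}
    (hf : ContDiff ℝ ∞ f) (hdiv : ∀ x, Ell.divA (coefF s θ P) f x = 0)
    (x0 : EuclideanSpace ℝ (Fin (m + 3))) (R : ℝ) :
    Moser.WeakSol (Fam.coefL s θ P) f x0 R := by
  refine Moser.weakSol_of_div
    (X := fun i x => ∑ j, coefF s θ P x i j * pderiv j f x) (fun i => ?_) (fun x _ i => ?_)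
    (fun x _ => ?_)
  · refine ContDiff.contDiffOn ?_
    refine ContDiff.sum fun j _ => ContDiff.mul ((h.contDiff_coefF i j).of_le (by norm_cast)) ?_
    unfold pderiv
    exact (hf.fderiv_right (m := 1) (by norm_cast)).clm_apply contDiff_const
  · rw [Fam.coefL_apply]
    exact Finset.sum_congr rfl fun j _ => by rw [gradient_apply]
  · exact hdiv x

/-- Pointwise growth from the growth of the `L²` norms on balls. -/
theorem growth_of_L2 {K : ℝ} (h : Fam s θ P t0 X0 X1) (hb : Fam.Bd s θ P K)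
    {f : EuclideanSpace ℝ (Fin (m + 3)) → ℝ} (hf : ContDiff ℝ ∞ f)
    (hdiv : ∀ x, Ell.divA (coefF s θ P) f x = 0) {C0 : ℝ} {k : ℕ}
    (hg : ∀ R, 0 ≤ R → ∫ x in ball (0 : EuclideanSpace ℝ (Fin (m + 3))) R, f x ^ 2 ≤
      C0 * (1 + R) ^ (m + 3 + 2 * k)) :
    ∃ C : ℝ, ∀ x, |f x| ≤ C * (1 + riemDist (gfam s θ P) univ 0 x) ^ k := by
  obtain ⟨lam, Lam, hlam, hLam, hell⟩ := Fam.coefL_ell m K hb.one_le
  obtain ⟨C, hC, H⟩ := Moser.sup_bound (n := m + 3) (by omega) Lam hlam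
  have hC0 : 0 ≤ C0 := by
    have h1 := hg 0 le_rfl
    simp at h1
    exact h1
  set N : ℕ := m + 3 + 2 * k with hN
  refine ⟨Real.sqrt (C * C0 * 3 ^ N), fun x => ?_⟩
  rw [(h.radialMetric (m := m)).riemDist_zero x]
  set r : ℝ := 1 + ‖x‖ with hr
  have hr1 : 1 ≤ r := by rw [hr]; linarith [norm_nonneg x]
  have hr0 : 0 < r := by linarith
  have h1 := H (Fam.coefL s θ P) f 0 r hr0 h.continuous_coefL (hf.of_le (by norm_cast))
    (hell s θ P t0 X0 X1 h hb 0 (2 * r)) (weakSol h hf hdiv 0 (2 * r)) x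
    (by rw [mem_ball_zero_iff, hr]; linarith)
  have h2 := hg (2 * r) (by linarith)
  have h3 : (1 + 2 * r) ^ N ≤ (3 * r) ^ N := pow_le_pow_left₀ (by linarith) (by linarith) N
  have h4 : f x ^ 2 ≤ (C * C0 * 3 ^ N) * (r ^ k) ^ 2 := by
    calc f x ^ 2 ≤ C * ((r ^ (m + 3))⁻¹ * ∫ y in ball (0 : EuclideanSpace ℝ (Fin (m + 3))) (2 * r),
          f y ^ 2) := h1
      _ ≤ C * ((r ^ (m + 3))⁻¹ * (C0 * (3 * r) ^ N)) := by
          refine mul_le_mul_of_nonneg_left (mul_le_mul_of_nonneg_left ?_ (by positivity)) hC.le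
          exact h2.trans (mul_le_mul_of_nonneg_left h3 hC0)
      _ = (C * C0 * 3 ^ N) * (r ^ k) ^ 2 := by
          rw [mul_pow, hN, pow_add r]
          have : r ^ (m + 3) ≠ 0 := by positivity
          field_simp
          ring
  have h5 := Real.abs_le_sqrt h4
  rwa [Real.sqrt_mul (by positivity), Real.sqrt_sq (by positivity)] at h5

/-- Linear independence from an almost orthonormal pairing. -/
theorem indep_of_pairing {n : ℕ} {J : Type*} [Fintype J] [DecidableEq J]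
    (f φ : J → EuclideanSpace ℝ (Fin n) → ℝ)
    (hint : ∀ i j, Integrable fun x => f j x * φ i x) {ε : ℝ} (hε : ε * Fintype.card J < 1)
    (hp : ∀ i j, |(∫ x, f j x * φ i x) - if i = j then 1 else 0| ≤ ε) :
    LinearIndependent ℝ f := by
  classical
  rw [Fintype.linearIndependent_iff]
  intro c hc
  have h1 : ∀ i, ∑ j, c j * (∫ x, f j x * φ i x) = 0 := by
    intro i
    have e1 : ∑ j, c j * (∫ x, f j x * φ i x) = ∫ x, ∑ j, c j * (f j x * φ i x) := by
      rw [integral_finsetSum _ fun j _ => (hint i j).const_mul _]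
      exact Finset.sum_congr rfl fun j _ => (integral_const_mul _ _).symm
    have e2 : ∀ x, ∑ j, c j * (f j x * φ i x) = 0 := by
      intro x
      have := congrFun hc x
      rw [Finset.sum_apply] at this
      have e3 : ∑ j, c j * (f j x * φ i x) = (∑ j, (c j • f j) x) * φ i x := by
        rw [Finset.sum_mul]
        exact Finset.sum_congr rfl fun j _ => by simp only [Pi.smul_apply, smul_eq_mul]; ring
      rw [e3, this]; simp
    rw [e1]
    simp [e2]
  have h2 : ∀ i, |c i| ≤ ε * ∑ j, |c j| := by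
    intro i
    have e1 : c i = -∑ j, c j * ((∫ x, f j x * φ i x) - if i = j then 1 else 0) := by
      simp only [mul_sub, Finset.sum_sub_distrib, h1 i]
      simp
    rw [e1, abs_neg, Finset.mul_sum]
    refine (Finset.abs_sum_le_sum_abs _ _).trans (Finset.sum_le_sum fun j _ => ?_)
    rw [abs_mul, mul_comm]
    exact mul_le_mul_of_nonneg_right (hp i j) (abs_nonneg _)
  have h3 : ∑ i, |c i| ≤ ε * Fintype.card J * ∑ j, |c j| := by
    calc ∑ i, |c i| ≤ ∑ _i : J, ε * ∑ j, |c j| := Finset.sum_le_sum fun i _ => h2 i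
      _ = ε * Fintype.card J * ∑ j, |c j| := by
          rw [Finset.sum_const, Finset.card_univ, nsmul_eq_mul]; ring
  have h4 : ∑ i, |c i| = 0 := by
    have h5 : 0 ≤ ∑ i, |c i| := Finset.sum_nonneg fun i _ => abs_nonneg _
    rcases h5.eq_or_lt with h6 | h6
    · exact h6.symm
    · exfalso
      have := mul_lt_mul_of_pos_right hε h6
      linarith
  intro i
  have := (Finset.sum_eq_zero_iff_of_nonneg fun i _ => abs_nonneg (c i)).1 h4 i (Finset.mem_univ i)
  exact abs_eq_zero.1 this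

/-- The Galerkin functions on `ℝ^{m+3}`, everything that the limit needs. -/
structure LimFam (m : ℕ) (J : Type*) [Fintype J] [DecidableEq J] (k : ℕ)
    (A : ℕ → EuclideanSpace ℝ (Fin (m + 3)) → Matrix (Fin (m + 3)) (Fin (m + 3)) ℝ) where
  F : ℕ → J → EuclideanSpace ℝ (Fin (m + 3)) → ℝ
  r0 : ℝ
  r0_pos : 0 < r0
  reg : ∀ n j, ContDiff ℝ 1 (F n j)
  w0 : ∀ j, ∀ φ : EuclideanSpace ℝ (Fin (m + 3)) → ℝ, ContDiff ℝ ∞ φ → HasCompactSupport φ →
      tsupport φ ⊆ ball 0 r0 → ∀ᶠ n in atTop, ∫ x, Lim.Q (A n) (F n j) φ x = 0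
  w1 : ∀ j, ∀ χ : ℝ → ℝ, ContDiff ℝ ∞ χ → HasCompactSupport χ → tsupport χ ⊆ Ioi 0 →
      ∀ p : MvPolynomial (Fin (m + 3)) ℝ, ∀ᶠ n in atTop,
        ∫ x, Lim.Q (A n) (F n j) (fun x => χ ‖x‖ * Lim.pe p x) x = 0
  energy : ∀ R, ∃ C, ∀ᶠ n in atTop, ∀ j,
      ∫ x in closedBall (0 : EuclideanSpace ℝ (Fin (m + 3))) R, ‖fderiv ℝ (F n j) x‖ ^ 2 ≤ C
  C0 : ℝ
  growth : ∀ R, 0 ≤ R → ∀ᶠ n in atTop, ∀ j,
      ∫ x in ball (0 : EuclideanSpace ℝ (Fin (m + 3))) R, F n j x ^ 2 ≤
        C0 * (1 + R) ^ (m + 3 + 2 * k)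
  φ : J → EuclideanSpace ℝ (Fin (m + 3)) → ℝ
  φ_L2 : ∀ i, MemLp (φ i) 2
  φ_supp : ∃ R, ∀ i, ∀ x ∉ ball (0 : EuclideanSpace ℝ (Fin (m + 3))) R, φ i x = 0
  ε : ℝ
  ε_lt : ε * Fintype.card J < 1
  pair : ∀ᶠ n in atTop, ∀ i j, |(∫ x, F n j x * φ i x) - if i = j then 1 else 0| ≤ ε

/-- **From the Galerkin functions to harmonic functions.** -/
theorem harmonic_of_limFam {K : ℝ} (h : Fam s θ P t0 X0 X1)
    (hb : Fam.Bd s θ P K) {J : Type*} [Fintype J] [DecidableEq J] {k : ℕ}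
    {A : ℕ → EuclideanSpace ℝ (Fin (m + 3)) → Matrix (Fin (m + 3)) (Fin (m + 3)) ℝ}
    (L : LimFam m J k A) (𝒰 : Ultrafilter ℕ) (h𝒰 : (𝒰 : Filter ℕ) ≤ atTop)
    (hA : ∀ᶠ n in 𝒰, ∀ i l, Continuous fun x => A n x i l)
    (hconv : ∀ R, ∀ ε > 0, ∀ᶠ n in 𝒰, ∀ x ∈ closedBall (0 : EuclideanSpace ℝ (Fin (m + 3))) R,
      ∀ i l, |A n x i l - coefF s θ P x i l| ≤ ε) :
    ∃ f : J → EuclideanSpace ℝ (Fin (m + 3)) → ℝ, LinearIndependent ℝ f ∧
      ∀ j, IsHarmonicOn (gfam s θ P) univ (f j) ∧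
        ∃ C : ℝ, ∀ x, |f j x| ≤ C * (1 + riemDist (gfam s θ P) univ 0 x) ^ k := by
  classical
  have H : ∀ j, ∃ f : EuclideanSpace ℝ (Fin (m + 3)) → ℝ, ContDiff ℝ ∞ f ∧
      (∀ x, Ell.divA (coefF s θ P) f x = 0) ∧
      (∀ R, ∫ x in ball (0 : EuclideanSpace ℝ (Fin (m + 3))) R, f x ^ 2 ≤
        L.C0 * (1 + |R|) ^ (m + 3 + 2 * k)) ∧
      ∀ (R : ℝ) (φ : EuclideanSpace ℝ (Fin (m + 3)) → ℝ), MemLp φ 2 →
        (∀ x ∉ ball (0 : EuclideanSpace ℝ (Fin (m + 3))) R, φ x = 0) →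
        Tendsto (fun n => ∫ x, L.F n j x * φ x) 𝒰 (𝓝 (∫ x, f x * φ x)) := by
    intro j
    refine Lim.exists_limit (Ell.ell_regularity (m + 3)) 𝒰 A (coefF s θ P) (fun n => L.F n j)
      hA h.contDiff_coefF h.coefF_posDef hconv (Eventually.of_forall fun n => L.reg n j) ?_
      (fun R => L.C0 * (1 + |R|) ^ (m + 3 + 2 * k)) ?_ L.r0_pos
      (fun φ h1 h2 h3 => h𝒰 (L.w0 j φ h1 h2 h3))
      (fun χ h1 h2 h3 p => h𝒰 (L.w1 j χ h1 h2 h3 p))
    · intro R
      obtain ⟨C, hC⟩ := L.energy R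
      exact ⟨C, h𝒰 (hC.mono fun n hn => hn j)⟩
    · intro R
      rcases le_or_gt 0 R with hR | hR
      · have h1 := (L.growth R hR).mono fun n hn => hn j
        rw [abs_of_nonneg hR]
        exact h𝒰 h1
      · have h1 := L.growth 0 le_rfl
        refine h𝒰 (h1.mono fun n hn => ?_)
        have h2 := hn j
        rw [ball_eq_empty.2 hR.le]
        simp only [Measure.restrict_empty, integral_zero_measure]
        simp only [ball_zero, Measure.restrict_empty, integral_zero_measure, add_zero, one_pow,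
          mul_one] at h2
        positivity
  choose f hf1 hf2 hf3 hf4 using H
  obtain ⟨R, hR⟩ := L.φ_supp
  refine ⟨f, ?_, fun j => ⟨(h.isHarmonicOn_iff _).2 ⟨hf1 j, hf2 j⟩,
    growth_of_L2 h hb (hf1 j) (hf2 j)
      (fun R hR => by have := hf3 j R; rwa [abs_of_nonneg hR] at this)⟩⟩
  refine indep_of_pairing f L.φ (fun i j => ?_) L.ε_lt fun i j => ?_
  · -- integrability
    have h1 : (fun x => f j x * L.φ i x) =
        fun x => (ball (0 : EuclideanSpace ℝ (Fin (m + 3))) R).indicator (f j) x * L.φ i x := by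
      funext x
      by_cases hx : x ∈ ball (0 : EuclideanSpace ℝ (Fin (m + 3))) R
      · rw [indicator_of_mem hx]
      · rw [hR i x hx]; simp
    rw [h1]
    have h2 : MemLp ((ball (0 : EuclideanSpace ℝ (Fin (m + 3))) R).indicator (f j)) 2 := by
      rw [memLp_indicator_iff_restrict measurableSet_ball]
      have hc : Continuous (f j) := (hf1 j).continuous
      have : IsFiniteMeasure (volume.restrict (ball (0 : EuclideanSpace ℝ (Fin (m + 3))) R)) :=
        ⟨by rw [Measure.restrict_apply_univ]; exact measure_ball_lt_top⟩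
      obtain ⟨M, hM⟩ := (isCompact_closedBall (0 : EuclideanSpace ℝ (Fin (m + 3))) R).exists_bound_of_continuousOn
        hc.continuousOn
      exact MemLp.of_bound hc.aestronglyMeasurable M
        ((ae_restrict_iff' measurableSet_ball).2 (Eventually.of_forall fun x hx =>
          hM x (ball_subset_closedBall hx)))
    exact h2.integrable_mul (L.φ_L2 i)
  · have h1 := hf4 j R (L.φ i) (L.φ_L2 i) (hR i)
    have h2 : Tendsto (fun n => |(∫ x, L.F n j x * L.φ i x) - if i = j then 1 else 0|) 𝒰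
        (𝓝 |(∫ x, f j x * L.φ i x) - if i = j then 1 else 0|) := (h1.sub_const _).abs
    exact le_of_tendsto h2 (h𝒰 (L.pair.mono fun n hn => hn i j))

end Crest.Agent.R202.Top
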