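import Crest.Agent.R202.TopChoice
import Crest.Agent.R202.TopLim
import Crest.Agent.R202.SchGeo
import Crest.Agent.R202.SchConv
import Crest.Agent.R202.Mixing
import Crest.Agent.R202.SchedIdx

/-!
Row 202, GLUE (helper632): the frozen statement `BExport m` (everything that the Galerkin side has
to deliver, given the choices of Part C and the scheduled family of metrics).
-/

set_option autoImplicit false

open scoped ContDiff
open Set Filter Topology MeasureTheory Metric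
open Crest.GeometryTopology.CoordMetric
open Crest.Agent.R202.Geo Crest.Agent.R202.Main Crest.Agent.R202.CT Crest.Agent.R202.Sch
open Crest.Agent.R202.Mix (MixData SecData Sched Fits Cube)

noncomputable section

namespace Crest.Agent.R202.Top

/-- the parameter of `P` gates, extended by `1` -/
def extκ {P : ℕ} (κ : Cube P) : ℕ → ℝ := fun q => if h : q < P then (κ ⟨q, h⟩ : ℝ) else 1

/-- index type of the sectors -/
abbrev Sec {m : ℕ} {v : ℝ} {k : ℕ} (D : CountData m v k) : Type := {σ : ℕ × ℕ // σ ∈ D.S}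

/-- the cyclic schedule: gate `q` is of the type `jt q` -/
structure Slots {m : ℕ} {v : ℝ} {k : ℕ} (D : CountData m v k) where
  jt : ℕ → Gate D
  off : Sec D → ℕ
  M : ℕ
  M_pos : 1 ≤ M
  hM : ∀ σ : Sec D, D.N σ.1 - D.i0 σ.1 ≤ M
  active : ∀ (q : ℕ) (σ : Sec D), (q + off σ) % M < D.N σ.1 - D.i0 σ.1 ↔ (jt q).1.1 = σ.1
  cut : ∀ (q : ℕ) (σ : Sec D), (jt q).1.1 = σ.1 → (jt q).1.2 = D.i0 σ.1 + (q + off σ) % M

variable {m : ℕ} {v : ℝ} {k : ℕ} {D : CountData m v k} {εh : ℝ}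

/-- the scheduled `θ` of a choice -/
abbrev Choice.th (c : Choice D εh) (A : ℝ) (j : ℕ → Gate D) (κ : ℕ → ℝ) : ℝ → ℝ :=
  thY A c.prof D.b0_gt.le c.L j κ

/-- the scheduled `P` of a choice -/
abbrev Choice.P (c : Choice D εh) (A : ℝ) (j : ℕ → Gate D) (κ : ℕ → ℝ) : ℝ → ℝ → ℂ → ℝ :=
  PY A c.prof D.b0_gt.le c.L j κ

/-- the warping function -/
abbrev sfv (m : ℕ) (v : ℝ) : ℝ → ℝ := sf (-Real.log v / ((m : ℝ) + 2))

/-- coefficient field of the scheduled metric -/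
abbrev Choice.coef (c : Choice D εh) (A : ℝ) (j : ℕ → Gate D) (κ : ℕ → ℝ) :
    MetricField (m + 3) := coefF (sfv m v) (c.th A j κ) (c.P A j κ)

/-- structural facts of the scheduled family, as given by `sched_geoOut` -/
def Choice.SchedOK (c : Choice D εh) (K C A1 : ℝ) : Prop :=
  ∀ A : ℝ, A1 ≤ A → ∀ (j : ℕ → Gate D) (κ : ℕ → ℝ), (∀ q, κ q ∈ Icc (-1 : ℝ) 1) →
    Fam (sfv m v) (c.th A j κ) (c.P A j κ) 0 c.X0 c.X1 ∧
      ∀ t, RateAt (sfv m v) (c.th A j κ) (c.P A j κ) K (C / A) t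

/-- the constants (independent of the number `P` of gates) of the functions -/
structure BConst {m : ℕ} {v : ℝ} {k : ℕ} (D : CountData m v k) where
  r0 : ℝ
  C0 : ℝ
  CE : ℝ → ℝ
  φ : Idx D → EuclideanSpace ℝ (Fin (m + 3)) → ℝ
  ε : ℝ
  r0_pos : 0 < r0
  φ_L2 : ∀ i, MemLp (φ i) 2
  φ_supp : ∃ R, ∀ i, ∀ x ∉ ball (0 : EuclideanSpace ℝ (Fin (m + 3))) R, φ i x = 0
  ε_lt : ε * Fintype.card (Idx D) < 1

/-- the functions for `P` gates and a fixed parameter; `A` = coefficient field -/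
structure BFun {m : ℕ} {v : ℝ} {k : ℕ} {D : CountData m v k} (B : BConst D) (P : ℕ)
    (A : MetricField (m + 3)) (F : Idx D → EuclideanSpace ℝ (Fin (m + 3)) → ℝ) : Prop where
  reg : ∀ j, ContDiff ℝ 1 (F j)
  w0 : ∀ j, ∀ φ : EuclideanSpace ℝ (Fin (m + 3)) → ℝ, ContDiff ℝ ∞ φ → HasCompactSupport φ →
      tsupport φ ⊆ ball 0 B.r0 → ∫ x, Lim.Q A (F j) φ x = 0
  w1 : ∀ j, ∀ χ : ℝ → ℝ, ContDiff ℝ ∞ χ → HasCompactSupport χ → tsupport χ ⊆ Ioi 0 →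
      ∀ p : MvPolynomial (Fin (m + 3)) ℝ, p.totalDegree ≤ P →
        ∫ x, Lim.Q A (F j) (fun x => χ ‖x‖ * Lim.pe p x) x = 0
  energy : ∀ R : ℝ, R ≤ P → ∀ j,
      ∫ x in closedBall (0 : EuclideanSpace ℝ (Fin (m + 3))) R, ‖fderiv ℝ (F j) x‖ ^ 2 ≤ B.CE R
  growth : ∀ R : ℝ, 0 ≤ R → R ≤ P → ∀ j,
      ∫ x in ball (0 : EuclideanSpace ℝ (Fin (m + 3))) R, F j x ^ 2 ≤
        B.C0 * (1 + R) ^ (m + 3 + 2 * k)
  pair : ∀ i j, |(∫ x, F j x * B.φ i x) - if i = j then 1 else 0| ≤ B.ε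

/-- **The statement of PART B** (given the output of Part C and the scheduled family). -/
def BExport (m : ℕ) : Prop :=
  ∀ (v : ℝ) (k : ℕ) (D : CountData m v k), ∃ εh : ℝ, 0 < εh ∧
    ∀ (c : Choice D εh) (K C A1 : ℝ), 1 ≤ K → 0 ≤ C → 1 ≤ A1 → c.SchedOK K C A1 →
    ∃ A0 : ℝ, ∀ A : ℝ, A0 ≤ A → A1 ≤ A → ∀ sl : Slots D,
    ∃ (sd : Sec D → SecData) (S : Sched),
      (∀ σ, (sd σ).N = D.N σ.1 ∧ (sd σ).i0 = D.i0 σ.1 ∧ (sd σ).off = sl.off σ) ∧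
      S.M = sl.M ∧ (∀ σ, (sd σ).mean + S.δ < k) ∧
      ∀ Cm : ℝ, ∃ B : BConst D, ∀ P : ℕ,
        ∃ (Hs : Sec D → Type) (_ : ∀ σ, NormedAddCommGroup (Hs σ))
          (_ : ∀ σ, InnerProductSpace ℝ (Hs σ)) (MD : ∀ σ, MixData (Hs σ) (sd σ).N P),
          (∀ σ, Fits (sd σ) S (MD σ)) ∧
          ∀ κ : Cube P,
            (∀ σ, ∀ q ≤ P, ∀ u,
              ‖(MD σ).Jm q κ u‖ ≤
                Cm * Real.exp (k * ∑ i ∈ Finset.range q, S.T i) * ‖(MD σ).Jm 0 κ u‖ ∧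
              ‖(MD σ).Jp q κ u‖ ≤
                Cm * Real.exp (k * ∑ i ∈ Finset.range q, S.T i) * ‖(MD σ).Jm 0 κ u‖) →
            ∃ F : Idx D → EuclideanSpace ℝ (Fin (m + 3)) → ℝ,
              BFun B P (c.coef A sl.jt (extκ κ)) F

end Crest.Agent.R202.Top
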