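import Mathlib
import Crest.Agent.R202.BFlowW
import Crest.Agent.R202.WgtGate
import Crest.Agent.R202.SecUnif
import Crest.Agent.R202.SecAfam
import Crest.Agent.R202.TopDefs

/-! # Row 202, PART B: Galerkin coefficients and flows of a `Top.Choice` (helper514)

* `topCoef`: coefficients of the scheduled metric of a choice `c`, `κ : Cube P` extended by `1`.
* `exists_flowFam_top`: `FlowFam` + operator solutions.
* `topCoef_indep`: the coefficients do not depend on the normalised harmonic `Y`. -/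

set_option autoImplicit false
set_option linter.unusedSectionVars false
set_option linter.unusedVariables false

open Set Filter Topology MvPolynomial
open scoped InnerProductSpace ContDiff

namespace Crest.Agent.R202.BFlow

open Crest.Agent.R202.Gal
open Crest.Agent.R202.Mix (Cube)
open Crest.Agent.R202.BFin (LoopSys FlowFam)
open Crest.Agent.R202.Sch Crest.Agent.R202.Geo Crest.Agent.R202.Wgt
open Crest.Agent.R202.Main Crest.Agent.R202.CT Crest.Agent.R202.Top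

noncomputable section

theorem extκ_eq {P : ℕ} (κ : Cube P) : extκ κ = fun q => (extK κ q : ℝ) := by
  funext q
  unfold extκ
  by_cases h : q < P
  · rw [dif_pos h, extK_lt κ h]
  · rw [dif_neg h, extK_ge κ (not_lt.1 h)]

theorem extκ_mem {P : ℕ} (κ : Cube P) (q : ℕ) : extκ κ q ∈ Icc (-1 : ℝ) 1 := by
  rw [extκ_eq]; exact extK_mem κ q

variable {m : ℕ} {v : ℝ} {k : ℕ} {D : CountData m v k} {εh : ℝ}

/-- all scheduled data of the choice are admissible -/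
abbrev CFam (c : Choice D εh) (A : ℝ) (j : ℕ → Gate D) : Prop :=
  AllFam (-Real.log v / ((m : ℝ) + 2)) A c.prof D.b0_gt.le c.L j

theorem cfam_of_ok {c : Choice D εh} {K C A1 : ℝ} (h : c.SchedOK K C A1) {A : ℝ} (hA : A1 ≤ A)
    (j : ℕ → Gate D) : CFam c A j := fun κ hκ => (h A hA j κ hκ).1

theorem crate_of_ok {c : Choice D εh} {K C A1 : ℝ} (h : c.SchedOK K C A1) {A : ℝ} (hA : A1 ≤ A)
    (j : ℕ → Gate D) :
    AllRate (-Real.log v / ((m : ℝ) + 2)) A K (C / A) c.prof D.b0_gt.le c.L j :=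
  fun κ hκ => (h A hA j κ hκ).2

section Coef

variable {N : ℕ} {p : Fin N → MvPolynomial (Fin (m + 3)) ℝ} {l : Fin N → ℕ}

/-- the Galerkin coefficients of the scheduled metric -/
def topCoef (hb : SBasis p l) (c : Choice D εh) {A : ℝ} {j : ℕ → Gate D} (hF : CFam c A j)
    {P : ℕ} (κ : Cube P) : Coef (EuclideanSpace ℝ (Fin N)) :=
  schedCoef hb c.sI_pos c.prof D.b0_gt.le c.L j hF κ

variable (hb : SBasis p l) (c : Choice D εh) {A : ℝ} {j : ℕ → Gate D} (hF : CFam c A j) {P : ℕ}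
  (κ : Cube P)

theorem topCoef_K : (topCoef hb c hF κ).K =
    Kop p (sfv m v) (c.th A j (extκ κ)) (c.P A j (extκ κ)) := by
  rw [extκ_eq]; rfl

theorem topCoef_b (t : ℝ) : (topCoef hb c hF κ).b t =
    ((m : ℝ) + 1) - ((m : ℝ) + 2) * deriv (sfv m v) t := rfl

theorem topCoef_b' (t : ℝ) : (topCoef hb c hF κ).b' t =
    -(((m : ℝ) + 2) * deriv (deriv (sfv m v)) t) := rfl

theorem topCoef_t0 : (topCoef hb c hF κ).t0 = 0 := rfl

theorem topCoef_L0 : (topCoef hb c hF κ).L0 = L0op l := rfl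

theorem topCoef_eq (hF' : Fam (sfv m v) (c.th A j (extκ κ)) (c.P A j (extκ κ)) 0 c.X0 c.X1)
    (h1 : ∀ t, deriv (sfv m v) t ≤ 1 / 4) :
    topCoef hb c hF κ = coefOf hb hF' h1 := by
  have h : ∀ (κ' : ℕ → ℝ) (e : κ' = fun q => (extK κ q : ℝ))
      (hF'' : Fam (sfv m v) (c.th A j κ') (c.P A j κ') 0 c.X0 c.X1),
      topCoef hb c hF κ = coefOf hb hF'' h1 := by
    intro κ' e hF''
    subst e
    rfl
  exact h _ (extκ_eq κ) hF'

end Coef

/-- **`FlowFam` of a choice.** -/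
theorem exists_flowFam_top (c : Choice D εh) {K C A1 δ : ℝ} (hK : 1 ≤ K) (hC : 0 ≤ C)
    (hOK : c.SchedOK K C A1) (hδ : 0 < δ) :
    ∃ A2 : ℝ, 1 ≤ A2 ∧ ∀ A : ℝ, A2 ≤ A → ∀ hA : A1 ≤ A, ∀ (j : ℕ → Gate D)
        (n : ℕ) (p : Fin n → MvPolynomial (Fin (m + 3)) ℝ) (l : Fin n → ℕ) (hb : SBasis p l)
        (N i0 : ℕ) (η Cμ Mμ : ℝ) (Λ : ℕ → ℝ)
        (LS : LoopSys (EuclideanSpace ℝ (Fin n)) (Gate D) N i0 η Cμ Mμ Λ),
        (∀ i τ, ∀ κ ∈ Icc (-1 : ℝ) 1, LS.S i τ κ = loopS p c.h (c.L i) τ κ) →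
        LS.H = homeS p c.h D.b0 → ∀ P : ℕ,
        ∃ (U V : Cube P → ℝ → EuclideanSpace ℝ (Fin n) →L[ℝ] EuclideanSpace ℝ (Fin n))
          (FF : FlowFam LS m (-Real.log v / ((m : ℝ) + 2)) A δ P j),
          Continuous (Function.uncurry U) ∧ Continuous (Function.uncurry V) ∧
          (∀ κ, Sol (topCoef hb c (cfam_of_ok hOK hA j) κ) (U κ) (V κ)) ∧
          ∀ κ, (FF.F κ).K = (topCoef hb c (cfam_of_ok hOK hA j) κ).K ∧ (FF.F κ).U = U κ ∧
            (FF.F κ).b = (topCoef hb c (cfam_of_ok hOK hA j) κ).b ∧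
            ((FF.F κ).ρ = fun _ => δ) ∧ (FF.F κ).L = dn (U κ) (V κ) := by
  obtain ⟨A2, hA2, H⟩ := exists_flowFam (mm := m) (R := K * C) c.sI_pos
    (by positivity) hδ
  refine ⟨A2, hA2, ?_⟩
  intro A hA hA1 j n p l hb N i0 η Cμ Mμ Λ LS hS hH P
  have hA0 : 0 < A := by linarith
  refine H A hA _ (Gate D) N i0 η Cμ Mμ Λ LS P j
    (fun κ => topCoef hb c (cfam_of_ok hOK hA1 j) κ)
    (schedCoef_galFam hb c.sI_pos c.prof D.b0_gt.le c.L j _ hA0 (by linarith) hC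
      (crate_of_ok hOK hA1 j) P) ?_ ?_
  · intro κ q t h1 h2
    rw [hS _ _ _ (κ q).2]
    exact schedCoef_gate hb c.sI_pos c.prof D.b0_gt.le c.L j _ hA0 κ q h1 h2
  · intro κ q _ t h1 h2
    rw [hH]
    exact schedCoef_home hb c.sI_pos c.prof D.b0_gt.le c.L j _ hA0 κ h1 h2

/-! ### independence of the harmonic `Y` -/

/-- extensionality of coefficients -/
theorem _root_.Crest.Agent.R202.Gal.Coef.ext_of {G : Type*} [NormedAddCommGroup G]
    [InnerProductSpace ℝ G] {C C' : Coef G} (hb : C.b = C'.b) (hK : C.K = C'.K)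
    (h0 : C.t0 = C'.t0) (hL : C.L0 = C'.L0) : C = C' := by
  have hb' : C.b' = C'.b' := by
    funext t
    have h1 := C.hb t
    rw [hb] at h1
    exact h1.unique (C'.hb t)
  have hK' : C.K' = C'.K' := by
    funext t
    have h1 := C.hK t
    rw [hK] at h1
    exact h1.unique (C'.hK t)
  cases C
  cases C'
  simp only at hb hK h0 hL hb' hK'
  subst hb hK h0 hL hb' hK'
  rfl

theorem ret_star (u : ℂ) : ret ((starRingEnd ℂ) u) = (starRingEnd ℂ) (ret u) := by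
  unfold ret
  rw [RCLike.norm_conj]
  simp only [Complex.real_smul, map_mul, Complex.conj_ofReal]

/-- the scheduled data are even -/
theorem choice_even (c : Choice D εh) {A : ℝ} (hA : 0 < A) (j : ℕ → Gate D) {κ : ℕ → ℝ}
    (hκ : ∀ q, κ q ∈ Icc (-1 : ℝ) 1) (t X : ℝ) (u : ℂ) :
    c.P A j κ t X ((starRingEnd ℂ) u) = c.P A j κ t X u := by
  have := forall_datum (yInst c.prof D.b0_gt.le)
    (fun q => (c.L (j q)).toLoop c.prof D.b0_gt.le) κ hA hκ
    (D := fun _ P => ∀ X u, P X ((starRingEnd ℂ) u) = P X u) (fun τ _ X u => rfl)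
    (fun q τ _ k hk X u => ?_) t
  · exact this X u
  · show Ptip c.h ((c.L (j q)).y τ) X ((starRingEnd ℂ) u) +
        (c.L (j q)).Gh τ k X (ret ((starRingEnd ℂ) u)) =
      Ptip c.h ((c.L (j q)).y τ) X u + (c.L (j q)).Gh τ k X (ret u)
    rw [ret_star]
    have := c.even (j q) τ k X (ret u)
    rw [Complex.star_def] at this
    rw [this]
    rfl

/-- the frozen form of the scheduled data is a `SecForm` -/
theorem choice_secForm (c : Choice D εh) {A : ℝ} (hA : 0 < A) {j : ℕ → Gate D}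
    (hF : CFam c A j) {κ : ℕ → ℝ} (hκ : ∀ q, κ q ∈ Icc (-1 : ℝ) 1) (t : ℝ) :
    Sph.SecForm (m := m) (SB (c.th A j κ t) (c.P A j κ t)) :=
  Sph.secForm_SB (Sph.Frz.of_fam (hF κ hκ) t) (choice_even c hA j hκ t)

/-- the Galerkin operators do not depend on the normalised harmonic -/
theorem Kop_indep (c : Choice D εh) {A : ℝ} (hA : 0 < A) {j : ℕ → Gate D}
    (hF : CFam c A j) {κ : ℕ → ℝ} (hκ : ∀ q, κ q ∈ Icc (-1 : ℝ) 1) {q : ℕ}
    {Y Y' : MvPolynomial (Fin (m + 1)) ℝ} (hY : Y ∈ Sph.harm (m + 1) q)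
    (hY' : Y' ∈ Sph.harm (m + 1) q)
    (hn : Sph.sph (Sph.ev (Y * Y)) = Sph.sph (Sph.ev (Y' * Y')))
    {N : ℕ} (V : Fin N → MvPolynomial (Fin 3) ℝ) :
    Kop (fun i => Sph.yI m Y * Sph.vI m (V i)) (sfv m v) (c.th A j κ) (c.P A j κ) =
      Kop (fun i => Sph.yI m Y' * Sph.vI m (V i)) (sfv m v) (c.th A j κ) (c.P A j κ) := by
  funext t
  unfold Kop Sop
  congr 2
  funext a b
  exact Sph.QB_indep (choice_secForm c hA hF hκ t) hY hY' hn (V a) (V b)

/-- **the Galerkin coefficients do not depend on the normalised harmonic** -/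
theorem topCoef_indep (c : Choice D εh) {A : ℝ} (hA : 0 < A) {j : ℕ → Gate D}
    (hF : CFam c A j) {P : ℕ} (κ : Cube P) {q : ℕ}
    {Y Y' : MvPolynomial (Fin (m + 1)) ℝ} (hY : Y ∈ Sph.harm (m + 1) q)
    (hY' : Y' ∈ Sph.harm (m + 1) q)
    (hn : Sph.sph (Sph.ev (Y * Y)) = Sph.sph (Sph.ev (Y' * Y')))
    {N : ℕ} (V : Fin N → MvPolynomial (Fin 3) ℝ) {l : Fin N → ℕ}
    (hb : SBasis (fun i => Sph.yI m Y * Sph.vI m (V i)) l)
    (hb' : SBasis (fun i => Sph.yI m Y' * Sph.vI m (V i)) l) :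
    topCoef hb c hF κ = topCoef hb' c hF κ := by
  refine Coef.ext_of rfl ?_ rfl rfl
  rw [topCoef_K, topCoef_K]
  exact Kop_indep c hA hF (extκ_mem κ) hY hY' hn V

/-- `SBasis` from the clauses of `sector_basis_unif` -/
theorem sbasis_of {m N q : ℕ} {e : Fin N → ℕ} {V : Fin N → MvPolynomial (Fin 3) ℝ}
    {Y : MvPolynomial (Fin (m + 1)) ℝ}
    (h1 : ∀ i, (Sph.yI m Y * Sph.vI m (V i)).IsHomogeneous (q + e i))
    (h2 : ∀ i, Sph.lap (m + 3) (Sph.yI m Y * Sph.vI m (V i)) = 0)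
    (h3 : ∀ i j, Sph.ip (Sph.yI m Y * Sph.vI m (V i)) (Sph.yI m Y * Sph.vI m (V j)) =
      if i = j then 1 else 0) :
    SBasis (fun i => Sph.yI m Y * Sph.vI m (V i)) (fun i => q + e i) :=
  ⟨fun i => Sph.mem_harm.2 ⟨h1 i, h2 i⟩, h3⟩

end

end Crest.Agent.R202.BFlow
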