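import Crest.Agent.R202.NumExp

/-!
# Row 202: `exists_num`, the numerics of `BExport` in the captain's form (helper225)
-/

set_option autoImplicit false

noncomputable section

namespace Crest.Agent.R202.Num

open Crest.Agent.R202.Main Crest.Agent.R202.Lab Crest.Agent.R202.CT
open Crest.Agent.R202.Mix (SecData)

variable {m : ℕ} {v : ℝ} {k : ℕ}

theorem b0_rpow (D : CountData m v k) :
    D.b0 ^ (-(2 : ℝ) / ((m : ℝ) + 2)) = (D.b0⁻¹) ^ ((2 : ℝ) / ((m : ℝ) + 2)) := by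
  have hb : 0 < D.b0 := by linarith [D.b0_gt]
  rw [Real.inv_rpow hb.le, ← Real.rpow_neg hb.le]
  congr 1
  ring

/-- **the numerics of `BExport`**: form margin `εh`, margin `ε` of the exponents, exponents
`a σ l` of the cuts. -/
theorem exists_num (D : CountData m v k) : ∃ εh : ℝ, 0 < εh ∧ ∃ ε : ℝ, 0 < ε ∧
    ∃ a : ℕ × ℕ → ℕ → ℝ, ∀ σ ∈ D.S,
      (∀ l, D.i0 σ ≤ l → l ≤ D.N σ → 0 ≤ a σ l ∧
        Real.exp (2 * (-Real.log v / ((m : ℝ) + 2))) *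
          (D.b0 ^ (-(2 : ℝ) / ((m : ℝ) + 2)) * (homeLev D σ (l - 1) + εh)) ≤
          a σ l ^ 2 + ((m : ℝ) + 1) * a σ l) ∧
      (∀ i j, D.i0 σ ≤ i → i ≤ j → j ≤ D.N σ → a σ i ≤ a σ j) ∧
      (∑ c ∈ Finset.range (D.N σ - D.i0 σ + 1), (a σ (D.i0 σ + c) + ε)) /
        ((D.N σ - D.i0 σ : ℕ) + 1) < (k : ℝ) := by
  obtain ⟨c0, hc0, hc⟩ := exists_c D
  refine ⟨epsH D (c0 / 2), epsH_pos D (by linarith), c0 / 2, by linarith,
    fun σ l => aH D σ l + c0 / 2, fun σ hσ => ⟨fun l _ _ => ?_, fun i j _ hij _ => ?_, ?_⟩⟩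
  · rw [b0_rpow]
    exact lam_le D σ l (by linarith)
  · have := aH_mono D hσ hij
    simp only
    linarith
  · have h1 := hc c0 le_rfl σ hσ 0
    have h2 : (secD D σ hσ c0 0).mean =
        (∑ c ∈ Finset.range (D.N σ - D.i0 σ + 1), (aH D σ (D.i0 σ + c) + c0)) /
          ((D.N σ - D.i0 σ : ℕ) + 1) := rfl
    rw [h2] at h1
    have h3 : ∀ c, aH D σ (D.i0 σ + c) + c0 / 2 + c0 / 2 = aH D σ (D.i0 σ + c) + c0 := fun c => by
      ring
    simp only [h3]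
    exact h1

end Crest.Agent.R202.Num
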