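import Crest.Agent.R202.BriI
import Crest.Agent.R202.BFlowTop
import Crest.Agent.R202.WgtSep

/-!
Row 202, BRIDGE (helper778): `FOK` for helper514's `topCoef` and helper728's bases `MB`.
-/

set_option autoImplicit false

open scoped ContDiff RealInnerProductSpace
open Set Filter Topology MeasureTheory Metric
open Crest.GeometryTopology.CoordMetric
open Crest.Agent.R202.Sph (ev ip qb QB SecForm yI vI harm sph w3 refl3)
open Crest.Agent.R202.Wgt (SBasis coefOf MB pY)
open Crest.Agent.R202.Mix (Cube)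
open Crest.Agent.R202.Main (CountData)
open Crest.Agent.R202.CT (Gate)
open Crest.Agent.R202.BFlow (CFam topCoef)
open Crest.Agent.R202.Top (Choice extκ)

namespace Crest.Agent.R202.Bri

/-- **`FOK` for `topCoef`**: one coefficient (built with `Y0`) for all normalised `Y`. -/
theorem fok_top {m : ℕ} {v : ℝ} {k : ℕ} {D : CountData m v k} {εh : ℝ}
    (c : Choice D εh) {A : ℝ} {j : ℕ → Gate D} (hF : CFam c A j)
    {q par Deg N : ℕ} {e : Fin N → ℕ} {V : Fin N → MvPolynomial (Fin 3) ℝ}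
    {w : Fin N → Mod.VS q par} (hU : MB m q par Deg N e V w)
    {Y0 Y : MvPolynomial (Fin (m + 1)) ℝ}
    (hY0 : Y0 ∈ harm (m + 1) q) (hY01 : sph (ev (Y0 * Y0)) = 1)
    (hY : Y ∈ harm (m + 1) q) (hY1 : sph (ev (Y * Y)) = 1)
    (hb : SBasis (pY m V Y0) (fun i => q + e i))
    {P : ℕ} (κ : Cube P) {u u' : ℝ → EuclideanSpace ℝ (Fin N)}
    (hR : Gal.Reg (topCoef hb c hF κ) u u') {Q : ℕ} (hQ : Q ≤ Deg) :
    Brid.FOK (c.coef A j (extκ κ)) (topCoef hb c hF κ) (pY m V Y) u u' Q (Ff (pY m V Y) u) := by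
  have hd := bdata_unif (D := Deg) hY0 hY01 hY hY1 hb
    (hF (fun q => BFlow.extK κ q) (BFlow.extK_mem κ)) (Sch.deriv_sf_le c.sI_pos)
    (fun t X u => PY_even A c.prof D.b0_gt.le c.L j _ c.even t X u)
    (fun i => (hU.deg i).1) (hU.homog Y hY hY1) (hU.lap0 Y hY hY1) (hU.compl Y hY hY1)
  have h1 := fok hd (hU.orth Y hY hY1) hR
  rw [← extκ_eq κ]
  exact h1.mono hQ

end Crest.Agent.R202.Bri
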