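import Mathlib
import Crest.Agent.R202.Model3

/-!
# Row 202: density of the sector polynomials at the spindle functions
-/

set_option autoImplicit false
set_option linter.unusedSimpArgs false

open MeasureTheory Set Filter Topology Polynomial
open Crest.Agent.R202

noncomputable section

namespace Crest.Agent.R202.Mod

/-- polynomial antiderivatives -/
theorem exists_antideriv (r : ℝ[X]) (a c : ℝ) : ∃ p : ℝ[X], derivative p = r ∧ p.eval a = c := by
  set p0 : ℝ[X] := ∑ n ∈ Finset.range (r.natDegree + 1), C (r.coeff n / (n + 1)) * X ^ (n + 1) with hp0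
  have hd : derivative p0 = r := by
    rw [hp0, derivative_sum]
    conv_rhs => rw [r.as_sum_range_C_mul_X_pow]
    refine Finset.sum_congr rfl fun n _ => ?_
    rw [derivative_C_mul_X_pow]
    congr 2
    have : (n : ℝ) + 1 ≠ 0 := by positivity
    push_cast
    field_simp
  refine ⟨p0 + C (c - p0.eval a), ?_, ?_⟩
  · rw [derivative_add, derivative_C, add_zero, hd]
  · simp

/-- `C¹` Weierstrass on `[0,1]` -/
theorem exists_poly_C1 {f f' : ℝ → ℝ} (hf : ∀ x ∈ Icc (0:ℝ) 1, HasDerivAt f (f' x) x)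
    (hf' : ContinuousOn f' (Icc 0 1)) {ε : ℝ} (hε : 0 < ε) :
    ∃ p : ℝ[X], ∀ x ∈ Icc (0:ℝ) 1, |p.eval x - f x| ≤ ε ∧ |(derivative p).eval x - f' x| ≤ ε := by
  obtain ⟨r, hr⟩ := exists_polynomial_near_of_continuousOn 0 1 f' hf' ε hε
  obtain ⟨p, hp, hp0⟩ := exists_antideriv r 0 (f 0)
  refine ⟨p, fun x hx => ⟨?_, by rw [hp]; exact (hr x hx).le⟩⟩
  have h1 : ∀ y ∈ Icc (0:ℝ) 1, HasDerivWithinAt (fun y => p.eval y - f y)
      ((derivative p).eval y - f' y) (Icc 0 1) y := fun y hy =>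
    ((p.hasDerivAt y).sub (hf y hy)).hasDerivWithinAt
  have h2 := (convex_Icc (0:ℝ) 1).norm_image_sub_le_of_norm_hasDerivWithin_le (C := ε) h1
    (fun y hy => by rw [hp]; exact (hr y hy).le) (left_mem_Icc.2 zero_le_one) hx
  simp only [hp0, sub_self, sub_zero, Real.norm_eq_abs] at h2
  rw [abs_of_nonneg hx.1] at h2
  calc |p.eval x - f x| ≤ ε * x := h2
    _ ≤ ε * 1 := by gcongr; exact hx.2
    _ = ε := mul_one ε

theorem rpow_shift {s : ℝ} (hs : 0 < s) {ε : ℝ} (hε : 0 < ε) :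
    ∃ δ : ℝ, 0 < δ ∧ δ ≤ 1 ∧ ∀ t ∈ Ioc (0:ℝ) 1, |(t + δ) ^ s - t ^ s| ≤ ε ∧
      t * |(t + δ) ^ (s - 1) - t ^ (s - 1)| ≤ 2 * ε := by
  have hc : ContinuousOn (fun x : ℝ => x ^ s) (Icc 0 2) :=
    (Real.continuous_rpow_const hs.le).continuousOn
  have huc := isCompact_Icc.uniformContinuousOn_of_continuous hc
  rw [Metric.uniformContinuousOn_iff] at huc
  obtain ⟨η, hη, hη'⟩ := huc ε hε
  have hlim : Tendsto (fun δ : ℝ => δ ^ s) (𝓝[>] 0) (𝓝 0) := by
    have h1 : Tendsto (fun δ : ℝ => δ ^ s) (𝓝 0) (𝓝 ((0:ℝ) ^ s)) :=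
      (Real.continuous_rpow_const hs.le).tendsto 0
    rw [Real.zero_rpow hs.ne'] at h1
    exact h1.mono_left nhdsWithin_le_nhds
  have hlim2 : Tendsto (fun δ : ℝ => δ * 2 ^ s) (𝓝[>] 0) (𝓝 0) := by
    have h1 : Tendsto (fun δ : ℝ => δ * 2 ^ s) (𝓝 0) (𝓝 (0 * 2 ^ s)) :=
      (continuous_id.mul continuous_const).tendsto 0
    rw [zero_mul] at h1
    exact h1.mono_left nhdsWithin_le_nhds
  have hmem : ∀ᶠ δ : ℝ in 𝓝[>] 0, δ ∈ Ioo (0:ℝ) (min 1 η) :=
    Ioo_mem_nhdsGT (lt_min one_pos hη)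
  obtain ⟨δ, hδ1, hδ2, hδ3⟩ := ((hlim.eventually (gt_mem_nhds hε)).and
    ((hlim2.eventually (gt_mem_nhds hε)).and hmem)).exists
  have hδ0 : 0 < δ := hδ3.1
  have hδle : δ ≤ 1 := (hδ3.2.trans_le (min_le_left _ _)).le
  refine ⟨δ, hδ0, hδle, fun t ht => ?_⟩
  have ht0 : 0 < t := ht.1
  have hA : |(t + δ) ^ s - t ^ s| ≤ ε := by
    have := hη' (t + δ) ⟨by linarith, by linarith [ht.2]⟩ t ⟨ht0.le, by linarith [ht.2]⟩ (by
      rw [Real.dist_eq]
      have : t + δ - t = δ := by ring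
      rw [this, abs_of_pos hδ0]
      exact hδ3.2.trans_le (min_le_right _ _))
    rw [Real.dist_eq] at this
    exact this.le
  refine ⟨hA, ?_⟩
  have hpos : 0 < t + δ := by linarith
  have e1 : t * (t + δ) ^ (s - 1) = (t + δ) ^ s - δ * (t + δ) ^ (s - 1) := by
    rw [Real.rpow_sub_one hpos.ne']
    field_simp; ring
  have e2 : t * t ^ (s - 1) = t ^ s := by
    rw [Real.rpow_sub_one ht0.ne']; field_simp
  have e3 : δ * (t + δ) ^ (s - 1) ≤ ε := by
    rcases le_total s 1 with h | h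
    · calc δ * (t + δ) ^ (s - 1) ≤ δ * δ ^ (s - 1) :=
            mul_le_mul_of_nonneg_left (Real.rpow_le_rpow_of_nonpos hδ0
              (by linarith : δ ≤ t + δ) (by linarith : s - 1 ≤ 0)) hδ0.le
        _ = δ ^ s := by rw [Real.rpow_sub_one hδ0.ne']; field_simp
        _ ≤ ε := hδ1.le
    · calc δ * (t + δ) ^ (s - 1) ≤ δ * 2 ^ s := by
            gcongr
            calc (t + δ) ^ (s - 1) ≤ 2 ^ (s - 1) := by
                  apply Real.rpow_le_rpow hpos.le (by linarith [ht.2]) (by linarith)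
              _ ≤ 2 ^ s := Real.rpow_le_rpow_of_exponent_le (by norm_num) (by linarith)
        _ ≤ ε := hδ2.le
  have e4 : 0 ≤ δ * (t + δ) ^ (s - 1) := by positivity
  have e5 : t * |(t + δ) ^ (s - 1) - t ^ (s - 1)| = |t * (t + δ) ^ (s - 1) - t * t ^ (s - 1)| := by
    rw [← mul_sub, abs_mul, abs_of_pos ht0]
  rw [e5, e1, e2]
  calc |(t + δ) ^ s - δ * (t + δ) ^ (s - 1) - t ^ s|
      = |((t + δ) ^ s - t ^ s) - δ * (t + δ) ^ (s - 1)| := by congr 1; ring
    _ ≤ |(t + δ) ^ s - t ^ s| + |δ * (t + δ) ^ (s - 1)| := abs_sub _ _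
    _ ≤ ε + ε := by rw [abs_of_nonneg e4]; exact add_le_add hA e3
    _ = 2 * ε := by ring

/-- the function `(1-y)^s` is approximated by polynomials with the weight `1-y` on derivatives -/
theorem exists_poly_pow {s : ℝ} (hs : 0 ≤ s) {ε : ℝ} (hε : 0 < ε) :
    ∃ p : ℝ[X], ∀ y ∈ Ico (0:ℝ) 1, |p.eval y - (1 - y) ^ s| ≤ ε ∧
      (1 - y) * |(derivative p).eval y + s * (1 - y) ^ (s - 1)| ≤ ε := by
  rcases hs.eq_or_lt with h0 | hs
  · refine ⟨1, fun y _ => ?_⟩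
    rw [← h0]
    simp [hε.le]
  set ε' := ε / (2 * (1 + s)) with hε'
  have hε'0 : 0 < ε' := by positivity
  have hs1 : 2 * (1 + s) * ε' = ε := by rw [hε']; field_simp
  obtain ⟨δ, hδ0, hδ1, hδ⟩ := rpow_shift hs hε'0
  have hder : ∀ x ∈ Icc (0:ℝ) 1, HasDerivAt (fun y : ℝ => (1 + δ - y) ^ s)
      (-(s * (1 + δ - x) ^ (s - 1))) x := by
    intro x hx
    have h1 : HasDerivAt (fun y : ℝ => 1 + δ - y) (-1) x := by
      simpa using (hasDerivAt_id x).const_sub (1 + δ)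
    have h2 := h1.rpow_const (p := s) (Or.inl (by have := hx.2; linarith))
    convert h2 using 1; ring
  have hcont : ContinuousOn (fun x : ℝ => -(s * (1 + δ - x) ^ (s - 1))) (Icc 0 1) := by
    refine (continuousOn_const.mul (ContinuousOn.rpow_const (by fun_prop) fun x hx => Or.inl ?_)).neg
    have := hx.2; linarith
  obtain ⟨p, hp⟩ := exists_poly_C1 hder hcont hε'0
  refine ⟨p, fun y hy => ?_⟩
  obtain ⟨hp1, hp2⟩ := hp y ⟨hy.1, hy.2.le⟩
  have ht : 1 - y ∈ Ioc (0:ℝ) 1 := ⟨by linarith [hy.2], by linarith [hy.1]⟩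
  obtain ⟨hd1, hd2⟩ := hδ (1 - y) ht
  have hyy : 1 - y + δ = 1 + δ - y := by ring
  rw [hyy] at hd1 hd2
  have ht0 : 0 < 1 - y := ht.1
  have ht1 : 1 - y ≤ 1 := ht.2
  constructor
  · calc |p.eval y - (1 - y) ^ s|
        = |(p.eval y - (1 + δ - y) ^ s) + ((1 + δ - y) ^ s - (1 - y) ^ s)| := by congr 1; ring
      _ ≤ ε' + ε' := (abs_add_le _ _).trans (add_le_add hp1 hd1)
      _ ≤ ε := by nlinarith
  · have h3 : (1 - y) * |(derivative p).eval y - -(s * (1 + δ - y) ^ (s - 1))| ≤ ε' := by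
      calc _ ≤ 1 * ε' := by gcongr
        _ = ε' := one_mul _
    calc (1 - y) * |(derivative p).eval y + s * (1 - y) ^ (s - 1)|
        = (1 - y) * |((derivative p).eval y - -(s * (1 + δ - y) ^ (s - 1)))
            + (-s) * ((1 + δ - y) ^ (s - 1) - (1 - y) ^ (s - 1))| := by congr 2; ring
      _ ≤ (1 - y) * (|(derivative p).eval y - -(s * (1 + δ - y) ^ (s - 1))|
            + |(-s) * ((1 + δ - y) ^ (s - 1) - (1 - y) ^ (s - 1))|) := by
          gcongr; exact abs_add_le _ _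
      _ = (1 - y) * |(derivative p).eval y - -(s * (1 + δ - y) ^ (s - 1))|
            + s * ((1 - y) * |(1 + δ - y) ^ (s - 1) - (1 - y) ^ (s - 1)|) := by
          rw [abs_mul, abs_neg, abs_of_pos hs]; ring
      _ ≤ ε' + s * (2 * ε') := by gcongr
      _ ≤ ε := by nlinarith

/-! ### smallness of an element in the reference form -/

/-- if all components are `≤ A` in absolute value then `href v v ≤ 4 μ(Ω) A²` -/
theorem href_le_of_comp {d q par : ℕ} (v : VS q par) {A : ℝ}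
    (hA : ∀ i, ∀ z ∈ Om, |comp d q par v i z| ≤ A) :
    href d q par v v ≤ 4 * A ^ 2 * (mu d).real univ := by
  have h1 : href d q par v v = ∫ z, (comp d q par v 0 z ^ 2 + comp d q par v 1 z ^ 2
      + comp d q par v 2 z ^ 2 + comp d q par v 3 z ^ 2) ∂(mu d) := by
    have e0 : href d q par v v = formW q par (coef_WQ (adm_one d) 1) v v
        + formW q par (coef_Wg d) v v := rfl
    rw [e0, formW_apply, formW_apply, ← integral_add (integrable_sum (coef_WQ (adm_one d) 1) v v)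
      (integrable_sum (coef_Wg d) v v)]
    congr 1; funext z
    have w0 : Wg 0 z = 1 := rfl
    have w1 : Wg 1 z = 0 := rfl
    have w2 : Wg 2 z = 0 := rfl
    have w3 : Wg 3 z = 0 := rfl
    simp only [WQ, Fin.sum_univ_four, w0, w1, w2, w3]
    norm_num
    ring
  rw [h1]
  have h2 : ∫ _z : ℝ × ℝ, 4 * A ^ 2 ∂(mu d) = 4 * A ^ 2 * (mu d).real univ := by
    rw [integral_const, smul_eq_mul, mul_comm]
  rw [← h2]
  refine integral_mono_ae ?_ (integrable_const _) ?_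
  · exact (((integrable_comp_sq v 0).add (integrable_comp_sq v 1)).add
      (integrable_comp_sq v 2)).add (integrable_comp_sq v 3)
  · filter_upwards [ae_mem_Om d] with z hz
    have h3 : ∀ i, comp d q par v i z ^ 2 ≤ A ^ 2 := fun i => by
      have := hA i z hz
      have h4 := abs_nonneg (comp d q par v i z)
      rw [← sq_abs]
      gcongr
    have := h3 0; have := h3 1; have := h3 2; have := h3 3
    linarith

theorem comp_single (d q par m : ℕ) (R : ℝ → ℝ) (i : Fin 4) (z : ℝ × ℝ) :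
    comp d q par (Finsupp.single m R) i z = rcomp d q R i z.1 * acomp par m i z.2 := by
  rw [comp_eq, Finsupp.sum_single_index]
  rw [rcomp_zero, zero_mul]

/-- the product of a polynomial in `x²` with a basis element stays in `Pol` -/
theorem single_poly_mem_Pol (q : ℕ) {par m : ℕ} (hm : par ≤ m) (n k : ℕ) (a : ℕ → ℝ) (p : ℝ[X])
    (hk : p.natDegree ≤ k) (v : VS q par)
    (hv : (v : ℕ →₀ (ℝ → ℝ)) = Finsupp.single m (trunc fun x => (1 - x ^ 2) ^ ((m : ℝ) / 2) *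
      (x ^ q * (∑ i ∈ Finset.range (n + 1), a i * (x ^ 2) ^ i) * p.eval (x ^ 2)))) :
    v ∈ Pol q par := by
  have h1 : v = ∑ i ∈ Finset.range (n + 1), ∑ l ∈ Finset.range (k + 1),
      (a i * p.coeff l) • pol q par m (i + l) := by
    apply Subtype.ext
    rw [hv]
    simp only [Submodule.coe_sum, Submodule.coe_smul, coe_pol q hm]
    simp only [← Finsupp.single_finsetSum, Finsupp.smul_single]
    congr 1
    funext x
    simp only [Finset.sum_apply, Pi.smul_apply, smul_eq_mul, trunc]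
    split_ifs
    · rw [eval_eq_sum_range' (Nat.lt_succ_of_le hk)]
      have e1 : ∀ A B : ℝ, A * (x ^ q * (∑ i ∈ Finset.range (n + 1), a i * (x ^ 2) ^ i) * B)
          = ∑ i ∈ Finset.range (n + 1), A * (x ^ q * (a i * (x ^ 2) ^ i) * B) := by
        intro A B
        rw [Finset.mul_sum, Finset.sum_mul, Finset.mul_sum]
      rw [e1]
      refine Finset.sum_congr rfl fun i _ => ?_
      rw [Finset.mul_sum, Finset.mul_sum]
      refine Finset.sum_congr rfl fun l _ => ?_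
      ring
    · simp
  rw [h1]
  refine Submodule.sum_mem _ fun i _ => Submodule.sum_mem _ fun l _ => ?_
  exact Submodule.smul_mem _ _ (Submodule.subset_span ⟨m, i + l, hm, rfl⟩)

/-- `psi` at `m = 0` is a polynomial -/
theorem psi_zero_mem_Pol {d q par : ℕ} {b : ℝ} (hb : 1 ≤ b) (hm : par ≤ 0) (j : ℕ) :
    psi d q par b 0 j ∈ Pol q par := by
  refine single_poly_mem_Pol q hm j 0 (fun i => jc d q 0 j i) 1 (by simp) _ ?_
  rw [coe_psi d q hb hm j]
  congr 1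
  funext x
  simp only [trunc]
  split_ifs
  · simp only [Rj, Nat.cast_zero, zero_mul, zero_div, eval_one, mul_one]
    rw [Tri.jQ_eval_sum]
  · rfl

/-- derivative of the difference function -/
theorem hasDerivAt_diff (m : ℕ) (s : ℝ) {Z : ℝ → ℝ} {Zx x : ℝ} (hZ : HasDerivAt Z Zx x)
    (p : ℝ[X]) (hpos : 0 < 1 - x ^ 2) :
    HasDerivAt (fun y => (1 - y ^ 2) ^ ((m : ℝ) / 2) * Z y * ((1 - y ^ 2) ^ s - p.eval (y ^ 2)))
      ((-(m * x / (1 - x ^ 2)) * (1 - x ^ 2) ^ ((m : ℝ) / 2) * Z x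
          + (1 - x ^ 2) ^ ((m : ℝ) / 2) * Zx) * ((1 - x ^ 2) ^ s - p.eval (x ^ 2))
        + (1 - x ^ 2) ^ ((m : ℝ) / 2) * Z x *
          (-(2 * x) * (s * (1 - x ^ 2) ^ (s - 1) + (derivative p).eval (x ^ 2)))) x := by
  have h1 : HasDerivAt (fun x : ℝ => x ^ 2) (2 * x) x := by simpa using hasDerivAt_pow 2 x
  have hd1 : HasDerivAt (fun y : ℝ => (1 - y ^ 2) ^ ((m : ℝ) / 2))
      (-(m * x / (1 - x ^ 2)) * (1 - x ^ 2) ^ ((m : ℝ) / 2)) x := w_hasDerivAt (m : ℝ) hpos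
  have h2 : HasDerivAt (fun x : ℝ => 1 - x ^ 2) (-(2 * x)) x := by
    simpa using (hasDerivAt_pow 2 x).const_sub 1
  have h3 : HasDerivAt (fun y : ℝ => (1 - y ^ 2) ^ s)
      (-(2 * x) * s * (1 - x ^ 2) ^ (s - 1)) x := h2.rpow_const (p := s) (Or.inl hpos.ne')
  have h4 : HasDerivAt (fun y : ℝ => p.eval (y ^ 2)) ((derivative p).eval (x ^ 2) * (2 * x)) x :=
    HasDerivAt.comp (h₂ := fun y => p.eval y) (h := fun x => x ^ 2) x (p.hasDerivAt (x ^ 2)) h1
  have hd2 : HasDerivAt (fun y : ℝ => (1 - y ^ 2) ^ s - p.eval (y ^ 2))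
      (-(2 * x) * s * (1 - x ^ 2) ^ (s - 1) - (derivative p).eval (x ^ 2) * (2 * x)) x := h3.sub h4
  have hd3 : HasDerivAt (fun y : ℝ => (1 - y ^ 2) ^ ((m : ℝ) / 2) * Z y)
      (-(m * x / (1 - x ^ 2)) * (1 - x ^ 2) ^ ((m : ℝ) / 2) * Z x
          + (1 - x ^ 2) ^ ((m : ℝ) / 2) * Zx) x := hd1.mul hZ
  have hd4 := hd3.mul hd2
  refine hd4.congr_deriv ?_
  ring

/-- the elementary estimate of the derivative -/
theorem diff_est {m q : ℕ} {ρ W Z Zd H Hd x C ε : ℝ} (hρ0 : 0 < ρ) (hρ1 : ρ ≤ 1) (hW0 : 0 ≤ W)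
    (hW : W ≤ ρ) (hx : |x| ≤ 1) (hZ : |Z| ≤ C) (hZd : |Zd| ≤ (q + 1) * C) (hH : |H| ≤ ε)
    (hHd : ρ ^ 2 * |Hd| ≤ 2 * ε) :
    ρ * |(-(m * x / ρ ^ 2) * W * Z + W * Zd) * H + W * Z * Hd| ≤ (m + (q + 1) + 2) * (C * ε) := by
  have hC0 : 0 ≤ C := (abs_nonneg _).trans hZ
  have hε0 : 0 ≤ ε := (abs_nonneg _).trans hH
  have h6 : ρ * |-(m * x / ρ ^ 2) * W * Z * H| ≤ m * (C * ε) := by
    rw [abs_mul, abs_mul, abs_mul, abs_neg, abs_div, abs_mul, Nat.abs_cast,
      abs_of_nonneg (sq_nonneg ρ), abs_of_nonneg hW0]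
    calc ρ * (m * |x| / ρ ^ 2 * W * |Z| * |H|)
        = (W / ρ) * (m * |x| * |Z| * |H|) := by field_simp
      _ ≤ 1 * (m * 1 * C * ε) := by
        gcongr
        exact (div_le_one hρ0).2 hW
      _ = m * (C * ε) := by ring
  have h7 : ρ * |W * Zd * H| ≤ (q + 1) * (C * ε) := by
    rw [abs_mul, abs_mul, abs_of_nonneg hW0]
    calc ρ * (W * |Zd| * |H|) ≤ 1 * (1 * ((q + 1) * C) * ε) := by
          gcongr
          exact hW.trans hρ1
      _ = _ := by ring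
  have h8 : ρ * |W * Z * Hd| ≤ 2 * (C * ε) := by
    rw [abs_mul, abs_mul, abs_of_nonneg hW0]
    calc ρ * (W * |Z| * |Hd|) ≤ ρ * (ρ * C * |Hd|) := by gcongr
      _ = C * (ρ ^ 2 * |Hd|) := by ring
      _ ≤ C * (2 * ε) := by gcongr
      _ = _ := by ring
  have e1 : (-(m * x / ρ ^ 2) * W * Z + W * Zd) * H + W * Z * Hd
      = -(m * x / ρ ^ 2) * W * Z * H + W * Zd * H + W * Z * Hd := by ring
  rw [e1]
  calc _ ≤ ρ * (|-(m * x / ρ ^ 2) * W * Z * H| + |W * Zd * H| + |W * Z * Hd|) := by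
        gcongr
        exact (abs_add_le _ _).trans (by gcongr; exact abs_add_le _ _)
    _ = ρ * |-(m * x / ρ ^ 2) * W * Z * H| + ρ * |W * Zd * H| + ρ * |W * Z * Hd| := by ring
    _ ≤ m * (C * ε) + (q + 1) * (C * ε) + 2 * (C * ε) := by gcongr
    _ = _ := by ring

/-- pointwise estimates for `R = W Z H` -/
theorem rcomp_diff_est (d : ℕ) {m q : ℕ} (hm1 : 1 ≤ m) {s : ℝ} {Z Zd : ℝ → ℝ} {R : ℝ → ℝ}
    {p : ℝ[X]} {C ε : ℝ} (hC : 0 ≤ C) (hε : 0 ≤ ε)
    (hZ : ∀ x, HasDerivAt Z (Zd x) x)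
    (hZb : ∀ x, |x| ≤ 1 → |Z x| ≤ C) (hZq : 1 ≤ q → ∀ x, |x| ≤ 1 → |Z x| ≤ |x| * C)
    (hZdb : ∀ x, |x| ≤ 1 → |Zd x| ≤ (q + 1) * C)
    (hp : ∀ y ∈ Ico (0:ℝ) 1, |p.eval y - (1 - y) ^ s| ≤ ε ∧
      (1 - y) * |(derivative p).eval y + s * (1 - y) ^ (s - 1)| ≤ ε)
    (hR : ∀ y, y ^ 2 < 1 → R y = (1 - y ^ 2) ^ ((m : ℝ) / 2) * Z y * ((1 - y ^ 2) ^ s - p.eval (y ^ 2)))
    (i : Fin 4) {x : ℝ} (hx : x ∈ Ioo (0:ℝ) 1) :
    |rcomp d q R i x| ≤ (m + (q + 1) + 2 + Real.sqrt (E0 d q)) * (C * ε) := by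
  have hx2 : x ^ 2 < 1 := sq_lt_one_of_mem hx
  have hxabs : |x| < 1 := (sq_lt_one_iff_abs_lt_one x).1 hx2
  have hpos : 0 < 1 - x ^ 2 := by linarith
  have hρ0 : 0 < rh x := rh_pos hx2
  have hρ1 : rh x ≤ 1 := rh_le_one x
  have hρ2 : rh x ^ 2 = 1 - x ^ 2 := rh_sq hx2
  have hE := Real.sqrt_nonneg (E0 d q)
  have hm0 : (0:ℝ) ≤ m := by positivity
  have hq0 : (0:ℝ) ≤ q := by positivity
  have hCε : 0 ≤ C * ε := by positivity
  obtain ⟨hp1, hp2⟩ := hp (x ^ 2) ⟨sq_nonneg x, hx2⟩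
  set W := (1 - x ^ 2) ^ ((m : ℝ) / 2) with hWdef
  have hWρ : W = rh x ^ m := by
    have e1 : rh x = (1 - x ^ 2) ^ ((1:ℝ) / 2) := by rw [rh, Real.sqrt_eq_rpow]
    rw [e1, ← Real.rpow_mul_natCast hpos.le, hWdef]
    congr 1; ring
  have hW0 : 0 ≤ W := Real.rpow_nonneg hpos.le _
  have hWle : W ≤ rh x := by
    rw [hWρ]
    calc rh x ^ m ≤ rh x ^ 1 := pow_le_pow_of_le_one hρ0.le hρ1 hm1
      _ = rh x := pow_one _
  have hW1 : W ≤ 1 := hWle.trans hρ1
  set H : ℝ := (1 - x ^ 2) ^ s - p.eval (x ^ 2) with hH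
  have hHb : |H| ≤ ε := by rw [hH, abs_sub_comm]; exact hp1
  have hHdb : rh x ^ 2 * |-(2 * x) * (s * (1 - x ^ 2) ^ (s - 1) + (derivative p).eval (x ^ 2))|
      ≤ 2 * ε := by
    rw [abs_mul, abs_neg, abs_mul, abs_of_pos (by norm_num : (0:ℝ) < 2), hρ2]
    have e1 : |s * (1 - x ^ 2) ^ (s - 1) + (derivative p).eval (x ^ 2)|
        = |(derivative p).eval (x ^ 2) + s * (1 - x ^ 2) ^ (s - 1)| := by rw [add_comm]
    rw [e1]
    calc (1 - x ^ 2) * (2 * |x| * |(derivative p).eval (x ^ 2) + s * (1 - x ^ 2) ^ (s - 1)|)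
        = 2 * |x| * ((1 - x ^ 2) * |(derivative p).eval (x ^ 2) + s * (1 - x ^ 2) ^ (s - 1)|) := by
          ring
      _ ≤ 2 * 1 * ε := by gcongr
      _ = 2 * ε := by ring
  have hval : R x = W * Z x * H := hR x hx2
  have hV : |W * Z x * H| ≤ rh x * (C * ε) := by
    rw [abs_mul, abs_mul, abs_of_nonneg hW0]
    have := hZb x hxabs.le
    calc W * |Z x| * |H| ≤ rh x * C * ε := by gcongr
      _ = rh x * (C * ε) := by ring
  have hone : ∀ K : ℝ, K ≤ m + (q + 1) + 2 + Real.sqrt (E0 d q) → K * (C * ε)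
      ≤ (m + (q + 1) + 2 + Real.sqrt (E0 d q)) * (C * ε) := fun K hK =>
    mul_le_mul_of_nonneg_right hK hCε
  fin_cases i
  · show |R x| ≤ _
    rw [hval]
    refine (hV.trans (mul_le_mul_of_nonneg_right hρ1 hCε)).trans (hone 1 ?_)
    linarith
  · show |rh x * deriv R x| ≤ _
    have hnh : {y : ℝ | y ^ 2 < 1} ∈ 𝓝 x :=
      (isOpen_lt (by fun_prop) continuous_const).mem_nhds hx2
    have hev : R =ᶠ[𝓝 x] fun y => (1 - y ^ 2) ^ ((m : ℝ) / 2) * Z y *
        ((1 - y ^ 2) ^ s - p.eval (y ^ 2)) := by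
      filter_upwards [hnh] with y hy
      exact hR y hy
    rw [hev.deriv_eq, (hasDerivAt_diff m s (hZ x) p hpos).deriv, abs_mul, abs_of_pos hρ0]
    have h9 := diff_est (m := m) (q := q) hρ0 hρ1 hW0 hWle hxabs.le (hZb x hxabs.le)
      (hZdb x hxabs.le) hHb hHdb
    rw [hρ2] at h9
    refine h9.trans (hone _ ?_)
    linarith
  · show |R x / rh x| ≤ _
    rw [hval, abs_div, abs_of_pos hρ0, div_le_iff₀ hρ0]
    refine hV.trans ?_
    rw [mul_comm]
    refine mul_le_mul_of_nonneg_right ?_ hρ0.le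
    have := hone 1 (by linarith)
    linarith
  · show |Real.sqrt (E0 d q) * (R x / x)| ≤ _
    rw [hval]
    rcases Nat.eq_zero_or_pos q with hq | hq
    · have : E0 d q = 0 := by rw [hq]; simp [E0]
      rw [this, Real.sqrt_zero, zero_mul, abs_zero]
      positivity
    · have hxpos : 0 < |x| := abs_pos.2 hx.1.ne'
      have h6 := hZq hq x hxabs.le
      rw [abs_mul, abs_of_nonneg hE, abs_div]
      have h7 : |W * Z x * H| / |x| ≤ C * ε := by
        rw [div_le_iff₀ hxpos, abs_mul, abs_mul, abs_of_nonneg hW0]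
        calc W * |Z x| * |H| ≤ 1 * (|x| * C) * ε := by gcongr
          _ = C * ε * |x| := by ring
      calc Real.sqrt (E0 d q) * (|W * Z x * H| / |x|) ≤ Real.sqrt (E0 d q) * (C * ε) := by gcongr
        _ ≤ _ := hone _ (by linarith)

/-- **(T2)** the sector polynomials are dense at the spindle functions -/
theorem exists_pol_near (d q : ℕ) {par : ℕ} {b : ℝ} (hb : 1 ≤ b) {m : ℕ} (hm : par ≤ m) (j : ℕ)
    {ε : ℝ} (hε : 0 < ε) :
    ∃ p ∈ Pol q par, href d q par (psi d q par b m j - p) (psi d q par b m j - p) < ε := by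
  rcases Nat.eq_zero_or_pos m with h0 | hm1
  · subst h0
    refine ⟨psi d q par b 0 j, psi_zero_mem_Pol hb hm j, ?_⟩
    have : psi d q par b 0 j - psi d q par b 0 j = 0 := by
      apply Subtype.ext
      rw [Submodule.coe_sub, Submodule.coe_zero, sub_self]
    rw [this]; simpa using hε
  -- notation
  set μ : ℝ := m * b with hμ
  set s : ℝ := (μ - m) / 2 with hs
  have hm1' : (1:ℝ) ≤ m := by exact_mod_cast hm1
  have hs0 : 0 ≤ s := by
    rw [hs, hμ]
    have : 0 ≤ (m:ℝ) * (b - 1) := by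
      apply mul_nonneg <;> linarith
    linarith
  obtain ⟨C, hC0, hC⟩ := Tri.exists_rQ_bound d q j μ
  have hμ0 : 0 ≤ μ := by positivity
  -- the constant
  set A1 : ℝ := (m + (q + 1) + 2 + Real.sqrt (E0 d q)) * (m + 1) * (C + 1) with hA1
  have hE := Real.sqrt_nonneg (E0 d q)
  have hA1pos : 0 < A1 := by positivity
  have hM0 : 0 ≤ (mu d).real univ := measureReal_nonneg
  set ε1 : ℝ := Real.sqrt (ε / (4 * A1 ^ 2 * ((mu d).real univ + 1))) with hε1
  have hε1pos : 0 < ε1 := Real.sqrt_pos.2 (by positivity)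
  have hε1sq : ε1 ^ 2 = ε / (4 * A1 ^ 2 * ((mu d).real univ + 1)) := Real.sq_sqrt (by positivity)
  obtain ⟨p, hp⟩ := exists_poly_pow hs0 hε1pos
  -- the polynomial element
  set Z : ℝ → ℝ := fun x => x ^ q * Tri.rQ d q μ j x with hZ
  set Zd : ℝ → ℝ := fun x => q * x ^ (q - 1) * Tri.rQ d q μ j x + x ^ q * Tri.drQ d q μ j x with hZd
  have hZder : ∀ x, HasDerivAt Z (Zd x) x := fun x =>
    (hasDerivAt_pow q x).mul (Tri.rQ_hasDerivAt d q μ j x)
  have hxI : ∀ x : ℝ, |x| ≤ 1 → x ∈ Icc (-1:ℝ) 1 := fun x hx => abs_le.1 hx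
  have hZb : ∀ x : ℝ, |x| ≤ 1 → |Z x| ≤ C := by
    intro x hx
    show |x ^ q * Tri.rQ d q μ j x| ≤ C
    have h1 := (hC μ ⟨hμ0, le_rfl⟩ x (hxI x hx)).1
    rw [abs_mul, abs_pow]
    calc |x| ^ q * |Tri.rQ d q μ j x| ≤ 1 * C := by
          gcongr; exact pow_le_one₀ (abs_nonneg _) hx
      _ = C := one_mul C
  have hZq : 1 ≤ q → ∀ x : ℝ, |x| ≤ 1 → |Z x| ≤ |x| * C := by
    intro hq x hx
    show |x ^ q * Tri.rQ d q μ j x| ≤ |x| * C
    have h1 := (hC μ ⟨hμ0, le_rfl⟩ x (hxI x hx)).1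
    rw [abs_mul, abs_pow]
    have h7 : |x| ^ q ≤ |x| := by
      calc |x| ^ q ≤ |x| ^ 1 := pow_le_pow_of_le_one (abs_nonneg _) hx hq
        _ = |x| := pow_one _
    gcongr
  have hZdb : ∀ x : ℝ, |x| ≤ 1 → |Zd x| ≤ (q + 1) * C := by
    intro x hx
    obtain ⟨h1, h2⟩ := hC μ ⟨hμ0, le_rfl⟩ x (hxI x hx)
    show |q * x ^ (q - 1) * Tri.rQ d q μ j x + x ^ q * Tri.drQ d q μ j x| ≤ _
    refine (abs_add_le _ _).trans ?_
    rw [abs_mul, abs_mul, abs_mul, Nat.abs_cast, abs_pow, abs_pow]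
    calc (q:ℝ) * |x| ^ (q - 1) * |Tri.rQ d q μ j x| + |x| ^ q * |Tri.drQ d q μ j x|
        ≤ q * 1 * C + 1 * C := by
          gcongr
          · exact pow_le_one₀ (abs_nonneg _) hx
          · exact pow_le_one₀ (abs_nonneg _) hx
      _ = (q + 1) * C := by ring
  set r2 : ℝ → ℝ := fun x => Z x * p.eval (x ^ 2) with hr2
  set r2d : ℝ → ℝ := fun x => Zd x * p.eval (x ^ 2) + Z x * ((derivative p).eval (x ^ 2) * (2 * x))
    with hr2d
  have hr2der : ∀ x, HasDerivAt r2 (r2d x) x := by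
    intro x
    have h1 : HasDerivAt (fun x : ℝ => x ^ 2) (2 * x) x := by simpa using hasDerivAt_pow 2 x
    have h2 : HasDerivAt (fun x : ℝ => p.eval (x ^ 2)) ((derivative p).eval (x ^ 2) * (2 * x)) x :=
      HasDerivAt.comp (h₂ := fun y => p.eval y) (h := fun x => x ^ 2) x (p.hasDerivAt (x ^ 2)) h1
    exact (hZder x).mul h2
  have hrQc : Continuous fun x => Tri.rQ d q μ j x :=
    (Tri.continuous_rQ d q j).comp (by fun_prop : Continuous fun x : ℝ => (μ, x))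
  have hdrQc : Continuous fun x => Tri.drQ d q μ j x :=
    (Tri.continuous_drQ d q j).comp (by fun_prop : Continuous fun x : ℝ => (μ, x))
  have hpc : Continuous fun x : ℝ => p.eval (x ^ 2) := p.continuous.comp (by fun_prop)
  have hpdc : Continuous fun x : ℝ => (derivative p).eval (x ^ 2) :=
    (derivative p).continuous.comp (by fun_prop)
  have hr2dc : Continuous r2d := by
    rw [hr2d, hZd, hZ]
    fun_prop
  have hR2 : IsRad q m (trunc fun x => (1 - x ^ 2) ^ ((m : ℝ) / 2) * r2 x) := by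
    refine isRad_of hr2der hr2dc (fun x => ?_) (fun hq => ?_) (Or.inr hm1') (fun _ => hm1')
    · show (-x) ^ q * Tri.rQ d q μ j (-x) * p.eval ((-x) ^ 2)
        = (-1) ^ q * (x ^ q * Tri.rQ d q μ j x * p.eval (x ^ 2))
      rw [rQ_neg, neg_sq, neg_pow]; ring
    · obtain ⟨B, hB⟩ := (isCompact_Icc (a := (-1:ℝ)) (b := 1)).exists_bound_of_continuousOn
        (f := fun x : ℝ => p.eval (x ^ 2)) hpc.continuousOn
      refine ⟨C * |B|, fun x hx => ?_⟩
      have hxabs : |x| < 1 := (sq_lt_one_iff_abs_lt_one x).1 hx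
      have h2 := (hB x (hxI x hxabs.le)).trans (le_abs_self B)
      rw [Real.norm_eq_abs] at h2
      have h6 := hZq hq x hxabs.le
      show |Z x * p.eval (x ^ 2)| ≤ C * |B| * |x|
      rw [abs_mul]
      calc |Z x| * |p.eval (x ^ 2)| ≤ (|x| * C) * |B| := by gcongr
        _ = C * |B| * |x| := by ring
  set w : VS q par := ⟨Finsupp.single m (trunc fun x => (1 - x ^ 2) ^ ((m : ℝ) / 2) * r2 x),
    single_mem_VS hm hR2⟩ with hw
  refine ⟨w, single_poly_mem_Pol q hm j p.natDegree (fun i => jc d q μ j i) p le_rfl w rfl, ?_⟩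
  -- the difference
  have hdiff : ((psi d q par b m j - w : VS q par) : ℕ →₀ (ℝ → ℝ))
      = Finsupp.single m (trunc (Rj d q μ j) - trunc fun x => (1 - x ^ 2) ^ ((m : ℝ) / 2) * r2 x) := by
    rw [Submodule.coe_sub, coe_psi d q hb hm j, hw, Finsupp.single_sub]
  have hval : ∀ y : ℝ, y ^ 2 < 1 →
      (trunc (Rj d q μ j) - trunc fun x => (1 - x ^ 2) ^ ((m : ℝ) / 2) * r2 x) y
        = (1 - y ^ 2) ^ ((m : ℝ) / 2) * Z y * ((1 - y ^ 2) ^ s - p.eval (y ^ 2)) := by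
    intro y hy
    rw [Pi.sub_apply, trunc_of_lt hy, trunc_of_lt hy]
    have hsplit : (1 - y ^ 2) ^ (μ / 2) = (1 - y ^ 2) ^ ((m : ℝ) / 2) * (1 - y ^ 2) ^ s := by
      rw [← Real.rpow_add (by linarith)]
      congr 1; rw [hs]; ring
    show (1 - y ^ 2) ^ (μ / 2) * (jQ d q μ j).eval y
      - (1 - y ^ 2) ^ ((m : ℝ) / 2) * (Z y * p.eval (y ^ 2)) = _
    rw [hsplit, Tri.jQ_eval_eq]
    show (1 - y ^ 2) ^ ((m : ℝ) / 2) * (1 - y ^ 2) ^ s * Z y
      - (1 - y ^ 2) ^ ((m : ℝ) / 2) * (Z y * p.eval (y ^ 2)) = _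
    ring
  -- pointwise bounds
  have hbd : ∀ i, ∀ z ∈ Om, |comp d q par (psi d q par b m j - w : VS q par) i z| ≤ A1 * ε1 := by
    intro i z hz
    rw [hdiff, comp_single, abs_mul]
    have h1 := rcomp_diff_est d hm1 hC0 hε1pos.le hZder hZb hZq hZdb hp hval i hz.1
    have h2 : |acomp par m i z.2| ≤ m + 1 := by
      unfold acomp; split_ifs
      · exact (abs_trigD_le _ _ _).trans (by linarith)
      · exact (abs_trig_le _ _ _).trans (by linarith)
    calc _ ≤ ((m + (q + 1) + 2 + Real.sqrt (E0 d q)) * (C * ε1)) * (m + 1) := by gcongr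
      _ = (m + (q + 1) + 2 + Real.sqrt (E0 d q)) * (m + 1) * C * ε1 := by ring
      _ ≤ (m + (q + 1) + 2 + Real.sqrt (E0 d q)) * (m + 1) * (C + 1) * ε1 := by
        gcongr; linarith
      _ = A1 * ε1 := by rw [hA1]
  have hlast := href_le_of_comp _ hbd
  refine lt_of_le_of_lt hlast ?_
  have e1 : 4 * (A1 * ε1) ^ 2 * (mu d).real univ
      = ε * ((mu d).real univ / ((mu d).real univ + 1)) := by
    rw [mul_pow, hε1sq]
    field_simp
  rw [e1]
  have e2 : (mu d).real univ / ((mu d).real univ + 1) < 1 := by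
    rw [div_lt_one (by positivity)]; linarith
  calc ε * ((mu d).real univ / ((mu d).real univ + 1)) < ε * 1 := by gcongr
    _ = ε := mul_one ε

end Crest.Agent.R202.Mod
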