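import Mathlib
import Crest.Agent.R202.SecQB
import Crest.Agent.R202.Model4

/-!
# Row 202, T4 (helper362): the sphere `S^{m+2}` in the coordinates `(X, φ, ω)`
-/

set_option autoImplicit false
set_option linter.unusedSimpArgs false

open MeasureTheory MeasureTheory.Measure Set Filter Topology Metric
open Crest.Agent.R202 Crest.Agent.R202.Sph
open scoped ENNReal

noncomputable section

namespace Crest.Agent.R202.Tra

abbrev En (D : ℕ) : Type := EuclideanSpace ℝ (Fin D)

abbrev S1 (D : ℕ) : Type := sphere (0 : EuclideanSpace ℝ (Fin D)) 1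

abbrev muS (D : ℕ) : Measure (S1 D) := (volume : Measure (EuclideanSpace ℝ (Fin D))).toSphere

theorem lintegral_volumeIoiPow (n : ℕ) {h : ℝ → ℝ≥0∞} (hh : Measurable h) :
    ∫⁻ r : Ioi (0 : ℝ), h r ∂(volumeIoiPow n)
      = ∫⁻ r in Ioi (0 : ℝ), ENNReal.ofReal (r ^ n) * h r := by
  simp only [Measure.volumeIoiPow]
  have h1 : Measurable fun r : Ioi (0 : ℝ) => ENNReal.ofReal ((r : ℝ) ^ n) := by fun_prop
  have h2 : Measurable fun r : Ioi (0 : ℝ) => h r := hh.comp measurable_subtype_coe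
  rw [lintegral_withDensity_eq_lintegral_mul _ h1 h2,
    ← lintegral_subtype_comap measurableSet_Ioi (fun r => ENNReal.ofReal (r ^ n) * h r)]
  rfl

/-- polar coordinates for nonnegative functions -/
theorem lintegral_polar {D : ℕ} [NeZero D] {g : En D → ℝ≥0∞} (hg : Measurable g) :
    ∫⁻ x, g x = ∫⁻ r in Ioi (0 : ℝ), ENNReal.ofReal (r ^ (D - 1)) *
      ∫⁻ ω : S1 D, g (r • (ω : En D)) ∂(muS D) := by
  have hmp := (volume : Measure (En D)).measurePreserving_homeomorphUnitSphereProd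
  rw [finrank_euclideanSpace_fin] at hmp
  have e1 : ∫⁻ x, g x = ∫⁻ p : S1 D × Ioi (0 : ℝ), g (p.2.1 • p.1.1)
      ∂((muS D).prod (volumeIoiPow (D - 1))) := by
    calc ∫⁻ x, g x = ∫⁻ x : ({(0)}ᶜ : Set (En D)), g x.1 ∂(volume.comap
            ((↑) : ({(0)}ᶜ : Set (En D)) → En D)) := by
          rw [lintegral_subtype_comap (measurableSet_singleton _).compl fun x ↦ g x,
            restrict_compl_singleton]
      _ = _ := by
          rw [← hmp.lintegral_comp_emb (Homeomorph.measurableEmbedding _)]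
          refine lintegral_congr_ae (Filter.Eventually.of_forall fun x => ?_)
          dsimp only
          congr 1
          have hx : ‖x.1‖ ≠ 0 := norm_ne_zero_iff.2 x.2
          simp [homeomorphUnitSphereProd, smul_smul, hx]
  have hm : Measurable fun p : S1 D × Ioi (0 : ℝ) => g (p.2.1 • p.1.1) :=
    hg.comp (by fun_prop)
  rw [e1, lintegral_prod_symm' _ hm]
  have hm2 : Measurable fun p : ℝ × S1 D => g (p.1 • (p.2 : En D)) := hg.comp (by fun_prop)
  exact lintegral_volumeIoiPow (D - 1) (h := fun r => ∫⁻ ω : S1 D, g (r • (ω : En D)) ∂(muS D))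
    hm2.lintegral_prod_right'

theorem continuous_mkPt' {m : ℕ} :
    Continuous fun t : ℝ × ℝ × En (m + 1) => mkPt t.1 t.2.1 t.2.2 := by
  unfold mkPt
  refine (PiLp.continuous_toLp 2 _).comp ?_
  refine continuous_pi fun i => ?_
  refine Fin.cases ?_ (fun i => Fin.cases ?_ (fun j => ?_) i) i
  · simpa using continuous_fst
  · have : Continuous fun t : ℝ × ℝ × En (m + 1) => t.2.1 := by fun_prop
    simpa using this
  · have : Continuous fun t : ℝ × ℝ × En (m + 1) => t.2.2 j :=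
      (EuclideanSpace.proj j : En (m + 1) →L[ℝ] ℝ).continuous.comp
        (continuous_snd.comp continuous_snd)
    simpa using this

/-- product coordinates and polar coordinates in both factors -/
theorem lintegral_mkPt {m : ℕ} {F : En (m + 3) → ℝ≥0∞} (hF : Measurable F) :
    ∫⁻ x, F x = ∫⁻ p : ℝ × ℝ, ∫⁻ y : En (m + 1), F (mkPt p.1 p.2 y) := by
  rw [← (measurePreserving_mkE (m := m)).lintegral_comp_emb (mkE m).measurableEmbedding F]
  have h0 : ∀ t : ℝ × ℝ × En (m + 1), F (mkE m t) = F (mkPt t.1 t.2.1 t.2.2) := by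
    rintro ⟨a, b, y⟩; rw [mkE_apply]
  simp only [h0]
  have hm : Measurable fun t : ℝ × ℝ × En (m + 1) => F (mkPt t.1 t.2.1 t.2.2) :=
    hF.comp continuous_mkPt'.measurable
  rw [Measure.volume_eq_prod, lintegral_prod _ hm.aemeasurable]
  have hm2 : ∀ a : ℝ, Measurable fun t : ℝ × En (m + 1) => F (mkPt a t.1 t.2) := fun a =>
    hm.comp (by fun_prop : Measurable fun t : ℝ × En (m + 1) => ((a, t) : ℝ × ℝ × En (m + 1)))
  have h1 : ∀ a : ℝ, ∫⁻ y : ℝ × En (m + 1), F (mkPt a y.1 y.2)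
      = ∫⁻ b : ℝ, ∫⁻ y : En (m + 1), F (mkPt a b y) := fun a => by
    rw [Measure.volume_eq_prod, lintegral_prod _ (hm2 a).aemeasurable]
  simp only [h1]
  have hm3 : Measurable fun p : ℝ × ℝ => ∫⁻ y : En (m + 1), F (mkPt p.1 p.2 y) := by
    have : Measurable fun p : (ℝ × ℝ) × En (m + 1) => F (mkPt p.1.1 p.1.2 p.2) :=
      hm.comp (by fun_prop : Measurable fun p : (ℝ × ℝ) × En (m + 1) =>
        ((p.1.1, p.1.2, p.2) : ℝ × ℝ × En (m + 1)))
    exact this.lintegral_prod_right'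
  rw [Measure.volume_eq_prod, lintegral_prod _ hm3.aemeasurable]

/-- polar coordinates in the quadrant, with `X = sin t` -/
theorem lintegral_quadrant {K : ℝ × ℝ → ℝ≥0∞} (hK : Measurable K) :
    ∫⁻ p in Ioi (0 : ℝ) ×ˢ Ioi (0 : ℝ), K p
      = ∫⁻ R in Ioi (0 : ℝ), ∫⁻ X in Ioo (0 : ℝ) 1,
        ENNReal.ofReal R * (ENNReal.ofReal (Mod.rh X)⁻¹ * K (R * Mod.rh X, R * X)) := by
  have hQ : MeasurableSet (Ioi (0 : ℝ) ×ˢ Ioi (0 : ℝ)) := measurableSet_Ioi.prod measurableSet_Ioi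
  rw [← lintegral_indicator hQ, ← lintegral_comp_polarCoord_symm]
  have htar : polarCoord.target = Ioi (0 : ℝ) ×ˢ Ioo (-Real.pi) Real.pi := rfl
  have hsym : ∀ p : ℝ × ℝ, polarCoord.symm p = (p.1 * Real.cos p.2, p.1 * Real.sin p.2) :=
    fun p => rfl
  rw [htar, Measure.volume_eq_prod, ← Measure.prod_restrict]
  have hmi : Measurable ((Ioi (0 : ℝ) ×ˢ Ioi (0 : ℝ)).indicator K) := hK.indicator hQ
  have hm1 : Measurable fun p : ℝ × ℝ => ENNReal.ofReal p.1 •
      (Ioi (0 : ℝ) ×ˢ Ioi (0 : ℝ)).indicator K (polarCoord.symm p) := by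
    simp only [hsym, smul_eq_mul]
    exact (by fun_prop : Measurable fun p : ℝ × ℝ => ENNReal.ofReal p.1).mul
      (hmi.comp (by fun_prop))
  rw [lintegral_prod _ hm1.aemeasurable]
  refine setLIntegral_congr_fun measurableSet_Ioi fun R hR => ?_
  have hR0 : (0 : ℝ) < R := hR
  -- restrict the angle
  have hpi := Real.pi_pos
  have hsub : Ioo (0 : ℝ) (Real.pi / 2) ⊆ Ioo (-Real.pi) Real.pi :=
    Ioo_subset_Ioo (by linarith) (by linarith)
  have e1 : ∀ t ∈ Ioo (-Real.pi) Real.pi, ENNReal.ofReal R •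
      (Ioi (0 : ℝ) ×ˢ Ioi (0 : ℝ)).indicator K (polarCoord.symm (R, t))
      = (Ioo (0 : ℝ) (Real.pi / 2)).indicator
        (fun t => ENNReal.ofReal R * K (R * Real.cos t, R * Real.sin t)) t := by
    intro t ht
    rw [hsym, smul_eq_mul]
    by_cases h : t ∈ Ioo (0 : ℝ) (Real.pi / 2)
    · rw [indicator_of_mem h, indicator_of_mem]
      refine ⟨?_, ?_⟩
      · exact mul_pos hR0 (Real.cos_pos_of_mem_Ioo ⟨by linarith [h.1], h.2⟩)
      · exact mul_pos hR0 (Real.sin_pos_of_pos_of_lt_pi h.1 (by linarith [h.2]))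
    · rw [indicator_of_notMem h, indicator_of_notMem, mul_zero]
      rintro ⟨h1, h2⟩
      have h1' : 0 < R * Real.cos t := h1
      have h2' : 0 < R * Real.sin t := h2
      have hc : 0 < Real.cos t := (mul_pos_iff_of_pos_left hR0).1 h1'
      have hs : 0 < Real.sin t := (mul_pos_iff_of_pos_left hR0).1 h2'
      apply h
      constructor
      · by_contra hcon
        have := Real.sin_nonpos_of_nonpos_of_neg_pi_le (not_lt.1 hcon) ht.1.le
        linarith
      · by_contra hcon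
        have := Real.cos_nonpos_of_pi_div_two_le_of_le (not_lt.1 hcon) (by linarith [ht.2])
        linarith
  dsimp only
  rw [setLIntegral_congr_fun measurableSet_Ioo e1, lintegral_indicator measurableSet_Ioo,
    Measure.restrict_restrict measurableSet_Ioo, inter_eq_left.2 hsub]
  -- substitution
  have himg : Real.sin '' Ioo (0 : ℝ) (Real.pi / 2) = Ioo (0 : ℝ) 1 := by
    ext y
    constructor
    · rintro ⟨t, ht, rfl⟩
      refine ⟨Real.sin_pos_of_pos_of_lt_pi ht.1 (by linarith [ht.2]), ?_⟩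
      rw [← Real.sin_pi_div_two]
      exact Real.sin_lt_sin_of_lt_of_le_pi_div_two (by linarith [ht.1]) le_rfl ht.2
    · intro hy
      refine ⟨Real.arcsin y, ⟨Real.arcsin_pos.2 hy.1, Real.arcsin_lt_pi_div_two.2 hy.2⟩,
        Real.sin_arcsin (by linarith [hy.1]) hy.2.le⟩
  have hinj : InjOn Real.sin (Ioo (0 : ℝ) (Real.pi / 2)) := by
    refine Real.injOn_sin.mono ?_
    intro t ht
    exact ⟨by linarith [ht.1], ht.2.le⟩
  rw [← himg, lintegral_image_eq_lintegral_abs_deriv_mul measurableSet_Ioo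
    (fun t _ => (Real.hasDerivAt_sin t).hasDerivWithinAt) hinj]
  refine setLIntegral_congr_fun measurableSet_Ioo fun t ht => ?_
  have hc : 0 < Real.cos t := Real.cos_pos_of_mem_Ioo ⟨by linarith [ht.1], ht.2⟩
  have hrh : Mod.rh (Real.sin t) = Real.cos t := by
    unfold Mod.rh
    rw [← Real.cos_sq', Real.sqrt_sq hc.le]
  rw [hrh, abs_of_pos hc, ← mul_assoc (ENNReal.ofReal (Real.cos t)),
    mul_comm (ENNReal.ofReal (Real.cos t)) (ENNReal.ofReal R), mul_assoc,
    ← mul_assoc (ENNReal.ofReal (Real.cos t)), ← ENNReal.ofReal_mul hc.le,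
    mul_inv_cancel₀ hc.ne', ENNReal.ofReal_one, one_mul]

/-- the parametrisation `(X, φ, ω) ↦ (ρ cos φ, ρ sin φ, X ω)` -/
def Psi (m : ℕ) (t : (ℝ × ℝ) × S1 (m + 1)) : En (m + 3) :=
  mkPt (Mod.rh t.1.1 * Real.cos t.1.2) (Mod.rh t.1.1 * Real.sin t.1.2) (t.1.1 • (t.2 : En (m + 1)))

theorem continuous_Psi (m : ℕ) : Continuous (Psi m) := by
  unfold Psi
  have hr : Continuous fun t : (ℝ × ℝ) × S1 (m + 1) => Mod.rh t.1.1 :=
    Mod.continuous_rh.comp (by fun_prop)
  exact continuous_mkPt'.comp ((hr.mul (by fun_prop)).prodMk ((hr.mul (by fun_prop)).prodMk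
    (by fun_prop)))

/-- the full rectangle -/
def Omf : Set (ℝ × ℝ) := Ioo (0 : ℝ) 1 ×ˢ Ioo (-Real.pi) Real.pi

theorem measurableSet_Omf : MeasurableSet Omf := measurableSet_Ioo.prod measurableSet_Ioo

/-- `X^m dX dφ` on `(0,1) × (-π,π)` -/
def nu2 (m : ℕ) : Measure (ℝ × ℝ) :=
  (volume.restrict Omf).withDensity fun z => ENNReal.ofReal (z.1 ^ m)

/-- the Gaussian moment -/
def gE (k : ℕ) : ℝ≥0∞ := ∫⁻ R in Ioi (0 : ℝ), ENNReal.ofReal (R ^ k * Real.exp (-(1 / 2) * R ^ 2))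

theorem gE_eq (k : ℕ) : gE k = ENNReal.ofReal (gmom k) := by
  unfold gE gmom
  rw [ofReal_integral_eq_lintegral_ofReal (gmom_integrable k)]
  filter_upwards [self_mem_ae_restrict measurableSet_Ioi] with r hr
  have hr' : (0 : ℝ) < r := hr
  positivity

theorem gE_ne_zero (k : ℕ) : gE k ≠ 0 := by
  rw [gE_eq]; exact (ENNReal.ofReal_pos.2 (gmom_pos k)).ne'

theorem gE_ne_top (k : ℕ) : gE k ≠ ⊤ := by
  rw [gE_eq]; exact ENNReal.ofReal_ne_top

/-- the Gaussian extension -/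
def gext {D : ℕ} (f : En D → ℝ≥0∞) (x : En D) : ℝ≥0∞ :=
  f (‖x‖⁻¹ • x) * ENNReal.ofReal (Real.exp (-(1 / 2) * ‖x‖ ^ 2))

theorem measurable_gext {D : ℕ} {f : En D → ℝ≥0∞} (hf : Measurable f) : Measurable (gext f) := by
  unfold gext
  exact (hf.comp (by fun_prop)).mul (by fun_prop)

theorem lintegral_gext {D : ℕ} [NeZero D] {f : En D → ℝ≥0∞} (hf : Measurable f) :
    ∫⁻ x, gext f x = gE (D - 1) * ∫⁻ ω : S1 D, f (ω : En D) ∂(muS D) := by
  rw [lintegral_polar (measurable_gext hf)]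
  have h1 : ∀ r ∈ Ioi (0 : ℝ), ENNReal.ofReal (r ^ (D - 1)) *
      ∫⁻ ω : S1 D, gext f (r • (ω : En D)) ∂(muS D)
      = ENNReal.ofReal (r ^ (D - 1) * Real.exp (-(1 / 2) * r ^ 2)) *
        ∫⁻ ω : S1 D, f (ω : En D) ∂(muS D) := by
    intro r hr
    have hr' : (0 : ℝ) < r := hr
    have h2 : ∀ ω : S1 D, gext f (r • (ω : En D))
        = ENNReal.ofReal (Real.exp (-(1 / 2) * r ^ 2)) * f (ω : En D) := by
      intro ω
      have hn : ‖r • (ω : En D)‖ = r := by
        rw [norm_smul, Real.norm_eq_abs, abs_of_pos hr']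
        have : ‖(ω : En D)‖ = 1 := by simp
        rw [this, mul_one]
      unfold gext
      rw [hn, smul_smul, inv_mul_cancel₀ hr'.ne', one_smul, mul_comm]
    have hfm : Measurable fun ω : S1 D => f (ω : En D) := hf.comp measurable_subtype_coe
    simp only [h2]
    rw [lintegral_const_mul _ hfm, ← mul_assoc, ← ENNReal.ofReal_mul (by positivity)]
  rw [setLIntegral_congr_fun measurableSet_Ioi h1, lintegral_mul_const, gE]
  fun_prop

/-- **the sphere in coordinates**, nonnegative functions -/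
theorem lintegral_sphere {m : ℕ} {f : En (m + 3) → ℝ≥0∞} (hf : Measurable f) :
    ∫⁻ z : S1 (m + 3), f (z : En (m + 3)) ∂(muS (m + 3))
      = ∫⁻ t, f (Psi m t) ∂((nu2 m).prod (muS (m + 1))) := by
  have hF := measurable_gext hf
  have key := lintegral_gext hf
  have hk : m + 3 - 1 = m + 2 := rfl
  rw [hk] at key
  -- compute the Gaussian integral in product coordinates
  have c1 : ∫⁻ x, gext f x = ∫⁻ p : ℝ × ℝ, ∫⁻ r in Ioi (0 : ℝ), ENNReal.ofReal (r ^ m) *
      ∫⁻ ω : S1 (m + 1), gext f (mkPt p.1 p.2 (r • (ω : En (m + 1)))) ∂(muS (m + 1)) := by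
    rw [lintegral_mkPt hF]
    refine lintegral_congr fun p => ?_
    rw [lintegral_polar (g := fun y => gext f (mkPt p.1 p.2 y))
      (hF.comp (continuous_mkPt'.measurable.comp (by fun_prop :
        Measurable fun y : En (m + 1) => ((p.1, p.2, y) : ℝ × ℝ × En (m + 1)))))]
    rfl
  -- the function `G`
  set G : ℝ × ℝ × ℝ → ℝ≥0∞ := fun s => ∫⁻ ω : S1 (m + 1),
    gext f (mkPt (s.1 * Real.cos s.2.1) (s.1 * Real.sin s.2.1) (s.2.2 • (ω : En (m + 1))))
      ∂(muS (m + 1)) with hG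
  have hGm : Measurable G := by
    have : Measurable fun t : (ℝ × ℝ × ℝ) × S1 (m + 1) => gext f
        (mkPt (t.1.1 * Real.cos t.1.2.1) (t.1.1 * Real.sin t.1.2.1)
          (t.1.2.2 • (t.2 : En (m + 1)))) := by
      refine hF.comp (continuous_mkPt'.measurable.comp (by fun_prop :
        Measurable fun t : (ℝ × ℝ × ℝ) × S1 (m + 1) => ((t.1.1 * Real.cos t.1.2.1,
          t.1.1 * Real.sin t.1.2.1, t.1.2.2 • (t.2 : En (m + 1))) : ℝ × ℝ × En (m + 1))))
    exact this.lintegral_prod_right'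
  have c2 : ∫⁻ x, gext f x = ∫⁻ φ in Ioo (-Real.pi) Real.pi,
      ∫⁻ p in Ioi (0 : ℝ) ×ˢ Ioi (0 : ℝ), ENNReal.ofReal p.1 * (ENNReal.ofReal (p.2 ^ m) *
        G (p.1, φ, p.2)) := by
    rw [c1, ← lintegral_comp_polarCoord_symm]
    have htar : polarCoord.target = Ioi (0 : ℝ) ×ˢ Ioo (-Real.pi) Real.pi := rfl
    have hsym : ∀ p : ℝ × ℝ, polarCoord.symm p = (p.1 * Real.cos p.2, p.1 * Real.sin p.2) :=
      fun p => rfl
    simp only [hsym, htar, smul_eq_mul]
    have hm1 : Measurable fun q : (ℝ × ℝ) × ℝ => ENNReal.ofReal (q.2 ^ m) *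
        G (q.1.1, q.1.2, q.2) := by
      refine (by fun_prop : Measurable fun q : (ℝ × ℝ) × ℝ => ENNReal.ofReal (q.2 ^ m)).mul
        (hGm.comp (by fun_prop))
    have hm2 : Measurable fun p : ℝ × ℝ => ENNReal.ofReal p.1 * ∫⁻ r in Ioi (0 : ℝ),
        ENNReal.ofReal (r ^ m) * G (p.1, p.2, r) := by
      exact (by fun_prop : Measurable fun p : ℝ × ℝ => ENNReal.ofReal p.1).mul
        hm1.lintegral_prod_right'
    have e1 : (∫⁻ p in Ioi (0 : ℝ) ×ˢ Ioo (-Real.pi) Real.pi, ENNReal.ofReal p.1 *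
        ∫⁻ r in Ioi (0 : ℝ), ENNReal.ofReal (r ^ m) * G (p.1, p.2, r))
        = ∫⁻ φ in Ioo (-Real.pi) Real.pi, ∫⁻ s in Ioi (0 : ℝ), ENNReal.ofReal s *
        ∫⁻ r in Ioi (0 : ℝ), ENNReal.ofReal (r ^ m) * G (s, φ, r) := by
      rw [Measure.volume_eq_prod, ← Measure.prod_restrict, lintegral_prod_symm' _ hm2]
    refine Eq.trans e1 ?_
    refine setLIntegral_congr_fun measurableSet_Ioo fun φ _ => ?_
    have hm3 : Measurable fun p : ℝ × ℝ => ENNReal.ofReal p.1 * (ENNReal.ofReal (p.2 ^ m) *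
        G (p.1, φ, p.2)) := by
      refine (by fun_prop : Measurable fun p : ℝ × ℝ => ENNReal.ofReal p.1).mul
        ((by fun_prop : Measurable fun p : ℝ × ℝ => ENNReal.ofReal (p.2 ^ m)).mul
          (hGm.comp (by fun_prop)))
    rw [Measure.volume_eq_prod, ← Measure.prod_restrict, lintegral_prod _ hm3.aemeasurable]
    refine setLIntegral_congr_fun measurableSet_Ioi fun s _ => ?_
    dsimp only
    rw [lintegral_const_mul]
    exact (by fun_prop : Measurable fun r : ℝ => ENNReal.ofReal (r ^ m)).mul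
      (hGm.comp (by fun_prop))
  -- polar coordinates in `(|x'|, |y|)`
  set Hh : ℝ × ℝ → ℝ≥0∞ := fun p => ∫⁻ ω : S1 (m + 1), f (Psi m (p, ω)) ∂(muS (m + 1)) with hHh
  have hHm : Measurable Hh := by
    have : Measurable fun t : (ℝ × ℝ) × S1 (m + 1) => f (Psi m t) :=
      hf.comp (continuous_Psi m).measurable
    exact this.lintegral_prod_right'
  have c3 : ∀ φ : ℝ, ∫⁻ p in Ioi (0 : ℝ) ×ˢ Ioi (0 : ℝ), ENNReal.ofReal p.1 *
      (ENNReal.ofReal (p.2 ^ m) * G (p.1, φ, p.2))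
      = gE (m + 2) * ∫⁻ X in Ioo (0 : ℝ) 1, ENNReal.ofReal (X ^ m) * Hh (X, φ) := by
    intro φ
    have hm3 : Measurable fun p : ℝ × ℝ => ENNReal.ofReal p.1 * (ENNReal.ofReal (p.2 ^ m) *
        G (p.1, φ, p.2)) := by
      refine (by fun_prop : Measurable fun p : ℝ × ℝ => ENNReal.ofReal p.1).mul
        ((by fun_prop : Measurable fun p : ℝ × ℝ => ENNReal.ofReal (p.2 ^ m)).mul
          (hGm.comp (by fun_prop)))
    rw [lintegral_quadrant hm3]
    have hm4 : Measurable fun X : ℝ => ENNReal.ofReal (X ^ m) * Hh (X, φ) :=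
      (by fun_prop : Measurable fun X : ℝ => ENNReal.ofReal (X ^ m)).mul (hHm.comp (by fun_prop))
    have e1 : ∀ R ∈ Ioi (0 : ℝ), ∫⁻ X in Ioo (0 : ℝ) 1, ENNReal.ofReal R *
        (ENNReal.ofReal (Mod.rh X)⁻¹ * (ENNReal.ofReal (R * Mod.rh X) *
          (ENNReal.ofReal ((R * X) ^ m) * G (R * Mod.rh X, φ, R * X))))
        = ENNReal.ofReal (R ^ (m + 2) * Real.exp (-(1 / 2) * R ^ 2)) *
          ∫⁻ X in Ioo (0 : ℝ) 1, ENNReal.ofReal (X ^ m) * Hh (X, φ) := by
      intro R hR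
      have hR0 : (0 : ℝ) < R := hR
      rw [← lintegral_const_mul _ hm4]
      refine setLIntegral_congr_fun measurableSet_Ioo fun X hX => ?_
      have hX2 : X ^ 2 < 1 := Mod.sq_lt_one_of_mem hX
      have hρ : 0 < Mod.rh X := Mod.rh_pos hX2
      have hX0 : 0 < X := hX.1
      have e2 : G (R * Mod.rh X, φ, R * X)
          = ENNReal.ofReal (Real.exp (-(1 / 2) * R ^ 2)) * Hh (X, φ) := by
        rw [hG, hHh]
        dsimp only
        have hfm : Measurable fun ω : S1 (m + 1) => f (Psi m ((X, φ), ω)) :=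
          hf.comp ((continuous_Psi m).measurable.comp
            (by fun_prop : Measurable fun ω : S1 (m + 1) => (((X, φ), ω) : (ℝ × ℝ) × S1 (m + 1))))
        rw [← lintegral_const_mul _ hfm]
        refine lintegral_congr fun ω => ?_
        have h3 : mkPt (R * Mod.rh X * Real.cos φ) (R * Mod.rh X * Real.sin φ)
            ((R * X) • (ω : En (m + 1))) = R • Psi m ((X, φ), ω) := by
          unfold Psi
          rw [smul_mkPt, smul_smul, mul_assoc, mul_assoc]
        have h4 : ‖Psi m ((X, φ), ω)‖ = 1 := by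
          have h5 := norm_sq_mkPt (Mod.rh X * Real.cos φ) (Mod.rh X * Real.sin φ)
            (X • (ω : En (m + 1)))
          have h6 : ‖X • (ω : En (m + 1))‖ = X := by
            rw [norm_smul, Real.norm_eq_abs, abs_of_pos hX0]
            have : ‖(ω : En (m + 1))‖ = 1 := by simp
            rw [this, mul_one]
          rw [h6] at h5
          have h7 : (Mod.rh X * Real.cos φ) ^ 2 + (Mod.rh X * Real.sin φ) ^ 2 + X ^ 2 = 1 := by
            have h8 := Mod.rh_sq hX2
            have h9 := Real.cos_sq_add_sin_sq φ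
            calc _ = Mod.rh X ^ 2 * (Real.cos φ ^ 2 + Real.sin φ ^ 2) + X ^ 2 := by ring
              _ = 1 := by rw [h8, h9]; ring
          rw [h7] at h5
          have h10 : ‖Psi m ((X, φ), ω)‖ ^ 2 = 1 := h5
          have h11 := norm_nonneg (Psi m ((X, φ), ω))
          nlinarith
        have h5 : ‖R • Psi m ((X, φ), ω)‖ = R := by
          rw [norm_smul, h4, mul_one, Real.norm_eq_abs, abs_of_pos hR0]
        unfold gext
        rw [h3, h5, smul_smul, inv_mul_cancel₀ hR0.ne', one_smul, mul_comm]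
      rw [e2]
      have e3 : R ^ (m + 2) * Real.exp (-(1 / 2) * R ^ 2) * X ^ m
          = R * ((Mod.rh X)⁻¹ * ((R * Mod.rh X) * ((R * X) ^ m * Real.exp (-(1 / 2) * R ^ 2)))) := by
        rw [mul_pow]; field_simp; ring
      have e4 : ENNReal.ofReal (R ^ (m + 2) * Real.exp (-(1 / 2) * R ^ 2) * X ^ m)
          = ENNReal.ofReal R * (ENNReal.ofReal (Mod.rh X)⁻¹ * (ENNReal.ofReal (R * Mod.rh X) *
            (ENNReal.ofReal ((R * X) ^ m) * ENNReal.ofReal (Real.exp (-(1 / 2) * R ^ 2))))) := by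
        rw [e3]
        rw [ENNReal.ofReal_mul (q := (Mod.rh X)⁻¹ * ((R * Mod.rh X) * ((R * X) ^ m *
            Real.exp (-(1 / 2) * R ^ 2)))) hR0.le]
        congr 1
        rw [ENNReal.ofReal_mul (q := (R * Mod.rh X) * ((R * X) ^ m *
            Real.exp (-(1 / 2) * R ^ 2))) (inv_nonneg.2 hρ.le)]
        congr 1
        rw [ENNReal.ofReal_mul (p := R * Mod.rh X) (q := (R * X) ^ m *
            Real.exp (-(1 / 2) * R ^ 2)) (by positivity)]
        congr 1
        rw [ENNReal.ofReal_mul (p := (R * X) ^ m) (by positivity)]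
      rw [← mul_assoc (ENNReal.ofReal (R ^ (m + 2) * Real.exp (-(1 / 2) * R ^ 2))),
        ← ENNReal.ofReal_mul (by positivity), e4]
      simp only [mul_assoc]
    rw [setLIntegral_congr_fun measurableSet_Ioi e1, lintegral_mul_const, gE]
    fun_prop
  have c4 : ∫⁻ x, gext f x = gE (m + 2) * ∫⁻ φ in Ioo (-Real.pi) Real.pi,
      ∫⁻ X in Ioo (0 : ℝ) 1, ENNReal.ofReal (X ^ m) * Hh (X, φ) := by
    rw [c2]
    simp only [c3]
    rw [lintegral_const_mul]
    have : Measurable fun p : ℝ × ℝ => ENNReal.ofReal (p.2 ^ m) * Hh (p.2, p.1) :=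
      (by fun_prop : Measurable fun p : ℝ × ℝ => ENNReal.ofReal (p.2 ^ m)).mul
        (hHm.comp (by fun_prop))
    exact this.lintegral_prod_right'
  -- the right side
  have c5 : ∫⁻ t, f (Psi m t) ∂((nu2 m).prod (muS (m + 1)))
      = ∫⁻ φ in Ioo (-Real.pi) Real.pi, ∫⁻ X in Ioo (0 : ℝ) 1,
        ENNReal.ofReal (X ^ m) * Hh (X, φ) := by
    have hfm : Measurable fun t : (ℝ × ℝ) × S1 (m + 1) => f (Psi m t) :=
      hf.comp (continuous_Psi m).measurable
    rw [lintegral_prod _ hfm.aemeasurable]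
    have hd : Measurable fun z : ℝ × ℝ => ENNReal.ofReal (z.1 ^ m) := by fun_prop
    have e1 : ∫⁻ x : ℝ × ℝ, ∫⁻ y : S1 (m + 1), f (Psi m (x, y)) ∂(muS (m + 1)) ∂(nu2 m)
        = ∫⁻ x in Omf, ENNReal.ofReal (x.1 ^ m) * Hh x := by
      unfold nu2
      rw [lintegral_withDensity_eq_lintegral_mul _ hd hHm]
      rfl
    have hdH : Measurable fun z : ℝ × ℝ => ENNReal.ofReal (z.1 ^ m) * Hh z := hd.mul hHm
    rw [e1, Omf, Measure.volume_eq_prod, ← Measure.prod_restrict, lintegral_prod_symm' _ hdH]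
  rw [c5]
  rw [c4] at key
  exact ((ENNReal.mul_right_inj (gE_ne_zero _) (gE_ne_top _)).1 key).symm

/-! ### functions even in `x1` -/

theorem lintegral_symm_Ioo {k : ℝ → ℝ≥0∞} (hk : ∀ φ, k (-φ) = k φ) :
    ∫⁻ φ in Ioo (-Real.pi) Real.pi, k φ = 2 * ∫⁻ φ in Ioo (0 : ℝ) Real.pi, k φ := by
  have hpi := Real.pi_pos
  have h1 : ∫⁻ φ in Ioo (-Real.pi) Real.pi, k φ
      = ∫⁻ φ in Ioo (-Real.pi) 0 ∪ Ioo (0 : ℝ) Real.pi, k φ := by
    refine setLIntegral_congr ?_
    have h2 : (Ioo (-Real.pi) 0 ∪ Ioo (0 : ℝ) Real.pi : Set ℝ)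
        = Ioo (-Real.pi) Real.pi \ {0} := by
      ext x
      simp only [mem_union, mem_Ioo, Set.mem_sdiff, mem_singleton_iff]
      constructor
      · rintro (h | h)
        · exact ⟨⟨h.1, by linarith [h.2]⟩, h.2.ne⟩
        · exact ⟨⟨by linarith [h.1], h.2⟩, h.1.ne'⟩
      · rintro ⟨h, h0⟩
        rcases lt_or_gt_of_ne h0 with h3 | h3
        · exact Or.inl ⟨h.1, h3⟩
        · exact Or.inr ⟨h3, h.2⟩
    rw [h2]
    exact (sdiff_null_ae_eq_self (by simp)).symm
  have h3 : ∫⁻ φ in Ioo (-Real.pi) 0, k φ = ∫⁻ φ in Ioo (0 : ℝ) Real.pi, k φ := by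
    have h4 := (Measure.measurePreserving_neg (volume : Measure ℝ)).setLIntegral_comp_preimage_emb
      (MeasurableEquiv.neg ℝ).measurableEmbedding k (Ioo (0 : ℝ) Real.pi)
    have h5 : (fun x : ℝ => -x) ⁻¹' Ioo (0 : ℝ) Real.pi = Ioo (-Real.pi) 0 := by
      ext x; simp only [mem_preimage, mem_Ioo]
      constructor
      · rintro ⟨h1, h2⟩; constructor <;> linarith
      · rintro ⟨h1, h2⟩; constructor <;> linarith
    rw [← h4]
    have h6 : (Neg.neg : ℝ → ℝ) ⁻¹' Ioo (0 : ℝ) Real.pi = Ioo (-Real.pi) 0 := h5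
    rw [h6]
    exact (lintegral_congr fun φ => hk φ).symm
  rw [h1, lintegral_union measurableSet_Ioo, h3, two_mul]
  rw [Set.disjoint_left]
  rintro x ⟨_, h⟩ ⟨h', _⟩
  linarith

/-- the sphere in the half coordinates, even nonnegative functions -/
theorem lintegral_sphere_even {m : ℕ} {f : En (m + 3) → ℝ≥0∞} (hf : Measurable f)
    (heven : ∀ a b y, f (mkPt a (-b) y) = f (mkPt a b y)) :
    ∫⁻ z : S1 (m + 3), f (z : En (m + 3)) ∂(muS (m + 3))
      = 2 * ∫⁻ t, f (Psi m t) ∂((Mod.mu m).prod (muS (m + 1))) := by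
  rw [lintegral_sphere hf]
  have hfm : Measurable fun t : (ℝ × ℝ) × S1 (m + 1) => f (Psi m t) :=
    hf.comp (continuous_Psi m).measurable
  set Hh : ℝ × ℝ → ℝ≥0∞ := fun p => ∫⁻ ω : S1 (m + 1), f (Psi m (p, ω)) ∂(muS (m + 1)) with hHh
  have hHm : Measurable Hh := hfm.lintegral_prod_right'
  have hd : Measurable fun z : ℝ × ℝ => ENNReal.ofReal (z.1 ^ m) := by fun_prop
  have hdH : Measurable fun z : ℝ × ℝ => ENNReal.ofReal (z.1 ^ m) * Hh z := hd.mul hHm
  have hev : ∀ X φ : ℝ, Hh (X, -φ) = Hh (X, φ) := by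
    intro X φ
    rw [hHh]
    refine lintegral_congr fun ω => ?_
    unfold Psi
    dsimp only
    rw [Real.cos_neg, Real.sin_neg, mul_neg, heven]
  have hgen : ∀ s : Set ℝ, ∫⁻ t, f (Psi m t)
      ∂(((volume.restrict (Ioo (0 : ℝ) 1 ×ˢ s)).withDensity
        (fun z : ℝ × ℝ => ENNReal.ofReal (z.1 ^ m))).prod (muS (m + 1)))
      = ∫⁻ φ in s, ∫⁻ X in Ioo (0 : ℝ) 1, ENNReal.ofReal (X ^ m) * Hh (X, φ) := by
    intro s
    rw [lintegral_prod _ hfm.aemeasurable]
    have e1 : ∫⁻ x : ℝ × ℝ, ∫⁻ y : S1 (m + 1), f (Psi m (x, y)) ∂(muS (m + 1))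
        ∂((volume.restrict (Ioo (0 : ℝ) 1 ×ˢ s)).withDensity
        (fun z : ℝ × ℝ => ENNReal.ofReal (z.1 ^ m)))
        = ∫⁻ x in Ioo (0 : ℝ) 1 ×ˢ s, ENNReal.ofReal (x.1 ^ m) * Hh x := by
      rw [lintegral_withDensity_eq_lintegral_mul _ hd hHm]
      rfl
    rw [e1, Measure.volume_eq_prod, ← Measure.prod_restrict, lintegral_prod_symm' _ hdH]
  have g1 := hgen (Ioo (-Real.pi) Real.pi)
  have g2 := hgen (Ioo (0 : ℝ) Real.pi)
  have g1' : ∫⁻ t, f (Psi m t) ∂((nu2 m).prod (muS (m + 1)))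
      = ∫⁻ φ in Ioo (-Real.pi) Real.pi, ∫⁻ X in Ioo (0 : ℝ) 1, ENNReal.ofReal (X ^ m) * Hh (X, φ) :=
    g1
  have g2' : ∫⁻ t, f (Psi m t) ∂((Mod.mu m).prod (muS (m + 1)))
      = ∫⁻ φ in Ioo (0 : ℝ) Real.pi, ∫⁻ X in Ioo (0 : ℝ) 1, ENNReal.ofReal (X ^ m) * Hh (X, φ) :=
    g2
  rw [g1', g2']
  exact lintegral_symm_Ioo fun φ => by simp only [hev]

/-- the reflection `x1 ↦ |x1|` -/
def fold (m : ℕ) (z : En (m + 3)) : En (m + 3) := mkPt (z 0) |z 1| (yPart z)

theorem continuous_fold (m : ℕ) : Continuous (fold m) := by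
  unfold fold
  have h0 : ∀ i : Fin (m + 3), Continuous fun z : En (m + 3) => z i := fun i =>
    (EuclideanSpace.proj i : En (m + 3) →L[ℝ] ℝ).continuous
  have hy : Continuous fun z : En (m + 3) => yPart z := by
    unfold yPart
    exact (PiLp.continuous_toLp 2 _).comp (continuous_pi fun i => h0 _)
  exact continuous_mkPt'.comp ((h0 0).prodMk ((h0 1).abs.prodMk hy))

theorem mkPt_eta {m : ℕ} (z : En (m + 3)) : mkPt (z 0) (z 1) (yPart z) = z := by
  ext i
  refine Fin.cases ?_ (fun i => Fin.cases ?_ (fun j => ?_) i) i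
  · simp [mkPt]
  · simp [mkPt]
  · simp [mkPt, yPart]

theorem comp_fold {m : ℕ} {β : Type*} {g : En (m + 3) → β}
    (heven : ∀ a b y, g (mkPt a (-b) y) = g (mkPt a b y)) (z : En (m + 3)) :
    g (fold m z) = g z := by
  unfold fold
  rcases abs_choice (z 1) with h | h
  · rw [h, mkPt_eta]
  · rw [h, heven, mkPt_eta]

theorem fold_mkPt {m : ℕ} (a b : ℝ) (y : En (m + 1)) :
    fold m (mkPt a (-b) y) = fold m (mkPt a b y) := by
  unfold fold; simp

/-- **the sphere in coordinates**, even functions -/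
theorem sph_even {m : ℕ} {g : En (m + 3) → ℝ} (hg : Measurable g)
    (heven : ∀ a b y, g (mkPt a (-b) y) = g (mkPt a b y)) :
    sph g = 2 * ∫ t, g (Psi m t) ∂((Mod.mu m).prod (muS (m + 1))) := by
  have hfold := (continuous_fold m).measurable
  have hPsi := (continuous_Psi m).measurable
  have hmeas : Measure.map (fun z : S1 (m + 3) => fold m (z : En (m + 3))) (muS (m + 3))
      = (2 : ℝ≥0∞) • Measure.map (fun t => fold m (Psi m t))
        ((Mod.mu m).prod (muS (m + 1))) := by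
    ext s hs
    have hm1 : Measurable (fun z : S1 (m + 3) => fold m (z : En (m + 3))) :=
      hfold.comp measurable_subtype_coe
    have hm2 : Measurable (fun t => fold m (Psi m t)) := hfold.comp hPsi
    rw [Measure.smul_apply, Measure.map_apply hm1 hs, Measure.map_apply hm2 hs]
    have h1 := lintegral_sphere_even (m := m) (f := fun z => s.indicator 1 (fold m z))
      ((measurable_one.indicator hs).comp hfold) (fun a b y => by rw [fold_mkPt])
    have e1 : ∫⁻ z : S1 (m + 3), s.indicator (1 : En (m + 3) → ℝ≥0∞) (fold m (z : En (m + 3)))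
        ∂(muS (m + 3)) = muS (m + 3) ((fun z : S1 (m + 3) => fold m (z : En (m + 3))) ⁻¹' s) := by
      rw [← lintegral_indicator_one (hm1 hs)]
      rfl
    have e2 : ∫⁻ t, s.indicator (1 : En (m + 3) → ℝ≥0∞) (fold m (Psi m t))
        ∂((Mod.mu m).prod (muS (m + 1)))
        = ((Mod.mu m).prod (muS (m + 1))) ((fun t => fold m (Psi m t)) ⁻¹' s) := by
      rw [← lintegral_indicator_one (hm2 hs)]
      rfl
    rw [e1, e2] at h1
    rw [h1, smul_eq_mul]
  have hm1 : Measurable (fun z : S1 (m + 3) => fold m (z : En (m + 3))) :=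
    hfold.comp measurable_subtype_coe
  have hm2 : Measurable (fun t => fold m (Psi m t)) := hfold.comp hPsi
  have s1 : sph g = ∫ x, g x ∂(Measure.map (fun z : S1 (m + 3) => fold m (z : En (m + 3)))
      (muS (m + 3))) := by
    rw [integral_map hm1.aemeasurable hg.aestronglyMeasurable]
    unfold sph
    refine integral_congr_ae (Filter.Eventually.of_forall fun z => ?_)
    exact (comp_fold heven _).symm
  rw [s1, hmeas, integral_smul_measure, integral_map hm2.aemeasurable hg.aestronglyMeasurable]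
  simp only [comp_fold heven]
  simp

end Crest.Agent.R202.Tra
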