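import Mathlib
import Crest.Agent.R202.TraSph
import Crest.Agent.R202.PolMap
import Crest.Agent.R202.SecAfam
import Crest.Agent.R202.WgtSph

/-!
# Row 202, T4 (helper362): the sphere forms `ip`, `QB (SB θ P)` on sector polynomials are the model
forms `2 g`, `2 θ^{2/(m+2)} Q`
-/

set_option autoImplicit false
set_option linter.unusedSimpArgs false

open MeasureTheory MeasureTheory.Measure Set Filter Topology Metric MvPolynomial
open Crest.Agent.R202 Crest.Agent.R202.Sph Crest.Agent.R202.Geo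

noncomputable section

namespace Crest.Agent.R202.Tra

open Crest.Agent.R202.Mod (Om mu VS comp uV rh g Q Adm)

/-- chain rule for polynomials in three functions -/
theorem hasDerivAt_eval3 (V : MvPolynomial (Fin 3) ℝ) {a b c : ℝ → ℝ} {a' b' c' t : ℝ}
    (ha : HasDerivAt a a' t) (hb : HasDerivAt b b' t) (hc : HasDerivAt c c' t) :
    HasDerivAt (fun s => eval ![a s, b s, c s] V)
      (eval ![a t, b t, c t] (pderiv 0 V) * a' + eval ![a t, b t, c t] (pderiv 1 V) * b'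
        + eval ![a t, b t, c t] (pderiv 2 V) * c') t := by
  induction V using MvPolynomial.induction_on with
  | C r => simpa using hasDerivAt_const t r
  | add p q hp hq =>
    simp only [map_add]
    refine (hp.add hq).congr_deriv ?_
    ring
  | mul_X p i hp =>
    have key : HasDerivAt (fun s => (![a s, b s, c s] : Fin 3 → ℝ) i)
        ((if i = 0 then a' else 0) + (if i = 1 then b' else 0) + (if i = 2 then c' else 0)) t := by
      fin_cases i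
      · simpa using ha
      · simpa using hb
      · simpa using hc
    simp only [map_mul, eval_X]
    refine (hp.mul key).congr_deriv ?_
    simp only [pderiv_mul, map_add, map_mul, eval_X, pderiv_X, Pi.single_apply]
    fin_cases i
    · simp; ring
    · simp; ring
    · simp; ring

/-- the arguments -/
def arg (x φ : ℝ) : Fin 3 → ℝ := ![x ^ 2, rh x * Real.cos φ, rh x * Real.sin φ]

theorem hasDerivAt_rh {x : ℝ} (hx : x ^ 2 < 1) : HasDerivAt rh (-(x / rh x)) x := by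
  unfold Mod.rh
  have h1 : HasDerivAt (fun x : ℝ => 1 - x ^ 2) (-(2 * x)) x := by
    simpa using (hasDerivAt_pow 2 x).const_sub 1
  have h2 := h1.sqrt (by have : (0:ℝ) < 1 - x ^ 2 := by linarith
                         exact this.ne')
  refine h2.congr_deriv ?_
  have h3 : Real.sqrt (1 - x ^ 2) ≠ 0 := (Real.sqrt_pos.2 (by linarith)).ne'
  field_simp

theorem hasDerivAt_uV_fst (q : ℕ) (V : MvPolynomial (Fin 3) ℝ) {x : ℝ} (φ : ℝ) (hx : x ^ 2 < 1) :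
    HasDerivAt (fun s => uV q V (s, φ))
      (q * x ^ (q - 1) * eval (arg x φ) V + x ^ q * (eval (arg x φ) (pderiv 0 V) * (2 * x)
        + eval (arg x φ) (pderiv 1 V) * (-(x / rh x) * Real.cos φ)
        + eval (arg x φ) (pderiv 2 V) * (-(x / rh x) * Real.sin φ))) x := by
  have h1 : HasDerivAt (fun s : ℝ => s ^ 2) (2 * x) x := by simpa using hasDerivAt_pow 2 x
  have h2 := hasDerivAt_eval3 V h1 ((hasDerivAt_rh hx).mul_const (Real.cos φ))
    ((hasDerivAt_rh hx).mul_const (Real.sin φ))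
  exact (hasDerivAt_pow q x).mul h2

theorem hasDerivAt_uV_snd (q : ℕ) (V : MvPolynomial (Fin 3) ℝ) (x φ : ℝ) :
    HasDerivAt (fun s => uV q V (x, s))
      (x ^ q * (eval (arg x φ) (pderiv 1 V) * (rh x * -Real.sin φ)
        + eval (arg x φ) (pderiv 2 V) * (rh x * Real.cos φ))) φ := by
  have h2 := hasDerivAt_eval3 V (hasDerivAt_const φ (x ^ 2))
    ((Real.hasDerivAt_cos φ).const_mul (rh x)) ((Real.hasDerivAt_sin φ).const_mul (rh x))
  refine (h2.const_mul (x ^ q)).congr_deriv ?_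
  simp only [arg, mul_zero, zero_add]

theorem sqrt_ab {x : ℝ} (φ : ℝ) :
    Real.sqrt ((rh x * Real.cos φ) ^ 2 + (rh x * Real.sin φ) ^ 2) = rh x := by
  have h : (rh x * Real.cos φ) ^ 2 + (rh x * Real.sin φ) ^ 2 = rh x ^ 2 := by
    have := Real.cos_sq_add_sin_sq φ
    calc _ = rh x ^ 2 * (Real.cos φ ^ 2 + Real.sin φ ^ 2) := by ring
      _ = rh x ^ 2 := by rw [this, mul_one]
  rw [h, Real.sqrt_sq (Mod.rh_nonneg x)]

theorem evV_arg (V : MvPolynomial (Fin 3) ℝ) (x φ : ℝ) :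
    evV V x (rh x * Real.cos φ) (rh x * Real.sin φ) = eval (arg x φ) V := rfl

section comps

variable {m q par : ℕ} {V : MvPolynomial (Fin 3) ℝ} {w : VS q par}

theorem comp0_eq (hw : ∀ z ∈ Om, Mod.ev par (w : ℕ →₀ (ℝ → ℝ)) z = uV q V z) {z : ℝ × ℝ}
    (hz : z ∈ Om) : comp m q par w 0 z = z.1 ^ q * eval (arg z.1 z.2) V := hw z hz

theorem comp1_eq (hw : ∀ z ∈ Om, Mod.ev par (w : ℕ →₀ (ℝ → ℝ)) z = uV q V z) {z : ℝ × ℝ}
    (hz : z ∈ Om) : comp m q par w 1 z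
      = z.1 ^ q * E1 q V 1 z.1 (rh z.1 * Real.cos z.2) (rh z.1 * Real.sin z.2) := by
  obtain ⟨x, φ⟩ := z
  have hx2 : x ^ 2 < 1 := Mod.sq_lt_one_of_mem hz.1
  have hx0 : x ≠ 0 := hz.1.1.ne'
  have hρ : rh x ≠ 0 := (Mod.rh_pos hx2).ne'
  rw [Mod.comp_one_eq_deriv m w hx2]
  have hev : (fun s => Mod.ev par (w : ℕ →₀ (ℝ → ℝ)) (s, φ)) =ᶠ[𝓝 x] fun s => uV q V (s, φ) := by
    filter_upwards [isOpen_Ioo.mem_nhds hz.1] with s hs
    exact hw (s, φ) ⟨hs, hz.2⟩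
  dsimp only
  rw [hev.deriv_eq, (hasDerivAt_uV_fst q V φ hx2).deriv]
  unfold E1
  rw [sqrt_ab, evV_arg, evV_arg, evV_arg, evV_arg]
  rcases Nat.eq_zero_or_pos q with hq | hq
  · subst hq
    simp only [Nat.cast_zero, zero_mul, pow_zero, one_mul, zero_add]
    field_simp
    ring
  · obtain ⟨k, rfl⟩ : ∃ k, q = k + 1 := ⟨q - 1, by omega⟩
    simp only [Nat.add_sub_cancel]
    field_simp
    ring

theorem comp2_eq (hw : ∀ z ∈ Om, Mod.ev par (w : ℕ →₀ (ℝ → ℝ)) z = uV q V z) {z : ℝ × ℝ}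
    (hz : z ∈ Om) : comp m q par w 2 z
      = z.1 ^ q * E2 V z.1 (rh z.1 * Real.cos z.2) (rh z.1 * Real.sin z.2) := by
  obtain ⟨x, φ⟩ := z
  have hx2 : x ^ 2 < 1 := Mod.sq_lt_one_of_mem hz.1
  have hρ : rh x ≠ 0 := (Mod.rh_pos hx2).ne'
  rw [Mod.comp_two_eq_deriv m w hx2]
  have hev : (fun s => Mod.ev par (w : ℕ →₀ (ℝ → ℝ)) (x, s)) =ᶠ[𝓝 φ] fun s => uV q V (x, s) := by
    filter_upwards [isOpen_Ioo.mem_nhds hz.2] with s hs
    exact hw (x, s) ⟨hz.1, hs⟩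
  dsimp only
  rw [hev.deriv_eq, (hasDerivAt_uV_snd q V x φ).deriv]
  unfold E2
  rw [sqrt_ab, evV_arg, evV_arg]
  field_simp

theorem comp3_eq (hw : ∀ z ∈ Om, Mod.ev par (w : ℕ →₀ (ℝ → ℝ)) z = uV q V z) {z : ℝ × ℝ}
    (hz : z ∈ Om) : comp m q par w 3 z
      = Real.sqrt (E0 m q) * (z.1 ^ q * eval (arg z.1 z.2) V / z.1) := by
  rw [Mod.comp_three_eq, hw z hz]; rfl

end comps

/-! ### points of the sphere -/

theorem Psi_zero {m : ℕ} (t : (ℝ × ℝ) × S1 (m + 1)) : Psi m t 0 = rh t.1.1 * Real.cos t.1.2 :=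
  mkPt_zero _ _ _

theorem Psi_one {m : ℕ} (t : (ℝ × ℝ) × S1 (m + 1)) : Psi m t 1 = rh t.1.1 * Real.sin t.1.2 :=
  mkPt_one _ _ _

theorem yPart_Psi {m : ℕ} (t : (ℝ × ℝ) × S1 (m + 1)) : yPart (Psi m t) = t.1.1 • (t.2 : En (m + 1)) :=
  yPart_mkPt _ _ _

theorem sig_Psi {m : ℕ} {t : (ℝ × ℝ) × S1 (m + 1)} (ht : 0 ≤ t.1.1) : sig (Psi m t) = t.1.1 := by
  unfold Psi
  rw [sig_mkPt, norm_smul, Real.norm_eq_abs, abs_of_nonneg ht]
  have : ‖(t.2 : En (m + 1))‖ = 1 := by simp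
  rw [this, mul_one]

theorem uab_Psi {x : ℝ} (φ : ℝ) (hx : x ^ 2 < 1) :
    uab (rh x * Real.cos φ) (rh x * Real.sin φ) = Complex.exp ((φ : ℂ) * Complex.I) := by
  have hρ : rh x ≠ 0 := (Mod.rh_pos hx).ne'
  unfold uab
  rw [sqrt_ab, Complex.exp_mul_I]
  have hρ' : ((rh x : ℝ) : ℂ) ≠ 0 := by exact_mod_cast hρ
  push_cast
  field_simp

theorem ae_prod_mem (m : ℕ) :
    ∀ᵐ t ∂((mu m).prod (muS (m + 1))), t.1 ∈ Om :=
  Measure.quasiMeasurePreserving_fst.ae (Mod.ae_mem_Om m)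

/-! ### `ip = 2 g` -/

theorem ip_eq_g {m q par : ℕ} {Y Y' : MvPolynomial (Fin (m + 1)) ℝ} (hY : Y.IsHomogeneous q)
    (hY' : Y'.IsHomogeneous q) {V V' : MvPolynomial (Fin 3) ℝ} {ε : ℝ} (hε : ε * ε = 1)
    (hV : refl3 V = C ε * V) (hV' : refl3 V' = C ε * V') {w w' : VS q par}
    (hw : ∀ z ∈ Om, Mod.ev par (w : ℕ →₀ (ℝ → ℝ)) z = uV q V z)
    (hw' : ∀ z ∈ Om, Mod.ev par (w' : ℕ →₀ (ℝ → ℝ)) z = uV q V' z) :
    ip (yI m Y * vI m V) (yI m Y' * vI m V') = 2 * sph (ev (Y * Y')) * g m q par w w' := by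
  unfold ip
  rw [sph_even (continuous_ev _).measurable]
  · have e1 : ∫ t, ev (yI m Y * vI m V * (yI m Y' * vI m V')) (Psi m t)
        ∂((mu m).prod (muS (m + 1)))
        = ∫ t, (comp m q par w 0 t.1 * comp m q par w' 0 t.1) * ev (Y * Y') (t.2 : En (m + 1))
          ∂((mu m).prod (muS (m + 1))) := by
      refine integral_congr_ae ?_
      filter_upwards [ae_prod_mem m] with t ht
      rw [comp0_eq hw ht, comp0_eq hw' ht]
      have hx0 : 0 ≤ t.1.1 := ht.1.1.le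
      rw [Sph.ev_mul, Sph.ev_mul, Sph.ev_mul, ev_yI, ev_yI, ev_vI', ev_vI', sig_Psi hx0, Psi_zero,
        Psi_one, yPart_Psi, ev_smul_arg hY, ev_smul_arg hY', evV_arg, evV_arg, Sph.ev_mul]
      ring
    rw [e1, integral_prod_mul (fun z : ℝ × ℝ => comp m q par w 0 z * comp m q par w' 0 z)
      (fun ω : S1 (m + 1) => ev (Y * Y') (ω : En (m + 1))), Mod.g_apply]
    unfold sph
    ring
  · intro a b y
    rw [Sph.ev_mul, Sph.ev_mul, Sph.ev_mul, Sph.ev_mul, Sph.ev_mul, Sph.ev_mul, ev_yI, ev_yI,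
      ev_yI, ev_yI, ev_vI', ev_vI', ev_vI', ev_vI', sig_mkPt, sig_mkPt, yPart_mkPt, yPart_mkPt,
      mkPt_zero, mkPt_zero, mkPt_one, mkPt_one, evV_par hV, evV_par hV']
    linear_combination (ev Y y * evV V ‖y‖ a b * (ev Y' y * evV V' ‖y‖ a b)) * hε

/-! ### `QB = 2 θ^{2/(m+2)} Q` -/

theorem integrable_cont (m : ℕ) {h : ℝ × ℝ → ℝ} (hh : Continuous h) : Integrable h (mu m) := by
  obtain ⟨C, hC⟩ := ((isCompact_Icc (a := (0:ℝ)) (b := 1)).prod
    (isCompact_Icc (a := (0:ℝ)) (b := Real.pi))).exists_bound_of_continuousOn hh.continuousOn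
  refine Integrable.mono' (integrable_const C) hh.aestronglyMeasurable ?_
  filter_upwards [Mod.ae_mem_Om m] with z hz
  exact hC z ⟨⟨hz.1.1.le, hz.1.2.le⟩, ⟨hz.2.1.le, hz.2.2.le⟩⟩

theorem measurable_evV (V : MvPolynomial (Fin 3) ℝ) :
    Measurable fun p : ℝ × ℝ × ℝ => evV V p.1 p.2.1 p.2.2 := by
  unfold evV
  refine (MvPolynomial.continuous_eval V).measurable.comp ?_
  refine measurable_pi_lambda _ fun i => ?_
  fin_cases i
  · simp; fun_prop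
  · simp; fun_prop
  · simp; fun_prop

theorem continuous_arg : Continuous fun z : ℝ × ℝ => arg z.1 z.2 := by
  unfold arg
  refine continuous_pi fun i => ?_
  have hr : Continuous fun z : ℝ × ℝ => rh z.1 := Mod.continuous_rh.comp continuous_fst
  fin_cases i
  · simp; fun_prop
  · simp; exact hr.mul (by fun_prop)
  · simp; exact hr.mul (by fun_prop)

theorem measurable_uab : Measurable fun p : ℝ × ℝ => uab p.1 p.2 := by
  unfold uab
  refine Measurable.div ?_ (Complex.measurable_ofReal.comp (by fun_prop))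
  exact (Complex.measurable_ofReal.comp measurable_fst).add
    ((Complex.measurable_ofReal.comp measurable_snd).mul_const _)

theorem measurable_E1 (q : ℕ) (V : MvPolynomial (Fin 3) ℝ) :
    Measurable fun p : ℝ × ℝ × ℝ => E1 q V 1 p.1 p.2.1 p.2.2 := by
  unfold E1
  have h0 := measurable_evV V
  have h1 := measurable_evV (pderiv 0 V)
  have h2 := measurable_evV (pderiv 1 V)
  have h3 := measurable_evV (pderiv 2 V)
  fun_prop

theorem measurable_E2 (V : MvPolynomial (Fin 3) ℝ) :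
    Measurable fun p : ℝ × ℝ × ℝ => E2 V p.1 p.2.1 p.2.2 := by
  unfold E2
  have h2 := measurable_evV (pderiv 1 V)
  have h3 := measurable_evV (pderiv 2 V)
  fun_prop

/-- the coefficients -/
def k1 (m : ℕ) (θ : ℝ) (P : ℝ → ℂ → ℝ) (σ a b : ℝ) : ℝ :=
  θ ^ ((2 : ℝ) / ((m : ℝ) + 2)) * P σ (uab a b)

def k2 (m : ℕ) (θ : ℝ) (P : ℝ → ℂ → ℝ) (σ a b : ℝ) : ℝ :=
  θ ^ ((2 : ℝ) / ((m : ℝ) + 2)) * (θ ^ 2 * P σ (uab a b))⁻¹

def k3 (m : ℕ) (θ : ℝ) (_ _ _ : ℝ) : ℝ := θ ^ ((2 : ℝ) / ((m : ℝ) + 2))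

/-- the density on the sphere -/
def dens {m : ℕ} (q : ℕ) (θ : ℝ) (P : ℝ → ℂ → ℝ) (Y Y' : MvPolynomial (Fin (m + 1)) ℝ)
    (V V' : MvPolynomial (Fin 3) ℝ) (z : En (m + 3)) : ℝ :=
  ev (Y * Y') (yPart z) * alp (k1 m θ P) (k2 m θ P) (k3 m θ) q q V V' (sig z) (z 0) (z 1)
    + ev (gp Y Y') (yPart z) * bet (k3 m θ) V V' (sig z) (z 0) (z 1)

theorem QB_eq_sph_dens {m q : ℕ} {θ : ℝ} {P : ℝ → ℂ → ℝ} (h : Frz θ P)
    {Y Y' : MvPolynomial (Fin (m + 1)) ℝ} (hY : Y.IsHomogeneous q) (hY' : Y'.IsHomogeneous q)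
    (V V' : MvPolynomial (Fin 3) ℝ) :
    QB (fun z => (Afam (fun _ => θ) (fun _ => P) z)⁻¹ - outer z)
        (yI m Y * vI m V) (yI m Y' * vI m V') = sph (dens q θ P Y Y' V V') := by
  rw [QB_eq]
  unfold sph
  refine integral_congr_ae ?_
  filter_upwards [Wgt.ae_axes (m := m)] with z hz
  have hz1 : ‖(z : En (m + 3))‖ = 1 := by simp
  refine qb_formula (c1 := k1 m θ P) (c2 := k2 m θ P) (c3 := k3 m θ) hY hY' V V' hz1 hz.2
    fun i j => ?_
  have h1 := SBf_off h hz1 hz.1 hz.2 i j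
  have h2 : uu (z : En (m + 3)) = uab ((z : En (m + 3)) 0) ((z : En (m + 3)) 1) := rfl
  rw [h2] at h1
  refine h1.trans ?_
  unfold k1 k2 k3
  ring

theorem continuous_yPart (m : ℕ) : Continuous fun z : En (m + 3) => yPart z := by
  unfold yPart
  refine (PiLp.continuous_toLp 2 _).comp (continuous_pi fun i => ?_)
  exact (EuclideanSpace.proj (i.succ.succ) : En (m + 3) →L[ℝ] ℝ).continuous

theorem measurable_alp {m q : ℕ} {θ : ℝ} {P : ℝ → ℂ → ℝ}
    (hPc : Measurable (fun q : ℝ × ℂ => P q.1 q.2)) (V V' : MvPolynomial (Fin 3) ℝ) :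
    Measurable fun p : ℝ × ℝ × ℝ =>
      alp (k1 m θ P) (k2 m θ P) (k3 m θ) q q V V' p.1 p.2.1 p.2.2 := by
  have hPm : Measurable fun p : ℝ × ℝ × ℝ => P p.1 (uab p.2.1 p.2.2) :=
    hPc.comp (measurable_fst.prodMk (measurable_uab.comp measurable_snd))
  have hvm := measurable_evV V
  have hvm' := measurable_evV V'
  have he1 := measurable_E1 q V
  have he1' := measurable_E1 q V'
  have he2 := measurable_E2 V
  have he2' := measurable_E2 V'
  have b1 : Measurable fun p : ℝ × ℝ × ℝ => k1 m θ P p.1 p.2.1 p.2.2 := hPm.const_mul _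
  have b2 : Measurable fun p : ℝ × ℝ × ℝ => k2 m θ P p.1 p.2.1 p.2.2 :=
    ((hPm.const_mul (θ ^ 2)).inv).const_mul _
  have b3 : Measurable fun p : ℝ × ℝ × ℝ => k3 m θ p.1 p.2.1 p.2.2 := measurable_const
  have b4 : Measurable fun p : ℝ × ℝ × ℝ => E1 q V 1 p.1 p.2.1 p.2.2 * E1 q V' 1 p.1 p.2.1 p.2.2 :=
    he1.mul he1'
  have b5 : Measurable fun p : ℝ × ℝ × ℝ => E2 V p.1 p.2.1 p.2.2 * E2 V' p.1 p.2.1 p.2.2 :=
    he2.mul he2'
  have b6 : Measurable fun p : ℝ × ℝ × ℝ =>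
      (q : ℝ) * q * evV V p.1 p.2.1 p.2.2 * evV V' p.1 p.2.1 p.2.2 / p.1 ^ 2 :=
    ((hvm.const_mul ((q : ℝ) * q)).mul hvm').div (measurable_fst.pow_const 2)
  exact ((b1.mul b4).add (b2.mul b5)).sub (b3.mul b6)

theorem measurable_bet {m : ℕ} {θ : ℝ} (V V' : MvPolynomial (Fin 3) ℝ) :
    Measurable fun p : ℝ × ℝ × ℝ => bet (k3 m θ) V V' p.1 p.2.1 p.2.2 := by
  have b3 : Measurable fun p : ℝ × ℝ × ℝ => k3 m θ p.1 p.2.1 p.2.2 := measurable_const
  exact b3.mul ((measurable_evV V).mul (measurable_evV V'))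

theorem measurable_tr (m : ℕ) :
    Measurable fun z : En (m + 3) => ((sig z, z 0, z 1) : ℝ × ℝ × ℝ) := by
  have hcoord : ∀ i : Fin (m + 3), Measurable fun z : En (m + 3) => z i := fun i =>
    (EuclideanSpace.proj i : En (m + 3) →L[ℝ] ℝ).continuous.measurable
  exact continuous_sig.measurable.prodMk ((hcoord 0).prodMk (hcoord 1))

theorem measurable_of_tr {m : ℕ} {F : ℝ → ℝ → ℝ → ℝ}
    (hF : Measurable fun p : ℝ × ℝ × ℝ => F p.1 p.2.1 p.2.2) :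
    Measurable fun z : En (m + 3) => F (sig z) (z 0) (z 1) := hF.comp (measurable_tr m)

theorem measurable_evy {m : ℕ} (Z : MvPolynomial (Fin (m + 1)) ℝ) :
    Measurable fun z : En (m + 3) => ev Z (yPart z) :=
  (continuous_ev Z).measurable.comp (continuous_yPart m).measurable

theorem measurable_dens {m q : ℕ} {θ : ℝ} {P : ℝ → ℂ → ℝ}
    (hPc : Measurable (fun q : ℝ × ℂ => P q.1 q.2))
    (Y Y' : MvPolynomial (Fin (m + 1)) ℝ) (V V' : MvPolynomial (Fin 3) ℝ) :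
    Measurable (dens q θ P Y Y' V V') := by
  have a1 := measurable_evy (Y * Y')
  have a2 := measurable_evy (gp Y Y')
  have a3 := measurable_of_tr (m := m) (F := alp (k1 m θ P) (k2 m θ P) (k3 m θ) q q V V')
    (measurable_alp hPc V V')
  have a4 := measurable_of_tr (m := m) (F := bet (k3 m θ) V V') (measurable_bet V V')
  have a5 := (a1.mul a3).add (a2.mul a4)
  unfold dens
  exact a5

theorem dens_even {m q : ℕ} {θ : ℝ} {P : ℝ → ℂ → ℝ}
    (heven : ∀ X u, P X ((starRingEnd ℂ) u) = P X u) (Y Y' : MvPolynomial (Fin (m + 1)) ℝ)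
    {V V' : MvPolynomial (Fin 3) ℝ} {ε : ℝ} (hε : ε * ε = 1)
    (hV : refl3 V = C ε * V) (hV' : refl3 V' = C ε * V') (a b : ℝ) (y : En (m + 1)) :
    dens q θ P Y Y' V V' (mkPt a (-b) y) = dens q θ P Y Y' V V' (mkPt a b y) := by
  unfold dens
  rw [sig_mkPt, sig_mkPt, yPart_mkPt, yPart_mkPt, mkPt_zero, mkPt_one, mkPt_zero, mkPt_one]
  have h1 : k1 m θ P ‖y‖ a (-b) = k1 m θ P ‖y‖ a b := by unfold k1; rw [uab_conj, heven]
  have h2 : k2 m θ P ‖y‖ a (-b) = k2 m θ P ‖y‖ a b := by unfold k2; rw [uab_conj, heven]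
  have h3 : k3 m θ ‖y‖ a (-b) = k3 m θ ‖y‖ a b := rfl
  unfold alp bet
  rw [h1, h2, h3, E1_par hV, E1_par hV', E2_par hV, E2_par hV', evV_par hV, evV_par hV']
  linear_combination (ev (Y * Y') y * (k1 m θ P ‖y‖ a b * (E1 q V 1 ‖y‖ a b * E1 q V' 1 ‖y‖ a b)
    + k2 m θ P ‖y‖ a b * (E2 V ‖y‖ a b * E2 V' ‖y‖ a b)
    - k3 m θ ‖y‖ a b * (q * q * evV V ‖y‖ a b * evV V' ‖y‖ a b / ‖y‖ ^ 2))
    + ev (gp Y Y') y * (k3 m θ ‖y‖ a b * (evV V ‖y‖ a b * evV V' ‖y‖ a b))) * hε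

/-- the auxiliary function -/
def Gf (q : ℕ) (V V' : MvPolynomial (Fin 3) ℝ) (z : ℝ × ℝ) : ℝ :=
  z.1 ^ (2 * (q - 1)) * (eval (arg z.1 z.2) V * eval (arg z.1 z.2) V')

theorem continuous_Gf (q : ℕ) (V V' : MvPolynomial (Fin 3) ℝ) : Continuous (Gf q V V') := by
  have h1 : Continuous fun z : ℝ × ℝ => eval (arg z.1 z.2) V :=
    (MvPolynomial.continuous_eval V).comp continuous_arg
  have h2 : Continuous fun z : ℝ × ℝ => eval (arg z.1 z.2) V' :=
    (MvPolynomial.continuous_eval V').comp continuous_arg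
  exact (by fun_prop : Continuous fun z : ℝ × ℝ => z.1 ^ (2 * (q - 1))).mul (h1.mul h2)

theorem ev_gp_smul {D q : ℕ} {Y Y' : MvPolynomial (Fin D) ℝ} (hY : Y.IsHomogeneous q)
    (hY' : Y'.IsHomogeneous q) (r : ℝ) (y : En D) :
    ev (gp Y Y') (r • y) = r ^ (2 * (q - 1)) * ev (gp Y Y') y := by
  rcases Nat.eq_zero_or_pos q with hq | hq
  · subst hq
    have : gp Y Y' = 0 := by
      unfold gp
      exact Finset.sum_eq_zero fun i _ => by rw [pderiv_eq_zero_of_zero hY, zero_mul]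
    rw [this, ev_zero, ev_zero, mul_zero]
  · obtain ⟨k, rfl⟩ : ∃ k, q = k + 1 := ⟨q - 1, by omega⟩
    rw [ev_smul_arg (gp_homog hY hY')]
    congr 2
    omega

theorem pow_Gf {q : ℕ} (V V' : MvPolynomial (Fin 3) ℝ) {x : ℝ} (φ : ℝ) (hx : x ≠ 0) :
    x ^ q * x ^ q * ((q : ℝ) * q * eval (arg x φ) V * eval (arg x φ) V' / x ^ 2)
        = (q * q) * Gf q V V' (x, φ) := by
  unfold Gf
  rcases Nat.eq_zero_or_pos q with hq | hq
  · subst hq; simp
  · obtain ⟨k, rfl⟩ : ∃ k, q = k + 1 := ⟨q - 1, by omega⟩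
    have e1 : x ^ (2 * (k + 1 - 1)) = x ^ k * x ^ k := by
      rw [← pow_add]; congr 1; omega
    dsimp only
    rw [e1, pow_succ]
    field_simp

/-- the density in coordinates -/
theorem dens_Psi {m q par : ℕ} {θ : ℝ} (hθ : 0 < θ) {P : ℝ → ℂ → ℝ}
    {Y Y' : MvPolynomial (Fin (m + 1)) ℝ} (hY : Y.IsHomogeneous q) (hY' : Y'.IsHomogeneous q)
    {V V' : MvPolynomial (Fin 3) ℝ} {w w' : VS q par}
    (hw : ∀ z ∈ Om, Mod.ev par (w : ℕ →₀ (ℝ → ℝ)) z = uV q V z)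
    (hw' : ∀ z ∈ Om, Mod.ev par (w' : ℕ →₀ (ℝ → ℝ)) z = uV q V' z)
    {t : (ℝ × ℝ) × S1 (m + 1)} (ht : t.1 ∈ Om) {p : ℝ} (hp : 0 < p)
    (hpp : p = P t.1.1 (Complex.exp ((t.1.2 : ℂ) * Complex.I))) :
    dens q θ P Y Y' V V' (Psi m t)
      = (θ ^ ((2 : ℝ) / ((m : ℝ) + 2)) * (p * comp m q par w 1 t.1 * comp m q par w' 1 t.1)
        + θ ^ ((2 : ℝ) / ((m : ℝ) + 2)) *
          (θ⁻¹ ^ 2 / p * comp m q par w 2 t.1 * comp m q par w' 2 t.1)
        - θ ^ ((2 : ℝ) / ((m : ℝ) + 2)) * (q * q) * Gf q V V' t.1) *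
          ev (Y * Y') (t.2 : En (m + 1))
        + (θ ^ ((2 : ℝ) / ((m : ℝ) + 2)) * Gf q V V' t.1) * ev (gp Y Y') (t.2 : En (m + 1)) := by
  have hx0 : 0 < t.1.1 := ht.1.1
  have hx2 : t.1.1 ^ 2 < 1 := Mod.sq_lt_one_of_mem ht.1
  unfold dens
  rw [sig_Psi hx0.le, Psi_zero, Psi_one, yPart_Psi, ev_smul_arg (hY.mul hY'), ev_gp_smul hY hY',
    comp1_eq hw ht, comp1_eq hw' ht, comp2_eq hw ht, comp2_eq hw' ht]
  unfold alp bet k1 k2 k3
  rw [uab_Psi t.1.2 hx2, ← hpp, evV_arg, evV_arg]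
  have hq2 := pow_Gf (q := q) V V' t.1.2 hx0.ne'
  have hG2 : t.1.1 ^ (2 * (q - 1)) * (eval (arg t.1.1 t.1.2) V * eval (arg t.1.1 t.1.2) V')
      = Gf q V V' t.1 := rfl
  have hinv : (θ ^ 2 * p)⁻¹ = θ⁻¹ ^ 2 / p := by field_simp
  have hqq : t.1.1 ^ (q + q) = t.1.1 ^ q * t.1.1 ^ q := pow_add _ _ _
  have hG3 : Gf q V V' (t.1.1, t.1.2) = Gf q V V' t.1 := rfl
  rw [hinv, hqq, ← hG2]
  rw [hG3, ← hG2] at hq2
  generalize θ ^ ((2 : ℝ) / ((m : ℝ) + 2)) = κ at *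
  generalize E1 q V 1 t.1.1 (rh t.1.1 * Real.cos t.1.2) (rh t.1.1 * Real.sin t.1.2) = A1 at *
  generalize E1 q V' 1 t.1.1 (rh t.1.1 * Real.cos t.1.2) (rh t.1.1 * Real.sin t.1.2) = A2 at *
  generalize E2 V t.1.1 (rh t.1.1 * Real.cos t.1.2) (rh t.1.1 * Real.sin t.1.2) = B1 at *
  generalize E2 V' t.1.1 (rh t.1.1 * Real.cos t.1.2) (rh t.1.1 * Real.sin t.1.2) = B2 at *
  generalize eval (arg t.1.1 t.1.2) V = v1 at *
  generalize eval (arg t.1.1 t.1.2) V' = v2 at *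
  generalize ev (Y * Y') (t.2 : En (m + 1)) = y1 at *
  generalize ev (gp Y Y') (t.2 : En (m + 1)) = y2 at *
  generalize t.1.1 = x at *
  generalize θ⁻¹ ^ 2 / p = bp at *
  linear_combination (- κ * y1) * hq2

theorem integral_comp33 {m q par : ℕ} {V V' : MvPolynomial (Fin 3) ℝ} {w w' : VS q par}
    (hw : ∀ z ∈ Om, Mod.ev par (w : ℕ →₀ (ℝ → ℝ)) z = uV q V z)
    (hw' : ∀ z ∈ Om, Mod.ev par (w' : ℕ →₀ (ℝ → ℝ)) z = uV q V' z) :
    ∫ z, 1 * comp m q par w 3 z * comp m q par w' 3 z ∂(mu m)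
      = E0 m q * ∫ z, Gf q V V' z ∂(mu m) := by
  rw [← integral_const_mul]
  refine integral_congr_ae ?_
  filter_upwards [Mod.ae_mem_Om m] with z hz
  have hx0 : z.1 ≠ 0 := hz.1.1.ne'
  rw [comp3_eq hw hz, comp3_eq hw' hz]
  unfold Gf
  have hE := Real.mul_self_sqrt (E0_nonneg m q)
  rcases Nat.eq_zero_or_pos q with hq | hq
  · subst hq
    simp [E0]
  · obtain ⟨k, rfl⟩ : ∃ k, q = k + 1 := ⟨q - 1, by omega⟩
    have e1 : z.1 ^ (2 * (k + 1 - 1)) = z.1 ^ k * z.1 ^ k := by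
      rw [← pow_add]; congr 1; omega
    have e2 : z.1 ^ (k + 1) * eval (arg z.1 z.2) V / z.1 = z.1 ^ k * eval (arg z.1 z.2) V := by
      rw [pow_succ]; field_simp
    have e3 : z.1 ^ (k + 1) * eval (arg z.1 z.2) V' / z.1 = z.1 ^ k * eval (arg z.1 z.2) V' := by
      rw [pow_succ]; field_simp
    rw [e1, e2, e3]
    linear_combination (z.1 ^ k * eval (arg z.1 z.2) V * (z.1 ^ k * eval (arg z.1 z.2) V')) * hE

/-- **T4: the frozen tangential form on a sector is the model form** -/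
theorem QB_eq_Q {m q par : ℕ} {θ : ℝ} {P : ℝ → ℂ → ℝ} (h : Frz θ P)
    (heven : ∀ X u, P X ((starRingEnd ℂ) u) = P X u) {K : ℝ} {P' : ℝ × ℝ → ℝ} (hP : Adm m K P')
    (hPP : ∀ z ∈ Om, P' z = P z.1 (Complex.exp ((z.2 : ℂ) * Complex.I)))
    {Y Y' : MvPolynomial (Fin (m + 1)) ℝ} (hY : Y ∈ harm (m + 1) q) (hY' : Y' ∈ harm (m + 1) q)
    {V V' : MvPolynomial (Fin 3) ℝ} {ε : ℝ} (hε : ε * ε = 1)
    (hV : refl3 V = C ε * V) (hV' : refl3 V' = C ε * V') {w w' : VS q par}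
    (hw : ∀ z ∈ Om, Mod.ev par (w : ℕ →₀ (ℝ → ℝ)) z = uV q V z)
    (hw' : ∀ z ∈ Om, Mod.ev par (w' : ℕ →₀ (ℝ → ℝ)) z = uV q V' z) :
    QB (fun z => (Afam (fun _ => θ) (fun _ => P) z)⁻¹ - outer z)
        (yI m Y * vI m V) (yI m Y' * vI m V')
      = 2 * θ ^ ((2 : ℝ) / ((m : ℝ) + 2)) * sph (ev (Y * Y')) * Q q par hP θ⁻¹ w w' := by
  have hθ : 0 < θ := h.θ_pos
  have hYh := (mem_harm.1 hY).1
  have hYh' := (mem_harm.1 hY').1
  rw [QB_eq_sph_dens h hYh hYh' V V', sph_even (measurable_dens h.cont.measurable Y Y' V V')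
    (dens_even heven Y Y' hε hV hV')]
  have hGi : Integrable (Gf q V V') (mu m) := integrable_cont m (continuous_Gf q V V')
  have hT1 : Integrable (fun z => P' z * comp m q par w 1 z * comp m q par w' 1 z) (mu m) :=
    Mod.integrable_term (Mod.coef_WQ hP θ⁻¹) w w' 1
  have hT2 : Integrable (fun z => θ⁻¹ ^ 2 / P' z * comp m q par w 2 z * comp m q par w' 2 z) (mu m) :=
    Mod.integrable_term (Mod.coef_WQ hP θ⁻¹) w w' 2
  have hT3 : Integrable (fun z => 1 * comp m q par w 3 z * comp m q par w' 3 z) (mu m) :=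
    Mod.integrable_term (Mod.coef_WQ hP θ⁻¹) w w' 3
  have hI3 := integral_comp33 (m := m) hw hw'
  have hQ : Q q par hP θ⁻¹ w w' = (∫ z, P' z * comp m q par w 1 z * comp m q par w' 1 z ∂(mu m))
      + (∫ z, θ⁻¹ ^ 2 / P' z * comp m q par w 2 z * comp m q par w' 2 z ∂(mu m))
      + E0 m q * ∫ z, Gf q V V' z ∂(mu m) := by
    have hT12 : Integrable (fun z => P' z * comp m q par w 1 z * comp m q par w' 1 z
        + θ⁻¹ ^ 2 / P' z * comp m q par w 2 z * comp m q par w' 2 z) (mu m) := hT1.add hT2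
    rw [Mod.Q_apply, ← hI3, ← integral_add hT1 hT2, ← integral_add hT12 hT3]
    congr 1; funext z
    ring
  have hpt : ∀ᵐ t ∂((mu m).prod (muS (m + 1))), dens q θ P Y Y' V V' (Psi m t)
      = (θ ^ ((2 : ℝ) / ((m : ℝ) + 2)) * (P' t.1 * comp m q par w 1 t.1 * comp m q par w' 1 t.1)
        + θ ^ ((2 : ℝ) / ((m : ℝ) + 2)) *
          (θ⁻¹ ^ 2 / P' t.1 * comp m q par w 2 t.1 * comp m q par w' 2 t.1)
        - θ ^ ((2 : ℝ) / ((m : ℝ) + 2)) * (q * q) * Gf q V V' t.1) *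
          ev (Y * Y') (t.2 : En (m + 1))
        + (θ ^ ((2 : ℝ) / ((m : ℝ) + 2)) * Gf q V V' t.1) * ev (gp Y Y') (t.2 : En (m + 1)) := by
    filter_upwards [ae_prod_mem m] with t ht
    exact dens_Psi hθ hYh hYh' hw hw' ht (by rw [hPP t.1 ht]; exact h.pos _ _) (hPP t.1 ht)
  rw [integral_congr_ae hpt]
  generalize hκ : θ ^ ((2 : ℝ) / ((m : ℝ) + 2)) = κ
  have hF1i : Integrable (fun z => κ * (P' z * comp m q par w 1 z * comp m q par w' 1 z)
      + κ * (θ⁻¹ ^ 2 / P' z * comp m q par w 2 z * comp m q par w' 2 z)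
        - κ * (q * q) * Gf q V V' z) (mu m) :=
    ((hT1.const_mul κ).add (hT2.const_mul κ)).sub (hGi.const_mul _)
  have hF2i : Integrable (fun z => κ * Gf q V V' z) (mu m) := hGi.const_mul κ
  have i1 := hF1i.mul_prod (integrable_sph (Y * Y'))
  have i2 := hF2i.mul_prod (integrable_sph (gp Y Y'))
  have hadd := integral_add i1 i2
  have p1 := integral_prod_mul (μ := mu m) (ν := muS (m + 1))
    (fun z => κ * (P' z * comp m q par w 1 z * comp m q par w' 1 z)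
      + κ * (θ⁻¹ ^ 2 / P' z * comp m q par w 2 z * comp m q par w' 2 z)
        - κ * (q * q) * Gf q V V' z) (fun ω : S1 (m + 1) => ev (Y * Y') (ω : En (m + 1)))
  have p2 := integral_prod_mul (μ := mu m) (ν := muS (m + 1))
    (fun z => κ * Gf q V V' z) (fun ω : S1 (m + 1) => ev (gp Y Y') (ω : En (m + 1)))
  have hI1 : ∫ z, (κ * (P' z * comp m q par w 1 z * comp m q par w' 1 z)
      + κ * (θ⁻¹ ^ 2 / P' z * comp m q par w 2 z * comp m q par w' 2 z)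
        - κ * (q * q) * Gf q V V' z) ∂(mu m)
      = κ * (∫ z, P' z * comp m q par w 1 z * comp m q par w' 1 z ∂(mu m))
      + κ * (∫ z, θ⁻¹ ^ 2 / P' z * comp m q par w 2 z * comp m q par w' 2 z ∂(mu m))
      - κ * (q * q) * ∫ z, Gf q V V' z ∂(mu m) := by
    have e1 := integral_sub ((hT1.const_mul κ).add (hT2.const_mul κ)) (hGi.const_mul (κ * (q * q)))
    have e2 := integral_add (hT1.const_mul κ) (hT2.const_mul κ)
    rw [integral_const_mul, integral_const_mul] at e2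
    simp only [Pi.add_apply] at e1
    rw [e1, e2, integral_const_mul]
  have hI2 : ∫ z, κ * Gf q V V' z ∂(mu m) = κ * ∫ z, Gf q V V' z ∂(mu m) := integral_const_mul _ _
  rw [hI1] at p1
  rw [hI2] at p2
  have hsp := sph_gp hY hY'
  have hsp1 : ∫ ω : S1 (m + 1), ev (Y * Y') (ω : En (m + 1)) ∂(muS (m + 1)) = sph (ev (Y * Y')) := rfl
  have hsp2 : ∫ ω : S1 (m + 1), ev (gp Y Y') (ω : En (m + 1)) ∂(muS (m + 1)) = sph (ev (gp Y Y')) :=
    rfl
  rw [hsp1] at p1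
  rw [hsp2, hsp] at p2
  rw [p1, p2] at hadd
  refine (congrArg (fun r => 2 * r) hadd).trans ?_
  rw [hQ]
  unfold E0
  push_cast
  ring

end Crest.Agent.R202.Tra
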