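import Mathlib
import Crest.Agent.R202.TraForm
import Crest.Agent.R202.WgtSep

/-! # Row 202, T4 (helper362): the two integral identities `T4g`, `T4Q` of `WgtSep` -/

set_option autoImplicit false

open MvPolynomial
open Crest.Agent.R202 Crest.Agent.R202.Sph Crest.Agent.R202.Geo

namespace Crest.Agent.R202.Tra

theorem neg_one_pow_mul_self (par : ℕ) : ((-1 : ℝ) ^ par) * (-1) ^ par = 1 := by
  rw [← mul_pow]; norm_num

theorem t4g (m : ℕ) : Wgt.T4g m := by
  intro q par _ Y hY hY1 V V' hV hV' w w' hw hw'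
  rw [ip_eq_g (mem_harm.1 hY).1 (mem_harm.1 hY).1 (neg_one_pow_mul_self par) hV hV' hw hw', hY1,
    mul_one]

theorem t4Q (m : ℕ) : Wgt.T4Q m := by
  intro q par _ Y hY hY1 V V' hV hV' w w' hw hw' θ P hF heven K hP
  have h := QB_eq_Q hF heven hP (fun z _ => rfl) hY hY (neg_one_pow_mul_self par) hV hV' hw hw'
  rw [hY1, mul_one] at h
  exact h

end Crest.Agent.R202.Tra
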