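import Crest.Agent.R202.BridS
import Crest.Agent.R202.BriJ
import Crest.Agent.R202.TraT4

/-!
# Row 202, bridge (helper684): from the finite-dimensional output in all sectors to `Top.BFun`
-/

set_option autoImplicit false
open MeasureTheory Metric Set Filter Topology
open scoped ContDiff InnerProductSpace
open Crest.GeometryTopology.CoordMetric
open Crest.Agent.R202.Sph (ev ip yI vI refl3 harm dimH sph)
open Crest.Agent.R202.Main Crest.Agent.R202.Top Crest.Agent.R202.CT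
open Crest.Agent.R202.Mod (VS Pol PolD)
open Crest.Agent.R202.Wgt
open Crest.Agent.R202.Jac (SepF)
open Crest.Agent.R202.Seg (PCone)
open Crest.Agent.R202.Sch (hs he Th Tg)
open Crest.Agent.R202.Mix (MixData Cube)

namespace Crest.Agent.R202.Brid

noncomputable section

variable {m : ℕ} {v0 : ℝ} {k : ℕ} {D : CountData m v0 k} {εh : ℝ}

/-- the separating home frame of the cut `N` of a sector, with its polynomials -/
structure HomeData (c : Choice D εh) (σ : Sec D) where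
  p : Fin (D.N σ.1) → VV σ.1
  A : ℝ
  B : ℝ
  sep : SepP m σ.1 (D.N σ.1) p A B D.b0 (PF c.h D.b0 fun _ _ => 0)
  A_nonneg : 0 ≤ A
  Vf : Fin (D.N σ.1) → MvPolynomial (Fin 3) ℝ
  refl : ∀ i, refl3 (Vf i) = MvPolynomial.C (par σ.1) * Vf i
  mdl : ∀ i, IsMdl (Vf i) (p i)
  deg : ℕ
  mem : ∀ i, p i ∈ PolD σ.1.1 σ.1.2 deg

/-- the weight of the home form -/
def wy0 (D : CountData m v0 k) : ℝ := (D.b0⁻¹) ^ ((2 : ℝ) / ((m : ℝ) + 2))

theorem wy0_pos (D : CountData m v0 k) : 0 < wy0 D :=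
  Real.rpow_pos_of_pos (inv_pos.2 (by linarith [D.b0_gt])) _

theorem sec_par_le (σ : Sec D) : σ.1.2 ≤ 1 := by
  have := D.secOK σ.1 σ.2
  exact this.1

theorem sepF_of_sep {G : Type*} [NormedAddCommGroup G] [InnerProductSpace ℝ G] {l : ℕ}
    {T : G →L[ℝ] G} {F : Fin l → G} {A B : ℝ} (h : LowF.Sep T F A B) (hAB : A < B) :
    SepF T F A B := ⟨h.li, hAB, h.low, h.high⟩

variable {c : Choice D εh} {σ : Sec D}

namespace HomeData

variable (d : HomeData c σ)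

theorem lt' : wy0 D * d.A < wy0 D * d.B := mul_lt_mul_of_pos_left d.sep.lt (wy0_pos D)

theorem nonneg' : 0 ≤ wy0 D * d.A := mul_nonneg (wy0_pos D).le d.A_nonneg

/-- cone constant of the sector -/
def κn : ℝ := kn d.nonneg' d.lt'

theorem κn_pos : 0 < d.κn := kn_pos _ _

/-- Gram matrix of the frame -/
def Gr : Matrix (Fin (D.N σ.1)) (Fin (D.N σ.1)) ℝ :=
  Matrix.of fun i j => 2 * gF m σ.1 (d.p i) (d.p j)

/-- bound of the dual solutions -/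
def Cd : ℝ := cd d.nonneg' d.lt' d.Gr

theorem Cd_pos : 0 < d.Cd := cd_pos _ _ _

/-- bound of the frame -/
def C2 : ℝ := ∑ i, Real.sqrt (2 * gF m σ.1 (d.p i) (d.p i))

theorem mem' {Dg : ℕ} (h : d.deg ≤ Dg) (i : Fin (D.N σ.1)) : d.p i ∈ PolD σ.1.1 σ.1.2 Dg :=
  Mod.PolD_mono _ _ h (d.mem i)

section

variable {Dg ND : ℕ} {e : Fin ND → ℕ} {V : Fin ND → MvPolynomial (Fin 3) ℝ}
  {w : Fin ND → VV σ.1} (hb : MB m σ.1.1 σ.1.2 Dg ND e V w) (hg : T4g m) (hQ : T4Q m)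
  {Y : MvPolynomial (Fin (m + 1)) ℝ} (hY : Y ∈ harm (m + 1) σ.1.1) (hY1 : sph (ev (Y * Y)) = 1)

/-- the frame in the Galerkin space -/
def F (d : HomeData c σ) (w : Fin ND → VV σ.1) : Fin (D.N σ.1) → EuclideanSpace ℝ (Fin ND) :=
  fr m w d.p

include hb hg hQ hY hY1 in
theorem sepF (hDg : d.deg ≤ Dg) : SepF (homeS (pY m V Y) c.h D.b0) (d.F w) (wy0 D * d.A)
    (wy0 D * d.B) :=
  sepF_of_sep (hb.sep_home hg hQ hY hY1 c.prof c.X0_pos c.X1_lt D.b0_gt.le (d.mem' hDg) d.sep)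
    d.lt'

include hb hg hY hY1 in
theorem gram (hDg : d.deg ≤ Dg) (i j : Fin (D.N σ.1)) : ⟪d.F w i, d.F w j⟫_ℝ = d.Gr i j := by
  show ⟪crd m w (d.p i), crd m w (d.p j)⟫_ℝ = 2 * gF m σ.1 (d.p i) (d.p j)
  rw [inner_crd, hb.complete hg hY hY1 (d.mem' hDg j) (d.sep.red j)]
  rfl

include hb hg hY hY1 in
theorem norm_F_le (hDg : d.deg ≤ Dg) (i : Fin (D.N σ.1)) : ‖d.F w i‖ ≤ d.C2 := by
  have h1 : ‖d.F w i‖ ^ 2 = 2 * gF m σ.1 (d.p i) (d.p i) := by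
    rw [← real_inner_self_eq_norm_sq, d.gram hb hg hY hY1 hDg]
    rfl
  have h2 : ‖d.F w i‖ = Real.sqrt (2 * gF m σ.1 (d.p i) (d.p i)) := by
    rw [← h1, Real.sqrt_sq (norm_nonneg _)]
  rw [h2]
  exact Finset.single_le_sum (f := fun i => Real.sqrt (2 * gF m σ.1 (d.p i) (d.p i)))
    (fun i _ => Real.sqrt_nonneg _) (Finset.mem_univ i)

include hb hg hY hY1 in
/-- the pairings with the frame are the pairings of the polynomials -/
theorem inner_F (i : Fin (D.N σ.1)) (u : EuclideanSpace ℝ (Fin ND)) :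
    ⟪d.F w i, u⟫_ℝ = ∑ l, u l * ip (yI m Y * vI m (V l)) (yI m Y * vI m (d.Vf i)) := by
  show ⟪crd m w (d.p i), u⟫_ℝ = _
  rw [PiLp.inner_apply]
  refine Finset.sum_congr rfl fun l _ => ?_
  have h1 : ip (yI m Y * vI m (V l)) (yI m Y * vI m (d.Vf i))
      = 2 * Mod.g m σ.1.1 σ.1.2 (w l) (d.p i) :=
    hg σ.1.1 σ.1.2 hb.par_le Y hY hY1 _ _ (hb.refl l) (d.refl i) _ _ (hb.mdl l) (d.mdl i)
  rw [h1, crd_apply]
  simp only [RCLike.inner_apply, conj_trivial]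

end

end HomeData

/-- the home data exist -/
theorem exists_homeData (hg : T4g m) (hQ : T4Q m) (c : Choice D εh) (σ : Sec D)
    {Y : MvPolynomial (Fin (m + 1)) ℝ} (hY : Y ∈ harm (m + 1) σ.1.1)
    (hY1 : sph (ev (Y * Y)) = 1) : Nonempty (HomeData c σ) := by
  classical
  obtain ⟨p, A, B, hs, -, -⟩ := c.cout.home σ.1 σ.2 (D.N σ.1) (D.i0_lt σ.1 σ.2).le le_rfl
  have h1 : ∀ i, ∃ E, p i ∈ PolD σ.1.1 σ.1.2 E := fun i => Mod.mem_Pol_iff.1 (hs.pol i)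
  choose E hE using h1
  set deg : ℕ := Finset.univ.sup E with hdeg
  have hmem : ∀ i, p i ∈ PolD σ.1.1 σ.1.2 deg := fun i =>
    Mod.PolD_mono _ _ (Finset.le_sup (Finset.mem_univ i)) (hE i)
  have h2 : ∀ i, ∃ V : MvPolynomial (Fin 3) ℝ, refl3 V = MvPolynomial.C (par σ.1) * V ∧
      IsMdl V (p i) := fun i => by
    obtain ⟨V, hV1, -, hV2⟩ := Mod.exists_V_of_pol σ.1.1 (sec_par_le σ) (hmem i)
    exact ⟨V, hV1, fun z hz => hV2 z (Mod.sq_lt_one_of_mem hz.1)⟩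
  choose Vf hVf1 hVf2 using h2
  obtain ⟨ND, e, V, w, hb⟩ := exists_MB m σ.1.1 (sec_par_le σ) deg
  have hsep := hb.sep_home hg hQ hY hY1 c.prof c.X0_pos c.X1_lt D.b0_gt.le hmem hs
  have hN : 0 < D.N σ.1 := lt_of_lt_of_le (D.i0_pos σ.1 σ.2) (D.i0_lt σ.1 σ.2).le
  have hA : 0 ≤ A := by
    have h3 : fr m w p ⟨0, hN⟩ ≠ 0 := hsep.li.ne_zero _
    have h4 := hsep.low (fr m w p ⟨0, hN⟩) (Submodule.subset_span ⟨_, rfl⟩)
    have h5 := homeS_nonneg (p := pY m V Y) c.prof D.b0_gt.le (fr m w p ⟨0, hN⟩)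
    have h6 : 0 < ‖fr m w p ⟨0, hN⟩‖ ^ 2 := by positivity
    have h7 := wy0_pos D
    by_contra hneg
    push Not at hneg
    have h8 : (D.b0⁻¹) ^ ((2 : ℝ) / ((m : ℝ) + 2)) * A < 0 := mul_neg_of_pos_of_neg h7 hneg
    have := mul_neg_of_neg_of_pos h8 h6
    linarith
  exact ⟨⟨p, A, B, hs, hA, Vf, hVf1, hVf2, deg, hmem⟩⟩

/-- total error constant of the pairings -/
def WW (c : Choice D εh) (d : ∀ σ, HomeData c σ) (A Lc Cm : ℝ) : ℝ :=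
  ∑ σ, ((d σ).C2 ^ 2 + Real.exp (2 * ((m : ℝ) + 1)) *
    (|Cm| * (d σ).Cd * Real.exp (k * (hs A 0 + Lc + 2))) ^ 2)

theorem WW_nonneg (c : Choice D εh) (d : ∀ σ, HomeData c σ) (A Lc Cm : ℝ) : 0 ≤ WW c d A Lc Cm :=
  Finset.sum_nonneg fun σ _ => by positivity

theorem le_WW (c : Choice D εh) (d : ∀ σ, HomeData c σ) (A Lc Cm : ℝ) (σ : Sec D) :
    (d σ).C2 ^ 2 + Real.exp (2 * ((m : ℝ) + 1)) *
    (|Cm| * (d σ).Cd * Real.exp (k * (hs A 0 + Lc + 2))) ^ 2 ≤ WW c d A Lc Cm :=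
  Finset.single_le_sum (f := fun σ => (d σ).C2 ^ 2 + Real.exp (2 * ((m : ℝ) + 1)) *
    (|Cm| * (d σ).Cd * Real.exp (k * (hs A 0 + Lc + 2))) ^ 2) (fun σ _ => by positivity)
    (Finset.mem_univ σ)

/-- **From the finite-dimensional output in all sectors to `BFun`.** -/
theorem bfun_of_sectors (c : Choice D εh) (d : ∀ σ, HomeData c σ) {A Lc : ℝ} (hLc : 0 ≤ Lc)
    (hA : 2 * Lc + 2 ≤ A) {j : ℕ → Gate D} (hF : BFlow.CFam c A j) (Cm : ℝ) :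
    ∃ B : BConst D, ∀ (P Dg : ℕ), P ≤ Dg → (∀ σ, (d σ).deg ≤ Dg) →
      ∀ (ND : Sec D → ℕ) (e : ∀ σ, Fin (ND σ) → ℕ) (V : ∀ σ, Fin (ND σ) → MvPolynomial (Fin 3) ℝ)
        (w : ∀ σ : Sec D, Fin (ND σ) → VV σ.1)
        (hb : ∀ σ : Sec D, MB m σ.1.1 σ.1.2 Dg (ND σ) (e σ) (V σ) (w σ))
        (Y0 : Sec D → MvPolynomial (Fin (m + 1)) ℝ) (hY0 : ∀ σ, Y0 σ ∈ harm (m + 1) σ.1.1)
        (hY01 : ∀ σ, sph (ev (Y0 σ * Y0 σ)) = 1)
        (η Cμ Mμ : Sec D → ℝ) (Λ : Sec D → ℕ → ℝ)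
        (LS : ∀ σ : Sec D, BFin.LoopSys (EuclideanSpace ℝ (Fin (ND σ))) (Gate D) (D.N σ.1)
          (D.i0 σ.1) (η σ) (Cμ σ) (Mμ σ) (Λ σ))
        (_ : ∀ σ, 0 < η σ)
        (_ : ∀ σ, (LS σ).H = homeS (pY m (V σ) (Y0 σ)) c.h D.b0)
        (MD : ∀ σ : Sec D, MixData (EuclideanSpace ℝ (Fin (ND σ))) (D.N σ.1) P)
        (κ : Cube P)
        (U V' : ∀ σ : Sec D, ℝ → EuclideanSpace ℝ (Fin (ND σ)) →L[ℝ] EuclideanSpace ℝ (Fin (ND σ)))
        (_ : ∀ σ, Gal.Sol (BFlow.topCoef ((hb σ).sbasis (hY0 σ) (hY01 σ)) c hF κ) (U σ) (V' σ))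
        (_ : ∀ σ, (MD σ).e = (LS σ).e)
        (_ : ∀ σ q u, (MD σ).Jm q κ u =
          U σ (hs A q + Lc) (Ring.inverse (U σ (he A P - Lc)) (∑ i, u i • (LS σ).e i)))
        (_ : ∀ σ q u, (MD σ).Jp q κ u =
          U σ (he A q - Lc) (Ring.inverse (U σ (he A P - Lc)) (∑ i, u i • (LS σ).e i)))
        (_ : ∀ σ q, (MD σ).T q = Th A q - 2 * Lc)
        (_ : ∀ σ u, PCone (LS σ).e (D.N σ.1) (d σ).κn ((MD σ).Jm 0 κ u))
        (_ : ∀ σ, ∀ q ≤ P, ∀ u, ‖(MD σ).Jp q κ u‖ ≤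
          Cm * Real.exp (k * ∑ i ∈ Finset.range q, (Th A i - 2 * Lc)) * ‖(MD σ).Jm 0 κ u‖),
        ∃ F : Idx D → EuclideanSpace ℝ (Fin (m + 3)) → ℝ,
          BFun B P (c.coef A j (extκ κ)) F := by
  classical
  have hA0 : 0 < A := by linarith
  have hg : T4g m := Tra.t4g m
  have hQ : T4Q m := Tra.t4Q m
  obtain ⟨K, hK⟩ := c.exists_bd
  have hK1 : 1 ≤ K := (hK A hA0 j (fun _ => 1) (fun _ => ⟨by norm_num, le_rfl⟩)).one_le
  obtain ⟨lam, Lam, hlam, -, hell⟩ := Geo.Fam.coefF_bounds m K hK1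
  -- the constants
  set ε : ℝ := 1 / (2 * ((Fintype.card (Idx D) : ℝ) + 1)) with hεdef
  have hcard : (0 : ℝ) ≤ Fintype.card (Idx D) := Nat.cast_nonneg _
  have hε0 : 0 < ε := by rw [hεdef]; positivity
  have hε : ε * Fintype.card (Idx D) < 1 := by
    rw [hεdef, div_mul_eq_mul_div, one_mul, div_lt_one (by positivity)]
    linarith
  set W : ℝ := WW c d A Lc Cm with hW
  have hW0 : 0 ≤ W := WW_nonneg c d A Lc Cm
  set dl : ℝ := min 1 ((ε / (W + 1)) ^ 2) with hdldef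
  have hdl : 0 < dl := lt_min one_pos (by positivity)
  have hdl1 : dl ≤ 1 := min_le_left _ _
  have hsq : Real.sqrt dl ≤ ε / (W + 1) := by
    have h1 : dl ≤ (ε / (W + 1)) ^ 2 := min_le_right _ _
    have h2 := Real.sqrt_le_sqrt h1
    rwa [Real.sqrt_sq (by positivity)] at h2
  have hdlW : ∀ σ : Sec D, Real.sqrt dl * ((d σ).C2 ^ 2 + Real.exp (2 * ((m : ℝ) + 1)) *
      (|Cm| * (d σ).Cd * Real.exp (k * (hs A 0 + Lc + 2))) ^ 2) ≤ ε := by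
    intro σ
    have h1 := le_WW c d A Lc Cm σ
    calc Real.sqrt dl * ((d σ).C2 ^ 2 + Real.exp (2 * ((m : ℝ) + 1)) *
          (|Cm| * (d σ).Cd * Real.exp (k * (hs A 0 + Lc + 2))) ^ 2)
        ≤ Real.sqrt dl * W := mul_le_mul_of_nonneg_left h1 (Real.sqrt_nonneg _)
      _ ≤ ε / (W + 1) * W := mul_le_mul_of_nonneg_right hsq hW0
      _ ≤ ε := by
          rw [div_mul_eq_mul_div, div_le_iff₀ (by positivity)]
          nlinarith
  set Cg : ℝ := ∑ σ : Sec D, |Cm| * (d σ).Cd with hCg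
  have hCgle : ∀ σ : Sec D, |Cm| * (d σ).Cd ≤ Cg := fun σ =>
    Finset.single_le_sum (f := fun σ : Sec D => |Cm| * (d σ).Cd)
      (fun σ _ => mul_nonneg (abs_nonneg _) (d σ).Cd_pos.le) (Finset.mem_univ σ)
  have hτ0 : 0 ≤ hs A 0 + Lc := by
    show 0 ≤ 2 * A + Lc
    linarith
  refine ⟨mkB D (fun σ => (d σ).Vf) Cg lam ((m : ℝ) + 1) (hs A 0 + Lc) dl ε hdl hε, ?_⟩
  intro P Dg hPD hdeg ND e V w hb Y0 hY0 hY01 η Cμ Mμ Λ LS hη hH MD κ U V' hsol hMe hJm hJp hT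
    hcone hmix
  have hκ : ∀ q, extκ κ q ∈ Icc (-1 : ℝ) 1 := Top.extκ_mem κ
  have hFam := (hF (extκ κ) hκ)
  -- the solutions
  have hb1 : ∀ σ : Sec D, ∀ t,
      (BFlow.topCoef ((hb σ).sbasis (hY0 σ) (hY01 σ)) c hF κ).b t ≤ (m : ℝ) + 1 := by
    intro σ t
    rw [BFlow.topCoef_b]
    have := Sch.deriv_sf_nonneg c.sI_pos t
    have h2 : 0 ≤ ((m : ℝ) + 2) * deriv (sfv m v0) t := mul_nonneg (by positivity) this
    linarith
  have key : ∀ σ : Sec D, ∃ u v : Fin (D.N σ.1) → ℝ → EuclideanSpace ℝ (Fin (ND σ)),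
      (∀ i, Gal.Reg (BFlow.topCoef ((hb σ).sbasis (hY0 σ) (hY01 σ)) c hF κ) (u i) (v i)) ∧
      (∀ i t, 0 ≤ t → t ≤ he A P - Lc →
        ‖u i t‖ ≤ |Cm| * (d σ).Cd * Real.exp (k * max t 0)) ∧
      ∀ i l, ∀ t ∈ Icc (hs A 0 + Lc) (hs A 0 + Lc + dl),
          |⟪(d σ).F (w σ) i, u l t⟫_ℝ - if i = l then 1 else 0| ≤ ε := by
    intro σ
    have hsep := (d σ).sepF (hb σ) hg hQ (hY0 σ) (hY01 σ) (hdeg σ)
    rw [← hH σ] at hsep
    obtain ⟨μ, -, hlow, hhigh⟩ := (LS σ).home_gap (D.N σ.1) le_rfl (D.i0_lt σ.1 σ.2).le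
    have hlow' : ∀ x ∈ Submodule.span ℝ (range (LS σ).e),
        ⟪(LS σ).H x, x⟫_ℝ ≤ (wy0 D * (d σ).A) * ‖x‖ ^ 2 :=
      low_le_of_sepF (LS σ).orth (LS σ).H_e (LS σ).H_symm
        (by have := hη σ; linarith : μ - η σ ≤ μ + η σ) hlow hhigh hsep
    obtain ⟨u, v, h1, h2, h3⟩ := sector_out (hsol σ) (BFlow.topCoef_t0 _ c hF κ) hLc hA (MD σ) κ
      (fun q u => by rw [hJm, hMe]) (fun q u => by rw [hJp, hMe]) (hT σ)
      (k := k) (Cm := |Cm|) (Nat.cast_nonneg k) (abs_nonneg _)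
      (fun q hq u => by
        have h4 := hmix σ q hq u
        have h5 : ∑ i ∈ Finset.range q, (MD σ).T i = ∑ i ∈ Finset.range q, (Th A i - 2 * Lc) :=
          Finset.sum_congr rfl fun i _ => hT σ i
        rw [h5]
        refine h4.trans ?_
        gcongr
        exact le_abs_self Cm)
      (LS σ).H_symm (LS σ).H_nonneg hsep (d σ).nonneg' (by rw [hMe]; exact hlow')
      (fun u => by rw [hMe]; exact hcone σ u)
      (Gr := (d σ).Gr) ((d σ).gram (hb σ) hg (hY0 σ) (hY01 σ) (hdeg σ))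
    exact ⟨u, v, h1, h2, h3 (B := (m : ℝ) + 1) (by positivity) (hb1 σ)
      ((d σ).norm_F_le (hb σ) hg (hY0 σ) (hY01 σ) (hdeg σ)) hdl hdl1 (hdlW σ)⟩
  choose u v hreg hgrow hpair using key
  have hfok : ∀ i : Idx D, Brid.FOK (c.coef A j (extκ κ))
      (BFlow.topCoef ((hb i.1).sbasis (hY0 i.1) (hY01 i.1)) c hF κ)
      (pY m (V i.1) (YB m i.1.1.1 i.2.1).1) (u i.1 i.2.2) (v i.1 i.2.2) P
      (Bri.Ff (pY m (V i.1) (YB m i.1.1.1 i.2.1).1) (u i.1 i.2.2)) := fun i =>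
    Bri.fok_top c hF (hb i.1) (hY0 i.1) (hY01 i.1) (YB m i.1.1.1 i.2.1).2
      (by rw [YB_orth, if_pos rfl]) _ κ (hreg i.1 i.2.2) hPD
  refine ⟨fun i => Bri.Ff (pY m (V i.1) (YB m i.1.1.1 i.2.1).1) (u i.1 i.2.2), ?_⟩
  refine bfun_of_FOK (Vf := fun σ => (d σ).Vf) (fun σ i => (d σ).refl i) sec_par_le hε0.le hlam
    hτ0 (fun i l => (hFam.contDiff_coefF i l).continuous)
    (fun x w => (hell _ _ _ _ _ _ hFam (hK A hA0 j _ hκ) x w).1)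
    (NN := ND) (V := V) (fun σ i => (hb σ).refl i)
    (Cc := fun i => BFlow.topCoef ((hb i.1).sbasis (hY0 i.1) (hY01 i.1)) c hF κ)
    (fun i t => hb1 i.1 t) (u := u) (v := v) (T := he A P - Lc) ?_ ?_ ?_ hfok
  · -- log (P+1) + 1 ≤ he A P - Lc
    have h1 : Real.log ((P : ℝ) + 1) ≤ P := by
      have := Real.log_le_sub_one_of_pos (by positivity : (0 : ℝ) < (P : ℝ) + 1)
      linarith
    have h2 : 2 * A ≤ hs A P := Sch.two_mul_le_hs hA0 P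
    have h3 : (P : ℝ) + 1 ≤ Th A P := by
      unfold Th
      have hP0 : (0 : ℝ) ≤ P := Nat.cast_nonneg P
      have h4 : (P : ℝ) + 1 ≤ ((P : ℝ) + 1) ^ 4 := le_self_pow₀ (by linarith) (by norm_num)
      nlinarith
    rw [Sch.he_eq]
    linarith
  · intro σ i t h0 h1
    refine (hgrow σ i t h0 h1).trans (mul_le_mul_of_nonneg_right (hCgle σ) (Real.exp_pos _).le)
  · intro σ i l Y hY hY1 t ht
    have h1 := hpair σ i l t ht
    rwa [(d σ).inner_F (hb σ) hg hY hY1] at h1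

end

end Crest.Agent.R202.Brid
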