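import Mathlib
import Crest.Agent.R202.WgtSepC
import Crest.Agent.R202.LowFrame

/-! # Row 202, part B4b (helper728): packaged transfer `SepTr` (for BFinLoop). -/

set_option autoImplicit false
set_option linter.unusedSectionVars false
set_option linter.deprecated false

open MeasureTheory Filter Topology Set Metric MvPolynomial
open scoped InnerProductSpace ContDiff

namespace Crest.Agent.R202.Wgt

open Crest.Agent.R202.Geo Crest.Agent.R202.Sph Crest.Agent.R202.Sch Crest.Agent.R202.Mod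
open Crest.Agent.R202.CT

noncomputable section

/-- Transfer from the sector model (degree `≤ D`) to the Galerkin space with basis `p`. -/
structure SepTr (m : ℕ) (σ : ℕ × ℕ) (D : ℕ) {ND : ℕ}
    (p : Fin ND → MvPolynomial (Fin (m + 3)) ℝ) (Φ : VV σ →ₗ[ℝ] EuclideanSpace ℝ (Fin ND)) :
    Prop where
  inner : ∀ u : VV σ, ∀ v ∈ PolD σ.1 σ.2 D, Reduced m σ v → ⟪Φ u, Φ v⟫_ℝ = 2 * gF m σ u v
  sep : ∀ (l : ℕ) (f : Fin l → VV σ) (A B y : ℝ) (P : ℝ → ℂ → ℝ) (K : ℝ),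
    (∀ i, f i ∈ PolD σ.1 σ.2 D) → Frz y⁻¹ P → (∀ X u, P X ((starRingEnd ℂ) u) = P X u) →
    Adm m K (fun z => P z.1 (ee z.2)) → SepP m σ l f A B y (fun z => P z.1 (ee z.2)) →
    LowF.Sep (Sop p y⁻¹ P) (fun i => Φ (f i)) ((y⁻¹) ^ ((2 : ℝ) / ((m : ℝ) + 2)) * A)
      ((y⁻¹) ^ ((2 : ℝ) / ((m : ℝ) + 2)) * B)

variable {m : ℕ} {q par D N : ℕ} {e : Fin N → ℕ} {V : Fin N → MvPolynomial (Fin 3) ℝ}
  {w : Fin N → VS q par}

theorem MB.sepTr (hb : MB m q par D N e V w) (hg : T4g m) (hQ : T4Q m)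
    {Y : MvPolynomial (Fin (m + 1)) ℝ} (hY : Y ∈ harm (m + 1) q)
    (hY1 : sph (Sph.ev (Y * Y)) = 1) : SepTr m (q, par) D (pY m V Y) (crd m w) where
  inner u v hv hr := by
    rw [inner_crd, hb.complete hg hY hY1 hv hr]
    rfl
  sep l f A B y P K hf hF hev hP h :=
    hb.sep hg hQ hY hY1 hF hev hP (PP := fun z => P z.1 (ee z.2)) (fun _ _ => rfl) hf h

/-- packaged: one coordinate map for all normalised `Y` -/
theorem exists_sepTr (hg : T4g m) (hQ : T4Q m) (q : ℕ) {par : ℕ} (hpar : par ≤ 1) (D : ℕ) :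
    ∃ (N : ℕ) (e : Fin N → ℕ) (V : Fin N → MvPolynomial (Fin 3) ℝ) (w : Fin N → VS q par),
      MB m q par D N e V w ∧ ∀ Y ∈ harm (m + 1) q, sph (Sph.ev (Y * Y)) = 1 →
        SepTr m (q, par) D (pY m V Y) (crd m w) := by
  obtain ⟨N, e, V, w, hb⟩ := exists_MB m q hpar D
  exact ⟨N, e, V, w, hb, fun Y hY hY1 => hb.sepTr hg hQ hY hY1⟩

end

end Crest.Agent.R202.Wgt
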