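import Crest.Agent.R202.BFit
import Crest.Agent.R202.BNum
import Crest.Agent.R202.BFlowTop
import Crest.Agent.R202.BFinMix
import Crest.Agent.R202.BFinLoop
import Crest.Agent.R202.WgtSepD
import Crest.Agent.R202.TraT4
import Crest.Agent.R202.BridT

/-!
Row 202, PART B, final composition (helper912): `BExport m`.

Ingredients: `Num.exists_num` (225), `BFin.exists_loopSys`, `BFin.exists_mixDataL'` (846),
`BFlow.exists_flowFam_top` (514), `Wgt.exists_MB` (728, 862), `Tra.t4g`, `Tra.t4Q` (362),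
`Brid.exists_homeData`, `Brid.bfun_of_sectors` (684, 778), `fits_of` (BFit).
-/

set_option autoImplicit false

open scoped ContDiff InnerProductSpace
open Set Filter Topology MeasureTheory Metric
open Crest.GeometryTopology.CoordMetric
open Crest.Agent.R202.Geo Crest.Agent.R202.Main Crest.Agent.R202.CT Crest.Agent.R202.Sch
open Crest.Agent.R202.Top Crest.Agent.R202.Wgt
open Crest.Agent.R202.Mix (MixData SecData Sched Fits Cube)
open Crest.Agent.R202.BFin (LoopSys FlowFam)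
open Crest.Agent.R202.Sph (harm sph)

noncomputable section

namespace Crest.Agent.R202.BExp

theorem le_sum_of {ι : Type*} [Fintype ι] {f : ι → ℝ} (h : ∀ i, 0 ≤ f i) (i : ι) :
    f i ≤ ∑ j, f j :=
  Finset.single_le_sum (f := f) (fun j _ => h j) (Finset.mem_univ i)

end BExp

namespace Top

open BExp

/-- **PART B.** -/
theorem bExport (m : ℕ) : BExport m := by
  classical
  intro v k D
  obtain ⟨εh, hεh, ε, hε, a, ha⟩ := Num.exists_num D
  refine ⟨εh, hεh, ?_⟩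
  intro c K C A1 hK hC hA1 hOK
  have hm : MonoA D a := fun σ hσ => (ha σ hσ).2.1
  have hY : ∀ σ : Sec D, ∃ Y ∈ harm (m + 1) σ.1.1, sph (Sph.ev (Y * Y)) = 1 := fun σ =>
    exists_Y (D.secOK σ.1 σ.2)
  choose Y0 hY0 hY1 using hY
  -- the loop systems of the sectors
  choose η Cμ Mμ D0 _ _ _ hη hCμ _ _ _ _ hLS using fun σ : Sec D =>
    BFin.exists_loopSys (Tra.t4g m) (Tra.t4Q m) c (q := σ.1.1) (par := σ.1.2) σ.2
  -- the home frames
  have hd : ∀ σ : Sec D, Nonempty (Brid.HomeData c σ) := fun σ =>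
    Brid.exists_homeData (Tra.t4g m) (Tra.t4Q m) c σ (hY0 σ) (hY1 σ)
  have hd' := fun σ => (hd σ).some
  -- the constants of the mixing data
  have hMx := fun σ : Sec D => BFin.exists_mixDataL' m c.sI_pos (D.i0_pos σ.1 σ.2)
    (D.i0_lt σ.1 σ.2).le (Mμ := Mμ σ) (hη σ) (hCμ σ) hε (hd' σ).κn_pos (a := a σ.1)
    (Λ := fun l => ((D.b0)⁻¹) ^ ((2 : ℝ) / ((m : ℝ) + 2)) * (homeLev D σ.1 (l - 1) + εh))
    (fun l h1 h2 => by
      have h3 := (ha σ.1 σ.2).1 l h1 h2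
      rw [Num.b0_rpow] at h3
      exact h3)
  choose δ hδ Lc0 hLc0 CΓ hCΓ M hM M2 hM2 hMx' using hMx
  set Lc : ℝ := 1 + ∑ σ, Lc0 σ with hLcdef
  have hLc1 : 1 ≤ Lc := by
    have : 0 ≤ ∑ σ, Lc0 σ := Finset.sum_nonneg fun σ _ => (hLc0 σ).le
    linarith
  have hLc : ∀ σ, Lc0 σ ≤ Lc := fun σ => by
    have := le_sum_of (fun σ => (hLc0 σ).le) σ
    linarith
  choose A0 hA0 hMD using fun σ => hMx' σ Lc (hLc σ)
  choose A2 hA2 hFF using fun σ => BFlow.exists_flowFam_top c hK hC hOK (hδ σ)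
  refine ⟨4 + 4 * Lc + ∑ σ, A0 σ + ∑ σ, A2 σ, ?_⟩
  intro A hA hAA1 sl
  have hs0 : 0 ≤ ∑ σ, A0 σ := Finset.sum_nonneg fun σ _ => by linarith [hA0 σ]
  have hs2 : 0 ≤ ∑ σ, A2 σ := Finset.sum_nonneg fun σ _ => by linarith [hA2 σ]
  have hAA0 : ∀ σ, A0 σ ≤ A := fun σ => by
    have := le_sum_of (fun σ => zero_le_one.trans (hA0 σ)) σ
    linarith
  have hAA2 : ∀ σ, A2 σ ≤ A := fun σ => by
    have := le_sum_of (fun σ => zero_le_one.trans (hA2 σ)) σ
    linarith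
  have hApos : 0 < A := by linarith
  have hCΓ1 : (1 : ℝ) ≤ 1 + ∑ σ, CΓ σ := by
    have : 0 ≤ ∑ σ, CΓ σ := Finset.sum_nonneg fun σ _ => (hCΓ σ).le
    linarith
  have hM0 : (0 : ℝ) ≤ ∑ σ, M σ := Finset.sum_nonneg fun σ _ => (hM σ).le
  refine ⟨sdOf sl ε hm, sched hApos (by linarith : 0 ≤ Lc) (by linarith : 4 * Lc ≤ A) hCΓ1 hM0
    sl.M_pos, fun σ => ⟨rfl, rfl, rfl⟩, rfl, fun σ => ?_, fun Cm => ?_⟩
  · rw [sched_δ, add_zero, sdOf_mean]
    exact (ha σ.1 σ.2).2.2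
  obtain ⟨B, hB'⟩ := Brid.bfun_of_sectors c hd' (A := A) (Lc := Lc) (by linarith) (by linarith)
    (BFlow.cfam_of_ok hOK hAA1 sl.jt) Cm
  refine ⟨B, fun P => ?_⟩
  -- the degree
  set Dg : ℕ := P + ∑ σ, D0 σ + ∑ σ, (hd' σ).deg with hDg
  have hD0 : ∀ σ, D0 σ ≤ Dg := fun σ => by
    have := Finset.single_le_sum (f := D0) (fun j _ => Nat.zero_le _) (Finset.mem_univ σ)
    omega
  have hdeg : ∀ σ, (hd' σ).deg ≤ Dg := fun σ => by
    have := Finset.single_le_sum (f := fun σ => (hd' σ).deg) (fun j _ => Nat.zero_le _)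
      (Finset.mem_univ σ)
    omega
  choose ND e V w hb using fun σ : Sec D => exists_MB m σ.1.1 (D.secOK σ.1 σ.2).1 Dg
  choose LS hS hH hdes _ _ using fun σ : Sec D => (hLS σ Dg (hD0 σ)).2 (hb σ) (hY0 σ) (hY1 σ)
  choose U V' FF hU hV' hSol hF using fun σ : Sec D => hFF σ A (hAA2 σ) hAA1 sl.jt (ND σ)
    (pY m (V σ) (Y0 σ)) _ ((hb σ).sbasis (hY0 σ) (hY1 σ)) _ _ _ _ _ _ (LS σ)
    (fun i τ κ _ => hS σ i τ κ) (hH σ) P
  choose MD h1 h2 h3 h4 h5 h6 h7 h8 h9 h10 h11 using fun σ : Sec D =>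
    (hMD σ A (hAA0 σ)).2 (EuclideanSpace ℝ (Fin (ND σ))) (Gate D) (LS σ) P sl.jt (FF σ)
  refine ⟨fun σ => EuclideanSpace ℝ (Fin (ND σ)), fun σ => inferInstance, fun σ => inferInstance,
    MD, fun σ => ?_, fun κ hκ => ?_⟩
  · refine fits_of sl hm σ hApos (by linarith) (by linarith) hCΓ1 hM0 (MD σ) (h2 σ) (h3 σ) (h4 σ)
      (h5 σ) ?_ (CΓ' := CΓ σ) (M' := M σ) ?_ ?_ (h7 σ)
    · rw [h6 σ]
      funext q
      exact hdes σ _
    · have := le_sum_of (fun σ => (hCΓ σ).le) σ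
      linarith
    · have := le_sum_of (fun σ => (hM σ).le) σ
      linarith
  · refine hB' P Dg (by omega) hdeg ND e V w hb Y0 hY0 hY1 η Cμ Mμ _ LS hη hH MD κ
      (fun σ => U σ κ) (fun σ => V' σ κ) (fun σ => hSol σ κ) h1 ?_ ?_ ?_ ?_ ?_
    · intro σ q u
      rw [h8 σ q κ u]
      unfold FlowFam.sol
      rw [(hF σ κ).2.1]
    · intro σ q u
      rw [h9 σ q κ u]
      unfold FlowFam.sol
      rw [(hF σ κ).2.1]
    · intro σ q
      rw [h4 σ]
    · intro σ u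
      rw [h8 σ 0 κ u]
      exact h10 σ κ u
    · intro σ q hq u
      exact (hκ σ q hq u).2

end Crest.Agent.R202.Top
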