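import Crest.Agent.R202.BNum
import Crest.Agent.R202.BFinDefs

/-!
# Row 202, export of part B: growth exponents of the home levels (helper225)
-/

set_option autoImplicit false

noncomputable section

namespace Crest.Agent.R202.BFin

open Crest.Agent.R202.Main Crest.Agent.R202.Lab Crest.Agent.R202.CT
open Crest.Agent.R202.Mix (SecData)

variable {m : ℕ} {v : ℝ} {k : ℕ}

/-- `s_∞` -/
abbrev sInf (m : ℕ) (v : ℝ) : ℝ := -Real.log v / ((m : ℝ) + 2)

theorem sInf_pos (D : CountData m v k) : 0 < sInf m v :=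
  div_pos (neg_pos.2 (Real.log_neg D.v_pos D.v_lt)) (by positivity)

theorem aH_succ (D : CountData m v k) (σ : ℕ × ℕ) (c : ℕ) :
    Num.aH D σ (c + 1) = homeExp m v D.b0 D.e σ c := by
  unfold Num.aH
  rw [Nat.add_sub_cancel]

theorem homeExp_nonneg (D : CountData m v k) (σ : ℕ × ℕ) (c : ℕ) :
    0 ≤ homeExp m v D.b0 D.e σ c := by
  rw [← aH_succ]
  exact Num.aH_nonneg D σ (c + 1)

theorem homeExp_mono (D : CountData m v k) {σ : ℕ × ℕ} (hσ : σ ∈ D.S) {c c' : ℕ} (h : c ≤ c') :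
    homeExp m v D.b0 D.e σ c ≤ homeExp m v D.b0 D.e σ c' := by
  rw [← aH_succ, ← aH_succ]
  exact Num.aH_mono D hσ (Nat.add_le_add_right h 1)

/-- (ii) -/
theorem homeExp_quad (D : CountData m v k) (σ : ℕ × ℕ) (c : ℕ) :
    Real.exp (2 * sInf m v) * (wy m D.b0 * homeLev D σ c) =
      homeExp m v D.b0 D.e σ c ^ 2 + ((m : ℝ) + 1) * homeExp m v D.b0 D.e σ c := by
  have h1 := Num.aH_eq D σ (c + 1)
  have h2 := Num.exp_mul D
  rw [aH_succ, Nat.add_sub_cancel] at h1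
  unfold wy
  rw [h1, ← mul_assoc, h2]

/-- the hypothesis `ha` of `exists_mixData` for `Λ = wy * (homeLev + εh)` and the exponents
`homeExp + ε` -/
theorem homeExp_quad_le (D : CountData m v k) (σ : ℕ × ℕ) (c : ℕ) {ε εh : ℝ} (hε : 0 ≤ ε)
    (hh : εh ≤ Num.epsH D ε) :
    0 ≤ homeExp m v D.b0 D.e σ c + ε ∧
      Real.exp (2 * sInf m v) * (wy m D.b0 * (homeLev D σ c + εh)) ≤
        (homeExp m v D.b0 D.e σ c + ε) ^ 2 +
          ((m : ℝ) + 1) * (homeExp m v D.b0 D.e σ c + ε) := by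
  have h1 := Num.lam_le' D σ (c + 1) hε hh
  rw [aH_succ] at h1
  unfold Num.LamH at h1
  rw [Nat.add_sub_cancel] at h1
  exact h1

/-- (iii) margin of the means -/
theorem exists_marg (D : CountData m v k) : ∃ ε1 : ℝ, 0 < ε1 ∧ ∀ σ ∈ D.S,
    ∑ c ∈ Finset.Icc (D.i0 σ - 1) (D.N σ - 1), (homeExp m v D.b0 D.e σ c + ε1)
      < (k : ℝ) * ((D.N σ : ℝ) - (D.i0 σ : ℝ) + 1) := by
  obtain ⟨c0, hc0, hc⟩ := Num.exists_c D
  refine ⟨c0, hc0, fun σ hσ => ?_⟩
  have h1 := hc c0 le_rfl σ hσ 0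
  rw [Num.secD_mean] at h1
  have h2 : D.i0 σ < D.N σ := D.i0_lt σ hσ
  have h3 : 1 ≤ D.i0 σ := D.i0_pos σ hσ
  have hpos : 0 < (D.N σ : ℝ) - (D.i0 σ : ℝ) + 1 := by
    have : (D.i0 σ : ℝ) < D.N σ := by exact_mod_cast h2
    linarith
  rw [Finset.sum_add_distrib, Finset.sum_const, Nat.card_Icc, nsmul_eq_mul]
  have h4 : ((D.N σ - 1 + 1 - (D.i0 σ - 1) : ℕ) : ℝ) = (D.N σ : ℝ) - (D.i0 σ : ℝ) + 1 := by
    have : D.N σ - 1 + 1 - (D.i0 σ - 1) = D.N σ - D.i0 σ + 1 := by omega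
    rw [this]
    push_cast [Nat.cast_sub h2.le]
    ring
  rw [h4]
  have h5 := mul_lt_mul_of_pos_right h1 hpos
  rw [add_mul, div_mul_cancel₀ _ hpos.ne'] at h5
  linarith

/-- the sector data of the mixing theorem: exponents `homeExp (l - 1) + c` -/
abbrev secData (D : CountData m v k) (σ : ℕ × ℕ) (hσ : σ ∈ D.S) (c : ℝ) (off : ℕ) : SecData :=
  Num.secD D σ hσ c off

/-- one choice of all margins: exponents `homeExp (l-1) + ε` for `exists_mixData`, which are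
increased by `ε` there -/
theorem exists_margins (D : CountData m v k) : ∃ ε : ℝ, 0 < ε ∧ ∃ εh : ℝ, 0 < εh ∧
    ∀ σ, ∀ hσ : σ ∈ D.S,
      (∀ l, D.i0 σ ≤ l → l ≤ D.N σ →
        0 ≤ homeExp m v D.b0 D.e σ (l - 1) + ε ∧
        Real.exp (2 * sInf m v) * (wy m D.b0 * (homeLev D σ (l - 1) + εh)) ≤
          (homeExp m v D.b0 D.e σ (l - 1) + ε) ^ 2 +
            ((m : ℝ) + 1) * (homeExp m v D.b0 D.e σ (l - 1) + ε)) ∧
      ∀ off, (secData D σ hσ (2 * ε) off).mean < k := by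
  obtain ⟨c0, hc0, hc⟩ := Num.exists_c D
  refine ⟨c0 / 2, by linarith, Num.epsH D (c0 / 2), Num.epsH_pos D (by linarith),
    fun σ hσ => ⟨fun l _ _ => homeExp_quad_le D σ _ (by linarith) le_rfl, fun off => ?_⟩⟩
  exact hc _ (by linarith) σ hσ off

end Crest.Agent.R202.BFin
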