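/-
R202, final export of part B (helper846), step 4: normalisation at the inner end of home `0`:
dual solutions with respect to a fixed separating frame, with bounds depending only on the
separation constants and the Gram matrix.
-/
import Crest.Agent.R202.BFinHome
import Crest.Agent.R202.SegDefs

set_option autoImplicit false

open Set Module
open scoped InnerProductSpace

namespace Crest.Agent.R202.BFin

open Crest.Agent.R202.Jac (SepF)
open Crest.Agent.R202.Seg (PCone)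
open Crest.Agent.R202.Mix (pr pr_apply)

variable {G : Type*} [NormedAddCommGroup G] [InnerProductSpace ℝ G]

/-- quadratic Young inequality for a symmetric nonnegative form -/
theorem form_young {H : G →L[ℝ] G} (hs : ∀ x y, ⟪H x, y⟫_ℝ = ⟪x, H y⟫_ℝ)
    (h0 : ∀ x, 0 ≤ ⟪H x, x⟫_ℝ) {t : ℝ} (ht : 0 < t) (x w : G) :
    ⟪H (x - w), x - w⟫_ℝ ≤ (1 + t) * ⟪H x, x⟫_ℝ + (1 + 1 / t) * ⟪H w, w⟫_ℝ := by
  have h1 := h0 (t • x + w)
  have e1 : ⟪H (t • x + w), t • x + w⟫_ℝ =
      t ^ 2 * ⟪H x, x⟫_ℝ + 2 * t * ⟪H x, w⟫_ℝ + ⟪H w, w⟫_ℝ := by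
    rw [map_add, map_smul, inner_add_left, inner_add_right, inner_add_right, real_inner_smul_left,
      real_inner_smul_left, real_inner_smul_right, real_inner_smul_right, hs w x,
      real_inner_comm (H x) w]
    ring
  have e2 : ⟪H (x - w), x - w⟫_ℝ = ⟪H x, x⟫_ℝ - 2 * ⟪H x, w⟫_ℝ + ⟪H w, w⟫_ℝ := by
    rw [map_sub, inner_sub_left, inner_sub_right, inner_sub_right, hs w x,
      real_inner_comm (H x) w]
    ring
  rw [e1] at h1
  rw [e2]
  have h2 : 0 ≤ (t ^ 2 * ⟪H x, x⟫_ℝ + 2 * t * ⟪H x, w⟫_ℝ + ⟪H w, w⟫_ℝ) / t := by positivity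
  have e3 : (t ^ 2 * ⟪H x, x⟫_ℝ + 2 * t * ⟪H x, w⟫_ℝ + ⟪H w, w⟫_ℝ) / t =
      t * ⟪H x, x⟫_ℝ + 2 * ⟪H x, w⟫_ℝ + 1 / t * ⟪H w, w⟫_ℝ := by
    field_simp
  rw [e3] at h2
  linarith

/-- for a separating frame `F` and `x` in a subspace on which the form is small, the projection to
`span F` is bounded below -/
theorem proj_lower {A B : ℝ} (hA : 0 ≤ A) (hAB : A < B) : ∃ c > 0, c ≤ 1 ∧
    ∀ (G : Type) [NormedAddCommGroup G] [InnerProductSpace ℝ G] (H : G →L[ℝ] G) (N : ℕ)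
      (F : Fin N → G), (∀ x y, ⟪H x, y⟫_ℝ = ⟪x, H y⟫_ℝ) → (∀ x, 0 ≤ ⟪H x, x⟫_ℝ) →
      SepF H F A B → ∀ x w : G, ⟪H x, x⟫_ℝ ≤ A * ‖x‖ ^ 2 → w ∈ Submodule.span ℝ (range F) →
      (∀ i, ⟪F i, x - w⟫_ℝ = 0) → c * ‖x‖ ≤ ‖w‖ := by
  set t : ℝ := (B - A) / (2 * (A + 1)) with ht
  have ht0 : 0 < t := by rw [ht]; have : 0 < B - A := by linarith
                         positivity
  have hB : 0 < B := by linarith
  set c2 : ℝ := ((B - A) / 2) / (B + (1 + 1 / t) * A) with hc2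
  have hden : 0 < B + (1 + 1 / t) * A := by positivity
  have hc20 : 0 < c2 := by rw [hc2]; have : 0 < (B - A) / 2 := by linarith
                           positivity
  refine ⟨min 1 (Real.sqrt c2), lt_min one_pos (Real.sqrt_pos.2 hc20), min_le_left _ _, ?_⟩
  intro G _ _ H N F hs h0 hF x w hx hw hort
  have h1 := hF.ge (x - w) hort
  have h2 := hF.le w hw
  have h3 := form_young hs h0 ht0 x w
  have hwo : ⟪w, x - w⟫_ℝ = 0 := by
    have : ∀ z ∈ Submodule.span ℝ (range F), ⟪z, x - w⟫_ℝ = 0 := by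
      intro z hz
      induction hz using Submodule.span_induction with
      | mem y hy => obtain ⟨j, rfl⟩ := hy; exact hort j
      | zero => simp
      | add y z _ _ hy hz => rw [inner_add_left, hy, hz, add_zero]
      | smul a y _ hy => rw [real_inner_smul_left, hy, mul_zero]
    exact this w hw
  have h4 : ‖x‖ ^ 2 = ‖x - w‖ ^ 2 + ‖w‖ ^ 2 := by
    have : x = (x - w) + w := by abel
    conv_lhs => rw [this]
    rw [norm_add_sq_real, real_inner_comm, hwo]; ring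
  have h5 : (1 + t) * A ≤ (A + B) / 2 := by
    have h6 : t * A ≤ (B - A) / 2 := by
      rw [ht, div_mul_eq_mul_div, div_le_iff₀ (by positivity)]
      have : 0 < B - A := by linarith
      nlinarith
    linarith
  have h6 : (B - A) / 2 * ‖x‖ ^ 2 ≤ (B + (1 + 1 / t) * A) * ‖w‖ ^ 2 := by
    have h7 : B * ‖x - w‖ ^ 2 ≤ (1 + t) * (A * ‖x‖ ^ 2) + (1 + 1 / t) * (A * ‖w‖ ^ 2) :=
      h1.trans (h3.trans (add_le_add (mul_le_mul_of_nonneg_left hx (by positivity))
        (mul_le_mul_of_nonneg_left h2 (by positivity))))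
    have h8 : ‖x - w‖ ^ 2 = ‖x‖ ^ 2 - ‖w‖ ^ 2 := by linarith
    rw [h8] at h7
    have h9 : (1 + t) * A * ‖x‖ ^ 2 ≤ (A + B) / 2 * ‖x‖ ^ 2 :=
      mul_le_mul_of_nonneg_right h5 (sq_nonneg _)
    nlinarith
  have h7 : c2 * ‖x‖ ^ 2 ≤ ‖w‖ ^ 2 := by
    rw [hc2, div_mul_eq_mul_div, div_le_iff₀ hden]
    linarith
  have h8 : Real.sqrt c2 * ‖x‖ ≤ ‖w‖ := by
    refine le_of_sq_le_sq ?_ (norm_nonneg _)
    rw [mul_pow, Real.sq_sqrt hc20.le]
    exact h7
  exact (mul_le_mul_of_nonneg_right (min_le_right _ _) (norm_nonneg _)).trans h8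

/-- the Gram matrix of a linearly independent family is invertible -/
theorem gram_det_ne {N : ℕ} {F : Fin N → G} (hF : LinearIndependent ℝ F)
    {Gr : Matrix (Fin N) (Fin N) ℝ} (hGr : ∀ i j, ⟪F i, F j⟫_ℝ = Gr i j) : Gr.det ≠ 0 := by
  intro h0
  obtain ⟨c, hc0, hc⟩ := Matrix.exists_mulVec_eq_zero_iff.2 h0
  have h1 : ⟪∑ i, c i • F i, ∑ j, c j • F j⟫_ℝ = 0 := by
    rw [sum_inner]
    refine Finset.sum_eq_zero fun i _ => ?_
    rw [real_inner_smul_left, inner_sum]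
    have h2 := congrFun hc i
    simp only [Matrix.mulVec, dotProduct, Pi.zero_apply] at h2
    have h3 : ∑ j, ⟪F i, c j • F j⟫_ℝ = ∑ j, Gr i j * c j :=
      Finset.sum_congr rfl fun j _ => by rw [real_inner_smul_right, hGr]; ring
    rw [h3, h2, mul_zero]
  have h2 : ∑ i, c i • F i = 0 := inner_self_eq_zero.1 h1
  exact hc0 (funext ((Fintype.linearIndependent_iff.1 hF) c h2))

/-- existence of the projection onto the span of a frame with its coordinates -/
theorem exists_proj {N : ℕ} {F : Fin N → G} (hF : LinearIndependent ℝ F)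
    {Gr : Matrix (Fin N) (Fin N) ℝ} (hGr : ∀ i j, ⟪F i, F j⟫_ℝ = Gr i j) (u : G) :
    ∃ w ∈ Submodule.span ℝ (range F), (∀ i, ⟪F i, u - w⟫_ℝ = 0) ∧
      ‖w‖ ^ 2 = ∑ i, (Gr⁻¹.mulVec fun i => ⟪F i, u⟫_ℝ) i * ⟪F i, u⟫_ℝ := by
  set v : Fin N → ℝ := fun i => ⟪F i, u⟫_ℝ with hv
  set c : Fin N → ℝ := Gr⁻¹.mulVec v with hc
  have hdet := gram_det_ne hF hGr
  have hGc : Gr.mulVec c = v := by
    rw [hc, Matrix.mulVec_mulVec, Matrix.mul_nonsing_inv _ (isUnit_iff_ne_zero.2 hdet),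
      Matrix.one_mulVec]
  set w : G := ∑ j, c j • F j with hw
  have hFw : ∀ i, ⟪F i, w⟫_ℝ = v i := by
    intro i
    rw [← hGc, hw, inner_sum]
    simp only [Matrix.mulVec, dotProduct]
    exact Finset.sum_congr rfl fun j _ => by rw [real_inner_smul_right, hGr]; ring
  refine ⟨w, Submodule.sum_mem _ fun j _ => Submodule.smul_mem _ _
    (Submodule.subset_span ⟨j, rfl⟩), ?_, ?_⟩
  · intro i
    rw [inner_sub_right, hFw i]
    exact sub_self _
  · rw [← real_inner_self_eq_norm_sq]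
    conv_lhs => rw [hw]
    rw [sum_inner]
    refine Finset.sum_congr rfl fun i _ => ?_
    rw [real_inner_smul_left, ← hw, hFw i]

/-- **Normalisation.** If all values `J u` are in the `κn`-cone around the low eigenspace, and `F`
is a separating frame of the home operator with Gram matrix `Gr`, then there are dual boundary
data `w j` with `⟪F i, J (w j)⟫ = δ_ij` and `‖J (w j)‖ ≤ C`. The constants depend only on `A, B`
and `Gr`. -/
theorem exists_dual {A B : ℝ} (hA : 0 ≤ A) (hAB : A < B) : ∃ κn > 0, ∀ (N : ℕ)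
    (Gr : Matrix (Fin N) (Fin N) ℝ), ∃ C > 0,
    ∀ (G : Type) [NormedAddCommGroup G] [InnerProductSpace ℝ G] (H : G →L[ℝ] G)
      (F e : Fin N → G), (∀ x y, ⟪H x, y⟫_ℝ = ⟪x, H y⟫_ℝ) → (∀ x, 0 ≤ ⟪H x, x⟫_ℝ) →
      SepF H F A B → (∀ i j, ⟪F i, F j⟫_ℝ = Gr i j) → Orthonormal ℝ e →
      (∀ x ∈ Submodule.span ℝ (range e), ⟪H x, x⟫_ℝ ≤ A * ‖x‖ ^ 2) →
      ∀ J : (Fin N → ℝ) →ₗ[ℝ] G, (∀ u, J u = 0 → u = 0) → (∀ u, PCone e N κn (J u)) →
      ∃ w : Fin N → (Fin N → ℝ), (∀ i j, ⟪F i, J (w j)⟫_ℝ = if i = j then 1 else 0) ∧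
        ∀ j, ‖J (w j)‖ ≤ C := by
  obtain ⟨c, hc, hc1, hlow⟩ := proj_lower hA hAB
  refine ⟨c / 2, by positivity, fun N Gr => ?_⟩
  refine ⟨4 / c * (1 + ∑ j, |Gr⁻¹ j j|), by positivity, ?_⟩
  intro G _ _ H F e hs h0 hF hGr he hle J hJ hcone
  -- lower bound of the projection for all values
  have key : ∀ u w, w ∈ Submodule.span ℝ (range F) → (∀ i, ⟪F i, J u - w⟫_ℝ = 0) →
      ‖J u‖ ≤ 4 / c * ‖w‖ := by
    intro u w hw hort
    set z := J u with hz
    set x := pr e N z with hx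
    have hxs : x ∈ Submodule.span ℝ (range e) := by
      rw [hx, pr_apply]
      refine Submodule.sum_mem _ fun j _ => ?_
      split_ifs
      · exact Submodule.smul_mem _ _ (Submodule.subset_span ⟨j, rfl⟩)
      · exact Submodule.zero_mem _
    obtain ⟨wx, hwx, hortx, -⟩ := exists_proj hF.li hGr x
    have h1 := hlow G H N F hs h0 hF x wx (hle x hxs) hwx hortx
    have hcu : ‖z - x‖ ≤ c / 2 * ‖x‖ := hcone u
    -- w - wx is the projection of z - x
    have h2 : ‖w - wx‖ ≤ ‖z - x‖ := by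
      have h3 : w - wx ∈ Submodule.span ℝ (range F) := Submodule.sub_mem _ hw hwx
      have h4 : ⟪w - wx, (z - x) - (w - wx)⟫_ℝ = 0 := by
        have : ∀ y ∈ Submodule.span ℝ (range F), ⟪y, (z - x) - (w - wx)⟫_ℝ = 0 := by
          intro y hy
          induction hy using Submodule.span_induction with
          | mem y hy =>
            obtain ⟨j, rfl⟩ := hy
            have : (z - x) - (w - wx) = (z - w) - (x - wx) := by abel
            rw [this, inner_sub_right, hort j, hortx j, sub_zero]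
          | zero => simp
          | add y z _ _ hy hz => rw [inner_add_left, hy, hz, add_zero]
          | smul a y _ hy => rw [real_inner_smul_left, hy, mul_zero]
        exact this _ h3
      have h5 : ‖z - x‖ ^ 2 = ‖(z - x) - (w - wx)‖ ^ 2 + ‖w - wx‖ ^ 2 := by
        have : z - x = ((z - x) - (w - wx)) + (w - wx) := by abel
        conv_lhs => rw [this]
        rw [norm_add_sq_real, real_inner_comm, h4]; ring
      refine le_of_sq_le_sq ?_ (norm_nonneg _)
      rw [h5]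
      linarith [sq_nonneg ‖(z - x) - (w - wx)‖]
    have h3 : ‖wx‖ ≤ ‖w‖ + ‖w - wx‖ := by
      calc ‖wx‖ = ‖w - (w - wx)‖ := by congr 1; abel
        _ ≤ _ := norm_sub_le _ _
    have h4 : c / 2 * ‖x‖ ≤ ‖w‖ := by linarith
    have h5 : ‖z‖ ≤ ‖x‖ + ‖z - x‖ := by
      calc ‖z‖ = ‖x + (z - x)‖ := by congr 1; abel
        _ ≤ _ := norm_add_le _ _
    have h6 : ‖z‖ ≤ 2 * ‖x‖ := by
      have := norm_nonneg x
      nlinarith
    have h7 : ‖x‖ ≤ 2 / c * ‖w‖ := by
      rw [div_mul_eq_mul_div, le_div_iff₀ hc]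
      linarith
    calc ‖z‖ ≤ 2 * ‖x‖ := h6
      _ ≤ 2 * (2 / c * ‖w‖) := by linarith
      _ = 4 / c * ‖w‖ := by ring
  -- the coordinate map is injective
  set T : (Fin N → ℝ) →ₗ[ℝ] (Fin N → ℝ) :=
    LinearMap.pi fun i => (innerSL ℝ (F i)).toLinearMap ∘ₗ J with hT
  have hTa : ∀ u i, T u i = ⟪F i, J u⟫_ℝ := fun u i => rfl
  have hTinj : Function.Injective T := by
    rw [← LinearMap.ker_eq_bot, LinearMap.ker_eq_bot']
    intro u hu
    apply hJ
    have h1 := key u 0 (Submodule.zero_mem _) (fun i => by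
      rw [sub_zero, ← hTa, hu]; rfl)
    rw [norm_zero, mul_zero] at h1
    exact norm_le_zero_iff.1 h1
  have hTsurj : Function.Surjective T := LinearMap.injective_iff_surjective.1 hTinj
  choose w hw using fun j : Fin N => hTsurj (Pi.single j 1)
  refine ⟨w, ?_, ?_⟩
  · intro i j
    rw [← hTa, hw j, Pi.single_apply]
  · intro j
    obtain ⟨z, hz, hort, hzn⟩ := exists_proj hF.li hGr (J (w j))
    have h1 := key (w j) z hz hort
    have hv : (fun i => ⟪F i, J (w j)⟫_ℝ) = Pi.single j 1 := by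
      funext i
      rw [← hTa, hw j]
    have h2 : ‖z‖ ^ 2 = Gr⁻¹ j j := by
      rw [hzn, hv]
      have h3 : ∀ i, ⟪F i, J (w j)⟫_ℝ = (Pi.single j (1 : ℝ) : Fin N → ℝ) i :=
        fun i => congrFun hv i
      simp only [h3]
      rw [Finset.sum_eq_single j]
      · simp [Matrix.mulVec_single]
      · intro i _ hi
        rw [Pi.single_eq_of_ne hi, mul_zero]
      · intro h; exact absurd (Finset.mem_univ j) h
    have h3 : ‖z‖ ≤ 1 + ∑ j, |Gr⁻¹ j j| := by
      have h4 : |Gr⁻¹ j j| ≤ ∑ j, |Gr⁻¹ j j| :=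
        Finset.single_le_sum (f := fun j => |Gr⁻¹ j j|) (fun i _ => abs_nonneg _)
          (Finset.mem_univ j)
      have h5 : ‖z‖ ^ 2 ≤ (1 + ∑ j, |Gr⁻¹ j j|) ^ 2 := by
        rw [h2]
        have h6 := le_abs_self (Gr⁻¹ j j)
        have h7 := abs_nonneg (Gr⁻¹ j j)
        nlinarith
      exact le_of_sq_le_sq h5 (by linarith [abs_nonneg (Gr⁻¹ j j)])
    exact h1.trans (mul_le_mul_of_nonneg_left h3 (by positivity))

end Crest.Agent.R202.BFin
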