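import Crest.Agent.R202.BridE
import Crest.Agent.R202.TopDefs
import Crest.Agent.R202.SecUnif

/-!
# Row 202, bridge (helper684): from solutions in the sectors to `Top.BFun`
-/

set_option autoImplicit false
open MeasureTheory Metric Set Filter Topology
open scoped ContDiff RealInnerProductSpace
open Crest.GeometryTopology.CoordMetric
open Crest.Agent.R202.Sph (ev ip yI vI refl3 harm dimH sph)
open Crest.Agent.R202.Main Crest.Agent.R202.Top

namespace Crest.Agent.R202.Brid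

noncomputable section

/-- everything that is used about one Galerkin function `F(r z) = ∑ u_i(log r) p_i(z)` -/
structure FOK {m N : ℕ} (A : MetricField (m + 3)) (C : Gal.Coef (EuclideanSpace ℝ (Fin N)))
    (p : Fin N → MvPolynomial (Fin (m + 3)) ℝ) (u v : ℝ → EuclideanSpace ℝ (Fin N)) (P : ℕ)
    (F : EuclideanSpace ℝ (Fin (m + 3)) → ℝ) : Prop where
  sol : Gal.Reg C u v
  t0 : C.t0 = 0
  bdd : ∀ t ≤ 0, ‖u t‖ ≤ ‖u 0‖ ∧ ‖v t‖ ≤ ‖v 0‖
  orth : ∀ i j, ip (p i) (p j) = if i = j then 1 else 0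
  reg : ContDiff ℝ 1 F
  slice : ∀ r, 0 < r → ∀ z : SphDiv.Sph (m + 3),
    F (r • (z : EuclideanSpace ℝ (Fin (m + 3)))) = ∑ i, u (Real.log r) i * ev (p i) z
  flux : ∀ r, 0 < r → r ^ (m + 3 - 1) * ∫ z : SphDiv.Sph (m + 3),
      Lim.Q A F F (r • (z : EuclideanSpace ℝ (Fin (m + 3)))) ∂(SphDiv.sig (m + 3))
      = r⁻¹ * (C.wt (Real.log r) *
        (‖v (Real.log r)‖ ^ 2 + ⟪C.K (Real.log r) (u (Real.log r)), u (Real.log r)⟫))
  w0 : ∀ φ : EuclideanSpace ℝ (Fin (m + 3)) → ℝ, ContDiff ℝ ∞ φ → HasCompactSupport φ →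
      tsupport φ ⊆ ball 0 1 → ∫ x, Lim.Q A F φ x = 0
  w1 : ∀ χ : ℝ → ℝ, ContDiff ℝ ∞ χ → HasCompactSupport χ → tsupport χ ⊆ Ioi 0 →
      ∀ h : MvPolynomial (Fin (m + 3)) ℝ, h.totalDegree ≤ P →
        ∫ x, Lim.Q A F (fun x => χ ‖x‖ * Lim.pe h x) x = 0

/-- energy bound for one function -/
theorem FOK.energy {m N : ℕ} {A : MetricField (m + 3)} {C : Gal.Coef (EuclideanSpace ℝ (Fin N))}
    {p : Fin N → MvPolynomial (Fin (m + 3)) ℝ} {u v : ℝ → EuclideanSpace ℝ (Fin N)} {P : ℕ}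
    {F : EuclideanSpace ℝ (Fin (m + 3)) → ℝ} (h : FOK A C p u v P F)
    (hA : ∀ i l, Continuous fun x => A x i l) {lam : ℝ} (hlam : 0 < lam)
    (hell : ∀ x w : EuclideanSpace ℝ (Fin (m + 3)),
      lam * ∑ i, w i * w i ≤ ∑ i, ∑ j, A x i j * w i * w j)
    {B : ℝ} (hB : ∀ t, C.b t ≤ B) {Cg K T : ℝ}
    (hu : ∀ t, t ≤ T → ‖u t‖ ≤ Cg * Real.exp (K * max t 0)) {R : ℝ}
    (hRT : Real.log (|R| + 1) + 1 ≤ T) :
    ∫ x in closedBall (0 : EuclideanSpace ℝ (Fin (m + 3))) R, ‖fderiv ℝ F x‖ ^ 2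
      ≤ lam⁻¹ * (Real.exp (B * (Real.log (|R| + 1) + 1)) / 2 *
        (Cg * Real.exp (K * (Real.log (|R| + 1) + 1))) ^ 2) := by
  set R' : ℝ := |R| + 1 with hR'
  have hR1 : 1 ≤ R' := by have := abs_nonneg R; linarith
  have hfc : Continuous fun x => ‖fderiv ℝ F x‖ ^ 2 :=
    ((h.reg.continuous_fderiv (by norm_num)).norm).pow 2
  have hi : IntegrableOn (fun x => ‖fderiv ℝ F x‖ ^ 2)
      (ball (0 : EuclideanSpace ℝ (Fin (m + 3))) R') :=
    (hfc.continuousOn.integrableOn_compact (isCompact_closedBall _ _)).mono_set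
      ball_subset_closedBall
  have h1 : ∫ x in closedBall (0 : EuclideanSpace ℝ (Fin (m + 3))) R, ‖fderiv ℝ F x‖ ^ 2
      ≤ ∫ x in ball (0 : EuclideanSpace ℝ (Fin (m + 3))) R', ‖fderiv ℝ F x‖ ^ 2 := by
    refine setIntegral_mono_set hi (Eventually.of_forall fun x => sq_nonneg _) ?_
    refine (closedBall_subset_ball ?_).eventuallyLE
    have := le_abs_self R
    rw [hR']; linarith
  refine h1.trans ?_
  have h2 := energy_of_reg (n := m + 3) (by omega) hA hlam hell h.reg h.sol (h.t0.le)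
    ⟨max ‖u 0‖ ‖v 0‖, fun t ht => by
      rw [h.t0] at ht
      exact ⟨(h.bdd t ht).1.trans (le_max_left _ _), (h.bdd t ht).2.trans (le_max_right _ _)⟩⟩
    h.flux hB hR1
  refine h2.trans (mul_le_mul_of_nonneg_left ?_ (by positivity))
  rw [h.t0, sub_zero]
  refine mul_le_mul_of_nonneg_left ?_ (by positivity)
  have hlog : 0 ≤ Real.log R' := Real.log_nonneg hR1
  have h3 := hu _ hRT
  rw [max_eq_left (by linarith)] at h3
  exact pow_le_pow_left₀ (norm_nonneg _) h3 2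

variable {m : ℕ} {v0 : ℝ} {k : ℕ} {D : CountData m v0 k}

/-- the parity sign of a sector -/
def par (σ : ℕ × ℕ) : ℝ := (-1) ^ σ.2

lemma par_mul {σ σ' : ℕ × ℕ} (ha : σ.2 ≤ 1) (hb : σ'.2 ≤ 1) (h : σ.2 ≠ σ'.2) :
    par σ * par σ' = -1 := by
  unfold par
  have h1 : σ.2 = 0 ∨ σ.2 = 1 := by omega
  have h2 : σ'.2 = 0 ∨ σ'.2 = 1 := by omega
  rcases h1 with h1 | h1 <;> rcases h2 with h2 | h2
  · exact absurd (h1.trans h2.symm) h
  · rw [h1, h2]; norm_num
  · rw [h1, h2]; norm_num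
  · exact absurd (h1.trans h2.symm) h

/-- orthonormal bases of the harmonic polynomials in `y` -/
def YB (m q : ℕ) : Module.Basis (Fin (dimH (m + 1) q)) ℝ (harm (m + 1) q) :=
  (Sph.exists_onb (D := m + 1) q).choose

lemma YB_orth (m q : ℕ) (i j : Fin (dimH (m + 1) q)) :
    sph (ev ((YB m q i).1 * (YB m q j).1)) = if i = j then 1 else 0 :=
  (Sph.exists_onb (D := m + 1) q).choose_spec i j

/-- The constants of `BFun`. -/
def mkB (D : CountData m v0 k)
    (Vf : ∀ σ : Sec D, Fin (D.N σ.1) → MvPolynomial (Fin 3) ℝ)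
    (Cg lam Bb τ0 dl ε : ℝ) (hdl : 0 < dl)
    (hε : ε * Fintype.card (Idx D) < 1) : BConst D where
  r0 := 1
  C0 := Cg ^ 2
  CE R := lam⁻¹ * (Real.exp (Bb * (Real.log (|R| + 1) + 1)) / 2 *
        (Cg * Real.exp (k * (Real.log (|R| + 1) + 1))) ^ 2)
  φ j := phiT (yI m (YB m j.1.1.1 j.2.1).1 * vI m (Vf j.1 j.2.2)) (Real.exp τ0)
    (Real.exp (τ0 + dl))
  ε := ε
  r0_pos := one_pos
  φ_L2 j := memLp_phiT _ (Real.exp_pos _) (Real.exp_lt_exp.mpr (by linarith))
  φ_supp := ⟨Real.exp (τ0 + dl), fun _ _ hx => phiT_eq_zero _ hx⟩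
  ε_lt := hε

/-- **From the solutions in the sectors to `BFun`.** -/
theorem bfun_of_FOK {Vf : ∀ σ : Sec D, Fin (D.N σ.1) → MvPolynomial (Fin 3) ℝ}
    (hVf : ∀ σ i, refl3 (Vf σ i) = MvPolynomial.C (par σ.1) * Vf σ i)
    (hS2 : ∀ σ : Sec D, σ.1.2 ≤ 1)
    {Cg lam Bb τ0 dl ε : ℝ} {hdl : 0 < dl} {hε : ε * Fintype.card (Idx D) < 1}
    (hε0 : 0 ≤ ε) (hlam : 0 < lam) (hτ0 : 0 ≤ τ0)
    {P : ℕ} {A : MetricField (m + 3)} (hA : ∀ i l, Continuous fun x => A x i l)
    (hell : ∀ x w : EuclideanSpace ℝ (Fin (m + 3)),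
      lam * ∑ i, w i * w i ≤ ∑ i, ∑ j, A x i j * w i * w j)
    {NN : Sec D → ℕ} {V : ∀ σ : Sec D, Fin (NN σ) → MvPolynomial (Fin 3) ℝ}
    (hV : ∀ σ i, refl3 (V σ i) = MvPolynomial.C (par σ.1) * V σ i)
    {Cc : ∀ j : Idx D, Gal.Coef (EuclideanSpace ℝ (Fin (NN j.1)))}
    (hBb : ∀ j t, (Cc j).b t ≤ Bb)
    {u v : ∀ σ : Sec D, Fin (D.N σ.1) → ℝ → EuclideanSpace ℝ (Fin (NN σ))}
    {T : ℝ} (hT : Real.log (P + 1) + 1 ≤ T)
    (hgrow : ∀ σ c t, 0 ≤ t → t ≤ T → ‖u σ c t‖ ≤ Cg * Real.exp (k * max t 0))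
    (hpair : ∀ σ i c, ∀ Y ∈ harm (m + 1) σ.1.1, sph (ev (Y * Y)) = 1 → ∀ t ∈ Icc τ0 (τ0 + dl),
      |(∑ l, u σ c t l * ip (yI m Y * vI m (V σ l)) (yI m Y * vI m (Vf σ i)))
        - if i = c then 1 else 0| ≤ ε)
    {F : Idx D → EuclideanSpace ℝ (Fin (m + 3)) → ℝ}
    (hF : ∀ j : Idx D, FOK A (Cc j)
      (fun i => yI m (YB m j.1.1.1 j.2.1).1 * vI m (V j.1 i)) (u j.1 j.2.2) (v j.1 j.2.2) P (F j)) :
    BFun (mkB D Vf Cg lam Bb τ0 dl ε hdl hε) P A F := by
  have hT0 : 0 ≤ T := by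
    have : 0 ≤ Real.log ((P : ℝ) + 1) := Real.log_nonneg (by
      have : (0 : ℝ) ≤ P := Nat.cast_nonneg P
      linarith)
    linarith
  have hgrow' : ∀ (j : Idx D) (t : ℝ), t ≤ T →
      ‖u j.1 j.2.2 t‖ ≤ Cg * Real.exp (k * max t 0) := by
    intro j t ht
    rcases le_total 0 t with h0 | h0
    · exact hgrow j.1 j.2.2 t h0 ht
    · refine ((hF j).bdd t h0).1.trans ?_
      have := hgrow j.1 j.2.2 0 le_rfl hT0
      rw [max_self] at this
      rw [max_eq_right h0]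
      exact this
  refine ⟨fun j => (hF j).reg, fun j => (hF j).w0, fun j => (hF j).w1, ?_, ?_, ?_⟩
  · -- energy
    intro R hR j
    by_cases hR0 : R < 0
    · have : closedBall (0 : EuclideanSpace ℝ (Fin (m + 3))) R = ∅ := closedBall_eq_empty.mpr hR0
      rw [this]
      simp only [Measure.restrict_empty, integral_zero_measure]
      show 0 ≤ lam⁻¹ * _
      positivity
    · push Not at hR0
      refine (hF j).energy hA hlam hell (hBb j) (hgrow' j) ?_
      rw [abs_of_nonneg hR0]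
      refine le_trans ?_ hT
      have := Real.log_le_log (by linarith : 0 < R + 1) (by linarith : R + 1 ≤ P + 1)
      linarith
  · -- growth
    intro R hR0 hR j
    have h1 := growth_ball (n := m + 3) (by omega) (hF j).reg.continuous (hF j).orth (hF j).slice
      (C := Cg) (K := k) (T := T) (k := k) le_rfl (hgrow' j) hR0 (by
        have h2 : R ≤ Real.exp (Real.log (P + 1)) := by
          rw [Real.exp_log (by positivity)]; linarith
        exact h2.trans (Real.exp_le_exp.mpr (by linarith)))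
    exact h1
  · -- pairing
    intro i j
    show |(∫ x, F j x * phiT (yI m (YB m i.1.1.1 i.2.1).1 * vI m (Vf i.1 i.2.2)) (Real.exp τ0)
      (Real.exp (τ0 + dl)) x) - if i = j then 1 else 0| ≤ ε
    have hcont : ContinuousOn (u j.1 j.2.2) (Ici 0) := fun t _ =>
      ((hF j).sol.du t).continuousAt.continuousWithinAt
    refine pair_close (n := m + 3) (by omega) (hF j).reg.continuous hcont (hF j).slice _
      (Real.one_le_exp hτ0) (Real.exp_lt_exp.mpr (by linarith)) ?_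
    intro r hr
    have hr0 : 0 < r := (Real.exp_pos _).trans hr.1
    have hlog : Real.log r ∈ Icc τ0 (τ0 + dl) := by
      constructor
      · rw [← Real.log_exp τ0]; exact Real.log_le_log (Real.exp_pos _) hr.1.le
      · rw [← Real.log_exp (τ0 + dl)]; exact Real.log_le_log hr0 hr.2.le
    obtain ⟨σ, a, c⟩ := j
    obtain ⟨σ', a', c'⟩ := i
    by_cases hσ : σ' = σ
    · subst hσ
      by_cases ha : a' = a
      · subst ha
        have h2 := hpair σ' c' c (YB m σ'.1.1 a').1 (YB m σ'.1.1 a').2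
          (by rw [YB_orth, if_pos rfl]) (Real.log r) hlog
        have h3 : ((if (⟨σ', a', c'⟩ : Idx D) = ⟨σ', a', c⟩ then (1 : ℝ) else 0))
            = if c' = c then 1 else 0 := by
          by_cases hc : c' = c
          · subst hc; simp
          · rw [if_neg hc, if_neg]
            intro h
            apply hc
            simpa using h
        rw [h3]
        exact h2
      · -- different harmonics
        have h3 : ((if (⟨σ', a', c'⟩ : Idx D) = ⟨σ', a, c⟩ then (1 : ℝ) else 0)) = 0 := by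
          rw [if_neg]
          intro h
          apply ha
          have := (Sigma.mk.inj_iff.mp h).2
          have h4 := eq_of_heq this
          exact congrArg Prod.fst h4
        have h5 : ∀ l, ip (yI m (YB m σ'.1.1 a).1 * vI m (V σ' l))
            (yI m (YB m σ'.1.1 a').1 * vI m (Vf σ' c')) = 0 := fun l =>
          Sph.ip_zero_of_orth (YB m σ'.1.1 a).2 (YB m σ'.1.1 a').2
            (by rw [YB_orth, if_neg (Ne.symm ha)]) _ _
        simp only [h5, mul_zero, Finset.sum_const_zero, h3, sub_zero, abs_zero]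
        exact hε0
    · have h3 : ((if (⟨σ', a', c'⟩ : Idx D) = ⟨σ, a, c⟩ then (1 : ℝ) else 0)) = 0 := by
        rw [if_neg]
        intro h
        exact hσ (Sigma.mk.inj_iff.mp h).1
      have h5 : ∀ l, ip (yI m (YB m σ.1.1 a).1 * vI m (V σ l))
          (yI m (YB m σ'.1.1 a').1 * vI m (Vf σ' c')) = 0 := by
        intro l
        by_cases hq : σ.1.1 = σ'.1.1
        · -- same degree: different parity
          have hs : σ.1.2 ≠ σ'.1.2 := by
            intro hs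
            apply hσ
            exact Subtype.ext (Prod.ext hq.symm hs.symm)
          refine Sph.ip_zero_of_parity (ε := par σ.1) (ε' := par σ'.1) ?_ (hV σ l) (hVf σ' c')
          exact par_mul (hS2 σ) (hS2 σ') hs
        · exact Sph.ip_zero_of_orth (YB m σ.1.1 a).2 (YB m σ'.1.1 a').2
            (Sph.sph_orth hq (YB m σ.1.1 a).2 (YB m σ'.1.1 a').2) _ _
      simp only [h5, mul_zero, Finset.sum_const_zero, h3, sub_zero, abs_zero]
      exact hε0

end

end Crest.Agent.R202.Brid
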