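import Crest.Agent.R202.SchScal
import Crest.Agent.R202.Mixing

/-! # Row 202, module SCH, part 6: arithmetic of the time table (helper821)

`sched`: the `Mix.Sched` with `T q = Th A q - 2 Lc`, `ε q = log 4`,
`Γ q = CΓ exp((M+2)(Tg A q + 2 Lc))`; and the comparison of `∑_{i ≤ q} T i` with the time. -/

set_option autoImplicit false

open Set Filter Finset
open scoped Topology

namespace Crest.Agent.R202.Sch

noncomputable section

variable {A Lc : ℝ}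

/-- length of home `q` between the collars -/
def Tc (A Lc : ℝ) (q : ℕ) : ℝ := Th A q - 2 * Lc

theorem Tc_ge (hA : 0 < A) (hL : 4 * Lc ≤ A) (q : ℕ) : A / 2 * ((q : ℝ) + 1) ^ 4 ≤ Tc A Lc q := by
  unfold Tc Th
  have h1 : (1 : ℝ) ≤ ((q : ℝ) + 1) ^ 4 := one_le_pow₀ (by linarith [Nat.cast_nonneg (α := ℝ) q])
  nlinarith

theorem Tc_pos (hA : 0 < A) (hL : 4 * Lc ≤ A) (q : ℕ) : 0 < Tc A Lc q :=
  lt_of_lt_of_le (by positivity) (Tc_ge hA hL q)

theorem Tc_sub (A Lc : ℝ) (q : ℕ) :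
    Tc A Lc (q + 1) - Tc A Lc q = A * (((q : ℝ) + 2) ^ 4 - ((q : ℝ) + 1) ^ 4) := by
  unfold Tc Th
  push_cast
  ring

theorem Tc_mono (hA : 0 < A) : Monotone (Tc A Lc) := by
  refine monotone_nat_of_le_succ fun q => ?_
  have h := Tc_sub A Lc q
  have h1 : ((q : ℝ) + 1) ^ 4 ≤ ((q : ℝ) + 2) ^ 4 := by
    apply pow_le_pow_left₀ (by positivity); linarith
  nlinarith

theorem tendsto_cast_succ : Tendsto (fun q : ℕ => (q : ℝ) + 1) atTop atTop :=
  tendsto_atTop_add_const_right _ _ tendsto_natCast_atTop_atTop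

theorem Tc_inf (hA : 0 < A) (hL : 4 * Lc ≤ A) : Tendsto (Tc A Lc) atTop atTop := by
  refine tendsto_atTop_mono (Tc_ge hA hL) ?_
  exact ((tendsto_pow_atTop (by norm_num)).comp tendsto_cast_succ).const_mul_atTop (by positivity)

theorem tendsto_const_div_succ (c : ℝ) : Tendsto (fun q : ℕ => c / ((q : ℝ) + 1)) atTop (𝓝 0) :=
  tendsto_const_nhds.div_atTop tendsto_cast_succ

theorem Tc_rel (hA : 0 < A) (hL : 4 * Lc ≤ A) :
    Tendsto (fun q => (Tc A Lc (q + 1) - Tc A Lc q) / Tc A Lc q) atTop (𝓝 0) := by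
  refine squeeze_zero (fun q => div_nonneg (sub_nonneg.2 (Tc_mono hA (Nat.le_succ q)))
    (Tc_pos hA hL q).le) (fun q => ?_) (tendsto_const_div_succ 30)
  rw [div_le_div_iff₀ (Tc_pos hA hL q) (by positivity), Tc_sub]
  have h1 := Tc_ge hA hL q
  have hx : (1 : ℝ) ≤ (q : ℝ) + 1 := by linarith [Nat.cast_nonneg (α := ℝ) q]
  have h2 : ((q : ℝ) + 2) ^ 4 - ((q : ℝ) + 1) ^ 4 ≤ 15 * ((q : ℝ) + 1) ^ 3 := by
    have e : ((q : ℝ) + 2) ^ 4 = (((q : ℝ) + 1) + 1) ^ 4 := by ring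
    rw [e]
    set x := (q : ℝ) + 1
    have h3 : 1 ≤ x ^ 2 := one_le_pow₀ hx
    have h4 : x ^ 2 ≤ x ^ 3 := pow_le_pow_right₀ hx (by norm_num)
    have h5 : x ≤ x ^ 3 := le_self_pow₀ hx (by norm_num)
    nlinarith
  have h3 : A * (((q : ℝ) + 2) ^ 4 - ((q : ℝ) + 1) ^ 4) * ((q : ℝ) + 1)
      ≤ A * (15 * ((q : ℝ) + 1) ^ 3) * ((q : ℝ) + 1) := by gcongr
  nlinarith

/-- lower order: `c0 + c1 Tg` is small against the homes -/
theorem g_rel (hA : 0 < A) (hL : 4 * Lc ≤ A) (c0 c1 : ℝ) :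
    Tendsto (fun q => (c0 + c1 * Tg A q) / Tc A Lc q) atTop (𝓝 0) := by
  rw [tendsto_zero_iff_abs_tendsto_zero]
  refine squeeze_zero (fun q => abs_nonneg _) (fun q => ?_)
    (tendsto_const_div_succ (2 * (|c0| / A + |c1|)))
  have hT := Tc_pos hA hL q
  have h1 := Tc_ge hA hL q
  have hx : (1 : ℝ) ≤ (q : ℝ) + 1 := by linarith [Nat.cast_nonneg (α := ℝ) q]
  have hg : |c0 + c1 * Tg A q| ≤ (|c0| / A + |c1|) * (A * ((q : ℝ) + 1) ^ 3) := by
    have h2 : |c0 + c1 * Tg A q| ≤ |c0| + |c1| * Tg A q := by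
      refine (abs_add_le _ _).trans ?_
      rw [abs_mul, abs_of_pos (Tg_pos hA q)]
    have h3 : (1 : ℝ) ≤ ((q : ℝ) + 1) ^ 3 := one_le_pow₀ hx
    have h4 : |c0| ≤ |c0| * ((q : ℝ) + 1) ^ 3 := le_mul_of_one_le_right (abs_nonneg _) h3
    calc |c0 + c1 * Tg A q| ≤ |c0| + |c1| * Tg A q := h2
      _ ≤ |c0| * ((q : ℝ) + 1) ^ 3 + |c1| * Tg A q := by linarith
      _ = (|c0| / A + |c1|) * (A * ((q : ℝ) + 1) ^ 3) := by
          unfold Tg; field_simp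
  simp only [Function.comp_def]
  rw [abs_div, abs_of_pos hT, div_le_div_iff₀ hT (by positivity)]
  calc |c0 + c1 * Tg A q| * ((q : ℝ) + 1)
      ≤ (|c0| / A + |c1|) * (A * ((q : ℝ) + 1) ^ 3) * ((q : ℝ) + 1) := by gcongr
    _ = 2 * (|c0| / A + |c1|) * (A / 2 * ((q : ℝ) + 1) ^ 4) := by ring
    _ ≤ _ := mul_le_mul_of_nonneg_left h1 (by positivity)

/-- The schedule for the mixing theorem. -/
def sched {CΓ M : ℝ} {Ms : ℕ} (hA : 0 < A) (hL0 : 0 ≤ Lc) (hL : 4 * Lc ≤ A) (hC : 1 ≤ CΓ)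
    (hM : 0 ≤ M) (hMs : 1 ≤ Ms) : Mix.Sched where
  T := Tc A Lc
  ε _ := Real.log 4
  Γ q := CΓ * Real.exp ((M + 2) * (Tg A q + 2 * Lc))
  δ := 0
  g q := (Real.log CΓ + Real.log 4 + (M + 2) * (2 * Lc)) + (M + 2) * Tg A q
  M := Ms
  M_pos := hMs
  T_pos := Tc_pos hA hL
  T_inf := Tc_inf hA hL
  T_rel := Tc_rel hA hL
  g_rel := g_rel hA hL _ _
  Γ_ge q := by
    have h1 : 1 ≤ Real.exp ((M + 2) * (Tg A q + 2 * Lc)) := by
      have := (Tg_pos hA q).le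
      exact Real.one_le_exp (by positivity)
    nlinarith
  rate q := by
    have hC0 : 0 < CΓ := by linarith
    rw [show (0 : ℝ) * Tc A Lc q + ((Real.log CΓ + Real.log 4 + (M + 2) * (2 * Lc)) +
      (M + 2) * Tg A q) = Real.log CΓ + (M + 2) * (Tg A q + 2 * Lc) + Real.log 4 by ring,
      Real.exp_add, Real.exp_add, Real.exp_log hC0]

/-! ### Comparison with the time -/

theorem sum_Tc_le (hA : 0 < A) (hL0 : 0 ≤ Lc) (q : ℕ) :
    ∑ i ∈ range q, Tc A Lc i ≤ hs A q - 2 * A := by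
  induction q with
  | zero => simp [hs_zero]
  | succ q ih =>
    rw [sum_range_succ, hs_succ, he_eq]
    have := (Tg_pos hA q).le
    unfold Tc at ih ⊢
    linarith

theorem sum_Tc_nonneg (hA : 0 < A) (hL : 4 * Lc ≤ A) (q : ℕ) : 0 ≤ ∑ i ∈ range q, Tc A Lc i :=
  sum_nonneg fun i _ => (Tc_pos hA hL i).le

/-- the sum up to and including home `q` is at most `(1+η)` times the starting time of home `q` -/
theorem sum_Tc_succ_le (hA : 0 < A) (hL0 : 0 ≤ Lc) (hL : 4 * Lc ≤ A) {η : ℝ} (hη : 0 < η) :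
    ∃ B : ℝ, 0 ≤ B ∧ ∀ q, ∑ i ∈ range (q + 1), Tc A Lc i ≤ (1 + η) * hs A q + B := by
  obtain ⟨B, hB, h⟩ := Mix.last_le_sum (Tc_pos hA hL) (Tc_rel hA hL) hη
  refine ⟨B, hB, fun q => ?_⟩
  rw [sum_range_succ]
  have h1 := h q
  have h2 := sum_Tc_le (Lc := Lc) hA hL0 q
  have h3 : η * ∑ i ∈ range q, Tc A Lc i ≤ η * hs A q :=
    mul_le_mul_of_nonneg_left (by linarith) hη.le
  linarith

/-- `e^{K ∑ T}` up to home `q` (included) is at most a constant times `e^{K' t}` for all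
`t ≥ hs A q`, `K' > K`. -/
theorem exp_sum_le (hA : 0 < A) (hL0 : 0 ≤ Lc) (hL : 4 * Lc ≤ A) {K K' : ℝ} (hK : 0 ≤ K)
    (hKK : K < K') :
    ∃ C : ℝ, 0 < C ∧ ∀ q t, hs A q ≤ t →
      Real.exp (K * ∑ i ∈ range (q + 1), Tc A Lc i) ≤ C * Real.exp (K' * t) := by
  obtain ⟨B, hB, h⟩ := sum_Tc_succ_le hA hL0 hL (η := (K' - K) / (K + 1))
    (div_pos (by linarith) (by linarith))
  refine ⟨Real.exp (K * B), Real.exp_pos _, fun q t ht => ?_⟩
  rw [← Real.exp_add]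
  refine Real.exp_le_exp.2 ?_
  have h1 := mul_le_mul_of_nonneg_left (h q) hK
  have ht0 : 0 ≤ hs A q := by linarith [two_mul_le_hs hA q]
  have h2 : K * ((K' - K) / (K + 1)) ≤ K' - K := by
    rw [mul_div_assoc', div_le_iff₀ (by linarith)]
    nlinarith
  have h3 : K * ((1 + (K' - K) / (K + 1)) * hs A q) ≤ K' * hs A q := by
    have : K * ((1 + (K' - K) / (K + 1)) * hs A q) =
        (K + K * ((K' - K) / (K + 1))) * hs A q := by ring
    rw [this]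
    exact mul_le_mul_of_nonneg_right (by linarith) ht0
  have h4 : K' * hs A q ≤ K' * t := mul_le_mul_of_nonneg_left ht (by linarith)
  linarith

end

end Crest.Agent.R202.Sch
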