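import Crest.Agent.R202.TopDefs
import Crest.Agent.R202.SchGrow
import Crest.Agent.R202.BridG

/-!
Row 202, composition of `BExport` (helper912), part 1: the sector data and the schedule of the
mixing theorem for the slots of `Top.Slots`.
-/

set_option autoImplicit false

open Set
open Crest.Agent.R202.Main Crest.Agent.R202.CT Crest.Agent.R202.Sch Crest.Agent.R202.Top
open Crest.Agent.R202.Mix (MixData SecData Sched Fits Cube)

noncomputable section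

namespace Crest.Agent.R202.BExp

variable {m : ℕ} {v : ℝ} {k : ℕ} {D : CountData m v k}

/-- monotone exponents -/
def MonoA (D : CountData m v k) (a : ℕ × ℕ → ℕ → ℝ) : Prop :=
  ∀ σ ∈ D.S, ∀ i j, D.i0 σ ≤ i → i ≤ j → j ≤ D.N σ → a σ i ≤ a σ j

/-- the sector data of the mixing theorem -/
def sdOf (sl : Slots D) {a : ℕ × ℕ → ℕ → ℝ} (ε : ℝ) (hm : MonoA D a) (σ : Sec D) : SecData where
  N := D.N σ.1
  i0 := D.i0 σ.1
  a l := a σ.1 l + ε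
  off := sl.off σ
  i0_pos := D.i0_pos σ.1 σ.2
  i0_le := (D.i0_lt σ.1 σ.2).le
  mono i j h1 h2 h3 := by
    have := hm σ.1 σ.2 i j h1 h2 h3
    linarith

theorem sdOf_mean (sl : Slots D) {a : ℕ × ℕ → ℕ → ℝ} (ε : ℝ) (hm : MonoA D a) (σ : Sec D) :
    (sdOf sl ε hm σ).mean =
      (∑ c ∈ Finset.range (D.N σ.1 - D.i0 σ.1 + 1), (a σ.1 (D.i0 σ.1 + c) + ε)) /
        ((D.N σ.1 - D.i0 σ.1 : ℕ) + 1) := rfl

/-- **`Fits`** for the slots. -/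
theorem fits_of (sl : Slots D) {a : ℕ × ℕ → ℕ → ℝ} {ε : ℝ} (hm : MonoA D a) (σ : Sec D)
    {A Lc CΓ M : ℝ} (hA : 0 < A) (hL0 : 0 ≤ Lc) (hL : 4 * Lc ≤ A) (hC : 1 ≤ CΓ) (hM : 0 ≤ M)
    {H : Type*} [NormedAddCommGroup H] [InnerProductSpace ℝ H] {P : ℕ}
    (MD : MixData H (D.N σ.1) P) (h1 : MD.i0 = D.i0 σ.1) (h2 : MD.a = fun l => a σ.1 l + ε)
    (h3 : MD.T = fun q => Th A q - 2 * Lc) (h4 : MD.ε = fun _ => Real.log 4)
    (h5 : MD.d = fun q => if (sl.jt q.1).1.1 = σ.1 then some (sl.jt q.1).1.2 else none)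
    {CΓ' M' : ℝ} (hC' : CΓ' ≤ CΓ) (hM' : M' ≤ M + 2)
    (h6 : MD.Γ = fun q => CΓ' * Real.exp (M' * (Tg A q.1 + 2 * Lc))) :
    Fits (sdOf sl ε hm σ) (sched hA hL0 hL hC hM sl.M_pos) MD where
  i0 := h1
  a l _ _ := by rw [h2]; rfl
  T q _ := by rw [h3]; rfl
  ε q _ := by rw [h4]; rfl
  Γ q := by
    rw [h6]
    show CΓ' * Real.exp (M' * (Tg A q.1 + 2 * Lc)) ≤
      CΓ * Real.exp ((M + 2) * (Tg A q.1 + 2 * Lc))
    have h7 : 0 ≤ Tg A q.1 + 2 * Lc := by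
      have := (Tg_pos hA q.1).le
      positivity
    have h8 : Real.exp (M' * (Tg A q.1 + 2 * Lc)) ≤ Real.exp ((M + 2) * (Tg A q.1 + 2 * Lc)) :=
      Real.exp_le_exp.2 (mul_le_mul_of_nonneg_right hM' h7)
    calc CΓ' * Real.exp (M' * (Tg A q.1 + 2 * Lc))
        ≤ CΓ * Real.exp (M' * (Tg A q.1 + 2 * Lc)) :=
          mul_le_mul_of_nonneg_right hC' (Real.exp_pos _).le
      _ ≤ _ := mul_le_mul_of_nonneg_left h8 (by linarith)
  d q := by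
    rw [h5]
    show (if (sl.jt q.1).1.1 = σ.1 then some (sl.jt q.1).1.2 else none) =
      if (q.1 + sl.off σ) % sl.M < D.N σ.1 - D.i0 σ.1 then
        some (D.i0 σ.1 + (q.1 + sl.off σ) % sl.M) else none
    by_cases h : (sl.jt q.1).1.1 = σ.1
    · rw [if_pos h, if_pos ((sl.active q.1 σ).2 h), sl.cut q.1 σ h]
    · rw [if_neg h, if_neg fun h' => h ((sl.active q.1 σ).1 h')]

theorem sched_M {A Lc CΓ M : ℝ} {Ms : ℕ} (hA : 0 < A) (hL0 : 0 ≤ Lc) (hL : 4 * Lc ≤ A)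
    (hC : 1 ≤ CΓ) (hM : 0 ≤ M) (hMs : 1 ≤ Ms) : (sched hA hL0 hL hC hM hMs).M = Ms := rfl

theorem sched_δ {A Lc CΓ M : ℝ} {Ms : ℕ} (hA : 0 < A) (hL0 : 0 ≤ Lc) (hL : 4 * Lc ≤ A)
    (hC : 1 ≤ CΓ) (hM : 0 ≤ M) (hMs : 1 ≤ Ms) : (sched hA hL0 hL hC hM hMs).δ = 0 := rfl

theorem sched_T {A Lc CΓ M : ℝ} {Ms : ℕ} (hA : 0 < A) (hL0 : 0 ≤ Lc) (hL : 4 * Lc ≤ A)
    (hC : 1 ≤ CΓ) (hM : 0 ≤ M) (hMs : 1 ≤ Ms) (q : ℕ) :
    (sched hA hL0 hL hC hM hMs).T q = Th A q - 2 * Lc := rfl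

theorem dimH_pos {m : ℕ} {σ : ℕ × ℕ} (h : SecOK m σ) : 0 < Sph.dimH (m + 1) σ.1 := by
  obtain ⟨-, h1, h2⟩ := h
  rcases Nat.eq_zero_or_pos m with hm | hm
  · subst hm
    have := h1 rfl
    unfold Sph.dimH Sph.dimP
    rw [if_neg (by omega)]
    simp
  · have hq := h2 hm
    obtain ⟨q, hq'⟩ : ∃ q, σ.1 = q + 1 := ⟨σ.1 - 1, by omega⟩
    obtain ⟨n, rfl⟩ : ∃ n, m = n + 1 := ⟨m - 1, by omega⟩
    rw [hq']
    unfold Sph.dimH Sph.dimP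
    have e1 : n + 1 + 1 + (q + 1) - 1 = (n + 1 + q) + 1 := by omega
    rw [e1]
    have e2 : (n + 1 + q + 1).choose (q + 1) = (n + 1 + q).choose q + (n + 1 + q).choose (q + 1) :=
      Nat.choose_succ_succ _ _
    rw [e2]
    split_ifs with h3
    · have h4 : (n + 1 + 1 + (q + 1 - 2) - 1).choose (q + 1 - 2) ≤ (n + 1 + q).choose q := by
        obtain ⟨r, rfl⟩ : ∃ r, q = r + 1 := ⟨q - 1, by omega⟩
        have e3 : n + 1 + 1 + (r + 1 + 1 - 2) - 1 = n + 1 + r := by omega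
        have e4 : r + 1 + 1 - 2 = r := by omega
        rw [e3, e4]
        have : (n + 1 + (r + 1)).choose (r + 1) = (n + 1 + r).choose r + (n + 1 + r).choose (r + 1) :=
          Nat.choose_succ_succ _ _
        omega
      have h5 : 0 < (n + 1 + q).choose (q + 1) := Nat.choose_pos (by omega)
      omega
    · have h5 : 0 < (n + 1 + q).choose (q + 1) := Nat.choose_pos (by omega)
      omega

/-- a normalised harmonic of every admissible sector -/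
theorem exists_Y {m : ℕ} {σ : ℕ × ℕ} (h : SecOK m σ) :
    ∃ Y ∈ Sph.harm (m + 1) σ.1, Sph.sph (Sph.ev (Y * Y)) = 1 := by
  refine ⟨(Brid.YB m σ.1 ⟨0, dimH_pos h⟩).1, (Brid.YB m σ.1 ⟨0, dimH_pos h⟩).2, ?_⟩
  rw [Brid.YB_orth, if_pos rfl]

end Crest.Agent.R202.BExp
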