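import Crest.Agent.R202.Lim1

/-!
# Row 202, part F: weak equations pass to the limit (2)
-/

set_option autoImplicit false
open MeasureTheory Metric Set Filter Topology
open scoped ContDiff
open Crest.GeometryTopology.CoordMetric
open Crest.Agent.R202.Ell (divA)

namespace Crest.Agent.R202.Lim

noncomputable section

variable {n : ℕ}

/-- `χ(|x|)` is smooth if `χ` is smooth and vanishes near `(-∞, 0]`. -/
lemma contDiff_radial {χ : ℝ → ℝ} (hχ : ContDiff ℝ ∞ χ) (hs : tsupport χ ⊆ Ioi 0) :
    ContDiff ℝ ∞ (fun x : EuclideanSpace ℝ (Fin n) => χ ‖x‖) := by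
  rw [contDiff_iff_contDiffAt]
  intro x
  by_cases hx : x = 0
  · subst hx
    have h0 : (0 : ℝ) ∉ tsupport χ := fun h => lt_irrefl (0 : ℝ) (mem_Ioi.mp (hs h))
    have h1 : ∀ᶠ r in 𝓝 (0 : ℝ), χ r = 0 := by
      have := (isClosed_tsupport χ).isOpen_compl.mem_nhds h0
      filter_upwards [this] with r hr
      exact image_eq_zero_of_notMem_tsupport hr
    have h2 : (fun x : EuclideanSpace ℝ (Fin n) => χ ‖x‖) =ᶠ[𝓝 0] fun _ => 0 := by
      have hc : Tendsto (fun x : EuclideanSpace ℝ (Fin n) => ‖x‖) (𝓝 0) (𝓝 0) := by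
        simpa using (continuous_norm.tendsto (0 : EuclideanSpace ℝ (Fin n)))
      exact hc.eventually h1
    exact contDiffAt_const.congr_of_eventuallyEq h2
  · exact hχ.contDiffAt.comp x (contDiffAt_norm ℝ hx)

lemma hasCompactSupport_radial {χ : ℝ → ℝ} (hc : HasCompactSupport χ) :
    HasCompactSupport (fun x : EuclideanSpace ℝ (Fin n) => χ ‖x‖) := by
  obtain ⟨R, hR⟩ := hc.isCompact.isBounded.subset_closedBall 0
  refine HasCompactSupport.intro (isCompact_closedBall (0 : EuclideanSpace ℝ (Fin n)) R) ?_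
  intro x hx
  apply image_eq_zero_of_notMem_tsupport
  intro h
  apply hx
  have := hR h
  simp only [mem_closedBall, dist_zero_right, norm_norm] at this ⊢
  exact this

/-- radial cutoff: `1` on `[a, b]`, supported in `[a/2, b + a/2]`. -/
lemma exists_cutoff {a b : ℝ} (ha : 0 < a) (hab : a < b) :
    ∃ χ : ℝ → ℝ, ContDiff ℝ ∞ χ ∧ HasCompactSupport χ ∧ tsupport χ ⊆ Ioi 0 ∧
      (∀ r ∈ Icc a b, χ r = 1) ∧ (∀ r, 0 ≤ χ r ∧ χ r ≤ 1) ∧ (∀ r, b + a < r → χ r = 0) := by
  let f : ContDiffBump ((a + b) / 2 : ℝ) :=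
    { rIn := (b - a) / 2, rOut := (b - a) / 2 + a / 2,
      rIn_pos := by linarith, rIn_lt_rOut := by linarith }
  have hts : tsupport f = closedBall ((a + b) / 2) ((b - a) / 2 + a / 2) := f.tsupport_eq
  refine ⟨f, f.contDiff, f.hasCompactSupport, ?_, ?_, fun r => ⟨f.nonneg, f.le_one⟩, ?_⟩
  · rw [hts]
    intro r hr
    rw [mem_closedBall, Real.dist_eq, abs_le] at hr
    have := hr.1
    simp only [mem_Ioi]
    linarith
  · intro r hr
    apply f.one_of_mem_closedBall
    rw [mem_closedBall, Real.dist_eq, abs_le]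
    constructor <;> [have := hr.1; have := hr.2] <;> (show _ ≤ _) <;> simp only [f] <;> linarith
  · intro r hr
    apply f.zero_of_le_dist
    rw [Real.dist_eq]
    have : f.rOut = (b - a) / 2 + a / 2 := rfl
    rw [this]
    refine le_trans ?_ (le_abs_self _)
    linarith

/-- Integration by parts. -/
lemma integral_mul_divA {A : EuclideanSpace ℝ (Fin n) → Matrix (Fin n) (Fin n) ℝ}
    (hA : ∀ i l, ContDiff ℝ 1 fun x => A x i l) (hsym : ∀ x i l, A x i l = A x l i)
    {u φ : EuclideanSpace ℝ (Fin n) → ℝ} (hu : ContDiff ℝ 1 u) (hφ : ContDiff ℝ ∞ φ)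
    (hφc : HasCompactSupport φ) :
    ∫ x, u x * divA A φ x = - ∫ x, Q A u φ x := by
  have hpφ : ∀ j, ContDiff ℝ 1 (pderiv j φ) := by
    intro j
    have : ContDiff ℝ 1 (fderiv ℝ φ) := hφ.fderiv_right (m := 1) (by norm_cast)
    exact this.clm_apply contDiff_const
  have hG : ∀ i, ContDiff ℝ 1 (fun y => ∑ j, A y i j * pderiv j φ y) := by
    intro i
    exact ContDiff.sum fun j _ => (hA i j).mul (hpφ j)
  have hGc : ∀ i, HasCompactSupport (fun y => ∑ j, A y i j * pderiv j φ y) := by
    intro i
    refine HasCompactSupport.intro hφc.isCompact fun x hx => ?_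
    simp [pderiv_eq_zero_of_notMem hx]
  have hcdiv : ∀ i, Continuous (pderiv i (fun y => ∑ j, A y i j * pderiv j φ y)) :=
    fun i => continuous_pderiv (hG i) i
  have hcs : ∀ i, HasCompactSupport (pderiv i (fun y => ∑ j, A y i j * pderiv j φ y)) := by
    intro i
    refine HasCompactSupport.intro (hGc i).isCompact fun x hx => ?_
    exact pderiv_eq_zero_of_notMem hx i
  have key : ∀ i, ∫ x, u x * pderiv i (fun y => ∑ j, A y i j * pderiv j φ y) x
      = - ∫ x, pderiv i u x * (∑ j, A x i j * pderiv j φ x) := by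
    intro i
    unfold pderiv
    apply integral_mul_fderiv_eq_neg_fderiv_mul_of_integrable
    · refine Continuous.integrable_of_hasCompactSupport ?_ ?_
      · exact (continuous_pderiv hu i).mul (hG i).continuous
      · exact (hGc i).mul_left
    · refine Continuous.integrable_of_hasCompactSupport ?_ ?_
      · exact hu.continuous.mul (hcdiv i)
      · exact (hcs i).mul_left
    · refine Continuous.integrable_of_hasCompactSupport ?_ ?_
      · exact hu.continuous.mul (hG i).continuous
      · exact (hGc i).mul_left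
    · exact fun x _ => hu.differentiable (by norm_num) x
    · exact fun x _ => (hG i).differentiable (by norm_num) x
  have e1 : ∀ x, u x * divA A φ x
      = ∑ i, u x * pderiv i (fun y => ∑ j, A y i j * pderiv j φ y) x := by
    intro x; unfold divA; rw [Finset.mul_sum]
  simp_rw [e1]
  rw [integral_finsetSum]
  · simp_rw [key]
    rw [Finset.sum_neg_distrib, ← integral_finsetSum]
    · congr 1
      apply integral_congr_ae
      refine Eventually.of_forall fun x => ?_
      simp only [Q]
      simp_rw [Finset.mul_sum]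
      rw [Finset.sum_comm]
      refine Finset.sum_congr rfl fun i _ => Finset.sum_congr rfl fun l _ => ?_
      rw [hsym x l i]; ring
    · intro i _
      refine Continuous.integrable_of_hasCompactSupport ?_ ?_
      · exact (continuous_pderiv hu i).mul (hG i).continuous
      · exact (hGc i).mul_left
  · intro i _
    refine Continuous.integrable_of_hasCompactSupport ?_ ?_
    · exact hu.continuous.mul (hcdiv i)
    · exact (hcs i).mul_left

end

end Crest.Agent.R202.Lim
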