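import Crest.Agent.R202.SphDiv
import Crest.Agent.R202.SecQB
import Crest.Agent.R202.Lim2

/-!
Row 202, BRIDGE (helper778): functions `x ↦ U(log|x|) p(x/|x|)` on `ℝⁿ`, `p` a homogeneous
polynomial: gradient, pairing with a radial coefficient field.
-/

set_option autoImplicit false

open scoped ContDiff RealInnerProductSpace
open Set Filter Topology MeasureTheory Metric
open Crest.GeometryTopology.CoordMetric
open Crest.Agent.R202.Sph (ev ip qb QB)

namespace Crest.Agent.R202.Bri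

variable {n : ℕ}

local notation "EE" => EuclideanSpace ℝ (Fin n)

/-- `U(log|x|) p(x/|x|)` -/
noncomputable def hr (U : ℝ → ℝ) (p : MvPolynomial (Fin n) ℝ) (x : EE) : ℝ :=
  U (Real.log ‖x‖) * ev p (‖x‖⁻¹ • x)

theorem norm_polar {r : ℝ} (hr0 : 0 < r) {z : EE} (hz : ‖z‖ = 1) : ‖r • z‖ = r := by
  rw [norm_smul, Real.norm_eq_abs, abs_of_pos hr0, hz, mul_one]

theorem polar_ne {r : ℝ} (hr0 : 0 < r) {z : EE} (hz : ‖z‖ = 1) : r • z ≠ 0 := by
  rw [← norm_ne_zero_iff, norm_polar hr0 hz]; exact hr0.ne'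

theorem unit_polar {r : ℝ} (hr0 : 0 < r) {z : EE} (hz : ‖z‖ = 1) :
    ‖r • z‖⁻¹ • (r • z) = z := by
  rw [norm_polar hr0 hz, smul_smul, inv_mul_cancel₀ hr0.ne', one_smul]

theorem hr_polar (U : ℝ → ℝ) (p : MvPolynomial (Fin n) ℝ) {r : ℝ} (hr0 : 0 < r) {z : EE}
    (hz : ‖z‖ = 1) : hr U p (r • z) = U (Real.log r) * ev p z := by
  unfold hr
  rw [unit_polar hr0 hz, norm_polar hr0 hz]

theorem hasFDerivAt_logNorm {x : EE} (hx : x ≠ 0) :
    HasFDerivAt (fun y : EE => Real.log ‖y‖) ((‖x‖ ^ 2)⁻¹ • innerSL ℝ x) x := by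
  have hn : ‖x‖ ≠ 0 := norm_ne_zero_iff.2 hx
  have h3 : HasStrictFDerivAt (fun y : EE => ‖y‖ ^ 2) (2 • (innerSL ℝ x)) x :=
    hasStrictFDerivAt_norm_sq x
  have h4 := (h3.hasFDerivAt.log (pow_ne_zero 2 hn)).const_mul (1 / 2 : ℝ)
  have h5 : (fun y : EE => 1 / 2 * Real.log (‖y‖ ^ 2)) = fun y => Real.log ‖y‖ := by
    funext y
    rw [Real.log_pow]; push_cast; ring
  rw [h5] at h4
  refine h4.congr_fderiv ?_
  rw [two_nsmul, ← two_smul ℝ, smul_smul, smul_smul]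
  congr 1
  ring

/-- for `x ≠ 0`, `hr U p x = (U e^{-l ·})(log|x|) p(x)` -/
theorem hr_eq (U : ℝ → ℝ) {p : MvPolynomial (Fin n) ℝ} {l : ℕ} (hp : p.IsHomogeneous l) {x : EE}
    (hx : x ≠ 0) :
    hr U p x = (U (Real.log ‖x‖) * Real.exp (-(l : ℝ) * Real.log ‖x‖)) * ev p x := by
  have hn : 0 < ‖x‖ := norm_pos_iff.2 hx
  unfold hr
  rw [Sph.ev_smul_arg hp]
  have : Real.exp (-(l : ℝ) * Real.log ‖x‖) = ‖x‖⁻¹ ^ l := by
    rw [inv_pow, neg_mul, Real.exp_neg, Real.exp_nat_mul, Real.exp_log hn]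
  rw [this]; ring

theorem ev_pderiv_smul {p : MvPolynomial (Fin n) ℝ} {l : ℕ} (hp : p.IsHomogeneous l)
    (i : Fin n) {r : ℝ} (z : EE) :
    r * ev (MvPolynomial.pderiv i p) (r • z) = r ^ l * ev (MvPolynomial.pderiv i p) z := by
  rcases Nat.eq_zero_or_pos l with h | h
  · subst h
    rw [Sph.pderiv_eq_zero_of_zero hp]
    simp
  · rw [Sph.ev_smul_arg hp.pderiv, ← mul_assoc, ← pow_succ']
    congr 2; omega

/-- the gradient -/
theorem pderiv_hr {U : ℝ → ℝ} {U' : ℝ} {p : MvPolynomial (Fin n) ℝ} {l : ℕ}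
    (hp : p.IsHomogeneous l) {r : ℝ} (hr0 : 0 < r) {z : EE} (hz : ‖z‖ = 1)
    (hU : HasDerivAt U U' (Real.log r)) (i : Fin n) :
    pderiv i (hr U p) (r • z) = r⁻¹ * (U' * ev p z * z i +
      U (Real.log r) * (ev (MvPolynomial.pderiv i p) z - l * ev p z * z i)) := by
  set x : EE := r • z with hx
  have hx0 : x ≠ 0 := polar_ne hr0 hz
  have hnx : ‖x‖ = r := norm_polar hr0 hz
  have hev : hr U p =ᶠ[𝓝 x] fun y =>
      (U (Real.log ‖y‖) * Real.exp (-(l : ℝ) * Real.log ‖y‖)) * ev p y := by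
    filter_upwards [isOpen_compl_singleton.mem_nhds hx0] with y hy
    exact hr_eq U hp hy
  have hlog : HasFDerivAt (fun y : EE => Real.log ‖y‖) ((r ^ 2)⁻¹ • innerSL ℝ x) x := by
    have := hasFDerivAt_logNorm hx0
    rwa [hnx] at this
  have hU2 : HasDerivAt (fun t => U t * Real.exp (-(l : ℝ) * t))
      (U' * Real.exp (-(l : ℝ) * Real.log r) +
        U (Real.log r) * (Real.exp (-(l : ℝ) * Real.log r) * (-(l : ℝ)))) (Real.log r) := by
    refine hU.mul ?_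
    have := ((hasDerivAt_id (Real.log r)).const_mul (-(l : ℝ))).exp
    simpa using this
  rw [← hnx] at hU2
  have h1 := (hU2.comp_hasFDerivAt x hlog).mul (Sph.differentiable_ev p x).hasFDerivAt
  have h2 : fderiv ℝ (hr U p) x = _ := (h1.congr_of_eventuallyEq hev).fderiv
  have hpd : fderiv ℝ (ev p) x (EuclideanSpace.single i 1) = ev (MvPolynomial.pderiv i p) x :=
    Sph.pderiv_ev p i x
  have hrl : Real.exp (-(l : ℝ) * Real.log r) * r ^ l = 1 := by
    rw [neg_mul, Real.exp_neg, Real.exp_nat_mul, Real.exp_log hr0]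
    exact inv_mul_cancel₀ (by positivity)
  have hpx : ev p x = r ^ l * ev p z := Sph.ev_smul_arg hp r z
  have hdx := ev_pderiv_smul hp i (r := r) z
  rw [← hx] at hdx
  have hdx' : ev (MvPolynomial.pderiv i p) x = r⁻¹ * (r ^ l * ev (MvPolynomial.pderiv i p) z) := by
    rw [← hdx, ← mul_assoc, inv_mul_cancel₀ hr0.ne', one_mul]
  unfold pderiv
  rw [h2]
  simp only [Function.comp_def, add_apply, smul_apply,
    smul_eq_mul, innerSL_apply_apply, EuclideanSpace.inner_single_right, hpd, hnx]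
  have hxi : x i = r * z i := by rw [hx]; simp
  simp only [hxi, hpx, hdx', one_mul, conj_trivial]
  generalize Real.exp (-(l : ℝ) * Real.log r) = E at hrl ⊢
  field_simp
  linear_combination (U' * ev p z * z i + U (Real.log r) * ev (MvPolynomial.pderiv i p) z -
    U (Real.log r) * l * ev p z * z i) * hrl

theorem contDiffOn_hr {U : ℝ → ℝ} {k : ℕ∞} (hU : ContDiff ℝ k U) (p : MvPolynomial (Fin n) ℝ) :
    ContDiffOn ℝ k (hr U p) ({0}ᶜ : Set EE) := by
  have h1 : ContDiffOn ℝ k (fun x : EE => ‖x‖) {0}ᶜ := fun x hx =>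
    (contDiffAt_norm ℝ hx).contDiffWithinAt
  have h0 : ∀ x ∈ ({0}ᶜ : Set EE), ‖x‖ ≠ 0 := fun x hx => norm_ne_zero_iff.2 hx
  have h2 : ContDiffOn ℝ k (fun x : EE => Real.log ‖x‖) {0}ᶜ := h1.log h0
  have h3 : ContDiffOn ℝ k (fun x : EE => ‖x‖⁻¹ • x) {0}ᶜ := (h1.inv h0).smul contDiffOn_id
  exact (hU.comp_contDiffOn h2).mul ((Sph.contDiff_ev p).comp_contDiffOn h3)

theorem differentiableAt_hr {U : ℝ → ℝ} {p : MvPolynomial (Fin n) ℝ} {r : ℝ} (hr0 : 0 < r) {z : EE}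
    (hz : ‖z‖ = 1) (hU : DifferentiableAt ℝ U (Real.log r)) :
    DifferentiableAt ℝ (hr U p) (r • z) := by
  have hx0 : r • z ≠ 0 := polar_ne hr0 hz
  have hn0 : ‖r • z‖ ≠ 0 := norm_ne_zero_iff.2 hx0
  have h1 : DifferentiableAt ℝ (fun x : EE => ‖x‖) (r • z) :=
    (contDiffAt_norm (n := 1) ℝ hx0).differentiableAt (by norm_num)
  have h2 : DifferentiableAt ℝ (fun x : EE => Real.log ‖x‖) (r • z) := h1.log hn0
  have h3 : DifferentiableAt ℝ (fun x : EE => ‖x‖⁻¹ • x) (r • z) :=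
    (h1.inv hn0).smul differentiableAt_id
  have hU' : DifferentiableAt ℝ U ((fun x : EE => Real.log ‖x‖) (r • z)) := by
    simpa [norm_polar hr0 hz] using hU
  exact (hU'.comp (r • z) h2).mul ((Sph.differentiable_ev p _).comp (r • z) h3)

/-- Euler on the sphere -/
theorem euler {p : MvPolynomial (Fin n) ℝ} {l : ℕ} (hp : p.IsHomogeneous l) (z : EE) :
    ∑ i, z i * ev (MvPolynomial.pderiv i p) z = l * ev p z := by
  have h := congrArg (fun q => ev q z) hp.sum_X_mul_pderiv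
  simp only [Sph.ev_sum, Sph.ev_mul, Sph.ev_X] at h
  rw [h]
  simp [ev, nsmul_eq_mul]

theorem sum_sq_one {z : EE} (hz : ‖z‖ = 1) : ∑ i, z i * z i = 1 := by
  have := EuclideanSpace.real_norm_sq_eq z
  rw [hz] at this
  simp only [sq] at this
  rw [← this]; ring

end Crest.Agent.R202.Bri
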