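import Crest.Agent.R202.BriA
import Crest.Agent.R202.GeoCoef

/-!
Row 202, BRIDGE (helper778): pairing `⟨coefF ∇f, ∇g⟩` of functions `U(log|x|) p(x/|x|)` at
`x = r z`.
-/

set_option autoImplicit false

open scoped ContDiff RealInnerProductSpace
open Set Filter Topology MeasureTheory Metric
open Crest.GeometryTopology.CoordMetric
open Crest.Agent.R202.Sph (ev ip qb QB)
open Crest.Agent.R202.Geo

namespace Crest.Agent.R202.Bri

variable {n m : ℕ}

/-- the tangential dual cross-section at time `t` -/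
noncomputable def Bt (θ : ℝ → ℝ) (P : ℝ → ℝ → ℂ → ℝ) (t : ℝ) (z : EuclideanSpace ℝ (Fin (m + 3))) :
    Matrix (Fin (m + 3)) (Fin (m + 3)) ℝ :=
  (Afam θ P (Real.exp t • z))⁻¹ - outer z

/-- the coefficient field at `x = r z` -/
theorem coefF_polar (s θ : ℝ → ℝ) (P : ℝ → ℝ → ℂ → ℝ) {r : ℝ} (hr0 : 0 < r)
    {z : EuclideanSpace ℝ (Fin (m + 3))} (hz : ‖z‖ = 1) (i j : Fin (m + 3)) :
    coefF s θ P (r • z) i j = Real.exp (-((m : ℝ) + 2) * s (Real.log r)) *
      (z i * z j + Real.exp (2 * s (Real.log r)) * Bt θ P (Real.log r) z i j) := by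
  have hx : r • z ≠ 0 := polar_ne hr0 hz
  have hn : ‖r • z‖ = r := norm_polar hr0 hz
  have hs : sigOf s (r • z) = s (Real.log r) := by simp [sigOf, hx, hn]
  have hf : fixA (Afam θ P) (r • z) = Afam θ P (r • z) := by simp [fixA, hx]
  have hrad : ∀ i j, radP (r • z) i j = z i * z j := by
    intro i j
    rw [radP_apply, hn]
    simp only [PiLp.smul_apply, smul_eq_mul]
    field_simp
  unfold coefF coefR gRInv Bt
  rw [hs, hf, Real.exp_log hr0]
  simp only [Matrix.smul_apply, Matrix.add_apply, Matrix.sub_apply, smul_eq_mul, hrad, outer]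
  have : (-(((m + 3 : ℕ) : ℝ) - 1)) = -((m : ℝ) + 2) := by push_cast; ring
  rw [this]

/-- `∑ B_{il} w_l v_i` is unchanged when multiples of `z` are added to `w, v` -/
theorem sum_tang {B : Matrix (Fin n) (Fin n) ℝ} {z : Fin n → ℝ} (hs : ∀ i j, B i j = B j i)
    (ht : ∀ i, ∑ j, B i j * z j = 0) (w v : Fin n → ℝ) (α γ : ℝ) :
    ∑ i, ∑ j, B i j * (w j + α * z j) * (v i + γ * z i) = ∑ i, ∑ j, B i j * w j * v i := by
  have h1 : ∀ i, ∑ j, B i j * (w j + α * z j) * (v i + γ * z i)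
      = (∑ j, B i j * w j) * (v i + γ * z i) := by
    intro i
    have : ∀ j, B i j * (w j + α * z j) * (v i + γ * z i)
        = B i j * w j * (v i + γ * z i) + (B i j * z j) * (α * (v i + γ * z i)) := fun j => by ring
    rw [Finset.sum_congr rfl fun j _ => this j, Finset.sum_add_distrib, ← Finset.sum_mul,
      ← Finset.sum_mul, ht i]
    ring
  rw [Finset.sum_congr rfl fun i _ => h1 i]
  have h2 : ∀ i, (∑ j, B i j * w j) * (v i + γ * z i)
      = (∑ j, B i j * w j * v i) + γ * ((∑ j, B i j * w j) * z i) := by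
    intro i; rw [← Finset.sum_mul]; ring
  rw [Finset.sum_congr rfl fun i _ => h2 i, Finset.sum_add_distrib, ← Finset.mul_sum]
  have h3 : ∑ i, (∑ j, B i j * w j) * z i = 0 := by
    simp only [Finset.sum_mul]
    rw [Finset.sum_comm]
    refine Finset.sum_eq_zero fun j _ => ?_
    have : ∀ i, B i j * w j * z i = (B j i * z i) * w j := fun i => by rw [hs]; ring
    rw [Finset.sum_congr rfl fun i _ => this i, ← Finset.sum_mul, ht j, zero_mul]
  rw [h3]; ring

/-- **the pairing at `x = r z`** -/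
theorem Q_hr {s θ : ℝ → ℝ} {P : ℝ → ℝ → ℂ → ℝ} {r : ℝ} (hr0 : 0 < r)
    {z : EuclideanSpace ℝ (Fin (m + 3))} (hz : ‖z‖ = 1)
    (hBs : ∀ i j, Bt θ P (Real.log r) z i j = Bt θ P (Real.log r) z j i)
    (hBt : ∀ i, ∑ j, Bt θ P (Real.log r) z i j * z j = 0)
    {f g : EuclideanSpace ℝ (Fin (m + 3)) → ℝ} {U Ψ : ℝ}
    {wf wg : Fin (m + 3) → ℝ}
    (hf : ∀ i, pderiv i f (r • z) = r⁻¹ * (U * z i + wf i)) (hwf : ∑ i, wf i * z i = 0)
    (hg : ∀ i, pderiv i g (r • z) = r⁻¹ * (Ψ * z i + wg i)) (hwg : ∑ i, wg i * z i = 0) :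
    Lim.Q (coefF s θ P) f g (r • z) = Real.exp (-((m : ℝ) + 2) * s (Real.log r)) * r⁻¹ ^ 2 *
      (U * Ψ + Real.exp (2 * s (Real.log r)) *
        ∑ i, ∑ j, Bt θ P (Real.log r) z i j * wf j * wg i) := by
  unfold Lim.Q
  set c := Real.exp (-((m : ℝ) + 2) * s (Real.log r)) with hc
  set e := Real.exp (2 * s (Real.log r)) with he
  set B := Bt θ P (Real.log r) z with hB
  have h1 : ∀ i l, coefF s θ P (r • z) i l * pderiv l f (r • z) * pderiv i g (r • z)
      = c * r⁻¹ ^ 2 * ((z l * (U * z l + wf l)) * (z i * (Ψ * z i + wg i)) +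
        e * (B i l * (wf l + U * z l) * (wg i + Ψ * z i))) := by
    intro i l
    rw [coefF_polar s θ P hr0 hz, hf, hg]
    ring
  have h2 : ∑ l, z l * (U * z l + wf l) = U := by
    have : ∀ l, z l * (U * z l + wf l) = U * (z l * z l) + wf l * z l := fun l => by ring
    rw [Finset.sum_congr rfl fun l _ => this l, Finset.sum_add_distrib, ← Finset.mul_sum,
      sum_sq_one hz, hwf]; ring
  have h3 : ∑ i, z i * (Ψ * z i + wg i) = Ψ := by
    have : ∀ l, z l * (Ψ * z l + wg l) = Ψ * (z l * z l) + wg l * z l := fun l => by ring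
    rw [Finset.sum_congr rfl fun l _ => this l, Finset.sum_add_distrib, ← Finset.mul_sum,
      sum_sq_one hz, hwg]; ring
  rw [Finset.sum_congr rfl fun i _ => Finset.sum_congr rfl fun l _ => h1 i l]
  simp only [← Finset.mul_sum, Finset.sum_add_distrib]
  rw [sum_tang hBs hBt wf wg U Ψ]
  congr 2
  simp only [← Finset.sum_mul]
  rw [h2, ← Finset.mul_sum, h3]

/-- tangential part of the gradient of `p` -/
noncomputable def tg (p : MvPolynomial (Fin n) ℝ) (l : ℕ) (z : EuclideanSpace ℝ (Fin n))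
    (i : Fin n) : ℝ := ev (MvPolynomial.pderiv i p) z - l * ev p z * z i

theorem tg_tang {p : MvPolynomial (Fin n) ℝ} {l : ℕ} (hp : p.IsHomogeneous l)
    {z : EuclideanSpace ℝ (Fin n)} (hz : ‖z‖ = 1) : ∑ i, tg p l z i * z i = 0 := by
  have h : ∀ i, tg p l z i * z i = z i * ev (MvPolynomial.pderiv i p) z - l * ev p z * (z i * z i) :=
    fun i => by unfold tg; ring
  rw [Finset.sum_congr rfl fun i _ => h i, Finset.sum_sub_distrib, ← Finset.mul_sum, euler hp z,
    sum_sq_one hz]; ring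

theorem sum_tg {B : Matrix (Fin n) (Fin n) ℝ} {z : EuclideanSpace ℝ (Fin n)}
    (hs : ∀ i j, B i j = B j i) (ht : ∀ i, ∑ j, B i j * z j = 0)
    (p h : MvPolynomial (Fin n) ℝ) (l k : ℕ) :
    ∑ i, ∑ j, B i j * tg p l z j * tg h k z i
      = ∑ i, ∑ j, B i j * ev (MvPolynomial.pderiv i p) z * ev (MvPolynomial.pderiv j h) z := by
  have h1 := sum_tang hs ht (fun j => ev (MvPolynomial.pderiv j p) z)
    (fun i => ev (MvPolynomial.pderiv i h) z) (-(l * ev p z)) (-(k * ev h z))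
  have h2 : ∑ i, ∑ j, B i j * tg p l z j * tg h k z i
      = ∑ i, ∑ j, B i j * (ev (MvPolynomial.pderiv j p) z + -(l * ev p z) * z j) *
        (ev (MvPolynomial.pderiv i h) z + -(k * ev h z) * z i) := by
    refine Finset.sum_congr rfl fun i _ => Finset.sum_congr rfl fun j _ => ?_
    unfold tg; ring
  rw [h2, h1, Finset.sum_comm]
  refine Finset.sum_congr rfl fun i _ => Finset.sum_congr rfl fun j _ => ?_
  rw [hs]

end Crest.Agent.R202.Bri
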