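import Crest.Agent.R202.BriB
import Crest.Agent.R202.GalDefs

/-!
Row 202, BRIDGE (helper778): the Galerkin function `F(x) = ∑ u_i(log|x|) p_i(x/|x|)` on `ℝ^{m+3}`;
definition of the data, gradient, slices over spheres.
-/

set_option autoImplicit false

open scoped ContDiff RealInnerProductSpace
open Set Filter Topology MeasureTheory Metric
open Crest.GeometryTopology.CoordMetric
open Crest.Agent.R202.Sph (ev ip qb QB SecForm)
open Crest.Agent.R202.Geo (Fam coefF Afam outer)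

namespace Crest.Agent.R202.Bri

variable {n m N D : ℕ}

/-- the function `x ↦ ∑ u_i(log|x|) p_i(x/|x|)` -/
noncomputable def Ff (p : Fin N → MvPolynomial (Fin n) ℝ) (u : ℝ → EuclideanSpace ℝ (Fin N))
    (x : EuclideanSpace ℝ (Fin n)) : ℝ := ∑ i, u (Real.log ‖x‖) i * ev (p i) (‖x‖⁻¹ • x)

/-- Data: sector basis, Galerkin coefficients. -/
structure BData (m : ℕ) (s θ : ℝ → ℝ) (P : ℝ → ℝ → ℂ → ℝ) (t0 X0 X1 : ℝ) {N : ℕ}
    (p : Fin N → MvPolynomial (Fin (m + 3)) ℝ) (l : Fin N → ℕ) (D : ℕ)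
    (C : Gal.Coef (EuclideanSpace ℝ (Fin N))) : Prop where
  fam : Fam s θ P t0 X0 X1
  homog : ∀ i, (p i).IsHomogeneous (l i)
  l_pos : ∀ i, 1 ≤ l i
  harm : ∀ i, Sph.lap (m + 3) (p i) = 0
  secB : ∀ t, SecForm (m := m) (Bt θ P t)
  compl : ∀ h : MvPolynomial (Fin (m + 3)) ℝ, h.totalDegree ≤ D →
    ∀ B, SecForm (m := m) B → ∀ i, QB B (p i) h = ∑ j, ip (p j) h * QB B (p i) (p j)
  t0_eq : C.t0 = t0
  K_eq : ∀ t x i, C.K t x i = Real.exp (2 * s t) * ∑ j, QB (Bt θ P t) (p i) (p j) * x j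
  b_eq : ∀ t, C.b t = ((m : ℝ) + 1) - ((m : ℝ) + 2) * deriv s t
  L_eq : ∀ x i, C.L0 x i = l i * x i

theorem Ff_eq (p : Fin N → MvPolynomial (Fin n) ℝ) (u : ℝ → EuclideanSpace ℝ (Fin N))
    (x : EuclideanSpace ℝ (Fin n)) : Ff p u x = ∑ i, hr (fun t => u t i) (p i) x := rfl

theorem Ff_polar (p : Fin N → MvPolynomial (Fin n) ℝ) (u : ℝ → EuclideanSpace ℝ (Fin N))
    {r : ℝ} (hr0 : 0 < r) {z : EuclideanSpace ℝ (Fin n)} (hz : ‖z‖ = 1) :
    Ff p u (r • z) = ∑ i, u (Real.log r) i * ev (p i) z := by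
  rw [Ff_eq]
  exact Finset.sum_congr rfl fun i _ => hr_polar _ _ hr0 hz

theorem hasDerivAt_coord {u : ℝ → EuclideanSpace ℝ (Fin N)} {v : EuclideanSpace ℝ (Fin N)} {t : ℝ}
    (h : HasDerivAt u v t) (i : Fin N) : HasDerivAt (fun t => u t i) (v i) t :=
  (EuclideanSpace.proj (𝕜 := ℝ) i).hasFDerivAt.comp_hasDerivAt t h

theorem pderiv_Ff {p : Fin N → MvPolynomial (Fin n) ℝ} {l : Fin N → ℕ}
    (hp : ∀ i, (p i).IsHomogeneous (l i)) {u : ℝ → EuclideanSpace ℝ (Fin N)}
    {v : EuclideanSpace ℝ (Fin N)} {r : ℝ} (hr0 : 0 < r) {z : EuclideanSpace ℝ (Fin n)}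
    (hz : ‖z‖ = 1) (hu : HasDerivAt u v (Real.log r)) (i : Fin n) :
    pderiv i (Ff p u) (r • z) = r⁻¹ * ((∑ j, v j * ev (p j) z) * z i +
      ∑ j, u (Real.log r) j * tg (p j) (l j) z i) := by
  have h1 : pderiv i (Ff p u) (r • z) = ∑ j, pderiv i (hr (fun t => u t j) (p j)) (r • z) := by
    unfold pderiv
    have : Ff p u = fun x => ∑ j, hr (fun t => u t j) (p j) x := by funext x; rfl
    rw [this, fderiv_fun_sum fun j _ => differentiableAt_hr hr0 hz
      (hasDerivAt_coord hu j).differentiableAt]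
    simp
  rw [h1, Finset.sum_mul, ← Finset.sum_add_distrib, Finset.mul_sum]
  refine Finset.sum_congr rfl fun j _ => ?_
  rw [pderiv_hr (hp j) hr0 hz (hasDerivAt_coord hu j) i]
  unfold tg; ring

/-- test functions `χ(|x|) h(x)` -/
theorem pderiv_test {χ : ℝ → ℝ} {h : MvPolynomial (Fin n) ℝ} {k : ℕ} (hh : h.IsHomogeneous k)
    {ψ' r : ℝ} (hr0 : 0 < r) {z : EuclideanSpace ℝ (Fin n)} (hz : ‖z‖ = 1)
    (hψ : HasDerivAt (fun t => χ (Real.exp t) * Real.exp (k * t)) ψ' (Real.log r)) (i : Fin n) :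
    pderiv i (fun x => χ ‖x‖ * ev h x) (r • z) = r⁻¹ * ((ψ' * ev h z) * z i +
      (χ r * r ^ k) * tg h k z i) := by
  have hx0 : r • z ≠ 0 := polar_ne hr0 hz
  have he : (fun x => χ ‖x‖ * ev h x) =ᶠ[𝓝 (r • z)]
      hr (fun t => χ (Real.exp t) * Real.exp (k * t)) h := by
    filter_upwards [isOpen_compl_singleton.mem_nhds hx0] with y hy
    have hy0 : 0 < ‖y‖ := norm_pos_iff.2 hy
    unfold hr
    show _ = χ (Real.exp (Real.log ‖y‖)) * Real.exp (k * Real.log ‖y‖) * ev h (‖y‖⁻¹ • y)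
    rw [Sph.ev_smul_arg hh, Real.exp_nat_mul, Real.exp_log hy0, inv_pow]
    field_simp
  have h1 : pderiv i (fun x => χ ‖x‖ * ev h x) (r • z)
      = pderiv i (hr (fun t => χ (Real.exp t) * Real.exp (k * t)) h) (r • z) := by
    unfold pderiv; rw [he.fderiv_eq]
  rw [h1, pderiv_hr hh hr0 hz hψ i]
  have h2 : Real.exp ((k : ℝ) * Real.log r) = r ^ k := by
    rw [Real.exp_nat_mul, Real.exp_log hr0]
  rw [h2, Real.exp_log hr0]
  unfold tg; ring

theorem QB_symm {B : EuclideanSpace ℝ (Fin (m + 3)) → Matrix (Fin (m + 3)) (Fin (m + 3)) ℝ}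
    (hB : SecForm B) (p h : MvPolynomial (Fin (m + 3)) ℝ) : QB B p h = QB B h p := by
  unfold QB
  refine integral_congr_ae (Eventually.of_forall fun z => ?_)
  show qb B p h z = qb B h p z
  unfold qb
  rw [Finset.sum_comm]
  refine Finset.sum_congr rfl fun i _ => Finset.sum_congr rfl fun j _ => ?_
  rw [hB.symm z z.2 j i]; ring

theorem continuous_qb {B : EuclideanSpace ℝ (Fin (m + 3)) → Matrix (Fin (m + 3)) (Fin (m + 3)) ℝ}
    (hB : SecForm B) (p h : MvPolynomial (Fin (m + 3)) ℝ) :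
    Continuous fun z : SphDiv.Sph (m + 3) => qb B p h z := by
  unfold qb
  refine continuous_finsetSum _ fun i _ => continuous_finsetSum _ fun j _ => ?_
  have h1 : Continuous fun z : SphDiv.Sph (m + 3) => B z i j :=
    (continuousOn_iff_continuous_domRestrict.1 (hB.cont i j))
  exact (h1.mul ((Sph.continuous_ev _).comp continuous_subtype_val)).mul
    ((Sph.continuous_ev _).comp continuous_subtype_val)

theorem integrable_qb {B : EuclideanSpace ℝ (Fin (m + 3)) → Matrix (Fin (m + 3)) (Fin (m + 3)) ℝ}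
    (hB : SecForm B) (p h : MvPolynomial (Fin (m + 3)) ℝ) :
    Integrable (fun z : SphDiv.Sph (m + 3) => qb B p h z) (SphDiv.sig (m + 3)) :=
  (continuous_qb hB p h).integrable_of_hasCompactSupport (HasCompactSupport.of_compactSpace _)

theorem integrable_ev2 (p h : MvPolynomial (Fin n) ℝ) :
    Integrable (fun z : SphDiv.Sph n => ev p z * ev h z) (SphDiv.sig n) :=
  (((Sph.continuous_ev p).comp continuous_subtype_val).mul
    ((Sph.continuous_ev h).comp continuous_subtype_val)).integrable_of_hasCompactSupport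
    (HasCompactSupport.of_compactSpace _)

section slice

variable {s θ : ℝ → ℝ} {P : ℝ → ℝ → ℂ → ℝ} {t0 X0 X1 : ℝ}
  {p : Fin N → MvPolynomial (Fin (m + 3)) ℝ} {l : Fin N → ℕ}
  {C : Gal.Coef (EuclideanSpace ℝ (Fin N))}

/-- the integral over the sphere of radius `r` -/
theorem slice (d : BData m s θ P t0 X0 X1 p l D C) {u : ℝ → EuclideanSpace ℝ (Fin N)}
    {v : EuclideanSpace ℝ (Fin N)} {χ : ℝ → ℝ} {h : MvPolynomial (Fin (m + 3)) ℝ} {k : ℕ}
    (hh : h.IsHomogeneous k) (hD : h.totalDegree ≤ D) {ψ' r : ℝ} (hr0 : 0 < r)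
    (hu : HasDerivAt u v (Real.log r))
    (hψ : HasDerivAt (fun t => χ (Real.exp t) * Real.exp (k * t)) ψ' (Real.log r)) :
    ∫ z : SphDiv.Sph (m + 3), Lim.Q (coefF s θ P) (Ff p u) (fun x => χ ‖x‖ * ev h x)
      (r • (z : EuclideanSpace ℝ (Fin (m + 3)))) ∂(SphDiv.sig (m + 3))
      = Real.exp (-((m : ℝ) + 2) * s (Real.log r)) * r⁻¹ ^ 2 *
        (ψ' * (∑ j, v j * ip (p j) h) +
          (χ r * r ^ k) * ∑ j, C.K (Real.log r) (u (Real.log r)) j * ip (p j) h) := by
  set B := Bt (m := m) θ P (Real.log r) with hBdef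
  have hB : SecForm B := d.secB _
  set e := Real.exp (2 * s (Real.log r)) with he
  set c := Real.exp (-((m : ℝ) + 2) * s (Real.log r)) with hc
  have hpt : ∀ z : SphDiv.Sph (m + 3), Lim.Q (coefF s θ P) (Ff p u) (fun x => χ ‖x‖ * ev h x)
      (r • (z : EuclideanSpace ℝ (Fin (m + 3)))) = ∑ j, (c * r⁻¹ ^ 2 * ψ' * v j *
        (ev (p j) z * ev h z) + c * r⁻¹ ^ 2 * e * (χ r * r ^ k) * u (Real.log r) j *
          qb B (p j) h z) := by
    intro z
    have hz : ‖(z : EuclideanSpace ℝ (Fin (m + 3)))‖ = 1 := by simp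
    have hBs : ∀ i j, B z i j = B z j i := hB.symm z z.2
    have hBt : ∀ i, ∑ j, B z i j * (z : EuclideanSpace ℝ (Fin (m + 3))) j = 0 := hB.tang z z.2
    have w1 : ∑ i, (∑ j, u (Real.log r) j * tg (p j) (l j) z i) *
        (z : EuclideanSpace ℝ (Fin (m + 3))) i = 0 := by
      simp only [Finset.sum_mul]
      rw [Finset.sum_comm]
      refine Finset.sum_eq_zero fun j _ => ?_
      have : ∀ i, u (Real.log r) j * tg (p j) (l j) z i * (z : EuclideanSpace ℝ (Fin (m + 3))) i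
          = u (Real.log r) j * (tg (p j) (l j) z i * (z : EuclideanSpace ℝ (Fin (m + 3))) i) :=
        fun i => by ring
      rw [Finset.sum_congr rfl fun i _ => this i, ← Finset.mul_sum, tg_tang (d.homog j) hz, mul_zero]
    have w2 : ∑ i, ((χ r * r ^ k) * tg h k z i) * (z : EuclideanSpace ℝ (Fin (m + 3))) i = 0 := by
      have : ∀ i, ((χ r * r ^ k) * tg h k z i) * (z : EuclideanSpace ℝ (Fin (m + 3))) i
          = (χ r * r ^ k) * (tg h k z i * (z : EuclideanSpace ℝ (Fin (m + 3))) i) :=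
        fun i => by ring
      rw [Finset.sum_congr rfl fun i _ => this i, ← Finset.mul_sum, tg_tang hh hz, mul_zero]
    rw [Q_hr (s := s) hr0 hz hBs hBt (fun i => pderiv_Ff d.homog hr0 hz hu i) w1
      (fun i => pderiv_test hh hr0 hz hψ i) w2]
    have h3 : ∑ i, ∑ i', B z i i' * (∑ j, u (Real.log r) j * tg (p j) (l j) z i') *
        ((χ r * r ^ k) * tg h k z i) = ∑ j, (χ r * r ^ k) * u (Real.log r) j * qb B (p j) h z := by
      have h4 : ∀ i i', B z i i' * (∑ j, u (Real.log r) j * tg (p j) (l j) z i') *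
          ((χ r * r ^ k) * tg h k z i) = ∑ j, (χ r * r ^ k) * u (Real.log r) j *
            (B z i i' * tg (p j) (l j) z i' * tg h k z i) := by
        intro i i'
        rw [Finset.mul_sum, Finset.sum_mul]
        exact Finset.sum_congr rfl fun j _ => by ring
      simp only [h4]
      have h5 : ∀ i, ∑ i', ∑ j, (χ r * r ^ k) * u (Real.log r) j *
            (B z i i' * tg (p j) (l j) z i' * tg h k z i) = ∑ j, ∑ i', (χ r * r ^ k) *
            u (Real.log r) j * (B z i i' * tg (p j) (l j) z i' * tg h k z i) :=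
        fun i => Finset.sum_comm
      simp only [h5]
      rw [Finset.sum_comm]
      refine Finset.sum_congr rfl fun j _ => ?_
      simp only [← Finset.mul_sum]
      rw [sum_tg hBs hBt (p j) h (l j) k]
      rfl
    rw [h3]
    simp only [Finset.sum_mul, Finset.mul_sum, ← Finset.sum_add_distrib, mul_add]
    refine Finset.sum_congr rfl fun j _ => ?_
    ring
  have hi1 : ∀ j ∈ (Finset.univ : Finset (Fin N)), Integrable (fun z : SphDiv.Sph (m + 3) =>
      c * r⁻¹ ^ 2 * ψ' * v j * (ev (p j) z * ev h z) +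
        c * r⁻¹ ^ 2 * e * (χ r * r ^ k) * u (Real.log r) j * qb B (p j) h z)
      (SphDiv.sig (m + 3)) := fun j _ =>
    ((integrable_ev2 (p j) h).const_mul _).add ((integrable_qb hB (p j) h).const_mul _)
  rw [integral_congr_ae (Eventually.of_forall hpt), integral_finsetSum _ hi1]
  have hint : ∀ j, ∫ z : SphDiv.Sph (m + 3), (c * r⁻¹ ^ 2 * ψ' * v j *
        (ev (p j) z * ev h z) + c * r⁻¹ ^ 2 * e * (χ r * r ^ k) * u (Real.log r) j *
          qb B (p j) h z) ∂(SphDiv.sig (m + 3)) = c * r⁻¹ ^ 2 * ψ' * v j * ip (p j) h +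
          c * r⁻¹ ^ 2 * e * (χ r * r ^ k) * u (Real.log r) j * QB B (p j) h := by
    intro j
    rw [integral_add ((integrable_ev2 (p j) h).const_mul _)
      ((integrable_qb hB (p j) h).const_mul _), integral_const_mul, integral_const_mul]
    congr 2
    unfold ip Sph.sph
    refine integral_congr_ae (Eventually.of_forall fun z => ?_)
    show ev (p j) z * ev h z = ev (p j * h) z
    rw [Sph.ev_mul]
  rw [Finset.sum_congr rfl fun j _ => hint j]
  -- completeness
  have hK : ∑ j, C.K (Real.log r) (u (Real.log r)) j * ip (p j) h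
      = ∑ j, e * u (Real.log r) j * QB B (p j) h := by
    have h1 : ∀ j, C.K (Real.log r) (u (Real.log r)) j * ip (p j) h
        = ∑ i, e * u (Real.log r) i * (ip (p j) h * QB B (p i) (p j)) := by
      intro j
      rw [d.K_eq, Finset.mul_sum, Finset.sum_mul]
      refine Finset.sum_congr rfl fun i _ => ?_
      rw [QB_symm hB (p j) (p i)]; ring
    rw [Finset.sum_congr rfl fun j _ => h1 j, Finset.sum_comm]
    refine Finset.sum_congr rfl fun i _ => ?_
    rw [← Finset.mul_sum, d.compl h hD B hB i]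
  rw [hK]
  simp only [Finset.mul_sum, mul_add, ← Finset.sum_add_distrib]
  refine Finset.sum_congr rfl fun j _ => ?_
  ring

end slice

end Crest.Agent.R202.Bri
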