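import Crest.Agent.R202.BriC

/-!
Row 202, BRIDGE (helper778): the weak equation of the Galerkin function against the test functions
`χ(|x|) h(x)`, `deg h ≤ D`.
-/

set_option autoImplicit false

open scoped ContDiff RealInnerProductSpace
open Set Filter Topology MeasureTheory Metric
open Crest.GeometryTopology.CoordMetric
open Crest.Agent.R202.Sph (ev ip qb QB SecForm)
open Crest.Agent.R202.Geo (Fam coefF Afam outer)

namespace Crest.Agent.R202.Bri

variable {n m N D : ℕ} {s θ : ℝ → ℝ} {P : ℝ → ℝ → ℂ → ℝ} {t0 X0 X1 : ℝ}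
  {p : Fin N → MvPolynomial (Fin (m + 3)) ℝ} {l : Fin N → ℕ}
  {C : Gal.Coef (EuclideanSpace ℝ (Fin N))} {u v : ℝ → EuclideanSpace ℝ (Fin N)}

/-- the radial integral -/
theorem radial_zero (χ : ℝ → ℝ) (hχ : ContDiff ℝ ∞ χ) (hχc : HasCompactSupport χ)
    (hχs : tsupport χ ⊆ Ioi 0) (k : ℕ) {w L b LK : ℝ → ℝ}
    (hw : ∀ t, HasDerivAt w (b t * w t) t) (hL : ∀ t, HasDerivAt L (LK t - b t * L t) t)
    (hLK : Continuous LK) :
    ∫ r in Ioi (0 : ℝ), (w (Real.log r) * (deriv (fun t => χ (Real.exp t) * Real.exp (k * t))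
      (Real.log r) * L (Real.log r) + χ r * r ^ k * LK (Real.log r))) * r⁻¹ = 0 := by
  set ψ : ℝ → ℝ := fun t => χ (Real.exp t) * Real.exp (k * t) with hψ
  have hψs : ContDiff ℝ ∞ ψ :=
    (hχ.comp Real.contDiff_exp).mul (Real.contDiff_exp.comp (contDiff_const.mul contDiff_id))
  have hψd : ∀ t, HasDerivAt ψ (deriv ψ t) t := fun t =>
    (hψs.differentiable (by norm_num) t).hasDerivAt
  have hψc : Continuous (deriv ψ) := hψs.continuous_deriv (by norm_num)
  have hψr : ∀ r : ℝ, 0 < r → ψ (Real.log r) = χ r * r ^ k := by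
    intro r hr
    show χ (Real.exp (Real.log r)) * Real.exp (k * Real.log r) = _
    rw [Real.exp_log hr, Real.exp_nat_mul, Real.exp_log hr]
  have hwc : Continuous w := continuous_iff_continuousAt.2 fun t => (hw t).continuousAt
  have hLc : Continuous L := continuous_iff_continuousAt.2 fun t => (hL t).continuousAt
  -- support
  obtain ⟨a, b', ha, hab⟩ : ∃ a b' : ℝ, 0 < a ∧ tsupport χ ⊆ Icc a b' := by
    rcases (tsupport χ).eq_empty_or_nonempty with he | hne
    · exact ⟨1, 1, one_pos, by rw [he]; exact empty_subset _⟩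
    · have hc : IsCompact (tsupport χ) := hχc
      refine ⟨sInf (tsupport χ), sSup (tsupport χ), hχs (hc.sInf_mem hne), fun x hx => ?_⟩
      exact ⟨csInf_le hc.bddBelow hx, le_csSup hc.bddAbove hx⟩
  have hz : ∀ r : ℝ, r ∉ Icc a b' → χ =ᶠ[𝓝 r] fun _ => 0 := fun r hr =>
    notMem_tsupport_iff_eventuallyEq.1 fun h => hr (hab h)
  have hz0 : ∀ r : ℝ, r ∉ Icc a b' → χ r = 0 := fun r hr => (hz r hr).eq_of_nhds
  have hzd : ∀ r : ℝ, 0 < r → r ∉ Icc a b' → deriv ψ (Real.log r) = 0 := by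
    intro r hr0 hr
    have h1 : ψ =ᶠ[𝓝 (Real.log r)] fun _ => 0 := by
      have h2 : Tendsto Real.exp (𝓝 (Real.log r)) (𝓝 r) := by
        have := Real.continuous_exp.tendsto (Real.log r)
        rwa [Real.exp_log hr0] at this
      filter_upwards [h2.eventually (hz r hr)] with t ht
      simp only [hψ]; rw [ht, zero_mul]
    rw [h1.deriv_eq, deriv_const]
  set f : ℝ → ℝ := fun r => (χ r * r ^ k) * (w (Real.log r) * L (Real.log r)) with hf
  set f' : ℝ → ℝ := fun r => (w (Real.log r) * (deriv ψ (Real.log r) * L (Real.log r) +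
    χ r * r ^ k * LK (Real.log r))) * r⁻¹ with hf'
  have hderiv : ∀ r ∈ Ioi (0 : ℝ), HasDerivAt f (f' r) r := by
    intro r hr
    have hr0 : (0 : ℝ) < r := hr
    have h1 : HasDerivAt (fun t => ψ t * (w t * L t))
        (deriv ψ (Real.log r) * (w (Real.log r) * L (Real.log r)) + ψ (Real.log r) *
          ((b (Real.log r) * w (Real.log r)) * L (Real.log r) + w (Real.log r) *
            (LK (Real.log r) - b (Real.log r) * L (Real.log r)))) (Real.log r) :=
      (hψd _).mul ((hw _).mul (hL _))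
    have h2 := h1.comp r (Real.hasDerivAt_log hr0.ne')
    have h3 : f =ᶠ[𝓝 r] (fun t => ψ t * (w t * L t)) ∘ Real.log := by
      filter_upwards [Ioi_mem_nhds hr0] with y hy
      simp only [hf, Function.comp]
      rw [hψr y hy]
    refine (h2.congr_of_eventuallyEq h3).congr_deriv ?_
    simp only [hf']
    rw [hψr r hr0]; ring
  have hcont : ContinuousOn f' (Ioi 0) := by
    have hlog : ContinuousOn Real.log (Ioi (0 : ℝ)) :=
      Real.continuousOn_log.mono fun x hx => (ne_of_gt hx : x ≠ 0)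
    have h1 : ∀ {g : ℝ → ℝ}, Continuous g → ContinuousOn (fun r => g (Real.log r)) (Ioi (0 : ℝ)) :=
      fun hg => hg.comp_continuousOn hlog
    have hinv : ContinuousOn (fun r : ℝ => r⁻¹) (Ioi 0) :=
      continuousOn_inv₀.mono fun x hx => (ne_of_gt hx : x ≠ 0)
    exact ((h1 hwc).mul (((h1 hψc).mul (h1 hLc)).add
      (((hχ.continuous.mul (continuous_pow k)).continuousOn).mul (h1 hLK)))).mul hinv
  have hint : IntegrableOn f' (Ioi 0) := by
    have h1 : IntegrableOn f' (Icc a b') :=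
      (hcont.mono fun x hx => lt_of_lt_of_le ha hx.1).integrableOn_Icc
    refine h1.of_forall_sdiff_eq_zero measurableSet_Ioi fun r hr => ?_
    simp only [hf']
    rw [hzd r hr.1 hr.2, hz0 r hr.2]; ring
  have h0 : ContinuousWithinAt f (Ici 0) 0 := by
    have h1 : f =ᶠ[𝓝 0] fun _ => 0 := by
      have : (0 : ℝ) ∉ Icc a b' := fun h => absurd h.1 (not_le.2 ha)
      filter_upwards [hz 0 this] with r hr
      simp only [hf]; rw [hr]; ring
    exact (continuousAt_const.congr h1.symm).continuousWithinAt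
  have htop : Tendsto f atTop (𝓝 0) := by
    have h1 : f =ᶠ[atTop] fun _ => 0 := by
      filter_upwards [eventually_gt_atTop b'] with r hr
      simp only [hf]
      rw [hz0 r fun h => absurd h.2 (not_le.2 hr)]; ring
    exact tendsto_const_nhds.congr' h1.symm
  rw [integral_Ioi_of_hasDerivAt_of_tendsto h0 hderiv hint htop]
  have : χ 0 = 0 := hz0 0 fun h => absurd h.1 (not_le.2 ha)
  simp only [hf]; rw [this]; ring

theorem hasDerivAt_w (d : BData m s θ P t0 X0 X1 p l D C) (t : ℝ) :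
    HasDerivAt (fun t => Real.exp (((m : ℝ) + 1) * t - ((m : ℝ) + 2) * s t))
      (C.b t * Real.exp (((m : ℝ) + 1) * t - ((m : ℝ) + 2) * s t)) t := by
  have hs : HasDerivAt s (deriv s t) t :=
    (d.fam.smooth_s.differentiable (by norm_num) t).hasDerivAt
  have h1 := (((hasDerivAt_id t).const_mul ((m : ℝ) + 1)).sub (hs.const_mul ((m : ℝ) + 2))).exp
  refine h1.congr_deriv ?_
  rw [d.b_eq]
  simp only [Pi.sub_apply, id]
  ring

/-- homogeneous test polynomials -/
theorem w1_homog (d : BData m s θ P t0 X0 X1 p l D C) (hR : Gal.Reg C u v)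
    (hF : ContDiff ℝ 1 (Ff p u)) {χ : ℝ → ℝ} (hχ : ContDiff ℝ ∞ χ) (hχc : HasCompactSupport χ)
    (hχs : tsupport χ ⊆ Ioi 0) {h : MvPolynomial (Fin (m + 3)) ℝ} {k : ℕ}
    (hh : h.IsHomogeneous k) (hD : h.totalDegree ≤ D) :
    ∫ x, Lim.Q (coefF s θ P) (Ff p u) (fun x => χ ‖x‖ * ev h x) x = 0 := by
  have hg : ContDiff ℝ ∞ fun x : EuclideanSpace ℝ (Fin (m + 3)) => χ ‖x‖ * ev h x :=
    (Lim.contDiff_radial hχ hχs).mul (Sph.contDiff_ev h)
  have hgc : HasCompactSupport fun x : EuclideanSpace ℝ (Fin (m + 3)) => χ ‖x‖ * ev h x :=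
    (Lim.hasCompactSupport_radial hχc).mul_right
  have hI := Lim.integrable_Q (A := coefF s θ P) (fun i j => (d.fam.contDiff_coefF i j).continuous)
    hF (hg.of_le (by norm_cast)) hgc
  rw [SphDiv.polar (by omega) _ hI]
  set c : Fin N → ℝ := fun j => ip (p j) h with hc
  set ψ : ℝ → ℝ := fun t => χ (Real.exp t) * Real.exp (k * t) with hψ
  have hψs : ContDiff ℝ ∞ ψ :=
    (hχ.comp Real.contDiff_exp).mul (Real.contDiff_exp.comp (contDiff_const.mul contDiff_id))
  set w : ℝ → ℝ := fun t => Real.exp (((m : ℝ) + 1) * t - ((m : ℝ) + 2) * s t) with hw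
  set L : ℝ → ℝ := fun t => ∑ j, v t j * c j with hL
  set LK : ℝ → ℝ := fun t => ∑ j, C.K t (u t) j * c j with hLK
  have hLd : ∀ t, HasDerivAt L (LK t - C.b t * L t) t := by
    intro t
    have h1 : ∀ j ∈ (Finset.univ : Finset (Fin N)), HasDerivAt (fun t => v t j * c j)
        ((C.K t (u t) - C.b t • v t) j * c j) t := fun j _ =>
      (hasDerivAt_coord (hR.dv t) j).mul_const _
    refine (HasDerivAt.fun_sum h1).congr_deriv ?_
    simp only [hLK, hL, PiLp.sub_apply, PiLp.smul_apply, smul_eq_mul, sub_mul,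
      Finset.sum_sub_distrib, Finset.mul_sum]
    congr 1
    exact Finset.sum_congr rfl fun j _ => by ring
  have hLKc : Continuous LK := by
    have hK : Continuous fun t => C.K t := continuous_iff_continuousAt.2 fun t =>
      (C.hK t).continuousAt
    have hu : Continuous u := continuous_iff_continuousAt.2 fun t => (hR.du t).continuousAt
    have h1 : Continuous fun t => C.K t (u t) := hK.clm_apply hu
    have h2 : ∀ j : Fin N, Continuous fun t => C.K t (u t) j := fun j =>
      (EuclideanSpace.proj (𝕜 := ℝ) j : EuclideanSpace ℝ (Fin N) →L[ℝ] ℝ).continuous.comp h1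
    exact continuous_finsetSum _ fun j _ => (h2 j).mul continuous_const
  have key := radial_zero χ hχ hχc hχs k (w := w) (L := L) (b := C.b) (LK := LK)
    (fun t => hasDerivAt_w d t) hLd hLKc
  refine Eq.trans ?_ key
  refine setIntegral_congr_fun measurableSet_Ioi fun r hr => ?_
  have hr0 : (0 : ℝ) < r := hr
  have hψd : HasDerivAt (fun t => χ (Real.exp t) * Real.exp (k * t)) (deriv ψ (Real.log r))
      (Real.log r) := (hψs.differentiable (by norm_num) _).hasDerivAt
  show r ^ (m + 3 - 1) * _ = _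
  rw [slice d hh hD hr0 (hR.du _) hψd]
  have h1 : r ^ (m + 3 - 1) * (Real.exp (-((m : ℝ) + 2) * s (Real.log r)) * r⁻¹ ^ 2)
      = w (Real.log r) * r⁻¹ := by
    have h2 : w (Real.log r) = r ^ (m + 1) * Real.exp (-((m : ℝ) + 2) * s (Real.log r)) := by
      simp only [hw]
      rw [sub_eq_add_neg, Real.exp_add]
      congr 1
      · have := Real.exp_nat_mul (Real.log r) (m + 1)
        rw [Real.exp_log hr0] at this
        rw [← this]; push_cast; rfl
      · congr 1; ring
    rw [h2]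
    have h3 : m + 3 - 1 = m + 2 := by omega
    rw [h3]
    field_simp
    ring
  rw [← mul_assoc, h1]
  ring

/-- **(w1)** the weak equation against `χ(|x|) h(x)`, `deg h ≤ D` -/
theorem w1 (d : BData m s θ P t0 X0 X1 p l D C) (hR : Gal.Reg C u v)
    (hF : ContDiff ℝ 1 (Ff p u)) {χ : ℝ → ℝ} (hχ : ContDiff ℝ ∞ χ) (hχc : HasCompactSupport χ)
    (hχs : tsupport χ ⊆ Ioi 0) {h : MvPolynomial (Fin (m + 3)) ℝ} (hD : h.totalDegree ≤ D) :
    ∫ x, Lim.Q (coefF s θ P) (Ff p u) (fun x => χ ‖x‖ * Lim.pe h x) x = 0 := by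
  set hk : ℕ → MvPolynomial (Fin (m + 3)) ℝ := fun k => h.homogeneousComponent k with hhk
  have hsum : h = ∑ k ∈ Finset.range (h.totalDegree + 1), hk k :=
    (MvPolynomial.sum_homogeneousComponent h).symm
  have hg : ∀ q : MvPolynomial (Fin (m + 3)) ℝ,
      ContDiff ℝ ∞ fun x : EuclideanSpace ℝ (Fin (m + 3)) => χ ‖x‖ * ev q x := fun q =>
    (Lim.contDiff_radial hχ hχs).mul (Sph.contDiff_ev q)
  have hgc : ∀ q : MvPolynomial (Fin (m + 3)) ℝ,
      HasCompactSupport fun x : EuclideanSpace ℝ (Fin (m + 3)) => χ ‖x‖ * ev q x := fun q =>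
    (Lim.hasCompactSupport_radial hχc).mul_right
  have hI := fun q => Lim.integrable_Q (A := coefF s θ P)
    (fun i j => (d.fam.contDiff_coefF i j).continuous) hF ((hg q).of_le (by norm_cast)) (hgc q)
  have hpe : (fun x : EuclideanSpace ℝ (Fin (m + 3)) => χ ‖x‖ * Lim.pe h x)
      = fun x => ∑ k ∈ Finset.range (h.totalDegree + 1), χ ‖x‖ * ev (hk k) x := by
    funext x
    rw [← Finset.mul_sum, ← Sph.ev_sum, ← hsum]; rfl
  have hQ : ∀ x, Lim.Q (coefF s θ P) (Ff p u) (fun x => χ ‖x‖ * Lim.pe h x) x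
      = ∑ k ∈ Finset.range (h.totalDegree + 1),
        Lim.Q (coefF s θ P) (Ff p u) (fun x => χ ‖x‖ * ev (hk k) x) x := by
    intro x
    rw [hpe]
    unfold Lim.Q
    have h1 : ∀ i, pderiv i (fun x => ∑ k ∈ Finset.range (h.totalDegree + 1), χ ‖x‖ * ev (hk k) x) x
        = ∑ k ∈ Finset.range (h.totalDegree + 1), pderiv i (fun x => χ ‖x‖ * ev (hk k) x) x := by
      intro i
      unfold pderiv
      rw [fderiv_fun_sum fun k _ => ((hg (hk k)).differentiable (by norm_num)) x]
      simp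
    simp only [h1, Finset.mul_sum]
    have h2 : ∀ i : Fin (m + 3), ∑ l : Fin (m + 3), ∑ k ∈ Finset.range (h.totalDegree + 1),
        coefF s θ P x i l * pderiv l (Ff p u) x * pderiv i (fun x => χ ‖x‖ * ev (hk k) x) x
        = ∑ k ∈ Finset.range (h.totalDegree + 1), ∑ l : Fin (m + 3),
        coefF s θ P x i l * pderiv l (Ff p u) x * pderiv i (fun x => χ ‖x‖ * ev (hk k) x) x :=
      fun i => Finset.sum_comm
    simp only [h2]
    rw [Finset.sum_comm]
  rw [integral_congr_ae (Eventually.of_forall hQ), integral_finsetSum _ fun k _ => hI _]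
  refine Finset.sum_eq_zero fun k hk' => ?_
  refine w1_homog d hR hF hχ hχc hχs (h.homogeneousComponent_isHomogeneous k) ?_
  refine le_trans ?_ ((Finset.mem_range_succ_iff.1 hk').trans hD)
  exact (h.homogeneousComponent_isHomogeneous k).totalDegree_le

end Crest.Agent.R202.Bri
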