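import Crest.Agent.R202.BriD
import Crest.Agent.R202.GalODE

/-!
Row 202, BRIDGE (helper778): the Galerkin function is a harmonic polynomial near the origin;
`C¹` regularity; weak equation against test functions supported near the origin.
-/

set_option autoImplicit false

open scoped ContDiff RealInnerProductSpace
open Set Filter Topology MeasureTheory Metric
open Crest.GeometryTopology.CoordMetric
open Crest.Agent.R202.Sph (ev ip qb QB SecForm)
open Crest.Agent.R202.Geo (Fam coefF Afam outer sigOf fixA)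

namespace Crest.Agent.R202.Bri

variable {n m N D : ℕ} {s θ : ℝ → ℝ} {P : ℝ → ℝ → ℂ → ℝ} {t0 X0 X1 : ℝ}
  {p : Fin N → MvPolynomial (Fin (m + 3)) ℝ} {l : Fin N → ℕ}
  {C : Gal.Coef (EuclideanSpace ℝ (Fin N))} {u v : ℝ → EuclideanSpace ℝ (Fin N)}

theorem QB_congr {B B' : EuclideanSpace ℝ (Fin n) → Matrix (Fin n) (Fin n) ℝ}
    (h : ∀ z, ‖z‖ = 1 → B z = B' z) (p q : MvPolynomial (Fin n) ℝ) : QB B p q = QB B' p q := by
  unfold QB
  refine integral_congr_ae (Eventually.of_forall fun z => ?_)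
  show qb B p q z = qb B' p q z
  unfold qb
  rw [h z (by simp)]

theorem Bt_init (h : Fam s θ P t0 X0 X1) {t : ℝ} (ht : t ≤ t0)
    {z : EuclideanSpace ℝ (Fin (m + 3))} (hz : ‖z‖ = 1) : Bt θ P t z = 1 - outer z := by
  unfold Bt
  have hx : Real.exp t • z ≠ 0 := polar_ne (Real.exp_pos t) hz
  have hn : ‖Real.exp t • z‖ = Real.exp t := norm_polar (Real.exp_pos t) hz
  rw [h.Afam_init hx (by rw [hn, Real.log_exp]; exact ht)]
  simp

theorem K_init (d : BData m s θ P t0 X0 X1 p l D C) {t : ℝ} (ht : t ≤ t0)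
    (x : EuclideanSpace ℝ (Fin N)) : C.K t x = C.K t0 x := by
  ext i
  rw [d.K_eq, d.K_eq, d.fam.s_init t ht, d.fam.s_init t0 le_rfl]
  congr 1
  refine Finset.sum_congr rfl fun j _ => ?_
  rw [QB_congr (B' := fun z => 1 - outer z) fun z hz => Bt_init d.fam ht hz,
    QB_congr (B := Bt θ P t0) (B' := fun z => 1 - outer z) fun z hz => Bt_init d.fam le_rfl hz]

theorem b_init (d : BData m s θ P t0 X0 X1 p l D C) {t : ℝ} (ht : t ≤ t0) : C.b t = (m : ℝ) + 1 := by
  have h1 : Iio t0 ⊆ {t | C.b t = (m : ℝ) + 1} := by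
    intro t ht
    have h2 : s =ᶠ[𝓝 t] fun _ => 0 := by
      filter_upwards [Iio_mem_nhds ht] with y hy
      exact d.fam.s_init y (le_of_lt hy)
    show C.b t = (m : ℝ) + 1
    rw [d.b_eq, h2.deriv_eq, deriv_const]; ring
  have h2 : IsClosed {t | C.b t = (m : ℝ) + 1} := isClosed_eq C.continuous_b continuous_const
  have h3 : closure (Iio t0) ⊆ {t | C.b t = (m : ℝ) + 1} := closure_minimal h1 h2
  rw [closure_Iio] at h3
  exact h3 ht

theorem K_init' (d : BData m s θ P t0 X0 X1 p l D C) {t : ℝ} (ht : t ≤ t0)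
    (x : EuclideanSpace ℝ (Fin N)) (i : Fin N) :
    C.K t x i = ((l i : ℝ) ^ 2 + ((m : ℝ) + 1) * l i) * x i := by
  rw [K_init d ht, ← d.t0_eq, ← C.L0_sq]
  have h1 : C.b C.t0 = (m : ℝ) + 1 := b_init d d.t0_eq.le
  simp only [PiLp.add_apply, PiLp.smul_apply, smul_eq_mul, d.L_eq, h1]
  ring

theorem const_left {f : ℝ → ℝ} {t0 : ℝ} (hf : Continuous f)
    (hd : ∀ t < t0, HasDerivAt f 0 t) {t : ℝ} (ht : t ≤ t0) : f t = f t0 := by
  have h1 := constant_of_has_deriv_right_zero (f := f) (a := t) (b := t0) hf.continuousOn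
    (fun x hx => (hd x hx.2).hasDerivWithinAt)
  exact (h1 t0 ⟨ht, le_rfl⟩).symm

theorem v_init (d : BData m s θ P t0 X0 X1 p l D C) (hR : Gal.Reg C u v) {t : ℝ} (ht : t ≤ t0)
    (i : Fin N) : v t i = l i * u t i := by
  set b0 : ℝ := (m : ℝ) + 1 with hb0
  set a : ℝ := (l i : ℝ) + b0 with ha
  have hu : ∀ t, HasDerivAt (fun t => u t i) (v t i) t := fun t => hasDerivAt_coord (hR.du t) i
  have hv : ∀ t, HasDerivAt (fun t => v t i) ((C.K t (u t) - C.b t • v t) i) t := fun t =>
    hasDerivAt_coord (hR.dv t) i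
  have he : ∀ t, HasDerivAt (fun t => Real.exp (a * t)) (Real.exp (a * t) * a) t := by
    intro t
    have := ((hasDerivAt_id t).const_mul a).exp
    simpa using this
  have hg : ∀ t, HasDerivAt (fun t => (v t i - l i * u t i) * Real.exp (a * t))
      (((C.K t (u t) - C.b t • v t) i - l i * v t i) * Real.exp (a * t) +
        (v t i - l i * u t i) * (Real.exp (a * t) * a)) t := fun t =>
    ((hv t).sub ((hu t).const_mul _)).mul (he t)
  have h1 := const_left (f := fun t => (v t i - l i * u t i) * Real.exp (a * t)) (t0 := t0)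
    (continuous_iff_continuousAt.2 fun t => (hg t).continuousAt) (fun t ht => by
      refine (hg t).congr_deriv ?_
      simp only [PiLp.sub_apply, PiLp.smul_apply, smul_eq_mul]
      rw [K_init' d ht.le, b_init d ht.le, ha, hb0]
      ring) ht
  have h2 : v t0 i = l i * u t0 i := by
    have := hR.init
    rw [d.t0_eq] at this
    rw [this, d.L_eq]
  dsimp only at h1
  rw [h2, sub_self, zero_mul] at h1
  rcases mul_eq_zero.1 h1 with h3 | h3
  · linarith
  · exact absurd h3 (Real.exp_ne_zero _)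

theorem u_init (d : BData m s θ P t0 X0 X1 p l D C) (hR : Gal.Reg C u v) {t : ℝ} (ht : t ≤ t0)
    (i : Fin N) : u t i = (u t0 i * Real.exp (-(l i : ℝ) * t0)) * Real.exp (l i * t) := by
  have hu : ∀ t, HasDerivAt (fun t => u t i) (v t i) t := fun t => hasDerivAt_coord (hR.du t) i
  have he : ∀ t, HasDerivAt (fun t => Real.exp (-(l i : ℝ) * t)) (Real.exp (-(l i : ℝ) * t) *
      (-(l i : ℝ))) t := by
    intro t
    have := ((hasDerivAt_id t).const_mul (-(l i : ℝ))).exp
    simpa using this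
  have h1 := const_left (f := fun t => u t i * Real.exp (-(l i : ℝ) * t)) (t0 := t0)
    (continuous_iff_continuousAt.2 fun t => ((hu t).mul (he t)).continuousAt) (fun t ht => by
      refine ((hu t).mul (he t)).congr_deriv ?_
      rw [v_init d hR ht.le]
      ring) ht
  dsimp only at h1
  rw [← h1, mul_assoc, ← Real.exp_add]
  have : -(l i : ℝ) * t + l i * t = 0 := by ring
  rw [this, Real.exp_zero, mul_one]

theorem ev_zero_of_pos {q : MvPolynomial (Fin n) ℝ} {k : ℕ} (hq : q.IsHomogeneous k) (hk : 1 ≤ k) :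
    ev q 0 = 0 := by
  have := Sph.ev_smul_arg hq 0 (0 : EuclideanSpace ℝ (Fin n))
  rwa [smul_zero, zero_pow (by omega), zero_mul] at this

/-- the polynomial near the origin -/
noncomputable def poly0 (p : Fin N → MvPolynomial (Fin n) ℝ) (l : Fin N → ℕ) (t0 : ℝ)
    (c : EuclideanSpace ℝ (Fin N)) : MvPolynomial (Fin n) ℝ :=
  ∑ i, (c i * Real.exp (-(l i : ℝ) * t0)) • p i

theorem Ff_near_zero (d : BData m s θ P t0 X0 X1 p l D C) (hR : Gal.Reg C u v)
    {x : EuclideanSpace ℝ (Fin (m + 3))} (hx : ‖x‖ ≤ Real.exp t0) :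
    Ff p u x = ev (poly0 p l t0 (u t0)) x := by
  unfold poly0
  rw [Sph.ev_sum, Ff_eq]
  refine Finset.sum_congr rfl fun i _ => ?_
  rw [Sph.ev_smul]
  by_cases h0 : x = 0
  · subst h0
    rw [ev_zero_of_pos (d.homog i) (d.l_pos i)]
    unfold hr
    rw [smul_zero, ev_zero_of_pos (d.homog i) (d.l_pos i)]
    simp
  · have hn : 0 < ‖x‖ := norm_pos_iff.2 h0
    have ht : Real.log ‖x‖ ≤ t0 := by
      rw [← Real.log_exp t0]; exact Real.log_le_log hn hx
    rw [hr_eq _ (d.homog i) h0, u_init d hR ht i, mul_assoc (u t0 i * _), ← Real.exp_add]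
    have : (l i : ℝ) * Real.log ‖x‖ + -(l i : ℝ) * Real.log ‖x‖ = 0 := by ring
    rw [this, Real.exp_zero, mul_one]

theorem contDiff_coord (hR : Gal.Reg C u v) (i : Fin N) : ContDiff ℝ 1 fun t => u t i := by
  rw [contDiff_one_iff_deriv]
  have h1 : ∀ t, HasDerivAt (fun t => u t i) (v t i) t := fun t => hasDerivAt_coord (hR.du t) i
  refine ⟨fun t => (h1 t).differentiableAt, ?_⟩
  have h2 : deriv (fun t => u t i) = fun t => v t i := funext fun t => (h1 t).deriv
  rw [h2]
  exact continuous_iff_continuousAt.2 fun t => (hasDerivAt_coord (hR.dv t) i).continuousAt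

/-- **(reg)** -/
theorem reg (d : BData m s θ P t0 X0 X1 p l D C) (hR : Gal.Reg C u v) :
    ContDiff ℝ 1 (Ff p u) := by
  rw [contDiff_iff_contDiffAt]
  intro x
  by_cases hx : x = 0
  · subst hx
    have h1 : Ff p u =ᶠ[𝓝 0] ev (poly0 p l t0 (u t0)) := by
      filter_upwards [ball_mem_nhds (0 : EuclideanSpace ℝ (Fin (m + 3))) (Real.exp_pos t0)]
        with y hy
      exact Ff_near_zero d hR (by simpa using (mem_ball_zero_iff.1 hy).le)
    exact (Sph.contDiff_ev _).contDiffAt.congr_of_eventuallyEq h1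
  · have h1 : ContDiffOn ℝ 1 (Ff p u) ({0}ᶜ : Set (EuclideanSpace ℝ (Fin (m + 3)))) := by
      have : Ff p u = fun x => ∑ j, hr (fun t => u t j) (p j) x := by funext x; rfl
      rw [this]
      exact ContDiffOn.sum fun i _ => contDiffOn_hr (k := 1) (contDiff_coord hR i) (p i)
    exact h1.contDiffAt (isOpen_compl_singleton.mem_nhds hx)

theorem coefF_one (h : Fam s θ P t0 X0 X1) {x : EuclideanSpace ℝ (Fin (m + 3))}
    (hx : ‖x‖ ≤ Real.exp t0) : coefF s θ P x = 1 := by
  by_cases h0 : x = 0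
  · subst h0; exact h.coefF_zero
  · have hn : 0 < ‖x‖ := norm_pos_iff.2 h0
    have ht : Real.log ‖x‖ ≤ t0 := by
      rw [← Real.log_exp t0]; exact Real.log_le_log hn hx
    have hs : sigOf s x = 0 := by simp [sigOf, h0, h.s_init _ ht]
    have hf : fixA (Afam θ P) x = 1 := by simp [fixA, h0, h.Afam_init h0 ht]
    unfold coefF Geo.coefR Geo.gRInv
    rw [hs, hf]
    simp

/-- Green's formula for a harmonic polynomial -/
theorem green_poly {G : MvPolynomial (Fin n) ℝ} (hG : Sph.lap n G = 0)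
    {φ : EuclideanSpace ℝ (Fin n) → ℝ} (hφ : ContDiff ℝ 1 φ) (hφc : HasCompactSupport φ) :
    ∫ x, ∑ i, ev (MvPolynomial.pderiv i G) x * pderiv i φ x = 0 := by
  have hC : ∀ i, ContDiff ℝ 1 fun x => ev (MvPolynomial.pderiv i G) x * φ x := fun i =>
    (Sph.contDiff_ev _).mul hφ
  have hcs : ∀ i, HasCompactSupport fun x => ev (MvPolynomial.pderiv i G) x * φ x := fun i =>
    hφc.mul_left
  have h0 : ∀ i, ∫ x, fderiv ℝ (fun x => ev (MvPolynomial.pderiv i G) x * φ x) x
      (EuclideanSpace.single i 1) = 0 := fun i => SphDiv.integral_fderiv_zero (hC i) (hcs i) _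
  have hI : ∀ i ∈ (Finset.univ : Finset (Fin n)), Integrable fun x =>
      fderiv ℝ (fun x => ev (MvPolynomial.pderiv i G) x * φ x) x (EuclideanSpace.single i 1) := by
    intro i _
    refine Continuous.integrable_of_hasCompactSupport ?_ ?_
    · exact ((hC i).continuous_fderiv one_ne_zero).clm_apply continuous_const
    · exact ((hcs i).fderiv (𝕜 := ℝ)).comp_left
        (g := fun L : EuclideanSpace ℝ (Fin n) →L[ℝ] ℝ => L (EuclideanSpace.single i 1)) rfl
  have h1 : ∀ x, ∑ i, ev (MvPolynomial.pderiv i G) x * pderiv i φ x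
      = ∑ i, fderiv ℝ (fun x => ev (MvPolynomial.pderiv i G) x * φ x) x
        (EuclideanSpace.single i 1) := by
    intro x
    have h2 : ∀ i, fderiv ℝ (fun x => ev (MvPolynomial.pderiv i G) x * φ x) x
        (EuclideanSpace.single i 1) = ev (MvPolynomial.pderiv i (MvPolynomial.pderiv i G)) x * φ x +
        ev (MvPolynomial.pderiv i G) x * pderiv i φ x := by
      intro i
      rw [fderiv_fun_mul (Sph.differentiable_ev _ x) ((hφ.differentiable one_ne_zero) x)]
      have h3 := Sph.pderiv_ev (MvPolynomial.pderiv i G) i x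
      unfold pderiv at h3 ⊢
      simp only [add_apply, smul_apply, smul_eq_mul, h3]
      ring
    rw [Finset.sum_congr rfl fun i _ => h2 i, Finset.sum_add_distrib, ← Finset.sum_mul,
      ← Sph.ev_sum, ← Sph.lap_apply, hG]
    simp
  rw [integral_congr_ae (Eventually.of_forall h1), integral_finsetSum _ hI]
  exact Finset.sum_eq_zero fun i _ => h0 i

/-- **(w0)** -/
theorem w0 (d : BData m s θ P t0 X0 X1 p l D C) (hR : Gal.Reg C u v)
    {φ : EuclideanSpace ℝ (Fin (m + 3)) → ℝ} (hφ : ContDiff ℝ ∞ φ) (hφc : HasCompactSupport φ)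
    (hφs : tsupport φ ⊆ ball 0 (Real.exp t0)) :
    ∫ x, Lim.Q (coefF s θ P) (Ff p u) φ x = 0 := by
  set G := poly0 p l t0 (u t0) with hG
  have hlap : Sph.lap (m + 3) G = 0 := by
    rw [hG]; unfold poly0
    rw [map_sum]
    refine Finset.sum_eq_zero fun i _ => ?_
    rw [map_smul, d.harm i, smul_zero]
  rw [← green_poly hlap (hφ.of_le (by norm_cast)) hφc]
  refine integral_congr_ae (Eventually.of_forall fun x => ?_)
  dsimp only
  by_cases hx : x ∈ tsupport φ
  · have hb := hφs hx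
    have hle : ‖x‖ ≤ Real.exp t0 := (mem_ball_zero_iff.1 hb).le
    have h1 : Ff p u =ᶠ[𝓝 x] ev G := by
      filter_upwards [isOpen_ball.mem_nhds hb] with y hy
      exact Ff_near_zero d hR (mem_ball_zero_iff.1 hy).le
    unfold Lim.Q
    rw [coefF_one d.fam hle]
    refine Finset.sum_congr rfl fun i _ => ?_
    have h2 : ∀ j, pderiv j (Ff p u) x = ev (MvPolynomial.pderiv j G) x := by
      intro j
      have := Sph.pderiv_ev G j x
      rw [← this]
      unfold pderiv; rw [h1.fderiv_eq]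
    simp only [h2, Matrix.one_apply, ite_mul, one_mul, zero_mul, Finset.sum_ite_eq,
      Finset.mem_univ, if_true]
  · rw [Lim.Q_eq_zero_of_notMem hx]
    symm
    refine Finset.sum_eq_zero fun i _ => ?_
    rw [Lim.pderiv_eq_zero_of_notMem hx i, mul_zero]

end Crest.Agent.R202.Bri
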