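import Crest.Agent.R202.BriE
import Crest.Agent.R202.SecAfam

/-!
Row 202, BRIDGE (helper778): energy slice (S1); the cross-section on the unit sphere; `SecForm`.
-/

set_option autoImplicit false

open scoped ContDiff RealInnerProductSpace
open Set Filter Topology MeasureTheory Metric
open Crest.GeometryTopology.CoordMetric
open Crest.Agent.R202.Sph (ev ip qb QB SecForm)
open Crest.Agent.R202.Geo (Fam coefF Afam outer sigOf fixA rho sig XX uu nu e1 e2 TT WW)

namespace Crest.Agent.R202.Bri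

variable {n m N D : ℕ} {s θ : ℝ → ℝ} {P : ℝ → ℝ → ℂ → ℝ} {t0 X0 X1 : ℝ}
  {p : Fin N → MvPolynomial (Fin (m + 3)) ℝ} {l : Fin N → ℕ}
  {C : Gal.Coef (EuclideanSpace ℝ (Fin N))} {u v : ℝ → EuclideanSpace ℝ (Fin N)}

/-! ### (S1) -/

theorem slice_energy (d : BData m s θ P t0 X0 X1 p l D C)
    (ho : ∀ i j, ip (p i) (p j) = if i = j then 1 else 0) {u : ℝ → EuclideanSpace ℝ (Fin N)}
    {v : EuclideanSpace ℝ (Fin N)} {r : ℝ} (hr0 : 0 < r) (hu : HasDerivAt u v (Real.log r)) :
    ∫ z : SphDiv.Sph (m + 3), Lim.Q (coefF s θ P) (Ff p u) (Ff p u)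
      (r • (z : EuclideanSpace ℝ (Fin (m + 3)))) ∂(SphDiv.sig (m + 3))
      = Real.exp (-((m : ℝ) + 2) * s (Real.log r)) * r⁻¹ ^ 2 *
        (‖v‖ ^ 2 + ⟪C.K (Real.log r) (u (Real.log r)), u (Real.log r)⟫) := by
  set B := Bt (m := m) θ P (Real.log r) with hBdef
  have hB : SecForm B := d.secB _
  set e := Real.exp (2 * s (Real.log r)) with he
  set c := Real.exp (-((m : ℝ) + 2) * s (Real.log r)) with hc
  set w := u (Real.log r) with hw
  have hpt : ∀ z : SphDiv.Sph (m + 3), Lim.Q (coefF s θ P) (Ff p u) (Ff p u)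
      (r • (z : EuclideanSpace ℝ (Fin (m + 3)))) = ∑ i, ∑ j, (c * r⁻¹ ^ 2 * v i * v j *
        (ev (p i) z * ev (p j) z) + c * r⁻¹ ^ 2 * e * w i * w j * qb B (p i) (p j) z) := by
    intro z
    have hz : ‖(z : EuclideanSpace ℝ (Fin (m + 3)))‖ = 1 := by simp
    have hBs : ∀ i j, B z i j = B z j i := hB.symm z z.2
    have hBt : ∀ i, ∑ j, B z i j * (z : EuclideanSpace ℝ (Fin (m + 3))) j = 0 := hB.tang z z.2
    have w1 : ∑ i, (∑ j, w j * tg (p j) (l j) z i) *
        (z : EuclideanSpace ℝ (Fin (m + 3))) i = 0 := by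
      simp only [Finset.sum_mul]
      rw [Finset.sum_comm]
      refine Finset.sum_eq_zero fun j _ => ?_
      have : ∀ i, w j * tg (p j) (l j) z i * (z : EuclideanSpace ℝ (Fin (m + 3))) i
          = w j * (tg (p j) (l j) z i * (z : EuclideanSpace ℝ (Fin (m + 3))) i) :=
        fun i => by ring
      rw [Finset.sum_congr rfl fun i _ => this i, ← Finset.mul_sum, tg_tang (d.homog j) hz, mul_zero]
    rw [Q_hr (s := s) hr0 hz hBs hBt (fun i => pderiv_Ff d.homog hr0 hz hu i) w1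
      (fun i => pderiv_Ff d.homog hr0 hz hu i) w1]
    have h3 : ∑ a, ∑ b, B z a b * (∑ j, w j * tg (p j) (l j) z b) *
        (∑ i, w i * tg (p i) (l i) z a) = ∑ i, ∑ j, w i * w j * qb B (p i) (p j) z := by
      have h4 : ∀ a b, B z a b * (∑ j, w j * tg (p j) (l j) z b) *
          (∑ i, w i * tg (p i) (l i) z a) = ∑ j, ∑ i, w j * w i *
            (B z a b * tg (p j) (l j) z b * tg (p i) (l i) z a) := by
        intro a b
        rw [mul_assoc, Finset.sum_mul_sum, Finset.mul_sum]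
        refine Finset.sum_congr rfl fun j _ => ?_
        rw [Finset.mul_sum]
        exact Finset.sum_congr rfl fun i _ => by ring
      simp only [h4]
      have h5 : ∀ a, ∑ b, ∑ j, ∑ i, w j * w i *
            (B z a b * tg (p j) (l j) z b * tg (p i) (l i) z a)
          = ∑ j, ∑ i, ∑ b, w j * w i *
            (B z a b * tg (p j) (l j) z b * tg (p i) (l i) z a) := by
        intro a
        rw [Finset.sum_comm]
        exact Finset.sum_congr rfl fun j _ => Finset.sum_comm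
      simp only [h5]
      rw [Finset.sum_comm]
      refine Finset.sum_congr rfl fun j _ => ?_
      rw [Finset.sum_comm]
      refine Finset.sum_congr rfl fun i _ => ?_
      simp only [← Finset.mul_sum]
      rw [sum_tg hBs hBt (p j) (p i) (l j) (l i)]
      rfl
    have h6 : (∑ j, v j * ev (p j) z) * (∑ j, v j * ev (p j) z)
        = ∑ i, ∑ j, v i * v j * (ev (p i) z * ev (p j) z) := by
      rw [Finset.sum_mul_sum]
      exact Finset.sum_congr rfl fun i _ => Finset.sum_congr rfl fun j _ => by ring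
    rw [← hw, h3, h6]
    simp only [Finset.mul_sum, mul_add, ← Finset.sum_add_distrib]
    exact Finset.sum_congr rfl fun i _ => Finset.sum_congr rfl fun j _ => by ring
  have hi0 : ∀ i j, Integrable (fun z : SphDiv.Sph (m + 3) =>
      c * r⁻¹ ^ 2 * v i * v j * (ev (p i) z * ev (p j) z) +
        c * r⁻¹ ^ 2 * e * w i * w j * qb B (p i) (p j) z) (SphDiv.sig (m + 3)) := fun i j =>
    ((integrable_ev2 (p i) (p j)).const_mul _).add ((integrable_qb hB (p i) (p j)).const_mul _)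
  have hi1 : ∀ i ∈ (Finset.univ : Finset (Fin N)), Integrable (fun z : SphDiv.Sph (m + 3) =>
      ∑ j, (c * r⁻¹ ^ 2 * v i * v j * (ev (p i) z * ev (p j) z) +
        c * r⁻¹ ^ 2 * e * w i * w j * qb B (p i) (p j) z)) (SphDiv.sig (m + 3)) := fun i _ =>
    integrable_finsetSum _ fun j _ => hi0 i j
  rw [integral_congr_ae (Eventually.of_forall hpt), integral_finsetSum _ hi1]
  have hint : ∀ i j, ∫ z : SphDiv.Sph (m + 3), (c * r⁻¹ ^ 2 * v i * v j *
        (ev (p i) z * ev (p j) z) + c * r⁻¹ ^ 2 * e * w i * w j * qb B (p i) (p j) z)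
          ∂(SphDiv.sig (m + 3)) = c * r⁻¹ ^ 2 * v i * v j * (if i = j then 1 else 0) +
          c * r⁻¹ ^ 2 * e * w i * w j * QB B (p i) (p j) := by
    intro i j
    rw [integral_add ((integrable_ev2 (p i) (p j)).const_mul _)
      ((integrable_qb hB (p i) (p j)).const_mul _), integral_const_mul, integral_const_mul,
      ← ho i j]
    congr 2
    unfold ip Sph.sph
    refine integral_congr_ae (Eventually.of_forall fun z => ?_)
    show ev (p i) z * ev (p j) z = ev (p i * p j) z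
    rw [Sph.ev_mul]
  have hint2 : ∀ i, ∫ z : SphDiv.Sph (m + 3), ∑ j, (c * r⁻¹ ^ 2 * v i * v j *
        (ev (p i) z * ev (p j) z) + c * r⁻¹ ^ 2 * e * w i * w j * qb B (p i) (p j) z)
          ∂(SphDiv.sig (m + 3)) = ∑ j, (c * r⁻¹ ^ 2 * v i * v j * (if i = j then 1 else 0) +
          c * r⁻¹ ^ 2 * e * w i * w j * QB B (p i) (p j)) := by
    intro i
    rw [integral_finsetSum _ fun j _ => hi0 i j]
    exact Finset.sum_congr rfl fun j _ => hint i j
  rw [Finset.sum_congr rfl fun i _ => hint2 i]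
  have hn : ‖v‖ ^ 2 = ∑ i, v i * v i := by
    rw [EuclideanSpace.real_norm_sq_eq]; exact Finset.sum_congr rfl fun i _ => sq _
  have hK : ⟪C.K (Real.log r) w, w⟫ = ∑ i, ∑ j, e * (w i * w j * QB B (p i) (p j)) := by
    rw [PiLp.inner_apply]
    refine Finset.sum_congr rfl fun i _ => ?_
    rw [d.K_eq, RCLike.inner_apply, conj_trivial, Finset.mul_sum, Finset.mul_sum]
    exact Finset.sum_congr rfl fun j _ => by ring
  rw [hn, hK]
  simp only [Finset.sum_add_distrib, mul_ite, mul_one, mul_zero, Finset.sum_ite_eq,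
    Finset.mem_univ, if_true, mul_add, Finset.mul_sum]
  congr 1
  · exact Finset.sum_congr rfl fun i _ => by ring
  · exact Finset.sum_congr rfl fun i _ => Finset.sum_congr rfl fun j _ => by ring

theorem wt_eq (d : BData m s θ P 0 X0 X1 p l D C) (t : ℝ) :
    C.wt t = Real.exp (((m : ℝ) + 1) * t - ((m : ℝ) + 2) * s t) := by
  set q : ℝ → ℝ := fun t => Real.exp (((m : ℝ) + 1) * t - ((m : ℝ) + 2) * s t) with hq
  have hq0 : q 0 = 1 := by simp only [hq]; rw [d.fam.s_init 0 le_rfl]; simp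
  have h1 : ∀ t, HasDerivAt (fun t => C.wt t * (q t)⁻¹) 0 t := by
    intro t
    have h2 := (hasDerivAt_w d t).inv (Real.exp_ne_zero _)
    have h3 := (C.hasDerivAt_wt t).mul h2
    refine h3.congr_deriv ?_
    have := Real.exp_pos (((m : ℝ) + 1) * t - ((m : ℝ) + 2) * s t)
    simp only [Pi.inv_apply]
    field_simp
    ring
  have h2 : C.wt t * (q t)⁻¹ = C.wt 0 * (q 0)⁻¹ :=
    is_const_of_deriv_eq_zero (fun t => (h1 t).differentiableAt) (fun t => (h1 t).deriv) t 0
  have h3 : C.wt 0 = 1 := by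
    have := C.wt_t0
    rwa [d.t0_eq] at this
  rw [h3, hq0, inv_one, mul_one] at h2
  have h4 : q t ≠ 0 := Real.exp_ne_zero _
  field_simp at h2
  exact h2

/-- **(S1)** in helper684's form -/
theorem S1 (d : BData m s θ P 0 X0 X1 p l D C)
    (ho : ∀ i j, ip (p i) (p j) = if i = j then 1 else 0) (hR : Gal.Reg C u v) (r : ℝ)
    (hr0 : 0 < r) :
    r ^ (m + 3 - 1) * ∫ z : SphDiv.Sph (m + 3), Lim.Q (coefF s θ P) (Ff p u) (Ff p u)
      (r • (z : EuclideanSpace ℝ (Fin (m + 3)))) ∂(SphDiv.sig (m + 3))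
      = r⁻¹ * (C.wt (Real.log r) * (‖v (Real.log r)‖ ^ 2 +
        ⟪C.K (Real.log r) (u (Real.log r)), u (Real.log r)⟫)) := by
  rw [slice_energy d ho hr0 (hR.du _), wt_eq d]
  have h2 : Real.exp (((m : ℝ) + 1) * Real.log r - ((m : ℝ) + 2) * s (Real.log r))
      = r ^ (m + 1) * Real.exp (-((m : ℝ) + 2) * s (Real.log r)) := by
    rw [sub_eq_add_neg, Real.exp_add]
    congr 1
    · have := Real.exp_nat_mul (Real.log r) (m + 1)
      rw [Real.exp_log hr0] at this
      rw [← this]; push_cast; rfl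
    · congr 1; ring
  rw [h2]
  have h3 : m + 3 - 1 = m + 2 := by omega
  rw [h3]
  field_simp
  ring

/-! ### the cross-section on the unit sphere -/

theorem rho_smul' {c : ℝ} (hc : 0 < c) (x : EuclideanSpace ℝ (Fin (m + 3))) :
    rho (c • x) = c * rho x := by
  unfold rho
  rw [← Real.sqrt_sq hc.le, ← Real.sqrt_mul (sq_nonneg c), Real.sqrt_sq hc.le]
  congr 1
  simp only [PiLp.smul_apply, smul_eq_mul]; ring

theorem sig_smul' {c : ℝ} (hc : 0 < c) (x : EuclideanSpace ℝ (Fin (m + 3))) :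
    sig (c • x) = c * sig x := by
  unfold sig
  rw [← Real.sqrt_sq hc.le, ← Real.sqrt_mul (sq_nonneg c), Real.sqrt_sq hc.le]
  congr 1
  rw [Finset.mul_sum]
  exact Finset.sum_congr rfl fun i _ => by simp only [PiLp.smul_apply, smul_eq_mul]; ring

theorem norm_smul' {c : ℝ} (hc : 0 < c) (x : EuclideanSpace ℝ (Fin (m + 3))) :
    ‖c • x‖ = c * ‖x‖ := by rw [norm_smul, Real.norm_eq_abs, abs_of_pos hc]

theorem Afam_polar (θ : ℝ → ℝ) (P : ℝ → ℝ → ℂ → ℝ) (t : ℝ) {z : EuclideanSpace ℝ (Fin (m + 3))}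
    (hz : ‖z‖ = 1) : Afam θ P (Real.exp t • z) = Afam (fun _ => θ t) (fun _ => P t) z := by
  set c := Real.exp t with hc
  have hc0 : 0 < c := Real.exp_pos t
  have hcn : c ≠ 0 := hc0.ne'
  have hn : Real.log ‖c • z‖ = t := by rw [norm_smul' hc0, hz, mul_one, hc, Real.log_exp]
  have hnu : nu (c • z) = nu z := by
    unfold nu
    rw [norm_smul' hc0, smul_smul]
    congr 1
    rw [hz]; field_simp
  have hxx : XX (c • z) = XX z := by
    unfold XX
    rw [norm_smul' hc0, sig_smul' hc0, mul_div_mul_left _ _ hcn]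
  have hrho : rho (c • z) = c * rho z := rho_smul' hc0 z
  have hsig : sig (c • z) = c * sig z := sig_smul' hc0 z
  have huu : uu (c • z) = uu z := by
    unfold uu
    rw [hrho]
    simp only [PiLp.smul_apply, smul_eq_mul]
    push_cast
    have : (c : ℂ) ≠ 0 := by exact_mod_cast hcn
    rw [show (c : ℂ) * (z 0 : ℂ) + (c : ℂ) * (z 1 : ℂ) * Complex.I
      = (c : ℂ) * ((z 0 : ℂ) + (z 1 : ℂ) * Complex.I) by ring, mul_div_mul_left _ _ this]
  have he2 : e2 (c • z) = e2 z := by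
    unfold e2
    rw [hrho]
    simp only [PiLp.smul_apply, smul_eq_mul]
    rw [show -(c * z 1) = c * (-(z 1)) by ring, mul_div_mul_left _ _ hcn,
      mul_div_mul_left _ _ hcn]
  have he1 : e1 (c • z) = e1 z := by
    unfold e1
    rw [hrho, hsig, norm_smul' hc0]
    simp only [PiLp.smul_apply, smul_eq_mul]
    simp only [mul_div_mul_left _ _ hcn]
  have hWW : WW (c • z) = WW z := by
    funext i j
    unfold WW
    rw [hsig]
    simp only [PiLp.smul_apply, smul_eq_mul]
    have : c * z i * (c * z j) / (c * sig z) ^ 2 = z i * z j / sig z ^ 2 := by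
      rw [show c * z i * (c * z j) = c ^ 2 * (z i * z j) by ring, mul_pow,
        mul_div_mul_left _ _ (pow_ne_zero 2 hcn)]
    rw [this]
  have hTT : TT (c • z) = TT z := by unfold TT; rw [hnu, hWW]
  have hrz : rho (c • z) = 0 ↔ rho z = 0 := by
    rw [hrho, mul_eq_zero]; exact or_iff_right hcn
  unfold Afam
  simp only [hn, hnu, hxx, huu, he1, he2, hTT, hrz]

theorem Bt_eq (θ : ℝ → ℝ) (P : ℝ → ℝ → ℂ → ℝ) (t : ℝ) {z : EuclideanSpace ℝ (Fin (m + 3))}
    (hz : ‖z‖ = 1) :
    Bt θ P t z = (Afam (fun _ => θ t) (fun _ => P t) z)⁻¹ - outer z := by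
  unfold Bt
  rw [Afam_polar θ P t hz]

theorem SecForm_congr {B B' : EuclideanSpace ℝ (Fin (m + 3)) → Matrix (Fin (m + 3)) (Fin (m + 3)) ℝ}
    (h : ∀ z, ‖z‖ = 1 → B z = B' z) (hB : SecForm B) : SecForm B' := by
  have h' : ∀ z ∈ sphere (0 : EuclideanSpace ℝ (Fin (m + 3))) 1, B z = B' z := fun z hz =>
    h z (mem_sphere_zero_iff_norm.1 hz)
  refine ⟨fun i j => ?_, fun z hz i j => ?_, fun z hz i => ?_, ?_⟩
  · refine (hB.cont i j).congr fun z hz => ?_
    show B' z i j = B z i j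
    rw [h' z hz]
  · rw [← h' z hz]; exact hB.symm z hz i j
  · rw [← h' z hz]; exact hB.tang z hz i
  · obtain ⟨c1, c2, c3, h1, h2, h3, h4⟩ := hB.repr
    refine ⟨c1, c2, c3, h1, h2, h3, fun z hz h0 hs i j => ?_⟩
    rw [← h' z hz]; exact h4 z hz h0 hs i j

theorem secForm_Bt (h : Fam s θ P t0 X0 X1)
    (heven : ∀ t X u, P t X ((starRingEnd ℂ) u) = P t X u) (t : ℝ) :
    SecForm (m := m) (Bt θ P t) := by
  have hF : Sph.Frz (θ t) (P t) :=
    { θ_pos := h.θ_pos t
      cont := h.smooth_P.continuous.comp (by fun_prop : Continuous fun q : ℝ × ℂ =>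
        ((t, q.1, q.2) : ℝ × ℝ × ℂ))
      pos := h.P_pos t
      low := ⟨X0, h.hX0, fun X u hX => h.P_low t X u hX⟩
      high := ⟨X1, h.hX1, fun X u hX => h.P_high t X u hX⟩ }
  exact SecForm_congr (fun z hz => (Bt_eq θ P t hz).symm) (Sph.secForm_SB hF (heven t))

end Crest.Agent.R202.Bri
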