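import Crest.Agent.R202.BriF
import Crest.Agent.R202.WgtFlow
import Crest.Agent.R202.SecUnif
import Crest.Agent.R202.SchGeo

/-!
Row 202, BRIDGE (helper778): `BData` for the Galerkin coefficients `coefOf` and the uniform sector
bases; evenness of the scheduled cross-sections.
-/

set_option autoImplicit false

open scoped ContDiff RealInnerProductSpace
open Set Filter Topology MeasureTheory Metric
open Crest.GeometryTopology.CoordMetric
open Crest.Agent.R202.Sph (ev ip qb QB SecForm yI vI harm sph)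
open Crest.Agent.R202.Geo (Fam coefF Afam outer)
open Crest.Agent.R202.Wgt (SBasis coefOf Kop Sop SB opM opM_apply L0op L0op_apply)

namespace Crest.Agent.R202.Bri

variable {n m N D : ℕ} {s θ : ℝ → ℝ} {P : ℝ → ℝ → ℂ → ℝ} {t0 X0 X1 : ℝ}

theorem bdata_coefOf {p0 p : Fin N → MvPolynomial (Fin (m + 3)) ℝ} {l : Fin N → ℕ}
    (hb : SBasis p0 l) (hF : Fam s θ P t0 X0 X1) (h1 : ∀ t, deriv s t ≤ 1 / 4)
    (heven : ∀ t X u, P t X ((starRingEnd ℂ) u) = P t X u)
    (homog : ∀ i, (p i).IsHomogeneous (l i)) (l_pos : ∀ i, 1 ≤ l i)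
    (hharm : ∀ i, Sph.lap (m + 3) (p i) = 0)
    (compl : ∀ h : MvPolynomial (Fin (m + 3)) ℝ, h.totalDegree ≤ D →
      ∀ B, SecForm (m := m) B → ∀ i, QB B (p i) h = ∑ j, ip (p j) h * QB B (p i) (p j))
    (hQ : ∀ B, SecForm (m := m) B → ∀ i j, QB B (p i) (p j) = QB B (p0 i) (p0 j)) :
    BData m s θ P t0 X0 X1 p l D (coefOf hb hF h1) where
  fam := hF
  homog := homog
  l_pos := l_pos
  harm := hharm
  secB := secForm_Bt hF heven
  compl := compl
  t0_eq := rfl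
  K_eq t x i := by
    show Kop p0 s θ P t x i = _
    unfold Kop Sop
    rw [smul_apply, PiLp.smul_apply, opM_apply, smul_eq_mul]
    congr 1
    refine Finset.sum_congr rfl fun j _ => ?_
    rw [hQ _ (secForm_Bt hF heven t)]
    congr 1
    exact QB_congr (fun z hz => (Bt_eq θ P t hz).symm) _ _
  b_eq t := rfl
  L_eq x i := L0op_apply l x i

/-- `BData` for the uniform sector bases: one coefficient (built with `Y0`) for all `Y`. -/
theorem bdata_unif {q : ℕ} {e : Fin N → ℕ} {V : Fin N → MvPolynomial (Fin 3) ℝ}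
    {Y0 Y : MvPolynomial (Fin (m + 1)) ℝ} (hY0 : Y0 ∈ harm (m + 1) q)
    (hY01 : sph (ev (Y0 * Y0)) = 1) (hY : Y ∈ harm (m + 1) q) (hY1 : sph (ev (Y * Y)) = 1)
    (hb : SBasis (fun i => yI m Y0 * vI m (V i)) (fun i => q + e i))
    (hF : Fam s θ P t0 X0 X1) (h1 : ∀ t, deriv s t ≤ 1 / 4)
    (heven : ∀ t X u, P t X ((starRingEnd ℂ) u) = P t X u)
    (hpos : ∀ i, 1 ≤ q + e i)
    (homog : ∀ i, (yI m Y * vI m (V i)).IsHomogeneous (q + e i))
    (hharm : ∀ i, Sph.lap (m + 3) (yI m Y * vI m (V i)) = 0)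
    (compl : ∀ B : EuclideanSpace ℝ (Fin (m + 3)) → Matrix (Fin (m + 3)) (Fin (m + 3)) ℝ,
      SecForm B → ∀ i, ∀ h : MvPolynomial (Fin (m + 3)) ℝ, h.totalDegree ≤ D →
        QB B (yI m Y * vI m (V i)) h = ∑ j, ip (yI m Y * vI m (V j)) h *
          QB B (yI m Y * vI m (V i)) (yI m Y * vI m (V j))) :
    BData m s θ P t0 X0 X1 (fun i => yI m Y * vI m (V i)) (fun i => q + e i) D
      (coefOf hb hF h1) :=
  bdata_coefOf hb hF h1 heven homog hpos hharm (fun h hD B hB i => compl B hB i h hD)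
    (fun B hB i j => Sph.QB_indep hB hY hY0 (by rw [hY1, hY01]) (V i) (V j))

theorem sbasis_unif {q : ℕ} {e : Fin N → ℕ} {V : Fin N → MvPolynomial (Fin 3) ℝ}
    {Y : MvPolynomial (Fin (m + 1)) ℝ}
    (homog : ∀ i, (yI m Y * vI m (V i)).IsHomogeneous (q + e i))
    (hharm : ∀ i, Sph.lap (m + 3) (yI m Y * vI m (V i)) = 0)
    (orth : ∀ i j, ip (yI m Y * vI m (V i)) (yI m Y * vI m (V j)) = if i = j then 1 else 0) :
    SBasis (fun i => yI m Y * vI m (V i)) (fun i => q + e i) where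
  mem i := Sph.mem_harm.2 ⟨homog i, hharm i⟩
  orth := orth

/-! ### evenness of the scheduled cross-sections -/

theorem ret_conj (u : ℂ) : Sch.ret ((starRingEnd ℂ) u) = (starRingEnd ℂ) (Sch.ret u) := by
  unfold Sch.ret
  rw [RCLike.norm_conj, Complex.real_smul, Complex.real_smul, map_mul, Complex.conj_ofReal]

theorem PY_even {ι : Type*} {y0 y1 Xa Xb : ℝ} {h : ℝ → ℝ} (A : ℝ) (hp : Sch.Prof X0 X1 h)
    (hy0 : 1 ≤ y0) (L : ι → Sch.YLoop y0 y1 Xa Xb) (j : ℕ → ι) (κ : ℕ → ℝ)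
    (heven : ∀ j τ κ X u, (L j).Gh τ κ X (star u) = (L j).Gh τ κ X u) (t X : ℝ) (u : ℂ) :
    Sch.PY A hp hy0 L j κ t X ((starRingEnd ℂ) u) = Sch.PY A hp hy0 L j κ t X u := by
  unfold Sch.PY Sch.PS Sch.glue
  congr 1
  refine finsum_congr fun q => ?_
  congr 1
  show Sch.Ptip h ((L (j q)).y _) X ((starRingEnd ℂ) u) +
      (L (j q)).Gh _ (κ q) X (Sch.ret ((starRingEnd ℂ) u))
    = Sch.Ptip h ((L (j q)).y _) X u + (L (j q)).Gh _ (κ q) X (Sch.ret u)
  rw [ret_conj]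
  have h1 := heven (j q) ((t - Sch.he A q) / Sch.Tg A q) (κ q) X (Sch.ret u)
  rw [show star (Sch.ret u) = (starRingEnd ℂ) (Sch.ret u) from rfl] at h1
  rw [h1]
  rfl

end Crest.Agent.R202.Bri
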