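import Crest.Agent.R202.BriG
import Crest.Agent.R202.BridG

/-!
Row 202, BRIDGE (helper778): helper684's structure `FOK` for the Galerkin functions `Ff p u`.
-/

set_option autoImplicit false

open scoped ContDiff RealInnerProductSpace
open Set Filter Topology MeasureTheory Metric
open Crest.GeometryTopology.CoordMetric
open Crest.Agent.R202.Sph (ev ip qb QB SecForm yI vI harm sph)
open Crest.Agent.R202.Geo (Fam coefF Afam outer)
open Crest.Agent.R202.Wgt (SBasis coefOf)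

namespace Crest.Agent.R202.Bri

variable {n m N D : ℕ} {s θ : ℝ → ℝ} {P : ℝ → ℝ → ℂ → ℝ} {t0 X0 X1 : ℝ}
  {p : Fin N → MvPolynomial (Fin (m + 3)) ℝ} {l : Fin N → ℕ}
  {C : Gal.Coef (EuclideanSpace ℝ (Fin N))} {u v : ℝ → EuclideanSpace ℝ (Fin N)}

theorem norm_le_of_coord {x y : EuclideanSpace ℝ (Fin N)} (h : ∀ i, |x i| ≤ |y i|) :
    ‖x‖ ≤ ‖y‖ := by
  rw [EuclideanSpace.norm_eq, EuclideanSpace.norm_eq]
  refine Real.sqrt_le_sqrt (Finset.sum_le_sum fun i _ => ?_)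
  rw [Real.norm_eq_abs, Real.norm_eq_abs]
  exact pow_le_pow_left₀ (abs_nonneg _) (h i) 2

theorem bdd_init (d : BData m s θ P t0 X0 X1 p l D C) (hR : Gal.Reg C u v) {t : ℝ} (ht : t ≤ t0) :
    ‖u t‖ ≤ ‖u t0‖ ∧ ‖v t‖ ≤ ‖v t0‖ := by
  have h1 : ∀ i, |u t i| ≤ |u t0 i| := by
    intro i
    have e1 : u t i = u t0 i * Real.exp ((l i : ℝ) * (t - t0)) := by
      rw [u_init d hR ht i, mul_assoc, ← Real.exp_add]
      congr 2; ring
    rw [e1, abs_mul, Real.abs_exp]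
    have h2 : Real.exp ((l i : ℝ) * (t - t0)) ≤ 1 := by
      rw [Real.exp_le_one_iff]
      exact mul_nonpos_of_nonneg_of_nonpos (Nat.cast_nonneg _) (by linarith)
    exact mul_le_of_le_one_right (abs_nonneg _) h2
  refine ⟨norm_le_of_coord h1, norm_le_of_coord fun i => ?_⟩
  rw [v_init d hR ht i, v_init d hR le_rfl i, abs_mul, abs_mul]
  exact mul_le_mul_of_nonneg_left (h1 i) (abs_nonneg _)

/-- **`FOK` for the Galerkin function** -/
theorem fok (d : BData m s θ P 0 X0 X1 p l D C)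
    (ho : ∀ i j, ip (p i) (p j) = if i = j then 1 else 0) (hR : Gal.Reg C u v) :
    Brid.FOK (coefF s θ P) C p u v D (Ff p u) where
  sol := hR
  t0 := d.t0_eq
  bdd t ht := bdd_init d hR ht
  orth := ho
  reg := reg d hR
  slice r hr z := Ff_polar p u hr (by simp)
  flux r hr := S1 d ho hR r hr
  w0 φ h1 h2 h3 := w0 d hR h1 h2 (by rwa [Real.exp_zero])
  w1 χ h1 h2 h3 h hD := w1 d hR (reg d hR) h1 h2 h3 hD

theorem _root_.Crest.Agent.R202.Brid.FOK.mono {A : MetricField (m + 3)} {P Q : ℕ}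
    {F : EuclideanSpace ℝ (Fin (m + 3)) → ℝ} (h : Brid.FOK A C p u v P F) (hQ : Q ≤ P) :
    Brid.FOK A C p u v Q F :=
  { h with w1 := fun χ h1 h2 h3 q hq => h.w1 χ h1 h2 h3 q (hq.trans hQ) }

end Crest.Agent.R202.Bri
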