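import Crest.Agent.R202.BriH
import Crest.Agent.R202.BFlowW

/-!
Row 202, BRIDGE (helper778): `FOK` for the scheduled metrics and the uniform sector bases.
-/

set_option autoImplicit false

open scoped ContDiff RealInnerProductSpace
open Set Filter Topology MeasureTheory Metric
open Crest.GeometryTopology.CoordMetric
open Crest.Agent.R202.Sph (ev ip qb QB SecForm yI vI harm sph w3 refl3)
open Crest.Agent.R202.Geo (Fam coefF Afam outer RateAt)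
open Crest.Agent.R202.Wgt (SBasis coefOf)
open Crest.Agent.R202.Mix (Cube)
open Crest.Agent.R202.Main (CountData)
open Crest.Agent.R202.CT (Gate)
open Crest.Agent.R202.BFlow (schedCoef AllFam AllRate)
open Crest.Agent.R202.Top (Choice extκ)

namespace Crest.Agent.R202.Bri

/-- helper862's uniform sector basis -/
structure UBasis (m q : ℕ) (ε : ℝ) (D : ℕ) {N : ℕ} (e : Fin N → ℕ)
    (V : Fin N → MvPolynomial (Fin 3) ℝ) : Prop where
  wh : ∀ i, (V i).IsWeightedHomogeneous w3 (e i)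
  par : ∀ i, refl3 (V i) = MvPolynomial.C ε * V i
  deg : ∀ i, 1 ≤ q + e i ∧ q + e i ≤ D
  homog : ∀ Y ∈ harm (m + 1) q, sph (ev (Y * Y)) = 1 → ∀ i,
    (yI m Y * vI m (V i)).IsHomogeneous (q + e i)
  lap : ∀ Y ∈ harm (m + 1) q, sph (ev (Y * Y)) = 1 → ∀ i,
    Sph.lap (m + 3) (yI m Y * vI m (V i)) = 0
  orth : ∀ Y ∈ harm (m + 1) q, sph (ev (Y * Y)) = 1 → ∀ i j,
    ip (yI m Y * vI m (V i)) (yI m Y * vI m (V j)) = if i = j then 1 else 0
  compl : ∀ Y ∈ harm (m + 1) q, sph (ev (Y * Y)) = 1 →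
    ∀ B : EuclideanSpace ℝ (Fin (m + 3)) → Matrix (Fin (m + 3)) (Fin (m + 3)) ℝ, SecForm B →
      ∀ i, ∀ h : MvPolynomial (Fin (m + 3)) ℝ, h.totalDegree ≤ D →
        QB B (yI m Y * vI m (V i)) h = ∑ j, ip (yI m Y * vI m (V j)) h *
          QB B (yI m Y * vI m (V i)) (yI m Y * vI m (V j))
  sector : ∀ Y ∈ harm (m + 1) q, sph (ev (Y * Y)) = 1 →
    ∀ e', q + e' ≤ D → ∀ V' : MvPolynomial (Fin 3) ℝ, V'.IsWeightedHomogeneous w3 e' →
      refl3 V' = MvPolynomial.C ε * V' → ∃ c0 : ℝ, (0 < q ∨ ε = -1 → c0 = 0) ∧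
      ∀ z : EuclideanSpace ℝ (Fin (m + 3)), ‖z‖ = 1 →
        ev (yI m Y * vI m V') z = ∑ j, ip (yI m Y * vI m (V j)) (yI m Y * vI m V') *
          ev (yI m Y * vI m (V j)) z + c0

theorem exists_ubasis (m q : ℕ) {ε : ℝ} (hε : ε = 1 ∨ ε = -1) (D : ℕ) :
    ∃ (N : ℕ) (e : Fin N → ℕ) (V : Fin N → MvPolynomial (Fin 3) ℝ), UBasis m q ε D e V := by
  obtain ⟨N, e, V, h1, h2, h3, h4⟩ := Sph.sector_basis_unif m q hε D
  exact ⟨N, e, V, h1, h2, h3, fun Y hY hY1 => (h4 Y hY hY1).1,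
    fun Y hY hY1 => (h4 Y hY hY1).2.1, fun Y hY hY1 => (h4 Y hY hY1).2.2.1,
    fun Y hY hY1 => (h4 Y hY hY1).2.2.2.1, fun Y hY hY1 => (h4 Y hY hY1).2.2.2.2⟩

theorem UBasis.sbasis {m q : ℕ} {ε : ℝ} {D N : ℕ} {e : Fin N → ℕ}
    {V : Fin N → MvPolynomial (Fin 3) ℝ} (h : UBasis m q ε D e V)
    {Y : MvPolynomial (Fin (m + 1)) ℝ} (hY : Y ∈ harm (m + 1) q) (hY1 : sph (ev (Y * Y)) = 1) :
    SBasis (fun i => yI m Y * vI m (V i)) (fun i => q + e i) :=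
  sbasis_unif (h.homog Y hY hY1) (h.lap Y hY hY1) (h.orth Y hY hY1)

theorem extκ_eq {P : ℕ} (κ : Cube P) : (fun q => (BFlow.extK κ q : ℝ)) = extκ κ := by
  funext q
  unfold BFlow.extK extκ
  split_ifs <;> rfl

section

variable {m : ℕ} {v : ℝ} {k : ℕ} {D : CountData m v k} {εh : ℝ}

theorem allFam (c : Choice D εh) {K C A1 A : ℝ} (h : c.SchedOK K C A1) (hA : A1 ≤ A)
    (j : ℕ → Gate D) :
    AllFam (-Real.log v / ((m : ℝ) + 2)) A c.prof D.b0_gt.le c.L j :=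
  fun κ hκ => (h A hA j κ hκ).1

theorem allRate (c : Choice D εh) {K C A1 A : ℝ} (h : c.SchedOK K C A1) (hA : A1 ≤ A)
    (j : ℕ → Gate D) :
    AllRate (-Real.log v / ((m : ℝ) + 2)) A K (C / A) c.prof D.b0_gt.le c.L j :=
  fun κ hκ => (h A hA j κ hκ).2

/-- **`FOK` for the scheduled metric** with parameter `κ : Cube P`, one Galerkin coefficient
(built with `Y0`) for all normalised `Y` of the sector. -/
theorem fok_sched (c : Choice D εh) {A : ℝ} {j : ℕ → Gate D}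
    (hF : AllFam (-Real.log v / ((m : ℝ) + 2)) A c.prof D.b0_gt.le c.L j)
    {q Deg N : ℕ} {ε : ℝ} {e : Fin N → ℕ} {V : Fin N → MvPolynomial (Fin 3) ℝ}
    (hU : UBasis m q ε Deg e V) {Y0 Y : MvPolynomial (Fin (m + 1)) ℝ}
    (hY0 : Y0 ∈ harm (m + 1) q) (hY01 : sph (ev (Y0 * Y0)) = 1)
    (hY : Y ∈ harm (m + 1) q) (hY1 : sph (ev (Y * Y)) = 1)
    (hb : SBasis (fun i => yI m Y0 * vI m (V i)) (fun i => q + e i))
    {P : ℕ} (κ : Cube P) {u w : ℝ → EuclideanSpace ℝ (Fin N)}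
    (hR : Gal.Reg (schedCoef hb c.sI_pos c.prof D.b0_gt.le c.L j hF κ) u w)
    {Q : ℕ} (hQ : Q ≤ Deg) :
    Brid.FOK (c.coef A j (extκ κ)) (schedCoef hb c.sI_pos c.prof D.b0_gt.le c.L j hF κ)
      (fun i => yI m Y * vI m (V i)) u w Q (Ff (fun i => yI m Y * vI m (V i)) u) := by
  have hd := bdata_unif (D := Deg) hY0 hY01 hY hY1 hb
    (hF (fun q => BFlow.extK κ q) (BFlow.extK_mem κ)) (Sch.deriv_sf_le c.sI_pos)
    (fun t X u => PY_even A c.prof D.b0_gt.le c.L j _ c.even t X u)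
    (fun i => (hU.deg i).1) (hU.homog Y hY hY1) (hU.lap Y hY hY1) (hU.compl Y hY hY1)
  have h1 := fok hd (hU.orth Y hY hY1) hR
  rw [← extκ_eq κ]
  exact h1.mono hQ

end

end Crest.Agent.R202.Bri
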