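import Crest.Agent.R202.LimW
import Crest.Agent.R202.EllDefs

/-!
# Row 202, part F: weak equations pass to the limit

`Q A u φ = ∑ A i l ∂_l u ∂_i φ`.  If `∫ Q (A k) (u k) φ = 0` for test functions supported near `0`
and for `χ(|x|) p(x)` (eventually in `k`), then `∫ Q (A k) (u k) φ → 0` for every test function.
-/

set_option autoImplicit false
open MeasureTheory Metric Set Filter Topology
open scoped ContDiff
open Crest.GeometryTopology.CoordMetric
open Crest.Agent.R202.Ell (divA)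

namespace Crest.Agent.R202.Lim

noncomputable section

variable {n : ℕ}

/-- the energy density `⟨A ∇u, ∇φ⟩` -/
def Q (A : EuclideanSpace ℝ (Fin n) → Matrix (Fin n) (Fin n) ℝ)
    (u φ : EuclideanSpace ℝ (Fin n) → ℝ) (x : EuclideanSpace ℝ (Fin n)) : ℝ :=
  ∑ i, ∑ l, A x i l * pderiv l u x * pderiv i φ x

lemma abs_pderiv_le (i : Fin n) (u : EuclideanSpace ℝ (Fin n) → ℝ) (x : EuclideanSpace ℝ (Fin n)) :
    |pderiv i u x| ≤ ‖fderiv ℝ u x‖ := by
  unfold pderiv
  have := (fderiv ℝ u x).le_opNorm (EuclideanSpace.single i (1 : ℝ))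
  rw [Real.norm_eq_abs] at this
  simpa using this

lemma abs_Q_le {A : EuclideanSpace ℝ (Fin n) → Matrix (Fin n) (Fin n) ℝ}
    {u φ : EuclideanSpace ℝ (Fin n) → ℝ} {x : EuclideanSpace ℝ (Fin n)} {M : ℝ}
    (hA : ∀ i l, |A x i l| ≤ M) :
    |Q A u φ x| ≤ (n : ℝ) ^ 2 * M * ‖fderiv ℝ u x‖ * ‖fderiv ℝ φ x‖ := by
  unfold Q
  calc |∑ i, ∑ l, A x i l * pderiv l u x * pderiv i φ x|
      ≤ ∑ i : Fin n, ∑ l : Fin n, |A x i l * pderiv l u x * pderiv i φ x| :=
        (Finset.abs_sum_le_sum_abs _ _).trans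
          (Finset.sum_le_sum fun i _ => Finset.abs_sum_le_sum_abs _ _)
    _ ≤ ∑ _i : Fin n, ∑ _l : Fin n, M * ‖fderiv ℝ u x‖ * ‖fderiv ℝ φ x‖ := by
        refine Finset.sum_le_sum fun i _ => Finset.sum_le_sum fun l _ => ?_
        rw [abs_mul, abs_mul]
        have h0 : 0 ≤ M := (abs_nonneg _).trans (hA i l)
        exact mul_le_mul (mul_le_mul (hA i l) (abs_pderiv_le l u x) (abs_nonneg _) h0)
          (abs_pderiv_le i φ x) (abs_nonneg _) (by positivity)
    _ = (n : ℝ) ^ 2 * M * ‖fderiv ℝ u x‖ * ‖fderiv ℝ φ x‖ := by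
        simp only [Finset.sum_const, Finset.card_univ, Fintype.card_fin, nsmul_eq_mul]
        ring

lemma continuous_pderiv {u : EuclideanSpace ℝ (Fin n) → ℝ} (hu : ContDiff ℝ 1 u) (i : Fin n) :
    Continuous (pderiv i u) :=
  (hu.continuous_fderiv (by norm_num)).clm_apply continuous_const

lemma continuous_Q {A : EuclideanSpace ℝ (Fin n) → Matrix (Fin n) (Fin n) ℝ}
    {u φ : EuclideanSpace ℝ (Fin n) → ℝ} (hA : ∀ i l, Continuous fun x => A x i l)
    (hu : ContDiff ℝ 1 u) (hφ : ContDiff ℝ 1 φ) : Continuous (Q A u φ) := by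
  unfold Q
  exact continuous_finsetSum _ fun i _ => continuous_finsetSum _ fun l _ =>
    ((hA i l).mul (continuous_pderiv hu l)).mul (continuous_pderiv hφ i)

lemma pderiv_eq_zero_of_notMem {φ : EuclideanSpace ℝ (Fin n) → ℝ} {x : EuclideanSpace ℝ (Fin n)}
    (hx : x ∉ tsupport φ) (i : Fin n) : pderiv i φ x = 0 := by
  unfold pderiv
  have : fderiv ℝ φ x = 0 := by
    by_contra h
    exact hx (support_fderiv_subset ℝ h)
  rw [this]; simp

lemma Q_eq_zero_of_notMem {A : EuclideanSpace ℝ (Fin n) → Matrix (Fin n) (Fin n) ℝ}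
    {u φ : EuclideanSpace ℝ (Fin n) → ℝ} {x : EuclideanSpace ℝ (Fin n)}
    (hx : x ∉ tsupport φ) : Q A u φ x = 0 := by
  unfold Q
  simp [pderiv_eq_zero_of_notMem hx]

lemma hasCompactSupport_Q {A : EuclideanSpace ℝ (Fin n) → Matrix (Fin n) (Fin n) ℝ}
    {u φ : EuclideanSpace ℝ (Fin n) → ℝ} (hφ : HasCompactSupport φ) :
    HasCompactSupport (Q A u φ) :=
  HasCompactSupport.intro hφ.isCompact fun _ hx => Q_eq_zero_of_notMem hx

lemma integrable_Q {A : EuclideanSpace ℝ (Fin n) → Matrix (Fin n) (Fin n) ℝ}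
    {u φ : EuclideanSpace ℝ (Fin n) → ℝ} (hA : ∀ i l, Continuous fun x => A x i l)
    (hu : ContDiff ℝ 1 u) (hφ : ContDiff ℝ 1 φ) (hφc : HasCompactSupport φ) :
    Integrable (Q A u φ) :=
  (continuous_Q hA hu hφ).integrable_of_hasCompactSupport (hasCompactSupport_Q hφc)

/-- the basic bound -/
lemma abs_integral_Q_le {A : EuclideanSpace ℝ (Fin n) → Matrix (Fin n) (Fin n) ℝ}
    {u φ : EuclideanSpace ℝ (Fin n) → ℝ}
    (hu : ContDiff ℝ 1 u) (R : ℝ)
    (hφs : tsupport φ ⊆ closedBall 0 R) {M S C : ℝ} (hM : 0 ≤ M) (hS0 : 0 ≤ S)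
    (hAM : ∀ x ∈ closedBall (0 : EuclideanSpace ℝ (Fin n)) R, ∀ i l, |A x i l| ≤ M)
    (hS : ∀ x ∈ closedBall (0 : EuclideanSpace ℝ (Fin n)) R, ‖fderiv ℝ φ x‖ ≤ S)
    (hC : ∫ x in closedBall (0 : EuclideanSpace ℝ (Fin n)) R, ‖fderiv ℝ u x‖ ^ 2 ≤ C) :
    |∫ x, Q A u φ x| ≤ (n : ℝ) ^ 2 * M * S *
      ((C + (volume (closedBall (0 : EuclideanSpace ℝ (Fin n)) R)).toReal) / 2) := by
  have hcu : Continuous fun x => ‖fderiv ℝ u x‖ ^ 2 :=
    ((hu.continuous_fderiv (by norm_num)).norm).pow 2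
  have e1 : ∫ x, Q A u φ x = ∫ x in closedBall (0 : EuclideanSpace ℝ (Fin n)) R, Q A u φ x := by
    rw [setIntegral_eq_integral_of_forall_compl_eq_zero]
    intro x hx
    exact Q_eq_zero_of_notMem fun h => hx (hφs h)
  rw [e1]
  have hfin : volume (closedBall (0 : EuclideanSpace ℝ (Fin n)) R) < ⊤ :=
    (isCompact_closedBall _ _).measure_lt_top
  have i1 : IntegrableOn (fun x => ‖fderiv ℝ u x‖ ^ 2) (closedBall (0 : EuclideanSpace ℝ (Fin n)) R) :=
    hcu.continuousOn.integrableOn_compact (isCompact_closedBall _ _)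
  calc |∫ x in closedBall (0 : EuclideanSpace ℝ (Fin n)) R, Q A u φ x|
      ≤ ∫ x in closedBall (0 : EuclideanSpace ℝ (Fin n)) R,
          ((n : ℝ) ^ 2 * M * S) * ((‖fderiv ℝ u x‖ ^ 2 + 1) / 2) := by
        rw [← Real.norm_eq_abs]
        refine norm_integral_le_of_norm_le ?_ ?_
        · exact (((i1.add (integrableOn_const hfin.ne)).div_const 2).const_mul _)
        · refine (ae_restrict_iff' measurableSet_closedBall).mpr (Eventually.of_forall fun x hx => ?_)
          rw [Real.norm_eq_abs]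
          calc |Q A u φ x| ≤ (n : ℝ) ^ 2 * M * ‖fderiv ℝ u x‖ * ‖fderiv ℝ φ x‖ :=
                abs_Q_le (hAM x hx)
            _ ≤ (n : ℝ) ^ 2 * M * ‖fderiv ℝ u x‖ * S :=
                mul_le_mul_of_nonneg_left (hS x hx) (by positivity)
            _ = ((n : ℝ) ^ 2 * M * S) * ‖fderiv ℝ u x‖ := by ring
            _ ≤ ((n : ℝ) ^ 2 * M * S) * ((‖fderiv ℝ u x‖ ^ 2 + 1) / 2) := by
                refine mul_le_mul_of_nonneg_left ?_ (by positivity)
                nlinarith [sq_nonneg (‖fderiv ℝ u x‖ - 1)]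
    _ = ((n : ℝ) ^ 2 * M * S) *
          ((∫ x in closedBall (0 : EuclideanSpace ℝ (Fin n)) R, ‖fderiv ℝ u x‖ ^ 2) +
            (volume (closedBall (0 : EuclideanSpace ℝ (Fin n)) R)).toReal) / 2 := by
        rw [integral_const_mul, integral_div, integral_add i1 (integrableOn_const hfin.ne)]
        simp [Measure.real]
        ring
    _ ≤ (n : ℝ) ^ 2 * M * S *
      ((C + (volume (closedBall (0 : EuclideanSpace ℝ (Fin n)) R)).toReal) / 2) := by
        rw [mul_div_assoc]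
        refine mul_le_mul_of_nonneg_left ?_ (by positivity)
        linarith

end

end Crest.Agent.R202.Lim
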