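import Crest.Agent.R202.SphDiv
import Crest.Agent.R202.SecQB
import Crest.Agent.R202.Lim1

/-!
# Row 202, bridge (helper684): growth, energy and pairings of the Galerkin functions on `ℝⁿ`
-/

set_option autoImplicit false
open MeasureTheory Metric Set Filter Topology MvPolynomial
open scoped ContDiff
open Crest.GeometryTopology.CoordMetric (pderiv)
open Crest.Agent.R202.SphDiv (polar)
open Crest.Agent.R202.Sph (ev ip)

namespace Crest.Agent.R202.Brid

noncomputable section

variable {n N : ℕ}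

lemma norm_smul_sph {r : ℝ} (hr : 0 < r) (z : SphDiv.Sph n) :
    ‖r • (z : EuclideanSpace ℝ (Fin n))‖ = r := by
  rw [norm_smul, Real.norm_eq_abs, abs_of_pos hr]
  have : ‖(z : EuclideanSpace ℝ (Fin n))‖ = 1 := by simp
  rw [this, mul_one]

/-- polar integration of a function that vanishes off a shell -/
lemma integral_shell_polar (hn : 0 < n) {f : EuclideanSpace ℝ (Fin n) → ℝ}
    (hf : Integrable f) {a b : ℝ} (ha : 0 ≤ a)
    (hs : ∀ x : EuclideanSpace ℝ (Fin n), ‖x‖ ∉ Ioo a b → f x = 0) :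
    ∫ x, f x = ∫ r in Ioo a b, r ^ (n - 1) * ∫ z : SphDiv.Sph n,
          f (r • (z : EuclideanSpace ℝ (Fin n))) ∂(SphDiv.sig n) := by
  rw [polar hn _ hf]
  have h1 : ∀ r ∈ Ioi (0 : ℝ), r ^ (n - 1) * ∫ z : SphDiv.Sph n,
      f (r • (z : EuclideanSpace ℝ (Fin n))) ∂(SphDiv.sig n)
      = (Ioo a b).indicator (fun r => r ^ (n - 1) * ∫ z : SphDiv.Sph n,
          f (r • (z : EuclideanSpace ℝ (Fin n))) ∂(SphDiv.sig n)) r := by
    intro r hr
    have hr0 : 0 < r := hr
    by_cases hrR : r ∈ Ioo a b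
    · rw [indicator_of_mem hrR]
    · rw [indicator_of_notMem hrR]
      have : ∀ z : SphDiv.Sph n, f (r • (z : EuclideanSpace ℝ (Fin n))) = 0 := fun z =>
        hs _ (by rw [norm_smul_sph hr0]; exact hrR)
      simp [this]
  rw [setIntegral_congr_fun measurableSet_Ioi h1, setIntegral_indicator measurableSet_Ioo]
  congr 2
  rw [inter_eq_right.mpr]
  exact fun r hr => lt_of_le_of_lt ha hr.1

/-- polar integration over a ball -/
lemma integral_ball_polar (hn : 0 < n) {f : EuclideanSpace ℝ (Fin n) → ℝ} (hf : Continuous f)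
    (R : ℝ) :
    ∫ x in ball (0 : EuclideanSpace ℝ (Fin n)) R, f x
      = ∫ r in Ioo (0 : ℝ) R, r ^ (n - 1) * ∫ z : SphDiv.Sph n,
          f (r • (z : EuclideanSpace ℝ (Fin n))) ∂(SphDiv.sig n) := by
  have hi : Integrable ((ball (0 : EuclideanSpace ℝ (Fin n)) R).indicator f) :=
    ((hf.continuousOn.integrableOn_compact (isCompact_closedBall _ _)).mono_set
      ball_subset_closedBall).integrable_indicator measurableSet_ball
  rw [← integral_indicator measurableSet_ball, polar hn _ hi]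
  have h1 : ∀ r ∈ Ioi (0 : ℝ), r ^ (n - 1) * ∫ z : SphDiv.Sph n,
      (ball (0 : EuclideanSpace ℝ (Fin n)) R).indicator f
        (r • (z : EuclideanSpace ℝ (Fin n))) ∂(SphDiv.sig n)
      = (Ioo (0 : ℝ) R).indicator (fun r => r ^ (n - 1) * ∫ z : SphDiv.Sph n,
          f (r • (z : EuclideanSpace ℝ (Fin n))) ∂(SphDiv.sig n)) r := by
    intro r hr
    have hr0 : 0 < r := hr
    by_cases hrR : r < R
    · rw [indicator_of_mem (show r ∈ Ioo (0 : ℝ) R from ⟨hr0, hrR⟩)]
      congr 1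
      refine integral_congr_ae (Eventually.of_forall fun z => ?_)
      exact indicator_of_mem (by rw [mem_ball_zero_iff, norm_smul_sph hr0]; exact hrR) _
    · rw [indicator_of_notMem (fun h : r ∈ Ioo (0 : ℝ) R => hrR h.2)]
      have : ∀ z : SphDiv.Sph n, (ball (0 : EuclideanSpace ℝ (Fin n)) R).indicator f
          (r • (z : EuclideanSpace ℝ (Fin n))) = 0 := fun z =>
        indicator_of_notMem (by rw [mem_ball_zero_iff, norm_smul_sph hr0]; exact hrR) _
      simp [this]
  rw [setIntegral_congr_fun measurableSet_Ioi h1, setIntegral_indicator measurableSet_Ioo]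
  congr 2
  rw [inter_eq_right.mpr]
  exact fun r hr => hr.1

lemma continuous_ev_sph (q : MvPolynomial (Fin n) ℝ) :
    Continuous fun z : SphDiv.Sph n => ev q (z : EuclideanSpace ℝ (Fin n)) :=
  (Lim.contDiff_pe (n := n) q).continuous.comp continuous_subtype_val

lemma integrable_sph {f : SphDiv.Sph n → ℝ} (hf : Continuous f) : Integrable f (SphDiv.sig n) := by
  obtain ⟨M, hM⟩ := (isCompact_univ : IsCompact (univ : Set (SphDiv.Sph n))).exists_bound_of_continuousOn
    hf.continuousOn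
  exact Integrable.of_bound hf.aestronglyMeasurable M (Eventually.of_forall fun z => hM z (mem_univ z))

lemma integral_ev_mul (p q : MvPolynomial (Fin n) ℝ) :
    ∫ z : SphDiv.Sph n, ev p z * ev q z ∂(SphDiv.sig n) = ip p q := by
  unfold ip Sph.sph SphDiv.sig
  refine integral_congr_ae (Eventually.of_forall fun z => ?_)
  simp [ev]

/-- pairing of a slice with a polynomial -/
lemma integral_slice_mul (p : Fin N → MvPolynomial (Fin n) ℝ) (q : MvPolynomial (Fin n) ℝ)
    (c : Fin N → ℝ) :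
    ∫ z : SphDiv.Sph n, (∑ i, c i * ev (p i) z) * ev q z ∂(SphDiv.sig n)
      = ∑ i, c i * ip (p i) q := by
  have e : ∀ z : SphDiv.Sph n, (∑ i, c i * ev (p i) z) * ev q z
      = ∑ i, c i * (ev (p i) z * ev q z) := by
    intro z
    rw [Finset.sum_mul]
    exact Finset.sum_congr rfl fun i _ => by ring
  simp_rw [e]
  have hi : ∀ i ∈ (Finset.univ : Finset (Fin N)),
      Integrable (fun z : SphDiv.Sph n => c i * (ev (p i) z * ev q z)) (SphDiv.sig n) := by
    intro i _
    refine integrable_sph ?_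
    exact continuous_const.mul ((continuous_ev_sph (p i)).mul (continuous_ev_sph q))
  rw [integral_finsetSum _ hi]
  exact Finset.sum_congr rfl fun i _ => by rw [integral_const_mul, integral_ev_mul]

/-- the `L²` norm of a slice -/
lemma integral_slice_sq {p : Fin N → MvPolynomial (Fin n) ℝ}
    (horth : ∀ i j, ip (p i) (p j) = if i = j then 1 else 0) (c : EuclideanSpace ℝ (Fin N)) :
    ∫ z : SphDiv.Sph n, (∑ i, c i * ev (p i) z) ^ 2 ∂(SphDiv.sig n) = ‖c‖ ^ 2 := by
  have e : ∀ z : SphDiv.Sph n, (∑ i, c i * ev (p i) z) ^ 2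
      = ∑ j, c j * ((∑ i, c i * ev (p i) z) * ev (p j) z) := by
    intro z
    rw [sq]
    conv_lhs => rw [Finset.mul_sum]
    exact Finset.sum_congr rfl fun i _ => by ring
  simp_rw [e]
  have hi : ∀ j ∈ (Finset.univ : Finset (Fin N)),
      Integrable (fun z : SphDiv.Sph n => c j * ((∑ i, c i * ev (p i) z) * ev (p j) z))
        (SphDiv.sig n) := by
    intro j _
    refine integrable_sph ?_
    refine continuous_const.mul (Continuous.mul ?_ (continuous_ev_sph (p j)))
    exact continuous_finsetSum _ fun i _ => continuous_const.mul (continuous_ev_sph (p i))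
  rw [integral_finsetSum _ hi]
  rw [EuclideanSpace.real_norm_sq_eq]
  refine Finset.sum_congr rfl fun j _ => ?_
  rw [integral_const_mul, integral_slice_mul]
  simp [horth, sq]

/-- **Growth.** -/
theorem growth_ball (hn : 0 < n) {F : EuclideanSpace ℝ (Fin n) → ℝ} (hF : Continuous F)
    {p : Fin N → MvPolynomial (Fin n) ℝ}
    (horth : ∀ i j, ip (p i) (p j) = if i = j then 1 else 0)
    {u : ℝ → EuclideanSpace ℝ (Fin N)}
    (hS : ∀ r, 0 < r → ∀ z : SphDiv.Sph n,
      F (r • (z : EuclideanSpace ℝ (Fin n))) = ∑ i, u (Real.log r) i * ev (p i) z)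
    {C K T : ℝ} {k : ℕ} (hKk : K ≤ k)
    (hu : ∀ t, t ≤ T → ‖u t‖ ≤ C * Real.exp (K * max t 0)) {R : ℝ} (hR : 0 ≤ R)
    (hRT : R ≤ Real.exp T) :
    ∫ x in ball (0 : EuclideanSpace ℝ (Fin n)) R, F x ^ 2 ≤ C ^ 2 * (1 + R) ^ (n + 2 * k) := by
  rw [integral_ball_polar hn (f := fun x => F x ^ 2) (hF.pow 2) R]
  have h1 : ∀ r ∈ Ioo (0 : ℝ) R, ∫ z : SphDiv.Sph n,
      F (r • (z : EuclideanSpace ℝ (Fin n))) ^ 2 ∂(SphDiv.sig n) = ‖u (Real.log r)‖ ^ 2 := by
    intro r hr
    simp_rw [hS r hr.1]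
    exact integral_slice_sq horth _
  have h2 : ∀ r ∈ Ioo (0 : ℝ) R, r ^ (n - 1) * ∫ z : SphDiv.Sph n,
      F (r • (z : EuclideanSpace ℝ (Fin n))) ^ 2 ∂(SphDiv.sig n)
      = r ^ (n - 1) * ‖u (Real.log r)‖ ^ 2 := fun r hr => by rw [h1 r hr]
  rw [setIntegral_congr_fun measurableSet_Ioo h2]
  have h3 : ∀ r ∈ Ioo (0 : ℝ) R, ‖r ^ (n - 1) * ‖u (Real.log r)‖ ^ 2‖
      ≤ C ^ 2 * (1 + R) ^ (n - 1 + 2 * k) := by
    intro r hr
    have hr0 := hr.1
    have hlog : Real.log r ≤ T := by
      rw [← Real.log_exp T]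
      exact Real.log_le_log hr0 (hr.2.le.trans hRT)
    have h4 := hu _ hlog
    have h5 : Real.exp (K * max (Real.log r) 0) ≤ (1 + R) ^ k := by
      have h6 : Real.exp (max (Real.log r) 0) ≤ 1 + R := by
        rcases le_total (Real.log r) 0 with h | h
        · rw [max_eq_right h, Real.exp_zero]; linarith
        · rw [max_eq_left h, Real.exp_log hr0]; linarith [hr.2]
      calc Real.exp (K * max (Real.log r) 0) ≤ Real.exp ((k : ℝ) * max (Real.log r) 0) :=
            Real.exp_le_exp.mpr (mul_le_mul_of_nonneg_right hKk (le_max_right _ _))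
        _ = Real.exp (max (Real.log r) 0) ^ k := by rw [← Real.exp_nat_mul]
        _ ≤ (1 + R) ^ k := pow_le_pow_left₀ (Real.exp_pos _).le h6 k
    have hC : 0 ≤ C := by
      have := (norm_nonneg _).trans h4
      exact nonneg_of_mul_nonneg_left this (Real.exp_pos _)
    have h7 : ‖u (Real.log r)‖ ≤ C * (1 + R) ^ k := h4.trans (mul_le_mul_of_nonneg_left h5 hC)
    rw [Real.norm_eq_abs, abs_of_nonneg (by positivity)]
    calc r ^ (n - 1) * ‖u (Real.log r)‖ ^ 2
        ≤ (1 + R) ^ (n - 1) * (C * (1 + R) ^ k) ^ 2 :=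
          mul_le_mul (pow_le_pow_left₀ hr0.le (by linarith [hr.2]) _)
            (pow_le_pow_left₀ (norm_nonneg _) h7 2) (by positivity) (by positivity)
      _ = C ^ 2 * (1 + R) ^ (n - 1 + 2 * k) := by rw [pow_add]; ring
  have h8 := norm_setIntegral_le_of_norm_le_const (μ := volume) (s := Ioo (0 : ℝ) R)
    (by rw [Real.volume_Ioo]; exact ENNReal.ofReal_lt_top) h3
  have hv : (volume.real (Ioo (0 : ℝ) R)) = R := by
    rw [Measure.real, Real.volume_Ioo, sub_zero, ENNReal.toReal_ofReal hR]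
  rw [hv] at h8
  calc ∫ r in Ioo (0 : ℝ) R, r ^ (n - 1) * ‖u (Real.log r)‖ ^ 2
      ≤ ‖∫ r in Ioo (0 : ℝ) R, r ^ (n - 1) * ‖u (Real.log r)‖ ^ 2‖ := le_abs_self _
    _ ≤ C ^ 2 * (1 + R) ^ (n - 1 + 2 * k) * R := h8
    _ ≤ C ^ 2 * (1 + R) ^ (n - 1 + 2 * k) * (1 + R) :=
        mul_le_mul_of_nonneg_left (by linarith) (by positivity)
    _ = C ^ 2 * (1 + R) ^ (n + 2 * k) := by
        have : n + 2 * k = (n - 1 + 2 * k) + 1 := by omega
        rw [this, pow_succ]; ring

/-! ### Pairings -/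

/-- the test function `1_{a<|x|<b} |x|^{-(n-1)} q(x/|x|) / (b-a)` -/
def phiT (q : MvPolynomial (Fin n) ℝ) (a b : ℝ) (x : EuclideanSpace ℝ (Fin n)) : ℝ :=
  {x : EuclideanSpace ℝ (Fin n) | ‖x‖ ∈ Ioo a b}.indicator
    (fun x => (b - a)⁻¹ * ((‖x‖ ^ (n - 1))⁻¹ * ev q (‖x‖⁻¹ • x))) x

lemma measurableSet_shell (a b : ℝ) :
    MeasurableSet {x : EuclideanSpace ℝ (Fin n) | ‖x‖ ∈ Ioo a b} :=
  measurable_norm measurableSet_Ioo

lemma phiT_eq_zero (q : MvPolynomial (Fin n) ℝ) {a b : ℝ} {x : EuclideanSpace ℝ (Fin n)}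
    (hx : x ∉ ball (0 : EuclideanSpace ℝ (Fin n)) b) : phiT q a b x = 0 := by
  unfold phiT
  refine indicator_of_notMem (fun h => hx ?_) _
  rw [mem_ball_zero_iff]
  exact h.2

lemma measurable_phiT (q : MvPolynomial (Fin n) ℝ) (a b : ℝ) : Measurable (phiT q a b) := by
  refine Measurable.indicator ?_ (measurableSet_shell a b)
  have h1 : Measurable fun x : EuclideanSpace ℝ (Fin n) => ev q (‖x‖⁻¹ • x) :=
    (Lim.contDiff_pe (n := n) q).continuous.measurable.comp
      (measurable_norm.inv.smul measurable_id)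
  exact measurable_const.mul ((measurable_norm.pow_const _).inv.mul h1)

lemma exists_bound_phiT (q : MvPolynomial (Fin n) ℝ) {a b : ℝ} (ha : 0 < a) (hab : a < b) :
    ∃ M, ∀ x, |phiT q a b x| ≤ M := by
  obtain ⟨M0, hM0⟩ := (isCompact_closedBall (0 : EuclideanSpace ℝ (Fin n)) 1).exists_bound_of_continuousOn
    (Lim.contDiff_pe (n := n) q).continuous.continuousOn
  have hM00 : 0 ≤ M0 := (norm_nonneg _).trans (hM0 0 (by simp))
  refine ⟨(b - a)⁻¹ * ((a ^ (n - 1))⁻¹ * M0), fun x => ?_⟩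
  have hba : 0 < b - a := by linarith
  unfold phiT
  by_cases hx : x ∈ {x : EuclideanSpace ℝ (Fin n) | ‖x‖ ∈ Ioo a b}
  · rw [indicator_of_mem hx]
    have hx1 : a < ‖x‖ := hx.1
    have hx0 : 0 < ‖x‖ := ha.trans hx1
    rw [abs_mul, abs_mul, abs_of_pos (inv_pos.mpr hba),
      abs_of_pos (inv_pos.mpr (pow_pos hx0 _))]
    refine mul_le_mul_of_nonneg_left ?_ (inv_pos.mpr hba).le
    refine mul_le_mul (inv_anti₀ (pow_pos ha _) (pow_le_pow_left₀ ha.le hx1.le _)) ?_
      (abs_nonneg _) (by positivity)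
    have h2 := hM0 (‖x‖⁻¹ • x) (by
      rw [mem_closedBall, dist_zero_right, norm_smul, norm_inv, norm_norm,
        inv_mul_cancel₀ hx0.ne'])
    rw [Real.norm_eq_abs] at h2
    exact h2
  · rw [indicator_of_notMem hx, abs_zero]; positivity

lemma memLp_phiT (q : MvPolynomial (Fin n) ℝ) {a b : ℝ} (ha : 0 < a) (hab : a < b) :
    MemLp (phiT q a b) 2 := by
  obtain ⟨M, hM⟩ := exists_bound_phiT q ha hab
  have h1 : phiT q a b = (ball (0 : EuclideanSpace ℝ (Fin n)) b).indicator (phiT q a b) := by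
    funext x
    by_cases hx : x ∈ ball (0 : EuclideanSpace ℝ (Fin n)) b
    · rw [indicator_of_mem hx]
    · rw [indicator_of_notMem hx, phiT_eq_zero q hx]
  rw [h1, memLp_indicator_iff_restrict measurableSet_ball]
  have hfin : IsFiniteMeasure (volume.restrict (ball (0 : EuclideanSpace ℝ (Fin n)) b)) :=
    ⟨by rw [Measure.restrict_apply_univ]; exact measure_ball_lt_top⟩
  exact MemLp.of_bound (measurable_phiT q a b).aestronglyMeasurable M
    (Eventually.of_forall fun x => hM x)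

/-- **Pairing.** -/
theorem integral_mul_phiT (hn : 0 < n) {F : EuclideanSpace ℝ (Fin n) → ℝ} (hF : Continuous F)
    {p : Fin N → MvPolynomial (Fin n) ℝ} {u : ℝ → EuclideanSpace ℝ (Fin N)}
    (hS : ∀ r, 0 < r → ∀ z : SphDiv.Sph n,
      F (r • (z : EuclideanSpace ℝ (Fin n))) = ∑ i, u (Real.log r) i * ev (p i) z)
    (q : MvPolynomial (Fin n) ℝ) {a b : ℝ} (ha : 0 < a) (hab : a < b) :
    ∫ x, F x * phiT q a b x
      = ∫ r in Ioo a b, (b - a)⁻¹ * ∑ i, u (Real.log r) i * ip (p i) q := by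
  obtain ⟨M, hM⟩ := exists_bound_phiT q ha hab
  obtain ⟨M1, hM1⟩ := (isCompact_closedBall (0 : EuclideanSpace ℝ (Fin n)) b).exists_bound_of_continuousOn
    hF.continuousOn
  have hint : Integrable fun x => F x * phiT q a b x := by
    have h1 : (fun x => F x * phiT q a b x)
        = (ball (0 : EuclideanSpace ℝ (Fin n)) b).indicator (fun x => F x * phiT q a b x) := by
      funext x
      by_cases hx : x ∈ ball (0 : EuclideanSpace ℝ (Fin n)) b
      · rw [indicator_of_mem hx]
      · rw [indicator_of_notMem hx, phiT_eq_zero q hx, mul_zero]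
    rw [h1, integrable_indicator_iff measurableSet_ball]
    have hfin : IsFiniteMeasure (volume.restrict (ball (0 : EuclideanSpace ℝ (Fin n)) b)) :=
      ⟨by rw [Measure.restrict_apply_univ]; exact measure_ball_lt_top⟩
    refine Integrable.of_bound
      (hF.aestronglyMeasurable.mul (measurable_phiT q a b).aestronglyMeasurable) (M1 * M) ?_
    refine (ae_restrict_iff' measurableSet_ball).mpr (Eventually.of_forall fun x hx => ?_)
    rw [norm_mul]
    exact mul_le_mul (hM1 x (ball_subset_closedBall hx)) (hM x) (norm_nonneg _)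
      ((norm_nonneg _).trans (hM1 x (ball_subset_closedBall hx)))
  rw [integral_shell_polar hn hint ha.le (a := a) (b := b)]
  · refine setIntegral_congr_fun measurableSet_Ioo fun r hr => ?_
    have hr0 : 0 < r := ha.trans hr.1
    have e1 : ∀ z : SphDiv.Sph n, F (r • (z : EuclideanSpace ℝ (Fin n))) *
        phiT q a b (r • (z : EuclideanSpace ℝ (Fin n)))
        = ((b - a)⁻¹ * (r ^ (n - 1))⁻¹) * ((∑ i, u (Real.log r) i * ev (p i) z) * ev q z) := by
      intro z
      have hm : r • (z : EuclideanSpace ℝ (Fin n))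
          ∈ {x : EuclideanSpace ℝ (Fin n) | ‖x‖ ∈ Ioo a b} := by
        show ‖r • (z : EuclideanSpace ℝ (Fin n))‖ ∈ Ioo a b
        rw [norm_smul_sph hr0]; exact hr
      unfold phiT
      rw [indicator_of_mem hm, norm_smul_sph hr0, hS r hr0, smul_smul,
        inv_mul_cancel₀ hr0.ne', one_smul]
      ring
    simp_rw [e1]
    rw [integral_const_mul, integral_slice_mul p q]
    have : r ^ (n - 1) ≠ 0 := (pow_pos hr0 _).ne'
    field_simp
  · intro x hx
    unfold phiT
    have hx' : x ∉ {x : EuclideanSpace ℝ (Fin n) | ‖x‖ ∈ Ioo a b} := hx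
    rw [indicator_of_notMem hx', mul_zero]

/-- closeness of the averaged pairing -/
theorem pair_close (hn : 0 < n) {F : EuclideanSpace ℝ (Fin n) → ℝ} (hF : Continuous F)
    {p : Fin N → MvPolynomial (Fin n) ℝ} {u : ℝ → EuclideanSpace ℝ (Fin N)}
    (hu : ContinuousOn u (Ici (0 : ℝ)))
    (hS : ∀ r, 0 < r → ∀ z : SphDiv.Sph n,
      F (r • (z : EuclideanSpace ℝ (Fin n))) = ∑ i, u (Real.log r) i * ev (p i) z)
    (q : MvPolynomial (Fin n) ℝ) {a b : ℝ} (ha : 1 ≤ a) (hab : a < b) {d ε : ℝ}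
    (hd : ∀ r ∈ Ioo a b, |(∑ i, u (Real.log r) i * ip (p i) q) - d| ≤ ε) :
    |(∫ x, F x * phiT q a b x) - d| ≤ ε := by
  have ha0 : 0 < a := by linarith
  have hba : 0 < b - a := by linarith
  rw [integral_mul_phiT hn hF hS q ha0 hab]
  have hv : volume.real (Ioo a b) = b - a := by
    rw [Measure.real, Real.volume_Ioo, ENNReal.toReal_ofReal hba.le]
  have e1 : d = ∫ _r in Ioo a b, (b - a)⁻¹ * d := by
    rw [setIntegral_const, hv, smul_eq_mul]
    field_simp
  have hc : ContinuousOn (fun r => (b - a)⁻¹ * ∑ i, u (Real.log r) i * ip (p i) q) (Icc a b) := by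
    refine continuousOn_const.mul (continuousOn_finsetSum _ fun i _ =>
      ContinuousOn.mul ?_ continuousOn_const)
    have h2 : ContinuousOn (fun r => u (Real.log r)) (Icc a b) := by
      refine hu.comp (Real.continuousOn_log.mono ?_) ?_
      · intro r hr
        have : 0 < r := lt_of_lt_of_le ha0 hr.1
        simp [this.ne']
      · intro r hr
        exact Real.log_nonneg (ha.trans hr.1)
    exact (EuclideanSpace.proj i : EuclideanSpace ℝ (Fin N) →L[ℝ] ℝ).continuous.comp_continuousOn h2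
  have i1 : IntegrableOn (fun r => (b - a)⁻¹ * ∑ i, u (Real.log r) i * ip (p i) q) (Ioo a b) :=
    (hc.integrableOn_compact isCompact_Icc).mono_set Ioo_subset_Icc_self
  have i2 : IntegrableOn (fun _ : ℝ => (b - a)⁻¹ * d) (Ioo a b) :=
    integrableOn_const (by rw [Real.volume_Ioo]; exact ENNReal.ofReal_ne_top)
  conv_lhs => rw [e1]
  rw [← integral_sub i1 i2]
  have h3 : ∀ r ∈ Ioo a b, ‖(b - a)⁻¹ * ∑ i, u (Real.log r) i * ip (p i) q - (b - a)⁻¹ * d‖
      ≤ (b - a)⁻¹ * ε := by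
    intro r hr
    rw [← mul_sub, Real.norm_eq_abs, abs_mul, abs_of_pos (inv_pos.mpr hba)]
    exact mul_le_mul_of_nonneg_left (hd r hr) (inv_pos.mpr hba).le
  have h4 := norm_setIntegral_le_of_norm_le_const (μ := volume) (s := Ioo a b)
    (by rw [Real.volume_Ioo]; exact ENNReal.ofReal_lt_top) h3
  rw [hv, Real.norm_eq_abs] at h4
  calc _ ≤ (b - a)⁻¹ * ε * (b - a) := h4
    _ = ε := by field_simp

end

end Crest.Agent.R202.Brid
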