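/-
R202 (helper846): positivity of the dimension of the harmonic spaces.
-/
import Crest.Agent.R202.SphPoly

set_option autoImplicit false

namespace Crest.Agent.R202.Brid

theorem dimH_pos {m q : ℕ} (h0 : m = 0 → q ≤ 1) : 0 < Sph.dimH (m + 1) q := by
  unfold Sph.dimH Sph.dimP
  split_ifs with hq
  · obtain ⟨n, rfl⟩ : ∃ n, m = n + 1 := by
      rcases Nat.eq_zero_or_pos m with h | h
      · have := h0 h; omega
      · exact ⟨m - 1, by omega⟩
    obtain ⟨r, rfl⟩ : ∃ r, q = r + 2 := ⟨q - 2, by omega⟩
    rw [show n + 1 + 1 + (r + 2) - 1 = (n + r + 2) + 1 by omega,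
      show n + 1 + 1 + (r + 2 - 2) - 1 = n + r + 1 by omega, show r + 2 - 2 = r by omega]
    have h1 : (n + r + 2 + 1).choose (r + 2) = (n + r + 2 + 1).choose (n + 1) :=
      Nat.choose_symm_of_eq_add (by omega)
    have h2 : (n + r + 1).choose r = (n + r + 1).choose (n + 1) :=
      Nat.choose_symm_of_eq_add (by omega)
    have h3 : (n + r + 2 + 1).choose (n + 1) =
        (n + r + 2).choose n + (n + r + 2).choose (n + 1) := Nat.choose_succ_succ _ _
    have h4 : (n + r + 2).choose (n + 1) = (n + r + 1).choose n + (n + r + 1).choose (n + 1) :=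
      Nat.choose_succ_succ _ _
    have h5 : 0 < (n + r + 1).choose n := Nat.choose_pos (by omega)
    omega
  · simp only [Nat.sub_zero]
    exact Nat.choose_pos (by omega)

end Crest.Agent.R202.Brid
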