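import Mathlib
import Crest.Agent.R202.GalSmall

/-! # Row 202, B1: growth and independence of the regular solutions (helper514)

* `growth_steps`: bounds at the times `tp q` ⇒ `‖u t‖ ≤ C e^{K (t - tm 0)^+} M0` for all `t ≤ tp P`.
* `Reg.inner_sub_le`: the pairings `⟪f, u t⟫` move slowly (uniformly in the dimension of `G`).
* `Reg.avg_pairing`: averaged pairings on a short interval are close to the initial ones. -/

set_option autoImplicit false
set_option linter.unusedSectionVars false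
set_option linter.unusedVariables false

open Set Filter Topology MeasureTheory
open scoped InnerProductSpace

namespace Crest.Agent.R202.Gal

/-- growth from the bounds at the outer ends of the homes -/
theorem growth_steps {n : ℝ → ℝ} {t0 : ℝ} (hmono : ∀ s t, t0 ≤ s → s ≤ t → n s ≤ n t)
    {P : ℕ} {tm tp : ℕ → ℝ} (h0 : t0 ≤ tm 0)
    (h1 : ∀ q, q ≤ P → tm q ≤ tp q) (h2 : ∀ q, q < P → tp q ≤ tm (q + 1))
    {K M : ℝ} (hK : 0 ≤ K) (hM : 0 ≤ M)
    (hb : ∀ q, q ≤ P → n (tp q) ≤ M * Real.exp (K * ∑ i ∈ Finset.range q, (tp i - tm i))) :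
    ∀ t, t0 ≤ t → t ≤ tp P → n t ≤ M * Real.exp (K * max (t - tm 0) 0) := by
  have hsum : ∀ q, q ≤ P → ∑ i ∈ Finset.range q, (tp i - tm i) ≤ tm q - tm 0 := by
    intro q
    induction q with
    | zero => intro _; simp
    | succ q ih =>
      intro hq
      rw [Finset.sum_range_succ]
      have h3 := ih (by omega)
      have h4 := h2 q (by omega)
      linarith
  have htm : ∀ q, q ≤ P → t0 ≤ tm q := by
    intro q
    induction q with
    | zero => intro _; exact h0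
    | succ q ih =>
      intro hq
      have h3 := ih (by omega)
      have h4 := h2 q (by omega)
      have h5 := h1 q (by omega)
      linarith
  have key : ∀ q, q ≤ P → ∀ t, t0 ≤ t → t ≤ tp q →
      n t ≤ M * Real.exp (K * max (t - tm 0) 0) := by
    intro q
    induction q with
    | zero =>
      intro hq t ht htq
      have h3 := hmono t (tp 0) ht htq
      have h4 := hb 0 hq
      simp only [Finset.range_zero, Finset.sum_empty, mul_zero, Real.exp_zero, mul_one] at h4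
      have h5 : (1 : ℝ) ≤ Real.exp (K * max (t - tm 0) 0) :=
        Real.one_le_exp (mul_nonneg hK (le_max_right _ _))
      nlinarith
    | succ q ih =>
      intro hq t ht htq
      rcases le_total t (tp q) with h | h
      · exact ih (by omega) t ht h
      · have h3 := hmono t (tp (q + 1)) ht htq
        refine (h3.trans (hb (q + 1) hq)).trans (mul_le_mul_of_nonneg_left ?_ hM)
        refine Real.exp_le_exp.2 (mul_le_mul_of_nonneg_left ?_ hK)
        rw [Finset.sum_range_succ]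
        have h4 := hsum q (by omega)
        exact le_trans (by linarith) (le_max_left _ _)
  exact key P le_rfl

variable {G : Type*} [NormedAddCommGroup G] [InnerProductSpace ℝ G]
variable {C : Coef G} {u v : ℝ → G}

theorem Coef.wt_le {s t B : ℝ} (hst : s ≤ t) (hB : ∀ r ∈ Icc s t, C.b r ≤ B) :
    C.wt t ≤ C.wt s * Real.exp (B * (t - s)) := by
  have h1 : C.wt t * Real.exp (-(B * t)) ≤ C.wt s * Real.exp (-(B * s)) := by
    have := le_of_hasDerivAt (f := fun r => -(C.wt r * Real.exp (-(B * r))))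
      (f' := fun r => -((C.b r * C.wt r) * Real.exp (-(B * r)) +
        C.wt r * (Real.exp (-(B * r)) * (-(B * 1))))) hst ?_ ?_
    · linarith
    · intro r _
      have h2 : HasDerivAt (fun r : ℝ => Real.exp (-(B * r)))
          (Real.exp (-(B * r)) * (-(B * 1))) r :=
        (((hasDerivAt_id r).const_mul B).neg).exp
      exact ((C.hasDerivAt_wt r).mul h2).neg
    · intro r hr
      have h3 := hB r hr
      have h4 := C.wt_pos r
      have h5 := Real.exp_pos (-(B * r))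
      have : -((C.b r * C.wt r) * Real.exp (-(B * r)) +
        C.wt r * (Real.exp (-(B * r)) * (-(B * 1)))) =
        (B - C.b r) * (C.wt r * Real.exp (-(B * r))) := by ring
      rw [this]
      exact mul_nonneg (by linarith) (by positivity)
  have h6 : Real.exp (B * (t - s)) = Real.exp (-(B * s)) * Real.exp (B * t) := by
    rw [← Real.exp_add]; congr 1; ring
  have h7 : Real.exp (-(B * t)) * Real.exp (B * t) = 1 := by
    rw [← Real.exp_add]; simp
  calc C.wt t = (C.wt t * Real.exp (-(B * t))) * Real.exp (B * t) := by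
        rw [mul_assoc, h7, mul_one]
    _ ≤ (C.wt s * Real.exp (-(B * s))) * Real.exp (B * t) :=
        mul_le_mul_of_nonneg_right h1 (Real.exp_pos _).le
    _ = C.wt s * Real.exp (B * (t - s)) := by rw [h6]; ring

/-- slow motion of the pairings -/
theorem Reg.inner_sub_le (h : Reg C u v) {s t B : ℝ} (hs : C.t0 ≤ s) (hst : s ≤ t)
    (hB : ∀ r ∈ Icc s (t + 1), C.b r ≤ B) (f : G) {lam : ℝ} (hl : 0 < lam) :
    |⟪f, u t⟫_ℝ - ⟪f, u s⟫_ℝ| ≤ lam / 2 * ‖f‖ ^ 2 * (t - s) +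
      1 / (4 * lam) * (Real.exp (B * (t + 1 - s)) * ‖u (t + 1)‖ ^ 2) := by
  have hws := C.wt_pos s
  have h1 := abs_sub_le_of_rates (f := fun r => ⟪f, u r⟫_ℝ)
    (g := fun r => lam / 2 * ‖f‖ ^ 2 * r + 1 / (2 * lam * C.wt s) * (C.wt r * ⟪v r, u r⟫_ℝ))
    (f' := fun r => ⟪f, v r⟫_ℝ)
    (g' := fun r => lam / 2 * ‖f‖ ^ 2 * 1 + 1 / (2 * lam * C.wt s) *
      (C.wt r * (‖v r‖ ^ 2 + ⟪C.K r (u r), u r⟫_ℝ))) hst
    (fun r _ => by
      have := (hasDerivAt_const r f).inner ℝ (h.du r)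
      simpa using this)
    (fun r _ => ((hasDerivAt_id r).const_mul _).add ((h.hasDerivAt_flux r).const_mul _))
    (fun r hr => by
      have hw := C.wt_mono hr.1
      have hk := C.nonneg r (u r)
      have h2 : C.wt s * ‖v r‖ ^ 2 ≤ C.wt r * (‖v r‖ ^ 2 + ⟪C.K r (u r), u r⟫_ℝ) :=
        mul_le_mul hw (by linarith) (sq_nonneg _) (C.wt_pos r).le
      have h3 : 1 / (2 * lam) * ‖v r‖ ^ 2 ≤ 1 / (2 * lam * C.wt s) *
          (C.wt r * (‖v r‖ ^ 2 + ⟪C.K r (u r), u r⟫_ℝ)) := by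
        have e : 1 / (2 * lam) * ‖v r‖ ^ 2 = 1 / (2 * lam * C.wt s) * (C.wt s * ‖v r‖ ^ 2) := by
          field_simp
        rw [e]
        exact mul_le_mul_of_nonneg_left h2 (by positivity)
      have h4 : |⟪f, v r⟫_ℝ| ≤ lam / 2 * ‖f‖ ^ 2 + 1 / (2 * lam) * ‖v r‖ ^ 2 := by
        refine (abs_real_inner_le_norm f (v r)).trans ?_
        have h5 : 0 ≤ (lam * ‖f‖ - ‖v r‖) ^ 2 / (2 * lam) := by positivity
        have h6 : (lam * ‖f‖ - ‖v r‖) ^ 2 / (2 * lam) =
            lam / 2 * ‖f‖ ^ 2 + 1 / (2 * lam) * ‖v r‖ ^ 2 - ‖f‖ * ‖v r‖ := by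
          field_simp
          ring
        linarith
      linarith)
  have h7 : 0 ≤ 1 / (2 * lam * C.wt s) * (C.wt s * ⟪v s, u s⟫_ℝ) :=
    mul_nonneg (by positivity) (h.flux_nonneg hs)
  have h8 : 1 / (2 * lam * C.wt s) * (C.wt t * ⟪v t, u t⟫_ℝ) ≤
      1 / (4 * lam) * (Real.exp (B * (t + 1 - s)) * ‖u (t + 1)‖ ^ 2) := by
    have h9 := h.flux_le (hs.trans hst) (by linarith : t ≤ t + 1)
    have e : t + 1 - t = 1 := by ring
    rw [e, one_mul] at h9
    have h10 := C.wt_le (by linarith : s ≤ t + 1) hB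
    have h11 : C.wt t * ⟪v t, u t⟫_ℝ ≤
        (C.wt s * Real.exp (B * (t + 1 - s))) / 2 * ‖u (t + 1)‖ ^ 2 :=
      h9.trans (mul_le_mul_of_nonneg_right (by linarith) (sq_nonneg _))
    calc 1 / (2 * lam * C.wt s) * (C.wt t * ⟪v t, u t⟫_ℝ) ≤ 1 / (2 * lam * C.wt s) *
          ((C.wt s * Real.exp (B * (t + 1 - s))) / 2 * ‖u (t + 1)‖ ^ 2) :=
          mul_le_mul_of_nonneg_left h11 (by positivity)
      _ = 1 / (4 * lam) * (Real.exp (B * (t + 1 - s)) * ‖u (t + 1)‖ ^ 2) := by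
          field_simp
          ring
  have h12 : lam / 2 * ‖f‖ ^ 2 * t - lam / 2 * ‖f‖ ^ 2 * s = lam / 2 * ‖f‖ ^ 2 * (t - s) := by
    ring
  linarith

/-- quantitative form: on `[s, s + δ]`, `δ ≤ 1` -/
theorem Reg.inner_sub_le' (h : Reg C u v) {s t B C1 C2 δ : ℝ} (hs : C.t0 ≤ s) (hst : s ≤ t)
    (hδ : 0 < δ) (hδ1 : δ ≤ 1) (htδ : t ≤ s + δ) (hB0 : 0 ≤ B)
    (hB : ∀ r ∈ Icc s (s + 2), C.b r ≤ B) (f : G) (hf : ‖f‖ ≤ C2) (hu : ‖u (s + 2)‖ ≤ C1) :
    |⟪f, u t⟫_ℝ - ⟪f, u s⟫_ℝ| ≤ Real.sqrt δ * (C2 ^ 2 + Real.exp (2 * B) * C1 ^ 2) := by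
  have hsq : 0 < Real.sqrt δ := Real.sqrt_pos.2 hδ
  have hC2 : 0 ≤ C2 := (norm_nonneg f).trans hf
  have hC1 : 0 ≤ C1 := (norm_nonneg _).trans hu
  have h1 := h.inner_sub_le hs hst (B := B)
    (fun r hr => hB r ⟨hr.1, by linarith [hr.2]⟩) f (lam := 1 / Real.sqrt δ) (by positivity)
  refine h1.trans ?_
  have h2 : ‖u (t + 1)‖ ≤ C1 := (h.norm_mono (by linarith) (by linarith)).trans hu
  have h3 : ‖u (t + 1)‖ ^ 2 ≤ C1 ^ 2 := pow_le_pow_left₀ (norm_nonneg _) h2 2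
  have h4 : ‖f‖ ^ 2 ≤ C2 ^ 2 := pow_le_pow_left₀ (norm_nonneg _) hf 2
  have h5 : Real.exp (B * (t + 1 - s)) ≤ Real.exp (2 * B) := by
    refine Real.exp_le_exp.2 ?_
    nlinarith
  have h6 : Real.exp (B * (t + 1 - s)) * ‖u (t + 1)‖ ^ 2 ≤ Real.exp (2 * B) * C1 ^ 2 :=
    mul_le_mul h5 h3 (sq_nonneg _) (Real.exp_pos _).le
  have hss : Real.sqrt δ * Real.sqrt δ = δ := Real.mul_self_sqrt hδ.le
  have h7 : 1 / Real.sqrt δ / 2 * ‖f‖ ^ 2 * (t - s) ≤ Real.sqrt δ * C2 ^ 2 := by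
    have h8 : 1 / Real.sqrt δ / 2 * ‖f‖ ^ 2 * (t - s) ≤ 1 / Real.sqrt δ / 2 * C2 ^ 2 * δ :=
      mul_le_mul (mul_le_mul_of_nonneg_left h4 (by positivity)) (by linarith) (by linarith)
        (by positivity)
    have h9 : 1 / Real.sqrt δ / 2 * C2 ^ 2 * δ = Real.sqrt δ * C2 ^ 2 / 2 := by
      rw [← hss]
      field_simp
      rw [Real.sqrt_sq hsq.le]
    have h10 : 0 ≤ Real.sqrt δ * C2 ^ 2 := by positivity
    linarith
  have h8 : 1 / (4 * (1 / Real.sqrt δ)) * (Real.exp (B * (t + 1 - s)) * ‖u (t + 1)‖ ^ 2) ≤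
      Real.sqrt δ * (Real.exp (2 * B) * C1 ^ 2) := by
    have h9 : 1 / (4 * (1 / Real.sqrt δ)) = Real.sqrt δ / 4 := by
      field_simp
    rw [h9]
    have h10 := mul_le_mul_of_nonneg_left h6 (by positivity : 0 ≤ Real.sqrt δ / 4)
    have h11 : 0 ≤ Real.sqrt δ * (Real.exp (2 * B) * C1 ^ 2) := by positivity
    linarith
  calc _ ≤ Real.sqrt δ * C2 ^ 2 + Real.sqrt δ * (Real.exp (2 * B) * C1 ^ 2) := add_le_add h7 h8
    _ = _ := by ring

/-- averaged pairings on `[s, s + δ]` -/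
theorem Reg.avg_pairing (h : Reg C u v) {s B C1 C2 δ c : ℝ} (hs : C.t0 ≤ s)
    (hδ : 0 < δ) (hδ1 : δ ≤ 1) (hB0 : 0 ≤ B)
    (hB : ∀ r ∈ Icc s (s + 2), C.b r ≤ B) (f : G) (hf : ‖f‖ ≤ C2) (hu : ‖u (s + 2)‖ ≤ C1)
    (hc : ⟪f, u s⟫_ℝ = c) :
    |(1 / δ) * (∫ t in s..(s + δ), ⟪f, u t⟫_ℝ) - c| ≤
      Real.sqrt δ * (C2 ^ 2 + Real.exp (2 * B) * C1 ^ 2) := by
  have cu : Continuous u := continuous_iff_continuousAt.2 fun t => (h.du t).continuousAt
  have cf : Continuous fun t => ⟪f, u t⟫_ℝ := continuous_const.inner cu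
  have h1 : ‖∫ t in s..(s + δ), (⟪f, u t⟫_ℝ - c)‖ ≤
      Real.sqrt δ * (C2 ^ 2 + Real.exp (2 * B) * C1 ^ 2) * |s + δ - s| := by
    refine intervalIntegral.norm_integral_le_of_norm_le_const fun t ht => ?_
    rw [uIoc_of_le (by linarith)] at ht
    rw [← hc, Real.norm_eq_abs]
    exact h.inner_sub_le' hs ht.1.le hδ hδ1 ht.2 hB0 hB f hf hu
  have h2 : ∫ t in s..(s + δ), (⟪f, u t⟫_ℝ - c) = (∫ t in s..(s + δ), ⟪f, u t⟫_ℝ) - δ * c := by
    rw [intervalIntegral.integral_sub (cf.intervalIntegrable _ _)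
      (continuous_const.intervalIntegrable _ _), intervalIntegral.integral_const]
    simp
  have e : s + δ - s = δ := by ring
  rw [h2, e, abs_of_pos hδ, Real.norm_eq_abs] at h1
  have h3 : (1 / δ) * (∫ t in s..(s + δ), ⟪f, u t⟫_ℝ) - c =
      ((∫ t in s..(s + δ), ⟪f, u t⟫_ℝ) - δ * c) / δ := by
    field_simp
  rw [h3, abs_div, abs_of_pos hδ, div_le_iff₀ hδ]
  exact h1

/-- the right hand side of the previous bounds is small for small `δ` -/
theorem exists_avg_delta (B C1 C2 : ℝ) {ε : ℝ} (hε : 0 < ε) :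
    ∃ δ : ℝ, 0 < δ ∧ δ ≤ 1 ∧ Real.sqrt δ * (C2 ^ 2 + Real.exp (2 * B) * C1 ^ 2) ≤ ε := by
  set R := C2 ^ 2 + Real.exp (2 * B) * C1 ^ 2 with hR
  have hR0 : 0 ≤ R := by positivity
  refine ⟨min 1 ((ε / (R + 1)) ^ 2), lt_min one_pos (by positivity), min_le_left _ _, ?_⟩
  have h1 : Real.sqrt (min 1 ((ε / (R + 1)) ^ 2)) ≤ ε / (R + 1) := by
    refine (Real.sqrt_le_sqrt (min_le_right _ _)).trans ?_
    rw [Real.sqrt_sq (by positivity)]
  calc _ ≤ ε / (R + 1) * R := mul_le_mul_of_nonneg_right h1 hR0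
    _ ≤ ε := by
      rw [div_mul_eq_mul_div, div_le_iff₀ (by positivity)]
      nlinarith

/-- diagonal dominance: a matrix close to the identity is invertible (closed condition) -/
theorem det_ne_zero_of_close {N : ℕ} (M : Matrix (Fin N) (Fin N) ℝ)
    (h : ∀ i j, |M i j - (if i = j then 1 else 0)| ≤ 1 / (2 * (N + 1))) : M.det ≠ 0 := by
  refine det_ne_zero_of_sum_row_lt_diag ?_
  intro k
  have hN : (0 : ℝ) < 2 * (N + 1) := by positivity
  have h1 : ∑ j ∈ Finset.univ.erase k, ‖M k j‖ ≤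
      ∑ _j ∈ Finset.univ.erase k, 1 / (2 * ((N : ℝ) + 1)) := by
    refine Finset.sum_le_sum fun j hj => ?_
    have hkj : k ≠ j := fun e => by simp [e] at hj
    have := h k j
    rw [if_neg hkj, sub_zero] at this
    exact this
  have h2 : ∑ _j ∈ Finset.univ.erase k, 1 / (2 * ((N : ℝ) + 1)) ≤
      (N : ℝ) * (1 / (2 * ((N : ℝ) + 1))) := by
    rw [Finset.sum_const, nsmul_eq_mul]
    refine mul_le_mul_of_nonneg_right ?_ (by positivity)
    have : (Finset.univ.erase k).card ≤ N := by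
      rw [Finset.card_erase_of_mem (Finset.mem_univ k), Finset.card_fin]
      omega
    exact_mod_cast this
  have h3 : (N : ℝ) * (1 / (2 * ((N : ℝ) + 1))) + 1 / (2 * ((N : ℝ) + 1)) = 1 / 2 := by
    field_simp
  have h4 := h k k
  rw [if_pos rfl] at h4
  have h5 : (1 : ℝ) - 1 / (2 * (N + 1)) ≤ ‖M k k‖ := by
    rw [Real.norm_eq_abs]
    have := (abs_le.1 h4).1
    have h6 := le_abs_self (M k k)
    linarith
  linarith

end Crest.Agent.R202.Gal
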