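import Crest.Agent.R202.BridB
import Crest.Agent.R202.GalNorm

/-!
# Row 202, bridge (helper684): the energy bound
-/

set_option autoImplicit false
open MeasureTheory Metric Set Filter Topology
open scoped ContDiff RealInnerProductSpace
open Crest.GeometryTopology.CoordMetric (pderiv)
open Crest.Agent.R202.SphDiv (polar)
open Crest.Agent.R202.Sph (ev ip)

namespace Crest.Agent.R202.Brid

noncomputable section

variable {n N : ℕ}

lemma norm_fderiv_sq (F : EuclideanSpace ℝ (Fin n) → ℝ) (x : EuclideanSpace ℝ (Fin n)) :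
    ‖fderiv ℝ F x‖ ^ 2 = ∑ i, pderiv i F x ^ 2 := by
  have h1 : ‖fderiv ℝ F x‖ = ‖(InnerProductSpace.toDual ℝ (EuclideanSpace ℝ (Fin n))).symm
      (fderiv ℝ F x)‖ := (LinearIsometryEquiv.norm_map _ _).symm
  rw [h1, EuclideanSpace.real_norm_sq_eq]
  refine Finset.sum_congr rfl fun i _ => ?_
  have h2 : ⟪(InnerProductSpace.toDual ℝ (EuclideanSpace ℝ (Fin n))).symm (fderiv ℝ F x),
      EuclideanSpace.single i (1 : ℝ)⟫ = fderiv ℝ F x (EuclideanSpace.single i 1) :=
    InnerProductSpace.toDual_symm_apply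
  rw [EuclideanSpace.inner_single_right] at h2
  unfold pderiv
  rw [← h2]; simp

/-- pointwise ellipticity -/
lemma norm_fderiv_sq_le {A : EuclideanSpace ℝ (Fin n) → Matrix (Fin n) (Fin n) ℝ} {lam : ℝ}
    (hell : ∀ x w : EuclideanSpace ℝ (Fin n),
      lam * ∑ i, w i * w i ≤ ∑ i, ∑ j, A x i j * w i * w j)
    (F : EuclideanSpace ℝ (Fin n) → ℝ) (x : EuclideanSpace ℝ (Fin n)) :
    lam * ‖fderiv ℝ F x‖ ^ 2 ≤ Lim.Q A F F x := by
  have h1 := hell x (WithLp.toLp 2 fun i => pderiv i F x)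
  rw [norm_fderiv_sq]
  unfold Lim.Q
  calc lam * ∑ i, pderiv i F x ^ 2 = lam * ∑ i, pderiv i F x * pderiv i F x := by
        congr 1
        exact Finset.sum_congr rfl fun i _ => sq _
    _ ≤ ∑ i, ∑ j, A x i j * pderiv i F x * pderiv j F x := h1
    _ = ∑ i, ∑ l, A x i l * pderiv l F x * pderiv i F x :=
        Finset.sum_congr rfl fun i _ => Finset.sum_congr rfl fun j _ => by ring

/-- **Energy on balls from a flux function.** -/
theorem energy_ball (hn : 0 < n) {A : EuclideanSpace ℝ (Fin n) → Matrix (Fin n) (Fin n) ℝ}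
    (hA : ∀ i l, Continuous fun x => A x i l) {lam : ℝ} (hlam : 0 < lam)
    (hell : ∀ x w : EuclideanSpace ℝ (Fin n),
      lam * ∑ i, w i * w i ≤ ∑ i, ∑ j, A x i j * w i * w j)
    {F : EuclideanSpace ℝ (Fin n) → ℝ} (hF : ContDiff ℝ 1 F) {Ψ : ℝ → ℝ} {R : ℝ} (hR : 0 ≤ R)
    (hΨc : ContinuousOn Ψ (Icc 0 R))
    (hΨd : ∀ r ∈ Ioo 0 R, HasDerivAt Ψ (r ^ (n - 1) * ∫ z : SphDiv.Sph n,
      Lim.Q A F F (r • (z : EuclideanSpace ℝ (Fin n))) ∂(SphDiv.sig n)) r) :
    ∫ x in ball (0 : EuclideanSpace ℝ (Fin n)) R, ‖fderiv ℝ F x‖ ^ 2 ≤ lam⁻¹ * (Ψ R - Ψ 0) := by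
  have hQc : Continuous (Lim.Q A F F) := Lim.continuous_Q hA hF hF
  have hfc : Continuous fun x => ‖fderiv ℝ F x‖ ^ 2 :=
    ((hF.continuous_fderiv (by norm_num)).norm).pow 2
  have hi : ∀ g : EuclideanSpace ℝ (Fin n) → ℝ, Continuous g →
      IntegrableOn g (ball (0 : EuclideanSpace ℝ (Fin n)) R) := fun g hg =>
    (hg.continuousOn.integrableOn_compact (isCompact_closedBall _ _)).mono_set
      ball_subset_closedBall
  have hpos : ∀ x, 0 ≤ Lim.Q A F F x := fun x =>
    le_trans (by positivity) (norm_fderiv_sq_le hell F x)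
  have h1 : lam * ∫ x in ball (0 : EuclideanSpace ℝ (Fin n)) R, ‖fderiv ℝ F x‖ ^ 2
      ≤ ∫ x in ball (0 : EuclideanSpace ℝ (Fin n)) R, Lim.Q A F F x := by
    rw [← integral_const_mul]
    exact setIntegral_mono (hi _ (continuous_const.mul hfc)) (hi _ hQc)
      fun x => norm_fderiv_sq_le hell F x
  have h2 : ∫ x in ball (0 : EuclideanSpace ℝ (Fin n)) R, Lim.Q A F F x = Ψ R - Ψ 0 := by
    rw [integral_ball_polar hn hQc R]
    set g' : ℝ → ℝ := fun r => r ^ (n - 1) * ∫ z : SphDiv.Sph n,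
      Lim.Q A F F (r • (z : EuclideanSpace ℝ (Fin n))) ∂(SphDiv.sig n) with hg'
    have hg'pos : ∀ r ∈ Ioo (0 : ℝ) R, 0 ≤ g' r := fun r hr =>
      mul_nonneg (pow_nonneg hr.1.le _) (integral_nonneg fun z => hpos _)
    rw [← integral_Ioc_eq_integral_Ioo, ← intervalIntegral.integral_of_le hR]
    refine intervalIntegral.integral_eq_sub_of_hasDerivAt_of_le hR hΨc (fun r hr => hΨd r hr) ?_
    refine intervalIntegral.intervalIntegrable_deriv_of_nonneg (g := Ψ) ?_ ?_ ?_
    · rwa [uIcc_of_le hR]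
    · intro r hr
      rw [min_eq_left hR, max_eq_right hR] at hr
      exact hΨd r hr
    · intro r hr
      rw [min_eq_left hR, max_eq_right hR] at hr
      exact hg'pos r hr
  rw [h2] at h1
  calc ∫ x in ball (0 : EuclideanSpace ℝ (Fin n)) R, ‖fderiv ℝ F x‖ ^ 2
      = lam⁻¹ * (lam * ∫ x in ball (0 : EuclideanSpace ℝ (Fin n)) R, ‖fderiv ℝ F x‖ ^ 2) := by
        field_simp
    _ ≤ lam⁻¹ * (Ψ R - Ψ 0) := mul_le_mul_of_nonneg_left h1 (by positivity)

/-- **Energy bound from the Galerkin flux.** -/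
theorem energy_of_reg (hn : 0 < n) {A : EuclideanSpace ℝ (Fin n) → Matrix (Fin n) (Fin n) ℝ}
    (hA : ∀ i l, Continuous fun x => A x i l) {lam : ℝ} (hlam : 0 < lam)
    (hell : ∀ x w : EuclideanSpace ℝ (Fin n),
      lam * ∑ i, w i * w i ≤ ∑ i, ∑ j, A x i j * w i * w j)
    {F : EuclideanSpace ℝ (Fin n) → ℝ} (hF : ContDiff ℝ 1 F)
    {G : Type*} [NormedAddCommGroup G] [InnerProductSpace ℝ G] {C : Gal.Coef G}
    {u v : ℝ → G} (h : Gal.Reg C u v) (ht0 : C.t0 ≤ 0)
    (hbd : ∃ M, ∀ t ≤ C.t0, ‖u t‖ ≤ M ∧ ‖v t‖ ≤ M)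
    (hS1 : ∀ r, 0 < r → r ^ (n - 1) * ∫ z : SphDiv.Sph n,
      Lim.Q A F F (r • (z : EuclideanSpace ℝ (Fin n))) ∂(SphDiv.sig n)
      = r⁻¹ * (C.wt (Real.log r) *
        (‖v (Real.log r)‖ ^ 2 + ⟪C.K (Real.log r) (u (Real.log r)), u (Real.log r)⟫)))
    {B : ℝ} (hB : ∀ t, C.b t ≤ B) {R : ℝ} (hR : 1 ≤ R) :
    ∫ x in ball (0 : EuclideanSpace ℝ (Fin n)) R, ‖fderiv ℝ F x‖ ^ 2
      ≤ lam⁻¹ * (Real.exp (B * (Real.log R + 1 - C.t0)) / 2 * ‖u (Real.log R + 1)‖ ^ 2) := by
  classical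
  set Φ : ℝ → ℝ := fun t => C.wt t * ⟪v t, u t⟫ with hΦ
  set Ψ : ℝ → ℝ := fun r => if 0 < r then Φ (Real.log r) else 0 with hΨ
  have hΨ0 : Ψ 0 = 0 := by simp [hΨ]
  have hΨpos : ∀ r, 0 < r → Ψ r = Φ (Real.log r) := fun r hr => by simp only [hΨ, hr, if_true]
  have hΦd : ∀ t, HasDerivAt Φ (C.wt t * (‖v t‖ ^ 2 + ⟪C.K t (u t), u t⟫)) t :=
    fun t => h.hasDerivAt_flux t
  have hR0 : 0 < R := by linarith
  have hder : ∀ r, 0 < r → HasDerivAt Ψ (r⁻¹ * (C.wt (Real.log r) *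
        (‖v (Real.log r)‖ ^ 2 + ⟪C.K (Real.log r) (u (Real.log r)), u (Real.log r)⟫))) r := by
    intro r hr
    have h1 : HasDerivAt (fun r => Φ (Real.log r)) ((C.wt (Real.log r) *
        (‖v (Real.log r)‖ ^ 2 + ⟪C.K (Real.log r) (u (Real.log r)), u (Real.log r)⟫)) * r⁻¹) r :=
      (hΦd (Real.log r)).comp r (Real.hasDerivAt_log hr.ne')
    rw [mul_comm] at h1
    refine h1.congr_of_eventuallyEq ?_
    filter_upwards [Ioi_mem_nhds hr] with s hs
    exact hΨpos s hs
  obtain ⟨M, hM⟩ := hbd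
  have hcont : ContinuousOn Ψ (Icc 0 R) := by
    intro r hr
    rcases hr.1.eq_or_lt with h0 | h0
    · subst h0
      have hM0 : 0 ≤ M := (norm_nonneg _).trans (hM C.t0 le_rfl).1
      -- `Ψ r → 0`
      have hwt : Tendsto (fun r => C.wt (Real.log r) * (M * M)) (𝓝[>] 0) (𝓝 0) := by
        have h2 : Tendsto (fun t => C.wt t) atBot (𝓝 0) := by
          have h3 : ∀ t ≤ C.t0, C.wt t ≤ Real.exp (1 / 2 * (t - C.t0)) := by
            intro t ht
            have h4 := C.wt_exp ht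
            rw [C.wt_t0] at h4
            have h5 : Real.exp (1 / 2 * (t - C.t0)) * Real.exp ((C.t0 - t) / 2) = 1 := by
              rw [← Real.exp_add]; ring_nf; exact Real.exp_zero
            have h6 := Real.exp_pos (1 / 2 * (t - C.t0))
            have h7 := Real.exp_pos ((C.t0 - t) / 2)
            calc C.wt t = (C.wt t * Real.exp ((C.t0 - t) / 2)) * Real.exp (1 / 2 * (t - C.t0)) := by
                  rw [mul_assoc, mul_comm (Real.exp ((C.t0 - t) / 2)), h5, mul_one]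
              _ ≤ 1 * Real.exp (1 / 2 * (t - C.t0)) := mul_le_mul_of_nonneg_right h4 h6.le
              _ = _ := one_mul _
          refine tendsto_of_tendsto_of_tendsto_of_le_of_le' tendsto_const_nhds
            (h := fun t => Real.exp (1 / 2 * (t - C.t0))) ?_
            (Eventually.of_forall fun t => (C.wt_pos t).le) ?_
          · refine Real.tendsto_exp_atBot.comp ?_
            refine Tendsto.const_mul_atBot (by norm_num) ?_
            exact tendsto_atBot_add_const_right _ _ tendsto_id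
          · filter_upwards [eventually_le_atBot C.t0] with t ht using h3 t ht
        have h8 := (h2.comp Real.tendsto_log_nhdsGT_zero).mul_const (M * M)
        simpa using h8
      have hsq : Tendsto Ψ (𝓝[>] 0) (𝓝 0) := by
        refine squeeze_zero_norm' ?_ hwt
        have hev : ∀ᶠ r in 𝓝[>] (0 : ℝ), Real.log r ≤ C.t0 :=
          Real.tendsto_log_nhdsGT_zero.eventually (eventually_le_atBot C.t0)
        filter_upwards [hev, self_mem_nhdsWithin] with r hr1 hr2
        rw [hΨpos r hr2, Real.norm_eq_abs, hΦ]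
        simp only
        rw [abs_mul, abs_of_pos (C.wt_pos _)]
        refine mul_le_mul_of_nonneg_left ?_ (C.wt_pos _).le
        refine (abs_real_inner_le_norm _ _).trans ?_
        exact mul_le_mul (hM _ hr1).2 (hM _ hr1).1 (norm_nonneg _) hM0
      have h9 : ContinuousWithinAt Ψ (Ioi 0) 0 := by
        rw [ContinuousWithinAt, hΨ0]; exact hsq
      have h10 : ContinuousWithinAt Ψ (Ici 0) 0 := by
        have := continuousWithinAt_Ioi_iff_Ici.mp h9
        exact this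
      exact h10.mono Icc_subset_Ici_self
    · exact (hder r h0).continuousAt.continuousWithinAt
  have h11 := energy_ball hn hA hlam hell hF (Ψ := Ψ) hR0.le hcont (fun r hr => by
    rw [hS1 r hr.1]; exact hder r hr.1)
  refine h11.trans (mul_le_mul_of_nonneg_left ?_ (by positivity))
  rw [hΨ0, sub_zero, hΨpos R hR0]
  have hlog : 0 ≤ Real.log R := Real.log_nonneg hR
  have h12 := h.flux_le (s := Real.log R) (t := Real.log R + 1) (ht0.trans hlog) (by linarith)
  have e : Real.log R + 1 - Real.log R = 1 := by ring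
  rw [e, one_mul] at h12
  refine h12.trans (mul_le_mul_of_nonneg_right ?_ (sq_nonneg _))
  have h13 := C.wt_le (s := C.t0) (t := Real.log R + 1) (B := B) (by linarith)
    (fun r _ => hB r)
  rw [C.wt_t0, one_mul] at h13
  linarith

end

end Crest.Agent.R202.Brid
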