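import Crest.Agent.R202.BridG
import Crest.Agent.R202.GalFlow

/-!
# Row 202, bridge (helper684): normalised solutions in one sector
-/

set_option autoImplicit false
open MeasureTheory Metric Set Filter Topology
open scoped ContDiff RealInnerProductSpace

namespace Crest.Agent.R202.Brid

open Crest.Agent.R202.Gal

variable {G : Type*} [NormedAddCommGroup G] [InnerProductSpace ℝ G]

/-- **Normalised solutions.** `J w` = initial vector of the solution with boundary data `w`. -/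
theorem sector_solutions {C : Coef G} {U V : ℝ → G →L[ℝ] G} (hsol : Sol C U V) (ht0 : C.t0 = 0)
    {N P : ℕ} {tm tp : ℕ → ℝ} (h0 : 0 ≤ tm 0) (h1 : ∀ q, q ≤ P → tm q ≤ tp q)
    (h2 : ∀ q, q < P → tp q ≤ tm (q + 1)) {k Cm Cd : ℝ} (hk : 0 ≤ k) (hCm : 0 ≤ Cm)
    (J : (Fin N → ℝ) → G)
    (hb : ∀ w, ∀ q, q ≤ P → ‖U (tp q) (J w)‖ ≤
      Cm * Real.exp (k * ∑ i ∈ Finset.range q, (tp i - tm i)) * ‖U (tm 0) (J w)‖)
    (F : Fin N → G) (w : Fin N → Fin N → ℝ)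
    (hdual : ∀ i j, ⟪F i, U (tm 0) (J (w j))⟫ = if i = j then 1 else 0)
    (hw : ∀ j, ‖U (tm 0) (J (w j))‖ ≤ Cd) :
    (∀ c, Reg C (fun t => U t (J (w c))) (fun t => V t (J (w c)))) ∧
    (∀ c t, 0 ≤ t → t ≤ tp P → ‖U t (J (w c))‖ ≤ Cm * Cd * Real.exp (k * max t 0)) ∧
    ∀ {B C2 dl ε : ℝ}, 0 ≤ B → (∀ t, C.b t ≤ B) → (∀ i, ‖F i‖ ≤ C2) → 0 < dl → dl ≤ 1 →
      tm 0 + 2 ≤ tp P →
      Real.sqrt dl * (C2 ^ 2 + Real.exp (2 * B) *
        (Cm * Cd * Real.exp (k * (tm 0 + 2))) ^ 2) ≤ ε →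
      ∀ i c, ∀ t ∈ Icc (tm 0) (tm 0 + dl),
        |⟪F i, U t (J (w c))⟫ - if i = c then 1 else 0| ≤ ε := by
  have hgrow : ∀ c t, 0 ≤ t → t ≤ tp P → ‖U t (J (w c))‖ ≤ Cm * Cd * Real.exp (k * max t 0) := by
    intro c t h3 h4
    have hCd : 0 ≤ Cd := (norm_nonneg _).trans (hw c)
    have h5 := growth_steps (n := fun t => ‖U t (J (w c))‖) (t0 := 0)
      (fun s t hs hst => hsol.norm_mono (by rw [ht0]; exact hs) hst (J (w c)))
      h0 h1 h2 hk (mul_nonneg hCm hCd) (fun q hq => by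
        refine (hb (w c) q hq).trans ?_
        calc Cm * Real.exp (k * ∑ i ∈ Finset.range q, (tp i - tm i)) * ‖U (tm 0) (J (w c))‖
            ≤ Cm * Real.exp (k * ∑ i ∈ Finset.range q, (tp i - tm i)) * Cd :=
              mul_le_mul_of_nonneg_left (hw c) (mul_nonneg hCm (Real.exp_pos _).le)
          _ = Cm * Cd * Real.exp (k * ∑ i ∈ Finset.range q, (tp i - tm i)) := by ring) t h3 h4
    refine h5.trans (mul_le_mul_of_nonneg_left (Real.exp_le_exp.mpr ?_) (mul_nonneg hCm hCd))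
    refine mul_le_mul_of_nonneg_left ?_ hk
    exact max_le_max (by linarith) le_rfl
  refine ⟨fun c => hsol.reg _, hgrow, ?_⟩
  intro B C2 dl ε hB0 hB hF hdl hdl1 htp hε i c t ht
  have hCd : 0 ≤ Cd := (norm_nonneg _).trans (hw c)
  have h3 := hgrow c (tm 0 + 2) (by linarith) htp
  rw [max_eq_left (by linarith)] at h3
  have h4 := (hsol.reg (J (w c))).inner_sub_le' (s := tm 0) (t := t) (δ := dl)
    (by rw [ht0]; exact h0) ht.1 hdl hdl1 ht.2 hB0 (fun r _ => hB r) (F i) (hF i) h3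
  rw [hdual i c] at h4
  exact h4.trans hε

end Crest.Agent.R202.Brid
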