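import Crest.Agent.R202.TopDefs
import Crest.Agent.R202.AsmTop

/-!
Row 202, GLUE (helper632): `MainThm m` from `RicThm m`, `CThm m` and `BExport m`.
-/

set_option autoImplicit false

open scoped ContDiff
open Set Filter Topology MeasureTheory Metric
open Crest.GeometryTopology.CoordMetric
open Crest.Agent.R202.Geo Crest.Agent.R202.Main Crest.Agent.R202.CT Crest.Agent.R202.Sch
open Crest.Agent.R202.Mix (MixData SecData Sched Fits Cube mixing)

noncomputable section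

namespace Crest.Agent.R202.Top

variable {m : ℕ} {v : ℝ} {k : ℕ} {D : CountData m v k} {εh : ℝ}

theorem extκ_mem {P : ℕ} (κ : Cube P) (q : ℕ) : extκ κ q ∈ Icc (-1 : ℝ) 1 := by
  unfold extκ
  split_ifs with h
  · exact (κ ⟨q, h⟩).2
  · exact ⟨by norm_num, le_rfl⟩

/-- uniform bounds for the scheduled data -/
theorem Choice.exists_bd (c : Choice D εh) : ∃ K : ℝ, ∀ A : ℝ, 0 < A → ∀ (j : ℕ → Gate D)
    (κ : ℕ → ℝ), (∀ q, κ q ∈ Icc (-1 : ℝ) 1) →
    Fam.Bd (sfv m v) (c.th A j κ) (c.P A j κ) K := by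
  set y1 := D.b1 with hy1
  set sI := -Real.log v / ((m : ℝ) + 2) with hsI
  have hsI0 : 0 < sI := c.sI_pos
  have hb1 : 1 < y1 := D.b0_gt.trans D.b01
  refine ⟨sI + y1 + 2, fun A hA j κ hκ => ?_⟩
  have hK : 0 < sI + y1 + 2 := by linarith
  have key : ∀ y ∈ Icc 1 y1, ∀ G : ℝ → ℂ → ℝ, (∀ X u, |G X u| ≤ 1 / 2) →
      (sI + y1 + 2)⁻¹ ≤ y⁻¹ ∧ ∀ X u, (sI + y1 + 2)⁻¹ ≤ Ptip c.h y X u + G X u ∧
        Ptip c.h y X u + G X u ≤ sI + y1 + 2 := by
    intro y hy G hG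
    have hy0 : 0 < y := by linarith [hy.1]
    refine ⟨inv_anti₀ hy0 (by linarith [hy.2]), fun X u => ?_⟩
    have h1 : 1 ≤ Ptip c.h y X u ∧ Ptip c.h y X u ≤ y := by
      unfold Ptip
      have e1 := c.prof.nonneg X
      have e2 := c.prof.le_one X
      have e3 : 0 ≤ y - 1 := by linarith [hy.1]
      constructor <;> nlinarith
    have h2 := abs_le.1 (hG X u)
    have h3 : (sI + y1 + 2)⁻¹ ≤ 1 / 2 := by
      rw [one_div]
      exact inv_anti₀ (by norm_num) (by linarith)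
    constructor
    · linarith [h2.1]
    · linarith [h2.2, hy.2]
  have hall := forall_datum (yInst c.prof D.b0_gt.le)
    (fun q => (c.L (j q)).toLoop c.prof D.b0_gt.le) κ hA hκ
    (D := fun θ P => (sI + y1 + 2)⁻¹ ≤ θ ∧ ∀ X u, (sI + y1 + 2)⁻¹ ≤ P X u ∧
      P X u ≤ sI + y1 + 2) ?_ ?_
  · exact {
      one_le := by linarith
      s_le := fun t => by
        have h1 := sf_nonneg hsI0 t
        have h2 := sf_lt hsI0 t
        change |sf sI t| ≤ _
        rw [abs_of_nonneg h1]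
        linarith
      θ_ge := fun t => (hall t).1
      P_ge := fun t X u => ((hall t).2 X u).1
      P_le := fun t X u => ((hall t).2 X u).2 }
  · intro τ _
    have h1 := yI_mem D.b0_gt.le τ
    have h2 := key (yI D.b0 τ) ⟨h1.1, h1.2.trans D.b01.le⟩ (fun _ _ => 0) (fun _ _ => by simp)
    refine ⟨h2.1, fun X u => ?_⟩
    have h3 := h2.2 X u
    simp only [add_zero] at h3
    exact h3
  · intro q τ _ κ' hκ'
    have h1 := (c.L (j q)).y_mem τ
    exact key ((c.L (j q)).y τ) ⟨D.b0_gt.le.trans h1.1, h1.2⟩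
      (fun X u => (c.L (j q)).Gh τ κ' X (ret u))
      (fun X u => (c.L (j q)).Gh_small τ κ' hκ' X (ret u) (norm_ret_le u))

instance finite_gate : Finite (Gate D) := by
  have h1 : ({j : (ℕ × ℕ) × ℕ | j.1 ∈ D.S ∧ D.i0 j.1 ≤ j.2 ∧ j.2 < D.N j.1}).Finite := by
    refine Set.Finite.subset
      ((D.S ×ˢ Finset.range ((D.S.sup D.N) + 1) : Finset ((ℕ × ℕ) × ℕ)).finite_toSet) ?_
    rintro ⟨σ, l⟩ ⟨h1, h2, h3⟩
    simp only [Finset.coe_product, Finset.coe_range, mem_prod, Finset.mem_coe, mem_Iio]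
    refine ⟨h1, ?_⟩
    have : D.N σ ≤ D.S.sup D.N := Finset.le_sup (f := D.N) h1
    simp only at h3
    omega
  exact h1.to_subtype

theorem exists_slots (D : CountData m v k) : Nonempty (Slots D) := by
  classical
  have hM : 0 < ∑ σ : Sec D, (D.N σ.1 - D.i0 σ.1) := by
    obtain ⟨σ, hσ⟩ := D.S_ne
    have h1 : 0 < D.N σ - D.i0 σ := by have := D.i0_lt σ hσ; omega
    refine lt_of_lt_of_le h1 ?_
    exact Finset.single_le_sum (f := fun σ : Sec D => D.N σ.1 - D.i0 σ.1)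
      (fun _ _ => Nat.zero_le _) (Finset.mem_univ ⟨σ, hσ⟩)
  obtain ⟨jt, off, h⟩ := exists_schedule (fun σ : Sec D => D.N σ.1 - D.i0 σ.1) hM
  refine ⟨{
    jt := fun q => ⟨((jt q).1.1, D.i0 (jt q).1.1 + (jt q).2), (jt q).1.2, Nat.le_add_right _ _, ?_⟩
    off := off
    M := ∑ σ : Sec D, (D.N σ.1 - D.i0 σ.1)
    M_pos := hM
    hM := fun σ => Finset.single_le_sum (f := fun σ : Sec D => D.N σ.1 - D.i0 σ.1)
      (fun _ _ => Nat.zero_le _) (Finset.mem_univ σ)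
    active := fun q σ => ?_
    cut := fun q σ hσ => ?_ }⟩
  · have := (jt q).2.2
    simp only at this ⊢
    omega
  · rw [(h q σ).1]
    constructor
    · intro h; simp [h]
    · intro h; exact Subtype.ext h
  · have h1 : (jt q).1 = σ := Subtype.ext hσ
    have h2 := (h q σ).2 h1
    simp only
    rw [h2, h1]

/-- **THE MAIN THEOREM**, from the Ricci theorem, Part C and Part B. -/
theorem mainThm_of (hR : RicThm m) (hC : CThm m) (hB : BExport m) : MainThm m := by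
  classical
  intro v k D
  obtain ⟨εh, hεh, HB⟩ := hB v k D
  obtain ⟨c⟩ := exists_choice hC D hεh
  obtain ⟨K, C, hK, hC0, A1, hA1, HG⟩ := sched_geoOut hR c.μ_pos D.v_pos D.v_lt c.δ_pos c.X0_pos
    c.X0a c.Xab.le c.Xb1 c.X1_lt c.prof D.b0_gt.le c.hnum c.L c.cT D.b01.le c.cL
  have hmv : ∀ (j : ℕ → Gate D), ∀ N : ℕ, ∃ q, N ≤ q ∧ ∃ τ ∈ Icc (0 : ℝ) 1,
      D.b0 < (c.L (j q)).y τ := fun j N => by
    obtain ⟨τ, hτ, h1⟩ := c.moves (j N)
    exact ⟨N, le_rfl, τ, Ioo_subset_Icc_self hτ, h1⟩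
  have hOK : c.SchedOK K C A1 := fun A hA j κ hκ => by
    obtain ⟨h1, h2, -⟩ := HG A hA j κ hκ (hmv j)
    exact ⟨h1, h2⟩
  obtain ⟨A0, HA⟩ := HB c K C A1 hK hC0 hA1 hOK
  obtain ⟨A, hAA0, hAA1⟩ : ∃ A : ℝ, A0 ≤ A ∧ A1 ≤ A := ⟨max A0 A1, le_max_left _ _, le_max_right _ _⟩
  have hApos : 0 < A := by linarith
  obtain ⟨sl⟩ := exists_slots D
  obtain ⟨sd, S, hsd, hSM, hmean, H⟩ := HA A hAA0 hAA1 sl
  obtain ⟨Cm, hCm, Hmix⟩ := mixing sd S (fun σ => by
      rw [(hsd σ).1, (hsd σ).2.1, hSM]; exact sl.hM σ)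
    (fun q σ σ' h1 h2 => by
      rw [(hsd σ).1, (hsd σ).2.1, (hsd σ).2.2, hSM] at h1
      rw [(hsd σ').1, (hsd σ').2.1, (hsd σ').2.2, hSM] at h2
      exact Subtype.ext (((sl.active q σ).1 h1).symm.trans ((sl.active q σ').1 h2)))
    (K := k) hmean
  obtain ⟨B, HP⟩ := H Cm
  choose Hs i1 i2 MD hfit HF using HP
  have hκ : ∀ P : ℕ, ∃ κ : Cube P, ∀ σ, ∀ q ≤ P, ∀ u,
      ‖(MD P σ).Jm q κ u‖ ≤
        Cm * Real.exp (k * ∑ i ∈ Finset.range q, S.T i) * ‖(MD P σ).Jm 0 κ u‖ ∧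
      ‖(MD P σ).Jp q κ u‖ ≤
        Cm * Real.exp (k * ∑ i ∈ Finset.range q, S.T i) * ‖(MD P σ).Jm 0 κ u‖ := fun P =>
    Hmix P (Hs P) (MD P) (hfit P)
  choose κ hκ using hκ
  choose F hF using fun P => HF P (κ P) (hκ P)
  -- the limit parameter
  set κs : ℕ → ℕ → ℝ := fun P => extκ (κ P) with hκs
  have hκs0 : ∀ P q, κs P q ∈ Icc (-1 : ℝ) 1 := fun P q => extκ_mem (κ P) q
  set 𝒰 : Ultrafilter ℕ := Filter.hyperfilter ℕ with h𝒰
  have h𝒰top : (𝒰 : Filter ℕ) ≤ atTop := by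
    rw [← Nat.cofinite_eq_atTop]
    exact Filter.hyperfilter_le_cofinite
  have hlim : ∀ q, ∃ x ∈ Icc (-1 : ℝ) 1, Tendsto (fun P => κs P q) 𝒰 (𝓝 x) := by
    intro q
    obtain ⟨x, hx, hx2⟩ := isCompact_Icc.ultrafilter_le_nhds (𝒰.map fun P => κs P q) (by
      rw [Filter.le_principal_iff, Ultrafilter.mem_coe, Ultrafilter.mem_map]
      exact Filter.mem_of_superset Filter.univ_mem fun P _ => hκs0 P q)
    exact ⟨x, hx, hx2⟩
  choose κ' hκ'0 hκ' using hlim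
  -- geometry of the limit
  obtain ⟨hFam, -, hGeo⟩ := HG A hAA1 sl.jt κ' hκ'0 (hmv _)
  obtain ⟨Kb, hKb⟩ := c.exists_bd
  have hBd := hKb A hApos sl.jt κ' hκ'0
  have hconv := fun R ε hε => coefF_hconv (m := m) (sI := -Real.log v / ((m : ℝ) + 2))
    (I := yInst c.prof D.b0_gt.le) (G := fun q => (c.L (sl.jt q)).toLoop c.prof D.b0_gt.le)
    (t0 := 0) (X0 := c.X0) (X1 := c.X1) hApos
    (fun κ hκ => (HG A hAA1 sl.jt κ hκ (hmv _)).1) (l := (𝒰 : Filter ℕ)) hκs0 hκ'0 hκ' R ε hε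
  -- the functions
  let L : LimFam m (Idx D) k (fun P => c.coef A sl.jt (κs P)) := {
    F := F
    r0 := B.r0
    r0_pos := B.r0_pos
    reg := fun n j => (hF n).reg j
    w0 := fun j φ h1 h2 h3 => Eventually.of_forall fun n => (hF n).w0 j φ h1 h2 h3
    w1 := fun j χ h1 h2 h3 p => (eventually_ge_atTop p.totalDegree).mono fun n hn =>
      (hF n).w1 j χ h1 h2 h3 p hn
    energy := fun R => ⟨B.CE R, (eventually_ge_atTop ⌈R⌉₊).mono fun n hn j =>
      (hF n).energy R ((Nat.le_ceil R).trans (by exact_mod_cast hn)) j⟩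
    C0 := B.C0
    growth := fun R hR => (eventually_ge_atTop ⌈R⌉₊).mono fun n hn j =>
      (hF n).growth R hR ((Nat.le_ceil R).trans (by exact_mod_cast hn)) j
    φ := B.φ
    φ_L2 := B.φ_L2
    φ_supp := B.φ_supp
    ε := B.ε
    ε_lt := B.ε_lt
    pair := Eventually.of_forall fun n => (hF n).pair }
  obtain ⟨f, hf1, hf2⟩ := harmonic_of_limFam hFam hBd L 𝒰 h𝒰top
    (Eventually.of_forall fun n i l =>
      ((HG A hAA1 sl.jt (κs n) (hκs0 n) (hmv _)).1.contDiff_coefF i l).continuous) hconv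
  exact ⟨_, hGeo, f, hf1, hf2⟩

end Crest.Agent.R202.Top
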