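import Crest.Agent.R202.BridH
import Crest.Agent.R202.BFlowTop
import Crest.Agent.R202.BFinMix
import Crest.Agent.R202.BFinNorm
import Crest.Agent.R202.WgtSepC
import Crest.Agent.R202.Top

/-!
# Row 202, bridge (helper684): the solutions of one sector
-/

set_option autoImplicit false
open MeasureTheory Metric Set Filter Topology
open scoped ContDiff InnerProductSpace
open Crest.Agent.R202.Jac (SepF)
open Crest.Agent.R202.Seg (PCone)
open Crest.Agent.R202.Sch (hs he Th Tg)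

namespace Crest.Agent.R202.Brid

section LinAlg

variable {G : Type*} [NormedAddCommGroup G] [InnerProductSpace ℝ G]

/-- the `N` lowest eigenvectors are below the lower constant of every separating frame -/
theorem low_le_of_sepF {N : ℕ} {H : G →L[ℝ] G} {e : Fin N → G} {lam : Fin N → ℝ}
    (he : Orthonormal ℝ e) (hHe : ∀ i, H (e i) = lam i • e i)
    (hsymm : ∀ x y, ⟪H x, y⟫_ℝ = ⟪x, H y⟫_ℝ) {a b : ℝ} (hab : a ≤ b)
    (hlow : ∀ x ∈ Submodule.span ℝ (range e), ⟪H x, x⟫_ℝ ≤ a * ‖x‖ ^ 2)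
    (hhigh : ∀ x, (∀ i, ⟪e i, x⟫_ℝ = 0) → b * ‖x‖ ^ 2 ≤ ⟪H x, x⟫_ℝ)
    {F : Fin N → G} {A B : ℝ} (hF : SepF H F A B) :
    ∀ x ∈ Submodule.span ℝ (range e), ⟪H x, x⟫_ℝ ≤ A * ‖x‖ ^ 2 := by
  classical
  have hlam : ∀ i, lam i ≤ A := by
    intro i
    have h1 : lam i ≤ a := by
      have h2 := hlow (e i) (Submodule.subset_span ⟨i, rfl⟩)
      rw [hHe, real_inner_smul_left, real_inner_self_eq_norm_sq, he.1 i] at h2
      linarith
    -- a vector in the span of `F`, orthogonal to the other `e j`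
    set T : (Fin N → ℝ) →ₗ[ℝ] ({j : Fin N // j ≠ i} → ℝ) :=
      LinearMap.pi fun j => (innerSL ℝ (e j.1)).toLinearMap ∘ₗ Fintype.linearCombination ℝ F
      with hT
    have hTa : ∀ c j, T c j = ⟪e j.1, ∑ l, c l • F l⟫_ℝ := by
      intro c j
      simp [hT, Fintype.linearCombination_apply]
    have hker : LinearMap.ker T ≠ ⊥ := by
      refine LinearMap.ker_ne_bot_of_finrank_lt ?_
      rw [Module.finrank_fintype_fun_eq_card, Module.finrank_fintype_fun_eq_card]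
      simp only [ne_eq, Fintype.card_subtype_compl, Fintype.card_fin, Fintype.card_unique]
      have := i.2
      omega
    obtain ⟨c, hc, hc0⟩ := Submodule.exists_mem_ne_zero_of_ne_bot hker
    set x : G := ∑ l, c l • F l with hx
    have hxe : ∀ j, j ≠ i → ⟪e j, x⟫_ℝ = 0 := by
      intro j hj
      have := congrFun (LinearMap.mem_ker.1 hc) ⟨j, hj⟩
      rw [hTa] at this
      exact this
    have hx0 : x ≠ 0 := by
      intro h0
      exact hc0 (funext ((Fintype.linearIndependent_iff.1 hF.li) c h0))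
    have hxF : x ∈ Submodule.span ℝ (range F) := by
      rw [hx]
      exact Submodule.sum_mem _ fun l _ => Submodule.smul_mem _ _ (Submodule.subset_span ⟨l, rfl⟩)
    set α : ℝ := ⟪e i, x⟫_ℝ with hα
    set y : G := x - α • e i with hy
    have hye : ∀ j, ⟪e j, y⟫_ℝ = 0 := by
      intro j
      rw [hy, inner_sub_right, real_inner_smul_right]
      by_cases hj : j = i
      · subst hj
        rw [real_inner_self_eq_norm_sq, he.1]; simp [hα]
      · rw [hxe j hj, he.2 hj]; simp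
    have hxy : x = α • e i + y := by rw [hy]; abel
    have h3 : ‖x‖ ^ 2 = α ^ 2 + ‖y‖ ^ 2 := by
      rw [hxy, norm_add_sq_real, real_inner_smul_left, hye i, norm_smul, he.1 i]
      simp
    have h4 : ⟪H x, x⟫_ℝ = lam i * α ^ 2 + ⟪H y, y⟫_ℝ := by
      have h5 : ⟪H y, e i⟫_ℝ = 0 := by
        rw [hsymm, hHe, real_inner_smul_right, real_inner_comm, hye i, mul_zero]
      rw [hxy, map_add, map_smul, hHe, inner_add_left, inner_add_right, inner_add_right,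
        real_inner_smul_left, real_inner_smul_left, real_inner_smul_left, real_inner_smul_left,
        hye i, real_inner_smul_right, real_inner_smul_right, h5, real_inner_self_eq_norm_sq,
        he.1 i]
      ring
    have h6 := hF.le x hxF
    have h7 := hhigh y hye
    have h8 : 0 < ‖x‖ ^ 2 := by positivity
    by_contra hneg
    push Not at hneg
    have h9 : b * ‖y‖ ^ 2 ≥ lam i * ‖y‖ ^ 2 :=
      mul_le_mul_of_nonneg_right (h1.trans hab) (sq_nonneg _)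
    have h10 : lam i * ‖x‖ ^ 2 ≤ A * ‖x‖ ^ 2 := by
      rw [h3] at h6 ⊢
      rw [h4] at h6
      nlinarith
    have := mul_lt_mul_of_pos_right hneg h8
    linarith
  intro x hx
  obtain ⟨c, rfl⟩ := (Submodule.mem_span_range_iff_exists_fun ℝ).1 hx
  have h1 : ⟪H (∑ i, c i • e i), ∑ i, c i • e i⟫_ℝ = ∑ i, lam i * c i ^ 2 := by
    rw [map_sum]
    have h2 : ∀ i, H (c i • e i) = (c i * lam i) • e i := fun i => by
      rw [map_smul, hHe, smul_smul]
    simp only [h2]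
    rw [he.inner_sum]
    refine Finset.sum_congr rfl fun i _ => ?_
    simp; ring
  have h3 : ‖∑ i, c i • e i‖ ^ 2 = ∑ i, c i ^ 2 := by
    rw [← real_inner_self_eq_norm_sq, he.inner_sum]
    refine Finset.sum_congr rfl fun i _ => ?_
    simp; ring
  rw [h1, h3, Finset.mul_sum]
  exact Finset.sum_le_sum fun i _ => mul_le_mul_of_nonneg_right (hlam i) (sq_nonneg _)

end LinAlg

/-! ### constants of the normalisation -/

/-- the cone constant of the normalisation -/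
noncomputable def kn {A B : ℝ} (hA : 0 ≤ A) (hAB : A < B) : ℝ := (BFin.exists_dual hA hAB).choose

theorem kn_pos {A B : ℝ} (hA : 0 ≤ A) (hAB : A < B) : 0 < kn hA hAB :=
  (BFin.exists_dual hA hAB).choose_spec.1

/-- the bound of the dual solutions -/
noncomputable def cd {A B : ℝ} (hA : 0 ≤ A) (hAB : A < B) {N : ℕ}
    (Gr : Matrix (Fin N) (Fin N) ℝ) : ℝ := ((BFin.exists_dual hA hAB).choose_spec.2 N Gr).choose

theorem cd_pos {A B : ℝ} (hA : 0 ≤ A) (hAB : A < B) {N : ℕ} (Gr : Matrix (Fin N) (Fin N) ℝ) :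
    0 < cd hA hAB Gr := ((BFin.exists_dual hA hAB).choose_spec.2 N Gr).choose_spec.1

theorem exists_dual' {A B : ℝ} (hA : 0 ≤ A) (hAB : A < B) {N : ℕ} {Gr : Matrix (Fin N) (Fin N) ℝ}
    {G : Type} [NormedAddCommGroup G] [InnerProductSpace ℝ G] {H : G →L[ℝ] G} {F e : Fin N → G}
    (hs : ∀ x y, ⟪H x, y⟫_ℝ = ⟪x, H y⟫_ℝ) (h0 : ∀ x, 0 ≤ ⟪H x, x⟫_ℝ) (hF : SepF H F A B)
    (hGr : ∀ i j, ⟪F i, F j⟫_ℝ = Gr i j) (he : Orthonormal ℝ e)
    (hlow : ∀ x ∈ Submodule.span ℝ (range e), ⟪H x, x⟫_ℝ ≤ A * ‖x‖ ^ 2)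
    {J : (Fin N → ℝ) →ₗ[ℝ] G} (hJ : ∀ u, J u = 0 → u = 0)
    (hc : ∀ u, PCone e N (kn hA hAB) (J u)) :
    ∃ w : Fin N → (Fin N → ℝ), (∀ i j, ⟪F i, J (w j)⟫_ℝ = if i = j then 1 else 0) ∧
        ∀ j, ‖J (w j)‖ ≤ cd hA hAB Gr :=
  ((BFin.exists_dual hA hAB).choose_spec.2 N Gr).choose_spec.2 G H F e hs h0 hF hGr he hlow J hJ hc

/-! ### one sector -/

open Crest.Agent.R202.Mix (MixData Cube)

/-- **One sector.** Normalised solutions from the output of the finite-dimensional part. -/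
theorem sector_out {G : Type} [NormedAddCommGroup G] [InnerProductSpace ℝ G] {N P : ℕ}
    {C : Gal.Coef G} {U V : ℝ → G →L[ℝ] G} (hsol : Gal.Sol C U V) (ht0 : C.t0 = 0)
    {A Lc : ℝ} (hLc : 0 ≤ Lc) (hA : 2 * Lc + 2 ≤ A) (MD : MixData G N P) (κ : Cube P)
    (hJm : ∀ q u, MD.Jm q κ u =
      U (hs A q + Lc) (Ring.inverse (U (he A P - Lc)) (∑ j, u j • MD.e j)))
    (hJp : ∀ q u, MD.Jp q κ u =
      U (he A q - Lc) (Ring.inverse (U (he A P - Lc)) (∑ j, u j • MD.e j)))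
    (hT : ∀ q, MD.T q = Th A q - 2 * Lc) {k Cm : ℝ} (hk : 0 ≤ k) (hCm : 0 ≤ Cm)
    (hmix : ∀ q, q ≤ P → ∀ u, ‖MD.Jp q κ u‖ ≤
      Cm * Real.exp (k * ∑ i ∈ Finset.range q, MD.T i) * ‖MD.Jm 0 κ u‖)
    {H : G →L[ℝ] G} (hsymm : ∀ x y, ⟪H x, y⟫_ℝ = ⟪x, H y⟫_ℝ) (hnn : ∀ x, 0 ≤ ⟪H x, x⟫_ℝ)
    {F : Fin N → G} {a b : ℝ} (hF : SepF H F a b) (ha : 0 ≤ a)
    (hlow : ∀ x ∈ Submodule.span ℝ (range MD.e), ⟪H x, x⟫_ℝ ≤ a * ‖x‖ ^ 2)
    (hcone : ∀ u, PCone MD.e N (kn ha hF.lt) (MD.Jm 0 κ u))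
    {Gr : Matrix (Fin N) (Fin N) ℝ} (hGr : ∀ i j, ⟪F i, F j⟫_ℝ = Gr i j) :
    ∃ u v : Fin N → ℝ → G, (∀ c, Gal.Reg C (u c) (v c)) ∧
      (∀ c t, 0 ≤ t → t ≤ he A P - Lc →
        ‖u c t‖ ≤ Cm * cd ha hF.lt Gr * Real.exp (k * max t 0)) ∧
      ∀ {B C2 dl ε : ℝ}, 0 ≤ B → (∀ t, C.b t ≤ B) → (∀ i, ‖F i‖ ≤ C2) → 0 < dl → dl ≤ 1 →
        Real.sqrt dl * (C2 ^ 2 + Real.exp (2 * B) *
          (Cm * cd ha hF.lt Gr * Real.exp (k * (hs A 0 + Lc + 2))) ^ 2) ≤ ε →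
        ∀ i c, ∀ t ∈ Icc (hs A 0 + Lc) (hs A 0 + Lc + dl),
          |⟪F i, u c t⟫_ℝ - if i = c then 1 else 0| ≤ ε := by
  have hA0 : 0 < A := by linarith
  -- injectivity
  have hJ : ∀ u, MD.Jm 0 κ u = 0 → u = 0 := by
    intro u hu
    have h1 := hmix P le_rfl u
    rw [hu, norm_zero, mul_zero] at h1
    have h2 : MD.Jp P κ u = 0 := norm_le_zero_iff.1 h1
    have h3 := MD.top κ u
    rw [h2, zero_sub, norm_neg] at h3
    have h4 : ‖∑ j, u j • MD.e j‖ ^ 2 = ∑ j, u j ^ 2 := by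
      rw [← real_inner_self_eq_norm_sq, MD.orth.inner_sum]
      refine Finset.sum_congr rfl fun i _ => ?_
      simp; ring
    rw [h4] at h3
    have h5 : 0 ≤ ∑ j, u j ^ 2 := Finset.sum_nonneg fun j _ => sq_nonneg _
    have h6 : ∑ j, u j ^ 2 = 0 := by linarith
    funext j
    have h7 := (Finset.sum_eq_zero_iff_of_nonneg fun j _ => sq_nonneg (u j)).1 h6 j
      (Finset.mem_univ j)
    exact pow_eq_zero_iff (two_ne_zero) |>.1 h7
  obtain ⟨w, hw1, hw2⟩ := exists_dual' ha hF.lt hsymm hnn hF hGr MD.orth hlow (J := MD.Jm 0 κ) hJ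
    hcone
  set J : (Fin N → ℝ) → G := fun u => Ring.inverse (U (he A P - Lc)) (∑ j, u j • MD.e j) with hJdef
  have htm : ∀ u, U (hs A 0 + Lc) (J u) = MD.Jm 0 κ u := fun u => (hJm 0 u).symm
  have hsum : ∀ q, ∑ i ∈ Finset.range q, ((he A i - Lc) - (hs A i + Lc))
      = ∑ i ∈ Finset.range q, MD.T i := fun q =>
    Finset.sum_congr rfl fun i _ => by rw [hT, Sch.he_eq]; ring
  have hh0 : hs A 0 = 2 * A := rfl
  obtain ⟨h1, h2, h3⟩ := sector_solutions hsol ht0 (N := N) (P := P) (tm := fun q => hs A q + Lc)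
    (tp := fun q => he A q - Lc) (by show 0 ≤ hs A 0 + Lc; rw [hh0]; linarith)
    (fun q hq => by
      have := MD.T_pos q hq
      rw [hT] at this
      show hs A q + Lc ≤ he A q - Lc
      rw [Sch.he_eq]; linarith)
    (fun q _ => by
      show he A q - Lc ≤ hs A (q + 1) + Lc
      rw [Sch.hs_succ]
      linarith [Sch.Tg_pos hA0 q])
    hk hCm J (Cd := cd ha hF.lt Gr) (fun u q hq => by
      show ‖U (he A q - Lc) (J u)‖ ≤ Cm * Real.exp (k * ∑ i ∈ Finset.range q,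
        ((he A i - Lc) - (hs A i + Lc))) * ‖U (hs A 0 + Lc) (J u)‖
      rw [hsum, htm]
      have := hmix q hq u
      rwa [hJp] at this)
    F w (fun i j => by
      show ⟪F i, U (hs A 0 + Lc) (J (w j))⟫_ℝ = _
      rw [htm]; exact hw1 i j)
    (fun j => by
      show ‖U (hs A 0 + Lc) (J (w j))‖ ≤ _
      rw [htm]; exact hw2 j)
  refine ⟨fun c t => U t (J (w c)), fun c t => V t (J (w c)), h1, h2, ?_⟩
  intro B C2 dl ε hB0 hB hF2 hdl hdl1 hε i c t ht
  refine h3 hB0 hB hF2 hdl hdl1 ?_ hε i c t ht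
  show hs A 0 + Lc + 2 ≤ he A P - Lc
  have h4 : he A 0 ≤ he A P := (Sch.he_strictMono hA0).monotone (Nat.zero_le P)
  have h5 : he A 0 = 3 * A := by
    rw [Sch.he_eq, hh0]
    unfold Th
    norm_num
    ring
  rw [hh0]
  linarith

end Crest.Agent.R202.Brid
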