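import Crest.Agent.R202.CThmSep
import Crest.Agent.R202.Model4

/-!
# Row 202: density at the span of the spindle functions; separation along the loop (helper98)
-/

set_option autoImplicit false

open MeasureTheory Set Filter Module
open scoped Topology ContDiff
open Crest.Agent.R202.Mod Crest.Agent.R202.Cut Crest.Agent.R202.PL Crest.Agent.R202.Clu

noncomputable section

namespace Crest.Agent.R202.Inst

/-- the vectors which can be approximated from `P0` -/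
theorem approx_span {V : Type*} [AddCommGroup V] [Module ℝ V] {h : Bil V} (hh : LocS.SN h)
    (P0 : Submodule ℝ V) {T : Set V}
    (hT : ∀ v ∈ T, ∀ ε : ℝ, 0 < ε → ∃ p ∈ P0, h (v - p) (v - p) < ε) {v : V}
    (hv : v ∈ Submodule.span ℝ T) : ∀ ε : ℝ, 0 < ε → ∃ p ∈ P0, h (v - p) (v - p) < ε := by
  -- it is enough to work with the seminorm
  have key : ∀ v : V, (∀ ε : ℝ, 0 < ε → ∃ p ∈ P0, h (v - p) (v - p) < ε) ↔
      ∀ ε : ℝ, 0 < ε → ∃ p ∈ P0, LocS.nrm h (v - p) < ε := by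
    intro v
    constructor
    · intro hv ε hε
      obtain ⟨p, hp, hp'⟩ := hv (ε ^ 2) (by positivity)
      refine ⟨p, hp, ?_⟩
      rw [← hh.sq] at hp'
      exact lt_of_pow_lt_pow_left₀ 2 hε.le hp'
    · intro hv ε hε
      obtain ⟨p, hp, hp'⟩ := hv (√ε) (Real.sqrt_pos.2 hε)
      refine ⟨p, hp, ?_⟩
      rw [← hh.sq, ← Real.sq_sqrt hε.le]
      exact pow_lt_pow_left₀ hp' (LocS.nrm_nonneg _ _) two_ne_zero
  rw [key]
  induction hv using Submodule.span_induction with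
  | mem x hx => exact (key x).1 (hT x hx)
  | zero =>
    intro ε hε
    exact ⟨0, P0.zero_mem, by rw [sub_zero, LocS.nrm_zero]; exact hε⟩
  | add x y _ _ hx hy =>
    intro ε hε
    obtain ⟨p, hp, hp'⟩ := hx (ε / 2) (by positivity)
    obtain ⟨q, hq, hq'⟩ := hy (ε / 2) (by positivity)
    refine ⟨p + q, P0.add_mem hp hq, ?_⟩
    have e : x + y - (p + q) = (x - p) + (y - q) := by abel
    rw [e]
    have := hh.add_le (x - p) (y - q)
    linarith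
  | smul c x _ hx =>
    intro ε hε
    obtain ⟨p, hp, hp'⟩ := hx (ε / (|c| + 1)) (by positivity)
    refine ⟨c • p, P0.smul_mem c hp, ?_⟩
    rw [← smul_sub, hh.smul_eq]
    rw [lt_div_iff₀ (by positivity)] at hp'
    have := LocS.nrm_nonneg h (x - p)
    nlinarith

/-- density of the sector polynomials in the span of the spindle functions -/
theorem dens_spanPsi (d : ℕ) (σ : ℕ × ℕ) {b : ℝ} (hb : 1 ≤ b) {v : CT.VV σ}
    (hv : v ∈ spanPsi d σ b) :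
    ∀ ε : ℝ, 0 < ε → ∃ p ∈ Pol σ.1 σ.2, href d σ.1 σ.2 (v - p) (v - p) < ε := by
  refine approx_span (V := VS σ.1 σ.2) (sn_href d σ.1 σ.2) (Pol σ.1 σ.2) ?_ hv
  rintro _ ⟨p, rfl⟩
  have h1 : (psiN d σ.1 σ.2 b p : VS σ.1 σ.2) ∈
      Submodule.span ℝ {Mod.psi d σ.1 σ.2 b p.1.1 p.1.2} :=
    Submodule.smul_mem _ _ (Submodule.subset_span rfl)
  refine approx_span (V := VS σ.1 σ.2) (sn_href d σ.1 σ.2) (Pol σ.1 σ.2) ?_ h1
  rintro _ rfl ε hε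
  exact exists_pol_near d σ.1 hb p.2 p.1.2 hε

variable {Xa Xb : ℝ} {d : ℕ} {b0 b1 : ℝ} {hb0 : 1 ≤ b0} {hb01 : b0 ≤ b1} {hs : ℕ → ℝ → ℝ}
  {ε : ℕ → ℝ} {H : Tips Xb hs ε} {ha : 0 < Xa} {hab : Xa < Xb} {hb : Xb < 1}
  {S : Finset (ℕ × ℕ)} {N : ℕ × ℕ → ℕ} {σs : ℕ × ℕ} {ls : ℕ} {δ : ℝ}

/-- continuity of the forms along the loop (557's statement) -/
def LoopCont (O : SF.GateOut (fam d hb0 hb01 H ha hab hb) S N σs ls δ) (k : ℕ) (σ : ℕ × ℕ)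
    (K : ℝ) : Prop :=
  ∀ (τ0 : ℝ), ∀ κ0 ∈ Icc (-1 : ℝ) 1,
    (∀ᶠ z in 𝓝 (τ0, κ0), Adm d K (prof (hs k) ((poly O).y z.1) ((poly O).G z.1 z.2))) ∧
    ∀ η > 0, ∀ᶠ z in 𝓝 (τ0, κ0), ∀ v : CT.VV σ,
      |CT.QF d σ ((poly O).y z.1) (prof (hs k) ((poly O).y z.1) ((poly O).G z.1 z.2)) v v -
        CT.QF d σ ((poly O).y τ0) (prof (hs k) ((poly O).y τ0) ((poly O).G τ0 κ0)) v v| ≤
      η * href d σ.1 σ.2 v v

/-- **local separation along the loop**, full space -/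
theorem loop_sep (O : SF.GateOut (fam d hb0 hb01 H ha hab hb) S N σs ls δ) {k : ℕ}
    (hk : O.K ≤ k) {σ : ℕ × ℕ} (hσ : σ ∈ S) {K : ℝ} (hC : LoopCont O k σ K) {l : ℕ}
    (hl : l ≤ N σ) (τ0 : ℝ) {κ0 : ℝ} (hκ : κ0 ∈ Icc (-1 : ℝ) 1)
    (hg : (σ, l) ≠ (σs, ls + 1) ∨ κ0 = 1 ∨ κ0 = -1) :
    ∃ (p : Fin l → CT.VV σ) (A B : ℝ), (∀ i, p i ∈ Pol σ.1 σ.2) ∧ LinearIndependent ℝ p ∧
      ∀ᶠ z in 𝓝 (τ0, κ0), Adm d K (prof (hs k) ((poly O).y z.1) ((poly O).G z.1 z.2)) ∧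
        LocS.SepB ⊤ (g d σ.1 σ.2) (aPath O k σ z.1 z.2) p A B := by
  obtain ⟨b', hb', W, A, B, hWD, hWfd, hWl, hW⟩ := aPath_open O hk hσ hl hκ hg τ0
  obtain ⟨f, hf, hfW⟩ := frame_of_sep hWl hW
  obtain ⟨hP, hcont⟩ := hC τ0 κ0 hκ
  have hlt := hf.lt
  obtain ⟨p, hp, hli, hev⟩ := open_local (σ := σ) (b := fun z : ℝ × ℝ => (poly O).y z.1)
    (P := fun z : ℝ × ℝ => prof (hs k) ((poly O).y z.1) ((poly O).G z.1 z.2)) (x0 := (τ0, κ0))
    (β := b1) ⟨hb0.trans ((poly O).y_mem τ0).1, ((poly O).y_mem τ0).2⟩ hP.self_of_nhds hP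
    (fun η hη => hcont η hη) (f := f) (A := A) (B := B) hf
    (fun i => dens_spanPsi d σ (hb0.trans hb'.1) (hWD (hfW i)))
    (A' := (2 * A + B) / 3) (B' := (A + 2 * B) / 3) (by linarith) (by linarith) (by linarith)
  exact ⟨p, _, _, hp, hli, hev⟩

end Crest.Agent.R202.Inst
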