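import Crest.Agent.R202.CutSep

/-!
# Row 202, PART C: removal of the constants

`a one = 0`, `one ≠ 0`: a subspace `W` of dimension `l + 1` which separates `a` gives an
`l`-dimensional family `p'` orthogonal to `one` with the two reduced inequalities for every such
form separated by the same `W`, and conversely.
-/

set_option autoImplicit false

noncomputable section

namespace Crest.Agent.R202.CR

open Crest.Agent.R202 Crest.Agent.R202.Cut

variable {V : Type*} [AddCommGroup V] [Module ℝ V]

/-- the reduced separation on the complement of `one` -/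
structure Red (g a : Bil V) (one : V) {l : ℕ} (p' : Fin l → V) (A B : ℝ) : Prop where
  nn : 0 ≤ A
  lt : A < B
  le : ∀ w ∈ Submodule.span ℝ (Set.range p'), a w w ≤ A * g w w
  ge : ∀ v, g v one = 0 → (∀ i, g v (p' i) = 0) → B * g v v ≤ a v v

section

variable {g : Bil V} (gs : ∀ u v, g u v = g v u) (gpos : ∀ v, v ≠ 0 → 0 < g v v)
include gs gpos

omit gs in
theorem gnn (v : V) : 0 ≤ g v v := by
  by_cases h : v = 0
  · subst h; simp
  · exact (gpos v h).le

omit gs in
theorem nonneg_of_sep {a : Bil V} (ann : ∀ v, 0 ≤ a v v) {W : Submodule ℝ V} {A B : ℝ}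
    (hs : Sep g a W A B) {w : V} (hw : w ∈ W) (hw0 : w ≠ 0) : 0 ≤ A := by
  have h1 := hs.le w hw
  have h2 := ann w
  have h3 := gpos w hw0
  by_contra hcon
  push Not at hcon
  nlinarith [mul_neg_of_neg_of_pos hcon h3]

omit gs gpos in
theorem orth_span {v : V} {ι : Type*} {p : ι → V} (h : ∀ i, g v (p i) = 0) {w : V}
    (hw : w ∈ Submodule.span ℝ (Set.range p)) : g v w = 0 := by
  induction hw using Submodule.span_induction with
  | mem x hx => obtain ⟨i, rfl⟩ := hx; exact h i
  | zero => simp
  | add x y _ _ hx hy => rw [map_add, hx, hy, add_zero]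
  | smul c x _ hx => rw [map_smul, hx, smul_zero]

/-- (CR4) submodule form -/
theorem exists_red_of_submodule {one : V} (h1 : one ≠ 0) {l : ℕ} {W : Submodule ℝ V}
    (hW : Module.finrank ℝ W = l + 1) {a : Bil V} (ann : ∀ v, 0 ≤ a v v)
    (a1 : ∀ v, a one v = 0) {A B : ℝ} (hs : Sep g a W A B) :
    ∃ p' : Fin l → V, LinearIndependent ℝ p' ∧ (∀ i, p' i ∈ W) ∧ (∀ i, g (p' i) one = 0) ∧
      ∀ (b : Bil V), (∀ u v, b u v = b v u) → (∀ v, 0 ≤ b v v) → (∀ v, b one v = 0) →
        ∀ A1 B1 : ℝ, Sep g b W A1 B1 → Red g b one p' A1 B1 := by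
  have hfd : FiniteDimensional ℝ W := Module.finite_of_finrank_pos (by omega)
  -- a nonzero vector of `W`
  have hne : ∃ w ∈ W, w ≠ 0 := by
    by_contra hcon
    push Not at hcon
    have hbot : W = ⊥ := by
      rw [eq_bot_iff]
      intro w hw
      simpa using hcon w hw
    rw [hbot, finrank_bot] at hW
    omega
  obtain ⟨w1, hw1, hw10⟩ := hne
  -- the functional `w ↦ g w one` on `W`
  let f : W →ₗ[ℝ] ℝ := (g one).comp W.subtype
  have hf : ∀ w : W, f w = g one (w : V) := fun w => rfl
  have hf0 : f ≠ 0 := by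
    intro hcon
    have hA := nonneg_of_sep gpos ann hs hw1 hw10
    have h2 := hs.ge one fun w hw => by
      have := LinearMap.congr_fun hcon ⟨w, hw⟩
      simpa [hf] using this
    rw [a1] at h2
    have h3 := gpos one h1
    have h4 := hs.lt
    nlinarith [mul_pos (lt_of_le_of_lt hA h4) h3]
  obtain ⟨w0, hw0⟩ : ∃ w0 : W, f w0 ≠ 0 := by
    by_contra hcon
    push Not at hcon
    exact hf0 (LinearMap.ext hcon)
  have hsurj : Function.Surjective f := LinearMap.surjective hf0
  have hker : Module.finrank ℝ (LinearMap.ker f) = l := by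
    have h2 := LinearMap.finrank_range_add_finrank_ker f
    rw [LinearMap.range_eq_top.2 hsurj, finrank_top, Module.finrank_self, hW] at h2
    omega
  let bas : Module.Basis (Fin l) ℝ (LinearMap.ker f) := Module.finBasisOfFinrankEq ℝ _ hker
  let p' : Fin l → V := fun i => ((bas i : W) : V)
  have hp'ker : ∀ i, f (bas i : W) = 0 := fun i => (bas i).2
  have hli : LinearIndependent ℝ p' := by
    have h2 := bas.linearIndependent
    have h3 := h2.map' (Submodule.subtype (LinearMap.ker f)) (Submodule.ker_subtype _)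
    exact h3.map' W.subtype (Submodule.ker_subtype _)
  have hone : ∀ i, g (p' i) one = 0 := fun i => by
    rw [gs]; exact hp'ker i
  -- `ker f` is in the span of `p'`
  have hspan : ∀ w : W, f w = 0 → (w : V) ∈ Submodule.span ℝ (Set.range p') := by
    intro w hw
    have h2 : (⟨w, hw⟩ : LinearMap.ker f) ∈ Submodule.span ℝ (Set.range bas) := by
      rw [bas.span_eq]; trivial
    have h3 := Submodule.mem_map_of_mem (f := W.subtype.comp (Submodule.subtype (LinearMap.ker f))) h2
    rw [Submodule.map_span] at h3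
    have h4 : (W.subtype.comp (Submodule.subtype (LinearMap.ker f))) '' Set.range bas
        = Set.range p' := by
      rw [← Set.range_comp]; rfl
    rw [h4] at h3
    exact h3
  refine ⟨p', hli, fun i => (bas i : W).2, hone, ?_⟩
  intro b bs bnn b1 A1 B1 hsb
  have hA1 := nonneg_of_sep gpos bnn hsb hw1 hw10
  refine ⟨hA1, hsb.lt, ?_, ?_⟩
  · intro w hw
    refine hsb.le w ?_
    have h2 : Submodule.span ℝ (Set.range p') ≤ W := by
      rw [Submodule.span_le]
      rintro _ ⟨i, rfl⟩
      exact (bas i : W).2
    exact h2 hw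
  · intro v hv hvp
    set c : ℝ := g v (w0 : V) / f w0 with hc
    have hperp : ∀ w ∈ W, g (v - c • one) w = 0 := by
      intro w hw
      set t : ℝ := f ⟨w, hw⟩ / f w0 with ht
      have h2 : f (⟨w, hw⟩ - t • w0) = 0 := by
        rw [map_sub, map_smul, smul_eq_mul, ht, div_mul_cancel₀ _ hw0, sub_self]
      have h3 := hspan _ h2
      have h4 : ((⟨w, hw⟩ - t • w0 : W) : V) = w - t • (w0 : V) := rfl
      rw [h4] at h3
      have h5 : g v (w - t • (w0 : V)) = 0 := orth_span hvp h3
      have h6 : g one (w - t • (w0 : V)) = 0 := by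
        have := h2
        rw [hf, h4] at this
        exact this
      have h7 : g (v - c • one) (w - t • (w0 : V)) = 0 := by
        rw [map_sub g, LinearMap.sub_apply, h5, map_smul, LinearMap.smul_apply, h6]
        simp
      have h8 : g (v - c • one) (w0 : V) = 0 := by
        rw [map_sub g, LinearMap.sub_apply, map_smul, LinearMap.smul_apply, smul_eq_mul, ← hf w0,
          hc, div_mul_cancel₀ _ hw0, sub_self]
      have h9 : w = (w - t • (w0 : V)) + t • (w0 : V) := by abel
      rw [h9, map_add, h7, map_smul, h8]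
      simp
    have h2 := hsb.ge _ hperp
    have e1 : b (v - c • one) (v - c • one) = b v v := by
      have : b v one = 0 := by rw [bs]; exact b1 v
      simp only [map_sub, LinearMap.sub_apply, map_smul, LinearMap.smul_apply, b1, this,
        smul_eq_mul]
      ring
    have e2 : g (v - c • one) (v - c • one) = g v v + c ^ 2 * g one one := by
      have : g one v = 0 := by rw [gs]; exact hv
      simp only [map_sub, LinearMap.sub_apply, map_smul, LinearMap.smul_apply, hv, this,
        smul_eq_mul]
      ring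
    rw [e1, e2] at h2
    have h3 : 0 < B1 := lt_of_le_of_lt hA1 hsb.lt
    have h4 := gnn gpos one
    have h5 : 0 ≤ B1 * (c ^ 2 * g one one) := by positivity
    linarith [mul_add B1 (g v v) (c ^ 2 * g one one)]

/-- (CR1) family form -/
theorem exists_red {one : V} (h1 : one ≠ 0) {l : ℕ} {p : Fin (l + 1) → V}
    (hp : LinearIndependent ℝ p) {a : Bil V} (ann : ∀ v, 0 ≤ a v v)
    (a1 : ∀ v, a one v = 0) {A B : ℝ} (hs : Sep g a (Submodule.span ℝ (Set.range p)) A B) :
    ∃ p' : Fin l → V, LinearIndependent ℝ p' ∧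
      (∀ i, p' i ∈ Submodule.span ℝ (Set.range p)) ∧ (∀ i, g (p' i) one = 0) ∧
      ∀ (b : Bil V), (∀ u v, b u v = b v u) → (∀ v, 0 ≤ b v v) → (∀ v, b one v = 0) →
        ∀ A1 B1 : ℝ, Sep g b (Submodule.span ℝ (Set.range p)) A1 B1 → Red g b one p' A1 B1 := by
  have hW : Module.finrank ℝ (Submodule.span ℝ (Set.range p)) = l + 1 := by
    rw [finrank_span_eq_card hp, Fintype.card_fin]
  exact exists_red_of_submodule gs gpos h1 hW ann a1 hs

omit gpos in
/-- (CR2) converse, separation -/
theorem sep_cons {one : V} (gnn1 : 0 ≤ g one one) {l : ℕ} {p' : Fin l → V}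
    (ho : ∀ i, g (p' i) one = 0) {a : Bil V} (as : ∀ u v, a u v = a v u)
    (a1 : ∀ v, a one v = 0) {A B : ℝ} (hr : Red g a one p' A B) :
    Sep g a (Submodule.span ℝ (Set.range (Fin.cons one p' : Fin (l + 1) → V))) A B := by
  refine ⟨hr.lt, ?_, ?_⟩
  · intro w hw
    have h0 : Set.range (Fin.cons one p' : Fin (l + 1) → V) = insert one (Set.range p') :=
      Fin.range_cons one p'
    rw [h0, Submodule.mem_span_insert] at hw
    obtain ⟨c, z, hz, rfl⟩ := hw
    have hoz : g one z = 0 := orth_span (fun i => by rw [gs]; exact ho i) hz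
    have hzo : g z one = 0 := by rw [gs]; exact hoz
    have hza : a z one = 0 := by rw [as]; exact a1 z
    have e1 : a (c • one + z) (c • one + z) = a z z := by
      simp only [map_add, LinearMap.add_apply, map_smul, LinearMap.smul_apply, a1, hza,
        smul_eq_mul]
      ring
    have e2 : g (c • one + z) (c • one + z) = c ^ 2 * g one one + g z z := by
      simp only [map_add, LinearMap.add_apply, map_smul, LinearMap.smul_apply, hoz, hzo,
        smul_eq_mul]
      ring
    rw [e1, e2]
    have h2 := hr.le z hz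
    have h3 : 0 ≤ A * (c ^ 2 * g one one) := mul_nonneg hr.nn (by positivity)
    linarith [mul_add A (c ^ 2 * g one one) (g z z)]
  · intro v hv
    refine hr.ge v ?_ ?_
    · exact hv one (Submodule.subset_span ⟨0, rfl⟩)
    · intro i
      exact hv (p' i) (Submodule.subset_span ⟨i.succ, rfl⟩)

/-- (CR2) converse, independence -/
theorem linearIndependent_cons {one : V} (h1 : one ≠ 0) {l : ℕ} {p' : Fin l → V}
    (hli : LinearIndependent ℝ p') (ho : ∀ i, g (p' i) one = 0) :
    LinearIndependent ℝ (Fin.cons one p' : Fin (l + 1) → V) := by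
  rw [linearIndependent_finCons]
  refine ⟨hli, fun hcon => ?_⟩
  have h2 : g one one = 0 := orth_span (fun i => by rw [gs]; exact ho i) hcon
  exact (gpos one h1).ne' h2

end

/-- (CR3) Gram determinant of the extended families -/
theorem det_cons {g : Bil V} {one : V} {l : ℕ} {p' q' : Fin l → V}
    (_hp : ∀ i, g (p' i) one = 0) (hq : ∀ i, g one (q' i) = 0) :
    (Matrix.of fun i j : Fin (l + 1) =>
      g ((Fin.cons one p' : Fin (l + 1) → V) i) ((Fin.cons one q' : Fin (l + 1) → V) j)).det =
      g one one * (Matrix.of fun i j => g (p' i) (q' j)).det := by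
  rw [Matrix.det_succ_row_zero, Fin.sum_univ_succ]
  have h0 : ∀ j : Fin l, ((-1 : ℝ) ^ ((j.succ : Fin (l + 1)) : ℕ) *
      (Matrix.of fun i j : Fin (l + 1) =>
        g ((Fin.cons one p' : Fin (l + 1) → V) i) ((Fin.cons one q' : Fin (l + 1) → V) j))
          0 j.succ *
      ((Matrix.of fun i j : Fin (l + 1) =>
        g ((Fin.cons one p' : Fin (l + 1) → V) i)
          ((Fin.cons one q' : Fin (l + 1) → V) j)).submatrix Fin.succ
            (Fin.succAbove j.succ)).det) = 0 := by
    intro j
    simp [hq]
  rw [Finset.sum_eq_zero fun j _ => h0 j, add_zero]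
  simp only [Fin.val_zero, pow_zero, one_mul, Matrix.of_apply, Fin.cons_zero]
  congr 1

end Crest.Agent.R202.CR
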