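import Crest.Agent.R202.CThmSep
import Crest.Agent.R202.ConstRem

/-!
# Row 202, PART C: (RED), removal of the constants from a polynomial frame (helper206)
-/

set_option autoImplicit false

open MeasureTheory Set Filter Module
open scoped Topology ContDiff
open Crest.Agent.R202.Mod Crest.Agent.R202.Cut Crest.Agent.R202.PL Crest.Agent.R202.Clu
open Crest.Agent.R202.Lab

noncomputable section

namespace Crest.Agent.R202.Inst

/-- from a polynomial frame on the full space to one reduced frame, for all data separated by the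
same span -/
theorem exists_redP {d : ℕ} (σ : ℕ × ℕ) {l : ℕ} (p : Fin (l + Main.sh σ) → CT.VV σ)
    (hpol : ∀ i, p i ∈ Pol σ.1 σ.2) (hli : LinearIndependent ℝ p)
    (h0 : ∃ (b : ℝ) (P : ℝ × ℝ → ℝ) (K A B : ℝ), Adm d K P ∧
      Sep (g d σ.1 σ.2) (aform d σ b P) (Submodule.span ℝ (range p)) A B) :
    ∃ p' : Fin l → CT.VV σ, ∀ (b : ℝ) (P : ℝ × ℝ → ℝ) (K A B : ℝ), Adm d K P →
      Sep (g d σ.1 σ.2) (aform d σ b P) (Submodule.span ℝ (range p)) A B →
      CT.SepP d σ l p' A B b P := by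
  by_cases hσ : σ = (0, 0)
  · subst hσ
    have hsh : Main.sh (0, 0) = 1 := rfl
    obtain ⟨b0, P0, K0, A0, B0, hP0, hs0⟩ := h0
    have e00 : aform d (0, 0) b0 P0 = Q 0 0 hP0 b0 := Clu.aform_eq (0, 0) b0 hP0
    have hB : LocS.SepB ⊤ (g d 0 0) (Q 0 0 hP0 b0) p A0 B0 := by
      rw [e00] at hs0
      exact ⟨fun _ => Submodule.mem_top, hli, hs0.lt, hs0.le, fun v _ hv =>
        hs0.ge v fun w hw => CR.orth_span (V := VS 0 0) hv hw⟩
    obtain ⟨p', hli', hmem, hone, hred⟩ := CR.exists_red (V := VS 0 0) (g := g d 0 0)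
      (a := Q 0 0 hP0 b0) g_symm (fun v hv => g_pos hv) (one := one) one_ne_zero' (l := l) (p := p)
      hB.li (Q_nonneg hP0 b0) (Q_one hP0 b0) (A := A0) (B := B0) (sep_of_frame hB)
    refine ⟨p', fun b P K A B hP hs => ?_⟩
    rw [show aform d (0, 0) b P = Q 0 0 hP b from Clu.aform_eq (0, 0) b hP] at hs
    have hR := hred (Q 0 0 hP b) (Q_symm hP b) (Q_nonneg hP b) (Q_one hP b) A B hs
    refine ⟨fun i => ?_, fun i _ => hone i, hli', hR.lt, hR.le, fun v hv hvp =>
      hR.ge v (hv rfl) hvp⟩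
    have h1 : Submodule.span ℝ (Set.range p) ≤ Pol 0 0 := by
      rw [Submodule.span_le]
      rintro _ ⟨j, rfl⟩
      exact hpol j
    exact h1 (hmem i)
  · have hsh : Main.sh σ = 0 := by unfold Main.sh; rw [if_neg hσ]
    have key : ∀ (n : ℕ), n = 0 → ∀ p : Fin (l + n) → CT.VV σ, (∀ i, p i ∈ Pol σ.1 σ.2) →
        LinearIndependent ℝ p →
        ∃ p' : Fin l → CT.VV σ, ∀ (b : ℝ) (P : ℝ × ℝ → ℝ) (K A B : ℝ), Adm d K P →
          Sep (g d σ.1 σ.2) (aform d σ b P) (Submodule.span ℝ (range p)) A B →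
          CT.SepP d σ l p' A B b P := by
      rintro _ rfl p hp hl
      refine ⟨p, fun b P K A B hP hs => ?_⟩
      rw [show aform d σ b P = Q σ.1 σ.2 hP b from Clu.aform_eq σ b hP] at hs
      exact ⟨hp, fun i h => absurd h hσ, hl, hs.lt, hs.le, fun v _ hv =>
        hs.ge v fun w hw => CR.orth_span (V := VS σ.1 σ.2) hv hw⟩
    exact key _ hsh p hpol hli

end Crest.Agent.R202.Inst
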