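import Mathlib

/-!
# Row 202, PART C: the `Sep` calculus (open spectral cuts via trial spaces)

`Sep g a W A B`: the form `a` is `≤ A g` on `W` and `≥ B g` on the `g`-orthogonal complement
of `W`, `A < B`.  `Cut.blk` is the block lemma: first order degenerate perturbation theory and
crude comparison of the high part in one statement.
-/

set_option autoImplicit false

noncomputable section

namespace Crest.Agent.R202.Cut

variable {V : Type*} [AddCommGroup V] [Module ℝ V]

/-- bilinear forms, curried -/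
abbrev Bil (V : Type*) [AddCommGroup V] [Module ℝ V] := V →ₗ[ℝ] V →ₗ[ℝ] ℝ

/-- `W` separates the form `a` (with respect to the scalar product `g`) -/
structure Sep (g a : Bil V) (W : Submodule ℝ V) (A B : ℝ) : Prop where
  lt : A < B
  le : ∀ w ∈ W, a w w ≤ A * g w w
  ge : ∀ v, (∀ w ∈ W, g v w = 0) → B * g v v ≤ a v v

/-- the cut `l` of `a` is open -/
def IsOpenCut (g a : Bil V) (l : ℕ) : Prop :=
  ∃ (W : Submodule ℝ V) (A B : ℝ), FiniteDimensional ℝ W ∧ Module.finrank ℝ W = l ∧ Sep g a W A B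

theorem Sep.isOpenCut {g a : Bil V} {W : Submodule ℝ V} {A B : ℝ} (h : Sep g a W A B)
    [hW : FiniteDimensional ℝ W] : IsOpenCut g a (Module.finrank ℝ W) :=
  ⟨W, A, B, hW, rfl, h⟩

theorem Sep.mono {g a : Bil V} {W : Submodule ℝ V} {A B A' B' : ℝ} (h : Sep g a W A B)
    (hg : ∀ v, 0 ≤ g v v) (hA : A ≤ A') (hB : B' ≤ B) (hlt : A' < B') : Sep g a W A' B' where
  lt := hlt
  le w hw := (h.le w hw).trans (mul_le_mul_of_nonneg_right hA (hg w))
  ge v hv := (mul_le_mul_of_nonneg_right hB (hg v)).trans (h.ge v hv)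

/-- spectral data of a reference form `a` with respect to `g` -/
structure Eig (g a : Bil V) {ι : Type*} (ψ : ι → V) (E : ι → ℝ) : Prop where
  gsymm : ∀ u v, g u v = g v u
  gnn : ∀ v, 0 ≤ g v v
  asymm : ∀ u v, a u v = a v u
  ann : ∀ v, 0 ≤ a v v
  orth : ∀ i j, i ≠ j → g (ψ i) (ψ j) = 0
  one : ∀ i, g (ψ i) (ψ i) = 1
  eig : ∀ i v, a (ψ i) v = E i * g (ψ i) v
  fin : ∀ Λ, {i | E i ≤ Λ}.Finite
  compl : ∀ Λ v, (∀ i, E i ≤ Λ → g (ψ i) v = 0) → Λ * g v v ≤ a v v

section

variable {g a : Bil V} {ι : Type*} {ψ : ι → V} {E : ι → ℝ}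

/-- linear combination -/
def comb (ψ : ι → V) (S : Finset ι) (x : ι → ℝ) : V := ∑ i ∈ S, x i • ψ i

theorem comb_mem (S : Finset ι) (x : ι → ℝ) : comb ψ S x ∈ Submodule.span ℝ (ψ '' S) :=
  Submodule.sum_mem _ fun i hi => Submodule.smul_mem _ _ (Submodule.subset_span ⟨i, hi, rfl⟩)

theorem mem_span_iff (S : Finset ι) (v : V) :
    v ∈ Submodule.span ℝ (ψ '' S) ↔ ∃ x : ι → ℝ, v = comb ψ S x := by
  constructor
  · intro hv
    induction hv using Submodule.span_induction with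
    | mem y hy =>
      classical
      obtain ⟨i, hi, rfl⟩ := hy
      refine ⟨fun j => if j = i then 1 else 0, ?_⟩
      unfold comb
      rw [Finset.sum_eq_single i]
      · simp
      · intro j _ hj; simp [hj]
      · intro h; exact absurd hi h
    | zero => exact ⟨fun _ => 0, by simp [comb]⟩
    | add y z _ _ hy hz =>
      obtain ⟨x, rfl⟩ := hy
      obtain ⟨x', rfl⟩ := hz
      exact ⟨fun i => x i + x' i, by simp [comb, add_smul, Finset.sum_add_distrib]⟩
    | smul c y _ hy =>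
      obtain ⟨x, rfl⟩ := hy
      exact ⟨fun i => c * x i, by simp [comb, mul_smul, Finset.smul_sum]⟩
  · rintro ⟨x, rfl⟩
    exact comb_mem S x

namespace Eig

variable (h : Eig g a ψ E)
include h

omit h in
theorem g_comb_right (_h : Eig g a ψ E) (v : V) (S : Finset ι) (x : ι → ℝ) :
    g v (comb ψ S x) = ∑ i ∈ S, x i * g v (ψ i) := by
  simp [comb, map_sum]

theorem g_psi_comb [DecidableEq ι] (S : Finset ι) (x : ι → ℝ) (i : ι) :
    g (ψ i) (comb ψ S x) = if i ∈ S then x i else 0 := by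
  rw [h.g_comb_right]
  split_ifs with hi
  · rw [Finset.sum_eq_single i]
    · rw [h.one, mul_one]
    · intro j _ hj; rw [h.orth i j (Ne.symm hj), mul_zero]
    · intro h'; exact absurd hi h'
  · refine Finset.sum_eq_zero fun j hj => ?_
    rw [h.orth i j (by rintro rfl; exact hi hj), mul_zero]

theorem g_comb_self (S : Finset ι) (x : ι → ℝ) :
    g (comb ψ S x) (comb ψ S x) = ∑ i ∈ S, x i ^ 2 := by
  classical
  rw [h.g_comb_right]
  refine Finset.sum_congr rfl fun i hi => ?_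
  rw [h.gsymm, h.g_psi_comb, if_pos hi]; ring

theorem a_comb (S : Finset ι) (x : ι → ℝ) (v : V) :
    a (comb ψ S x) v = ∑ i ∈ S, x i * (E i * g (ψ i) v) := by
  simp only [comb, map_sum, map_smul, LinearMap.sum_apply, LinearMap.smul_apply, smul_eq_mul]
  exact Finset.sum_congr rfl fun i _ => by rw [h.eig]

theorem a_comb_self (S : Finset ι) (x : ι → ℝ) :
    a (comb ψ S x) (comb ψ S x) = ∑ i ∈ S, E i * x i ^ 2 := by
  classical
  rw [h.a_comb]
  refine Finset.sum_congr rfl fun i hi => ?_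
  rw [h.g_psi_comb, if_pos hi]; ring

/-- orthogonality to the span from orthogonality to the `ψ i` -/
theorem g_eq_zero_of_mem {S : Finset ι} {u v : V} (hu : u ∈ Submodule.span ℝ (ψ '' S))
    (hv : ∀ i ∈ S, g (ψ i) v = 0) : g u v = 0 := by
  obtain ⟨x, rfl⟩ := (mem_span_iff S u).1 hu
  rw [h.gsymm, h.g_comb_right]
  exact Finset.sum_eq_zero fun i hi => by rw [h.gsymm, hv i hi, mul_zero]

theorem a_eq_zero_of_mem {S : Finset ι} {u v : V} (hu : u ∈ Submodule.span ℝ (ψ '' S))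
    (hv : ∀ i ∈ S, g (ψ i) v = 0) : a u v = 0 := by
  obtain ⟨x, rfl⟩ := (mem_span_iff S u).1 hu
  rw [h.a_comb]
  exact Finset.sum_eq_zero fun i hi => by rw [hv i hi, mul_zero, mul_zero]

theorem a_le_of_mem {S : Finset ι} {u : V} {L : ℝ} (hu : u ∈ Submodule.span ℝ (ψ '' S))
    (hE : ∀ i ∈ S, E i ≤ L) : a u u ≤ L * g u u := by
  obtain ⟨x, rfl⟩ := (mem_span_iff S u).1 hu
  rw [h.a_comb_self, h.g_comb_self, Finset.mul_sum]
  exact Finset.sum_le_sum fun i hi => mul_le_mul_of_nonneg_right (hE i hi) (sq_nonneg _)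

theorem le_a_of_mem {S : Finset ι} {u : V} {L : ℝ} (hu : u ∈ Submodule.span ℝ (ψ '' S))
    (hE : ∀ i ∈ S, L ≤ E i) : L * g u u ≤ a u u := by
  obtain ⟨x, rfl⟩ := (mem_span_iff S u).1 hu
  rw [h.a_comb_self, h.g_comb_self, Finset.mul_sum]
  exact Finset.sum_le_sum fun i hi => mul_le_mul_of_nonneg_right (hE i hi) (sq_nonneg _)

/-- projection on the span of the `ψ i`, `i ∈ S` -/
def proj (_h : Eig g a ψ E) (S : Finset ι) (v : V) : V := comb ψ S fun i => g (ψ i) v

omit h in
theorem proj_mem (h : Eig g a ψ E) (S : Finset ι) (v : V) :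
    h.proj S v ∈ Submodule.span ℝ (ψ '' S) := comb_mem _ _

omit h in
theorem g_psi_proj (h : Eig g a ψ E) {S : Finset ι} {i : ι} (hi : i ∈ S) (v : V) :
    g (ψ i) (h.proj S v) = g (ψ i) v := by
  classical
  unfold proj
  rw [h.g_psi_comb, if_pos hi]

omit h in
theorem g_psi_proj_of_notMem (h : Eig g a ψ E) {S : Finset ι} {i : ι} (hi : i ∉ S) (v : V) :
    g (ψ i) (h.proj S v) = 0 := by
  classical
  unfold proj
  rw [h.g_psi_comb, if_neg hi]

end Eig

/-- two real numbers: Young -/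
theorem young {p q c : ℝ} (hc : 0 < c) : 2 * (p * q) ≤ p ^ 2 / c + c * q ^ 2 := by
  have h1 : 0 ≤ (p - c * q) ^ 2 / c := by positivity
  have h2 : (p - c * q) ^ 2 / c = p ^ 2 / c + c * q ^ 2 - 2 * (p * q) := by
    field_simp
    ring
  linarith

theorem two_mul_le_of_sq_le {x P Q c : ℝ} (hc : 0 < c) (hP : 0 ≤ P) (hQ : 0 ≤ Q)
    (h : x ^ 2 ≤ P * Q) : 2 * |x| ≤ P / c + c * Q := by
  have h1 : |x| ≤ Real.sqrt P * Real.sqrt Q := by
    rw [← Real.sqrt_mul hP, ← Real.sqrt_sq_eq_abs]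
    exact Real.sqrt_le_sqrt h
  have h2 := young (p := Real.sqrt P) (q := Real.sqrt Q) hc
  rw [Real.sq_sqrt hP, Real.sq_sqrt hQ] at h2
  linarith

/-- real arithmetic for the upper half of the block lemma -/
theorem blk_upper_real {lam γ c N A au gu gx a'u a'x x : ℝ} (hlam : 0 ≤ lam) (hγ : 0 < γ)
    (hc : 0 < c) (hc1 : c ≤ 1) (hN : N * (16 * (lam + γ + 1)) ≤ c * γ)
    (hA : lam - γ / 2 ≤ A) (hgu : 0 ≤ gu) (hgx : 0 ≤ gx) (hau : au ≤ (lam - γ) * gu)
    (h1 : |a'u - au| ≤ N * (lam + γ + 1) * gu) (h3 : a'x ≤ A * gx)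
    (h2 : 2 * |x| ≤ γ / 4 * gu + 4 * (lam + γ + 1) / (c * γ) * N ^ 2 * gx) :
    a'u + 2 * x + a'x ≤ (A + 8 * (lam + γ + 1) / (c * γ) * N ^ 2) * (gu + gx) := by
  have h4 : a'u ≤ au + N * (lam + γ + 1) * gu := by linarith [(abs_le.1 h1).2]
  have h5 : x ≤ |x| := le_abs_self x
  have hq : 0 < lam + γ + 1 := by positivity
  have h6 : 0 ≤ 4 * (lam + γ + 1) / (c * γ) * N ^ 2 := by positivity
  have h7 : N * (lam + γ + 1) ≤ γ / 16 := by nlinarith
  have h8 : N * (lam + γ + 1) * gu ≤ γ / 16 * gu := mul_le_mul_of_nonneg_right h7 hgu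
  have h9 : (lam - γ / 2) * gu ≤ A * gu := mul_le_mul_of_nonneg_right hA hgu
  set k := 4 * (lam + γ + 1) / (c * γ) * N ^ 2 with hk
  have h10 : 8 * (lam + γ + 1) / (c * γ) * N ^ 2 = 2 * k := by rw [hk]; ring
  rw [h10]
  have h11 : 0 ≤ k * gu := mul_nonneg h6 hgu
  have h12 : 0 ≤ k * gx := mul_nonneg h6 hgx
  nlinarith [mul_nonneg hγ.le hgu]

theorem blk_u_real {lam γ c N c3 au gu : ℝ} (_hlam : 0 ≤ lam) (hγ : 0 < γ)
    (hc1 : c ≤ 1) (hN0 : 0 ≤ N) (hc30 : 0 < c3) (hgu : 0 ≤ gu)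
    (hNq : N * (lam + γ + 1) ≤ c * γ / 16) (hc3q : c3 * (lam + γ + 1) = c * γ / 8)
    (hau : (lam + γ) * gu ≤ au) (hN1 : N ≤ c * γ / 16) (hN2 : N ≤ c / 16) (hc32 : c3 ≤ c / 8) :
    (lam + γ / 2) * gu ≤ (1 - N / 2 - c3) * au - (2 * N + c3) * gu := by
  have hcγ : c * γ ≤ γ := by nlinarith
  have h1 : 0 ≤ 1 - N / 2 - c3 := by linarith
  have h2 : (1 - N / 2 - c3) * ((lam + γ) * gu) ≤ (1 - N / 2 - c3) * au :=
    mul_le_mul_of_nonneg_left hau h1
  have h6 : N * (lam + γ) ≤ c * γ / 16 := by linarith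
  have h3 : (lam + γ / 2) ≤ (1 - N / 2 - c3) * (lam + γ) - (2 * N + c3) := by
    have e : (1 - N / 2 - c3) * (lam + γ) - (2 * N + c3) =
      (lam + γ) - (N * (lam + γ)) / 2 - c3 * (lam + γ + 1) - 2 * N := by ring
    rw [e, hc3q]
    linarith
  have h4 := mul_le_mul_of_nonneg_right h3 hgu
  have e2 : ((1 - N / 2 - c3) * (lam + γ) - (2 * N + c3)) * gu =
    (1 - N / 2 - c3) * ((lam + γ) * gu) - (2 * N + c3) * gu := by ring
  linarith

theorem blk_z_real {lam γ c N c3 Λ az gz : ℝ} (hlam : 0 ≤ lam) (hγ : 0 < γ) (hc : 0 < c)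
    (hc1 : c ≤ 1) (hgz : 0 ≤ gz) (hΛ : 2 * (lam + γ) ≤ c * Λ)
    (haz : Λ * gz ≤ az) (hN1 : N ≤ c * γ / 16) (hN2 : N ≤ c / 16) (hc31 : c3 ≤ c * γ / 8)
    (hc32 : c3 ≤ c / 8) :
    (lam + γ / 2) * gz ≤ (c - N - c3) * az - (N + c3) * gz := by
  have hcγ : c * γ ≤ γ := by nlinarith
  have hΛ0 : 0 ≤ Λ := by
    by_contra hcon
    push Not at hcon
    have : c * Λ < 0 := mul_neg_of_pos_of_neg hc hcon
    linarith
  have h1 : 0 ≤ c - N - c3 := by linarith
  have h2 : (c - N - c3) * (Λ * gz) ≤ (c - N - c3) * az := mul_le_mul_of_nonneg_left haz h1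
  have h3 : (lam + γ / 2) ≤ (c - N - c3) * Λ - (N + c3) := by
    have h5 : (N + c3) * Λ ≤ (3 * c / 16) * Λ := mul_le_mul_of_nonneg_right (by linarith) hΛ0
    have e : (c - N - c3) * Λ - (N + c3) = c * Λ - (N + c3) * Λ - (N + c3) := by ring
    have e' : (3 * c / 16) * Λ = 3 / 16 * (c * Λ) := by ring
    rw [e]
    rw [e'] at h5
    linarith
  have h4 := mul_le_mul_of_nonneg_right h3 hgz
  have e2 : ((c - N - c3) * Λ - (N + c3)) * gz = (c - N - c3) * (Λ * gz) - (N + c3) * gz := by ring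
  linarith

/-- real arithmetic for the lower half of the block lemma -/
theorem blk_lower_real {lam γ c N Λ B a'y a'u a'z au az gy gu gz xur xuz xyr : ℝ}
    (hlam : 0 ≤ lam) (hγ : 0 < γ) (hc : 0 < c) (hc1 : c ≤ 1) (hN0 : 0 ≤ N)
    (hN : N * (16 * (lam + γ + 1)) ≤ c * γ) (hΛ : 2 * (lam + γ) ≤ c * Λ)
    (hB : B ≤ lam + γ / 2) (hgu : 0 ≤ gu) (hgz : 0 ≤ gz)
    (hau : (lam + γ) * gu ≤ au) (haz : Λ * gz ≤ az) (hcz : c * az ≤ a'z)
    (hy : B * gy ≤ a'y)
    (hu : 2 * |xur| ≤ N * gu + N * (au + gu)) (hxur : a'u = au + xur)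
    (huz : 2 * |xuz| ≤ N * gu + N * (az + gz))
    (hyr : 2 * |xyr| ≤ 8 * (lam + γ + 1) / (c * γ) * N ^ 2 * gy
      + (c * γ) / (8 * (lam + γ + 1)) * (au + az + (gu + gz))) :
    (B - 8 * (lam + γ + 1) / (c * γ) * N ^ 2) * (gy + gu + gz) ≤
      a'y + 2 * xyr + (a'u + 2 * xuz + a'z) := by
  have hq : 0 < lam + γ + 1 := by positivity
  set k := 8 * (lam + γ + 1) / (c * γ) * N ^ 2 with hk
  have hk0 : 0 ≤ k := by positivity
  set c3 := (c * γ) / (8 * (lam + γ + 1)) with hc3
  have hc30 : 0 < c3 := by positivity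
  have hc3q : c3 * (lam + γ + 1) = c * γ / 8 := by
    rw [hc3]; field_simp
  have hNq : N * (lam + γ + 1) ≤ c * γ / 16 := by linarith
  have e1 : -|xur| ≤ xur := neg_abs_le _
  have e2 : -|xuz| ≤ xuz := neg_abs_le _
  have e3 : -|xyr| ≤ xyr := neg_abs_le _
  -- N and c3 bounds
  have hN1 : N ≤ c * γ / 16 := by
    nlinarith [mul_nonneg hN0 (by positivity : (0:ℝ) ≤ lam + γ)]
  have hc31 : c3 ≤ c * γ / 8 := by
    nlinarith [mul_nonneg hc30.le (by positivity : (0:ℝ) ≤ lam + γ)]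
  have hN2 : N ≤ c / 16 := by
    have : N * γ ≤ c / 16 * γ := by
      nlinarith [mul_nonneg hN0 (by positivity : (0:ℝ) ≤ lam + 1)]
    exact le_of_mul_le_mul_right this hγ
  have hc32 : c3 ≤ c / 8 := by
    have : c3 * γ ≤ c / 8 * γ := by
      nlinarith [mul_nonneg hc30.le (by positivity : (0:ℝ) ≤ lam + 1)]
    exact le_of_mul_le_mul_right this hγ
  have U := blk_u_real hlam hγ hc1 hN0 hc30 hgu hNq hc3q hau hN1 hN2 hc32
  have Z := blk_z_real hlam hγ hc hc1 hgz hΛ haz hN1 hN2 hc31 hc32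
  have hBk : B - k ≤ lam + γ / 2 := by linarith
  have f1 := mul_le_mul_of_nonneg_right hBk hgu
  have f2 := mul_le_mul_of_nonneg_right hBk hgz
  have g1 : (1 - N / 2 - c3) * au - (2 * N + c3) * gu
    = au - N / 2 * au - c3 * au - 2 * N * gu - c3 * gu := by ring
  have g2 : (c - N - c3) * az - (N + c3) * gz = c * az - N * az - c3 * az - N * gz - c3 * gz := by
    ring
  have g3 : (B - k) * (gy + gu + gz) = (B * gy - k * gy) + (B - k) * gu + (B - k) * gz := by ring
  have g4 : k * gy + c3 * (au + az + (gu + gz)) = k * gy + c3 * au + c3 * az + c3 * gu + c3 * gz := by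
    ring
  rw [g4] at hyr
  rw [g1] at U
  rw [g2] at Z
  rw [g3]
  have g5 : N * gu + N * (au + gu) = 2 * N * gu + N * au := by ring
  have g6 : N * gu + N * (az + gz) = N * gu + N * az + N * gz := by ring
  rw [g5] at hu
  rw [g6] at huz
  subst hxur
  linarith

set_option maxHeartbeats 1000000 in
/-- **Block lemma.**  `a` has spectral data `ψ, E`; `S` = low modes, `C` = cluster at `lam`.
The form `a'` is comparable with `a` and close to it on the finitely many low modes; inside the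
cluster `a'` is separated by `WC`. -/
theorem blk (h : Eig g a ψ E) {a' : Bil V} (ha' : ∀ u v, a' u v = a' v u)
    {S C T : Finset ι} {lam γ c Λ N : ℝ} (hlam : 0 ≤ lam) (hγ : 0 < γ) (hc : 0 < c) (hc1 : c ≤ 1)
    (hΛ : 2 * (lam + γ) ≤ c * Λ)
    (hT : ∀ i, E i ≤ Λ → i ∈ T) (hS : ∀ i ∈ S, E i ≤ lam - γ) (hC : ∀ i ∈ C, E i = lam)
    (hrest : ∀ i, i ∉ S → i ∉ C → lam + γ ≤ E i)
    (hN0 : 0 ≤ N) (hN : N * (16 * (lam + γ + 1)) ≤ c * γ)
    (hcmp : ∀ v, c * a v v ≤ a' v v)
    (hcons : ∀ u ∈ Submodule.span ℝ (ψ '' T), ∀ v,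
      (a' u v - a u v) ^ 2 ≤ (N ^ 2 * g u u) * (a v v + g v v))
    {WC : Submodule ℝ V} (hWC : WC ≤ Submodule.span ℝ (ψ '' C)) {A B : ℝ}
    (hA : lam - γ / 2 ≤ A) (hB : B ≤ lam + γ / 2)
    (hle : ∀ w ∈ WC, a' w w ≤ A * g w w)
    (hge : ∀ z ∈ Submodule.span ℝ (ψ '' C), (∀ w ∈ WC, g z w = 0) → B * g z z ≤ a' z z)
    (hlt : A + 8 * (lam + γ + 1) / (c * γ) * N ^ 2 < B - 8 * (lam + γ + 1) / (c * γ) * N ^ 2) :
    Sep g a' (Submodule.span ℝ (ψ '' S) ⊔ WC) (A + 8 * (lam + γ + 1) / (c * γ) * N ^ 2)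
      (B - 8 * (lam + γ + 1) / (c * γ) * N ^ 2) := by
  classical
  have hq : 0 < lam + γ + 1 := by positivity
  have hlamΛ : lam ≤ Λ := by
    have h1 : 0 ≤ Λ := by
      by_contra hcon
      push Not at hcon
      have : c * Λ < 0 := mul_neg_of_pos_of_neg hc hcon
      linarith
    nlinarith
  have hST : S ⊆ T := fun i hi => hT i (by linarith [hS i hi])
  have hCT : C ⊆ T := fun i hi => hT i (by rw [hC i hi]; exact hlamΛ)
  have hdisj : ∀ i ∈ S, i ∉ C := fun i hi hi' => by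
    have := hS i hi; rw [hC i hi'] at this; linarith
  have spanST : Submodule.span ℝ (ψ '' S) ≤ Submodule.span ℝ (ψ '' T) :=
    Submodule.span_mono (Set.image_mono (by exact_mod_cast hST))
  have spanCT : Submodule.span ℝ (ψ '' C) ≤ Submodule.span ℝ (ψ '' T) :=
    Submodule.span_mono (Set.image_mono (by exact_mod_cast hCT))
  refine ⟨hlt, ?_, ?_⟩
  · intro w hw
    obtain ⟨u, hu, x, hx, rfl⟩ := Submodule.mem_sup.1 hw
    have hxC := hWC hx
    have hux : g u x = 0 := h.g_eq_zero_of_mem hu fun i hi => by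
      rw [h.gsymm]
      exact h.g_eq_zero_of_mem hxC fun j hj => h.orth j i (by rintro rfl; exact hdisj _ hi hj)
    have haux : a u x = 0 := h.a_eq_zero_of_mem hu fun i hi => by
      rw [h.gsymm]
      exact h.g_eq_zero_of_mem hxC fun j hj => h.orth j i (by rintro rfl; exact hdisj _ hi hj)
    have e1 : a' (u + x) (u + x) = a' u u + 2 * a' u x + a' x x := by
      simp only [map_add, LinearMap.add_apply]
      rw [ha' x u]; ring
    have e2 : g (u + x) (u + x) = g u u + g x x := by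
      simp only [map_add, LinearMap.add_apply]
      rw [h.gsymm x u, hux]; ring
    rw [e1, e2]
    have haul : a u u ≤ (lam - γ) * g u u := h.a_le_of_mem hu hS
    have haxl : a x x ≤ lam * g x x := h.a_le_of_mem hxC fun i hi => (hC i hi).le
    have hgu := h.gnn u
    have hgx := h.gnn x
    refine blk_upper_real hlam hγ hc hc1 hN hA hgu hgx haul ?_ (hle x hx) ?_
    · have h1 := hcons u (spanST hu) u
      have h20 : lam + 1 ≤ (lam + γ + 1) ^ 2 := by nlinarith
      have h21 := mul_le_mul_of_nonneg_right h20 hgu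
      have h22 : (lam - γ) * g u u ≤ lam * g u u :=
        mul_le_mul_of_nonneg_right (by linarith) hgu
      have h2 : a u u + g u u ≤ (lam + γ + 1) ^ 2 * g u u := by
        have : (lam + 1) * g u u = lam * g u u + g u u := by ring
        linarith
      have h3 : (a' u u - a u u) ^ 2 ≤ (N * (lam + γ + 1) * g u u) ^ 2 := by
        refine h1.trans ?_
        have : N ^ 2 * g u u * (a u u + g u u) ≤ N ^ 2 * g u u * ((lam + γ + 1) ^ 2 * g u u) :=
          mul_le_mul_of_nonneg_left h2 (by positivity)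
        nlinarith
      exact abs_le_of_sq_le_sq h3 (by positivity)
    · have h1 := hcons u (spanST hu) x
      rw [haux, sub_zero] at h1
      have h2 : a x x + g x x ≤ (lam + γ + 1) * g x x := by nlinarith
      have h3 : (a' u x) ^ 2 ≤ g u u * (N ^ 2 * ((lam + γ + 1) * g x x)) := by
        refine h1.trans ?_
        have : N ^ 2 * g u u * (a x x + g x x) ≤ N ^ 2 * g u u * ((lam + γ + 1) * g x x) :=
          mul_le_mul_of_nonneg_left h2 (by positivity)
        nlinarith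
      have h4 := two_mul_le_of_sq_le (c := 4 / γ) (by positivity) hgu (by positivity) h3
      refine h4.trans ?_
      have e3 : g u u / (4 / γ) = γ / 4 * g u u := by field_simp
      have e4 : 4 / γ * (N ^ 2 * ((lam + γ + 1) * g x x)) =
          4 * (lam + γ + 1) / γ * N ^ 2 * g x x := by ring
      rw [e3, e4]
      have e5 : 4 * (lam + γ + 1) / γ ≤ 4 * (lam + γ + 1) / (c * γ) := by
        apply div_le_div_of_nonneg_left (by positivity) (by positivity)
        nlinarith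
      have e6 : 4 * (lam + γ + 1) / γ * N ^ 2 * g x x ≤
          4 * (lam + γ + 1) / (c * γ) * N ^ 2 * g x x :=
        mul_le_mul_of_nonneg_right (mul_le_mul_of_nonneg_right e5 (by positivity)) hgx
      linarith
  · intro v hv
    set y := h.proj C v with hy
    set u := h.proj (T \ (S ∪ C)) v with hu
    set z := v - y - u with hz
    have hvS : ∀ i ∈ S, g (ψ i) v = 0 := fun i hi => by
      rw [h.gsymm]
      exact hv _ (Submodule.mem_sup_left (Submodule.subset_span ⟨i, hi, rfl⟩))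
    have hyC : y ∈ Submodule.span ℝ (ψ '' C) := h.proj_mem _ _
    have huU : u ∈ Submodule.span ℝ (ψ '' (T \ (S ∪ C) : Finset ι)) := h.proj_mem _ _
    have huT : u ∈ Submodule.span ℝ (ψ '' T) :=
      Submodule.span_mono (Set.image_mono (by exact_mod_cast Finset.sdiff_subset)) huU
    have hzT : ∀ i ∈ T, g (ψ i) z = 0 := by
      intro i hi
      rw [hz, map_sub, map_sub]
      by_cases hiC : i ∈ C
      · rw [hy, h.g_psi_proj hiC, hu, h.g_psi_proj_of_notMem (by simp [hiC])]; ring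
      · rw [hy, h.g_psi_proj_of_notMem hiC]
        by_cases hiS : i ∈ S
        · rw [hvS i hiS, hu, h.g_psi_proj_of_notMem (by simp [hiS])]; ring
        · rw [hu, h.g_psi_proj (by simp [hi, hiC, hiS])]; ring
    have hCu : ∀ i ∈ C, g (ψ i) u = 0 := fun i hi => by
      rw [hu, h.g_psi_proj_of_notMem (by simp [hi])]
    have huy : g u y = 0 := by
      rw [h.gsymm]; exact h.g_eq_zero_of_mem hyC hCu
    have hgzu : g u z = 0 := h.g_eq_zero_of_mem huT hzT
    have hgzy : g y z = 0 := h.g_eq_zero_of_mem (spanCT hyC) hzT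
    have hazu : a u z = 0 := h.a_eq_zero_of_mem huT hzT
    have hazy : a y z = 0 := h.a_eq_zero_of_mem (spanCT hyC) hzT
    have hauy : a y u = 0 := h.a_eq_zero_of_mem hyC hCu
    have hvd : v = y + (u + z) := by rw [hz]; abel
    have e1 : a' v v = a' y y + 2 * a' y (u + z) + (a' u u + 2 * a' u z + a' z z) := by
      rw [hvd]
      simp only [map_add, LinearMap.add_apply]
      rw [ha' u y, ha' z y, ha' z u]; ring
    have e2 : g v v = g y y + g u u + g z z := by
      rw [hvd]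
      simp only [map_add, LinearMap.add_apply]
      rw [h.gsymm z y, h.gsymm z u, huy, h.gsymm y u, huy, hgzy, hgzu]; ring
    have hr : a (u + z) (u + z) + g (u + z) (u + z) = a u u + a z z + (g u u + g z z) := by
      simp only [map_add, LinearMap.add_apply]
      rw [h.gsymm z u, hgzu, h.asymm z u, hazu]; ring
    rw [e1, e2]
    have hauL : (lam + γ) * g u u ≤ a u u := h.le_a_of_mem huU fun i hi => by
      simp only [Finset.mem_sdiff, Finset.mem_union, not_or] at hi
      exact hrest i hi.2.1 hi.2.2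
    have hazL : Λ * g z z ≤ a z z := h.compl Λ z fun i hi => hzT i (hT i hi)
    have hyW : ∀ w ∈ WC, g y w = 0 := by
      intro w hw
      have h1 : g v w = 0 := hv w (Submodule.mem_sup_right hw)
      have h2 : g (u + z) w = 0 := by
        rw [h.gsymm]
        exact h.g_eq_zero_of_mem (hWC hw) fun i hi => by
          rw [map_add, hCu i hi, hzT i (hCT hi), add_zero]
      rw [hvd, map_add, LinearMap.add_apply, h2, add_zero] at h1
      exact h1
    have hgy := h.gnn y
    have hgu := h.gnn u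
    have hgz := h.gnn z
    have hann_u : 0 ≤ a u u := (mul_nonneg (by positivity) hgu).trans hauL
    have hann_z : 0 ≤ a z z := h.ann z
    refine blk_lower_real (xur := a' u u - a u u) (xuz := a' u z) (xyr := a' y (u + z))
      hlam hγ hc hc1 hN0 hN hΛ hB hgu hgz hauL hazL (hcmp z) (hge y hyC hyW) ?_ (by ring) ?_ ?_
    · have h1 := hcons u huT u
      have h2 := two_mul_le_of_sq_le (x := a' u u - a u u) (P := N * g u u)
        (Q := N * (a u u + g u u)) (c := 1) one_pos (by positivity) (by positivity) (by nlinarith)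
      simpa using h2
    · have h1 := hcons u huT z
      rw [hazu, sub_zero] at h1
      have h2 := two_mul_le_of_sq_le (x := a' u z) (P := N * g u u)
        (Q := N * (a z z + g z z)) (c := 1) one_pos (by positivity) (by positivity) (by nlinarith)
      simpa using h2
    · have h1 := hcons y (spanCT hyC) (u + z)
      have h0 : a y (u + z) = 0 := by rw [map_add, hauy, hazy, add_zero]
      rw [h0, sub_zero, hr] at h1
      have h2 := two_mul_le_of_sq_le (x := a' y (u + z)) (P := N ^ 2 * g y y)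
        (Q := a u u + a z z + (g u u + g z z)) (c := (c * γ) / (8 * (lam + γ + 1)))
        (by positivity) (by positivity) (by positivity) h1
      have e3 : N ^ 2 * g y y / (c * γ / (8 * (lam + γ + 1))) =
          8 * (lam + γ + 1) / (c * γ) * N ^ 2 * g y y := by
        field_simp
      rw [e3] at h2
      exact h2

end

end Crest.Agent.R202.Cut
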