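/-
R202 (helper14): stability of a separating frame of a bilinear form: local separation by vectors of
a dense subspace (node L2P).
-/
import Mathlib
import Crest.Agent.R202.CutSep

set_option autoImplicit false

open Set Filter
open scoped Topology

namespace Crest.Agent.R202.LocS

open Crest.Agent.R202.Cut (Bil)

variable {V : Type*} [AddCommGroup V] [Module ℝ V] {l : ℕ}

/-- The frame `p` (in the space `R` of reduced vectors) separates the form `a`. -/
structure SepB (R : Submodule ℝ V) (g a : Bil V) (p : Fin l → V) (A B : ℝ) : Prop where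
  mem : ∀ i, p i ∈ R
  li : LinearIndependent ℝ p
  lt : A < B
  le : ∀ w ∈ Submodule.span ℝ (range p), a w w ≤ A * g w w
  ge : ∀ v ∈ R, (∀ i, g v (p i) = 0) → B * g v v ≤ a v v

/-- symmetric nonnegative form -/
structure SN (h : Bil V) : Prop where
  symm : ∀ u v, h u v = h v u
  nn : ∀ v, 0 ≤ h v v

/-- seminorm of a form -/
noncomputable def nrm (h : Bil V) (v : V) : ℝ := Real.sqrt (h v v)

theorem nrm_nonneg (h : Bil V) (v : V) : 0 ≤ nrm h v := Real.sqrt_nonneg _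

theorem SN.sq {h : Bil V} (hh : SN h) (v : V) : nrm h v ^ 2 = h v v := Real.sq_sqrt (hh.nn v)

theorem SN.expand {h : Bil V} (hh : SN h) (u v : V) (s t : ℝ) :
    h (s • u + t • v) (s • u + t • v) = s ^ 2 * h u u + 2 * (s * t) * h u v + t ^ 2 * h v v := by
  simp only [map_add, map_smul, LinearMap.add_apply, LinearMap.smul_apply, smul_eq_mul]
  rw [hh.symm v u]; ring

theorem SN.cs_sq {h : Bil V} (hh : SN h) (u v : V) : h u v ^ 2 ≤ h u u * h v v := by
  have key : ∀ s : ℝ, 0 ≤ h u u + 2 * s * h u v + s ^ 2 * h v v := fun s => by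
    have := hh.nn ((1 : ℝ) • u + s • v)
    rw [hh.expand] at this
    linarith
  have := discrim_le_zero (a := h v v) (b := 2 * h u v) (c := h u u) fun s => by
    have := key s; nlinarith
  unfold discrim at this
  nlinarith

theorem SN.cs {h : Bil V} (hh : SN h) (u v : V) : |h u v| ≤ nrm h u * nrm h v := by
  unfold nrm
  rw [← Real.sqrt_mul (hh.nn u)]
  rw [← Real.sqrt_sq_eq_abs]
  exact Real.sqrt_le_sqrt (hh.cs_sq u v)

theorem SN.add_le {h : Bil V} (hh : SN h) (u v : V) : nrm h (u + v) ≤ nrm h u + nrm h v := by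
  have h1 : nrm h (u + v) ^ 2 ≤ (nrm h u + nrm h v) ^ 2 := by
    rw [hh.sq]
    have h2 := hh.expand u v 1 1
    simp only [one_smul] at h2
    rw [h2]
    have h3 := (abs_le.1 (hh.cs u v)).2
    nlinarith [hh.sq u, hh.sq v]
  exact (sq_le_sq₀ (nrm_nonneg _ _) (add_nonneg (nrm_nonneg _ _) (nrm_nonneg _ _))).1 h1

theorem SN.smul_eq {h : Bil V} (_hh : SN h) (c : ℝ) (v : V) : nrm h (c • v) = |c| * nrm h v := by
  unfold nrm
  have : h (c • v) (c • v) = c ^ 2 * h v v := by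
    simp only [map_smul, LinearMap.smul_apply, smul_eq_mul]; ring
  rw [this, Real.sqrt_mul (sq_nonneg c), Real.sqrt_sq_eq_abs]

theorem SN.neg_eq {h : Bil V} (_hh : SN h) (v : V) : nrm h (-v) = nrm h v := by
  unfold nrm; simp

theorem nrm_zero (h : Bil V) : nrm h 0 = 0 := by unfold nrm; simp

theorem SN.sum_le {h : Bil V} (hh : SN h) {ι : Type*} (s : Finset ι) (x : ι → ℝ) (f : ι → V) :
    nrm h (∑ i ∈ s, x i • f i) ≤ ∑ i ∈ s, |x i| * nrm h (f i) := by
  classical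
  induction s using Finset.induction_on with
  | empty => simp [nrm_zero]
  | insert a s ha ih =>
    rw [Finset.sum_insert ha, Finset.sum_insert ha]
    exact (hh.add_le _ _).trans (add_le_add (hh.smul_eq _ _).le ih)

/-- linear combination of a frame -/
def cmb (f : Fin l → V) (x : Fin l → ℝ) : V := ∑ i, x i • f i

theorem mem_span_iff {f : Fin l → V} {w : V} :
    w ∈ Submodule.span ℝ (range f) ↔ ∃ x, cmb f x = w :=
  Submodule.mem_span_range_iff_exists_fun ℝ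

theorem SN.cmb_le {h : Bil V} (hh : SN h) {f : Fin l → V} {H : ℝ}
    (hH : ∀ i, nrm h (f i) ≤ H) (x : Fin l → ℝ) : nrm h (cmb f x) ≤ l * H * ‖x‖ := by
  refine (hh.sum_le _ _ _).trans ?_
  calc ∑ i, |x i| * nrm h (f i) ≤ ∑ _i : Fin l, ‖x‖ * H := by
        refine Finset.sum_le_sum fun i _ => ?_
        refine mul_le_mul ?_ (hH i) (nrm_nonneg _ _) (norm_nonneg _)
        rw [← Real.norm_eq_abs]; exact norm_le_pi_norm x i
    _ = _ := by rw [Finset.sum_const, Finset.card_univ, Fintype.card_fin, nsmul_eq_mul]; ring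

theorem cmb_sub (f p : Fin l → V) (x : Fin l → ℝ) :
    cmb p x - cmb f x = cmb (fun i => p i - f i) x := by
  simp only [cmb, smul_sub, Finset.sum_sub_distrib]

theorem g_cmb (g : Bil V) (f : Fin l → V) (x : Fin l → ℝ) (v : V) :
    g v (cmb f x) = ∑ i, x i * g v (f i) := by
  simp [cmb, map_sum]

/-- coercivity of the Gram form -/
theorem exists_gram_lower {g : Bil V} (hg : SN g) {f : Fin l → V} (hf : LinearIndependent ℝ f)
    (hdef : ∀ w ∈ Submodule.span ℝ (range f), g w w = 0 → w = 0) :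
    ∃ c : ℝ, 0 < c ∧ ∀ x : Fin l → ℝ, c * ‖x‖ ^ 2 ≤ g (cmb f x) (cmb f x) := by
  have hexp : ∀ x : Fin l → ℝ, g (cmb f x) (cmb f x) = ∑ i, x i * ∑ j, x j * g (f i) (f j) := by
    intro x
    rw [g_cmb]
    refine Finset.sum_congr rfl fun i _ => ?_
    rw [hg.symm, g_cmb]
  have hcont : Continuous fun x : Fin l → ℝ => g (cmb f x) (cmb f x) := by
    simp only [hexp]
    fun_prop
  have hpos : ∀ x : Fin l → ℝ, x ≠ 0 → 0 < g (cmb f x) (cmb f x) := by
    intro x hx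
    refine lt_of_le_of_ne (hg.nn _) fun h0 => hx ?_
    have h1 := hdef _ (mem_span_iff.2 ⟨x, rfl⟩) h0.symm
    exact funext (Fintype.linearIndependent_iff.1 hf x h1)
  rcases isEmpty_or_nonempty (Fin l) with hl | hl
  · refine ⟨1, one_pos, fun x => ?_⟩
    have hx : x = 0 := funext fun i => (hl.false i).elim
    have h0 : cmb f (0 : Fin l → ℝ) = 0 := by simp [cmb]
    rw [hx, h0]; simp
  · have hne : (Metric.sphere (0 : Fin l → ℝ) 1).Nonempty := by
      refine ⟨fun _ => 1, ?_⟩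
      rw [mem_sphere_zero_iff_norm]
      simp
    obtain ⟨x0, hx0, hmin⟩ := (isCompact_sphere (0 : Fin l → ℝ) 1).exists_isMinOn hne
      hcont.continuousOn
    have hx0n : ‖x0‖ = 1 := by simpa using hx0
    refine ⟨g (cmb f x0) (cmb f x0), hpos x0 (by rintro rfl; simp at hx0n), fun x => ?_⟩
    rcases eq_or_ne x 0 with rfl | hx
    · have h0 : cmb f (0 : Fin l → ℝ) = 0 := by simp [cmb]
      rw [h0]; simp
    · have hxn : 0 < ‖x‖ := norm_pos_iff.2 hx
      have h1 := hmin (a := ‖x‖⁻¹ • x) (by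
        show ‖x‖⁻¹ • x ∈ Metric.sphere (0 : Fin l → ℝ) 1
        rw [mem_sphere_zero_iff_norm, norm_smul, norm_inv, norm_norm, inv_mul_cancel₀ hxn.ne'])
      have h2 : cmb f (‖x‖⁻¹ • x) = ‖x‖⁻¹ • cmb f x := by
        simp only [cmb, Pi.smul_apply, smul_eq_mul, mul_smul, Finset.smul_sum]
      have h3 : g (cmb f (‖x‖⁻¹ • x)) (cmb f (‖x‖⁻¹ • x)) =
          (‖x‖⁻¹) ^ 2 * g (cmb f x) (cmb f x) := by
        rw [h2]; simp only [map_smul, LinearMap.smul_apply, smul_eq_mul]; ring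
      have h4 : g (cmb f x0) (cmb f x0) ≤ (‖x‖⁻¹) ^ 2 * g (cmb f x) (cmb f x) := by
        rw [← h3]; exact h1
      calc g (cmb f x0) (cmb f x0) * ‖x‖ ^ 2
          ≤ (‖x‖⁻¹) ^ 2 * g (cmb f x) (cmb f x) * ‖x‖ ^ 2 :=
            mul_le_mul_of_nonneg_right h4 (sq_nonneg _)
        _ = g (cmb f x) (cmb f x) := by field_simp

/-- `g`-projection to the span of a frame -/
theorem exists_gproj {g : Bil V} (hg : SN g) {f : Fin l → V} {c : ℝ} (hc : 0 < c)
    (hlow : ∀ x : Fin l → ℝ, c * ‖x‖ ^ 2 ≤ g (cmb f x) (cmb f x)) (v : V) :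
    ∃ x : Fin l → ℝ, ∀ i, g (v - cmb f x) (f i) = 0 := by
  set Γ : Matrix (Fin l) (Fin l) ℝ := Matrix.of fun i j => g (f i) (f j) with hΓ
  have hdet : Γ.det ≠ 0 := by
    intro h0
    obtain ⟨x, hx0, hx⟩ := Matrix.exists_mulVec_eq_zero_iff.2 h0
    have h1 : g (cmb f x) (cmb f x) = 0 := by
      rw [g_cmb]
      refine Finset.sum_eq_zero fun i _ => ?_
      rw [hg.symm, g_cmb]
      have h2 := congrFun hx i
      simp only [Matrix.mulVec, dotProduct, hΓ, Matrix.of_apply, Pi.zero_apply] at h2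
      have h3 : ∑ j, x j * g (f i) (f j) = 0 := by
        rw [← h2]; exact Finset.sum_congr rfl fun j _ => mul_comm _ _
      rw [h3, mul_zero]
    have h2 := hlow x
    rw [h1] at h2
    have h3 : 0 < ‖x‖ := norm_pos_iff.2 hx0
    have : 0 < c * ‖x‖ ^ 2 := by positivity
    linarith
  have hu : IsUnit Γ.det := isUnit_iff_ne_zero.2 hdet
  refine ⟨Γ⁻¹.mulVec fun i => g v (f i), fun i => ?_⟩
  have h1 : Γ.mulVec (Γ⁻¹.mulVec fun i => g v (f i)) = fun i => g v (f i) := by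
    rw [Matrix.mulVec_mulVec, Matrix.mul_nonsing_inv _ hu, Matrix.one_mulVec]
  have h2 := congrFun h1 i
  rw [map_sub, LinearMap.sub_apply, hg.symm (cmb f _) (f i), g_cmb, sub_eq_zero, ← h2]
  simp only [Matrix.mulVec, dotProduct, hΓ, Matrix.of_apply]
  exact Finset.sum_congr rfl fun j _ => mul_comm _ _

/-- quantitative upper bound on the perturbed span -/
theorem low_bound {g h a a' : Bil V} (hg : SN g) (hh : SN h) (ha : SN a) (hgh : ∀ v, g v v ≤ h v v)
    {M : ℝ} (hM : 0 ≤ M) (hbd : ∀ v, a v v ≤ M ^ 2 * h v v) {f p : Fin l → V} {A c H ε : ℝ}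
    (hc : 0 < c) (hlow : ∀ x : Fin l → ℝ, c ^ 2 * ‖x‖ ^ 2 ≤ g (cmb f x) (cmb f x))
    (hle : ∀ w ∈ Submodule.span ℝ (range f), a w w ≤ A * g w w)
    (hH : ∀ i, nrm h (f i) ≤ H) (hε : 0 ≤ ε) (hp : ∀ i, nrm h (p i - f i) ≤ ε)
    (ha' : ∀ v, |a' v v - a v v| ≤ ε * h v v) (hεc : l * ε ≤ c / 2) (x : Fin l → ℝ) :
    (c / 2 * ‖x‖) ^ 2 ≤ g (cmb p x) (cmb p x) ∧
    a' (cmb p x) (cmb p x) ≤ A * g (cmb p x) (cmb p x) +
      (|A| * (l * ε * (2 * (l * H) + l * ε)) + (2 * (M * (l * H)) * (M * (l * ε)) +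
        (M * (l * ε)) ^ 2) + ε * (l * H + l * ε) ^ 2) * ‖x‖ ^ 2 := by
  set X := ‖x‖ with hX
  have hX0 : 0 ≤ X := norm_nonneg _
  set w := cmb p x with hw
  set w' := cmb f x with hw'
  set d := w - w' with hd
  have hdh : nrm h d ≤ l * ε * X := by
    rw [hd, hw, hw', cmb_sub]; exact hh.cmb_le hp x
  have hw'h : nrm h w' ≤ l * H * X := hh.cmb_le hH x
  have hgn : ∀ v, nrm g v ≤ nrm h v := fun v => Real.sqrt_le_sqrt (hgh v)
  have han : ∀ v, nrm a v ≤ M * nrm h v := fun v => by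
    unfold nrm
    rw [← Real.sqrt_sq hM, ← Real.sqrt_mul (sq_nonneg M)]
    exact Real.sqrt_le_sqrt (hbd v)
  have hww : w = w' + d := by rw [hd]; abel
  have hwh : nrm h w ≤ (l * H + l * ε) * X := by
    rw [hww]
    refine (hh.add_le _ _).trans ?_
    linarith
  have hlε : 0 ≤ l * ε := by positivity
  have hlH : 0 ≤ l * H * X := (nrm_nonneg _ _).trans hw'h
  have hgw' : c * X ≤ nrm g w' := by
    unfold nrm
    refine Real.le_sqrt_of_sq_le ?_
    rw [mul_pow]; exact hlow x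
  have hgd : nrm g d ≤ l * ε * X := (hgn d).trans hdh
  have hgw : c / 2 * X ≤ nrm g w := by
    have h1 : nrm g w' ≤ nrm g w + nrm g d := by
      have h2 : w' = w + -d := by rw [hd]; abel
      rw [h2]
      refine (hg.add_le _ _).trans ?_
      rw [hg.neg_eq]
    have h3 : l * ε * X ≤ c / 2 * X := mul_le_mul_of_nonneg_right hεc hX0
    linarith
  refine ⟨?_, ?_⟩
  · rw [← hg.sq w]
    exact pow_le_pow_left₀ (by positivity) hgw 2
  · -- form estimates
    have e1 : a w w = a w' w' + 2 * a w' d + a d d := by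
      have := ha.expand w' d 1 1
      simp only [one_smul] at this
      rw [hww, this]; ring
    have e2 : g w' w' = g w w - 2 * g w' d - g d d := by
      have := hg.expand w' d 1 1
      simp only [one_smul] at this
      rw [hww, this]; ring
    have b1 : a w' w' ≤ A * g w' w' := hle _ (mem_span_iff.2 ⟨x, rfl⟩)
    have b2 : a w' d ≤ (M * (l * H * X)) * (M * (l * ε * X)) := by
      refine (le_abs_self _).trans ((ha.cs _ _).trans ?_)
      exact mul_le_mul ((han _).trans (mul_le_mul_of_nonneg_left hw'h hM))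
        ((han _).trans (mul_le_mul_of_nonneg_left hdh hM)) (nrm_nonneg _ _)
        (mul_nonneg hM hlH)
    have b3 : a d d ≤ (M * (l * ε * X)) ^ 2 := by
      rw [← ha.sq d]
      exact pow_le_pow_left₀ (nrm_nonneg _ _)
        ((han _).trans (mul_le_mul_of_nonneg_left hdh hM)) 2
    have b4 : |2 * g w' d + g d d| ≤ l * ε * X * (2 * (l * H * X) + l * ε * X) := by
      have h1 : |g w' d| ≤ (l * H * X) * (l * ε * X) :=
        (hg.cs _ _).trans (mul_le_mul ((hgn _).trans hw'h) hgd (nrm_nonneg _ _) hlH)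
      have h2 : |g d d| ≤ (l * ε * X) ^ 2 := by
        rw [abs_of_nonneg (hg.nn d), ← hg.sq d]
        exact pow_le_pow_left₀ (nrm_nonneg _ _) hgd 2
      calc |2 * g w' d + g d d| ≤ |2 * g w' d| + |g d d| := abs_add_le _ _
        _ = 2 * |g w' d| + |g d d| := by rw [abs_mul, abs_two]
        _ ≤ _ := by nlinarith
    have b5 : A * g w' w' ≤ A * g w w + |A| * (l * ε * X * (2 * (l * H * X) + l * ε * X)) := by
      have h1 : A * g w' w' = A * g w w + (-(A * (2 * g w' d + g d d))) := by rw [e2]; ring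
      rw [h1]
      have h2 : -(A * (2 * g w' d + g d d)) ≤ |A| * |2 * g w' d + g d d| := by
        rw [← abs_mul]; exact neg_le_abs _
      have h3 := mul_le_mul_of_nonneg_left b4 (abs_nonneg A)
      linarith
    have b6 : h w w ≤ ((l * H + l * ε) * X) ^ 2 := by
      rw [← hh.sq w]
      exact pow_le_pow_left₀ (nrm_nonneg _ _) hwh 2
    have b7 : a' w w ≤ a w w + ε * h w w := by
      have := (abs_le.1 (ha' w)).2
      linarith
    have b8 := mul_le_mul_of_nonneg_left b6 hε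
    nlinarith

/-- quantitative lower bound on the perturbed complement -/
theorem high_bound {R : Submodule ℝ V} {g h a a' : Bil V} (hg : SN g) (hh : SN h) (ha : SN a)
    (hgh : ∀ v, g v v ≤ h v v) {M : ℝ} (hbd : ∀ v, a v v ≤ M ^ 2 * h v v)
    {f p : Fin l → V} {B c c1 H ε : ℝ} (hfR : ∀ i, f i ∈ R)
    (hc : 0 < c) (hlow : ∀ x : Fin l → ℝ, c ^ 2 * ‖x‖ ^ 2 ≤ g (cmb f x) (cmb f x))
    (hge : ∀ v ∈ R, (∀ i, g v (f i) = 0) → B * g v v ≤ a v v)
    (hH : ∀ i, nrm h (f i) ≤ H) (hε : 0 < ε) (hp : ∀ i, nrm h (p i - f i) ≤ ε)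
    (ha' : ∀ v, |a' v v - a v v| ≤ ε * h v v) (hc1 : 0 < c1)
    (hcoer : ∀ v, c1 * h v v ≤ a v v + g v v) (hεc1 : ε ≤ c1)
    {κ : ℝ} (hκ : κ = l * H * (l * ε / c ^ 2) + ε) (hH0 : 0 ≤ H) {v : V} (hv : v ∈ R)
    (hvp : ∀ i, g v (p i) = 0) :
    ((1 - ε / c1) * ((B - |B| * κ ^ 2 - M ^ 2 * κ - M ^ 2 * κ ^ 2) / (1 + κ)) - ε / c1) * g v v
      ≤ a' v v := by
  obtain ⟨x, hx⟩ := exists_gproj hg (pow_pos hc 2) hlow v
  set w := cmb f x with hw
  set u := v - w with hu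
  have hκ0 : 0 < κ := by rw [hκ]; positivity
  have hgn : ∀ v, nrm g v ≤ nrm h v := fun v => Real.sqrt_le_sqrt (hgh v)
  have hwR : w ∈ R := Submodule.sum_mem _ fun i _ => Submodule.smul_mem _ _ (hfR i)
  have huR : u ∈ R := Submodule.sub_mem _ hv hwR
  have huw : g u w = 0 := by
    rw [hw, g_cmb]
    exact Finset.sum_eq_zero fun i _ => by rw [hx i, mul_zero]
  have hgww : g w w = ∑ i, x i * g v (f i) := by
    have h1 : g v w = g w w := by
      have : v = u + w := by rw [hu]; abel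
      rw [this, map_add, LinearMap.add_apply, huw, zero_add]
    rw [← h1, hw, g_cmb]
  have hgf : ∀ i, |g v (f i)| ≤ nrm g v * ε := fun i => by
    have h1 : g v (f i) = -g v (p i - f i) := by rw [map_sub, hvp i]; ring
    rw [h1, abs_neg]
    exact (hg.cs _ _).trans (mul_le_mul_of_nonneg_left ((hgn _).trans (hp i)) (nrm_nonneg _ _))
  have hX : c ^ 2 * ‖x‖ ≤ l * ε * nrm g v := by
    have h1 : c ^ 2 * ‖x‖ ^ 2 ≤ l * ε * nrm g v * ‖x‖ := by
      refine (hlow x).trans ?_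
      rw [← hw, hgww]
      calc ∑ i, x i * g v (f i) ≤ ∑ _i : Fin l, ‖x‖ * (nrm g v * ε) := by
            refine Finset.sum_le_sum fun i _ => ?_
            refine (le_abs_self _).trans ?_
            rw [abs_mul]
            refine mul_le_mul ?_ (hgf i) (abs_nonneg _) (norm_nonneg _)
            rw [← Real.norm_eq_abs]; exact norm_le_pi_norm x i
        _ = _ := by rw [Finset.sum_const, Finset.card_univ, Fintype.card_fin, nsmul_eq_mul]; ring
    rcases (norm_nonneg x).eq_or_lt with h0 | h0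
    · rw [← h0, mul_zero]
      have := nrm_nonneg g v
      positivity
    · refine le_of_mul_le_mul_right ?_ h0
      calc c ^ 2 * ‖x‖ * ‖x‖ = c ^ 2 * ‖x‖ ^ 2 := by ring
        _ ≤ _ := h1
  have hwh : nrm h w ≤ κ * nrm g v := by
    have h1 : nrm h w ≤ l * H * ‖x‖ := hh.cmb_le hH x
    have h2 : ‖x‖ ≤ l * ε / c ^ 2 * nrm g v := by
      rw [div_mul_eq_mul_div, le_div_iff₀ (pow_pos hc 2)]
      linarith
    have h3 : l * H * ‖x‖ ≤ l * H * (l * ε / c ^ 2 * nrm g v) :=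
      mul_le_mul_of_nonneg_left h2 (by positivity)
    have h4 : 0 ≤ ε * nrm g v := mul_nonneg hε.le (nrm_nonneg _ _)
    rw [hκ]
    calc nrm h w ≤ l * H * (l * ε / c ^ 2 * nrm g v) := h1.trans h3
      _ ≤ _ := by nlinarith
  have hhw : h w w ≤ κ ^ 2 * g v v := by
    rw [← hh.sq w, ← hg.sq v, ← mul_pow]
    exact pow_le_pow_left₀ (nrm_nonneg _ _) hwh 2
  have haw : a w w ≤ M ^ 2 * κ ^ 2 * g v v := by
    have := mul_le_mul_of_nonneg_left hhw (sq_nonneg M)
    linarith [hbd w]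
  have hgw : g w w ≤ κ ^ 2 * g v v := (hgh w).trans hhw
  have hau : B * g u u ≤ a u u := hge u huR fun i => hx i
  have hguu : g u u = g v v - g w w := by
    have h1 := hg.expand u w 1 1
    simp only [one_smul] at h1
    have h2 : u + w = v := by rw [hu]; abel
    rw [h2, huw] at h1
    linarith
  have hauu : a v v = a u u + 2 * a v w - a w w := by
    have h1 := ha.expand v w 1 (-1)
    have h2 : (1 : ℝ) • v + (-1 : ℝ) • w = u := by rw [hu, one_smul, neg_one_smul]; abel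
    rw [h2] at h1
    linarith
  have hvw : -(κ * a v v + M ^ 2 * κ * g v v) ≤ 2 * a v w := by
    have h1 := ha.nn (κ • v + (1 : ℝ) • w)
    rw [ha.expand] at h1
    -- κ² a v v + 2 κ a v w + a w w ≥ 0
    have h2 : 0 ≤ κ * (κ * a v v + 2 * a v w + M ^ 2 * κ * g v v) := by nlinarith
    have h3 := (mul_nonneg_iff_of_pos_left hκ0).1 h2
    linarith
  have hB : B * g v v - |B| * (κ ^ 2 * g v v) ≤ B * g u u := by
    rw [hguu]
    have h1 : B * g w w ≤ |B| * (κ ^ 2 * g v v) := by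
      have h2 : B * g w w ≤ |B| * g w w := mul_le_mul_of_nonneg_right (le_abs_self B) (hg.nn w)
      exact h2.trans (mul_le_mul_of_nonneg_left hgw (abs_nonneg B))
    linarith
  have hmain : (B - |B| * κ ^ 2 - M ^ 2 * κ - M ^ 2 * κ ^ 2) * g v v ≤ (1 + κ) * a v v := by
    nlinarith
  have h1κ : 0 < 1 + κ := by linarith
  have hmain2 : (B - |B| * κ ^ 2 - M ^ 2 * κ - M ^ 2 * κ ^ 2) / (1 + κ) * g v v ≤ a v v := by
    rw [div_mul_eq_mul_div, div_le_iff₀ h1κ]
    linarith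
  have h5 : 0 ≤ 1 - ε / c1 := by
    rw [sub_nonneg, div_le_one hc1]; exact hεc1
  have h6 := mul_le_mul_of_nonneg_left hmain2 h5
  have h7 : ε * h v v ≤ ε / c1 * (a v v + g v v) := by
    have := mul_le_mul_of_nonneg_left (hcoer v) (by positivity : 0 ≤ ε / c1)
    calc ε * h v v = ε / c1 * (c1 * h v v) := by field_simp
      _ ≤ _ := this
  have h8 := (abs_le.1 (ha' v)).1
  nlinarith

/-- **Stability of a separating frame** -/
theorem SepB.stable {R : Submodule ℝ V} {g h a : Bil V} (hg : SN g) (hh : SN h) (ha : SN a)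
    (hgh : ∀ v, g v v ≤ h v v) {M : ℝ} (hM : 0 ≤ M) (hbd : ∀ v, a v v ≤ M ^ 2 * h v v)
    {c1 : ℝ} (hc1 : 0 < c1) (hcoer : ∀ v, c1 * h v v ≤ a v v + g v v)
    {f : Fin l → V} {A B : ℝ} (hs : SepB R g a f A B)
    (hdef : ∀ w ∈ Submodule.span ℝ (range f), g w w = 0 → w = 0)
    {A' B' : ℝ} (hA : A < A') (hAB : A' < B') (hB : B' < B) :
    ∃ ε : ℝ, 0 < ε ∧ ∀ p : Fin l → V, (∀ i, p i ∈ R) → (∀ i, nrm h (p i - f i) ≤ ε) →
      ∀ a' : Bil V, (∀ v, |a' v v - a v v| ≤ ε * h v v) → SepB R g a' p A' B' := by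
  obtain ⟨c0, hc0, hlow0⟩ := exists_gram_lower hg hs.li hdef
  set c := Real.sqrt c0 with hcdef
  have hc : 0 < c := Real.sqrt_pos.2 hc0
  have hcc : c ^ 2 = c0 := Real.sq_sqrt hc0.le
  have hlow : ∀ x : Fin l → ℝ, c ^ 2 * ‖x‖ ^ 2 ≤ g (cmb f x) (cmb f x) := by
    rw [hcc]; exact hlow0
  set H : ℝ := ∑ i, nrm h (f i) with hH
  have hHi : ∀ i, nrm h (f i) ≤ H := fun i =>
    Finset.single_le_sum (f := fun i => nrm h (f i)) (fun j _ => nrm_nonneg h (f j))
      (Finset.mem_univ i)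
  have hH0 : 0 ≤ H := Finset.sum_nonneg fun i _ => nrm_nonneg _ _
  -- choice of `ε`
  set K : ℝ → ℝ := fun ε => |A| * (l * ε * (2 * (l * H) + l * ε)) + (2 * (M * (l * H)) *
    (M * (l * ε)) + (M * (l * ε)) ^ 2) + ε * (l * H + l * ε) ^ 2 with hK
  set κ : ℝ → ℝ := fun ε => l * H * (l * ε / c ^ 2) + ε with hκ
  set Φ : ℝ → ℝ := fun ε => (1 - ε / c1) * ((B - |B| * κ ε ^ 2 - M ^ 2 * κ ε -
    M ^ 2 * κ ε ^ 2) / (1 + κ ε)) - ε / c1 with hΦ
  have hKc : ContinuousAt K 0 := by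
    have : Continuous K := by fun_prop
    exact this.continuousAt
  have hK0 : K 0 = 0 := by simp [hK]
  have hκc : Continuous κ := by fun_prop
  have hκ0 : κ 0 = 0 := by simp [hκ]
  have hΦc : ContinuousAt Φ 0 := by
    refine ContinuousAt.sub (ContinuousAt.mul (by fun_prop) (ContinuousAt.div ?_ ?_ ?_))
      (by fun_prop)
    · exact (by fun_prop : Continuous fun ε => B - |B| * κ ε ^ 2 - M ^ 2 * κ ε -
        M ^ 2 * κ ε ^ 2).continuousAt
    · exact (by fun_prop : Continuous fun ε => 1 + κ ε).continuousAt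
    · rw [hκ0]; norm_num
  have hΦ0 : Φ 0 = B := by simp [hΦ, hκ0]
  have ev1 : ∀ᶠ ε in 𝓝[>] (0 : ℝ), K ε < (c / 2) ^ 2 * (A' - A) := by
    have h1 : ∀ᶠ ε in 𝓝 (0 : ℝ), K ε < (c / 2) ^ 2 * (A' - A) := by
      refine hKc.eventually_lt continuousAt_const ?_
      rw [hK0]
      have : 0 < A' - A := by linarith
      positivity
    exact h1.filter_mono nhdsWithin_le_nhds
  have ev2 : ∀ᶠ ε in 𝓝[>] (0 : ℝ), B' < Φ ε := by
    have h1 : ∀ᶠ ε in 𝓝 (0 : ℝ), B' < Φ ε := by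
      refine continuousAt_const.eventually_lt hΦc ?_
      rw [hΦ0]; exact hB
    exact h1.filter_mono nhdsWithin_le_nhds
  have ev3 : ∀ᶠ ε in 𝓝[>] (0 : ℝ), (l : ℝ) * ε < c / 2 := by
    have h1 : ∀ᶠ ε in 𝓝 (0 : ℝ), (l : ℝ) * ε < c / 2 := by
      refine ContinuousAt.eventually_lt (f := fun ε : ℝ => (l : ℝ) * ε) (by fun_prop)
        continuousAt_const ?_
      simp only [mul_zero]; positivity
    exact h1.filter_mono nhdsWithin_le_nhds
  have ev4 : ∀ᶠ ε in 𝓝[>] (0 : ℝ), ε < c1 :=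
    (eventually_lt_nhds hc1).filter_mono nhdsWithin_le_nhds
  obtain ⟨ε, ⟨⟨⟨h1, h2⟩, h3⟩, h4⟩, hε⟩ :=
    ((((ev1.and ev2).and ev3).and ev4).and self_mem_nhdsWithin).exists
  have hε : 0 < ε := hε
  refine ⟨ε, hε, fun p hpR hp a' ha' => ?_⟩
  have hlb := low_bound hg hh ha hgh hM hbd hc hlow hs.le hHi hε.le hp ha' h3.le
  refine ⟨hpR, ?_, hAB, ?_, ?_⟩
  · rw [Fintype.linearIndependent_iff]
    intro x hx
    have h5 := (hlb x).1
    have h6 : cmb p x = 0 := hx
    rw [h6] at h5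
    simp only [map_zero] at h5
    have h7 : c / 2 * ‖x‖ = 0 := by
      have := le_antisymm h5 (sq_nonneg _)
      exact pow_eq_zero_iff two_ne_zero |>.1 this
    have h8 : ‖x‖ = 0 := by
      rcases mul_eq_zero.1 h7 with h9 | h9
      · linarith
      · exact h9
    intro i
    rw [norm_eq_zero.1 h8]; rfl
  · intro w hw
    obtain ⟨x, rfl⟩ := mem_span_iff.1 hw
    obtain ⟨h5, h6⟩ := hlb x
    refine h6.trans ?_
    have h7 : K ε * ‖x‖ ^ 2 ≤ (A' - A) * g (cmb p x) (cmb p x) := by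
      have h8 : K ε * ‖x‖ ^ 2 ≤ (c / 2) ^ 2 * (A' - A) * ‖x‖ ^ 2 :=
        mul_le_mul_of_nonneg_right h1.le (sq_nonneg _)
      have h9 := mul_le_mul_of_nonneg_left h5 (by linarith : 0 ≤ A' - A)
      nlinarith
    have h10 : K ε * ‖x‖ ^ 2 = (|A| * (l * ε * (2 * (l * H) + l * ε)) + (2 * (M * (l * H)) *
      (M * (l * ε)) + (M * (l * ε)) ^ 2) + ε * (l * H + l * ε) ^ 2) * ‖x‖ ^ 2 := rfl
    rw [← h10]
    linarith
  · intro v hv hvp
    have h5 := high_bound hg hh ha hgh hbd hs.mem hc hlow hs.ge hHi hε hp ha' hc1 hcoer h4.le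
      (κ := κ ε) rfl hH0 hv hvp
    refine le_trans ?_ h5
    exact mul_le_mul_of_nonneg_right h2.le (hg.nn v)

/-- **Local separation by vectors of a dense set** -/
theorem SepB.local {R : Submodule ℝ V} {g h : Bil V} (hg : SN g) (hh : SN h)
    (hgh : ∀ v, g v v ≤ h v v) {X : Type*} [TopologicalSpace X] {a : X → Bil V} {π0 : X}
    (ha : SN (a π0)) {M : ℝ} (hM : 0 ≤ M) (hbd : ∀ v, a π0 v v ≤ M ^ 2 * h v v)
    {c1 : ℝ} (hc1 : 0 < c1) (hcoer : ∀ v, c1 * h v v ≤ a π0 v v + g v v)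
    (hcont : ∀ δ > 0, ∀ᶠ π in 𝓝 π0, ∀ v, |a π v v - a π0 v v| ≤ δ * h v v)
    {f : Fin l → V} {A B : ℝ} (hs : SepB R g (a π0) f A B)
    (hdef : ∀ w ∈ Submodule.span ℝ (range f), g w w = 0 → w = 0)
    {P0 : Set V} (hP : ∀ i, ∀ ε > 0, ∃ q ∈ P0, q ∈ R ∧ h (q - f i) (q - f i) < ε)
    {A' B' : ℝ} (hA : A < A') (hAB : A' < B') (hB : B' < B) {ε0 : ℝ} (hε0 : 0 < ε0) :
    ∃ p : Fin l → V, (∀ i, p i ∈ P0) ∧ (∀ i, nrm h (p i - f i) ≤ ε0) ∧
      ∀ᶠ π in 𝓝 π0, SepB R g (a π) p A' B' := by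
  obtain ⟨ε, hε, hst⟩ := hs.stable hg hh ha hgh hM hbd hc1 hcoer hdef hA hAB hB
  have h1 : ∀ i, ∃ q ∈ P0, q ∈ R ∧ nrm h (q - f i) ≤ min ε ε0 := fun i => by
    obtain ⟨q, hq, hqR, hqn⟩ := hP i ((min ε ε0) ^ 2) (by positivity)
    refine ⟨q, hq, hqR, ?_⟩
    rw [← hh.sq] at hqn
    exact (abs_lt_of_sq_lt_sq hqn (by positivity)).le.trans' (le_abs_self _)
  choose p hp hpR hpn using h1
  refine ⟨p, hp, fun i => (hpn i).trans (min_le_right _ _), ?_⟩
  filter_upwards [hcont ε hε] with π hπ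
  exact hst p hpR (fun i => (hpn i).trans (min_le_left _ _)) (a π) hπ

end Crest.Agent.R202.LocS
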