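import Crest.Agent.R202.SpinBasis

/-! Row 202, PART C4 (helper58): the slope identity (Hellmann–Feynman) for the spindle
eigenfunctions, on `(0,1)`:
`2 μ ∫ x^d R_j² / (1-x²) = (2 a_j + d + 1) ∫ x^d R_j²`. -/

set_option autoImplicit false

namespace Crest.Agent.R202.Clu

open MeasureTheory Set Polynomial Filter Topology

theorem jQ_eval_sum (d q : ℕ) (μ : ℝ) (j : ℕ) (x : ℝ) :
    (jQ d q μ j).eval x = ∑ i ∈ Finset.range (j + 1), jc d q μ j i * x ^ (q + 2 * i) := by
  rw [jQ_eval]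
  unfold jp
  rw [eval_finsetSum, Finset.mul_sum]
  refine Finset.sum_congr rfl fun i _ => ?_
  simp only [eval_mul, eval_C, eval_pow, eval_X]
  rw [pow_add, pow_mul]; ring

theorem x_mul_dQ_eval_sum (d q : ℕ) (μ : ℝ) (j : ℕ) (x : ℝ) :
    x * (derivative (jQ d q μ j)).eval x =
      ∑ i ∈ Finset.range (j + 1), ((q : ℝ) + 2 * i) * (jc d q μ j i * x ^ (q + 2 * i)) := by
  have h1 := (jQ d q μ j).hasDerivAt x
  have h2 : HasDerivAt (fun x : ℝ => ∑ i ∈ Finset.range (j + 1), jc d q μ j i * x ^ (q + 2 * i))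
      (∑ i ∈ Finset.range (j + 1),
        jc d q μ j i * (((q + 2 * i : ℕ) : ℝ) * x ^ (q + 2 * i - 1))) x := by
    apply HasDerivAt.fun_sum
    intro i _
    exact (hasDerivAt_pow (q + 2 * i) x).const_mul _
  have h3 : (fun x : ℝ => ∑ i ∈ Finset.range (j + 1), jc d q μ j i * x ^ (q + 2 * i)) =
      fun x => (jQ d q μ j).eval x := by
    funext x; rw [jQ_eval_sum]
  rw [h3] at h2
  rw [h1.unique h2, Finset.mul_sum]
  refine Finset.sum_congr rfl fun i _ => ?_
  push_cast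
  rcases Nat.eq_zero_or_pos (q + 2 * i) with h | h
  · have hq : q = 0 := by omega
    have hi : i = 0 := by omega
    subst hq; subst hi; simp
  · have : x ^ (q + 2 * i) = x * x ^ (q + 2 * i - 1) := by
      rw [← pow_succ']; congr 1; omega
    rw [this]; ring

theorem lft_le_zero (d : ℕ) : lft d ≤ 0 := by
  unfold lft; split_ifs <;> norm_num

/-- even functions: `(lft d, 1)` against `(0,1)`. -/
theorem int_lft_even (d : ℕ) {f : ℝ → ℝ} (hf : Continuous f) (he : ∀ x, f (-x) = f x) :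
    ∫ x in Ioo (lft d) 1, f x = (if d = 0 then 2 else 1) * ∫ x in Ioo (0:ℝ) 1, f x := by
  by_cases hd : d = 0
  · subst hd
    rw [lft_zero, if_pos rfl]
    rw [← integral_Ioc_eq_integral_Ioo, ← integral_Ioc_eq_integral_Ioo,
      ← intervalIntegral.integral_of_le (by norm_num), ← intervalIntegral.integral_of_le (by norm_num)]
    rw [← intervalIntegral.integral_add_adjacent_intervals (b := 0)
      (hf.intervalIntegrable _ _) (hf.intervalIntegrable _ _)]
    have : ∫ x in (-1:ℝ)..0, f x = ∫ x in (0:ℝ)..1, f x := by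
      have h := intervalIntegral.integral_comp_neg (a := 0) (b := 1) f
      simp only [neg_zero] at h
      rw [← h]
      exact intervalIntegral.integral_congr fun x _ => he x
    rw [this]; ring
  · rw [lft_pos hd, if_neg hd, one_mul]

/-- the weighted product of two polynomials. -/
theorem jQ_even (d q : ℕ) (μ : ℝ) (i j : ℕ) (x : ℝ) :
    (jQ d q μ i).eval (-x) * (jQ d q μ j).eval (-x) =
      (jQ d q μ i).eval x * (jQ d q μ j).eval x := by
  rw [jQ_eval, jQ_eval, jQ_eval, jQ_eval, neg_sq]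
  have : (-x) ^ q * (-x) ^ q = x ^ q * x ^ q := by
    rw [← mul_pow, ← mul_pow]; congr 1; ring
  linear_combination ((jp d q μ i).eval (x ^ 2) * (jp d q μ j).eval (x ^ 2)) * this

theorem cont_w (μ : ℝ) (hμ : 0 ≤ μ) : Continuous fun x : ℝ => (1 - x ^ 2) ^ μ :=
  Continuous.rpow_const (by fun_prop) (fun _ => Or.inr hμ)

/-- orthogonality on `(0,1)`. -/
theorem ortho01 (d q : ℕ) {μ : ℝ} (hμ : 0 ≤ μ) {i j : ℕ} (hij : i ≠ j) :
    ∫ x in Ioo (0:ℝ) 1, x ^ d * ((1 - x ^ 2) ^ μ *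
      ((jQ d q μ i).eval x * (jQ d q μ j).eval x)) = 0 := by
  have h := ortho d q hμ hij
  have e : ∫ x in Ioo (lft d) 1, x ^ d * (Rj d q μ i x * Rj d q μ j x) =
      ∫ x in Ioo (lft d) 1, x ^ d * ((1 - x ^ 2) ^ μ *
        ((jQ d q μ i).eval x * (jQ d q μ j).eval x)) := by
    apply setIntegral_congr_fun measurableSet_Ioo
    intro x hx
    simp only
    rw [Rj_mul_Rj (d := d) d q d q i j hx]
  rw [e] at h
  by_cases hd : d = 0
  · subst hd
    rw [int_lft_even 0] at h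
    · rw [if_pos rfl] at h
      linarith
    · apply Continuous.mul (by fun_prop)
      exact (cont_w μ hμ).mul ((jQ 0 q μ i).continuous.mul (jQ 0 q μ j).continuous)
    · intro x
      simp only [pow_zero, neg_sq, one_mul]
      rw [jQ_even]
  · rwa [lft_pos hd] at h

theorem w_int {f : ℝ → ℝ} (hf : Continuous f) : IntegrableOn f (Ioo (0:ℝ) 1) :=
  (hf.continuousOn.integrableOn_Icc (a := 0) (b := 1)).mono_set Ioo_subset_Icc_self

/-- `R_j` is orthogonal to the lower monomials. -/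
theorem ortho_mono (d q : ℕ) {μ : ℝ} (hμ : 0 ≤ μ) (j : ℕ) : ∀ i, i < j →
    ∫ x in Ioo (0:ℝ) 1, x ^ d * ((1 - x ^ 2) ^ μ *
      ((jQ d q μ j).eval x * x ^ (q + 2 * i))) = 0 := by
  intro i
  induction i using Nat.strong_induction_on with
  | _ i ih =>
    intro hij
    have h := ortho01 d q hμ hij.ne
    have hne := jc_ne_zero d q hμ i i le_rfl
    have hc : ∀ k : ℕ, Continuous fun x : ℝ => x ^ d * ((1 - x ^ 2) ^ μ *
        ((jQ d q μ j).eval x * x ^ (q + 2 * k))) := fun k =>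
      (continuous_pow d).mul ((cont_w μ hμ).mul ((jQ d q μ j).continuous.mul (continuous_pow _)))
    have e : ∀ x : ℝ, x ^ d * ((1 - x ^ 2) ^ μ *
        ((jQ d q μ i).eval x * (jQ d q μ j).eval x)) =
        ∑ k ∈ Finset.range (i + 1), jc d q μ i k * (x ^ d * ((1 - x ^ 2) ^ μ *
          ((jQ d q μ j).eval x * x ^ (q + 2 * k)))) := by
      intro x
      rw [jQ_eval_sum d q μ i, Finset.sum_mul, Finset.mul_sum, Finset.mul_sum]
      refine Finset.sum_congr rfl fun k _ => ?_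
      ring
    simp_rw [e] at h
    rw [integral_finsetSum _ (fun k _ => (w_int (hc k)).const_mul _), Finset.sum_range_succ] at h
    rw [Finset.sum_eq_zero, zero_add, integral_const_mul] at h
    · exact (mul_eq_zero.mp h).resolve_left hne
    · intro k hk
      have hk' := Finset.mem_range.mp hk
      rw [integral_const_mul, ih k hk' (hk'.trans hij), mul_zero]

/-- the norm square on `(0,1)`. -/
noncomputable def nj1 (d q : ℕ) (μ : ℝ) (j : ℕ) : ℝ :=
  ∫ x in Ioo (0:ℝ) 1, x ^ d * Rj d q μ j x ^ 2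

/-- the integral of `x^d R_j² / (1-x²)` on `(0,1)`. -/
noncomputable def sj1 (d q : ℕ) (μ : ℝ) (j : ℕ) : ℝ :=
  ∫ x in Ioo (0:ℝ) 1, x ^ d * (Rj d q μ j x ^ 2 / (1 - x ^ 2))

theorem nj1_eq (d q : ℕ) {μ : ℝ} (hμ : 0 ≤ μ) (j : ℕ) :
    nj d q μ j = (if d = 0 then 2 else 1) * nj1 d q μ j := by
  unfold nj nj1
  by_cases hd : d = 0
  · subst hd
    apply int_lft_even 0
    · exact (continuous_pow 0).mul ((Rj_cont 0 q hμ j).pow 2)
    · intro x
      unfold Rj
      simp only [pow_zero, neg_sq, one_mul, mul_pow]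
      rw [pow_two ((jQ 0 q μ j).eval (-x)), jQ_even]
      ring
  · rw [lft_pos hd, if_neg hd, one_mul]

theorem nj1_pos (d q : ℕ) {μ : ℝ} (hμ : 0 ≤ μ) (j : ℕ) : 0 < nj1 d q μ j := by
  have h1 := nj_pos d q hμ j
  rw [nj1_eq d q hμ j] at h1
  by_cases hd : d = 0
  · rw [if_pos hd] at h1; linarith
  · rw [if_neg hd] at h1; linarith

theorem Rj_sq (d q : ℕ) {μ : ℝ} (j : ℕ) {x : ℝ} (hx : x ∈ Ioo (0:ℝ) 1) :
    Rj d q μ j x ^ 2 = (1 - x ^ 2) ^ μ * (jQ d q μ j).eval x ^ 2 := by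
  have h : (0:ℝ) < 1 - x ^ 2 := by nlinarith [hx.1, hx.2]
  unfold Rj
  have : (1 - x ^ 2) ^ μ = (1 - x ^ 2) ^ (μ / 2) * (1 - x ^ 2) ^ (μ / 2) := by
    rw [← Real.rpow_add h]; congr 1; ring
  rw [this]; ring

/-- `(1-x²)^(μ-1)` is integrable on `(0,1)` for `μ > 0`. -/
theorem w_sub_one_int {μ : ℝ} (hμ : 0 < μ) :
    IntegrableOn (fun x : ℝ => (1 - x ^ 2) ^ (μ - 1)) (Ioo 0 1) := by
  have h1 : IntervalIntegrable (fun x : ℝ => x ^ (μ - 1)) volume 0 1 :=
    intervalIntegral.intervalIntegrable_rpow' (by linarith)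
  have h2 : IntervalIntegrable (fun x : ℝ => (1 - x) ^ (μ - 1)) volume 0 1 := by
    have := (h1.comp_sub_left 1).symm
    simpa using this
  have h3 : IntegrableOn (fun x : ℝ => (1 - x) ^ (μ - 1)) (Ioo 0 1) := by
    rw [intervalIntegrable_iff_integrableOn_Ioo_of_le (by norm_num)] at h2
    exact h2
  have h4 : IntegrableOn (fun x : ℝ => (2 ^ (μ - 1) + 1) * (1 - x) ^ (μ - 1)) (Ioo 0 1) :=
    h3.const_mul _
  refine h4.mono' ?_ ?_
  · refine ContinuousOn.aestronglyMeasurable ?_ measurableSet_Ioo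
    intro x hx
    have : (0:ℝ) < 1 - x ^ 2 := by nlinarith [hx.1, hx.2]
    apply ContinuousAt.continuousWithinAt
    exact ContinuousAt.rpow_const (by fun_prop) (Or.inl this.ne')
  · filter_upwards [ae_restrict_mem measurableSet_Ioo] with x hx
    have h5 : (0:ℝ) < 1 - x := by linarith [hx.2]
    have h6 : (0:ℝ) < 1 + x := by linarith [hx.1]
    have e : (1 - x ^ 2 : ℝ) = (1 + x) * (1 - x) := by ring
    rw [Real.norm_of_nonneg (Real.rpow_nonneg (by nlinarith) _), e,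
      Real.mul_rpow h6.le h5.le]
    apply mul_le_mul_of_nonneg_right _ (Real.rpow_nonneg h5.le _)
    rcases le_or_gt 0 (μ - 1) with h | h
    · have : (1 + x) ^ (μ - 1) ≤ 2 ^ (μ - 1) :=
        Real.rpow_le_rpow h6.le (by linarith [hx.2]) h
      linarith
    · have : (1 + x) ^ (μ - 1) ≤ 1 := Real.rpow_le_one_of_one_le_of_nonpos (by linarith [hx.1]) h.le
      have h7 : (0:ℝ) ≤ 2 ^ (μ - 1) := Real.rpow_nonneg (by norm_num) _
      linarith

theorem w_sub_one_mul_int {μ : ℝ} (hμ : 0 < μ) {f : ℝ → ℝ} (hf : Continuous f) :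
    IntegrableOn (fun x : ℝ => (1 - x ^ 2) ^ (μ - 1) * f x) (Ioo 0 1) := by
  obtain ⟨C, hC⟩ := (isCompact_Icc (a := (0:ℝ)) (b := 1)).exists_bound_of_continuousOn
    hf.continuousOn
  refine Integrable.mul_bdd (c := C) (w_sub_one_int hμ) hf.aestronglyMeasurable ?_
  filter_upwards [ae_restrict_mem measurableSet_Ioo] with x hx
  exact hC x (Ioo_subset_Icc_self hx)

/-- **Slope identity** (Hellmann–Feynman). -/
theorem slope (d q : ℕ) {μ : ℝ} (hμ : 0 < μ) (j : ℕ) :
    2 * μ * sj1 d q μ j = (2 * aj q μ j + d + 1) * nj1 d q μ j := by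
  set A := jQ d q μ j with hA
  have hcA : ∀ x, HasDerivAt (fun x : ℝ => A.eval x ^ 2)
      (2 * A.eval x * (derivative A).eval x) x := by
    intro x
    have := (A.hasDerivAt x).fun_pow 2
    simpa using this
  -- the primitive
  have hcont : Continuous fun x : ℝ => (1 - x ^ 2) ^ μ * (x ^ (d + 1) * A.eval x ^ 2) :=
    (cont_w μ hμ.le).mul ((continuous_pow _).mul (A.continuous.pow 2))
  have hI1 : IntegrableOn (fun x : ℝ => (1 - x ^ 2) ^ (μ - 1) *
      (x ^ d * A.eval x ^ 2)) (Ioo 0 1) :=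
    w_sub_one_mul_int hμ ((continuous_pow _).mul (A.continuous.pow 2))
  have hI2 : IntegrableOn (fun x : ℝ => x ^ d * ((1 - x ^ 2) ^ μ * A.eval x ^ 2)) (Ioo 0 1) :=
    w_int ((continuous_pow _).mul ((cont_w μ hμ.le).mul (A.continuous.pow 2)))
  have hI3 : IntegrableOn (fun x : ℝ => x ^ d * ((1 - x ^ 2) ^ μ *
      (A.eval x * (x * (derivative A).eval x)))) (Ioo 0 1) :=
    w_int ((continuous_pow _).mul ((cont_w μ hμ.le).mul
      (A.continuous.mul (continuous_id.mul (derivative A).continuous))))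
  have hder : ∀ x ∈ Ioo (0:ℝ) 1,
      HasDerivAt (fun x : ℝ => (1 - x ^ 2) ^ μ * (x ^ (d + 1) * A.eval x ^ 2))
      ((2 * μ + d + 1) * (x ^ d * ((1 - x ^ 2) ^ μ * A.eval x ^ 2)) -
        2 * μ * ((1 - x ^ 2) ^ (μ - 1) * (x ^ d * A.eval x ^ 2)) +
        2 * (x ^ d * ((1 - x ^ 2) ^ μ * (A.eval x * (x * (derivative A).eval x))))) x := by
    intro x hx
    have hpos : (0:ℝ) < 1 - x ^ 2 := by nlinarith [hx.1, hx.2]
    have h1 : HasDerivAt (fun x : ℝ => 1 - x ^ 2) (-(2 * x)) x := by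
      have := (hasDerivAt_pow 2 x).const_sub 1
      simpa using this
    have h2 := h1.rpow_const (p := μ) (Or.inl hpos.ne')
    have h3 := h2.mul ((hasDerivAt_pow (d + 1) x).mul (hcA x))
    refine h3.congr_deriv ?_
    have e1 : (1 - x ^ 2) ^ μ = (1 - x ^ 2) ^ (μ - 1) * (1 - x ^ 2) := by
      rw [← Real.rpow_add_one hpos.ne']; congr 1; ring
    simp only [Pi.mul_apply]
    rw [Nat.add_sub_cancel, e1, pow_succ]
    push_cast
    ring
  have hint : IntegrableOn (fun x : ℝ =>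
      (2 * μ + d + 1) * (x ^ d * ((1 - x ^ 2) ^ μ * A.eval x ^ 2)) -
        2 * μ * ((1 - x ^ 2) ^ (μ - 1) * (x ^ d * A.eval x ^ 2)) +
        2 * (x ^ d * ((1 - x ^ 2) ^ μ * (A.eval x * (x * (derivative A).eval x))))) (Ioo 0 1) :=
    ((hI2.const_mul _).sub (hI1.const_mul _)).add (hI3.const_mul _)
  have hftc := intervalIntegral.integral_eq_sub_of_hasDerivAt_of_le (a := (0:ℝ)) (b := 1)
    (by norm_num) hcont.continuousOn hder
    ((intervalIntegrable_iff_integrableOn_Ioo_of_le (by norm_num)).mpr hint)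
  have hsplit : ∫ x in Ioo (0:ℝ) 1, ((2 * μ + d + 1) * (x ^ d * ((1 - x ^ 2) ^ μ * A.eval x ^ 2)) -
        2 * μ * ((1 - x ^ 2) ^ (μ - 1) * (x ^ d * A.eval x ^ 2)) +
        2 * (x ^ d * ((1 - x ^ 2) ^ μ * (A.eval x * (x * (derivative A).eval x))))) =
      (2 * μ + d + 1) * (∫ x in Ioo (0:ℝ) 1, x ^ d * ((1 - x ^ 2) ^ μ * A.eval x ^ 2)) -
        2 * μ * (∫ x in Ioo (0:ℝ) 1, (1 - x ^ 2) ^ (μ - 1) * (x ^ d * A.eval x ^ 2)) +
        2 * ∫ x in Ioo (0:ℝ) 1, x ^ d * ((1 - x ^ 2) ^ μ *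
          (A.eval x * (x * (derivative A).eval x))) := by
    rw [← integral_const_mul, ← integral_const_mul, ← integral_const_mul,
      ← integral_sub (hI2.const_mul _) (hI1.const_mul _)]
    exact integral_add ((hI2.const_mul _).sub (hI1.const_mul _)) (hI3.const_mul _)
  rw [intervalIntegral.integral_of_le (by norm_num), integral_Ioc_eq_integral_Ioo, hsplit] at hftc
  have z1 : (1 - (1 : ℝ) ^ 2) ^ μ = 0 := by
    rw [one_pow, sub_self]; exact Real.zero_rpow hμ.ne'
  have z2 : (0:ℝ) ^ (d + 1) = 0 := by simp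
  rw [z1, z2] at hftc
  have hN : ∫ x in Ioo (0:ℝ) 1, x ^ d * ((1 - x ^ 2) ^ μ * A.eval x ^ 2) = nj1 d q μ j := by
    unfold nj1
    apply setIntegral_congr_fun measurableSet_Ioo
    intro x hx
    simp only
    rw [Rj_sq d q j hx]
  have hS : ∫ x in Ioo (0:ℝ) 1, (1 - x ^ 2) ^ (μ - 1) * (x ^ d * A.eval x ^ 2) =
      sj1 d q μ j := by
    unfold sj1
    apply setIntegral_congr_fun measurableSet_Ioo
    intro x hx
    have hpos : (0:ℝ) < 1 - x ^ 2 := by nlinarith [hx.1, hx.2]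
    have e1 : (1 - x ^ 2) ^ μ = (1 - x ^ 2) ^ (μ - 1) * (1 - x ^ 2) := by
      rw [← Real.rpow_add_one hpos.ne']; congr 1; ring
    simp only
    rw [Rj_sq d q j hx, e1, ← hA]
    field_simp
  have hD : ∫ x in Ioo (0:ℝ) 1, x ^ d * ((1 - x ^ 2) ^ μ *
      (A.eval x * (x * (derivative A).eval x))) = ((q : ℝ) + 2 * j) * nj1 d q μ j := by
    have hc : ∀ k : ℕ, Continuous fun x : ℝ => x ^ d * ((1 - x ^ 2) ^ μ *
        ((jQ d q μ j).eval x * x ^ (q + 2 * k))) := fun k =>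
      (continuous_pow d).mul ((cont_w μ hμ.le).mul ((jQ d q μ j).continuous.mul (continuous_pow _)))
    have e : ∀ x : ℝ, x ^ d * ((1 - x ^ 2) ^ μ * (A.eval x * (x * (derivative A).eval x))) =
        ∑ k ∈ Finset.range (j + 1), (((q : ℝ) + 2 * k) * jc d q μ j k) *
          (x ^ d * ((1 - x ^ 2) ^ μ * ((jQ d q μ j).eval x * x ^ (q + 2 * k)))) := by
      intro x
      rw [hA, x_mul_dQ_eval_sum d q μ j, Finset.mul_sum, Finset.mul_sum, Finset.mul_sum]
      refine Finset.sum_congr rfl fun k _ => ?_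
      ring
    have e' : ∀ x : ℝ, x ^ d * ((1 - x ^ 2) ^ μ * A.eval x ^ 2) =
        ∑ k ∈ Finset.range (j + 1), jc d q μ j k *
          (x ^ d * ((1 - x ^ 2) ^ μ * ((jQ d q μ j).eval x * x ^ (q + 2 * k)))) := by
      intro x
      have : A.eval x ^ 2 = (jQ d q μ j).eval x *
        ∑ k ∈ Finset.range (j + 1), jc d q μ j k * x ^ (q + 2 * k) := by
        rw [← jQ_eval_sum, ← hA]; ring
      rw [this, Finset.mul_sum, Finset.mul_sum, Finset.mul_sum]
      refine Finset.sum_congr rfl fun k _ => ?_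
      ring
    rw [← hN]
    simp_rw [e, e']
    rw [integral_finsetSum _ (fun k _ => (w_int (hc k)).const_mul _),
      integral_finsetSum _ (fun k _ => (w_int (hc k)).const_mul _),
      Finset.sum_range_succ, Finset.sum_range_succ, Finset.sum_eq_zero, Finset.sum_eq_zero]
    · rw [zero_add, zero_add, integral_const_mul, integral_const_mul]; ring
    · intro k hk
      rw [integral_const_mul, ortho_mono d q hμ.le j k (Finset.mem_range.mp hk), mul_zero]
    · intro k hk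
      rw [integral_const_mul, ortho_mono d q hμ.le j k (Finset.mem_range.mp hk), mul_zero]
  rw [hN, hS, hD] at hftc
  unfold aj
  linarith

end Crest.Agent.R202.Clu
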