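import Mathlib

/-! Row 202, PART C4 (helper58): the trigonometric integrals over `(0,π)` which occur in the
first variation of the cross-section form. -/

set_option autoImplicit false

namespace Crest.Agent.R202.Clu

open MeasureTheory Set Real

/-- indicator of `k = 0`. -/
noncomputable def dz (k : ℤ) : ℝ := if k = 0 then 1 else 0

theorem dz_zero : dz 0 = 1 := by simp [dz]

theorem dz_ne {k : ℤ} (hk : k ≠ 0) : dz k = 0 := by simp [dz, hk]

theorem int_cos (k : ℤ) : ∫ φ in Ioo (0:ℝ) π, cos (k * φ) = π * dz k := by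
  rw [← integral_Ioc_eq_integral_Ioo, ← intervalIntegral.integral_of_le pi_pos.le]
  by_cases hk : k = 0
  · subst hk; simp [dz]
  · have hk' : (k : ℝ) ≠ 0 := by exact_mod_cast hk
    rw [intervalIntegral.integral_comp_mul_left (fun x => cos x) hk', dz_ne hk, integral_cos]
    simp

/-- `∫ cos(aφ) cos(mφ) cos(nφ)` over `(0,π)`. -/
noncomputable def tcc (a m n : ℕ) : ℝ :=
  π / 4 * (dz (a + m + n) + dz (a + m - n) + dz (a - m + n) + dz (a - m - n))

/-- `∫ cos(aφ) sin(mφ) sin(nφ)` over `(0,π)`. -/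
noncomputable def tss (a m n : ℕ) : ℝ :=
  π / 4 * (-dz (a + m + n) + dz (a + m - n) + dz (a - m + n) - dz (a - m - n))

theorem cont_cos (k : ℤ) : Continuous fun φ : ℝ => cos (k * φ) := by fun_prop

theorem cos_integrable (k : ℤ) : IntegrableOn (fun φ : ℝ => cos (k * φ)) (Ioo 0 π) :=
  ((cont_cos k).continuousOn.integrableOn_Icc (a := 0) (b := π)).mono_set Ioo_subset_Icc_self

theorem int_cos_cos_cos (a m n : ℕ) :
    ∫ φ in Ioo (0:ℝ) π, cos (a * φ) * (cos (m * φ) * cos (n * φ)) = tcc a m n := by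
  have e : ∀ φ : ℝ, cos (a * φ) * (cos (m * φ) * cos (n * φ)) =
      1 / 4 * ((cos (((a + m + n : ℤ) : ℝ) * φ) + cos (((a + m - n : ℤ) : ℝ) * φ)) +
        (cos (((a - m + n : ℤ) : ℝ) * φ) + cos (((a - m - n : ℤ) : ℝ) * φ))) := by
    intro φ
    push_cast
    have h1 := Real.cos_add_cos ((a + m + n : ℝ) * φ) ((a + m - n : ℝ) * φ)
    have h2 := Real.cos_add_cos ((a - m + n : ℝ) * φ) ((a - m - n : ℝ) * φ)
    have h3 := Real.cos_add_cos ((a + m : ℝ) * φ) ((a - m : ℝ) * φ)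
    rw [h1, h2]
    have e1 : ((a + m + n : ℝ) * φ + (a + m - n : ℝ) * φ) / 2 = (a + m : ℝ) * φ := by ring
    have e2 : ((a + m + n : ℝ) * φ - (a + m - n : ℝ) * φ) / 2 = n * φ := by ring
    have e3 : ((a - m + n : ℝ) * φ + (a - m - n : ℝ) * φ) / 2 = (a - m : ℝ) * φ := by ring
    have e4 : ((a - m + n : ℝ) * φ - (a - m - n : ℝ) * φ) / 2 = n * φ := by ring
    have e5 : ((a + m : ℝ) * φ + (a - m : ℝ) * φ) / 2 = a * φ := by ring
    have e6 : ((a + m : ℝ) * φ - (a - m : ℝ) * φ) / 2 = m * φ := by ring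
    rw [e1, e2, e3, e4]
    rw [e5, e6] at h3
    linear_combination (-(1 / 2) * cos (n * φ)) * h3
  simp_rw [e]
  rw [integral_const_mul, integral_add, integral_add, integral_add, int_cos, int_cos, int_cos,
    int_cos]
  · unfold tcc; ring
  · exact cos_integrable _
  · exact cos_integrable _
  · exact cos_integrable _
  · exact cos_integrable _
  · exact (cos_integrable _).add (cos_integrable _)
  · exact (cos_integrable _).add (cos_integrable _)

theorem int_cos_sin_sin (a m n : ℕ) :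
    ∫ φ in Ioo (0:ℝ) π, cos (a * φ) * (sin (m * φ) * sin (n * φ)) = tss a m n := by
  have e : ∀ φ : ℝ, cos (a * φ) * (sin (m * φ) * sin (n * φ)) =
      1 / 4 * ((-cos (((a + m + n : ℤ) : ℝ) * φ) + cos (((a + m - n : ℤ) : ℝ) * φ)) +
        (cos (((a - m + n : ℤ) : ℝ) * φ) + -cos (((a - m - n : ℤ) : ℝ) * φ))) := by
    intro φ
    push_cast
    have e1 : (a + m + n : ℝ) * φ = (a * φ + m * φ) + n * φ := by ring
    have e2 : (a + m - n : ℝ) * φ = (a * φ + m * φ) - n * φ := by ring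
    have e3 : (a - m + n : ℝ) * φ = (a * φ - m * φ) + n * φ := by ring
    have e4 : (a - m - n : ℝ) * φ = (a * φ - m * φ) - n * φ := by ring
    rw [e1, e2, e3, e4]
    simp only [Real.cos_add, Real.cos_sub, Real.sin_add, Real.sin_sub]
    ring
  simp_rw [e]
  rw [integral_const_mul, integral_add, integral_add, integral_add, integral_neg, integral_neg,
    int_cos, int_cos, int_cos, int_cos]
  · unfold tss; ring
  · exact cos_integrable _
  · exact (cos_integrable _).neg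
  · exact (cos_integrable _).neg
  · exact cos_integrable _
  · exact (cos_integrable _).neg.add (cos_integrable _)
  · exact (cos_integrable _).add (cos_integrable _).neg

/-! The values. -/

theorem tcc_zero_self {m : ℕ} (hm : m ≠ 0) : tcc 0 m m = π / 2 := by
  unfold tcc
  have h1 : ((0 : ℕ) : ℤ) + m + m ≠ 0 := by omega
  have h2 : ((0 : ℕ) : ℤ) + m - m = 0 := by omega
  have h3 : ((0 : ℕ) : ℤ) - m + m = 0 := by omega
  have h4 : ((0 : ℕ) : ℤ) - m - m ≠ 0 := by omega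
  rw [dz_ne h1, h2, h3, dz_ne h4, dz_zero]; ring

theorem tcc_zero_zero : tcc 0 0 0 = π := by
  unfold tcc
  simp [dz]
  ring

theorem tss_zero_self {m : ℕ} (hm : m ≠ 0) : tss 0 m m = π / 2 := by
  unfold tss
  have h1 : ((0 : ℕ) : ℤ) + m + m ≠ 0 := by omega
  have h2 : ((0 : ℕ) : ℤ) + m - m = 0 := by omega
  have h3 : ((0 : ℕ) : ℤ) - m + m = 0 := by omega
  have h4 : ((0 : ℕ) : ℤ) - m - m ≠ 0 := by omega
  rw [dz_ne h1, h2, h3, dz_ne h4, dz_zero]; ring

theorem tcc_zero_ne {m n : ℕ} (h : m ≠ n) : tcc 0 m n = 0 := by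
  unfold tcc
  have h1 : ((0 : ℕ) : ℤ) + m + n ≠ 0 := by omega
  have h2 : ((0 : ℕ) : ℤ) + m - n ≠ 0 := by omega
  have h3 : ((0 : ℕ) : ℤ) - m + n ≠ 0 := by omega
  have h4 : ((0 : ℕ) : ℤ) - m - n ≠ 0 := by omega
  rw [dz_ne h1, dz_ne h2, dz_ne h3, dz_ne h4]; ring

theorem tss_zero_ne {m n : ℕ} (h : m ≠ n) : tss 0 m n = 0 := by
  unfold tss
  have h1 : ((0 : ℕ) : ℤ) + m + n ≠ 0 := by omega
  have h2 : ((0 : ℕ) : ℤ) + m - n ≠ 0 := by omega
  have h3 : ((0 : ℕ) : ℤ) - m + n ≠ 0 := by omega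
  have h4 : ((0 : ℕ) : ℤ) - m - n ≠ 0 := by omega
  rw [dz_ne h1, dz_ne h2, dz_ne h3, dz_ne h4]; ring

theorem tcc_comm (a m n : ℕ) : tcc a m n = tcc a n m := by
  unfold tcc
  have h1 : (a : ℤ) + m + n = a + n + m := by ring
  have h2 : (a : ℤ) + m - n = a - n + m := by ring
  have h3 : (a : ℤ) - m + n = a + n - m := by ring
  have h4 : (a : ℤ) - m - n = a - n - m := by ring
  rw [h1, h2, h3, h4]; ring

theorem tss_comm (a m n : ℕ) : tss a m n = tss a n m := by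
  unfold tss
  have h1 : (a : ℤ) + m + n = a + n + m := by ring
  have h2 : (a : ℤ) + m - n = a - n + m := by ring
  have h3 : (a : ℤ) - m + n = a + n - m := by ring
  have h4 : (a : ℤ) - m - n = a - n - m := by ring
  rw [h1, h2, h3, h4]; ring

/-- no resonance: neither `a = |m - n|` nor `a = m + n`. -/
theorem tcc_eq_zero {a m n : ℕ} (h1 : n ≠ m + a) (h2 : m ≠ n + a) (h3 : a ≠ m + n) :
    tcc a m n = 0 := by
  unfold tcc
  rcases Nat.eq_zero_or_pos (a + m + n) with h0 | h0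
  · omega
  · have h4 : (a : ℤ) + m + n ≠ 0 := by omega
    have h5 : (a : ℤ) + m - n ≠ 0 := by omega
    have h6 : (a : ℤ) - m + n ≠ 0 := by omega
    have h7 : (a : ℤ) - m - n ≠ 0 := by omega
    rw [dz_ne h4, dz_ne h5, dz_ne h6, dz_ne h7]; ring

theorem tss_eq_zero {a m n : ℕ} (h1 : n ≠ m + a) (h2 : m ≠ n + a) (h3 : a ≠ m + n) :
    tss a m n = 0 := by
  unfold tss
  rcases Nat.eq_zero_or_pos (a + m + n) with h0 | h0
  · omega
  · have h4 : (a : ℤ) + m + n ≠ 0 := by omega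
    have h5 : (a : ℤ) + m - n ≠ 0 := by omega
    have h6 : (a : ℤ) - m + n ≠ 0 := by omega
    have h7 : (a : ℤ) - m - n ≠ 0 := by omega
    rw [dz_ne h4, dz_ne h5, dz_ne h6, dz_ne h7]; ring

/-- difference type `n = m + a`, with `a ≥ 1`, `m ≥ 1`. -/
theorem tcc_diff {a m : ℕ} (ha : a ≠ 0) (hm : m ≠ 0) : tcc a m (m + a) = π / 4 := by
  unfold tcc
  have h1 : (a : ℤ) + m + ((m + a : ℕ) : ℤ) ≠ 0 := by omega
  have h2 : (a : ℤ) + m - ((m + a : ℕ) : ℤ) = 0 := by push_cast; ring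
  have h3 : (a : ℤ) - m + ((m + a : ℕ) : ℤ) ≠ 0 := by omega
  have h4 : (a : ℤ) - m - ((m + a : ℕ) : ℤ) ≠ 0 := by omega
  rw [dz_ne h1, h2, dz_ne h3, dz_ne h4, dz_zero]; ring

theorem tss_diff {a m : ℕ} (ha : a ≠ 0) (hm : m ≠ 0) : tss a m (m + a) = π / 4 := by
  unfold tss
  have h1 : (a : ℤ) + m + ((m + a : ℕ) : ℤ) ≠ 0 := by omega
  have h2 : (a : ℤ) + m - ((m + a : ℕ) : ℤ) = 0 := by push_cast; ring
  have h3 : (a : ℤ) - m + ((m + a : ℕ) : ℤ) ≠ 0 := by omega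
  have h4 : (a : ℤ) - m - ((m + a : ℕ) : ℤ) ≠ 0 := by omega
  rw [dz_ne h1, h2, dz_ne h3, dz_ne h4, dz_zero]; ring

/-- the lowest mode `m = 0`: `n = a`. -/
theorem tcc_diff_zero {a : ℕ} (ha : a ≠ 0) : tcc a 0 a = π / 2 := by
  unfold tcc
  have h1 : (a : ℤ) + ((0 : ℕ) : ℤ) + a ≠ 0 := by omega
  have h2 : (a : ℤ) + ((0 : ℕ) : ℤ) - a = 0 := by push_cast; ring
  have h3 : (a : ℤ) - ((0 : ℕ) : ℤ) + a ≠ 0 := by omega
  have h4 : (a : ℤ) - ((0 : ℕ) : ℤ) - a = 0 := by push_cast; ring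
  rw [dz_ne h1, h2, dz_ne h3, h4, dz_zero]; ring

theorem tss_zero_left (a n : ℕ) : tss a 0 n = 0 := by
  unfold tss
  have h1 : (a : ℤ) + ((0 : ℕ) : ℤ) + n = a + n := by push_cast; ring
  have h2 : (a : ℤ) + ((0 : ℕ) : ℤ) - n = a - n := by push_cast; ring
  have h3 : (a : ℤ) - ((0 : ℕ) : ℤ) + n = a + n := by push_cast; ring
  have h4 : (a : ℤ) - ((0 : ℕ) : ℤ) - n = a - n := by push_cast; ring
  rw [h1, h2, h3, h4]; ring

/-- sum type `a = m + n`, `m, n ≥ 1`. -/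
theorem tcc_sum {m n : ℕ} (hm : m ≠ 0) (hn : n ≠ 0) : tcc (m + n) m n = π / 4 := by
  unfold tcc
  have h1 : ((m + n : ℕ) : ℤ) + m + n ≠ 0 := by omega
  have h2 : ((m + n : ℕ) : ℤ) + m - n ≠ 0 := by omega
  have h3 : ((m + n : ℕ) : ℤ) - m + n ≠ 0 := by omega
  have h4 : ((m + n : ℕ) : ℤ) - m - n = 0 := by push_cast; ring
  rw [dz_ne h1, dz_ne h2, dz_ne h3, h4, dz_zero]; ring

theorem tss_sum {m n : ℕ} (hm : m ≠ 0) (hn : n ≠ 0) : tss (m + n) m n = -(π / 4) := by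
  unfold tss
  have h1 : ((m + n : ℕ) : ℤ) + m + n ≠ 0 := by omega
  have h2 : ((m + n : ℕ) : ℤ) + m - n ≠ 0 := by omega
  have h3 : ((m + n : ℕ) : ℤ) - m + n ≠ 0 := by omega
  have h4 : ((m + n : ℕ) : ℤ) - m - n = 0 := by push_cast; ring
  rw [dz_ne h1, dz_ne h2, dz_ne h3, h4, dz_zero]; ring

end Crest.Agent.R202.Clu
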