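import Crest.Agent.R202.Model2
import Crest.Agent.R202.CluTrig
import Crest.Agent.R202.CluSlope

/-! Row 202, PART C4 (helper58): the first variation of the cross-section form in `b` and in the
profile `P`, with explicit remainder, and its explicit values on pairs of pure modes. -/

set_option autoImplicit false

noncomputable section

namespace Crest.Agent.R202.Clu

open MeasureTheory Set Crest.Agent.R202.Mod

set_option linter.unusedSimpArgs false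
set_option linter.unusedVariables false

/-- product integrals over the model measure. -/
theorem integral_mu_prod (d : ℕ) (f g : ℝ → ℝ) :
    ∫ z, f z.1 * g z.2 ∂(Mod.mu d) =
      (∫ x in Ioo (0:ℝ) 1, x ^ d * f x) * ∫ φ in Ioo (0:ℝ) Real.pi, g φ := by
  unfold Mod.mu
  rw [integral_withDensity_eq_integral_toReal_smul (by fun_prop)
    (Filter.Eventually.of_forall fun z => ENNReal.ofReal_lt_top)]
  have : ∀ z ∈ Om, (ENNReal.ofReal (z.1 ^ d)).toReal • (f z.1 * g z.2) =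
      (fun x => x ^ d * f x) z.1 * g z.2 := by
    intro z hz
    rw [ENNReal.toReal_ofReal (pow_nonneg hz.1.1.le d), smul_eq_mul]
    ring
  rw [setIntegral_congr_fun measurableSet_Om this]
  unfold Om
  rw [Measure.volume_eq_prod, setIntegral_prod_mul (fun x : ℝ => x ^ d * f x) g]

theorem comp_single (d q par m : ℕ) (R : ℝ → ℝ) (i : Fin 4) (z : ℝ × ℝ) :
    comp d q par (Finsupp.single m R) i z = rcomp d q R i z.1 * acomp par m i z.2 := by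
  rw [comp_eq, Finsupp.sum_single_index]
  rw [rcomp_zero, zero_mul]

/-- coefficients of the first variation in `P` at `(b1, 1)` in the direction `G`. -/
def W1 (b1 : ℝ) (G : ℝ × ℝ → ℝ) : Fin 4 → ℝ × ℝ → ℝ := fun i z =>
  match i with
  | 0 => 0
  | 1 => G z
  | 2 => -(b1 ^ 2 * G z)
  | 3 => 0

/-- coefficients of `∫ u_φ v_φ / (1-x²)`. -/
def WS : Fin 4 → ℝ × ℝ → ℝ := fun i _ =>
  match i with
  | 2 => 1
  | _ => 0

theorem coef_WS (d : ℕ) : Coef d WS := by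
  refine ⟨fun i => ?_, 1, fun i z _ => ?_⟩
  · fin_cases i <;> simp only [WS] <;> exact aestronglyMeasurable_const
  · fin_cases i <;> simp [WS]

theorem coef_W1 {d : ℕ} (b1 : ℝ) {G : ℝ × ℝ → ℝ} {γ : ℝ} (hG : AEStronglyMeasurable G (Mod.mu d))
    (hb : ∀ z ∈ Om, |G z| ≤ γ) : Coef d (W1 b1 G) := by
  refine ⟨fun i => ?_, (1 + b1 ^ 2) * |γ|, fun i z hz => ?_⟩
  · fin_cases i <;> simp only [W1]
    · exact aestronglyMeasurable_const
    · exact hG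
    · exact (hG.const_mul _).neg
    · exact aestronglyMeasurable_const
  · have h1 := (hb z hz).trans (le_abs_self γ)
    have h2 := abs_nonneg γ
    have h3 := sq_nonneg b1
    fin_cases i <;> simp only [W1, abs_zero, abs_neg]
    · positivity
    · nlinarith [abs_nonneg (G z)]
    · rw [abs_mul, abs_of_nonneg h3]
      nlinarith [abs_nonneg (G z)]
    · positivity

/-- the pointwise expansion. -/
theorem pointwise {b b1 P τ G γ B κ K : ℝ} (hκ : 0 < κ) (hB : |b| ≤ B) (hB1 : |b1| ≤ B)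
    (hP : κ ≤ P) (hPe : P = 1 + τ + G) (hτ : |τ| ≤ K) (hG : |G| ≤ γ) (hγK : γ ≤ K) :
    |b ^ 2 / P - b1 ^ 2 - (b - b1) * (2 * b1) - -(b1 ^ 2 * G)| ≤
      (1 + B ^ 2 + κ⁻¹ * (6 * B ^ 2 * (K + 1) + B)) * ((b - b1) ^ 2 + γ ^ 2 + |τ|) := by
  have hP0 : 0 < P := hκ.trans_le hP
  have hB0 : 0 ≤ B := (abs_nonneg b).trans hB
  have hK0 : 0 ≤ K := (abs_nonneg τ).trans hτ
  have hγ0 : 0 ≤ γ := (abs_nonneg G).trans hG
  have key : b ^ 2 / P - b1 ^ 2 - (b - b1) * (2 * b1) - -(b1 ^ 2 * G) =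
      (b - b1) ^ 2 - b1 ^ 2 * τ +
        P⁻¹ * (b1 ^ 2 * (τ + G) ^ 2 - (b ^ 2 - b1 ^ 2) * (τ + G)) := by
    have hPG : τ + G = P - 1 := by rw [hPe]; ring
    have hG' : G = P - 1 - τ := by rw [hPe]; ring
    rw [hPG, hG']
    field_simp
    ring
  rw [key]
  have hb1 : b1 ^ 2 ≤ B ^ 2 := by
    rw [← sq_abs b1]; exact pow_le_pow_left₀ (abs_nonneg _) hB1 2
  have h1 : |b1 ^ 2 * τ| ≤ B ^ 2 * |τ| := by
    rw [abs_mul, abs_of_nonneg (sq_nonneg b1)]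
    exact mul_le_mul_of_nonneg_right hb1 (abs_nonneg _)
  have hs : |τ + G| ≤ |τ| + γ := (abs_add_le _ _).trans (by linarith)
  have hs2 : (τ + G) ^ 2 ≤ 2 * (K * |τ|) + 2 * γ ^ 2 := by
    have e1 : (τ + G) ^ 2 = |τ + G| ^ 2 := (sq_abs _).symm
    rw [e1]
    have h3 : |τ + G| ^ 2 ≤ (|τ| + γ) ^ 2 := pow_le_pow_left₀ (abs_nonneg _) hs 2
    have h4 : |τ| * |τ| ≤ K * |τ| := mul_le_mul_of_nonneg_right hτ (abs_nonneg _)
    nlinarith [sq_nonneg (|τ| - γ), abs_nonneg τ]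
  have hd : |b ^ 2 - b1 ^ 2| ≤ 2 * B * |b - b1| := by
    have : b ^ 2 - b1 ^ 2 = (b - b1) * (b + b1) := by ring
    rw [this, abs_mul]
    have : |b + b1| ≤ 2 * B := (abs_add_le _ _).trans (by linarith)
    nlinarith [abs_nonneg (b - b1)]
  have hdb : |b - b1| ≤ 2 * B := by
    rw [sub_eq_add_neg]
    exact (abs_add_le _ _).trans (by rw [abs_neg]; linarith)
  have h2 : |b1 ^ 2 * (τ + G) ^ 2 - (b ^ 2 - b1 ^ 2) * (τ + G)| ≤
      (6 * B ^ 2 * (K + 1) + B) * ((b - b1) ^ 2 + γ ^ 2 + |τ|) := by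
    refine (abs_sub _ _).trans ?_
    rw [abs_mul, abs_mul, abs_of_nonneg (sq_nonneg b1), abs_of_nonneg (sq_nonneg (τ + G))]
    have h5 : b1 ^ 2 * (τ + G) ^ 2 ≤ B ^ 2 * (2 * (K * |τ|) + 2 * γ ^ 2) :=
      mul_le_mul hb1 hs2 (sq_nonneg _) (sq_nonneg _)
    have h6 : |b ^ 2 - b1 ^ 2| * |τ + G| ≤ 2 * B * |b - b1| * (|τ| + γ) :=
      mul_le_mul hd hs (abs_nonneg _) (by positivity)
    have h7 : 2 * B * |b - b1| * |τ| ≤ 4 * B ^ 2 * |τ| := by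
      have := mul_le_mul_of_nonneg_right hdb (abs_nonneg τ)
      nlinarith
    have h8 : 2 * B * |b - b1| * γ ≤ B * ((b - b1) ^ 2 + γ ^ 2) := by
      have : 2 * (|b - b1| * γ) ≤ |b - b1| ^ 2 + γ ^ 2 := by nlinarith [sq_nonneg (|b - b1| - γ)]
      rw [sq_abs] at this
      nlinarith
    have h9 : 0 ≤ B ^ 2 := sq_nonneg B
    have h10 := abs_nonneg τ
    have h11 := sq_nonneg (b - b1)
    have h12 := sq_nonneg γ
    have h13 : 0 ≤ B ^ 2 * K := by positivity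
    have e : (6 * B ^ 2 * (K + 1) + B) * ((b - b1) ^ 2 + γ ^ 2 + |τ|) =
        B ^ 2 * (2 * (K * |τ|) + 2 * γ ^ 2) + 4 * B ^ 2 * |τ| + B * ((b - b1) ^ 2 + γ ^ 2) +
        (4 * (B ^ 2 * K) * |τ| + 6 * (B ^ 2 * K) * ((b - b1) ^ 2 + γ ^ 2) +
          4 * B ^ 2 * γ ^ 2 + 6 * B ^ 2 * (b - b1) ^ 2 + 2 * B ^ 2 * |τ| + B * |τ|) := by ring
    have h14 : 0 ≤ 4 * (B ^ 2 * K) * |τ| + 6 * (B ^ 2 * K) * ((b - b1) ^ 2 + γ ^ 2) +
          4 * B ^ 2 * γ ^ 2 + 6 * B ^ 2 * (b - b1) ^ 2 + 2 * B ^ 2 * |τ| + B * |τ| := by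
      positivity
    rw [e]
    have e2 : 2 * B * |b - b1| * (|τ| + γ) = 2 * B * |b - b1| * |τ| + 2 * B * |b - b1| * γ := by
      ring
    linarith
  have h3 : |P⁻¹ * (b1 ^ 2 * (τ + G) ^ 2 - (b ^ 2 - b1 ^ 2) * (τ + G))| ≤
      κ⁻¹ * ((6 * B ^ 2 * (K + 1) + B) * ((b - b1) ^ 2 + γ ^ 2 + |τ|)) := by
    rw [abs_mul, abs_of_pos (inv_pos.mpr hP0)]
    exact mul_le_mul (inv_anti₀ hκ hP) h2 (abs_nonneg _) (by positivity)
  have h4 : |(b - b1) ^ 2 - b1 ^ 2 * τ +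
        P⁻¹ * (b1 ^ 2 * (τ + G) ^ 2 - (b ^ 2 - b1 ^ 2) * (τ + G))| ≤
      (b - b1) ^ 2 + B ^ 2 * |τ| + κ⁻¹ * ((6 * B ^ 2 * (K + 1) + B) *
        ((b - b1) ^ 2 + γ ^ 2 + |τ|)) := by
    refine (abs_add_le _ _).trans (add_le_add ((abs_sub _ _).trans ?_) h3)
    rw [abs_of_nonneg (sq_nonneg (b - b1))]
    linarith
  refine h4.trans ?_
  have h5 := sq_nonneg B
  have h10 := abs_nonneg τ
  have h11 := sq_nonneg (b - b1)
  have h12 := sq_nonneg γ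
  have e : (1 + B ^ 2 + κ⁻¹ * (6 * B ^ 2 * (K + 1) + B)) * ((b - b1) ^ 2 + γ ^ 2 + |τ|) =
      (b - b1) ^ 2 + B ^ 2 * |τ| + κ⁻¹ * ((6 * B ^ 2 * (K + 1) + B) *
        ((b - b1) ^ 2 + γ ^ 2 + |τ|)) + (γ ^ 2 + |τ| + B ^ 2 * ((b - b1) ^ 2 + γ ^ 2)) := by ring
  rw [e]
  have : 0 ≤ γ ^ 2 + |τ| + B ^ 2 * ((b - b1) ^ 2 + γ ^ 2) := by positivity
  linarith

theorem integral_comb {X : Type*} [MeasurableSpace X] {ν : Measure X} {f1 f2 f3 f4 : X → ℝ} (c : ℝ)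
    (h1 : Integrable f1 ν) (h2 : Integrable f2 ν) (h3 : Integrable f3 ν) (h4 : Integrable f4 ν) :
    ∫ z, (f1 z - f2 z - c * f3 z - f4 z) ∂ν =
      ∫ z, f1 z ∂ν - ∫ z, f2 z ∂ν - c * ∫ z, f3 z ∂ν - ∫ z, f4 z ∂ν := by
  have e1 : ∫ z, (f1 z - f2 z) ∂ν = ∫ z, f1 z ∂ν - ∫ z, f2 z ∂ν := integral_sub h1 h2
  have e2 : ∫ z, (f1 z - f2 z - c * f3 z) ∂ν = ∫ z, (f1 z - f2 z) ∂ν - ∫ z, c * f3 z ∂ν :=
    integral_sub (h1.sub h2) (h3.const_mul c)
  have e3 : ∫ z, (f1 z - f2 z - c * f3 z - f4 z) ∂ν =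
      ∫ z, (f1 z - f2 z - c * f3 z) ∂ν - ∫ z, f4 z ∂ν :=
    integral_sub ((h1.sub h2).sub (h3.const_mul c)) h4
  rw [e3, e2, e1, integral_const_mul]

/-- **(P4), general form**: first order expansion of `Q_{b,P}` at `(b1, 1)` on a fixed pair
`u, v` of the core space, `P = 1 + τ + G` with `τ` the tip and `G` the perturbation. -/
theorem expansion {q par : ℕ} (d : ℕ) (u v : VS q par) (B K : ℝ) :
    ∃ C : ℝ, 0 ≤ C ∧ ∀ (b b1 γ : ℝ) (P τ G : ℝ × ℝ → ℝ), |b| ≤ B → |b1| ≤ B → Adm d K P →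
      AEStronglyMeasurable τ (Mod.mu d) → AEStronglyMeasurable G (Mod.mu d) →
      (∀ z ∈ Om, P z = 1 + τ z + G z ∧ |τ z| ≤ K ∧ |G z| ≤ γ) → γ ≤ K →
      |fW d q par (WQ b P) u v - fW d q par (WQ b1 fun _ => 1) u v -
        (b - b1) * (2 * b1 * fW d q par WS u v) - fW d q par (W1 b1 G) u v| ≤
      C * ((b - b1) ^ 2 + γ ^ 2 + ∫ z, |τ z| ∂(Mod.mu d)) := by
  obtain ⟨A1, hA10, hA1⟩ := comp_bdd d u 1
  obtain ⟨A2, hA20, hA2⟩ := comp_bdd d u 2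
  obtain ⟨B1, hB10, hB1⟩ := comp_bdd d v 1
  obtain ⟨B2, hB20, hB2⟩ := comp_bdd d v 2
  set C0 := 1 + B ^ 2 + (K⁻¹)⁻¹ * (6 * B ^ 2 * (K + 1) + B) with hC0
  set m0 := (Mod.mu d).real univ with hm0
  have hm00 : 0 ≤ m0 := measureReal_nonneg
  refine ⟨(|C0| * (A2 * B2) * m0) + (A1 * B1 + |C0| * (A2 * B2)), by positivity, ?_⟩
  intro b b1 γ P τ G hb hb1 hAdm hτm hGm hz' hγK
  have hκ : 0 < K⁻¹ := inv_pos.mpr (one_pos.trans_le hAdm.K_ge)
  have hz : ∀ z ∈ Om, K⁻¹ ≤ P z ∧ P z = 1 + τ z + G z ∧ |τ z| ≤ K ∧ |G z| ≤ γ :=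
    fun z h => ⟨hAdm.low z h, hz' z h⟩
  have cQ : Coef d (WQ b P) := Mod.coef_WQ hAdm b
  have cQ1 : Coef d (WQ b1 fun _ => 1) := Mod.coef_WQ (adm_one d) b1
  have cS := coef_WS d
  have c1 : Coef d (W1 b1 G) := coef_W1 b1 hGm (fun z hz' => (hz z hz').2.2.2)
  have iQ := integrable_sum cQ u v
  have iQ1 := integrable_sum cQ1 u v
  have iS := integrable_sum cS u v
  have i1 := integrable_sum c1 u v
  have hτi : Integrable (fun z => |τ z|) (Mod.mu d) := by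
    refine Integrable.mono' (integrable_const K) hτm.norm ?_
    filter_upwards [ae_mem_Om d] with z hz'
    rw [Real.norm_eq_abs, abs_abs]
    exact (hz z hz').2.2.1
  have e : fW d q par (WQ b P) u v - fW d q par (WQ b1 fun _ => 1) u v -
        (b - b1) * (2 * b1 * fW d q par WS u v) - fW d q par (W1 b1 G) u v =
      ∫ z, (τ z * (comp d q par u 1 z * comp d q par v 1 z) +
        (b ^ 2 / P z - b1 ^ 2 - (b - b1) * (2 * b1) - -(b1 ^ 2 * G z)) *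
          (comp d q par u 2 z * comp d q par v 2 z)) ∂(Mod.mu d) := by
    have hc := integral_comb (ν := Mod.mu d) ((b - b1) * (2 * b1)) iQ iQ1 iS i1
    unfold fW
    rw [← mul_assoc (b - b1), ← hc]
    refine integral_congr_ae ?_
    filter_upwards [ae_mem_Om d] with z hz'
    have hP := (hz z hz').2.1
    simp only [Fin.sum_univ_four, WQ, W1, WS, Pi.one_apply, Pi.sub_apply]
    rw [hP]
    simp only [div_one]
    ring
  rw [e]
  have hbound : ∀ᵐ z ∂(Mod.mu d), ‖τ z * (comp d q par u 1 z * comp d q par v 1 z) +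
        (b ^ 2 / P z - b1 ^ 2 - (b - b1) * (2 * b1) - -(b1 ^ 2 * G z)) *
          (comp d q par u 2 z * comp d q par v 2 z)‖ ≤
      |C0| * (A2 * B2) * ((b - b1) ^ 2 + γ ^ 2) + (A1 * B1 + |C0| * (A2 * B2)) * |τ z| := by
    filter_upwards [ae_mem_Om d] with z hz'
    obtain ⟨h1, h2, h3, h4⟩ := hz z hz'
    have hp := pointwise hκ hb hb1 h1 h2 h3 h4 hγK
    have hγ0 : 0 ≤ γ := (abs_nonneg _).trans h4
    have hsum : 0 ≤ (b - b1) ^ 2 + γ ^ 2 + |τ z| := by positivity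
    have hp' : |b ^ 2 / P z - b1 ^ 2 - (b - b1) * (2 * b1) - -(b1 ^ 2 * G z)| ≤
        |C0| * ((b - b1) ^ 2 + γ ^ 2 + |τ z|) :=
      hp.trans (mul_le_mul_of_nonneg_right (le_abs_self _) hsum)
    rw [Real.norm_eq_abs]
    refine (abs_add_le _ _).trans ?_
    rw [abs_mul, abs_mul, abs_mul, abs_mul]
    have k1 : |comp d q par u 1 z| * |comp d q par v 1 z| ≤ A1 * B1 :=
      mul_le_mul (hA1 z hz') (hB1 z hz') (abs_nonneg _) hA10
    have k2 : |comp d q par u 2 z| * |comp d q par v 2 z| ≤ A2 * B2 :=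
      mul_le_mul (hA2 z hz') (hB2 z hz') (abs_nonneg _) hA20
    have k3 : |τ z| * (|comp d q par u 1 z| * |comp d q par v 1 z|) ≤ |τ z| * (A1 * B1) :=
      mul_le_mul_of_nonneg_left k1 (abs_nonneg _)
    have k4 : |b ^ 2 / P z - b1 ^ 2 - (b - b1) * (2 * b1) - -(b1 ^ 2 * G z)| *
        (|comp d q par u 2 z| * |comp d q par v 2 z|) ≤
        |C0| * ((b - b1) ^ 2 + γ ^ 2 + |τ z|) * (A2 * B2) :=
      mul_le_mul hp' k2 (by positivity) (by positivity)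
    refine (add_le_add k3 k4).trans (le_of_eq ?_)
    ring
  have hint : Integrable (fun z => |C0| * (A2 * B2) * ((b - b1) ^ 2 + γ ^ 2) +
      (A1 * B1 + |C0| * (A2 * B2)) * |τ z|) (Mod.mu d) :=
    (integrable_const _).add (hτi.const_mul _)
  have h := norm_integral_le_of_norm_le hint hbound
  rw [Real.norm_eq_abs] at h
  refine h.trans ?_
  rw [integral_add (integrable_const _) (hτi.const_mul _), integral_const, integral_const_mul,
    smul_eq_mul, ← hm0]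
  have hT : 0 ≤ ∫ z, |τ z| ∂(Mod.mu d) := integral_nonneg fun z => abs_nonneg _
  have h5 : 0 ≤ (A1 * B1 + |C0| * (A2 * B2)) * ((b - b1) ^ 2 + γ ^ 2) := by positivity
  have h6 : 0 ≤ |C0| * (A2 * B2) * m0 * ∫ z, |τ z| ∂(Mod.mu d) := by positivity
  nlinarith

end Crest.Agent.R202.Clu
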