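import Crest.Agent.R202.SpinParseval

/-! Row 202, PART C1 / (P5) (helper816): the link densities and their non-proportionality. -/

set_option autoImplicit false

namespace Crest.Agent.R202

open MeasureTheory Set Polynomial Filter Topology

/-- link density (for `cos ((m - m') φ)`). -/
noncomputable def linkDen (d q : ℕ) (μ : ℝ) (j : ℕ) (μ' : ℝ) (j' : ℕ) (x : ℝ) : ℝ :=
  x ^ d * ((1 - x ^ 2) * (dRj d q μ j x * dRj d q μ' j' x) -
    μ * μ' / (1 - x ^ 2) * (Rj d q μ j x * Rj d q μ' j' x))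

/-- link density (for `cos ((m + m') φ)`). -/
noncomputable def linkDenP (d q : ℕ) (μ : ℝ) (j : ℕ) (μ' : ℝ) (j' : ℕ) (x : ℝ) : ℝ :=
  x ^ d * ((1 - x ^ 2) * (dRj d q μ j x * dRj d q μ' j' x) +
    μ * μ' / (1 - x ^ 2) * (Rj d q μ j x * Rj d q μ' j' x))

/-- the polynomial factor of `linkDen`. -/
noncomputable def linkB (d q : ℕ) (μ : ℝ) (j : ℕ) (μ' : ℝ) (j' : ℕ) : ℝ[X] :=
  (1 - X ^ 2) * (derivative (jQ d q μ j) * derivative (jQ d q μ' j')) -
    X * (C μ' * (derivative (jQ d q μ j) * jQ d q μ' j') +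
      C μ * (jQ d q μ j * derivative (jQ d q μ' j'))) -
    C (μ * μ') * (jQ d q μ j * jQ d q μ' j')

/-- the polynomial factor of `linkDenP`. -/
noncomputable def linkBP (d q : ℕ) (μ : ℝ) (j : ℕ) (μ' : ℝ) (j' : ℕ) : ℝ[X] :=
  ((1 - X ^ 2) * derivative (jQ d q μ j) - C μ * X * jQ d q μ j) *
    ((1 - X ^ 2) * derivative (jQ d q μ' j') - C μ' * X * jQ d q μ' j') +
    C (μ * μ') * (jQ d q μ j * jQ d q μ' j')

theorem linkDen_eq (d q : ℕ) (μ : ℝ) (j : ℕ) (μ' : ℝ) (j' : ℕ) {x : ℝ} (hx : 0 < 1 - x ^ 2) :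
    linkDen d q μ j μ' j' x =
      x ^ d * ((1 - x ^ 2) ^ ((μ + μ') / 2) * (linkB d q μ j μ' j').eval x) := by
  have hw : (1 - x ^ 2) ^ ((μ + μ') / 2) = (1 - x ^ 2) ^ (μ / 2) * (1 - x ^ 2) ^ (μ' / 2) := by
    rw [← Real.rpow_add hx]; congr 1; ring
  unfold linkDen linkB dRj Rj
  rw [hw]
  simp only [eval_sub, eval_mul, eval_add, eval_pow, eval_X, eval_C, eval_one]
  field_simp
  ring

theorem linkDenP_eq (d q : ℕ) (μ : ℝ) (j : ℕ) (μ' : ℝ) (j' : ℕ) {x : ℝ} (hx : 0 < 1 - x ^ 2) :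
    linkDenP d q μ j μ' j' x =
      x ^ d * ((1 - x ^ 2) ^ ((μ + μ') / 2 - 1) * (linkBP d q μ j μ' j').eval x) := by
  have hw : (1 - x ^ 2) ^ ((μ + μ') / 2 - 1) =
      (1 - x ^ 2) ^ (μ / 2) * (1 - x ^ 2) ^ (μ' / 2) / (1 - x ^ 2) := by
    rw [Real.rpow_sub_one hx.ne', ← Real.rpow_add hx]; congr 2; ring
  unfold linkDenP linkBP dRj Rj
  rw [hw]
  simp only [eval_sub, eval_mul, eval_add, eval_pow, eval_X, eval_C, eval_one]
  field_simp

theorem jQ_eval_one_ne_zero (d q : ℕ) {μ : ℝ} (hμ : 0 ≤ μ) (j : ℕ) :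
    (jQ d q μ j).eval 1 ≠ 0 := by
  rw [jQ_eval, one_pow, one_pow, one_mul]
  exact jp_eval_one_ne_zero d q hμ j

theorem jQ_deriv_one (d q : ℕ) {μ : ℝ} (hμ : 0 ≤ μ) (j : ℕ) :
    (derivative (jQ d q μ j)).eval 1 =
      (q + kap d q μ j / (2 * (μ + 1))) * (jQ d q μ j).eval 1 := by
  have h := jQ_ode_eval d q μ j 1
  rw [Ej_eq] at h
  unfold E0 at h
  have hne : μ + 1 ≠ 0 := by positivity
  field_simp
  linear_combination -h

theorem kap_pos (d q : ℕ) {μ : ℝ} (hμ : 0 ≤ μ) {j : ℕ} (hj : 1 ≤ j) : 0 < kap d q μ j := by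
  have h := kap_strictMono d q hμ (show 0 < j by omega)
  exact lt_of_le_of_lt (kap_nonneg d q hμ 0) h

theorem linkB_one_ne_zero (d q : ℕ) {μ μ' : ℝ} (hμ : 0 ≤ μ) (hμ' : 0 < μ') {j : ℕ} (hj : 1 ≤ j)
    (j' : ℕ) : (linkB d q μ j μ' j').eval 1 ≠ 0 := by
  have h1 := jQ_deriv_one d q hμ j
  have h2 := jQ_deriv_one d q hμ'.le j'
  have h3 := jQ_eval_one_ne_zero d q hμ j
  have h4 := jQ_eval_one_ne_zero d q hμ'.le j'
  have k1 := kap_pos d q hμ hj
  have k2 := kap_nonneg d q hμ'.le j'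
  unfold linkB
  simp only [eval_sub, eval_mul, eval_add, eval_pow, eval_X, eval_C, eval_one]
  rw [h1, h2]
  set A := (jQ d q μ j).eval 1
  set B := (jQ d q μ' j').eval 1
  have e : (1 - 1 ^ 2) * ((q + kap d q μ j / (2 * (μ + 1))) * A *
      ((q + kap d q μ' j' / (2 * (μ' + 1))) * B)) -
      1 * (μ' * ((q + kap d q μ j / (2 * (μ + 1))) * A * B) +
        μ * (A * ((q + kap d q μ' j' / (2 * (μ' + 1))) * B))) - μ * μ' * (A * B) =
      -(μ' * (q + kap d q μ j / (2 * (μ + 1))) + μ * (q + kap d q μ' j' / (2 * (μ' + 1))) +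
        μ * μ') * (A * B) := by ring
  rw [e]
  have hp : 0 < μ' * (q + kap d q μ j / (2 * (μ + 1))) +
      μ * (q + kap d q μ' j' / (2 * (μ' + 1))) + μ * μ' := by
    have a1 : 0 < μ' * (q + kap d q μ j / (2 * (μ + 1))) := by positivity
    have a2 : 0 ≤ μ * (q + kap d q μ' j' / (2 * (μ' + 1))) := by positivity
    positivity
  exact mul_ne_zero (neg_ne_zero.mpr hp.ne') (mul_ne_zero h3 h4)

theorem linkBP_one_ne_zero (d q : ℕ) {μ μ' : ℝ} (hμ : 0 < μ) (hμ' : 0 < μ') (j j' : ℕ) :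
    (linkBP d q μ j μ' j').eval 1 ≠ 0 := by
  have h3 := jQ_eval_one_ne_zero d q hμ.le j
  have h4 := jQ_eval_one_ne_zero d q hμ'.le j'
  unfold linkBP
  simp only [eval_sub, eval_mul, eval_add, eval_pow, eval_X, eval_C, eval_one]
  set A := (jQ d q μ j).eval 1
  set B := (jQ d q μ' j').eval 1
  have e : ((1 - 1 ^ 2) * eval 1 (derivative (jQ d q μ j)) - μ * 1 * A) *
      ((1 - 1 ^ 2) * eval 1 (derivative (jQ d q μ' j')) - μ' * 1 * B) + μ * μ' * (A * B) =
      2 * μ * μ' * (A * B) := by ring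
  rw [e]
  positivity

theorem jQ_leading (d q : ℕ) {μ : ℝ} (hμ : 0 ≤ μ) (j : ℕ) :
    (jQ d q μ j).coeff (2 * j + q) ≠ 0 := by
  have h := jQ_natDegree d q hμ j
  rw [← h]
  exact leadingCoeff_ne_zero.mpr (jQ_ne_zero d q μ j)

theorem coeff_X_deriv (p : ℝ[X]) (n : ℕ) : (X * derivative p).coeff n = n * p.coeff n := by
  rcases n with _ | n
  · simp
  · rw [coeff_X_mul, coeff_derivative]; push_cast; ring

theorem linkB_coeff (d q : ℕ) {μ μ' : ℝ} (hμ : 0 ≤ μ) (hμ' : 0 ≤ μ') {j : ℕ} (hj : 1 ≤ j)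
    (j' : ℕ) : (linkB d q μ j μ' j').coeff (2 * j + q + (2 * j' + q)) =
      -(((2 * j + q : ℕ) : ℝ) + μ) * (((2 * j' + q : ℕ) : ℝ) + μ') *
        ((jQ d q μ j).coeff (2 * j + q) * (jQ d q μ' j').coeff (2 * j' + q)) := by
  set Q := jQ d q μ j with hQ
  set R := jQ d q μ' j' with hR
  set D := 2 * j + q with hD
  set D' := 2 * j' + q with hD'
  have nQ : Q.natDegree ≤ D := (jQ_natDegree d q hμ j).le
  have nR : R.natDegree ≤ D' := (jQ_natDegree d q hμ' j').le
  have nXQ : (X * derivative Q).natDegree ≤ D := by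
    rw [natDegree_le_iff_coeff_eq_zero]
    intro n hn
    rw [coeff_X_deriv, coeff_eq_zero_of_natDegree_lt (lt_of_le_of_lt nQ hn), mul_zero]
  have nXR : (X * derivative R).natDegree ≤ D' := by
    rw [natDegree_le_iff_coeff_eq_zero]
    intro n hn
    rw [coeff_X_deriv, coeff_eq_zero_of_natDegree_lt (lt_of_le_of_lt nR hn), mul_zero]
  have e : linkB d q μ j μ' j' = derivative Q * derivative R -
      (X * derivative Q) * (X * derivative R) -
      C μ' * ((X * derivative Q) * R) - C μ * (Q * (X * derivative R)) -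
      C (μ * μ') * (Q * R) := by
    unfold linkB; ring
  have z : (derivative Q * derivative R).coeff (D + D') = 0 := by
    apply coeff_eq_zero_of_natDegree_lt
    have h1 := natDegree_mul_le (p := derivative Q) (q := derivative R)
    have h2 := natDegree_derivative_le Q
    have h3 := natDegree_derivative_le R
    omega
  rw [e]
  simp only [coeff_sub, coeff_C_mul]
  rw [z, coeff_mul_add_eq_of_natDegree_le nXQ nXR, coeff_mul_add_eq_of_natDegree_le nXQ nR,
    coeff_mul_add_eq_of_natDegree_le nQ nXR, coeff_mul_add_eq_of_natDegree_le nQ nR, coeff_X_deriv,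
    coeff_X_deriv]
  ring

theorem linkB_natDegree (d q : ℕ) {μ μ' : ℝ} (hμ : 0 ≤ μ) (hμ' : 0 < μ') {j : ℕ} (hj : 1 ≤ j)
    (j' : ℕ) : (linkB d q μ j μ' j').natDegree = 2 * j + q + (2 * j' + q) := by
  apply natDegree_eq_of_le_of_coeff_ne_zero
  · set Q := jQ d q μ j with hQ
    set R := jQ d q μ' j' with hR
    have nQ : Q.natDegree ≤ 2 * j + q := (jQ_natDegree d q hμ j).le
    have nR : R.natDegree ≤ 2 * j' + q := (jQ_natDegree d q hμ'.le j').le
    have nXQ : (X * derivative Q).natDegree ≤ 2 * j + q := by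
      rw [natDegree_le_iff_coeff_eq_zero]
      intro n hn
      rw [coeff_X_deriv, coeff_eq_zero_of_natDegree_lt (lt_of_le_of_lt nQ hn), mul_zero]
    have nXR : (X * derivative R).natDegree ≤ 2 * j' + q := by
      rw [natDegree_le_iff_coeff_eq_zero]
      intro n hn
      rw [coeff_X_deriv, coeff_eq_zero_of_natDegree_lt (lt_of_le_of_lt nR hn), mul_zero]
    have e : linkB d q μ j μ' j' = derivative Q * derivative R -
        (X * derivative Q) * (X * derivative R) -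
        C μ' * ((X * derivative Q) * R) - C μ * (Q * (X * derivative R)) -
        C (μ * μ') * (Q * R) := by
      unfold linkB; ring
    rw [e]
    have b1 : (derivative Q * derivative R).natDegree ≤ 2 * j + q + (2 * j' + q) := by
      have h1 := natDegree_mul_le (p := derivative Q) (q := derivative R)
      have h2 := natDegree_derivative_le Q
      have h3 := natDegree_derivative_le R
      omega
    have b2 : ((X * derivative Q) * (X * derivative R)).natDegree ≤ 2 * j + q + (2 * j' + q) :=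
      natDegree_mul_le.trans (add_le_add nXQ nXR)
    have b3 : (C μ' * ((X * derivative Q) * R)).natDegree ≤ 2 * j + q + (2 * j' + q) :=
      (natDegree_C_mul_le _ _).trans (natDegree_mul_le.trans (add_le_add nXQ nR))
    have b4 : (C μ * (Q * (X * derivative R))).natDegree ≤ 2 * j + q + (2 * j' + q) :=
      (natDegree_C_mul_le _ _).trans (natDegree_mul_le.trans (add_le_add nQ nXR))
    have b5 : (C (μ * μ') * (Q * R)).natDegree ≤ 2 * j + q + (2 * j' + q) :=
      (natDegree_C_mul_le _ _).trans (natDegree_mul_le.trans (add_le_add nQ nR))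
    exact natDegree_sub_le_of_le (natDegree_sub_le_of_le (natDegree_sub_le_of_le
      (natDegree_sub_le_of_le b1 b2) b3) b4) b5 |>.trans (by simp)
  · rw [linkB_coeff d q hμ hμ'.le hj j']
    have h1 := jQ_leading d q hμ j
    have h2 := jQ_leading d q hμ'.le j'
    have h3 : (0 : ℝ) < ((2 * j + q : ℕ) : ℝ) + μ := by
      have : (0 : ℝ) < ((2 * j + q : ℕ) : ℝ) := by
        exact_mod_cast (show 0 < 2 * j + q by omega)
      linarith
    have h4 : (0 : ℝ) < ((2 * j' + q : ℕ) : ℝ) + μ' := by positivity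
    exact mul_ne_zero (mul_ne_zero (neg_ne_zero.mpr h3.ne') h4.ne') (mul_ne_zero h1 h2)

/-- order at `0` for `q ≥ 1`. -/
theorem linkB_trail (d q : ℕ) (μ : ℝ) (j : ℕ) (μ' : ℝ) (j' : ℕ) :
    ∃ T : ℝ[X], X ^ 2 * linkB d q μ j μ' j' = X ^ (2 * q) * T ∧ T.eval 0 = (q : ℝ) ^ 2 := by
  set P := (jp d q μ j).comp (X ^ 2) with hP
  set P1 := (derivative (jp d q μ j)).comp (X ^ 2) with hP1
  set R := (jp d q μ' j').comp (X ^ 2) with hR
  set R1 := (derivative (jp d q μ' j')).comp (X ^ 2) with hR1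
  have h1 : X * derivative (jQ d q μ j) = X ^ q * (C (q : ℝ) * P + C 2 * X ^ 2 * P1) := by
    rw [X_mul_deriv_jQ]
    unfold jQ
    rw [← hP, ← hP1]
    ring
  have h2 : X * derivative (jQ d q μ' j') = X ^ q * (C (q : ℝ) * R + C 2 * X ^ 2 * R1) := by
    rw [X_mul_deriv_jQ]
    unfold jQ
    rw [← hR, ← hR1]
    ring
  refine ⟨(1 - X ^ 2) * ((C (q : ℝ) * P + C 2 * X ^ 2 * P1) * (C (q : ℝ) * R + C 2 * X ^ 2 * R1)) -
    X ^ 2 * (C μ' * ((C (q : ℝ) * P + C 2 * X ^ 2 * P1) * R) +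
      C μ * (P * (C (q : ℝ) * R + C 2 * X ^ 2 * R1))) - C (μ * μ') * X ^ 2 * (P * R), ?_, ?_⟩
  · have e : X ^ 2 * linkB d q μ j μ' j' =
        (1 - X ^ 2) * ((X * derivative (jQ d q μ j)) * (X * derivative (jQ d q μ' j'))) -
        X ^ 2 * (C μ' * ((X * derivative (jQ d q μ j)) * jQ d q μ' j') +
          C μ * (jQ d q μ j * (X * derivative (jQ d q μ' j')))) -
        C (μ * μ') * X ^ 2 * (jQ d q μ j * jQ d q μ' j') := by
      unfold linkB; ring
    rw [e, h1, h2]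
    unfold jQ
    rw [← hP, ← hR]
    ring
  · have p0 : P.eval 0 = 1 := by
      rw [hP, eval_comp]; simp [jp_eval_zero]
    have r0 : R.eval 0 = 1 := by
      rw [hR, eval_comp]; simp [jp_eval_zero]
    simp only [eval_sub, eval_mul, eval_add, eval_pow, eval_X, eval_C, eval_one, p0, r0]
    ring

theorem rpow_analytic (s : ℝ) {x : ℝ} (hx : 0 < 1 - x ^ 2) :
    AnalyticAt ℝ (fun x : ℝ => (1 - x ^ 2) ^ s) x := by
  have h1 : AnalyticAt ℝ (fun x : ℝ => Real.log (1 - x ^ 2)) x :=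
    (analyticAt_const.sub (analyticAt_id.pow 2)).log hx
  have h2 : AnalyticAt ℝ (fun x : ℝ => Real.exp (Real.log (1 - x ^ 2) * s)) x :=
    (h1.mul analyticAt_const).rexp
  refine h2.congr ?_
  have : ∀ᶠ y in 𝓝 x, 0 < 1 - y ^ 2 := by
    have : Continuous fun y : ℝ => 1 - y ^ 2 := by fun_prop
    exact this.continuousAt.eventually (Ioi_mem_nhds hx)
  filter_upwards [this] with y hy
  rw [Real.rpow_def_of_pos hy]

theorem poly_analytic (p : ℝ[X]) (x : ℝ) : AnalyticAt ℝ (fun x : ℝ => p.eval x) x := by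
  have := AnalyticAt.aeval_polynomial (analyticAt_id (𝕜 := ℝ) (z := x)) p
  simpa using this

/-- identity theorem. -/
theorem extend_identity {s s' : ℝ} {B B' : ℝ[X]} {κ : ℝ} {α β : ℝ} (hαβ : α < β) (hα : -1 ≤ α)
    (hβ : β ≤ 1)
    (h : ∀ x ∈ Ioo α β, (1 - x ^ 2) ^ s * B.eval x = κ * ((1 - x ^ 2) ^ s' * B'.eval x)) :
    ∀ x ∈ Ioo (-1 : ℝ) 1, (1 - x ^ 2) ^ s * B.eval x = κ * ((1 - x ^ 2) ^ s' * B'.eval x) := by
  have hpos : ∀ x ∈ Ioo (-1 : ℝ) 1, 0 < 1 - x ^ 2 := by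
    intro x hx
    have h1 := hx.1
    have h2 := hx.2
    nlinarith
  have han : AnalyticOnNhd ℝ (fun x : ℝ => (1 - x ^ 2) ^ s * B.eval x -
      κ * ((1 - x ^ 2) ^ s' * B'.eval x)) (Ioo (-1 : ℝ) 1) := by
    intro x hx
    exact ((rpow_analytic s (hpos x hx)).mul (poly_analytic B x)).sub
      (analyticAt_const.mul ((rpow_analytic s' (hpos x hx)).mul (poly_analytic B' x)))
  set z := (α + β) / 2 with hz
  have hz1 : z ∈ Ioo α β := ⟨by rw [hz]; linarith, by rw [hz]; linarith⟩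
  have hz2 : z ∈ Ioo (-1 : ℝ) 1 := ⟨lt_of_le_of_lt hα hz1.1, lt_of_lt_of_le hz1.2 hβ⟩
  have hev : (fun x : ℝ => (1 - x ^ 2) ^ s * B.eval x -
      κ * ((1 - x ^ 2) ^ s' * B'.eval x)) =ᶠ[𝓝 z] 0 := by
    filter_upwards [isOpen_Ioo.mem_nhds hz1] with x hx
    rw [h x hx]; simp
  have := han.eqOn_zero_of_preconnected_of_eventuallyEq_zero isPreconnected_Ioo hz2 hev
  intro x hx
  have h2 := this hx
  simp only [Pi.zero_apply] at h2
  linarith

theorem exponent_eq_aux {s s' : ℝ} {B B' : ℝ[X]} {κ : ℝ}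
    (h : ∀ x ∈ Ioo (-1 : ℝ) 1, (1 - x ^ 2) ^ s * B.eval x = κ * ((1 - x ^ 2) ^ s' * B'.eval x))
    (hB : B.eval 1 ≠ 0) : s' ≤ s := by
  by_contra hcon
  push Not at hcon
  have hpos : ∀ x ∈ Ioo (-1 : ℝ) 1, 0 < 1 - x ^ 2 := by
    intro x hx
    have h1 := hx.1
    have h2 := hx.2
    nlinarith
  have h1 : ∀ x ∈ Ioo (-1 : ℝ) 1, B.eval x = κ * ((1 - x ^ 2) ^ (s' - s) * B'.eval x) := by
    intro x hx
    have hp := hpos x hx
    have e := h x hx
    have hne : (1 - x ^ 2) ^ s ≠ 0 := (Real.rpow_pos_of_pos hp s).ne'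
    rw [Real.rpow_sub hp]
    field_simp
    linear_combination e
  have c1 : Tendsto (fun x : ℝ => B.eval x) (𝓝[<] 1) (𝓝 (B.eval 1)) :=
    (B.continuous.tendsto 1).mono_left nhdsWithin_le_nhds
  have hc : Continuous fun x : ℝ => κ * ((1 - x ^ 2) ^ (s' - s) * B'.eval x) :=
    continuous_const.mul ((Continuous.rpow_const (by fun_prop)
      (fun _ => Or.inr (sub_pos.mpr hcon).le)).mul B'.continuous)
  have c2 := (hc.tendsto 1).mono_left (nhdsWithin_le_nhds (s := Iio (1 : ℝ)))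
  have e2 : κ * ((1 - (1 : ℝ) ^ 2) ^ (s' - s) * B'.eval 1) = 0 := by
    rw [one_pow, sub_self, Real.zero_rpow (sub_pos.mpr hcon).ne']; ring
  rw [e2] at c2
  have hev : (fun x : ℝ => B.eval x) =ᶠ[𝓝[<] 1]
      fun x : ℝ => κ * ((1 - x ^ 2) ^ (s' - s) * B'.eval x) := by
    have : Ioo (-1 : ℝ) 1 ∈ 𝓝[<] (1 : ℝ) := Ioo_mem_nhdsLT (by norm_num)
    filter_upwards [this] with x hx
    exact h1 x hx
  exact hB (tendsto_nhds_unique c1 (c2.congr' hev.symm))

/-- the data of a proportionality. -/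
theorem prop_data {s s' : ℝ} {B B' : ℝ[X]} {κ : ℝ} {α β : ℝ} (hαβ : α < β) (hα : -1 ≤ α)
    (hβ : β ≤ 1) (hB : B.eval 1 ≠ 0) (hB' : B'.eval 1 ≠ 0)
    (h : ∀ x ∈ Ioo α β, (1 - x ^ 2) ^ s * B.eval x = κ * ((1 - x ^ 2) ^ s' * B'.eval x)) :
    κ ≠ 0 ∧ s = s' ∧ B = C κ * B' := by
  have h1 := extend_identity hαβ hα hβ h
  have hpos : ∀ x ∈ Ioo (-1 : ℝ) 1, 0 < 1 - x ^ 2 := by
    intro x hx
    have h1 := hx.1
    have h2 := hx.2
    nlinarith
  have hinf : (Ioo (-1 : ℝ) 1).Infinite := Ioo_infinite (by norm_num)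
  have hκ : κ ≠ 0 := by
    intro h0
    apply hB
    have hz : B = 0 := by
      apply eq_zero_of_infinite_isRoot
      apply hinf.mono
      intro x hx
      have e := h1 x hx
      rw [h0, zero_mul] at e
      exact (mul_eq_zero.mp e).resolve_left (Real.rpow_pos_of_pos (hpos x hx) s).ne'
    rw [hz, eval_zero]
  have h2 := exponent_eq_aux h1 hB
  have h3 : s ≤ s' := by
    apply exponent_eq_aux (s := s') (s' := s) (B := B') (B' := B) (κ := κ⁻¹) _ hB'
    intro x hx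
    rw [h1 x hx]
    field_simp
  have hs : s = s' := le_antisymm h3 h2
  refine ⟨hκ, hs, ?_⟩
  subst hs
  apply eq_of_infinite_eval_eq
  apply hinf.mono
  intro x hx
  have e := h1 x hx
  have hne : (1 - x ^ 2) ^ s ≠ 0 := (Real.rpow_pos_of_pos (hpos x hx) s).ne'
  simp only [eval_mul, eval_C, Set.mem_ofPred_eq]
  apply mul_left_cancel₀ hne
  rw [e]; ring

/-- NON-PROPORTIONALITY of the link densities of the chains at the same `b`. Labels of the link:
`(m, j + c)` and `(m + a, j)`, sector `q`. -/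
theorem link_not_prop {d : ℕ} {b : ℝ} (hb : 0 < b) {a c : ℕ} (ha : 1 ≤ a) (hc : 1 ≤ c)
    {q m j q' m' j' : ℕ} (hq : (q ≤ 1 ∧ q' ≤ 1) ∨ (1 ≤ q ∧ 1 ≤ q'))
    {κ α β : ℝ} (hαβ : α < β) (hα : 0 ≤ α) (hβ : β ≤ 1)
    (h : ∀ x ∈ Ioo α β, linkDen d q (b * m) (j + c) (b * (m + a : ℕ)) j x =
      κ * linkDen d q' (b * m') (j' + c) (b * (m' + a : ℕ)) j' x) :
    q = q' ∧ m = m' ∧ j = j' := by
  have hpos : ∀ x ∈ Ioo α β, 0 < 1 - x ^ 2 := by
    intro x hx
    have h1 := hx.1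
    have h2 := hx.2
    nlinarith
  have μ0 : ∀ n : ℕ, 0 ≤ b * n := fun n => by positivity
  have μa : ∀ n : ℕ, 0 < b * ((n + a : ℕ) : ℝ) := fun n => by
    have : (0 : ℝ) < ((n + a : ℕ) : ℝ) := by exact_mod_cast (show 0 < n + a by omega)
    positivity
  have hcj : ∀ n : ℕ, 1 ≤ n + c := fun n => by omega
  have h2 : ∀ x ∈ Ioo α β,
      (1 - x ^ 2) ^ ((b * m + b * (m + a : ℕ)) / 2) *
        (linkB d q (b * m) (j + c) (b * (m + a : ℕ)) j).eval x =
      κ * ((1 - x ^ 2) ^ ((b * m' + b * (m' + a : ℕ)) / 2) *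
        (linkB d q' (b * m') (j' + c) (b * (m' + a : ℕ)) j').eval x) := by
    intro x hx
    have e := h x hx
    rw [linkDen_eq _ _ _ _ _ _ (hpos x hx), linkDen_eq _ _ _ _ _ _ (hpos x hx)] at e
    have hx0 : x ≠ 0 := (lt_of_le_of_lt hα hx.1).ne'
    apply mul_left_cancel₀ (pow_ne_zero d hx0)
    rw [e]; ring
  obtain ⟨hκ, hs, hB⟩ := prop_data hαβ (by linarith) hβ
    (linkB_one_ne_zero d q (μ0 m) (μa m) (hcj j) j)
    (linkB_one_ne_zero d q' (μ0 m') (μa m') (hcj j') j') h2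
  have hm : m = m' := by
    have h3 : b * (2 * m + a) = b * (2 * m' + a) := by push_cast at hs; linarith
    have h4 := mul_left_cancel₀ hb.ne' h3
    have h5 : (m : ℝ) = m' := by linarith
    exact_mod_cast h5
  have hdeg : 2 * (j + c) + q + (2 * j + q) = 2 * (j' + c) + q' + (2 * j' + q') := by
    have d1 := linkB_natDegree d q (μ0 m) (μa m) (hcj j) j
    have d2 := linkB_natDegree d q' (μ0 m') (μa m') (hcj j') j'
    have d3 := congrArg natDegree hB
    rw [natDegree_C_mul hκ] at d3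
    omega
  have hqq : q = q' := by
    rcases hq with hq | hq
    · omega
    · obtain ⟨T, hT, hT0⟩ := linkB_trail d q (b * m) (j + c) (b * (m + a : ℕ)) j
      obtain ⟨T', hT', hT0'⟩ := linkB_trail d q' (b * m') (j' + c) (b * (m' + a : ℕ)) j'
      have e : X ^ (2 * q) * T = C κ * (X ^ (2 * q') * T') := by
        rw [← hT, ← hT', hB]; ring
      have p1 : (0 : ℝ) < q := by exact_mod_cast hq.1
      have p2 : (0 : ℝ) < q' := by exact_mod_cast hq.2
      rcases lt_trichotomy q q' with hlt | heq | hgt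
      · exfalso
        obtain ⟨k, rfl⟩ := Nat.exists_eq_add_of_lt hlt
        have e2 : X ^ (2 * q) * T = X ^ (2 * q) * (C κ * (X ^ (2 * (k + 1)) * T')) := by
          rw [e]; ring
        have e3 := mul_left_cancel₀ (pow_ne_zero _ X_ne_zero) e2
        have e4 := congrArg (fun p : ℝ[X] => p.eval 0) e3
        simp only [eval_mul, eval_pow, eval_X, eval_C, hT0] at e4
        rw [zero_pow (by omega)] at e4
        simp only [zero_mul, mul_zero] at e4
        have := pow_pos p1 2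
        linarith
      · exact heq
      · exfalso
        obtain ⟨k, rfl⟩ := Nat.exists_eq_add_of_lt hgt
        have e2 : X ^ (2 * q') * (X ^ (2 * (k + 1)) * T) = X ^ (2 * q') * (C κ * T') := by
          have : X ^ (2 * q') * (X ^ (2 * (k + 1)) * T) = X ^ (2 * (q' + k + 1)) * T := by ring
          rw [this, e]; ring
        have e3 := mul_left_cancel₀ (pow_ne_zero _ X_ne_zero) e2
        have e4 := congrArg (fun p : ℝ[X] => p.eval 0) e3
        simp only [eval_mul, eval_pow, eval_X, eval_C, hT0'] at e4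
        rw [zero_pow (by omega)] at e4
        simp only [zero_mul] at e4
        have := mul_ne_zero hκ (pow_pos p2 2).ne'
        exact this e4.symm
  exact ⟨hqq, hm, by omega⟩

/-- a link density is not identically zero on any interval. -/
theorem linkDen_ne_zero (d q : ℕ) {μ μ' : ℝ} (hμ : 0 ≤ μ) (hμ' : 0 < μ') {j : ℕ} (hj : 1 ≤ j)
    (j' : ℕ) {α β : ℝ} (hαβ : α < β) (hα : 0 ≤ α) (hβ : β ≤ 1) :
    ∃ x ∈ Ioo α β, linkDen d q μ j μ' j' x ≠ 0 := by
  by_contra hcon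
  push Not at hcon
  have hpos : ∀ x ∈ Ioo α β, 0 < 1 - x ^ 2 := by
    intro x hx
    have h1 := hx.1
    have h2 := hx.2
    nlinarith
  apply linkB_one_ne_zero d q hμ hμ' hj j'
  have : linkB d q μ j μ' j' = 0 := by
    apply eq_zero_of_infinite_isRoot
    apply (Ioo_infinite hαβ).mono
    intro x hx
    have e := hcon x hx
    rw [linkDen_eq _ _ _ _ _ _ (hpos x hx)] at e
    have hx0 : x ≠ 0 := (lt_of_le_of_lt hα hx.1).ne'
    have e2 := (mul_eq_zero.mp e).resolve_left (pow_ne_zero d hx0)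
    exact (mul_eq_zero.mp e2).resolve_left (Real.rpow_pos_of_pos (hpos x hx) _).ne'
  rw [this, eval_zero]

theorem linkDenP_ne_zero (d q : ℕ) {μ μ' : ℝ} (hμ : 0 < μ) (hμ' : 0 < μ') (j j' : ℕ)
    {α β : ℝ} (hαβ : α < β) (hα : 0 ≤ α) (hβ : β ≤ 1) :
    ∃ x ∈ Ioo α β, linkDenP d q μ j μ' j' x ≠ 0 := by
  by_contra hcon
  push Not at hcon
  have hpos : ∀ x ∈ Ioo α β, 0 < 1 - x ^ 2 := by
    intro x hx
    have h1 := hx.1
    have h2 := hx.2
    nlinarith
  apply linkBP_one_ne_zero d q hμ hμ' j j'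
  have : linkBP d q μ j μ' j' = 0 := by
    apply eq_zero_of_infinite_isRoot
    apply (Ioo_infinite hαβ).mono
    intro x hx
    have e := hcon x hx
    rw [linkDenP_eq _ _ _ _ _ _ (hpos x hx)] at e
    have hx0 : x ≠ 0 := (lt_of_le_of_lt hα hx.1).ne'
    have e2 := (mul_eq_zero.mp e).resolve_left (pow_ne_zero d hx0)
    exact (mul_eq_zero.mp e2).resolve_left (Real.rpow_pos_of_pos (hpos x hx) _).ne'
  rw [this, eval_zero]

theorem Rj_continuousOn (d q : ℕ) (μ : ℝ) (j : ℕ) : ContinuousOn (Rj d q μ j) (Ioo (-1) 1) := by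
  intro x hx
  have h : 0 < 1 - x ^ 2 := by
    have h1 := hx.1
    have h2 := hx.2
    nlinarith
  exact (Rj_hasDerivAt d q μ j h).continuousAt.continuousWithinAt

theorem dRj_continuousOn (d q : ℕ) (μ : ℝ) (j : ℕ) :
    ContinuousOn (dRj d q μ j) (Ioo (-1) 1) := by
  have hpos : ∀ x ∈ Ioo (-1 : ℝ) 1, (1 : ℝ) - x ^ 2 ≠ 0 := by
    intro x hx
    have h1 := hx.1
    have h2 := hx.2
    have : 0 < 1 - x ^ 2 := by nlinarith
    exact this.ne'
  unfold dRj
  apply ContinuousOn.mul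
  · intro x hx
    exact ((rpow_analytic (μ / 2) (lt_of_le_of_ne (by
      have h1 := hx.1
      have h2 := hx.2
      nlinarith) (hpos x hx).symm)).continuousAt).continuousWithinAt
  · apply ContinuousOn.sub (derivative (jQ d q μ j)).continuous.continuousOn
    apply ContinuousOn.mul _ (jQ d q μ j).continuous.continuousOn
    exact ContinuousOn.div (by fun_prop) (by fun_prop) hpos

theorem linkDen_continuousOn (d q : ℕ) (μ : ℝ) (j : ℕ) (μ' : ℝ) (j' : ℕ) :
    ContinuousOn (linkDen d q μ j μ' j') (Ioo (-1) 1) := by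
  have hpos : ∀ x ∈ Ioo (-1 : ℝ) 1, (1 : ℝ) - x ^ 2 ≠ 0 := by
    intro x hx
    have h1 := hx.1
    have h2 := hx.2
    have : 0 < 1 - x ^ 2 := by nlinarith
    exact this.ne'
  unfold linkDen
  exact ((continuous_pow d).continuousOn).mul
    ((ContinuousOn.mul (by fun_prop) ((dRj_continuousOn d q μ j).mul
      (dRj_continuousOn d q μ' j'))).sub
      ((ContinuousOn.div (by fun_prop) (by fun_prop) hpos).mul
        ((Rj_continuousOn d q μ j).mul (Rj_continuousOn d q μ' j'))))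

theorem linkDenP_continuousOn (d q : ℕ) (μ : ℝ) (j : ℕ) (μ' : ℝ) (j' : ℕ) :
    ContinuousOn (linkDenP d q μ j μ' j') (Ioo (-1) 1) := by
  have hpos : ∀ x ∈ Ioo (-1 : ℝ) 1, (1 : ℝ) - x ^ 2 ≠ 0 := by
    intro x hx
    have h1 := hx.1
    have h2 := hx.2
    have : 0 < 1 - x ^ 2 := by nlinarith
    exact this.ne'
  unfold linkDenP
  exact ((continuous_pow d).continuousOn).mul
    ((ContinuousOn.mul (by fun_prop) ((dRj_continuousOn d q μ j).mul
      (dRj_continuousOn d q μ' j'))).add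
      ((ContinuousOn.div (by fun_prop) (by fun_prop) hpos).mul
        ((Rj_continuousOn d q μ j).mul (Rj_continuousOn d q μ' j'))))

end Crest.Agent.R202
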