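import Crest.Agent.R202.SpFam
import Crest.Agent.R202.Model2
import Crest.Agent.R202.SpinLink
import Crest.Agent.R202.CluForm

/-! Row 202, PART C4 (helper58): concrete definitions for the instantiation of the abstract
spindle family (72's `SF.SpindleFamily`): test functions `TF`, perturbations `Gf`, profiles `prof`,
normalised eigenfunctions `psiN`, coupling functionals `cplA`, `cplB`, forms `aform`. -/

set_option autoImplicit false

open MeasureTheory Set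
open scoped ContDiff
open Crest.Agent.R202.Mod Crest.Agent.R202.Lab

noncomputable section

namespace Crest.Agent.R202.Clu

/-- test functions on `[Xa, Xb]` -/
def TF (Xa Xb : ℝ) : Submodule ℝ (ℝ → ℝ) where
  carrier := {η | ContDiff ℝ ∞ η ∧ ∀ x, x ∉ Icc Xa Xb → η x = 0}
  zero_mem' := ⟨contDiff_const, fun _ _ => rfl⟩
  add_mem' := fun {f g} hf hg => ⟨hf.1.add hg.1, fun x hx => by
    rw [Pi.add_apply, hf.2 x hx, hg.2 x hx, add_zero]⟩
  smul_mem' := fun c {f} hf => ⟨contDiff_const.smul hf.1, fun x hx => by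
    rw [Pi.smul_apply, hf.2 x hx, smul_zero]⟩

theorem TF.contDiff {Xa Xb : ℝ} (η : TF Xa Xb) : ContDiff ℝ ∞ (η : ℝ → ℝ) := η.2.1

theorem TF.continuous {Xa Xb : ℝ} (η : TF Xa Xb) : Continuous (η : ℝ → ℝ) := η.2.1.continuous

theorem TF.eq_zero {Xa Xb : ℝ} (η : TF Xa Xb) {x : ℝ} (hx : x ∉ Icc Xa Xb) :
    (η : ℝ → ℝ) x = 0 := η.2.2 x hx

/-- the perturbation `∑ f, η_f(x) cos (f φ)` -/
def Gf {Xa Xb : ℝ} (G : ℕ →₀ TF Xa Xb) (z : ℝ × ℝ) : ℝ :=
  G.sum fun f η => (η : ℝ → ℝ) z.1 * Real.cos (f * z.2)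

/-- the profile `1 + (b-1) h(x) + G(x,φ)` -/
def prof {Xa Xb : ℝ} (h : ℝ → ℝ) (b : ℝ) (G : ℕ →₀ TF Xa Xb) (z : ℝ × ℝ) : ℝ :=
  1 + (b - 1) * h z.1 + Gf G z

/-- norm square of the spindle function with label `p` (the same for both parities) -/
def nsq (d q : ℕ) (b : ℝ) (p : ℕ × ℕ) : ℝ :=
  (if p.1 = 0 then Real.pi else Real.pi / 2) * nj1 d q (b * p.1) p.2

/-- normalised spindle function -/
def psiN (d q par : ℕ) (b : ℝ) (p : ℕ × ℕ) : VS q par :=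
  (Real.sqrt (nsq d q b p))⁻¹ • Mod.psi d q par b p.1 p.2

open Classical in
/-- integration against the density `D` on `(0,1)` as a linear functional on `TF Xa Xb` (zero if
some of the integrals do not exist) -/
def intFun (Xa Xb : ℝ) (D : ℝ → ℝ) : TF Xa Xb →ₗ[ℝ] ℝ :=
  if h : ∀ η : TF Xa Xb, IntegrableOn (fun x => (η : ℝ → ℝ) x * D x) (Ioo 0 1) then
    { toFun := fun η => ∫ x in Ioo (0:ℝ) 1, (η : ℝ → ℝ) x * D x
      map_add' := fun η ξ => by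
        rw [← integral_add (h η) (h ξ)]
        congr 1; funext x
        simp only [Submodule.coe_add, Pi.add_apply]; ring
      map_smul' := fun c η => by
        rw [RingHom.id_apply, smul_eq_mul, ← integral_const_mul]
        congr 1; funext x
        simp only [Submodule.coe_smul, Pi.smul_apply, smul_eq_mul]; ring }
  else 0

theorem integrableOn_TF {Xa Xb : ℝ} (ha : 0 < Xa) (hb : Xb < 1) {D : ℝ → ℝ}
    (hD : ContinuousOn D (Ioo 0 1)) (η : TF Xa Xb) :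
    IntegrableOn (fun x => (η : ℝ → ℝ) x * D x) (Ioo 0 1) := by
  have hI : Icc Xa Xb ⊆ Ioo (0:ℝ) 1 := fun x hx => ⟨ha.trans_le hx.1, hx.2.trans_lt hb⟩
  have h1 : IntegrableOn (fun x => (η : ℝ → ℝ) x * D x) (Icc Xa Xb) :=
    (((TF.continuous η).continuousOn).mul (hD.mono hI)).integrableOn_compact isCompact_Icc
  refine (integrableOn_iff_integrable_of_support_subset (fun x hx => ?_)).1 h1 |>.integrableOn
  by_contra hx'
  exact hx (by simp only [TF.eq_zero η hx', zero_mul])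

theorem intFun_apply {Xa Xb : ℝ} (ha : 0 < Xa) (hb : Xb < 1) {D : ℝ → ℝ}
    (hD : ContinuousOn D (Ioo 0 1)) (η : TF Xa Xb) :
    intFun Xa Xb D η = ∫ x in Ioo (0:ℝ) 1, (η : ℝ → ℝ) x * D x := by
  unfold intFun
  rw [dif_pos (integrableOn_TF ha hb hD)]
  rfl

variable {Xa Xb : ℝ}

/-- coupling functional, difference type `f = |m - m'|` -/
def cplA (Xa Xb : ℝ) (d q : ℕ) (b : ℝ) (p p' : ℕ × ℕ) : TF Xa Xb →ₗ[ℝ] ℝ :=
  ((Real.sqrt (nsq d q b p) * Real.sqrt (nsq d q b p'))⁻¹ * (Real.pi / 4)) •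
    intFun Xa Xb (linkDen d q (b * p.1) p.2 (b * p'.1) p'.2)

/-- coupling functional, sum type `f = m + m'` -/
def cplB (Xa Xb : ℝ) (d q : ℕ) (b : ℝ) (p p' : ℕ × ℕ) : TF Xa Xb →ₗ[ℝ] ℝ :=
  ((Real.sqrt (nsq d q b p) * Real.sqrt (nsq d q b p'))⁻¹ * (Real.pi / 4)) •
    intFun Xa Xb (linkDenP d q (b * p.1) p.2 (b * p'.1) p'.2)

theorem linkDen_cont01 (d q : ℕ) (μ : ℝ) (j : ℕ) (μ' : ℝ) (j' : ℕ) :
    ContinuousOn (linkDen d q μ j μ' j') (Ioo 0 1) :=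
  (linkDen_continuousOn d q μ j μ' j').mono (Ioo_subset_Ioo (by norm_num) le_rfl)

theorem linkDenP_cont01 (d q : ℕ) (μ : ℝ) (j : ℕ) (μ' : ℝ) (j' : ℕ) :
    ContinuousOn (linkDenP d q μ j μ' j') (Ioo 0 1) :=
  (linkDenP_continuousOn d q μ j μ' j').mono (Ioo_subset_Ioo (by norm_num) le_rfl)

theorem cplA_apply (ha : 0 < Xa) (hb : Xb < 1) (d q : ℕ) (b : ℝ) (p p' : ℕ × ℕ)
    (η : TF Xa Xb) : cplA Xa Xb d q b p p' η =
      (Real.sqrt (nsq d q b p) * Real.sqrt (nsq d q b p'))⁻¹ * (Real.pi / 4) *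
        ∫ x in Ioo (0:ℝ) 1, (η : ℝ → ℝ) x * linkDen d q (b * p.1) p.2 (b * p'.1) p'.2 x := by
  unfold cplA
  rw [LinearMap.smul_apply, intFun_apply ha hb (linkDen_cont01 _ _ _ _ _ _), smul_eq_mul]

theorem cplB_apply (ha : 0 < Xa) (hb : Xb < 1) (d q : ℕ) (b : ℝ) (p p' : ℕ × ℕ)
    (η : TF Xa Xb) : cplB Xa Xb d q b p p' η =
      (Real.sqrt (nsq d q b p) * Real.sqrt (nsq d q b p'))⁻¹ * (Real.pi / 4) *
        ∫ x in Ioo (0:ℝ) 1, (η : ℝ → ℝ) x * linkDenP d q (b * p.1) p.2 (b * p'.1) p'.2 x := by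
  unfold cplB
  rw [LinearMap.smul_apply, intFun_apply ha hb (linkDenP_cont01 _ _ _ _ _ _), smul_eq_mul]

theorem linkDen_symm (d q : ℕ) (μ : ℝ) (j : ℕ) (μ' : ℝ) (j' : ℕ) :
    linkDen d q μ j μ' j' = linkDen d q μ' j' μ j := by
  funext x; unfold linkDen; ring

theorem linkDenP_symm (d q : ℕ) (μ : ℝ) (j : ℕ) (μ' : ℝ) (j' : ℕ) :
    linkDenP d q μ j μ' j' = linkDenP d q μ' j' μ j := by
  funext x; unfold linkDenP; ring

/-- field `A_symm` -/
theorem cplA_symm (d q : ℕ) (b : ℝ) (p p' : ℕ × ℕ) (η : TF Xa Xb) :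
    cplA Xa Xb d q b p p' η = cplA Xa Xb d q b p' p η := by
  unfold cplA
  rw [linkDen_symm, mul_comm (Real.sqrt (nsq d q b p))]

/-- field `B_symm` -/
theorem cplB_symm (d q : ℕ) (b : ℝ) (p p' : ℕ × ℕ) (η : TF Xa Xb) :
    cplB Xa Xb d q b p p' η = cplB Xa Xb d q b p' p η := by
  unfold cplB
  rw [linkDenP_symm, mul_comm (Real.sqrt (nsq d q b p))]

/-- field `B_eq_A` -/
theorem cplB_eq_cplA (d q : ℕ) (b : ℝ) (p p' : ℕ × ℕ) (hp : p.1 = 0) (η : TF Xa Xb) :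
    cplB Xa Xb d q b p p' η = cplA Xa Xb d q b p p' η := by
  unfold cplA cplB
  have : linkDenP d q (b * p.1) p.2 (b * p'.1) p'.2 = linkDen d q (b * p.1) p.2 (b * p'.1) p'.2 := by
    funext x; unfold linkDen linkDenP
    rw [hp]; simp
  rw [this]

theorem nsq_pos (d q : ℕ) {b : ℝ} (hb : 0 ≤ b) (p : ℕ × ℕ) : 0 < nsq d q b p := by
  unfold nsq
  have h1 := nj1_pos d q (μ := b * p.1) (by positivity) p.2
  split_ifs <;> positivity

open Classical in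
/-- the Dirichlet form of the sector `σ = (q, par)` at the datum `(b, P)` (zero if `P` is not
admissible) -/
def aform (d : ℕ) (σ : ℕ × ℕ) (b : ℝ) (P : ℝ × ℝ → ℝ) : LinearMap.BilinForm ℝ (VS σ.1 σ.2) :=
  if h : ∃ K : ℝ, Adm d K P then Q σ.1 σ.2 h.choose_spec b else 0

theorem aform_eq {d : ℕ} (σ : ℕ × ℕ) (b : ℝ) {P : ℝ × ℝ → ℝ} {K : ℝ} (hP : Adm d K P) :
    aform d σ b P = Q σ.1 σ.2 hP b := by
  unfold aform
  rw [dif_pos ⟨K, hP⟩]
  rfl

theorem aform_apply {d : ℕ} (σ : ℕ × ℕ) (b : ℝ) {P : ℝ × ℝ → ℝ} {K : ℝ} (hP : Adm d K P)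
    (u v : VS σ.1 σ.2) : aform d σ b P u v = fW d σ.1 σ.2 (WQ b P) u v := by
  rw [aform_eq σ b hP]; rfl

theorem aform_symm (d : ℕ) (σ : ℕ × ℕ) (b : ℝ) (P : ℝ × ℝ → ℝ) (u v : VS σ.1 σ.2) :
    aform d σ b P u v = aform d σ b P v u := by
  by_cases h : ∃ K : ℝ, Adm d K P
  · obtain ⟨K, hP⟩ := h
    rw [aform_apply σ b hP, aform_apply σ b hP, fW_symm]
  · unfold aform
    rw [dif_neg h]; rfl

end Crest.Agent.R202.Clu
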