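import Crest.Agent.R202.Fou5
import Crest.Agent.R202.CluDefs

/-! Row 202, PART C (helper206): definiteness of `g`, the constant function of the sector
`(0,0)`, comparison of the energy norm with the reference form. -/

set_option autoImplicit false

open MeasureTheory Set Filter Topology
open Crest.Agent.R202

noncomputable section

namespace Crest.Agent.R202.Mod

variable {d q par : ℕ}

/-! ### (DEF) definiteness -/

/-- an element whose radial functions vanish on `(0,1)` is zero -/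
theorem eq_zero_of_rad (v : VS q par)
    (h : ∀ k : ℕ, ∀ x ∈ Ioo (0 : ℝ) 1, (v : ℕ →₀ (ℝ → ℝ)) k x = 0) : v = 0 := by
  apply Subtype.ext
  apply Finsupp.ext
  intro k
  funext x
  show (v : ℕ →₀ (ℝ → ℝ)) k x = 0
  have hR := isRad_coe v k
  rcases le_or_gt 1 (x ^ 2) with hx | hx
  · exact hR.off x hx
  rcases lt_trichotomy x 0 with h0 | h0 | h0
  · have h2 : (v : ℕ →₀ (ℝ → ℝ)) k (-x) = 0 := h k (-x) ⟨by linarith, by nlinarith⟩
    have h3 := hR.par (-x)
    rw [neg_neg, h2, mul_zero] at h3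
    exact h3
  · subst h0
    have hc : ContinuousAt ((v : ℕ →₀ (ℝ → ℝ)) k) 0 := (hR.diff 0 (by norm_num)).continuousAt
    have h2 : Tendsto ((v : ℕ →₀ (ℝ → ℝ)) k) (𝓝[>] 0) (𝓝 ((v : ℕ →₀ (ℝ → ℝ)) k 0)) :=
      hc.tendsto.mono_left nhdsWithin_le_nhds
    have h3 : (v : ℕ →₀ (ℝ → ℝ)) k =ᶠ[𝓝[>] 0] fun _ => 0 := by
      filter_upwards [Ioo_mem_nhdsGT (show (0:ℝ) < 1 by norm_num)] with y hy
      exact h k y hy
    exact tendsto_nhds_unique (h2.congr' h3) tendsto_const_nhds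
  · exact h k x ⟨h0, by nlinarith⟩

/-- one radial integral is nonnegative, and positive if the function does not vanish -/
theorem rad_integral_pos {m : ℕ} (d : ℕ) {R : ℝ → ℝ} (h : IsRad q m R) {x : ℝ}
    (hx : x ∈ Ioo (0 : ℝ) 1) (hR : R x ≠ 0) :
    0 < ∫ x in Ioo (0 : ℝ) 1, x ^ d * (R x * R x) := by
  obtain ⟨C, hC⟩ := isRad_cls h 1
  have hc : ContinuousOn (fun x => x ^ d * (R x * R x)) (Ioo (0 : ℝ) 1) :=
    (continuous_pow d).continuousOn.mul (hC.contS.mul hC.contS)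
  have hint : IntegrableOn (fun x => x ^ d * (R x * R x)) (Ioo (0 : ℝ) 1) :=
    Fou.ip_int hC hC
  have hnn : 0 ≤ᵐ[volume.restrict (Ioo (0 : ℝ) 1)] fun x => x ^ d * (R x * R x) := by
    filter_upwards [ae_restrict_mem measurableSet_Ioo] with y hy
    have := hy.1
    have h2 := mul_self_nonneg (R y)
    simp only [Pi.zero_apply]
    positivity
  rw [setIntegral_pos_iff_support_of_nonneg_ae hnn hint]
  have hopen : IsOpen (Ioo (0 : ℝ) 1 ∩ (fun x => x ^ d * (R x * R x)) ⁻¹' {0}ᶜ) :=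
    hc.isOpen_inter_preimage isOpen_Ioo isOpen_compl_singleton
  have hne : (Ioo (0 : ℝ) 1 ∩ (fun x => x ^ d * (R x * R x)) ⁻¹' {0}ᶜ).Nonempty := by
    refine ⟨x, hx, ?_⟩
    have := hx.1
    simp only [mem_preimage, mem_compl_iff, mem_singleton_iff]
    positivity
  have := hopen.measure_pos volume hne
  rw [inter_comm]
  exact this

theorem rad_integral_nonneg (d : ℕ) (R : ℝ → ℝ) :
    0 ≤ ∫ x in Ioo (0 : ℝ) 1, x ^ d * (R x * R x) := by
  refine setIntegral_nonneg measurableSet_Ioo fun x hx => ?_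
  have := hx.1
  have h2 := mul_self_nonneg (R x)
  positivity

/-- **`g` is positive definite on the core space** -/
theorem g_pos {v : VS q par} (hv : v ≠ 0) : 0 < g d q par v v := by
  classical
  rcases (g_nonneg (d := d) v).eq_or_lt with h0 | h0
  · exfalso
    apply hv
    refine eq_zero_of_rad v fun k x hx => ?_
    by_contra hne
    have hk : k ∈ (v : ℕ →₀ (ℝ → ℝ)).support := by
      rw [Finsupp.mem_support_iff]
      intro hc
      rw [hc] at hne
      exact hne rfl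
    have h1 := g_eq_sum d v v
    rw [← h0] at h1
    have h2 := (Finset.sum_eq_zero_iff_of_nonneg (fun m _ =>
      mul_nonneg (Fou.ntrg_pos m).le (rad_integral_nonneg d ((v : ℕ →₀ (ℝ → ℝ)) m)))).1 h1.symm k hk
    have h3 := mul_pos (Fou.ntrg_pos k) (rad_integral_pos d (isRad_coe v k) hx hne)
    exact h3.ne' h2
  · exact h0

theorem g_eq_zero_iff (v : VS q par) : g d q par v v = 0 ↔ v = 0 := by
  constructor
  · intro h
    by_contra hv
    exact (g_pos (d := d) hv).ne' h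
  · rintro rfl
    simp

/-! ### (ONE) the constant function -/

/-- the constant function, an element of the sector `(0,0)` -/
def one : VS 0 0 := pol 0 0 0 0

theorem coe_one : (one : ℕ →₀ (ℝ → ℝ)) = Finsupp.single 0 (trunc fun _ => 1) := by
  unfold one
  rw [coe_pol 0 (le_refl 0) 0]
  congr 1
  funext x
  simp [trunc]

theorem one_mem_Pol : one ∈ Pol 0 0 := Submodule.subset_span ⟨0, 0, le_rfl, rfl⟩

theorem one_mem_PolD (D : ℕ) : one ∈ PolD 0 0 D :=
  Submodule.subset_span ⟨0, 0, le_rfl, by omega, rfl⟩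

theorem comp_one_zero (d : ℕ) {z : ℝ × ℝ} (hz : z ∈ Om) : comp d 0 0 one 0 z = 1 := by
  rw [coe_one, comp_singleF]
  have hz2 := sq_lt_one_of_mem hz.1
  simp only [rcomp, acomp_zero]
  rw [trunc_of_lt hz2]
  simp [trig]

theorem comp_one_ne_zero (d : ℕ) {i : Fin 4} (hi : i ≠ 0) {z : ℝ × ℝ} (hz : z ∈ Om) :
    comp d 0 0 one i z = 0 := by
  rw [coe_one, comp_singleF]
  have hz2 := sq_lt_one_of_mem hz.1
  have hE : E0 d 0 = 0 := by simp [E0]
  fin_cases i
  · exact absurd rfl hi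
  · simp only [rcomp, Fin.mk_one]
    have : deriv (trunc fun _ => (1 : ℝ)) z.1 = 0 := by
      rw [(trunc_eventuallyEq hz2).deriv_eq]
      exact deriv_const _ _
    rw [this]; ring
  · simp only [acomp, Fin.reduceFinMk, if_true]
    simp [trigD]
  · simp only [rcomp, Fin.reduceFinMk]
    rw [hE]; simp

theorem ev_one {z : ℝ × ℝ} (hz : z ∈ Om) : ev 0 (one : ℕ →₀ (ℝ → ℝ)) z = 1 :=
  comp_one_zero 0 hz

theorem one_ne_zero' : one ≠ 0 := by
  intro h
  have h1 := comp_one_zero 0 (z := (1 / 2, 1)) ⟨⟨by norm_num, by norm_num⟩,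
    ⟨by norm_num, by have := Real.pi_gt_three; simp only; linarith⟩⟩
  rw [h] at h1
  simp [comp] at h1

/-- the energy of the constant function vanishes -/
theorem Q_one {K : ℝ} {P : ℝ × ℝ → ℝ} (hP : Adm d K P) (b : ℝ) (v : VS 0 0) :
    Q 0 0 hP b one v = 0 := by
  rw [Q_apply]
  have : (∫ z, (P z * comp d 0 0 one 1 z * comp d 0 0 v 1 z
      + b ^ 2 / P z * comp d 0 0 one 2 z * comp d 0 0 v 2 z
      + comp d 0 0 one 3 z * comp d 0 0 v 3 z) ∂(mu d)) = ∫ z, (0 : ℝ) ∂(mu d) := by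
    refine integral_congr_ae ?_
    filter_upwards [ae_mem_Om d] with z hz
    rw [comp_one_ne_zero d (by decide) hz, comp_one_ne_zero d (by decide) hz,
      comp_one_ne_zero d (by decide) hz]
    ring
  rw [this, integral_zero]

theorem Q_one_right {K : ℝ} {P : ℝ × ℝ → ℝ} (hP : Adm d K P) (b : ℝ) (v : VS 0 0) :
    Q 0 0 hP b v one = 0 := by rw [Q_symm, Q_one]

theorem g_one (d : ℕ) (v : VS 0 0) : g d 0 0 one v = ∫ z, comp d 0 0 v 0 z ∂(mu d) := by
  rw [g_apply]
  refine integral_congr_ae ?_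
  filter_upwards [ae_mem_Om d] with z hz
  rw [comp_one_zero d hz, one_mul]

theorem g_one_pos (d : ℕ) : 0 < g d 0 0 one one := g_pos one_ne_zero'

theorem psi_eq_one (d : ℕ) {b : ℝ} (hb : 1 ≤ b) : psi d 0 0 b 0 0 = one := by
  apply Subtype.ext
  rw [coe_psi d 0 hb (le_refl 0), coe_one]
  congr 1
  funext x
  simp only [trunc]
  split_ifs
  · simp only [Rj, Nat.cast_zero, zero_mul, zero_div, Real.rpow_zero, one_mul]
    rw [Tri.jQ_eval_sum]
    simp [jc_zero]
  · rfl

/-- the first spindle function of the sector `(0,0)` is a multiple of the constant -/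
theorem psiN_eq_one (d : ℕ) {b : ℝ} (hb : 1 ≤ b) :
    Clu.psiN d 0 0 b (0, 0) = (Real.sqrt (Clu.nsq d 0 b (0, 0)))⁻¹ • one := by
  unfold Clu.psiN
  rw [psi_eq_one d hb]

theorem nsq_one_pos (d : ℕ) {b : ℝ} (hb : 1 ≤ b) :
    0 < (Real.sqrt (Clu.nsq d 0 b (0, 0)))⁻¹ :=
  inv_pos.2 (Real.sqrt_pos.2 (Clu.nsq_pos d 0 (by linarith) _))

/-! ### (CLOSE) comparison with the reference form -/

theorem href_self_add (v : VS q par) :
    href d q par v v = Q q par (adm_one d) 1 v v + g d q par v v := rfl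

theorem href_nonneg' (v : VS q par) : 0 ≤ href d q par v v := by
  rw [href_self_add]
  exact add_nonneg (Q_nonneg _ _ v) (g_nonneg v)

theorem one_le_mul_sq {K β : ℝ} (hK : 1 ≤ K) (hβ : 1 ≤ β) : 1 ≤ K * β ^ 2 := by
  have : 1 ≤ β ^ 2 := by nlinarith
  nlinarith

/-- the reference form is bounded by the energy norm of an admissible metric -/
theorem href_le_adm {K : ℝ} {P : ℝ × ℝ → ℝ} (hP : Adm d K P) {b β : ℝ} (hb : 1 ≤ b)
    (hβ : 1 ≤ β) (v : VS q par) :
    href d q par v v ≤ K * β ^ 2 * (Q q par hP b v v + g d q par v v) := by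
  have h1 := one_le_mul_sq hP.K_ge hβ
  have h2 := Q_ge hP (b1 := 1) hb zero_le_one hβ hβ v
  have hpos : 0 < K * β ^ 2 := by linarith
  rw [inv_mul_le_iff₀ hpos] at h2
  have h3 := g_nonneg (d := d) v
  rw [href_self_add]
  nlinarith

theorem adm_le_href {K : ℝ} {P : ℝ × ℝ → ℝ} (hP : Adm d K P) {b β : ℝ} (hb : 0 ≤ b)
    (hbβ : b ≤ β) (hβ : 1 ≤ β) (v : VS q par) :
    Q q par hP b v v ≤ K * β ^ 2 * href d q par v v := by
  have h1 := one_le_mul_sq hP.K_ge hβ
  have h2 := Q_le hP (b1 := 1) hb hbβ le_rfl hβ v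
  have h3 := g_nonneg (d := d) v
  rw [href_self_add]
  nlinarith

theorem adm_add_le_href {K : ℝ} {P : ℝ × ℝ → ℝ} (hP : Adm d K P) {b β : ℝ} (hb : 0 ≤ b)
    (hbβ : b ≤ β) (hβ : 1 ≤ β) (v : VS q par) :
    Q q par hP b v v + g d q par v v ≤ K * β ^ 2 * href d q par v v := by
  have h1 := one_le_mul_sq hP.K_ge hβ
  have h2 := Q_le hP (b1 := 1) hb hbβ le_rfl hβ v
  have h3 := g_nonneg (d := d) v
  rw [href_self_add]
  nlinarith

end Crest.Agent.R202.Mod
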