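import Crest.Agent.R202.InstLoop
import Crest.Agent.R202.LocSep
import Crest.Agent.R202.ModDef

/-!
# Row 202: local separation by sector polynomials along the loop of a gate (helper98)
-/

set_option autoImplicit false

open MeasureTheory Set Filter Module
open scoped Topology ContDiff
open Crest.Agent.R202.Mod Crest.Agent.R202.Cut Crest.Agent.R202.PL Crest.Agent.R202.Clu

noncomputable section

namespace Crest.Agent.R202.Inst

/-- density of the sector polynomials in the form norm -/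
def Dens : Prop := ∀ (d q par : ℕ) (v : VS q par) (ε : ℝ), 0 < ε →
  ∃ p ∈ Pol q par, href d q par (v - p) (v - p) < ε

theorem form_neg {V : Type*} [AddCommGroup V] [Module ℝ V] (h : Bil V) (v : V) :
    h (-v) (-v) = h v v := by simp

/-- a frame of a separating space -/
theorem frame_of_sep {V : Type*} [AddCommGroup V] [Module ℝ V] {g a : Bil V} {W : Submodule ℝ V}
    [FiniteDimensional ℝ W] {l : ℕ} (hl : finrank ℝ W = l) {A B : ℝ} (hW : Sep g a W A B) :
    ∃ f : Fin l → V, LocS.SepB ⊤ g a f A B ∧ ∀ i, f i ∈ W := by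
  set bs := finBasisOfFinrankEq ℝ W hl with hbs
  set f : Fin l → V := fun i => (bs i : V) with hf
  have hspan : Submodule.span ℝ (range f) = W := by
    have h1 : range f = W.subtype '' (range bs) := by
      rw [← range_comp]; rfl
    rw [h1, Submodule.span_image, bs.span_eq, Submodule.map_top, Submodule.range_subtype]
  have hli : LinearIndependent ℝ f :=
    bs.linearIndependent.map' W.subtype (Submodule.ker_subtype W)
  refine ⟨f, ⟨fun _ => Submodule.mem_top, hli, hW.lt, fun w hw => hW.le w (hspan ▸ hw), ?_⟩,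
    fun i => (bs i).2⟩
  intro v _ hv
  refine hW.ge v fun w hw => ?_
  rw [← hspan] at hw
  obtain ⟨x, rfl⟩ := LocS.mem_span_iff.1 hw
  rw [LocS.g_cmb]
  exact Finset.sum_eq_zero fun i _ => by rw [hv i, mul_zero]

theorem frame_of_open {V : Type*} [AddCommGroup V] [Module ℝ V] {g a : Bil V} {l : ℕ}
    (h : IsOpenCut g a l) : ∃ (f : Fin l → V) (A B : ℝ), LocS.SepB ⊤ g a f A B := by
  obtain ⟨W, A, B, hW, hl, hs⟩ := h
  obtain ⟨f, hf, -⟩ := frame_of_sep hl hs
  exact ⟨f, A, B, hf⟩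

/-- back to `Sep` -/
theorem sep_of_frame {V : Type*} [AddCommGroup V] [Module ℝ V] {g a : Bil V} {l : ℕ}
    {f : Fin l → V} {A B : ℝ} (h : LocS.SepB ⊤ g a f A B) :
    Sep g a (Submodule.span ℝ (range f)) A B :=
  ⟨h.lt, h.le, fun v hv => h.ge v Submodule.mem_top fun i =>
    hv _ (Submodule.subset_span ⟨i, rfl⟩)⟩

theorem sn_g (d q par : ℕ) : LocS.SN (V := VS q par) (g d q par) := ⟨g_symm, g_nonneg⟩

theorem sn_Q {d q par : ℕ} {K : ℝ} {P : ℝ × ℝ → ℝ} (hP : Adm d K P) (b : ℝ) :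
    LocS.SN (V := VS q par) (Q q par hP b) := ⟨Q_symm hP b, Q_nonneg hP b⟩

theorem sn_href (d q par : ℕ) : LocS.SN (V := VS q par) (href d q par) where
  symm u v := by
    unfold href
    rw [LinearMap.add_apply, LinearMap.add_apply, LinearMap.add_apply, LinearMap.add_apply,
      Q_symm, g_symm]
  nn v := by
    unfold href
    rw [LinearMap.add_apply, LinearMap.add_apply]
    exact add_nonneg (Q_nonneg _ _ _) (g_nonneg _)

theorem g_le_href (d q par : ℕ) (v : VS q par) : g d q par v v ≤ href d q par v v := by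
  unfold href
  rw [LinearMap.add_apply, LinearMap.add_apply]
  have := Q_nonneg (q := q) (par := par) (adm_one d) 1 v
  linarith

/-- from a separating frame at a point to local separation by fixed sector polynomials -/
theorem open_local {d : ℕ} {σ : ℕ × ℕ} {X : Type*} [TopologicalSpace X] {b : X → ℝ}
    {P : X → ℝ × ℝ → ℝ} {x0 : X} {β K : ℝ} (hβ : b x0 ∈ Icc 1 β) (hP0 : Adm d K (P x0))
    (hP : ∀ᶠ x in 𝓝 x0, Adm d K (P x))
    (hcont : ∀ δ > 0, ∀ᶠ x in 𝓝 x0, ∀ v : CT.VV σ,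
      |CT.QF d σ (b x) (P x) v v - CT.QF d σ (b x0) (P x0) v v| ≤ δ * href d σ.1 σ.2 v v)
    {l : ℕ} {f : Fin l → CT.VV σ} {A B : ℝ}
    (hW : LocS.SepB ⊤ (g d σ.1 σ.2) (aform d σ (b x0) (P x0)) f A B)
    (hD : ∀ i, ∀ ε : ℝ, 0 < ε → ∃ p ∈ Pol σ.1 σ.2, href d σ.1 σ.2 (f i - p) (f i - p) < ε)
    {A' B' : ℝ} (hA : A < A') (hAB : A' < B') (hB : B' < B) :
    ∃ p : Fin l → CT.VV σ, (∀ i, p i ∈ Pol σ.1 σ.2) ∧ LinearIndependent ℝ p ∧
      ∀ᶠ x in 𝓝 x0, Adm d K (P x) ∧
        LocS.SepB ⊤ (g d σ.1 σ.2) (aform d σ (b x) (P x)) p A' B' := by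
  have hβ1 : 1 ≤ β := hβ.1.trans hβ.2
  have hK : 1 ≤ K := hP0.K_ge
  have hM : 0 ≤ √(K * β ^ 2) := Real.sqrt_nonneg _
  have hKβ : 0 < K * β ^ 2 := by positivity
  have e0 : aform d σ (b x0) (P x0) = Q σ.1 σ.2 hP0 (b x0) := Clu.aform_eq σ _ hP0
  obtain ⟨p, hp, -, hev⟩ := LocS.SepB.local (R := ⊤) (sn_g d σ.1 σ.2) (sn_href d σ.1 σ.2)
    (g_le_href d σ.1 σ.2) (a := fun x => aform d σ (b x) (P x)) (π0 := x0)
    (by rw [e0]; exact sn_Q hP0 _) hM
    (fun v => by
      rw [Real.sq_sqrt hKβ.le, e0]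
      exact adm_le_href hP0 (by linarith [hβ.1]) hβ.2 hβ1 v)
    (c1 := (K * β ^ 2)⁻¹) (inv_pos.2 hKβ)
    (fun v => by
      rw [e0, inv_mul_le_iff₀ hKβ]
      exact href_le_adm hP0 hβ.1 hβ1 v)
    (fun δ hδ => by
      filter_upwards [hcont δ hδ, hP] with x hx hPx v
      have e1 : aform d σ (b x) (P x) v v = CT.QF d σ (b x) (P x) v v := aform_QF σ _ hPx v v
      have e2 : aform d σ (b x0) (P x0) v v = CT.QF d σ (b x0) (P x0) v v :=
        aform_QF σ _ hP0 v v
      show |aform d σ (b x) (P x) v v - aform d σ (b x0) (P x0) v v| ≤ _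
      rw [e1, e2]
      exact hx v)
    hW
    (fun w _ hw => by
      by_contra h
      exact absurd hw (g_pos h).ne')
    (P0 := (Pol σ.1 σ.2 : Set (CT.VV σ)))
    (fun i ε hε => by
      obtain ⟨q, hq, hq'⟩ := hD i ε hε
      refine ⟨q, hq, Submodule.mem_top, ?_⟩
      have e : q - f i = -(f i - q) := by abel
      have e2 := form_neg (V := VS σ.1 σ.2) (href d σ.1 σ.2) (f i - q)
      rw [e]
      exact e2.trans_lt hq')
    hA hAB hB one_pos
  have hself := hev.self_of_nhds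
  refine ⟨p, hp, hself.li, ?_⟩
  filter_upwards [hev, hP] with x hx hPx
  exact ⟨hPx, hx⟩

end Crest.Agent.R202.Inst
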