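import Mathlib

/-!
Row 202 (helper523), node SIGN-PATCH: the sign of a loop of forms with an open cut, as a product
of determinants over finitely many patches.  Purely algebraic cocycle identity + orientations.
-/

set_option autoImplicit false

open Set Filter Topology

noncomputable section

namespace Crest.Agent.R202.Sign

variable {V : Type*} [AddCommGroup V] [Module ℝ V] {l : ℕ}

/-- bilinear forms, curried -/
abbrev Bil (V : Type*) [AddCommGroup V] [Module ℝ V] := V →ₗ[ℝ] V →ₗ[ℝ] ℝ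

/-- the frame `f` separates the form `a` in the reduced space `R` -/
structure SepA (R : Submodule ℝ V) (g a : Bil V) (f : Fin l → V) (A B : ℝ) : Prop where
  red : ∀ i, f i ∈ R
  li : LinearIndependent ℝ f
  lt : A < B
  le : ∀ w ∈ Submodule.span ℝ (range f), a w w ≤ A * g w w
  ge : ∀ v ∈ R, (∀ i, g v (f i) = 0) → B * g v v ≤ a v v

/-- ambient hypotheses -/
structure Amb (R : Submodule ℝ V) (g : Bil V) : Prop where
  symm : ∀ u v, g u v = g v u
  pos : ∀ v ∈ R, v ≠ 0 → 0 < g v v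

/-- determinant of the mutual Gram matrix -/
def Dt (g : Bil V) (f f' : Fin l → V) : ℝ := (Matrix.of fun a b => g (f a) (f' b)).det

/-- linear combination -/
def lc (f : Fin l → V) (x : Fin l → ℝ) : V := ∑ i, x i • f i

lemma lc_mem_span (f : Fin l → V) (x : Fin l → ℝ) : lc f x ∈ Submodule.span ℝ (range f) :=
  Submodule.sum_mem _ fun i _ => Submodule.smul_mem _ _ (Submodule.subset_span ⟨i, rfl⟩)

lemma lc_mem {R : Submodule ℝ V} {f : Fin l → V} (hf : ∀ i, f i ∈ R) (x : Fin l → ℝ) :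
    lc f x ∈ R := Submodule.sum_mem _ fun i _ => Submodule.smul_mem _ _ (hf i)

lemma lc_ne {f : Fin l → V} (hf : LinearIndependent ℝ f) {x : Fin l → ℝ} (hx : x ≠ 0) :
    lc f x ≠ 0 := by
  intro h
  apply hx
  funext i
  exact Fintype.linearIndependent_iff.1 hf x h i

lemma q_lc_right (q : Bil V) (u : V) (f : Fin l → V) (x : Fin l → ℝ) :
    q u (lc f x) = ∑ i, q u (f i) * x i := by
  simp only [lc, map_sum, map_smul, smul_eq_mul]
  exact Finset.sum_congr rfl fun i _ => mul_comm _ _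

lemma q_lc_left (q : Bil V) (u : V) (f : Fin l → V) (x : Fin l → ℝ) :
    q (lc f x) u = ∑ i, x i * q (f i) u := by
  simp only [lc, map_sum, map_smul, LinearMap.sum_apply, LinearMap.smul_apply, smul_eq_mul]

lemma Dt_symm {g : Bil V} (hg : ∀ u v, g u v = g v u) (f f' : Fin l → V) :
    Dt g f f' = Dt g f' f := by
  unfold Dt
  rw [← Matrix.det_transpose]
  congr 1
  ext i j
  exact hg _ _

/-- change of basis on the right -/
lemma Dt_right (g : Bil V) (f f' : Fin l → V) (C : Matrix (Fin l) (Fin l) ℝ) :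
    Dt g f (fun j => ∑ i, C i j • f' i) = Dt g f f' * C.det := by
  unfold Dt
  rw [← Matrix.det_mul]
  congr 1
  ext i j
  simp [Matrix.mul_apply, map_sum, mul_comm]

/-- negative frames -/
def Neg (q : Bil V) (f : Fin l → V) : Prop := ∀ x : Fin l → ℝ, x ≠ 0 → q (lc f x) (lc f x) < 0

/-- `q` is positive on the `g`-complement of `f` -/
def PosC (R : Submodule ℝ V) (g q : Bil V) (f : Fin l → V) : Prop :=
  ∀ v ∈ R, v ≠ 0 → (∀ i, g v (f i) = 0) → 0 < q v v

lemma exists_comb_zero {M : Matrix (Fin l) (Fin l) ℝ} (h : M.det = 0) :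
    ∃ x : Fin l → ℝ, x ≠ 0 ∧ ∀ i, ∑ j, M i j * x j = 0 := by
  obtain ⟨x, hx, h1⟩ := Matrix.exists_mulVec_eq_zero_iff.2 h
  exact ⟨x, hx, fun i => congrFun h1 i⟩

lemma Dt_ne {R : Submodule ℝ V} {g q : Bil V} (hg : ∀ u v, g u v = g v u) {f f' : Fin l → V}
    (hf' : ∀ i, f' i ∈ R) (hn : Neg q f') (hp : PosC R g q f) : Dt g f f' ≠ 0 := by
  intro h
  obtain ⟨x, hx, h1⟩ := exists_comb_zero h
  have h2 := hn x hx
  have h3 : lc f' x ≠ 0 := by
    intro h0
    rw [h0] at h2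
    simp at h2
  have h4 := hp (lc f' x) (lc_mem hf' x) h3 fun i => by
    rw [hg, q_lc_right]
    exact h1 i
  linarith

lemma S_ne {R : Submodule ℝ V} {g q : Bil V} (hq : ∀ u v, q u v = q v u)
    {f' f'' f3 : Fin l → V} (h1 : ∀ i, f' i ∈ R) (h2 : ∀ i, f'' i ∈ R)
    (hn : Neg q f') (hn' : Neg q f'') (hp : PosC R g q f3) : Dt q f' f'' ≠ 0 := by
  intro h
  obtain ⟨x, hx, hx1⟩ := exists_comb_zero h
  set w := lc f'' x with hw
  have hqw : ∀ i, q (f' i) w = 0 := fun i => by rw [hw, q_lc_right]; exact hx1 i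
  have hww : q w w < 0 := hn' x hx
  let T : ((Fin l → ℝ) × ℝ) →ₗ[ℝ] (Fin l → ℝ) :=
    { toFun := fun p i => g (lc f' p.1 + p.2 • w) (f3 i)
      map_add' := fun p p' => by
        funext i
        have : lc f' (p + p').1 + (p + p').2 • w = (lc f' p.1 + p.2 • w) + (lc f' p'.1 + p'.2 • w) := by
          simp only [lc, Prod.fst_add, Prod.snd_add, Pi.add_apply, add_smul,
            Finset.sum_add_distrib]
          abel
        show g (lc f' (p + p').1 + (p + p').2 • w) (f3 i) = _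
        rw [this, map_add, LinearMap.add_apply]
        rfl
      map_smul' := fun c p => by
        funext i
        have : lc f' (c • p).1 + (c • p).2 • w = c • (lc f' p.1 + p.2 • w) := by
          simp only [lc, Prod.smul_fst, Prod.smul_snd, Pi.smul_apply, smul_eq_mul, smul_add,
            Finset.smul_sum, mul_smul]
        show g (lc f' (c • p).1 + (c • p).2 • w) (f3 i) = _
        rw [this, map_smul, LinearMap.smul_apply]
        rfl }
  have hker : LinearMap.ker T ≠ ⊥ := by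
    apply LinearMap.ker_ne_bot_of_finrank_lt
    simp
  obtain ⟨p, hp0, hp1⟩ := Submodule.exists_mem_ne_zero_of_ne_bot hker
  have hT : ∀ i, g (lc f' p.1 + p.2 • w) (f3 i) = 0 := fun i => congrFun (LinearMap.mem_ker.1 hp0) i
  set v := lc f' p.1 + p.2 • w with hv
  have hcross : q (lc f' p.1) w = 0 := by
    rw [q_lc_left]
    exact Finset.sum_eq_zero fun i _ => by rw [hqw, mul_zero]
  have hqv : q v v = q (lc f' p.1) (lc f' p.1) + p.2 ^ 2 * q w w := by
    rw [hv]
    simp only [map_add, map_smul, LinearMap.add_apply, LinearMap.smul_apply, smul_eq_mul]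
    rw [hq w (lc f' p.1), hcross]
    ring
  have hle1 : q (lc f' p.1) (lc f' p.1) ≤ 0 := by
    by_cases h0 : p.1 = 0
    · rw [h0]; simp [lc]
    · exact (hn _ h0).le
  have hneg : q v v < 0 := by
    rw [hqv]
    by_cases h0 : p.1 = 0
    · have h3 : p.2 ≠ 0 := by
        intro h3
        exact hp1 (Prod.ext h0 h3)
      have : 0 < p.2 ^ 2 := by positivity
      nlinarith
    · have := hn _ h0
      have : 0 ≤ p.2 ^ 2 := sq_nonneg _
      nlinarith
  have hv0 : v ≠ 0 := by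
    intro h0
    rw [h0] at hneg
    simp at hneg
  have hvR : v ∈ R := R.add_mem (lc_mem h1 _) (R.smul_mem _ (lc_mem h2 _))
  have := hp v hvR hv0 hT
  linarith

lemma pos_of_mul_sq {x y : ℝ} (h : 0 < x * y ^ 2) : 0 < x := by
  by_contra hx
  have := mul_nonpos_of_nonpos_of_nonneg (not_lt.1 hx) (sq_nonneg y)
  linarith

/-- a nowhere zero continuous function on an interval has constant sign -/
lemma sign_const {φ : ℝ → ℝ} {a b : ℝ} (hab : a ≤ b) (hc : ContinuousOn φ (Icc a b))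
    (h0 : ∀ t ∈ Icc a b, φ t ≠ 0) : 0 < φ a * φ b := by
  have ha := h0 a ⟨le_rfl, hab⟩
  have hb := h0 b ⟨hab, le_rfl⟩
  rcases lt_or_gt_of_ne ha with h1 | h1
  · rcases lt_or_gt_of_ne hb with h2 | h2
    · exact mul_pos_of_neg_of_neg h1 h2
    · exfalso
      obtain ⟨t, ht, h3⟩ := intermediate_value_Icc hab hc ⟨h1.le, h2.le⟩
      exact h0 t ht h3
  · rcases lt_or_gt_of_ne hb with h2 | h2
    · exfalso
      obtain ⟨t, ht, h3⟩ := intermediate_value_Icc' hab hc ⟨h2.le, h1.le⟩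
      exact h0 t ht h3
    · exact mul_pos h1 h2

lemma posDef_of_neg {q : Bil V} (hq : ∀ u v, q u v = q v u) {f : Fin l → V} (hn : Neg q f) :
    (Matrix.of fun a b => -q (f a) (f b)).PosDef := by
  rw [Matrix.posDef_iff_dotProduct_mulVec]
  refine ⟨?_, fun x hx => ?_⟩
  · ext i j
    simp [hq (f i) (f j)]
  · have h1 := hn x hx
    have h2 : star x ⬝ᵥ (Matrix.of fun a b => -q (f a) (f b)).mulVec x = -q (lc f x) (lc f x) := by
      rw [q_lc_left]
      simp only [q_lc_right, dotProduct, Matrix.mulVec, Matrix.of_apply, star_trivial]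
      rw [← Finset.sum_neg_distrib]
      refine Finset.sum_congr rfl fun i _ => ?_
      rw [← mul_neg, ← Finset.sum_neg_distrib]
      congr 1
      exact Finset.sum_congr rfl fun j _ => by ring
    rw [h2]; linarith

/-- `det (-q (f', f''))` -/
def Ng (q : Bil V) (f f' : Fin l → V) : ℝ := (Matrix.of fun a b => -q (f a) (f' b)).det

lemma Ng_ne_of {q : Bil V} {f f' : Fin l → V} (h : Dt q f f' ≠ 0) : Ng q f f' ≠ 0 := by
  have : (Matrix.of fun a b => -q (f a) (f' b)) = -(Matrix.of fun a b => q (f a) (f' b)) := rfl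
  unfold Ng
  rw [this, Matrix.det_neg]
  exact mul_ne_zero (pow_ne_zero _ (by norm_num)) h

lemma Ng_symm {q : Bil V} (hq : ∀ u v, q u v = q v u) (f f' : Fin l → V) :
    Ng q f f' = Ng q f' f := by
  unfold Ng
  rw [← Matrix.det_transpose]
  congr 1
  ext i j
  simp [hq (f j) (f' i)]

/-- **path lemma** -/
lemma path {R : Submodule ℝ V} {g q : Bil V} (hg : ∀ u v, g u v = g v u)
    (hq : ∀ u v, q u v = q v u) {f f' f'' : Fin l → V}
    (h1 : ∀ i, f' i ∈ R) (h2 : ∀ i, f'' i ∈ R)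
    (hn : Neg q f') (hn' : Neg q f'') (hp : PosC R g q f) :
    0 < Dt g f f' * Dt g f f'' * Ng q f' f'' := by
  set S : Matrix (Fin l) (Fin l) ℝ := Matrix.of fun a b => -q (f' a) (f'' b) with hS
  set N : Matrix (Fin l) (Fin l) ℝ := Matrix.of fun a b => -q (f' a) (f' b) with hN
  have hSdet : S.det ≠ 0 := Ng_ne_of (S_ne hq h1 h2 hn hn' hp)
  have hNdet : 0 < N.det := (posDef_of_neg hq hn).det_pos
  set C := S⁻¹ * N with hC
  have hSC : S * C = N := by
    rw [hC, ← mul_assoc, Matrix.mul_nonsing_inv _ (isUnit_iff_ne_zero.2 hSdet), one_mul]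
  have hCdet : S.det * C.det = N.det := by rw [← Matrix.det_mul, hSC]
  have hCne : C.det ≠ 0 := by
    intro h0
    rw [h0, mul_zero] at hCdet
    linarith
  set F : Fin l → V := fun j => ∑ i, C i j • f'' i with hF
  have hFq : ∀ a b, q (f' a) (F b) = q (f' a) (f' b) := by
    intro a b
    have := congrFun (congrFun hSC a) b
    simp only [Matrix.mul_apply, hS, hN, Matrix.of_apply] at this
    simp only [hF, map_sum, map_smul, smul_eq_mul]
    have h3 : ∑ x, C x b * q (f' a) (f'' x) = -∑ x, -q (f' a) (f'' x) * C x b := by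
      rw [← Finset.sum_neg_distrib]
      exact Finset.sum_congr rfl fun i _ => by ring
    rw [h3, this, neg_neg]
  have hFR : ∀ i, F i ∈ R := fun j => Submodule.sum_mem _ fun i _ => R.smul_mem _ (h2 i)
  -- `lc F x = lc f'' (C x)`
  have hlcF : ∀ x, lc F x = lc f'' (C.mulVec x) := by
    intro x
    simp only [lc, hF, Matrix.mulVec, dotProduct, Finset.sum_smul, Finset.smul_sum, smul_smul]
    rw [Finset.sum_comm]
    exact Finset.sum_congr rfl fun i _ => Finset.sum_congr rfl fun j _ => by rw [mul_comm]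
  have hnF : Neg q F := by
    intro x hx
    rw [hlcF]
    refine hn' _ fun h0 => hx ?_
    by_contra hne
    exact hCne (Matrix.exists_mulVec_eq_zero_iff.1 ⟨x, hne, h0⟩)
  -- the path
  let fs : ℝ → Fin l → V := fun s i => f' i + s • (F i - f' i)
  have hfsR : ∀ s i, fs s i ∈ R := fun s i =>
    R.add_mem (h1 i) (R.smul_mem _ (R.sub_mem (hFR i) (h1 i)))
  have hlcfs : ∀ s x, lc (fs s) x = lc f' x + s • (lc F x - lc f' x) := by
    intro s x
    simp only [fs, lc, smul_add, Finset.sum_add_distrib, smul_sub, Finset.smul_sum,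
      Finset.sum_sub_distrib]
    congr 1
    congr 1
    · exact Finset.sum_congr rfl fun i _ => smul_comm _ _ _
    · exact Finset.sum_congr rfl fun i _ => smul_comm _ _ _
  have hcross : ∀ x, q (lc f' x) (lc F x) = q (lc f' x) (lc f' x) := by
    intro x
    rw [q_lc_left, q_lc_left]
    refine Finset.sum_congr rfl fun i _ => ?_
    rw [q_lc_right, q_lc_right]
    congr 1
    exact Finset.sum_congr rfl fun j _ => by rw [hFq]
  have hnfs : ∀ s ∈ Icc (0 : ℝ) 1, Neg q (fs s) := by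
    intro s hs x hx
    have a1 := hn x hx
    have a2 := hnF x hx
    have e1 : q (lc (fs s) x) (lc (fs s) x) = (1 - s ^ 2) * q (lc f' x) (lc f' x)
        + s ^ 2 * q (lc F x) (lc F x) := by
      rw [hlcfs]
      simp only [map_add, map_sub, map_smul, LinearMap.add_apply, LinearMap.sub_apply,
        LinearMap.smul_apply, smul_eq_mul]
      rw [hq (lc F x) (lc f' x), hcross]
      ring
    rw [e1]
    have hs2 : s ^ 2 ≤ 1 := by nlinarith [hs.1, hs.2]
    rcases hs2.lt_or_eq with h3 | h3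
    · nlinarith [sq_nonneg s]
    · rw [h3]; linarith
  have hcont : ContinuousOn (fun s => Dt g f (fs s)) (Icc 0 1) := by
    apply Continuous.continuousOn
    unfold Dt
    apply Continuous.matrix_det
    refine continuous_pi fun i => continuous_pi fun j => ?_
    simp only [Matrix.of_apply, fs, map_add, map_smul, smul_eq_mul]
    fun_prop
  have h4 := sign_const zero_le_one hcont fun s hs =>
    Dt_ne hg (hfsR s) (hnfs s hs) hp
  have e0 : fs 0 = f' := by funext i; simp [fs]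
  have e1 : fs 1 = F := by funext i; simp [fs]
  rw [e0, e1, hF, Dt_right] at h4
  have hNg : Ng q f' f'' = S.det := rfl
  rw [hNg]
  have h5 : 0 < (Dt g f f' * (Dt g f f'' * C.det)) * (S.det ^ 2) :=
    mul_pos h4 (by positivity)
  have h6 : (Dt g f f' * (Dt g f f'' * C.det)) * (S.det ^ 2)
      = (Dt g f f' * Dt g f f'' * S.det) * N.det := by rw [← hCdet]; ring
  rw [h6] at h5
  exact (pos_iff_pos_of_mul_pos h5).2 hNdet

section sep

variable {R : Submodule ℝ V} {g a : Bil V}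

lemma SepA.neg {f : Fin l → V} {A B c : ℝ} (hR : Amb R g) (h : SepA R g a f A B) (hc : A < c) :
    Neg (a - c • g) f := by
  intro x hx
  have h1 := h.le (lc f x) (lc_mem_span f x)
  have h2 := hR.pos (lc f x) (lc_mem h.red x) (lc_ne h.li hx)
  simp only [LinearMap.sub_apply, LinearMap.smul_apply, smul_eq_mul]
  nlinarith

lemma SepA.posC {f : Fin l → V} {A B c : ℝ} (hR : Amb R g) (h : SepA R g a f A B) (hc : c < B) :
    PosC R g (a - c • g) f := by
  intro v hv hv0 h0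
  have h1 := h.ge v hv h0
  have h2 := hR.pos v hv hv0
  simp only [LinearMap.sub_apply, LinearMap.smul_apply, smul_eq_mul]
  nlinarith

lemma symm_sub (hg : ∀ u v, g u v = g v u) (ha : ∀ u v, a u v = a v u) (c : ℝ) (u v : V) :
    (a - c • g) u v = (a - c • g) v u := by
  simp only [LinearMap.sub_apply, LinearMap.smul_apply, smul_eq_mul]
  rw [hg u v, ha u v]

/-- `c`-independence -/
lemma Ng_const (hR : Amb R g) (ha : ∀ u v, a u v = a v u) {f1 f2 f3 : Fin l → V}
    {A1 B1 A2 B2 A3 B3 : ℝ} (h1 : SepA R g a f1 A1 B1) (h2 : SepA R g a f2 A2 B2)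
    (h3 : SepA R g a f3 A3 B3) {c c' : ℝ} (hc1 : A1 < c) (hc2 : A2 < c) (hc3 : c < B3)
    (hc1' : A1 < c') (hc2' : A2 < c') (hc3' : c' < B3) :
    0 < Ng (a - c • g) f1 f2 * Ng (a - c' • g) f1 f2 := by
  wlog hcc : c ≤ c' generalizing c c'
  · rw [mul_comm]
    exact this hc1' hc2' hc3' hc1 hc2 hc3 (by linarith)
  refine sign_const (φ := fun t => Ng (a - t • g) f1 f2) hcc ?_ ?_
  · apply Continuous.continuousOn
    unfold Ng
    apply Continuous.matrix_det
    refine continuous_pi fun i => continuous_pi fun j => ?_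
    simp only [Matrix.of_apply, LinearMap.sub_apply, LinearMap.smul_apply, smul_eq_mul]
    fun_prop
  · intro t ht
    exact Ng_ne_of (S_ne (symm_sub hR.symm ha t) h1.red h2.red
      (h1.neg hR (by linarith [ht.1])) (h2.neg hR (by linarith [ht.1]))
      (h3.posC hR (by linarith [ht.2])))

lemma Dt_self_pos (hR : Amb R g) {f : Fin l → V} {A B : ℝ} (h : SepA R g a f A B) :
    0 < Dt g f f := by
  have h1 : Neg (-g) f := by
    intro x hx
    have := hR.pos (lc f x) (lc_mem h.red x) (lc_ne h.li hx)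
    simp only [LinearMap.neg_apply]
    linarith
  have h2 := (posDef_of_neg (q := -g) (fun u v => by
    simp only [LinearMap.neg_apply]; rw [hR.symm u v]) h1).det_pos
  simpa [Dt] using h2

/-- comparison of `Dt g` and `Ng (a - c g)` -/
lemma Dt_Ng (hR : Amb R g) (ha : ∀ u v, a u v = a v u) {f1 f2 f3 : Fin l → V}
    {A1 B1 A2 B2 A3 B3 : ℝ} (h1 : SepA R g a f1 A1 B1) (h2 : SepA R g a f2 A2 B2)
    (h3 : SepA R g a f3 A3 B3) (hB1 : B1 ≤ B3) (hB2 : B2 ≤ B3) {c : ℝ} (hc1 : A1 < c)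
    (hc2 : A2 < c) (hc3 : c < B3) : 0 < Dt g f1 f2 * Ng (a - c • g) f1 f2 := by
  by_cases h12 : A2 < B1
  · obtain ⟨c', hc'1, hc'2⟩ := exists_between (max_lt h1.lt h12)
    obtain ⟨k1, k2⟩ := max_lt_iff.1 hc'1
    have p := path hR.symm (symm_sub hR.symm ha c') h1.red h2.red (h1.neg hR k1)
      (h2.neg hR k2) (h1.posC hR hc'2)
    have n := Ng_const hR ha h1 h2 h3 hc1 hc2 hc3 k1 k2 (hc'2.trans_le hB1)
    have s := Dt_self_pos hR h1
    have p2 : 0 < Dt g f1 f2 * Ng (a - c' • g) f1 f2 := by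
      rw [mul_assoc] at p
      exact (pos_iff_pos_of_mul_pos p).1 s
    have h5 := mul_pos p2 n
    have h6 : Dt g f1 f2 * Ng (a - c' • g) f1 f2
        * (Ng (a - c • g) f1 f2 * Ng (a - c' • g) f1 f2)
        = (Dt g f1 f2 * Ng (a - c • g) f1 f2) * (Ng (a - c' • g) f1 f2) ^ 2 := by ring
    rw [h6] at h5
    exact pos_of_mul_sq h5
  · have h21 : A1 < B2 := by linarith [h1.lt, h2.lt]
    obtain ⟨c', hc'1, hc'2⟩ := exists_between (max_lt h2.lt h21)
    obtain ⟨k2, k1⟩ := max_lt_iff.1 hc'1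
    have p := path hR.symm (symm_sub hR.symm ha c') h2.red h1.red (h2.neg hR k2)
      (h1.neg hR k1) (h2.posC hR hc'2)
    have n := Ng_const hR ha h1 h2 h3 hc1 hc2 hc3 k1 k2 (hc'2.trans_le hB2)
    have s := Dt_self_pos hR h2
    have p2 : 0 < Dt g f1 f2 * Ng (a - c' • g) f1 f2 := by
      rw [mul_assoc, Dt_symm hR.symm f2 f1, Ng_symm (symm_sub hR.symm ha c') f2 f1] at p
      exact (pos_iff_pos_of_mul_pos p).1 s
    have h5 := mul_pos p2 n
    have h6 : Dt g f1 f2 * Ng (a - c' • g) f1 f2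
        * (Ng (a - c • g) f1 f2 * Ng (a - c' • g) f1 f2)
        = (Dt g f1 f2 * Ng (a - c • g) f1 f2) * (Ng (a - c' • g) f1 f2) ^ 2 := by ring
    rw [h6] at h5
    exact pos_of_mul_sq h5

lemma cocycle_aux (hR : Amb R g) (ha : ∀ u v, a u v = a v u) {f1 f2 f3 : Fin l → V}
    {A1 B1 A2 B2 A3 B3 : ℝ} (h1 : SepA R g a f1 A1 B1) (h2 : SepA R g a f2 A2 B2)
    (h3 : SepA R g a f3 A3 B3) (hB1 : B1 ≤ B3) (hB2 : B2 ≤ B3) :
    0 < Dt g f1 f2 * Dt g f2 f3 * Dt g f3 f1 := by
  obtain ⟨c, hc, hc3⟩ := exists_between (max_lt (h1.lt.trans_le hB1) (h2.lt.trans_le hB2))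
  obtain ⟨k1, k2⟩ := max_lt_iff.1 hc
  have p := path hR.symm (symm_sub hR.symm ha c) h1.red h2.red (h1.neg hR k1)
      (h2.neg hR k2) (h3.posC hR hc3)
  have d := Dt_Ng hR ha h1 h2 h3 hB1 hB2 k1 k2 hc3
  have h5 := mul_pos p d
  have h6 : Dt g f3 f1 * Dt g f3 f2 * Ng (a - c • g) f1 f2 * (Dt g f1 f2 * Ng (a - c • g) f1 f2)
      = (Dt g f1 f2 * Dt g f2 f3 * Dt g f3 f1) * (Ng (a - c • g) f1 f2) ^ 2 := by
    rw [Dt_symm hR.symm f3 f2]; ring
  rw [h6] at h5
  exact pos_of_mul_sq h5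

/-- **Cocycle**: three frames separating the same form. -/
theorem cocycle (hR : Amb R g) (ha : ∀ u v, a u v = a v u) {f1 f2 f3 : Fin l → V}
    {A1 B1 A2 B2 A3 B3 : ℝ} (h1 : SepA R g a f1 A1 B1) (h2 : SepA R g a f2 A2 B2)
    (h3 : SepA R g a f3 A3 B3) : 0 < Dt g f1 f2 * Dt g f2 f3 * Dt g f3 f1 := by
  rcases le_total B1 B3 with k1 | k1
  · rcases le_total B2 B3 with k2 | k2
    · exact cocycle_aux hR ha h1 h2 h3 k1 k2
    · -- `B2` is maximal
      have := cocycle_aux hR ha h3 h1 h2 k2 (k1.trans k2)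
      have e : Dt g f1 f2 * Dt g f2 f3 * Dt g f3 f1 = Dt g f3 f1 * Dt g f1 f2 * Dt g f2 f3 := by
        ring
      rw [e]; exact this
  · rcases le_total B2 B1 with k2 | k2
    · have := cocycle_aux hR ha h2 h3 h1 k2 k1
      have e : Dt g f1 f2 * Dt g f2 f3 * Dt g f3 f1 = Dt g f2 f3 * Dt g f3 f1 * Dt g f1 f2 := by
        ring
      rw [e]; exact this
    · have := cocycle_aux hR ha h3 h1 h2 (k1.trans k2) k2
      have e : Dt g f1 f2 * Dt g f2 f3 * Dt g f3 f1 = Dt g f3 f1 * Dt g f1 f2 * Dt g f2 f3 := by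
        ring
      rw [e]; exact this

/-- two frames separating the same form -/
theorem Dt_sep_ne (hR : Amb R g) (ha : ∀ u v, a u v = a v u) {f1 f2 : Fin l → V}
    {A1 B1 A2 B2 : ℝ} (h1 : SepA R g a f1 A1 B1) (h2 : SepA R g a f2 A2 B2) :
    Dt g f1 f2 ≠ 0 := by
  have := cocycle hR ha h1 h2 h1
  intro h0
  rw [h0] at this
  simp at this

end sep

/-! ### Orientations along a path of forms -/

section ori

variable {R : Submodule ℝ V} {g : Bil V}

/-- An orientation of the separating frames along a path of forms. -/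
structure Ori (R : Submodule ℝ V) (g : Bil V) (l : ℕ) (a : ℝ → Bil V) (u w : ℝ)
    (s : ℝ → (Fin l → V) → ℝ) : Prop where
  rel : ∀ t ∈ Icc u w, ∀ (f f' : Fin l → V) (A B A' B' : ℝ), SepA R g (a t) f A B →
    SepA R g (a t) f' A' B' → 0 < s t f * s t f' * Dt g f f'
  cont : ∀ (α β : ℝ) (f : Fin l → V) (A B : ℝ), u ≤ α → α ≤ β → β ≤ w →
    (∀ t ∈ Icc α β, SepA R g (a t) f A B) → 0 < s α f * s β f

/-- local separation by fixed frames -/
def LocSepA (R : Submodule ℝ V) (g : Bil V) (l : ℕ) (P0 : (Fin l → V) → Prop) (a : ℝ → Bil V)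
    (u w : ℝ) : Prop :=
  ∀ t0 ∈ Icc u w, ∃ (p : Fin l → V) (A B : ℝ), P0 p ∧
    ∀ᶠ t in 𝓝[Icc u w] t0, SepA R g (a t) p A B

/-- patching data -/
structure Patch (R : Submodule ℝ V) (g : Bil V) (l : ℕ) (a : ℝ → Bil V) (u w : ℝ) (r : ℕ)
    (t : ℕ → ℝ) (F : ℕ → Fin l → V) (A B : ℕ → ℝ) : Prop where
  mono : Monotone t
  zero : t 0 = u
  last : t r = w
  sep : ∀ i < r, ∀ τ ∈ Icc (t i) (t (i + 1)), SepA R g (a τ) (F i) (A i) (B i)

variable {a : ℝ → Bil V} {u w z : ℝ} {s s' : ℝ → (Fin l → V) → ℝ}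

lemma Ori.ne (h : Ori R g l a u w s) {t : ℝ} (ht : t ∈ Icc u w) {f : Fin l → V} {A B : ℝ}
    (hf : SepA R g (a t) f A B) : s t f ≠ 0 := by
  have := h.rel t ht f f A B A B hf hf
  intro h0
  rw [h0] at this
  simp at this

lemma Ori.mono (h : Ori R g l a u w s) {u' w' : ℝ} (hu : u ≤ u') (hw : w' ≤ w) :
    Ori R g l a u' w' s where
  rel t ht := h.rel t ⟨hu.trans ht.1, ht.2.trans hw⟩
  cont α β f A B h1 h2 h3 := h.cont α β f A B (hu.trans h1) h2 (h3.trans hw)

lemma Ori.smul (h : Ori R g l a u w s) {ε : ℝ} (hε : ε ≠ 0) :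
    Ori R g l a u w (fun t f => ε * s t f) where
  rel t ht f f' A B A' B' h1 h2 := by
    have h3 := h.rel t ht f f' A B A' B' h1 h2
    have h4 : 0 < ε ^ 2 := by positivity
    have e : ε * s t f * (ε * s t f') * Dt g f f' = ε ^ 2 * (s t f * s t f' * Dt g f f') := by ring
    rw [e]; exact mul_pos h4 h3
  cont α β f A B h1 h2 h3 h5 := by
    have h3 := h.cont α β f A B h1 h2 h3 h5
    have h4 : 0 < ε ^ 2 := by positivity
    have e : ε * s α f * (ε * s β f) = ε ^ 2 * (s α f * s β f) := by ring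
    rw [e]; exact mul_pos h4 h3

/-- orientation from a (trial) frame depending continuously on time -/
theorem Ori.of_trial (hR : Amb R g) (ha : ∀ t ∈ Icc u w, ∀ x y, a t x y = a t y x)
    (e : ℝ → Fin l → V) (hsep : ∀ t ∈ Icc u w, ∃ A B, SepA R g (a t) (e t) A B)
    (hc : ∀ i v, ContinuousOn (fun t => g (e t i) v) (Icc u w)) :
    Ori R g l a u w (fun t f => Dt g (e t) f) where
  rel t ht f f' A B A' B' h1 h2 := by
    obtain ⟨A0, B0, h0⟩ := hsep t ht
    have := cocycle hR (ha t ht) h0 h1 h2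
    rw [Dt_symm hR.symm f' (e t)] at this
    have e : Dt g (e t) f * Dt g (e t) f' * Dt g f f' = Dt g (e t) f * Dt g f f' * Dt g (e t) f' := by
      ring
    rw [e]; exact this
  cont α β f A B h1 h2 h3 h4 := by
    have hsub : Icc α β ⊆ Icc u w := Icc_subset_Icc h1 h3
    refine sign_const (φ := fun t => Dt g (e t) f) h2 ?_ fun t ht => ?_
    · unfold Dt
      have hm : ContinuousOn (fun t => Matrix.of fun a b => g (e t a) (f b)) (Icc α β) := by
        refine continuousOn_pi.2 fun i => continuousOn_pi.2 fun j => ?_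
        exact (hc i (f j)).mono hsub
      exact (Continuous.matrix_det continuous_id).comp_continuousOn hm
    · obtain ⟨A0, B0, h0⟩ := hsep t (hsub ht)
      exact Dt_sep_ne hR (ha t (hsub ht)) h0 (h4 t ht)

theorem Ori.of_frame (hR : Amb R g) (ha : ∀ t ∈ Icc u w, ∀ x y, a t x y = a t y x)
    (F : Fin l → V) (hsep : ∀ t ∈ Icc u w, ∃ A B, SepA R g (a t) F A B) :
    Ori R g l a u w (fun _ f => Dt g F f) :=
  Ori.of_trial hR ha (fun _ => F) hsep fun _ _ => continuousOn_const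

/-- gluing -/
theorem Ori.glue (huw : u ≤ w)
    (hwz : w ≤ z) (h : Ori R g l a u w s) (h' : Ori R g l a w z s') {f0 : Fin l → V} {A0 B0 : ℝ}
    (h0 : SepA R g (a w) f0 A0 B0) : ∃ s'', Ori R g l a u z s'' := by
  classical
  set ε : ℝ := s w f0 * s' w f0 with hε
  have hε0 : ε ≠ 0 := mul_ne_zero (h.ne ⟨huw, le_rfl⟩ h0) (h'.ne ⟨le_rfl, hwz⟩ h0)
  have h'' := h'.smul hε0
  have key : ∀ f A B, SepA R g (a w) f A B → 0 < s w f * (ε * s' w f) := by
    intro f A B hf
    have k1 := h.rel w ⟨huw, le_rfl⟩ f f0 A B A0 B0 hf h0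
    have k2 := h'.rel w ⟨le_rfl, hwz⟩ f f0 A B A0 B0 hf h0
    have k3 := mul_pos k1 k2
    have e : s w f * s w f0 * Dt g f f0 * (s' w f * s' w f0 * Dt g f f0)
        = (s w f * (ε * s' w f)) * (Dt g f f0) ^ 2 := by rw [hε]; ring
    rw [e] at k3
    exact pos_of_mul_sq k3
  refine ⟨fun t f => if t ≤ w then s t f else ε * s' t f, ?_, ?_⟩
  · intro t ht f f' A B A' B' h1 h2
    by_cases htw : t ≤ w
    · simp only [htw, if_true]
      exact h.rel t ⟨ht.1, htw⟩ f f' A B A' B' h1 h2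
    · simp only [htw, if_false]
      exact h''.rel t ⟨(not_le.1 htw).le, ht.2⟩ f f' A B A' B' h1 h2
  · intro α β f A B h1 h2 h3 h4
    by_cases hβ : β ≤ w
    · have hα : α ≤ w := h2.trans hβ
      simp only [hα, hβ, if_true]
      exact h.cont α β f A B h1 h2 hβ h4
    · have hβ' : w ≤ β := (not_le.1 hβ).le
      by_cases hα : α ≤ w
      · simp only [hα, hβ, if_true, if_false]
        have c1 := h.cont α w f A B h1 hα le_rfl fun t ht => h4 t ⟨ht.1, ht.2.trans hβ'⟩
        have c2 := h''.cont w β f A B le_rfl hβ' h3 fun t ht => h4 t ⟨hα.trans ht.1, ht.2⟩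
        have c3 := key f A B (h4 w ⟨hα, hβ'⟩)
        have c4 := mul_pos (mul_pos c1 c2) c3
        have e : s α f * s w f * (ε * s' w f * (ε * s' β f)) * (s w f * (ε * s' w f))
            = (s α f * (ε * s' β f)) * (s w f * (ε * s' w f)) ^ 2 := by ring
        rw [e] at c4
        exact pos_of_mul_sq c4
      · simp only [hα, hβ, if_false]
        exact h''.cont α β f A B (not_le.1 hα).le h2 h3 h4

/-- telescoping over a patching -/
theorem Ori.telescope (h : Ori R g l a u w s) {r : ℕ} {t : ℕ → ℝ} {F : ℕ → Fin l → V}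
    {A B : ℕ → ℝ} (hp : Patch R g l a u w r t F A B) {A' B' : ℝ}
    (hlast : SepA R g (a w) (F r) A' B') :
    0 < s u (F 0) * s w (F r) * ∏ i ∈ Finset.range r, Dt g (F i) (F (i + 1)) := by
  have hmem : ∀ k ≤ r, t k ∈ Icc u w := fun k hk =>
    ⟨by rw [← hp.zero]; exact hp.mono (Nat.zero_le k), by rw [← hp.last]; exact hp.mono hk⟩
  have hsepk : ∀ k ≤ r, ∃ A B, SepA R g (a (t k)) (F k) A B := by
    intro k hk
    rcases hk.lt_or_eq with h1 | h1
    · exact ⟨_, _, hp.sep k h1 (t k) ⟨le_rfl, hp.mono (Nat.le_succ k)⟩⟩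
    · subst h1
      rw [hp.last]
      exact ⟨_, _, hlast⟩
  have main : ∀ k ≤ r, 0 < s u (F 0) * s (t k) (F k) *
      ∏ i ∈ Finset.range k, Dt g (F i) (F (i + 1)) := by
    intro k
    induction k with
    | zero =>
      intro _
      rw [hp.zero, Finset.range_zero, Finset.prod_empty, mul_one]
      obtain ⟨A1, B1, h1⟩ := hsepk 0 (Nat.zero_le r)
      have := h.ne (hmem 0 (Nat.zero_le r)) h1
      rw [hp.zero] at this
      exact mul_self_pos.2 this
    | succ k ih =>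
      intro hk
      have hk' : k < r := hk
      have i1 := ih hk'.le
      obtain ⟨A1, B1, h1⟩ := hsepk (k + 1) hk
      have c1 := h.cont (t k) (t (k + 1)) (F k) (A k) (B k) (hmem k hk'.le).1
        (hp.mono (Nat.le_succ k)) (hmem (k + 1) hk).2 (hp.sep k hk')
      have c2 := h.rel (t (k + 1)) (hmem (k + 1) hk) (F k) (F (k + 1)) _ _ _ _
        (hp.sep k hk' (t (k + 1)) ⟨hp.mono (Nat.le_succ k), le_rfl⟩) h1
      have c3 := mul_pos (mul_pos i1 c1) c2
      rw [Finset.prod_range_succ]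
      have e : s u (F 0) * s (t k) (F k) * (∏ i ∈ Finset.range k, Dt g (F i) (F (i + 1)))
          * (s (t k) (F k) * s (t (k + 1)) (F k))
          * (s (t (k + 1)) (F k) * s (t (k + 1)) (F (k + 1)) * Dt g (F k) (F (k + 1)))
          = (s u (F 0) * s (t (k + 1)) (F (k + 1)) *
            ((∏ i ∈ Finset.range k, Dt g (F i) (F (i + 1))) * Dt g (F k) (F (k + 1))))
            * (s (t k) (F k) * s (t (k + 1)) (F k)) ^ 2 := by ring
      rw [e] at c3
      exact pos_of_mul_sq c3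
  have := main r le_rfl
  rwa [hp.last] at this

/-- existence of a patching -/
theorem exists_patch {P0 : (Fin l → V) → Prop} (huw : u ≤ w) (hloc : LocSepA R g l P0 a u w) :
    ∃ (r : ℕ) (t : ℕ → ℝ) (F : ℕ → Fin l → V) (A B : ℕ → ℝ), 0 < r ∧
      Patch R g l a u w r t F A B ∧ (∀ i, P0 (F i)) ∧
      (∀ i, ∀ τ ∈ Icc (t i) (t (i + 1)), SepA R g (a τ) (F i) (A i) (B i)) := by
  classical
  let I := {q : (Fin l → V) × ℝ × ℝ // P0 q.1}
  let c : I → Set (Icc u w) := fun q =>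
    interior {t : Icc u w | SepA R g (a t) q.1.1 q.1.2.1 q.1.2.2}
  have hc1 : ∀ i, IsOpen (c i) := fun i => isOpen_interior
  have hc2 : (univ : Set (Icc u w)) ⊆ ⋃ i, c i := by
    intro t0 _
    obtain ⟨p, A, B, hp, hev⟩ := hloc t0 t0.2
    refine mem_iUnion.2 ⟨⟨(p, A, B), hp⟩, ?_⟩
    rw [mem_interior_iff_mem_nhds]
    have := (tendsto_nhdsWithin_iff.2 ⟨continuous_subtype_val.continuousAt (x := t0),
      Eventually.of_forall fun t : Icc u w => t.2⟩).eventually hev
    exact this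
  obtain ⟨t, ht0, htm, ⟨m, hm⟩, hcov⟩ := exists_monotone_Icc_subset_open_cover_Icc huw hc1 hc2
  choose i hi using hcov
  have hsep : ∀ k, ∀ τ ∈ Icc (t k : ℝ) (t (k + 1)), SepA R g (a τ) (i k).1.1 (i k).1.2.1
      (i k).1.2.2 := by
    intro k τ hτ
    have hτ' : τ ∈ Icc u w := ⟨(t k).2.1.trans hτ.1, hτ.2.trans (t (k + 1)).2.2⟩
    have h1 : (⟨τ, hτ'⟩ : Icc u w) ∈ c (i k) := hi k ⟨hτ.1, hτ.2⟩
    have h2 : (⟨τ, hτ'⟩ : Icc u w) ∈
      {t : Icc u w | SepA R g (a t) (i k).1.1 (i k).1.2.1 (i k).1.2.2} := interior_subset h1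
    exact h2
  refine ⟨max m 1, fun k => t k, fun k => (i k).1.1, fun k => (i k).1.2.1,
    fun k => (i k).1.2.2, by positivity, ⟨fun x y hxy => htm hxy, ht0, ?_, ?_⟩, fun k => (i k).2,
    hsep⟩
  · exact hm _ (le_max_left _ _)
  · intro k _ τ hτ
    exact hsep k τ hτ

/-- existence of orientations -/
theorem exists_ori {P0 : (Fin l → V) → Prop} (hR : Amb R g)
    (ha : ∀ t ∈ Icc u w, ∀ x y, a t x y = a t y x) (huw : u ≤ w)
    (hloc : LocSepA R g l P0 a u w) : ∃ s, Ori R g l a u w s := by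
  obtain ⟨r, t, F, A, B, hr, hp, -, -⟩ := exists_patch huw hloc
  have hmem : ∀ k ≤ r, t k ∈ Icc u w := fun k hk =>
    ⟨by rw [← hp.zero]; exact hp.mono (Nat.zero_le k), by rw [← hp.last]; exact hp.mono hk⟩
  have main : ∀ k, k + 1 ≤ r → ∃ s, Ori R g l a u (t (k + 1)) s := by
    intro k
    induction k with
    | zero =>
      intro hk
      refine ⟨_, Ori.of_frame hR (fun τ hτ => ha τ ⟨hτ.1, hτ.2.trans (hmem _ hk).2⟩) (F 0)
        fun τ hτ => ⟨A 0, B 0, hp.sep 0 hr τ ?_⟩⟩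
      rw [hp.zero]
      exact hτ
    | succ k ih =>
      intro hk
      obtain ⟨s1, h1⟩ := ih (Nat.le_of_succ_le hk)
      have hk' : k + 1 < r := hk
      have hle : t (k + 1) ≤ t (k + 1 + 1) := hp.mono (Nat.le_succ _)
      have h2 : Ori R g l a (t (k + 1)) (t (k + 1 + 1)) (fun _ f => Dt g (F (k + 1)) f) :=
        Ori.of_frame hR (fun τ hτ => ha τ ⟨(hmem _ hk'.le).1.trans hτ.1,
          hτ.2.trans (hmem _ hk).2⟩) (F (k + 1)) fun τ hτ => ⟨_, _, hp.sep (k + 1) hk' τ hτ⟩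
      exact Ori.glue (hmem _ hk'.le).1 hle
        h1 h2 (hp.sep (k + 1) hk' (t (k + 1)) ⟨le_rfl, hle⟩)
  obtain ⟨n, rfl⟩ := Nat.exists_eq_succ_of_ne_zero hr.ne'
  have := main n le_rfl
  rwa [hp.last] at this

lemma LocSepA.mono {P0 : (Fin l → V) → Prop} (h : LocSepA R g l P0 a u w) {u' w' : ℝ}
    (hu : u ≤ u') (hw : w' ≤ w) : LocSepA R g l P0 a u' w' := by
  intro t0 ht0
  obtain ⟨p, A, B, hp, hev⟩ := h t0 ⟨hu.trans ht0.1, ht0.2.trans hw⟩
  exact ⟨p, A, B, hp, hev.filter_mono (nhdsWithin_mono _ (Icc_subset_Icc hu hw))⟩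

lemma LocSepA.at {P0 : (Fin l → V) → Prop} (h : LocSepA R g l P0 a u w) {t : ℝ}
    (ht : t ∈ Icc u w) : ∃ (p : Fin l → V) (A B : ℝ), P0 p ∧ SepA R g (a t) p A B := by
  obtain ⟨p, A, B, hp, hev⟩ := h t ht
  exact ⟨p, A, B, hp, hev.self_of_nhdsWithin ht⟩

/-- uniqueness of the transport: two orientations compare in the same way at both ends -/
theorem Ori.compare {P0 : (Fin l → V) → Prop} (huw : u ≤ w)
    (hloc : LocSepA R g l P0 a u w) (h : Ori R g l a u w s) (h' : Ori R g l a u w s')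
    {f f' : Fin l → V} {A B A' B' : ℝ} (hf : SepA R g (a u) f A B)
    (hf' : SepA R g (a w) f' A' B') : 0 < (s u f * s w f') * (s' u f * s' w f') := by
  obtain ⟨r, t, F, A1, B1, hr, hp, -, hsep⟩ := exists_patch huw hloc
  have hF0 : SepA R g (a u) (F 0) (A1 0) (B1 0) := by
    have := hsep 0 (t 0) ⟨le_rfl, hp.mono (Nat.le_succ 0)⟩
    rwa [hp.zero] at this
  have hFr : SepA R g (a w) (F r) (A1 r) (B1 r) := by
    have := hsep r (t r) ⟨le_rfl, hp.mono (Nat.le_succ r)⟩
    rwa [hp.last] at this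
  have t1 := h.telescope hp hFr
  have t2 := h'.telescope hp hFr
  have u1 := h.rel u ⟨le_rfl, huw⟩ f (F 0) _ _ _ _ hf hF0
  have u2 := h'.rel u ⟨le_rfl, huw⟩ f (F 0) _ _ _ _ hf hF0
  have w1 := h.rel w ⟨huw, le_rfl⟩ f' (F r) _ _ _ _ hf' hFr
  have w2 := h'.rel w ⟨huw, le_rfl⟩ f' (F r) _ _ _ _ hf' hFr
  have k := mul_pos (mul_pos (mul_pos t1 t2) (mul_pos u1 u2)) (mul_pos w1 w2)
  set pd := ∏ i ∈ Finset.range r, Dt g (F i) (F (i + 1)) with hpd
  have e : s u (F 0) * s w (F r) * pd * (s' u (F 0) * s' w (F r) * pd) *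
      (s u f * s u (F 0) * Dt g f (F 0) * (s' u f * s' u (F 0) * Dt g f (F 0))) *
      (s w f' * s w (F r) * Dt g f' (F r) * (s' w f' * s' w (F r) * Dt g f' (F r)))
      = ((s u f * s w f') * (s' u f * s' w f')) *
        (s u (F 0) * s w (F r) * s' u (F 0) * s' w (F r) * pd * Dt g f (F 0) * Dt g f' (F r)) ^ 2 := by
    ring
  rw [e] at k
  exact pos_of_mul_sq k

/-- reversal -/
theorem Ori.reverse {b : ℝ → Bil V} {ρ : ℝ} (h : Ori R g l b (ρ - w) (ρ - u) s)
    (hb : ∀ t ∈ Icc u w, b (ρ - t) = a t) : Ori R g l a u w (fun t f => s (ρ - t) f) where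
  rel t ht f f' A B A' B' h1 h2 := by
    rw [← hb t ht] at h1 h2
    exact h.rel (ρ - t) ⟨by linarith [ht.2], by linarith [ht.1]⟩ f f' A B A' B' h1 h2
  cont α β f A B h1 h2 h3 h4 := by
    have := h.cont (ρ - β) (ρ - α) f A B (by linarith) (by linarith) (by linarith) fun t ht => by
      have h5 : ρ - t ∈ Icc α β := ⟨by linarith [ht.2], by linarith [ht.1]⟩
      have h6 := h4 (ρ - t) h5
      rw [← hb (ρ - t) ⟨h1.trans h5.1, h5.2.trans h3⟩] at h6
      simpa using h6
    rw [mul_comm]; exact this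

/-- **SIGN-PATCH.**  A loop of forms which is palindromic outside the window `[s1, 1 - s1]`, with a
continuous trial frame `e` on the window, `e (1 - s1) = e s1 · C`. -/
theorem sign_patch {P0 : (Fin l → V) → Prop} (hR : Amb R g)
    (ha : ∀ t ∈ Icc (0 : ℝ) 1, ∀ x y, a t x y = a t y x)
    (hloc : LocSepA R g l P0 a 0 1) {s1 : ℝ} (hs0 : 0 ≤ s1) (hs1 : s1 ≤ 1 / 2)
    (hpal : ∀ t ∈ Icc 0 s1, a (1 - t) = a t)
    (e : ℝ → Fin l → V) (hsep : ∀ t ∈ Icc s1 (1 - s1), ∃ A B, SepA R g (a t) (e t) A B)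
    (hc : ∀ i v, ContinuousOn (fun t => g (e t i) v) (Icc s1 (1 - s1)))
    (C : Matrix (Fin l) (Fin l) ℝ) (hC : ∀ j, e (1 - s1) j = ∑ i, C i j • e s1 i) :
    ∃ (r : ℕ) (t : ℕ → ℝ) (f : ℕ → Fin l → V) (A B : ℕ → ℝ), 0 < r ∧ Monotone t ∧ t 0 = 0 ∧
      t r = 1 ∧ f r = f 0 ∧ (∀ i, P0 (f i)) ∧
      (∀ i < r, ∀ τ ∈ Icc (t i) (t (i + 1)), SepA R g (a τ) (f i) (A i) (B i)) ∧
      0 < C.det * ∏ i ∈ Finset.range r, Dt g (f i) (f (i + 1)) := by
  classical
  have hm : s1 ≤ 1 - s1 := by linarith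
  have h01 : (0 : ℝ) ≤ 1 := zero_le_one
  -- the patching, closed up
  obtain ⟨r, t, F0, A0, B0, hr, hp0, hP0, hsep0⟩ := exists_patch h01 hloc
  set F : ℕ → Fin l → V := fun i => if i < r then F0 i else F0 0 with hF
  have hFlt : ∀ i < r, F i = F0 i := fun i hi => by simp [hF, hi]
  have hFr : F r = F0 0 := by simp [hF]
  have hF0 : F 0 = F0 0 := hFlt 0 hr
  have hp : Patch R g l a 0 1 r t F A0 B0 :=
    ⟨hp0.mono, hp0.zero, hp0.last, fun i hi τ hτ => by rw [hFlt i hi]; exact hp0.sep i hi τ hτ⟩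
  have ha01 : a 1 = a 0 := by
    have := hpal 0 ⟨le_rfl, hs0⟩
    simpa using this
  set f := F0 0 with hf
  have hf0 : SepA R g (a 0) f (A0 0) (B0 0) := by
    have := hsep0 0 (t 0) ⟨le_rfl, hp0.mono (Nat.le_succ 0)⟩
    rwa [hp0.zero] at this
  have hf1 : SepA R g (a 1) f (A0 0) (B0 0) := by rw [ha01]; exact hf0
  refine ⟨r, t, F, A0, B0, hr, hp0.mono, hp0.zero, hp0.last, by rw [hFr, hF0], ?_, hp.sep, ?_⟩
  · intro i
    by_cases hi : i < r
    · rw [hFlt i hi]; exact hP0 i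
    · simp only [hF, hi, if_false]; exact hP0 0
  -- the orientation on `[0, 1]`
  obtain ⟨S, hS⟩ := exists_ori hR ha h01 hloc
  have tel := hS.telescope hp (A' := A0 0) (B' := B0 0) (by rw [hFr]; exact hf1)
  rw [hFr, hF0] at tel
  -- a separating frame at the window
  obtain ⟨h, Ah, Bh, -, hh⟩ := hloc.at (t := s1) ⟨hs0, by linarith⟩
  have hpal1 : a (1 - s1) = a s1 := hpal s1 ⟨hs0, le_rfl⟩
  have hh' : SepA R g (a (1 - s1)) h Ah Bh := by rw [hpal1]; exact hh
  -- outer parts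
  have S1 : Ori R g l a 0 s1 S := hS.mono le_rfl (by linarith)
  have S3 : Ori R g l a (1 - s1) 1 S := hS.mono (by linarith) le_rfl
  have S3r : Ori R g l a 0 s1 (fun t f => S (1 - t) f) := by
    refine Ori.reverse (b := a) (ρ := 1) ?_ hpal
    simpa using S3
  have c1 := Ori.compare hs0
    (hloc.mono le_rfl (by linarith)) S1 S3r hf0 hh
  simp only [sub_zero] at c1
  -- window
  have S2 : Ori R g l a s1 (1 - s1) S := hS.mono hs0 (by linarith)
  have W := Ori.of_trial hR (fun t ht => ha t ⟨by linarith [ht.1], by linarith [ht.2]⟩) e hsep hc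
  have c2 := Ori.compare hm
    (hloc.mono hs0 (by linarith)) S2 W hh hh'
  have hD : Dt g (e (1 - s1)) h = Dt g (e s1) h * C.det := by
    rw [Dt_symm hR.symm, Dt_symm hR.symm (e s1) h, ← Dt_right]
    congr 1
    funext j
    exact hC j
  rw [hD] at c2
  have k := mul_pos (mul_pos c1 c2) tel
  set pd := ∏ i ∈ Finset.range r, Dt g (F i) (F (i + 1)) with hpd
  have e1 : S 0 f * S s1 h * (S 1 f * S (1 - s1) h) *
      (S s1 h * S (1 - s1) h * (Dt g (e s1) h * (Dt g (e s1) h * C.det))) * (S 0 f * S 1 f * pd)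
      = (C.det * pd) * (S 0 f * S 1 f * S s1 h * S (1 - s1) h * Dt g (e s1) h) ^ 2 := by ring
  rw [e1] at k
  exact pos_of_mul_sq k

end ori

end Crest.Agent.R202.Sign
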