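import Crest.Agent.R202.ConstRem
import Crest.Agent.R202.CThmSep
import Crest.Agent.R202.SignPatch

/-!
# Row 202, PART C: (SIGNRED) reduction of the sign of a loop to the reduced sector (helper384)
-/

set_option autoImplicit false

open MeasureTheory Set Filter Module
open scoped Topology ContDiff
open Crest.Agent.R202.Mod Crest.Agent.R202.Cut Crest.Agent.R202.PL Crest.Agent.R202.Clu
open Crest.Agent.R202.Main Crest.Agent.R202.Lab

noncomputable section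

namespace Crest.Agent.R202.Inst

/-- `SepP` in terms of `aform`, sectors with `sh = 0` -/
theorem sepP_iff_of_ne {d : ℕ} {σ : ℕ × ℕ} (hσ : σ ≠ (0, 0)) {l : ℕ} {K : ℝ} {b : ℝ}
    {P : ℝ × ℝ → ℝ} (hP : Adm d K P) (p : Fin l → CT.VV σ) (A B : ℝ) :
    CT.SepP d σ l p A B b P ↔
      (∀ i, p i ∈ Pol σ.1 σ.2) ∧ Sign.SepA ⊤ (g d σ.1 σ.2) (aform d σ b P) p A B := by
  constructor
  · intro h
    refine ⟨h.pol, fun _ => Submodule.mem_top, h.li, h.lt, fun w hw => ?_, fun v _ hv => ?_⟩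
    · rw [aform_QF σ b hP]; exact h.le w hw
    · rw [aform_QF σ b hP]; exact h.ge v (fun h0 => absurd h0 hσ) hv
  · rintro ⟨hpol, h⟩
    refine ⟨hpol, fun _ h0 => absurd h0 hσ, h.li, h.lt, fun w hw => ?_, fun v _ hv => ?_⟩
    · rw [← aform_QF σ b hP]; exact h.le w hw
    · rw [← aform_QF σ b hP]; exact h.ge v Submodule.mem_top hv

/-- the extended family separates -/
theorem sepA_cons {d : ℕ} {l : ℕ} (hl : 1 ≤ l) {K : ℝ} {b : ℝ}
    {P : ℝ × ℝ → ℝ} (hP : Adm d K P) {p : Fin l → VS 0 0} {A B : ℝ}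
    (h : CT.SepP d (0, 0) l p A B b P) :
    Sign.SepA ⊤ (g d 0 0) (aform d (0, 0) b P) (Fin.cons one p : Fin (l + 1) → VS 0 0) A B := by
  have gs : ∀ u v : VS 0 0, g d 0 0 u v = g d 0 0 v u := g_symm
  have gpos : ∀ v : VS 0 0, v ≠ 0 → 0 < g d 0 0 v v := fun v hv => g_pos hv
  have ho : ∀ i, g d 0 0 (p i) one = 0 := fun i => h.red i rfl
  have e : aform d (0, 0) b P = Q 0 0 hP b := Clu.aform_eq (0, 0) b hP
  have as : ∀ u v : VS 0 0, aform d (0, 0) b P u v = aform d (0, 0) b P v u :=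
    fun u v => Clu.aform_symm d (0, 0) b P u v
  have a1 : ∀ v : VS 0 0, aform d (0, 0) b P one v = 0 := fun v => by rw [e]; exact Q_one hP b v
  have hr : CR.Red (g d 0 0) (aform d (0, 0) b P) one p A B := by
    refine ⟨?_, h.lt, fun w hw => ?_, fun v hv hv' => ?_⟩
    · have h0 : p ⟨0, hl⟩ ≠ 0 := h.li.ne_zero _
      have h1 := h.le (p ⟨0, hl⟩) (Submodule.subset_span ⟨_, rfl⟩)
      have h2 : 0 ≤ CT.QF d (0, 0) b P (p ⟨0, hl⟩) (p ⟨0, hl⟩) := Q_nonneg hP b (p ⟨0, hl⟩)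
      have h3 : 0 < CT.gF d (0, 0) (p ⟨0, hl⟩) (p ⟨0, hl⟩) := gpos _ h0
      by_contra hcon
      push Not at hcon
      nlinarith [mul_neg_of_neg_of_pos hcon h3]
    · have h2 : aform d (0, 0) b P w w = CT.QF d (0, 0) b P w w := aform_QF (0, 0) b hP w w
      rw [h2]; exact h.le w hw
    · have h2 : aform d (0, 0) b P v v = CT.QF d (0, 0) b P v v := aform_QF (0, 0) b hP v v
      rw [h2]; exact h.ge v (fun _ => hv) hv'
  have hs := CR.sep_cons gs (gpos one one_ne_zero').le ho as a1 hr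
  refine ⟨fun _ => Submodule.mem_top, CR.linearIndependent_cons gs gpos one_ne_zero' h.li ho,
    hs.lt, hs.le, fun v _ hv => hs.ge v fun w hw => ?_⟩
  exact CR.orth_span (V := VS 0 0) (g := g d 0 0) hv hw

/-- back to the reduced family -/
theorem sepP_of_cons {d : ℕ} {l : ℕ} {K : ℝ} {b : ℝ}
    {P : ℝ × ℝ → ℝ} (hP : Adm d K P) {p : Fin l → VS 0 0} {A B : ℝ}
    (hpol : ∀ i, p i ∈ Pol 0 0) (ho : ∀ i, g d 0 0 (p i) one = 0) (hli : LinearIndependent ℝ p)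
    (h : Sign.SepA ⊤ (g d 0 0) (aform d (0, 0) b P) (Fin.cons one p : Fin (l + 1) → VS 0 0) A B) :
    CT.SepP d (0, 0) l p A B b P := by
  refine ⟨hpol, fun i _ => ho i, hli, h.lt, fun w hw => ?_, fun v hv hv' => ?_⟩
  · have h2 : aform d (0, 0) b P w w = CT.QF d (0, 0) b P w w := aform_QF (0, 0) b hP w w
    rw [← h2]
    refine h.le w ?_
    have h0 : Set.range (Fin.cons one p : Fin (l + 1) → VS 0 0) = insert one (Set.range p) :=
      Fin.range_cons one p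
    rw [h0]
    exact Submodule.span_mono (Set.subset_insert _ _) hw
  · have h2 : aform d (0, 0) b P v v = CT.QF d (0, 0) b P v v := aform_QF (0, 0) b hP v v
    rw [← h2]
    refine h.ge v Submodule.mem_top fun i => ?_
    refine Fin.cases ?_ (fun j => ?_) i
    · exact hv rfl
    · exact hv' j

/-- 384: (SIGNRED) -/
theorem sign_red {d : ℕ} {σ : ℕ × ℕ} {l ls : ℕ} (hl1 : 1 ≤ l) (hl : l + sh σ = ls + 1) {K : ℝ}
    (y : ℝ → ℝ) (P : ℝ → ℝ × ℝ → ℝ) (hP : ∀ τ ∈ Icc (0 : ℝ) 1, Adm d K (P τ)) (κ : ℝ)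
    (hloc : ∀ τ0 ∈ Icc (0 : ℝ) 1, ∃ (p : Fin l → CT.VV σ) (A B : ℝ),
      ∀ᶠ τ in 𝓝[Icc 0 1] τ0, CT.SepP d σ l p A B (y τ) (P τ))
    (hsign : ∀ P0 : (Fin (ls + 1) → CT.VV σ) → Prop,
      Sign.LocSepA ⊤ (g d σ.1 σ.2) (ls + 1) P0 (fun τ => aform d σ (y τ) (P τ)) 0 1 →
      ∃ (r : ℕ) (t : ℕ → ℝ) (f : ℕ → Fin (ls + 1) → CT.VV σ) (A B : ℕ → ℝ),
        0 < r ∧ Monotone t ∧ t 0 = 0 ∧ t r = 1 ∧ f r = f 0 ∧ (∀ i, P0 (f i)) ∧
        (∀ i < r, ∀ τ ∈ Icc (t i) (t (i + 1)),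
          Sign.SepA ⊤ (g d σ.1 σ.2) (aform d σ (y τ) (P τ)) (f i) (A i) (B i)) ∧
        0 < κ * ∏ i ∈ Finset.range r, Sign.Dt (g d σ.1 σ.2) (f i) (f (i + 1))) :
    ∃ (r : ℕ) (t : ℕ → ℝ) (f : ℕ → Fin l → CT.VV σ) (A B : ℕ → ℝ),
      0 < r ∧ Monotone t ∧ t 0 = 0 ∧ t r = 1 ∧ f r = f 0 ∧
      (∀ i < r, ∀ τ ∈ Icc (t i) (t (i + 1)), CT.SepP d σ l (f i) (A i) (B i) (y τ) (P τ)) ∧
      0 < κ * ∏ i ∈ Finset.range r,
        (Matrix.of fun a b => CT.gF d σ (f i a) (f (i + 1) b)).det := by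
  have hmem : ∀ {r : ℕ} {t : ℕ → ℝ}, Monotone t → t 0 = 0 → t r = 1 → ∀ i < r,
      ∀ τ ∈ Icc (t i) (t (i + 1)), τ ∈ Icc (0 : ℝ) 1 := by
    intro r t hm h0 hr i hi τ hτ
    exact ⟨h0 ▸ (hm (Nat.zero_le i)).trans hτ.1, hr ▸ hτ.2.trans (hm hi)⟩
  by_cases hσ : σ = (0, 0)
  · subst hσ
    have hs1 : sh (0, 0) = 1 := by simp [sh]
    rw [hs1] at hl
    obtain rfl : l = ls := by omega
    obtain ⟨r, t, f, A, B, hr, hm, ht0, htr, hf, hP0, hsep, hpos⟩ := hsign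
      (fun f => ∃ p : Fin l → VS 0 0, f = (Fin.cons one p : Fin (l + 1) → VS 0 0) ∧
        (∀ i, p i ∈ Pol 0 0) ∧ (∀ i, g d 0 0 (p i) one = 0) ∧ LinearIndependent ℝ p) (by
      intro τ0 hτ0
      obtain ⟨p, A, B, hp⟩ := hloc τ0 hτ0
      have h0 := hp.self_of_nhdsWithin hτ0
      refine ⟨(Fin.cons one p : Fin (l + 1) → VS 0 0), A, B,
        ⟨p, rfl, h0.pol, fun i => h0.red i rfl, h0.li⟩, ?_⟩
      filter_upwards [hp, self_mem_nhdsWithin] with τ hτ hτ'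
      exact sepA_cons hl1 (hP τ hτ') hτ)
    choose p hp1 hp2 hp3 hp4 using hP0
    refine ⟨r, t, p, A, B, hr, hm, ht0, htr, ?_, fun i hi τ hτ => ?_, ?_⟩
    · have h1 := hf
      rw [hp1 r, hp1 0] at h1
      exact (Fin.cons_inj.1 h1).2
    · refine sepP_of_cons (hP τ (hmem hm ht0 htr i hi τ hτ)) (hp2 i) (hp3 i) (hp4 i) ?_
      have h1 := hsep i hi τ hτ
      rw [hp1 i] at h1
      exact h1
    · have hdet : ∀ i, Sign.Dt (g d (0, 0).1 (0, 0).2) (f i) (f (i + 1)) =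
          g d 0 0 one one * (Matrix.of fun a b => CT.gF d (0, 0) (p i a) (p (i + 1) b)).det := by
        intro i
        rw [hp1 i, hp1 (i + 1)]
        exact CR.det_cons (g := g d 0 0) (one := one) (hp3 i)
          (fun j => by rw [g_symm]; exact hp3 (i + 1) j)
      have h1 : ∏ i ∈ Finset.range r, Sign.Dt (g d (0, 0).1 (0, 0).2) (f i) (f (i + 1)) =
          (g d 0 0 one one) ^ r * ∏ i ∈ Finset.range r,
            (Matrix.of fun a b => CT.gF d (0, 0) (p i a) (p (i + 1) b)).det := by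
        rw [Finset.prod_congr rfl fun i _ => hdet i, Finset.prod_mul_distrib, Finset.prod_const,
          Finset.card_range]
      rw [h1] at hpos
      have h2 : (0 : ℝ) < (g d 0 0 one one) ^ r := pow_pos (g_one_pos d) r
      have h3 : (0 : ℝ) < (g d 0 0 one one) ^ r * (κ * ∏ i ∈ Finset.range r,
            (Matrix.of fun a b => CT.gF d (0, 0) (p i a) (p (i + 1) b)).det) := by
        calc (0 : ℝ) < _ := hpos
          _ = _ := by ring
      exact (pos_iff_pos_of_mul_pos h3).1 h2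
  · have hs0 : sh σ = 0 := by simp [sh, hσ]
    rw [hs0] at hl
    obtain rfl : l = ls + 1 := by omega
    obtain ⟨r, t, f, A, B, hr, hm, ht0, htr, hf, hP0, hsep, hpos⟩ := hsign
      (fun f => ∀ i, f i ∈ Pol σ.1 σ.2) (by
      intro τ0 hτ0
      obtain ⟨p, A, B, hp⟩ := hloc τ0 hτ0
      have h0 := hp.self_of_nhdsWithin hτ0
      refine ⟨p, A, B, h0.pol, ?_⟩
      filter_upwards [hp, self_mem_nhdsWithin] with τ hτ hτ'
      exact ((sepP_iff_of_ne hσ (hP τ hτ') p A B).1 hτ).2)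
    refine ⟨r, t, f, A, B, hr, hm, ht0, htr, hf, fun i hi τ hτ => ?_, hpos⟩
    exact (sepP_iff_of_ne hσ (hP τ (hmem hm ht0 htr i hi τ hτ)) (f i) (A i) (B i)).2
      ⟨hP0 i, hsep i hi τ hτ⟩

end Crest.Agent.R202.Inst
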