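import Crest.Agent.R202.JacPoly

/-!
# Row 202: matrix part of the designated crossing
-/

set_option autoImplicit false

open Module Matrix Finset Filter Topology
open scoped InnerProductSpace

noncomputable section

namespace Crest.Agent.R202.Jac

open Crest.Agent.R202.Lab Crest.Agent.R202.SF

variable {T : Type*} [AddCommGroup T] [Module ℝ T]

theorem orthonormal_elim {n k : ℕ} {u : Fin k → ES n} {B e : ES n}
    (h : Orthonormal ℝ (Fin.snoc (Fin.snoc u B) e : Fin (k + 2) → ES n)) :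
    Orthonormal ℝ (Sum.elim u ![B, e]) := by
  have h1 := h.comp (finSumFinEquiv (m := k) (n := 2)) finSumFinEquiv.injective
  have h2 : (Fin.snoc (Fin.snoc u B) e : Fin (k + 2) → ES n) ∘ (finSumFinEquiv (m := k) (n := 2))
      = Sum.elim u ![B, e] := by
    funext i
    rcases i with i | i
    · simp only [Function.comp_apply, finSumFinEquiv_apply_left, Sum.elim_inl]
      have : (Fin.castAdd 2 i : Fin (k + 2)) = (i.castSucc).castSucc := rfl
      rw [this, Fin.snoc_castSucc, Fin.snoc_castSucc]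
    · simp only [Function.comp_apply, finSumFinEquiv_apply_right, Sum.elim_inr]
      fin_cases i
      · have : (Fin.natAdd k (0 : Fin 2) : Fin (k + 2)) = (Fin.last k).castSucc := rfl
        show (Fin.snoc (Fin.snoc u B) e : Fin (k + 2) → ES n) (Fin.natAdd k (0 : Fin 2)) = B
        rw [this, Fin.snoc_castSucc, Fin.snoc_last]
      · have : (Fin.natAdd k (1 : Fin 2) : Fin (k + 2)) = Fin.last (k + 1) := rfl
        show (Fin.snoc (Fin.snoc u B) e : Fin (k + 2) → ES n) (Fin.natAdd k (1 : Fin 2)) = e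
        rw [this, Fin.snoc_last]
  rw [h2] at h1
  exact h1

section

variable {A B : ℕ → ℝ → ℕ × ℕ → ℕ × ℕ → T →ₗ[ℝ] ℝ} {d : ℕ} {σ : ℕ × ℕ} {a c : ℕ} {p : ℕ × ℕ}

theorem pen_gG {n : ℕ} (f s : ℕ) (ηA ηB ξ : T) (x k0 y : ℝ) :
    pen A B d σ a c p n x (gG a f s ηA ηB ξ k0 y)
      = pen A B d σ a c p n x (Finsupp.single a ηA) +
        k0 • (cL A B σ a c p n (Finsupp.single a ηB)
          - (sg s * (1 - y)) • cL A B σ a c p n (Finsupp.single f ξ)) := by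
  unfold pen gG
  rw [cL_sub, cL_smul, Finsupp.single_add, ← Finsupp.smul_single, cL_add, cL_smul, smul_sub,
    smul_smul, add_assoc]
  rw [show k0 * (sg s * (1 - y)) = sg s * k0 * (1 - y) by ring]
  abel

theorem op_sub {n : ℕ} (M N : Matrix (Fin n) (Fin n) ℝ) : op (M - N) = op M - op N := by
  ext v i
  simp [op_apply, sub_mul, Finset.sum_sub_distrib]

theorem sg_abs (s : ℕ) : |sg s| = 1 := by
  unfold sg; split_ifs <;> norm_num

/-- other chains on the window, for small `k0` -/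
theorem other_eventually (hA : ∀ q b p p' η, A q b p p' η = A q b p' p η)
    (hB : ∀ q b p p' η, B q b p p' η = B q b p' p η)
    (hBA : ∀ q b (p p' : ℕ × ℕ), p.1 = 0 → ∀ η, B q b p p' η = A q b p p' η)
    (ha : 0 < a) (hs : σ.2 ≤ p.1) (f s : ℕ) (ηA ηB ξ : T) {n : ℕ}
    (hne : ∀ i, i < n →
      A σ.1 (2 * (c : ℝ) / a) (chainLab a c p i) (chainLab a c p (i + 1)) ηA ≠ 0)
    {l : ℕ} (hl : 1 ≤ l) (hl' : l ≤ n) (xc η : ℝ) :
    ∀ᶠ k0 : ℝ in 𝓝[>] 0, ∀ x y : ℝ, |x - xc| ≤ η → |y| ≤ 1 →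
      ∃ (F : Fin l → ES (n + 1)) (Λ Λ' : ℝ),
      SepF (op (pen A B d σ a c p (n + 1) x (gG a f s ηA ηB ξ k0 y))) F Λ Λ' := by
  have hK : IsCompact (Set.Icc (xc - η) (xc + η)) := isCompact_Icc
  have hcont : Continuous fun x : ℝ =>
      op (pen A B d σ a c p (n + 1) x (Finsupp.single a ηA)) := by
    have := op_pen_cont (X := ℝ) (N1 := Matrix.diagonal (cD d σ a c p (n + 1)))
      (N2 := cL A B σ a c p (n + 1) (Finsupp.single a ηA)) (N3 := 0)
      (f := fun z => z) (g := fun _ => 1) (h := fun _ => 0) continuous_id continuous_const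
      continuous_const
    refine this.congr fun z => ?_
    rw [pen, smul_zero, add_zero, one_smul]
  obtain ⟨δ, hδ, H⟩ := uniform_gap (l := l) hK hcont.continuousOn (fun x _ => by
    have := (tri_single (d := d) hA hB hBA ha hs ηA (n := n + 1)
      (fun i hi => hne i (by omega)) x 1 one_ne_zero).sep hl hl'
    rwa [one_smul] at this)
  set R1 := op (cL A B σ a c p (n + 1) (Finsupp.single a ηB)) with hR1
  set R2 := op (cL A B σ a c p (n + 1) (Finsupp.single f ξ)) with hR2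
  set C := ‖R1‖ + 2 * ‖R2‖ with hC
  have hC0 : 0 ≤ C := by positivity
  have hev : ∀ᶠ k0 : ℝ in 𝓝[>] 0, k0 * C < δ / 4 := by
    have h1 : Tendsto (fun k0 : ℝ => k0 * C) (𝓝[>] 0) (𝓝 (0 * C)) :=
      (tendsto_id.mul_const C).mono_left nhdsWithin_le_nhds
    rw [zero_mul] at h1
    exact h1.eventually (gt_mem_nhds (by positivity))
  filter_upwards [hev, self_mem_nhdsWithin] with k0 hk0 hk0pos x y hx hy
  have hk00 : 0 < k0 := hk0pos
  obtain ⟨F, Λ, hF⟩ := H x (by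
    rw [abs_le] at hx
    exact ⟨by linarith [hx.1], by linarith [hx.2]⟩)
  have hnorm : ‖op (pen A B d σ a c p (n + 1) x (gG a f s ηA ηB ξ k0 y))
      - op (pen A B d σ a c p (n + 1) x (Finsupp.single a ηA))‖ ≤ δ / 4 := by
    have e1 : op (pen A B d σ a c p (n + 1) x (gG a f s ηA ηB ξ k0 y))
      - op (pen A B d σ a c p (n + 1) x (Finsupp.single a ηA))
      = k0 • (R1 - (sg s * (1 - y)) • R2) := by
      rw [pen_gG, op_add, op_smul, add_sub_cancel_left, hR1, hR2]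
      congr 1
      rw [op_sub, op_smul]
    rw [e1, norm_smul, Real.norm_of_nonneg hk00.le]
    have e2 : ‖R1 - (sg s * (1 - y)) • R2‖ ≤ C := by
      calc ‖R1 - (sg s * (1 - y)) • R2‖ ≤ ‖R1‖ + ‖(sg s * (1 - y)) • R2‖ := norm_sub_le _ _
        _ = ‖R1‖ + |1 - y| * ‖R2‖ := by
            rw [norm_smul, Real.norm_eq_abs, abs_mul, sg_abs, one_mul]
        _ ≤ ‖R1‖ + 2 * ‖R2‖ := by
            have : |1 - y| ≤ 2 := by
              rw [abs_le] at hy ⊢
              exact ⟨by linarith [hy.2], by linarith [hy.1]⟩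
            gcongr
    calc k0 * ‖R1 - (sg s * (1 - y)) • R2‖ ≤ k0 * C := by gcongr
      _ ≤ δ / 4 := hk0.le
  exact ⟨F, _, _, hF.perturb_norm hnorm (by linarith)⟩

end

/-- the gate field in the form used here -/
def GateHyp (A B : ℕ → ℝ → ℕ × ℕ → ℕ × ℕ → T →ₗ[ℝ] ℝ) (OK : ℕ × ℕ → Prop) (a c : ℕ) : Prop :=
  ∀ (q : ℕ) (p : ℕ × ℕ), (∃ s, OK (q, s) ∧ s ≤ p.1) → c ≤ p.2 → p.2 - c < c →
    ∀ F : Finset (ℕ × (ℕ × ℕ)), (∀ z ∈ F, (∃ s, OK (z.1, s)) ∧ c ≤ z.2.2) →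
    ∃ ηA ηB ξ : T,
      (A q (2 * (c : ℝ) / a) p (p.1 + a, p.2 - c) ηA = 0) ∧
      (∀ z ∈ F, z ≠ (q, p) → A z.1 (2 * (c : ℝ) / a) z.2 (z.2.1 + a, z.2.2 - c) ηA ≠ 0) ∧
      (A q (2 * (c : ℝ) / a) p (p.1 + a, p.2 - c) ηB = 1) ∧
      (∀ p₁ : ℕ × ℕ, c ≤ p₁.2 → mu (2 * (c : ℝ) / a) p₁ = mu (2 * (c : ℝ) / a) p → p₁ ≠ p →
        A q (2 * (c : ℝ) / a) p₁ (p₁.1 + a, p₁.2 - c) ηB = 0) ∧
      (∀ p₁ : ℕ × ℕ, mu (2 * (c : ℝ) / a) p₁ = mu (2 * (c : ℝ) / a) p → 2 * p₁.1 = a →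
        B q (2 * (c : ℝ) / a) p₁ p₁ ηB = 0) ∧
      (B q (2 * (c : ℝ) / a) p (p.1 + a, p.2 - c) ξ = 1)

/-- **matrix part of a designated crossing** -/
theorem gateMat {A B : ℕ → ℝ → ℕ × ℕ → ℕ × ℕ → T →ₗ[ℝ] ℝ} {OK : ℕ × ℕ → Prop} (d : ℕ)
    (hA : ∀ q b p p' η, A q b p p' η = A q b p' p η)
    (hB : ∀ q b p p' η, B q b p p' η = B q b p' p η)
    (hBA : ∀ q b (p p' : ℕ × ℕ), p.1 = 0 → ∀ η, B q b p p' η = A q b p p' η)
    {a c : ℕ} (ha : 0 < a) (hc : 0 < c) (hgate : GateHyp A B OK a c)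
    (CC : Finset ((ℕ × ℕ) × (ℕ × ℕ))) (hCC : ∀ z ∈ CC, IsCh OK a z)
    {σ p : ℕ × ℕ} (hz : IsCh OK a (σ, p)) {P kk : ℕ} (hP : P = p.2 / c) (hk : 1 ≤ kk)
    (hkP : kk ≤ P) :
    ∃ (GA GB : ℕ →₀ T) (xc η gap : ℝ) (u : Fin (kk - 1) → ES (P + 1)) (Bv E : ES (P + 1)),
      GA 0 = 0 ∧ GB 0 = 0 ∧ 0 < η ∧ 0 < gap ∧ Orthonormal ℝ (Sum.elim u ![Bv, E]) ∧
      (∀ y : ℝ, |y| ≤ 1 → ∃ Λ : ℝ, SepF (op (pen A B d σ a c p (P + 1) (xc - η) (GA + y • GB)))
        (Fin.snoc (α := fun _ => ES (P + 1)) u E) Λ (Λ + gap)) ∧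
      (∀ y : ℝ, |y| ≤ 1 → ∃ Λ : ℝ, SepF (op (pen A B d σ a c p (P + 1) (xc + η) (GA + y • GB)))
        (Fin.snoc (α := fun _ => ES (P + 1)) u Bv) Λ (Λ + gap)) ∧
      (∀ t κ : ℝ, |t| ≤ 1 → (κ = 1 ∨ κ = -1) → ∃ Λ : ℝ,
        SepF (op (pen A B d σ a c p (P + 1) (xc - t * η) (GA + κ • GB)))
        (Fin.snoc (α := fun _ => ES (P + 1)) u
          (Real.cos (Real.pi / 4 * (1 + t)) • Bv - (κ * Real.sin (Real.pi / 4 * (1 + t))) • E))
        Λ (Λ + gap)) ∧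
      (∀ l, 1 ≤ l → l ≤ P → l ≠ kk → ∀ x y : ℝ, |x - xc| ≤ η → |y| ≤ 1 →
        ∃ (F : Fin l → ES (P + 1)) (Λ Λ' : ℝ),
          SepF (op (pen A B d σ a c p (P + 1) x (GA + y • GB))) F Λ Λ') ∧
      (∀ z ∈ CC, z ≠ (σ, p) → ∀ n, n = z.2.2 / c → ∀ l, 1 ≤ l → l ≤ n →
        ∀ x y : ℝ, |x - xc| ≤ η → |y| ≤ 1 → ∃ (F : Fin l → ES (n + 1)) (Λ Λ' : ℝ),
          SepF (op (pen A B d z.1 a c z.2 (n + 1) x (GA + y • GB))) F Λ Λ') ∧
      (∀ z ∈ insert (σ, p) CC, ∀ n, n = z.2.2 / c → ∀ l, 1 ≤ l → l ≤ n →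
        ∀ x t : ℝ, (x ≠ 0 ∨ t ≠ 0) → ∃ (F : Fin l → ES (n + 1)) (Λ Λ' : ℝ),
          SepF (op (pen A B d z.1 a c z.2 (n + 1) x (t • (GA + GB)))) F Λ Λ') := by
  classical
  obtain ⟨k, rfl⟩ : ∃ k, kk = k + 1 := ⟨kk - 1, by omega⟩
  obtain ⟨q, rfl⟩ : ∃ q, P = q + 1 := ⟨P - 1, by omega⟩
  have hkq : k ≤ q := by omega
  have hsp : σ.2 ≤ p.1 := hz.ge
  have hpa : p.1 < a + σ.2 := hz.lt
  have hs1 : σ.2 ≤ 1 := hz.le_one
  -- the top link
  set pt := chainLab a c p q with hpt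
  have hpt1 : chainLab a c p (q + 1) = (pt.1 + a, pt.2 - c) := chainLab_succ a c p q
  have hqc : q * c ≤ p.2 := (Nat.le_div_iff_mul_le hc).1 (by omega)
  have hq1c : (q + 1) * c ≤ p.2 := (Nat.le_div_iff_mul_le hc).1 (by omega)
  have hq2c : p.2 < (q + 1 + 1) * c := by
    rw [← Nat.div_lt_iff_lt_mul hc, ← hP]; omega
  have hcpt : c ≤ pt.2 := link_snd hc (by omega)
  have hptc : pt.2 - c < c := by
    have : pt.2 = p.2 - q * c := rfl
    rw [this]
    simp only [Nat.add_mul, one_mul] at hq1c hq2c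
    omega
  have hlevel : ∀ {p' : ℕ × ℕ} {i n : ℕ}, n = p'.2 / c → i ≤ n →
      mu (2 * (c : ℝ) / a) (chainLab a c p' i) = mu (2 * (c : ℝ) / a) p' := by
    intro p' i n hn hi
    exact mu_chainLab ha ((Nat.le_div_iff_mul_le hc).1 (by omega))
  obtain ⟨ηA, ηB, ξ, g1, g2, g3, g4, g5, g6⟩ := hgate σ.1 pt
    ⟨σ.2, hz.ok, by rw [hpt, chainLab_fst]; omega⟩ hcpt hptc
    ((insert (σ, p) CC).biUnion (links a c)) (fun y hy => by
      obtain ⟨z, hz', hy⟩ := Finset.mem_biUnion.1 hy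
      obtain ⟨i, hi, rfl⟩ := mem_links.1 hy
      refine ⟨⟨z.1.2, ?_⟩, link_snd hc hi⟩
      rcases Finset.mem_insert.1 hz' with rfl | hz'
      · exact hz.ok
      · exact (hCC z hz').ok)
  have hCC' : ∀ z ∈ insert (σ, p) CC, IsCh OK a z := by
    intro z hz'
    rcases Finset.mem_insert.1 hz' with rfl | hz'
    · exact hz
    · exact hCC z hz'
  set f := (chainLab a c p (q + 1)).1 + (chainLab a c p q).1 with hf
  -- links
  have hlinkA : ∀ z ∈ insert (σ, p) CC, ∀ i < z.2.2 / c, (z.1.1, chainLab a c z.2 i) ≠ (σ.1, pt) →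
      A z.1.1 (2 * (c : ℝ) / a) (chainLab a c z.2 i) (chainLab a c z.2 (i + 1)) ηA ≠ 0 := by
    intro z hz' i hi hne
    rw [chainLab_succ]
    exact g2 _ (Finset.mem_biUnion.2 ⟨z, hz', mem_links.2 ⟨i, hi, rfl⟩⟩) hne
  have hlow : ∀ {p' : ℕ × ℕ} {q' i : ℕ}, i < q' → chainLab a c p' q' = pt →
      chainLab a c p' i ≠ pt := by
    intro p' q' i hi h1 h2
    have := chainLab_inj ha (h2.trans h1.symm)
    omega
  -- data of a chain whose top link is `pt`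
  have hdes : ∀ z ∈ insert (σ, p) CC, z.1.1 = σ.1 → ∀ q', q' + 1 = z.2.2 / c →
      chainLab a c z.2 q' = pt →
      (A z.1.1 (2 * (c : ℝ) / a) (chainLab a c z.2 q') (chainLab a c z.2 (q' + 1)) ηA = 0) ∧
      (∀ i, i < q' →
        A z.1.1 (2 * (c : ℝ) / a) (chainLab a c z.2 i) (chainLab a c z.2 (i + 1)) ηA ≠ 0) ∧
      (A z.1.1 (2 * (c : ℝ) / a) (chainLab a c z.2 q') (chainLab a c z.2 (q' + 1)) ηB = 1) ∧
      (∀ i, i < q' →
        A z.1.1 (2 * (c : ℝ) / a) (chainLab a c z.2 i) (chainLab a c z.2 (i + 1)) ηB = 0) ∧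
      (2 * z.2.1 = a → B z.1.1 (2 * (c : ℝ) / a) z.2 z.2 ηB = 0) ∧
      (B z.1.1 (2 * (c : ℝ) / a) (chainLab a c z.2 q') (chainLab a c z.2 (q' + 1)) ξ = 1) := by
    intro z hz' hz1 q' hq' htop
    have hmu : mu (2 * (c : ℝ) / a) z.2 = mu (2 * (c : ℝ) / a) pt := by
      rw [← htop, hlevel hq' (Nat.le_succ q')]
    refine ⟨?_, ?_, ?_, ?_, ?_, ?_⟩
    · rw [chainLab_succ, htop, hz1]; exact g1
    · intro i hi
      refine hlinkA z hz' i (by omega) ?_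
      intro h
      exact hlow hi htop (congrArg Prod.snd h)
    · rw [chainLab_succ, htop, hz1]; exact g3
    · intro i hi
      rw [chainLab_succ, hz1]
      refine g4 _ (link_snd hc (by omega)) ?_ (hlow hi htop)
      rw [hlevel hq' (by omega), hmu]
    · intro h2
      rw [hz1]
      exact g5 _ hmu h2
    · rw [chainLab_succ, htop, hz1]; exact g6
  obtain ⟨d1, d2, d3, d4, d5, d6⟩ := hdes (σ, p) (Finset.mem_insert_self _ _) rfl q hP rfl
  obtain ⟨hiso, hpen⟩ := designated (d := d) hA hB hBA ha hc hsp (q := q) (by omega) d1 d2 d3 d4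
    d5 d6
  obtain ⟨xc, u, Bv, η, horth, hη, W⟩ := windowT hiso k hkq
  obtain ⟨y₀, hy₀, W⟩ := W η hη le_rfl
  -- classification of the other chains
  have hclass : ∀ z ∈ CC, z ≠ (σ, p) → ∀ n, n = z.2.2 / c → ∀ l, 1 ≤ l → l ≤ n →
      ∀ᶠ k0 : ℝ in 𝓝[>] 0, ∀ x y : ℝ, |x - xc| ≤ η → |y| ≤ 1 →
        ∃ (F : Fin l → ES (n + 1)) (Λ Λ' : ℝ),
        SepF (op (pen A B d z.1 a c z.2 (n + 1) x (gG a f σ.2 ηA ηB ξ k0 y))) F Λ Λ' := by
    intro z hzC hzne n hn l hl hl'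
    obtain ⟨q', rfl⟩ : ∃ q', n = q' + 1 := ⟨n - 1, by omega⟩
    have hz' : z ∈ insert (σ, p) CC := Finset.mem_insert_of_mem hzC
    have hzc := hCC z hzC
    by_cases htw : z.1.1 = σ.1 ∧ chainLab a c z.2 q' = pt
    · -- the twin chain
      obtain ⟨hz1, htop⟩ := htw
      obtain ⟨t1, t2, t3, t4, t5, t6⟩ := hdes z hz' hz1 q' hn htop
      have hne2 : z.1.2 ≠ σ.2 := by
        intro h2
        apply hzne
        have h3 : z.2.1 + q' * a = p.1 + q * a := congrArg Prod.fst htop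
        have h4 : z.2.1 < a + σ.2 := by rw [← h2]; exact hzc.lt
        have h5 : σ.2 ≤ z.2.1 := by rw [← h2]; exact hzc.ge
        have hqq : q' = q := by
          by_contra hcon
          rcases Nat.lt_or_gt_of_ne hcon with h | h
          · have : (q' + 1) * a ≤ q * a := Nat.mul_le_mul_right a h
            rw [Nat.add_mul, one_mul] at this
            omega
          · have : (q + 1) * a ≤ q' * a := Nat.mul_le_mul_right a h
            rw [Nat.add_mul, one_mul] at this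
            omega
        subst hqq
        have h6 : z.2.2 - q' * c = p.2 - q' * c := congrArg Prod.snd htop
        have h7 : q' * c ≤ z.2.2 := (Nat.le_div_iff_mul_le hc).1 (by omega)
        refine Prod.ext (Prod.ext hz1 h2) (Prod.ext ?_ ?_)
        · show z.2.1 = p.1
          omega
        · show z.2.2 = p.2
          omega
      have hfe : f = (chainLab a c z.2 (q' + 1)).1 + (chainLab a c z.2 q').1 := by
        rw [hf, chainLab_succ, chainLab_succ, htop]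
      filter_upwards [self_mem_nhdsWithin] with k0 hk0 x y hx hy
      rw [hfe]
      refine (twin (d := d) hA hB hBA ha hzc.ge hzc.le_one hs1 hne2 ?_ t1 t2 t3 t4 t5 t6
        k0 x y hk0 ?_).sep hl hl'
      · rw [htop, hpt, chainLab_fst]; omega
      · linarith [(abs_le.1 hy).2]
    · refine other_eventually hA hB hBA ha hzc.ge f σ.2 ηA ηB ξ (fun i hi => ?_) hl hl' xc η
      refine hlinkA z hz' i (by omega) ?_
      intro h
      have h1 : z.1.1 = σ.1 := (Prod.ext_iff.1 h).1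
      have h2 : chainLab a c z.2 i = pt := (Prod.ext_iff.1 h).2
      rcases Nat.lt_or_ge i q' with h3 | h3
      · -- the second coordinate is too large
        have h4 : (chainLab a c z.2 i).2 = pt.2 := congrArg Prod.snd h2
        rw [chainLab_snd] at h4
        have h5 : (q' + 1) * c ≤ z.2.2 := (Nat.le_div_iff_mul_le hc).1 (by omega)
        have h6 : (i + 1) * c ≤ q' * c := Nat.mul_le_mul_right c h3
        simp only [Nat.add_mul, one_mul] at h5 h6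
        omega
      · have : i = q' := by omega
        exact htw ⟨h1, this ▸ h2⟩
  -- the links at `y = 1`
  have hev1 : ∀ z ∈ insert (σ, p) CC, ∀ i < z.2.2 / c, ∀ᶠ k0 : ℝ in 𝓝[>] 0,
      A z.1.1 (2 * (c : ℝ) / a) (chainLab a c z.2 i) (chainLab a c z.2 (i + 1))
        (ηA + k0 • ηB) ≠ 0 := by
    intro z hz' i hi
    by_cases h : (z.1.1, chainLab a c z.2 i) = (σ.1, pt)
    · have h1 : z.1.1 = σ.1 := (Prod.ext_iff.1 h).1
      have h2 : chainLab a c z.2 i = pt := (Prod.ext_iff.1 h).2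
      filter_upwards [self_mem_nhdsWithin] with k0 hk0
      rw [chainLab_succ, h1, h2, map_add, map_smul, g1, g3, zero_add, smul_eq_mul, mul_one]
      exact (ne_of_gt hk0)
    · have h1 := hlinkA z hz' i hi h
      have h2 : Tendsto (fun k0 : ℝ =>
          A z.1.1 (2 * (c : ℝ) / a) (chainLab a c z.2 i) (chainLab a c z.2 (i + 1)) ηA +
          k0 * A z.1.1 (2 * (c : ℝ) / a) (chainLab a c z.2 i) (chainLab a c z.2 (i + 1)) ηB)
          (𝓝[>] 0) (𝓝 (A z.1.1 (2 * (c : ℝ) / a) (chainLab a c z.2 i)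
            (chainLab a c z.2 (i + 1)) ηA + 0 *
            A z.1.1 (2 * (c : ℝ) / a) (chainLab a c z.2 i) (chainLab a c z.2 (i + 1)) ηB)) :=
        (tendsto_const_nhds.add (tendsto_id.mul_const _)).mono_left nhdsWithin_le_nhds
      rw [zero_mul, add_zero] at h2
      filter_upwards [h2.eventually_ne h1] with k0 hk0
      rw [map_add, map_smul, smul_eq_mul]
      exact hk0
  -- choose k0
  have hwt : 0 < wt pt := by unfold wt; split_ifs <;> norm_num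
  have hE1 : ∀ᶠ k0 : ℝ in 𝓝[>] 0, wt pt * k0 < y₀ := by
    have h1 : Tendsto (fun k0 : ℝ => wt pt * k0) (𝓝[>] 0) (𝓝 (wt pt * 0)) :=
      (tendsto_id.const_mul _).mono_left nhdsWithin_le_nhds
    rw [mul_zero] at h1
    exact h1.eventually (gt_mem_nhds hy₀)
  have hE2 : ∀ᶠ k0 : ℝ in 𝓝[>] 0, ∀ z ∈ insert (σ, p) CC, ∀ i ∈ Finset.range (z.2.2 / c),
      A z.1.1 (2 * (c : ℝ) / a) (chainLab a c z.2 i) (chainLab a c z.2 (i + 1))
        (ηA + k0 • ηB) ≠ 0 := by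
    rw [Filter.eventually_all_finset]
    intro z hz'
    rw [Filter.eventually_all_finset]
    intro i hi
    exact hev1 z hz' i (Finset.mem_range.1 hi)
  have hE3 : ∀ᶠ k0 : ℝ in 𝓝[>] 0, ∀ z ∈ CC, ∀ l ∈ Finset.range (z.2.2 / c + 1), z ≠ (σ, p) →
      1 ≤ l → ∀ x y : ℝ, |x - xc| ≤ η → |y| ≤ 1 →
        ∃ (F : Fin l → ES (z.2.2 / c + 1)) (Λ Λ' : ℝ),
        SepF (op (pen A B d z.1 a c z.2 (z.2.2 / c + 1) x (gG a f σ.2 ηA ηB ξ k0 y))) F Λ Λ' := by
    rw [Filter.eventually_all_finset]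
    intro z hz'
    rw [Filter.eventually_all_finset]
    intro l hl
    by_cases h1 : z = (σ, p)
    · exact Filter.Eventually.of_forall fun k0 h => absurd h1 h
    by_cases h2 : 1 ≤ l
    · filter_upwards [hclass z hz' h1 _ rfl l h2 (by have := Finset.mem_range.1 hl; omega)] with
        k0 hk0 _ _ using hk0
    · exact Filter.Eventually.of_forall fun k0 _ h => absurd h h2
  obtain ⟨k0, ⟨⟨hk1, hk2⟩, hk3⟩, hk4⟩ :=
    (((hE1.and hE2).and hE3).and self_mem_nhdsWithin).exists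
  have hk00 : 0 < k0 := hk4
  have hyb : 0 < wt pt * k0 := mul_pos hwt hk00
  obtain ⟨δ, hδ, W1, W2, W3, W4⟩ := W (wt pt * k0) hyb hk1.le
  have hG : ∀ y : ℝ, gG a f σ.2 ηA ηB ξ k0 0 + y • ((sg σ.2 * k0) • Finsupp.single f ξ)
      = gG a f σ.2 ηA ηB ξ k0 y := fun y => (gG_affine a f σ.2 ηA ηB ξ k0 y).symm
  have hf0 : 0 < f := by
    rw [hf, chainLab_fst]
    have : 0 < (q + 1) * a := Nat.mul_pos (Nat.succ_pos q) ha
    omega
  have hyabs : ∀ y : ℝ, |y| ≤ 1 → |wt pt * k0 * y| ≤ wt pt * k0 := by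
    intro y hy
    rw [abs_mul, abs_of_pos hyb]
    exact mul_le_of_le_one_right hyb.le hy
  refine ⟨gG a f σ.2 ηA ηB ξ k0 0, (sg σ.2 * k0) • Finsupp.single f ξ, xc, η, δ, u, Bv, eL,
    gG_zero_eq ha hf0 _ _ _ _ _ _, ?_, hη, hδ, orthonormal_elim horth, ?_, ?_, ?_, ?_, ?_, ?_⟩
  · rw [Finsupp.smul_apply, Finsupp.single_apply, if_neg (by omega), smul_zero]
  · intro y hy
    rw [hG, hpen]
    obtain ⟨Λ, hΛ⟩ := W2 (wt pt * k0 * y) (-1) (hyabs y hy) (Or.inr rfl)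
    refine ⟨Λ, ?_⟩
    have e : rotF u Bv eL (Real.pi / 2) (-1) = Fin.snoc (α := fun _ => ES (q + 2)) u eL := by
      unfold rotF
      congr 1
      simp [Real.cos_pi_div_two, Real.sin_pi_div_two]
    rw [e] at hΛ
    exact hΛ
  · intro y hy
    rw [hG, hpen]
    obtain ⟨Λ, hΛ⟩ := W1 (wt pt * k0 * y) 1 (hyabs y hy) (Or.inl rfl)
    refine ⟨Λ, ?_⟩
    have e : rotF u Bv eL 0 1 = Fin.snoc (α := fun _ => ES (q + 2)) u Bv := by
      unfold rotF
      congr 1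
      simp
    rw [e] at hΛ
    exact hΛ
  · intro t κ ht hκ
    rw [hG, hpen]
    obtain ⟨Λ, hΛ⟩ := W3 t κ ht hκ
    refine ⟨Λ, ?_⟩
    rw [mul_comm (wt pt * k0) κ]
    exact hΛ
  · intro l hl hl' hlk x y hx hy
    rw [hG, hpen]
    obtain ⟨F, Λ, hF⟩ := W4 l hl hl' hlk x (wt pt * k0 * y) hx (hyabs y hy)
    exact ⟨F, Λ, _, hF⟩
  · rintro z hzC hzne n rfl l hl hl' x y hx hy
    rw [hG]
    exact hk3 z hzC l (Finset.mem_range.2 (by omega)) hzne hl x y hx hy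
  · rintro z hzC n rfl l hl hl' x t hxt
    have e : gG a f σ.2 ηA ηB ξ k0 0 + (sg σ.2 * k0) • Finsupp.single f ξ
        = Finsupp.single a (ηA + k0 • ηB) := by
      have := hG 1
      rw [one_smul] at this
      rw [this, gG_one]
    rw [e]
    exact open_ne hA hB hBA ha hc (hCC' z hzC).ge _ le_rfl
      (fun i hi => hk2 z hzC i (Finset.mem_range.2 hi)) hl hl' x t hxt

end Crest.Agent.R202.Jac
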