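import Crest.Agent.R202.GateMatDefs
import Crest.Agent.R202.JacWinMat

/-!
# Row 202, PART C: the matrix part (`MatPass`, `MatGate`)
-/

set_option autoImplicit false

noncomputable section

open Filter Topology Set Module
open scoped InnerProductSpace
open Crest.Agent.R202.Lab Crest.Agent.R202.Cut Crest.Agent.R202.Jac

namespace Crest.Agent.R202.SF

variable {d : ℕ} {b0 b1 : ℝ} {OK : ℕ × ℕ → Prop} {T : Type*} [AddCommGroup T] [Module ℝ T]
  {V : ℕ × ℕ → Type*} [∀ σ, AddCommGroup (V σ)] [∀ σ, Module ℝ (V σ)]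

theorem SpindleFamily.XC_eq (F : SpindleFamily d b0 b1 OK T V) (q : ℕ) {a c s l : ℕ}
    (C : Cls a c s l) (x : ℝ) (G : ℕ →₀ T) :
    F.XC q C x G = pen F.A F.B d (q, s) a c C.p.1 (C.P + 1) x G := by
  ext i j
  rw [pen_apply]
  rfl

/-- finitely many chain starts -/
def starts (b : ℝ) (hb : 0 < b) (a : ℕ) (S : Finset (ℕ × ℕ)) (N : ℕ × ℕ → ℕ) :
    Finset ((ℕ × ℕ) × (ℕ × ℕ)) := by
  classical
  exact S.biUnion fun σ => (((finite_le hb (b * σ.2 + 2 * N σ)).toFinset).filter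
    fun p => σ.2 ≤ p.1 ∧ p.1 < a + σ.2).image fun p => (σ, p)

theorem mem_starts {b : ℝ} {hb : 0 < b} {a : ℕ} {S : Finset (ℕ × ℕ)} {N : ℕ × ℕ → ℕ}
    {z : (ℕ × ℕ) × (ℕ × ℕ)} : z ∈ starts b hb a S N ↔
      z.1 ∈ S ∧ mu b z.2 ≤ b * z.1.2 + 2 * N z.1 ∧ z.1.2 ≤ z.2.1 ∧ z.2.1 < a + z.1.2 := by
  classical
  unfold starts
  simp only [Finset.mem_biUnion, Finset.mem_image, Finset.mem_filter, Set.Finite.mem_toFinset,
    mem_ofPred_eq]
  constructor
  · rintro ⟨σ, hσ, p, ⟨h1, h2, h3⟩, rfl⟩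
    exact ⟨hσ, h1, h2, h3⟩
  · rintro ⟨h1, h2, h3, h4⟩
    exact ⟨z.1, h1, z.2, ⟨h2, h3, h4⟩, rfl⟩

/-- the class of a cut `l ≤ N` starts in a bounded set -/
theorem Cls.mem_starts {a c s l N : ℕ} (hb : 0 < 2 * (c : ℝ) / a) (C : Cls a c s l)
    (hl : l ≤ N) : mu (2 * (c : ℝ) / a) C.p.1 ≤ 2 * (c : ℝ) / a * s + 2 * N := by
  by_contra hcon
  rw [not_le] at hcon
  have hinj : Function.Injective fun j : ℕ => (⟨(s, j), le_refl s⟩ : Lbl s) := by
    intro i j hij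
    have := congrArg (fun q : Lbl s => q.1.2) hij
    exact this
  have hsub : (Finset.range (N + 1)).map ⟨_, hinj⟩ ⊆ C.S := by
    intro q hq
    obtain ⟨j, hj, rfl⟩ := Finset.mem_map.1 hq
    rw [C.mem_S]
    refine lt_of_le_of_lt ?_ hcon
    have hj' : (j : ℝ) ≤ N := by
      exact_mod_cast Nat.lt_succ_iff.1 (Finset.mem_range.1 hj)
    show mu (2 * (c : ℝ) / a) (s, j) ≤ _
    unfold mu
    simp only
    linarith
  have h1 := Finset.card_le_card hsub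
  rw [Finset.card_map, Finset.card_range] at h1
  have := C.card
  have := C.kk_pos
  omega

theorem isCh_starts {b : ℝ} {hb : 0 < b} {a : ℕ} {S : Finset (ℕ × ℕ)} {N : ℕ × ℕ → ℕ}
    (hS : ∀ σ ∈ S, OK σ ∧ σ.2 ≤ 1) : ∀ z ∈ starts b hb a S N, IsCh OK a z := by
  intro z hz
  obtain ⟨h1, -, h3, h4⟩ := SF.mem_starts.1 hz
  exact ⟨(hS _ h1).1, (hS _ h1).2, h3, h4⟩

theorem cls_mem {a c : ℕ} {S : Finset (ℕ × ℕ)} {N : ℕ × ℕ → ℕ} (hb : 0 < 2 * (c : ℝ) / a)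
    {σ : ℕ × ℕ} (hσ : σ ∈ S) {l : ℕ} (hl : l ≤ N σ) (C : Cls a c σ.2 l) :
    (σ, C.p.1) ∈ starts (2 * (c : ℝ) / a) hb a S N :=
  SF.mem_starts.2 ⟨hσ, C.mem_starts hb hl, C.p.2, C.first⟩

/-- **(MAT-1)** -/
theorem matPass (F : SpindleFamily d b0 b1 OK T V) : MatPass F := by
  intro a c ha hc hcop hb S N hS
  have hbpos : 0 < 2 * (c : ℝ) / a := by positivity
  obtain ⟨η, hη⟩ := F.link a c ha hc hcop hb
    ((starts _ hbpos a S N).biUnion (links a c)) (fun y hy => by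
      obtain ⟨z, hz, hy⟩ := Finset.mem_biUnion.1 hy
      obtain ⟨i, hi, rfl⟩ := mem_links.1 hy
      exact ⟨⟨z.1.2, (isCh_starts hS z hz).ok⟩, link_snd hc hi⟩)
  refine ⟨Finsupp.single a η, by simp [ha.ne'], ?_⟩
  intro σ hσ l hl C x t _ hxt
  have hmem := cls_mem hbpos hσ hl C
  unfold SpindleFamily.MOpen
  rw [F.XC_eq]
  exact open_ne (A := F.A) (B := F.B) (σ := σ) F.A_symm F.B_symm F.B_eq_A ha hc C.p.2 η le_rfl
    (fun i hi => by
      rw [chainLab_succ]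
      exact hη _ (Finset.mem_biUnion.2 ⟨_, hmem, mem_links.2 ⟨i, hi, rfl⟩⟩))
    C.kk_pos C.kk_le x t hxt

/-- two cuts in the same class -/
theorem Cls.eq_cut {a c s l l' : ℕ} (C : Cls a c s l) (C' : Cls a c s l')
    (hp : C'.p.1 = C.p.1) (hk : C'.kk = C.kk) : l' = l := by
  have hS : C'.S = C.S := by
    ext q
    rw [C.mem_S, C'.mem_S]
    have : mu (2 * (c : ℝ) / a) C'.p = mu (2 * (c : ℝ) / a) C.p := by rw [hp]
    rw [this]
  rw [C.card, C'.card, hS, hk]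

/-- **(MAT-2)** -/
theorem matGate (F : SpindleFamily d b0 b1 OK T V) : MatGate F := by
  intro a c ha hc hcop hb S N hS σs ls hσs hls Cs
  have hbpos : 0 < 2 * (c : ℝ) / a := by positivity
  have hgate : GateHyp F.A F.B OK a c := F.gate a c ha hc hcop hb
  have hch : IsCh OK a (σs, Cs.p.1) := ⟨(hS _ hσs).1, (hS _ hσs).2, Cs.p.2, Cs.first⟩
  obtain ⟨GA, GB, xc, η, gap, u, Bv, E, hA0, hB0, hη, hgap, horth, hL, hR, hM, hO, hOC, hAp⟩ :=
    gateMat d F.A_symm F.B_symm F.B_eq_A ha hc hgate (starts _ hbpos a S N) (isCh_starts hS)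
      hch (P := Cs.P) (kk := Cs.kk) rfl Cs.kk_pos Cs.kk_le
  have hdes := cls_mem hbpos hσs hls Cs
  refine ⟨{
    GA := GA
    GB := GB
    freqA := hA0
    freqB := hB0
    xL := xc - η
    xR := xc + η
    xlt := by linarith
    appr := ?_
    other := ?_
    kp := by have := Cs.kk_pos; omega
    u := u
    B := Bv
    E := E
    orth := horth
    gap := gap
    gap_pos := hgap
    left := ?_
    right := ?_
    mid := ?_ }⟩
  · intro σ hσ l hl C x t _ hxt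
    unfold SpindleFamily.MOpen
    rw [F.XC_eq]
    exact hAp (σ, C.p.1) (Finset.mem_insert_of_mem (cls_mem hbpos hσ hl C)) C.P rfl C.kk
      C.kk_pos C.kk_le x t hxt
  · intro σ hσ l hl hne C x hx κ hκ
    have hx' : |x - xc| ≤ η := by rw [abs_le]; constructor <;> linarith [hx.1, hx.2]
    have hκ' : |κ| ≤ 1 := by rw [abs_le]; exact ⟨by linarith [hκ.1], hκ.2⟩
    unfold SpindleFamily.MOpen
    rw [F.XC_eq]
    by_cases h : (σ, C.p.1) = (σs, Cs.p.1)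
    · have h1 : σ = σs := (Prod.ext_iff.1 h).1
      subst h1
      have h2 : C.p.1 = Cs.p.1 := (Prod.ext_iff.1 h).2
      have h3 : C.kk ≠ Cs.kk := by
        intro hk
        apply hne
        rw [Cs.eq_cut C h2 hk]
      have h4 : C.P = Cs.P := by
        show C.p.1.2 / c = Cs.p.1.2 / c
        rw [h2]
      have h5 := hO C.kk C.kk_pos (by rw [← h4]; exact C.kk_le) h3 x κ hx' hκ'
      rw [h4, h2]
      exact h5
    · exact hOC (σ, C.p.1) (cls_mem hbpos hσ hl C) h C.P rfl C.kk C.kk_pos C.kk_le x κ hx' hκ'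
  · intro κ hκ
    rw [F.XC_eq]
    exact hL κ (by rw [abs_le]; exact ⟨by linarith [hκ.1], hκ.2⟩)
  · intro κ hκ
    rw [F.XC_eq]
    exact hR κ (by rw [abs_le]; exact ⟨by linarith [hκ.1], hκ.2⟩)
  · intro κ hκ s hs
    obtain ⟨Λ, hΛ⟩ := hM (1 - 2 * s) κ (by rw [abs_le]; constructor <;> linarith [hs.1, hs.2]) hκ
    refine ⟨Λ, ?_⟩
    rw [F.XC_eq, show (1 - s) * (xc - η) + s * (xc + η) = xc - (1 - 2 * s) * η by ring,
      show Real.pi / 2 * (1 - s) = Real.pi / 4 * (1 + (1 - 2 * s)) by ring]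
    exact hΛ

end Crest.Agent.R202.SF
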