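import Crest.Agent.R202.GateAux

/-!
# Row 202, PART C: the approach path avoiding the resonances
-/

set_option autoImplicit false

noncomputable section

open Filter Topology Set Module
open scoped InnerProductSpace
open Crest.Agent.R202.Lab Crest.Agent.R202.Cut Crest.Agent.R202.Jac

namespace Crest.Agent.R202.SF

variable {d : ℕ} {b0 b1 : ℝ} {OK : ℕ × ℕ → Prop} {T : Type*} [AddCommGroup T] [Module ℝ T]
  {V : ℕ × ℕ → Type*} [∀ σ, AddCommGroup (V σ)] [∀ σ, Module ℝ (V σ)]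

/-- a polygon from `(y1, 0)` to `(y2, 0)` along which all cuts stay open -/
def Reach (F : SpindleFamily d b0 b1 OK T V) (S : Finset (ℕ × ℕ)) (N : ℕ × ℕ → ℕ) (δ y1 y2 : ℝ) :
    Prop :=
  ∃ (r : ℕ) (vb : ℕ → ℝ) (G : ℕ → (ℕ →₀ T)) (K : ℕ), vb 0 = y1 ∧ G 0 = 0 ∧
    vb r = y2 ∧ G r = 0 ∧ (∀ i, vb i ∈ Icc b0 b1 ∧ G i 0 = 0 ∧ F.sz (G i) ≤ δ) ∧
    ∀ k, K ≤ k → ∀ i < r, ∀ s ∈ Icc (0 : ℝ) 1, ∀ σ ∈ S, ∀ l ≤ N σ,
      F.OpenAt σ ((1 - s) * vb i + s * vb (i + 1)) ((1 - s) • G i + s • G (i + 1)) k l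

/-- a path from `y1` to `y2` along which all cuts stay open -/
def Approach (F : SpindleFamily d b0 b1 OK T V) : Prop :=
  ∀ (S : Finset (ℕ × ℕ)) (N : ℕ × ℕ → ℕ), (∀ σ ∈ S, OK σ ∧ σ.2 ≤ 1) → ∀ δ : ℝ, 0 < δ →
  ∀ y1 ∈ Icc b0 b1, ∀ y2 ∈ Icc b0 b1, y1 ≤ y2 → (∀ σ ∈ S, ∀ l ≤ N σ, ¬ Closed y1 σ.2 l) →
    (∀ σ ∈ S, ∀ l ≤ N σ, ¬ Closed y2 σ.2 l) → Reach F S N δ y1 y2

variable {F : SpindleFamily d b0 b1 OK T V}

theorem SpindleFamily.sz_zero (F : SpindleFamily d b0 b1 OK T V) : F.sz 0 = 0 := by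
  have := F.sz_smul 0 0
  rwa [zero_smul, abs_zero, zero_mul] at this

theorem Reach.trans {S : Finset (ℕ × ℕ)} {N : ℕ × ℕ → ℕ} {δ y1 y2 y3 : ℝ}
    (h : Reach F S N δ y1 y2) (h' : Reach F S N δ y2 y3) : Reach F S N δ y1 y3 := by
  obtain ⟨r, vb, G, K, h1, h2, h3, h4, h5, h6⟩ := h
  obtain ⟨r', vb', G', K', h1', h2', h3', h4', h5', h6'⟩ := h'
  have hv : ∀ j, (if r + j ≤ r then vb (r + j) else vb' (r + j - r)) = vb' j := by
    intro j
    rcases Nat.eq_zero_or_pos j with rfl | hj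
    · rw [add_zero, if_pos le_rfl, h3, h1']
    · rw [if_neg (by omega), Nat.add_sub_cancel_left]
  have hG : ∀ j, (if r + j ≤ r then G (r + j) else G' (r + j - r)) = G' j := by
    intro j
    rcases Nat.eq_zero_or_pos j with rfl | hj
    · rw [add_zero, if_pos le_rfl, h4, h2']
    · rw [if_neg (by omega), Nat.add_sub_cancel_left]
  refine ⟨r + r', fun i => if i ≤ r then vb i else vb' (i - r),
    fun i => if i ≤ r then G i else G' (i - r), max K K', ?_, ?_, ?_, ?_, ?_, ?_⟩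
  · simp only [Nat.zero_le, if_true]; exact h1
  · simp only [Nat.zero_le, if_true]; exact h2
  · exact (hv r').trans h3'
  · exact (hG r').trans h4'
  · intro i
    by_cases hi : i ≤ r
    · simp only [hi, if_true]; exact h5 i
    · simp only [hi, if_false]; exact h5' _
  · intro k hk i hi s hs σ hσ l hl
    rcases lt_or_ge i r with hir | hir
    · simp only [hir.le, if_true, (by omega : i + 1 ≤ r)]
      exact h6 k ((le_max_left _ _).trans hk) i hir s hs σ hσ l hl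
    · obtain ⟨j, rfl⟩ : ∃ j, i = r + j := ⟨i - r, by omega⟩
      have e1 := hv j
      have e2 := hv (j + 1)
      have e3 := hG j
      have e4 := hG (j + 1)
      simp only [← add_assoc] at e2 e4
      simp only
      rw [e1, e2, e3, e4]
      exact h6' k ((le_max_right _ _).trans hk) j (by omega) s hs σ hσ l hl

/-- straight edge over an interval without resonance -/
theorem reach_straight (hb0 : 0 < b0) {S : Finset (ℕ × ℕ)} {N : ℕ × ℕ → ℕ}
    (hS : ∀ σ ∈ S, OK σ ∧ σ.2 ≤ 1) {δ : ℝ} (hδ : 0 < δ) {y1 y2 : ℝ} (h1 : y1 ∈ Icc b0 b1)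
    (h2 : y2 ∈ Icc b0 b1) (h12 : y1 ≤ y2)
    (hnc : ∀ y ∈ Icc y1 y2, ∀ σ ∈ S, ∀ l ≤ N σ, ¬ Closed y σ.2 l) : Reach F S N δ y1 y2 := by
  classical
  have hsub : Icc y1 y2 ⊆ Icc b0 b1 := Icc_subset_Icc h1.1 h2.2
  have hcpt : ∀ᶠ k in atTop, ∀ y ∈ Icc y1 y2, ∀ σ ∈ S, ∀ l ≤ N σ, F.OpenAt σ y 0 k l := by
    refine isCompact_Icc.induction_on (p := fun s => ∀ᶠ k in atTop, ∀ y ∈ s, ∀ σ ∈ S, ∀ l ≤ N σ,
      F.OpenAt σ y 0 k l) ?_ ?_ ?_ ?_
    · exact Eventually.of_forall fun k y hy => absurd hy (Set.notMem_empty y)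
    · intro s t hst h
      filter_upwards [h] with k hk y hy using hk y (hst hy)
    · intro s t h h'
      filter_upwards [h, h'] with k hk hk' y hy
      rcases hy with hy | hy
      · exact hk y hy
      · exact hk' y hy
    · intro y hy
      have key : ∀ᶠ z : ℝ × ℕ in 𝓝[Icc y1 y2] y ×ˢ atTop, ∀ σ ∈ S, ∀ l ∈ Finset.range (N σ + 1),
          F.OpenAt σ z.1 0 z.2 l := by
        rw [Filter.eventually_all_finset]
        intro σ hσ
        rw [Filter.eventually_all_finset]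
        intro l hl
        obtain ⟨δ1, hδ1, K, hK⟩ := F.local_open hb0 (hS σ hσ).1 (hsub hy)
          (hnc y hy σ hσ l (by simpa [Nat.lt_succ_iff] using hl))
        have e1 : ∀ᶠ z : ℝ in 𝓝[Icc y1 y2] y, z ∈ Icc b0 b1 ∧ |z - y| ≤ δ1 := by
          have e2 : ∀ᶠ z : ℝ in 𝓝 y, |z - y| ≤ δ1 := by
            filter_upwards [Metric.closedBall_mem_nhds y hδ1] with z hz
            rwa [Metric.mem_closedBall, Real.dist_eq] at hz
          filter_upwards [self_mem_nhdsWithin, mem_nhdsWithin_of_mem_nhds e2] with z hz hz'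
          exact ⟨hsub hz, hz'⟩
        filter_upwards [e1.prod_mk (eventually_ge_atTop K)] with z hz
        exact hK z.1 hz.1.1 hz.1.2 0 (by simp) (by rw [F.sz_zero]; exact hδ1.le) z.2 hz.2
      rw [Filter.eventually_prod_iff] at key
      obtain ⟨pa, hpa, pb, hpb, hab⟩ := key
      refine ⟨{z | pa z}, hpa, ?_⟩
      filter_upwards [hpb] with k hk z hz σ hσ l hl
      exact hab hz hk σ hσ l (by simpa [Nat.lt_succ_iff] using hl)
  obtain ⟨K, hK⟩ := eventually_atTop.1 hcpt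
  refine ⟨1, fun i => if i = 0 then y1 else y2, fun _ => 0, K, by simp, rfl, by simp, rfl, ?_, ?_⟩
  · intro i
    refine ⟨?_, rfl, by rw [F.sz_zero]; exact hδ.le⟩
    simp only
    split_ifs
    · exact h1
    · exact h2
  · intro k hk i hi s hs σ hσ l hl
    obtain rfl : i = 0 := by omega
    simp only [if_true, zero_add, one_ne_zero, if_false, smul_zero, add_zero]
    refine hK k hk _ ?_ σ hσ l hl
    have e1 := hs.1
    have e2 := hs.2
    constructor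
    · nlinarith
    · nlinarith

/-- detour around a resonance -/
theorem reach_detour (hb0 : 0 < b0) (hP : MatPass F) {S : Finset (ℕ × ℕ)} {N : ℕ × ℕ → ℕ}
    (hS : ∀ σ ∈ S, OK σ ∧ σ.2 ≤ 1) {δ : ℝ} (hδ : 0 < δ) {β : ℝ} (hβ : β ∈ Ioo b0 b1) {s0 l0 : ℕ}
    (hcl : Closed β s0 l0) :
    ∃ ε0 : ℝ, 0 < ε0 ∧ ∀ ε : ℝ, 0 < ε → ε ≤ ε0 → Reach F S N δ (β - ε) (β + ε) := by
  obtain ⟨a, c, ha, hc, hcop, rfl, -⟩ := exists_cls (hb0.trans hβ.1) hcl
  obtain ⟨G, hG0, hG⟩ := hP a c ha hc hcop hβ S N hS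
  obtain ⟨ε0, hε0, h⟩ := F.unif_all hb0 ha hcop hβ S N hS (fun _ _ => True)
    (Z := (({-1} : Set ℝ) ×ˢ Icc (0 : ℝ) 1 ∪ ({1} : Set ℝ) ×ˢ Icc (0 : ℝ) 1) ∪
      Icc (-1 : ℝ) 1 ×ˢ ({1} : Set ℝ))
    (((isCompact_singleton.prod isCompact_Icc).union (isCompact_singleton.prod isCompact_Icc)).union
      (isCompact_Icc.prod isCompact_singleton))
    0 G (by simp) hG0
    (by
      intro σ hσ l hl _ C z hz
      rw [zero_add]
      rcases hz with (⟨hz1, hz2⟩ | ⟨hz1, hz2⟩) | ⟨hz1, hz2⟩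
      · exact hG σ hσ l hl C z.1 z.2 hz2.1 (Or.inl (by rw [mem_singleton_iff.1 hz1]; norm_num))
      · exact hG σ hσ l hl C z.1 z.2 hz2.1 (Or.inl (by rw [mem_singleton_iff.1 hz1]; norm_num))
      · have h1 : z.2 = 1 := mem_singleton_iff.1 hz2
        exact hG σ hσ l hl C z.1 z.2 (by rw [h1]; norm_num) (Or.inr (by rw [h1]; norm_num)))
    hδ
  refine ⟨ε0, hε0, fun ε hε hεle => ?_⟩
  obtain ⟨K, hK⟩ := h ε hε hεle
  set β : ℝ := 2 * (c : ℝ) / a with hβdef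
  have hm1 : ((-1 : ℝ), (1 : ℝ)) ∈ ((({-1} : Set ℝ) ×ˢ Icc (0 : ℝ) 1 ∪
      ({1} : Set ℝ) ×ˢ Icc (0 : ℝ) 1) ∪ Icc (-1 : ℝ) 1 ×ˢ ({1} : Set ℝ)) :=
    Or.inl (Or.inl ⟨rfl, by norm_num, le_rfl⟩)
  have hp1 : ((1 : ℝ), (1 : ℝ)) ∈ ((({-1} : Set ℝ) ×ˢ Icc (0 : ℝ) 1 ∪
      ({1} : Set ℝ) ×ˢ Icc (0 : ℝ) 1) ∪ Icc (-1 : ℝ) 1 ×ˢ ({1} : Set ℝ)) :=
    Or.inl (Or.inr ⟨rfl, by norm_num, le_rfl⟩)
  have hI1 : β - ε ∈ Icc b0 b1 := by
    have := (hK K le_rfl _ hm1).1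
    have e : β + ε * ((-1 : ℝ), (1 : ℝ)).1 = β - ε := by simp only; ring
    rwa [e] at this
  have hI2 : β + ε ∈ Icc b0 b1 := by
    have := (hK K le_rfl _ hp1).1
    have e : β + ε * ((1 : ℝ), (1 : ℝ)).1 = β + ε := by simp only; ring
    rwa [e] at this
  have hsz : F.sz (ε • G) ≤ δ := by
    have := (hK K le_rfl _ hp1).2.1
    simpa using this
  refine ⟨3, fun i => if i ≤ 1 then β - ε else β + ε, fun i => if i = 1 ∨ i = 2 then ε • G else 0,
    K, by simp, by simp, by simp, by simp, ?_, ?_⟩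
  · intro i
    refine ⟨?_, ?_, ?_⟩
    · simp only
      split_ifs
      · exact hI1
      · exact hI2
    · simp only
      split_ifs
      · simp [hG0]
      · simp
    · simp only
      split_ifs
      · exact hsz
      · rw [F.sz_zero]; exact hδ.le
  · intro k hk i hi s hs σ hσ l hl
    interval_cases i
    · have h1 := (hK k hk (-1, s) (Or.inl (Or.inl ⟨rfl, hs⟩))).2.2 σ hσ l hl trivial
      have e1 : (1 - s) * (β - ε) + s * (β - ε) = β + ε * ((-1 : ℝ), s).1 := by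
        simp only; ring
      have e2 : (1 - s) • (0 : ℕ →₀ T) + s • ε • G = ε • (0 + ((-1 : ℝ), s).2 • G) := by
        rw [smul_zero, zero_add, zero_add, smul_comm]
      show F.OpenAt σ ((1 - s) * (β - ε) + s * (β - ε)) ((1 - s) • (0 : ℕ →₀ T) + s • ε • G) k l
      rw [e1, e2]
      exact h1
    · have hz : 2 * s - 1 ∈ Icc (-1 : ℝ) 1 := ⟨by linarith [hs.1], by linarith [hs.2]⟩
      have h1 := (hK k hk (2 * s - 1, 1) (Or.inr ⟨hz, rfl⟩)).2.2 σ hσ l hl trivial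
      have e1 : (1 - s) * (β - ε) + s * (β + ε) = β + ε * (2 * s - 1, (1 : ℝ)).1 := by
        simp only; ring
      have e2 : (1 - s) • ε • G + s • ε • G = ε • (0 + (2 * s - 1, (1 : ℝ)).2 • G) := by
        rw [← add_smul]; simp
      show F.OpenAt σ ((1 - s) * (β - ε) + s * (β + ε)) ((1 - s) • ε • G + s • ε • G) k l
      rw [e1, e2]
      exact h1
    · have h1 := (hK k hk (1, 1 - s) (Or.inl (Or.inr ⟨rfl, by linarith [hs.2],
        by linarith [hs.1]⟩))).2.2 σ hσ l hl trivial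
      have e1 : (1 - s) * (β + ε) + s * (β + ε) = β + ε * ((1 : ℝ), 1 - s).1 := by
        simp only; ring
      have e2 : (1 - s) • ε • G + s • (0 : ℕ →₀ T) = ε • (0 + ((1 : ℝ), 1 - s).2 • G) := by
        rw [smul_zero, add_zero, zero_add, smul_comm]
      show F.OpenAt σ ((1 - s) * (β + ε) + s * (β + ε)) ((1 - s) • ε • G + s • (0 : ℕ →₀ T)) k l
      rw [e1, e2]
      exact h1

/-- **the approach path** -/
theorem approach (hb0 : 0 < b0) (hP : MatPass F) : Approach F := by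
  classical
  intro S N hS δ hδ
  have hfin : {b : ℝ | b ∈ Icc b0 b1 ∧ ∃ σ ∈ S, ∃ l ≤ N σ, Closed b σ.2 l}.Finite := by
    refine (finite_closed_le (b1 := b1) hb0 (S.sup N)).subset ?_
    rintro b ⟨hb, σ, hσ, l, hl, hcl⟩
    exact ⟨hb, σ.2, (hS σ hσ).2, l, hl.trans (Finset.le_sup hσ), hcl⟩
  set R : Finset ℝ := hfin.toFinset with hR
  have hmemR : ∀ b, b ∈ R ↔ b ∈ Icc b0 b1 ∧ ∃ σ ∈ S, ∃ l ≤ N σ, Closed b σ.2 l := by
    intro b; rw [hR, Set.Finite.mem_toFinset]; rfl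
  have main : ∀ n : ℕ, ∀ y1 ∈ Icc b0 b1, ∀ y2 ∈ Icc b0 b1, y1 ≤ y2 → y1 ∉ R → y2 ∉ R →
      (R.filter fun b => b ∈ Ioo y1 y2).card ≤ n → Reach F S N δ y1 y2 := by
    intro n
    induction n with
    | zero =>
      intro y1 h1 y2 h2 h12 hn1 hn2 hcard
      refine reach_straight hb0 hS hδ h1 h2 h12 fun y hy σ hσ l hl hcl => ?_
      have hyR : y ∈ R := (hmemR y).2 ⟨⟨h1.1.trans hy.1, hy.2.trans h2.2⟩, σ, hσ, l, hl, hcl⟩
      have hne1 : y1 ≠ y := fun h => hn1 (h ▸ hyR)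
      have hne2 : y ≠ y2 := fun h => hn2 (h ▸ hyR)
      have : y ∈ R.filter fun b => b ∈ Ioo y1 y2 :=
        Finset.mem_filter.2 ⟨hyR, lt_of_le_of_ne hy.1 hne1, lt_of_le_of_ne hy.2 hne2⟩
      rw [Finset.card_eq_zero.1 (Nat.le_zero.1 hcard)] at this
      exact absurd this (Finset.notMem_empty y)
    | succ n ih =>
      intro y1 h1 y2 h2 h12 hn1 hn2 hcard
      rcases (R.filter fun b => b ∈ Ioo y1 y2).eq_empty_or_nonempty with he | ⟨β, hβ⟩
      · exact ih y1 h1 y2 h2 h12 hn1 hn2 (by rw [he]; simp)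
      obtain ⟨hβR, hβ1, hβ2⟩ := Finset.mem_filter.1 hβ
      obtain ⟨hβI, σ, hσ, l, hl, hcl⟩ := (hmemR β).1 hβR
      have hβI' : β ∈ Ioo b0 b1 := ⟨h1.1.trans_lt hβ1, hβ2.trans_le h2.2⟩
      obtain ⟨ε0, hε0, hdet⟩ := reach_detour (N := N) hb0 hP hS hδ hβI' hcl
      -- choice of ε
      have hclosed : IsOpen ((R.erase β : Finset ℝ) : Set ℝ)ᶜ :=
        (R.erase β).finite_toSet.isClosed.isOpen_compl
      have hmem : β ∈ ((R.erase β : Finset ℝ) : Set ℝ)ᶜ := by simp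
      obtain ⟨η, hη, hball⟩ := Metric.isOpen_iff.1 hclosed β hmem
      set ε : ℝ := min (min ε0 (η / 2)) (min ((β - y1) / 2) ((y2 - β) / 2)) with hε
      have hεpos : 0 < ε := lt_min (lt_min hε0 (by positivity))
        (lt_min (by linarith) (by linarith))
      have hεa : ε ≤ ε0 := (min_le_left _ _).trans (min_le_left _ _)
      have hεb : ε ≤ η / 2 := (min_le_left _ _).trans (min_le_right _ _)
      have hεc : ε ≤ (β - y1) / 2 := (min_le_right _ _).trans (min_le_left _ _)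
      have hεd : ε ≤ (y2 - β) / 2 := (min_le_right _ _).trans (min_le_right _ _)
      have hnR : ∀ y : ℝ, y ≠ β → |y - β| < η → y ∉ R := by
        intro y hy1 hy2 hyR
        have : y ∈ ((R.erase β : Finset ℝ) : Set ℝ)ᶜ := hball (by
          rw [Metric.mem_ball, Real.dist_eq]; exact hy2)
        exact this (by simp [hy1, hyR])
      have hm : β - ε ∉ R := hnR _ (by linarith) (by
        rw [show β - ε - β = -ε by ring, abs_neg, abs_of_pos hεpos]; linarith)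
      have hp : β + ε ∉ R := hnR _ (by linarith) (by
        rw [show β + ε - β = ε by ring, abs_of_pos hεpos]; linarith)
      have hmI : β - ε ∈ Icc b0 b1 := ⟨by linarith [h1.1], by linarith [hβI.2]⟩
      have hpI : β + ε ∈ Icc b0 b1 := ⟨by linarith [hβI.1], by linarith [h2.2]⟩
      have hlt : ∀ z1 z2 : ℝ, y1 ≤ z1 → z2 ≤ y2 → (β ≤ z1 ∨ z2 ≤ β) →
          (R.filter fun b => b ∈ Ioo z1 z2).card ≤ n := by
        intro z1 z2 hz1 hz2 hz
        have hss : (R.filter fun b => b ∈ Ioo z1 z2) ⊂ R.filter fun b => b ∈ Ioo y1 y2 := by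
          rw [Finset.ssubset_iff_of_subset]
          · refine ⟨β, hβ, fun hcon => ?_⟩
            have := (Finset.mem_filter.1 hcon).2
            rcases hz with h | h
            · exact absurd this.1 (not_lt.2 h)
            · exact absurd this.2 (not_lt.2 h)
          · intro b hb
            obtain ⟨e1, e2, e3⟩ := Finset.mem_filter.1 hb
            exact Finset.mem_filter.2 ⟨e1, lt_of_le_of_lt hz1 e2, lt_of_lt_of_le e3 hz2⟩
        have := Finset.card_lt_card hss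
        omega
      have p1 := ih y1 h1 (β - ε) hmI (by linarith) hn1 hm
        (hlt _ _ le_rfl (by linarith) (Or.inr (by linarith)))
      have p3 := ih (β + ε) hpI y2 h2 (by linarith) hp hn2
        (hlt _ _ (by linarith) le_rfl (Or.inl (by linarith)))
      exact (p1.trans (hdet ε hεpos hεa)).trans p3
  intro y1 h1 y2 h2 h12 hn1 hn2
  refine main _ y1 h1 y2 h2 h12 ?_ ?_ le_rfl
  · intro h
    obtain ⟨-, σ, hσ, l, hl, hcl⟩ := (hmemR _).1 h
    exact hn1 σ hσ l hl hcl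
  · intro h
    obtain ⟨-, σ, hσ, l, hl, hcl⟩ := (hmemR _).1 h
    exact hn2 σ hσ l hl hcl

end Crest.Agent.R202.SF
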