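import Crest.Agent.R202.GateWin
import Crest.Agent.R202.GatePath
import Crest.Agent.R202.GateMat

/-!
# Row 202, PART C: assembly of the gate
-/

set_option autoImplicit false

noncomputable section

open Filter Topology Set Module
open scoped InnerProductSpace
open Crest.Agent.R202.Lab Crest.Agent.R202.Cut Crest.Agent.R202.Jac

namespace Crest.Agent.R202.SF

/-! ### the vertices -/

section vertices

variable {X : Type*}

/-- the polygon: `f` up to `n`, then `xA, xA', xB'` , then back along `f` -/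
def pol (n : ℕ) (f : ℕ → X) (x1 x2 x3 : X) (i : ℕ) : X :=
  if i ≤ n then f i else if i = n + 1 then x1 else if i = n + 2 then x2 else
    if i = n + 3 then x3 else f (2 * n + 4 - i)

theorem pol_le {n : ℕ} {f : ℕ → X} {x1 x2 x3 : X} {i : ℕ} (h : i ≤ n) :
    pol n f x1 x2 x3 i = f i := if_pos h

theorem pol_1 {n : ℕ} {f : ℕ → X} {x1 x2 x3 : X} : pol n f x1 x2 x3 (n + 1) = x1 := by
  unfold pol; rw [if_neg (by omega), if_pos rfl]

theorem pol_2 {n : ℕ} {f : ℕ → X} {x1 x2 x3 : X} : pol n f x1 x2 x3 (n + 2) = x2 := by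
  unfold pol; rw [if_neg (by omega), if_neg (by omega), if_pos rfl]

theorem pol_3 {n : ℕ} {f : ℕ → X} {x1 x2 x3 : X} : pol n f x1 x2 x3 (n + 3) = x3 := by
  unfold pol; rw [if_neg (by omega), if_neg (by omega), if_neg (by omega), if_pos rfl]

theorem pol_pal {n : ℕ} {f : ℕ → X} {x1 x2 x3 : X} {i : ℕ} (hi : n + 4 ≤ i) :
    pol n f x1 x2 x3 i = f (2 * n + 4 - i) := by
  unfold pol
  rw [if_neg (by omega), if_neg (by omega), if_neg (by omega), if_neg (by omega)]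

theorem pol_forall {n : ℕ} {f : ℕ → X} {x1 x2 x3 : X} {p : X → Prop} (hf : ∀ i, p (f i))
    (h1 : p x1) (h2 : p x2) (h3 : p x3) (i : ℕ) : p (pol n f x1 x2 x3 i) := by
  unfold pol
  split_ifs
  · exact hf i
  · exact h1
  · exact h2
  · exact h3
  · exact hf _

end vertices

theorem sepF_cast {E : Type*} [NormedAddCommGroup E] [InnerProductSpace ℝ E] {n m : ℕ}
    (h : n = m) {T : E →L[ℝ] E} {f : Fin n → E} {A B : ℝ} (hf : SepF T f A B) :
    ∃ f' : Fin m → E, SepF T f' A B := by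
  subst h; exact ⟨f, hf⟩

variable {d : ℕ} {b0 b1 : ℝ} {OK : ℕ × ℕ → Prop} {T : Type*} [AddCommGroup T] [Module ℝ T]
  {V : ℕ × ℕ → Type*} [∀ σ, AddCommGroup (V σ)] [∀ σ, Module ℝ (V σ)]

theorem MatGateOut.mopen_left {F : SpindleFamily d b0 b1 OK T V} {a c : ℕ} {S : Finset (ℕ × ℕ)}
    {N : ℕ × ℕ → ℕ} {σs : ℕ × ℕ} {ls : ℕ} {Cs : Cls a c σs.2 (ls + 1)}
    (M : MatGateOut F S N σs ls Cs) {κ : ℝ} (hκ : κ ∈ Icc (-1 : ℝ) 1) :
    F.MOpen σs.1 Cs M.xL (M.GA + κ • M.GB) := by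
  obtain ⟨Λ, h⟩ := M.left κ hκ
  obtain ⟨f, hf⟩ := sepF_cast M.kp.symm h
  exact ⟨f, _, _, hf⟩

theorem MatGateOut.mopen_right {F : SpindleFamily d b0 b1 OK T V} {a c : ℕ} {S : Finset (ℕ × ℕ)}
    {N : ℕ × ℕ → ℕ} {σs : ℕ × ℕ} {ls : ℕ} {Cs : Cls a c σs.2 (ls + 1)}
    (M : MatGateOut F S N σs ls Cs) {κ : ℝ} (hκ : κ ∈ Icc (-1 : ℝ) 1) :
    F.MOpen σs.1 Cs M.xR (M.GA + κ • M.GB) := by
  obtain ⟨Λ, h⟩ := M.right κ hκ
  obtain ⟨f, hf⟩ := sepF_cast M.kp.symm h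
  exact ⟨f, _, _, hf⟩

theorem MatGateOut.mopen_mid {F : SpindleFamily d b0 b1 OK T V} {a c : ℕ} {S : Finset (ℕ × ℕ)}
    {N : ℕ × ℕ → ℕ} {σs : ℕ × ℕ} {ls : ℕ} {Cs : Cls a c σs.2 (ls + 1)}
    (M : MatGateOut F S N σs ls Cs) {κ : ℝ} (hκ : κ = 1 ∨ κ = -1) {x : ℝ}
    (hx : x ∈ Icc M.xL M.xR) : F.MOpen σs.1 Cs x (M.GA + κ • M.GB) := by
  have hlt := sub_pos.2 M.xlt
  obtain ⟨Λ, h⟩ := M.mid κ hκ ((x - M.xL) / (M.xR - M.xL))
    ⟨div_nonneg (by linarith [hx.1]) hlt.le, (div_le_one hlt).2 (by linarith [hx.2])⟩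
  have hxe : (1 - (x - M.xL) / (M.xR - M.xL)) * M.xL + (x - M.xL) / (M.xR - M.xL) * M.xR = x := by
    field_simp; ring
  rw [hxe] at h
  obtain ⟨f, hf⟩ := sepF_cast M.kp.symm h
  exact ⟨f, _, _, hf⟩

set_option maxHeartbeats 1000000 in
/-- **the gate theorem** from the matrix part and the approach path -/
theorem gateThm_of {F : SpindleFamily d b0 b1 OK T V} (hA : Approach F) (hM : MatGate F) :
    GateThm F := by
  classical
  intro hb0 hnc S N hS σs ls hσs hls hbex δ hδ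
  obtain ⟨b, hbl, hbr, hcl⟩ := hbex
  obtain ⟨a, c, ha, hc, hcop, hbe, ⟨Cs⟩⟩ := exists_cls (hb0.trans hbl) hcl
  have hb' : 2 * (c : ℝ) / a ∈ Ioo b0 b1 := by rw [← hbe]; exact ⟨hbl, hbr⟩
  obtain ⟨M⟩ := hM a c ha hc hcop hb' S N hS σs ls hσs hls Cs
  set bs : ℝ := 2 * (c : ℝ) / a with hbs
  have hb01 : b0 < b1 := hb'.1.trans hb'.2
  have hxlt := M.xlt
  set Sg : ℝ := |M.xL| + 1 with hSg
  have hSg0 : 0 < Sg := by positivity
  have hSgL : -Sg < M.xL := by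
    have := neg_abs_le M.xL
    rw [hSg]; linarith
  -- the three compact sets
  obtain ⟨e1, he1, hU1⟩ := F.unif_all hb0 ha hcop hb' S N hS (fun _ _ => True)
    (Z := ({-Sg} : Set ℝ) ×ˢ Icc (0 : ℝ) 1 ∪ Icc (-Sg) M.xR ×ˢ ({1} : Set ℝ))
    ((isCompact_singleton.prod isCompact_Icc).union (isCompact_Icc.prod isCompact_singleton))
    0 (M.GA + M.GB) (by simp) (by simp [M.freqA, M.freqB])
    (by
      intro σ hσ l hl _ C z hz
      rw [zero_add]
      rcases hz with ⟨hz1, hz2⟩ | ⟨hz1, hz2⟩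
      · refine M.appr σ hσ l hl C z.1 z.2 hz2.1 (Or.inl ?_)
        rw [mem_singleton_iff.1 hz1]
        exact (neg_neg_of_pos hSg0).ne
      · have h1 : z.2 = 1 := mem_singleton_iff.1 hz2
        exact M.appr σ hσ l hl C z.1 z.2 (by rw [h1]; norm_num) (Or.inr (by rw [h1]; norm_num)))
    hδ
  obtain ⟨e2, he2, hU2⟩ := F.unif_all hb0 ha hcop hb' S N hS
    (fun σ l => (σ, l) ≠ (σs, ls + 1)) (Z := Icc M.xL M.xR ×ˢ Icc (-1 : ℝ) 1)
    (isCompact_Icc.prod isCompact_Icc) M.GA M.GB M.freqA M.freqB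
    (fun σ hσ l hl hne C z hz => M.other σ hσ l hl hne C z.1 hz.1 z.2 hz.2) hδ
  obtain ⟨e3, he3, hU3⟩ := F.unif_all hb0 ha hcop hb' S N hS
    (fun σ l => (σ, l) = (σs, ls + 1))
    (Z := (({M.xL} : Set ℝ) ×ˢ Icc (-1 : ℝ) 1 ∪ ({M.xR} : Set ℝ) ×ˢ Icc (-1 : ℝ) 1) ∪
      (Icc M.xL M.xR ×ˢ ({1} : Set ℝ) ∪ Icc M.xL M.xR ×ˢ ({-1} : Set ℝ)))
    (((isCompact_singleton.prod isCompact_Icc).union (isCompact_singleton.prod isCompact_Icc)).union
      ((isCompact_Icc.prod isCompact_singleton).union (isCompact_Icc.prod isCompact_singleton)))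
    M.GA M.GB M.freqA M.freqB
    (by
      intro σ hσ l hl heq C z hz
      obtain ⟨h1, h2⟩ := Prod.mk.inj heq
      subst h1 h2
      rw [Cls.unique ha C Cs]
      rcases hz with (⟨hz1, hz2⟩ | ⟨hz1, hz2⟩) | (⟨hz1, hz2⟩ | ⟨hz1, hz2⟩)
      · rw [mem_singleton_iff.1 hz1]; exact M.mopen_left hz2
      · rw [mem_singleton_iff.1 hz1]; exact M.mopen_right hz2
      · exact M.mopen_mid (Or.inl (mem_singleton_iff.1 hz2)) hz1
      · exact M.mopen_mid (Or.inr (mem_singleton_iff.1 hz2)) hz1)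
    hδ
  obtain ⟨U, vB, vE, hUm, hBm, hEm, hUU, hUB, hUE, hBE, hBB, hEE, e4, he4, hW⟩ :=
    F.winFrames hb0 ha hb' hS hσs Cs M
  -- choice of ε
  have hsm : ∀ η : ℝ, 0 < η → ∀ᶠ ε in 𝓝[>] (0 : ℝ), 0 < ε ∧ ε ≤ η := fun η hη => by
    filter_upwards [Ioc_mem_nhdsGT hη] with ε hε using hε
  obtain ⟨ε, ⟨hε0, hε1⟩, ⟨-, hε2⟩, ⟨-, hε3⟩, ⟨-, hε4⟩, hεc⟩ :=
    ((hsm e1 he1).and ((hsm e2 he2).and ((hsm e3 he3).and ((hsm e4 he4).and
      (eventually_not_closed hb0 hb' hSg0 (S.sup N)))))).exists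
  obtain ⟨K1, hK1⟩ := hU1 ε hε0 hε1
  obtain ⟨K2, hK2⟩ := hU2 ε hε0 hε2
  obtain ⟨K3, hK3⟩ := hU3 ε hε0 hε3
  obtain ⟨K4, hK4⟩ := hW ε hε0 hε4
  -- the approach
  have hyI : bs - ε * Sg ∈ Icc b0 b1 := by
    have h1 := (hK1 K1 le_rfl (-Sg, 0) (Or.inl ⟨rfl, ⟨le_rfl, zero_le_one⟩⟩)).1
    have h2 : bs + ε * (-Sg, (0 : ℝ)).1 = bs - ε * Sg := by simp; ring
    rwa [h2] at h1
  obtain ⟨r, wb, WG, K0, hw0, hWG0, hwr, hWGr, hw, hopen0⟩ := hA S N hS δ hδ b0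
    ⟨le_rfl, hb01.le⟩ (bs - ε * Sg) hyI hyI.1 (fun σ _ l _ => hnc σ.2 l)
    (fun σ hσ l hl => hεc σ.2 (hS σ hσ).2 l (hl.trans (Finset.le_sup hσ)))
  set n : ℕ := r + 2 with hn
  set fb : ℕ → ℝ := fun i => if i ≤ r then wb i else if i = r + 1 then bs - ε * Sg
    else bs + ε * M.xL with hfb
  set fG : ℕ → (ℕ →₀ T) := fun i => if i ≤ r then WG i else ε • (M.GA + M.GB) with hfG
  have hfb_le : ∀ i ≤ r, fb i = wb i := fun i hi => if_pos hi
  have hfb_1 : fb (r + 1) = bs - ε * Sg := by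
    rw [hfb]; simp
  have hfb_2 : fb (r + 2) = bs + ε * M.xL := by
    rw [hfb]; simp
  have hfG_le : ∀ i ≤ r, fG i = WG i := fun i hi => if_pos hi
  have hfG_gt : ∀ i, r < i → fG i = ε • (M.GA + M.GB) := fun i hi => if_neg (by omega)
  -- openness along the approach
  have fopen : ∀ k, K0 ≤ k → K1 ≤ k → ∀ i < n, ∀ s ∈ Icc (0 : ℝ) 1, ∀ σ ∈ S, ∀ l ≤ N σ,
      F.OpenAt σ ((1 - s) * fb i + s * fb (i + 1)) ((1 - s) • fG i + s • fG (i + 1)) k l := by
    intro k hk0 hk1 i hi s hs σ hσ l hl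
    rcases lt_trichotomy i r with h | h | h
    · rw [hfb_le i h.le, hfb_le (i + 1) h, hfG_le i h.le, hfG_le (i + 1) h]
      exact hopen0 k hk0 i h s hs σ hσ l hl
    · subst h
      rw [hfb_le i le_rfl, hfb_1, hfG_le i le_rfl, hfG_gt (i + 1) (by omega), hwr, hWGr]
      have h1 := (hK1 k hk1 (-Sg, s) (Or.inl ⟨rfl, hs⟩)).2.2 σ hσ l hl trivial
      have e5 : (1 - s) * (bs - ε * Sg) + s * (bs - ε * Sg) = bs + ε * (-Sg, s).1 := by
        simp only; ring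
      have e6 : (1 - s) • (0 : ℕ →₀ T) + s • ε • (M.GA + M.GB) =
          ε • (0 + (-Sg, s).2 • (M.GA + M.GB)) := by
        rw [smul_zero, zero_add, zero_add, smul_comm]
      rw [e5, e6]; exact h1
    · have hir : i = r + 1 := by omega
      subst hir
      rw [hfb_1, hfb_2, hfG_gt _ (by omega), hfG_gt _ (by omega)]
      have hz : (1 - s) * (-Sg) + s * M.xL ∈ Icc (-Sg) M.xR := by
        have h1 := hs.1
        have h2 := hs.2
        constructor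
        · nlinarith
        · nlinarith
      have h1 := (hK1 k hk1 ((1 - s) * (-Sg) + s * M.xL, 1) (Or.inr ⟨hz, rfl⟩)).2.2 σ hσ l hl trivial
      have e5 : (1 - s) * (bs - ε * Sg) + s * (bs + ε * M.xL) =
          bs + ε * ((1 - s) * (-Sg) + s * M.xL, (1 : ℝ)).1 := by
        simp only; ring
      have e6 : (1 - s) • ε • (M.GA + M.GB) + s • ε • (M.GA + M.GB) =
          ε • (0 + ((1 - s) * (-Sg) + s * M.xL, (1 : ℝ)).2 • (M.GA + M.GB)) := by
        rw [← add_smul]; simp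
      rw [e5, e6]; exact h1
  -- openness in the window
  have wopen : ∀ k, K2 ≤ k → K3 ≤ k → ∀ σ ∈ S, ∀ l ≤ N σ, ∀ x ∈ Icc M.xL M.xR,
      ∀ κ ∈ Icc (-1 : ℝ) 1, ((σ, l) ≠ (σs, ls + 1) ∨ x = M.xL ∨ x = M.xR ∨ κ = 1 ∨ κ = -1) →
      F.OpenAt σ (bs + ε * x) (ε • (M.GA + κ • M.GB)) k l := by
    intro k hk2 hk3 σ hσ l hl x hx κ hκ hor
    by_cases hne : (σ, l) ≠ (σs, ls + 1)
    · exact (hK2 k hk2 (x, κ) ⟨hx, hκ⟩).2.2 σ hσ l hl hne
    · rw [not_not] at hne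
      refine (hK3 k hk3 (x, κ) ?_).2.2 σ hσ l hl hne
      rcases hor with h | h | h | h | h
      · exact absurd hne h
      · exact Or.inl (Or.inl ⟨h, hκ⟩)
      · exact Or.inl (Or.inr ⟨h, hκ⟩)
      · exact Or.inr (Or.inl ⟨hx, h⟩)
      · exact Or.inr (Or.inr ⟨hx, h⟩)
  have hxL : M.xL ∈ Icc M.xL M.xR := ⟨le_rfl, hxlt.le⟩
  have hxR : M.xR ∈ Icc M.xL M.xR := ⟨hxlt.le, le_rfl⟩
  have h1I : (1 : ℝ) ∈ Icc (-1 : ℝ) 1 := ⟨by norm_num, le_rfl⟩
  have hwin : ∀ x ∈ Icc M.xL M.xR, ∀ κ ∈ Icc (-1 : ℝ) 1,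
      bs + ε * x ∈ Icc b0 b1 ∧ F.sz (ε • (M.GA + κ • M.GB)) ≤ δ := fun x hx κ hκ =>
    ⟨(hK2 K2 le_rfl (x, κ) ⟨hx, hκ⟩).1, (hK2 K2 le_rfl (x, κ) ⟨hx, hκ⟩).2.1⟩
  have hfbI : ∀ i, fb i ∈ Icc b0 b1 := by
    intro i
    rw [hfb]
    simp only
    split_ifs
    · exact (hw i).1
    · exact hyI
    · exact (hwin _ hxL 1 h1I).1
  have hfG0 : ∀ i, fG i 0 = 0 := by
    intro i
    rw [hfG]
    simp only
    split_ifs
    · exact (hw i).2.1
    · simp [M.freqA, M.freqB]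
  have hfGs : ∀ i, F.sz (fG i) ≤ δ := by
    intro i
    rw [hfG]
    simp only
    split_ifs
    · exact (hw i).2.2
    · have := (hwin _ hxL 1 h1I).2
      rwa [one_smul] at this
  set vb : ℕ → ℝ := pol n fb (bs + ε * M.xL) (bs + ε * M.xR) (bs + ε * M.xR) with hvb
  set g0 : ℕ → (ℕ →₀ T) := pol n fG (ε • M.GA) (ε • M.GA) (ε • (M.GA + M.GB)) with hg0
  set g1 : ℕ → (ℕ →₀ T) := pol n (fun _ => 0) (ε • M.GB) (ε • M.GB) 0 with hg1
  -- convex combinations in the window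
  have hcomb : ∀ s κ κ' : ℝ, (1 - s) • (ε • M.GA + κ • ε • M.GB) + s • (ε • M.GA + κ' • ε • M.GB) =
      ε • (M.GA + ((1 - s) * κ + s * κ') • M.GB) := by
    intro s κ κ'
    simp only [smul_add, smul_smul, add_smul]
    rw [show (1 - s) * ε = ε - s * ε by ring, sub_smul]
    have e5 : (1 - s) * (κ * ε) = ε * ((1 - s) * κ) := by ring
    have e6 : s * (κ' * ε) = ε * (s * κ') := by ring
    rw [e5, e6]
    abel
  have hAB : ε • (M.GA + M.GB) = ε • M.GA + (1 : ℝ) • ε • M.GB := by rw [one_smul, smul_add]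
  -- the four window edges: position
  have hpos : ∀ κ : ℝ, ∀ i < 4, ∀ s ∈ Icc (0 : ℝ) 1, ∃ x κ' : ℝ,
      (1 - s) * vb (n + i) + s * vb (n + i + 1) = bs + ε * x ∧
      (1 - s) • (g0 (n + i) + κ • g1 (n + i)) + s • (g0 (n + i + 1) + κ • g1 (n + i + 1)) =
        ε • (M.GA + κ' • M.GB) ∧
      ((i = 0 ∧ x = M.xL ∧ κ' = (1 - s) * 1 + s * κ) ∨
        (i = 1 ∧ x = (1 - s) * M.xL + s * M.xR ∧ κ' = κ) ∨
        (i = 2 ∧ x = M.xR ∧ κ' = (1 - s) * κ + s * 1) ∨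
        (i = 3 ∧ x = (1 - (1 - s)) * M.xL + (1 - s) * M.xR ∧ κ' = 1)) := by
    intro κ i hi s hs
    have hn2 : fb n = bs + ε * M.xL := hfb_2
    have hGn : fG n = ε • (M.GA + M.GB) := hfG_gt n (by omega)
    interval_cases i
    · refine ⟨M.xL, (1 - s) * 1 + s * κ, ?_, ?_, Or.inl ⟨rfl, rfl, rfl⟩⟩
      · rw [add_zero, hvb, pol_le le_rfl, pol_1, hn2]; ring
      · rw [add_zero, hg0, hg1, pol_le le_rfl, pol_le le_rfl, pol_1, pol_1, hGn, smul_zero,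
          add_zero, hAB, hcomb]
    · refine ⟨(1 - s) * M.xL + s * M.xR, κ, ?_, ?_, Or.inr (Or.inl ⟨rfl, rfl, rfl⟩)⟩
      · rw [show n + 1 + 1 = n + 2 from rfl, hvb, pol_1, pol_2]; ring
      · rw [show n + 1 + 1 = n + 2 from rfl, hg0, hg1, pol_1, pol_1, pol_2, pol_2, hcomb]
        congr 3
        ring
    · refine ⟨M.xR, (1 - s) * κ + s * 1, ?_, ?_, Or.inr (Or.inr (Or.inl ⟨rfl, rfl, rfl⟩))⟩
      · rw [show n + 2 + 1 = n + 3 from rfl, hvb, pol_2, pol_3]; ring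
      · rw [show n + 2 + 1 = n + 3 from rfl, hg0, hg1, pol_2, pol_2, pol_3, pol_3, smul_zero,
          add_zero, hAB, hcomb]
    · refine ⟨(1 - (1 - s)) * M.xL + (1 - s) * M.xR, 1, ?_, ?_,
        Or.inr (Or.inr (Or.inr ⟨rfl, rfl, rfl⟩))⟩
      · rw [show n + 3 + 1 = n + 4 from rfl, hvb, pol_3, pol_pal (by omega),
          show 2 * n + 4 - (n + 4) = n by omega, hn2]; ring
      · rw [show n + 3 + 1 = n + 4 from rfl, hg0, hg1, pol_3, pol_3, pol_pal (by omega),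
          pol_pal (by omega), show 2 * n + 4 - (n + 4) = n by omega, hGn, smul_zero,
          add_zero, hAB, hcomb]
        congr 3
        ring
  have hmem1 : ∀ s ∈ Icc (0 : ℝ) 1, (1 - s) * M.xL + s * M.xR ∈ Icc M.xL M.xR := by
    intro s hs
    have h1 := hs.1
    have h2 := hs.2
    constructor
    · nlinarith
    · nlinarith
  have hconv : ∀ s ∈ Icc (0 : ℝ) 1, ∀ κ ∈ Icc (-1 : ℝ) 1, ∀ κ' ∈ Icc (-1 : ℝ) 1,
      (1 - s) * κ + s * κ' ∈ Icc (-1 : ℝ) 1 := by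
    intro s hs κ hκ κ' hκ'
    have h1 := hs.1
    have h2 := hs.2
    have h3 := hκ.1
    have h4 := hκ.2
    have h5 := hκ'.1
    have h6 := hκ'.2
    constructor
    · nlinarith
    · nlinarith
  have hs' : ∀ s ∈ Icc (0 : ℝ) 1, 1 - s ∈ Icc (0 : ℝ) 1 := fun s hs =>
    ⟨by linarith [hs.2], by linarith [hs.1]⟩
  refine ⟨{
    n := n
    vb := vb
    G0 := g0
    G1 := g1
    n_pos := by omega
    start_b := ?_
    start_G0 := ?_
    start_G1 := ?_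
    appr := ?_
    b_w1 := ?_
    b_w3 := ?_
    G_w12 := ?_
    G_w12' := ?_
    G_w1 := ?_
    G_w3 := ?_
    G_w3' := ?_
    pal := ?_
    mem := ?_
    freq0 := ?_
    sz_le := ?_
    moves := ?_
    K := max (max K0 K1) (max (max K2 K3) K4)
    isOpen := ?_
    bs := bs
    bs_mem := hb'
    u := U
    vB := vB
    vE := vE
    u_mem := hUm
    vB_mem := hBm
    vE_mem := hEm
    on_u := hUU
    on_uB := hUB
    on_uE := hUE
    on_BE := hBE
    on_B := hBB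
    on_E := hEE
    c := rotc
    c_cont := continuous_rotc
    c_circle := rotc_circle
    c_start := fun κ _ => rotc_zero κ
    c_end := fun κ hκ => rotc_four hκ
    window := ?_ }⟩
  · rw [hvb, pol_le (Nat.zero_le _), hfb_le 0 (Nat.zero_le _), hw0]
  · rw [hg0, pol_le (Nat.zero_le _), hfG_le 0 (Nat.zero_le _), hWG0]
  · rw [hg1, pol_le (Nat.zero_le _)]
  · intro i hi
    rw [hg1, pol_le hi]
  · rw [hvb, pol_1, pol_le le_rfl]; exact hfb_2.symm
  · rw [hvb, pol_3, pol_2]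
  · rw [hg0, pol_1, pol_2]
  · rw [hg1, pol_1, pol_2]
  · rw [hg0, hg1, pol_1, pol_1, pol_le le_rfl, hfG_gt n (by omega), smul_add]
  · rw [hg0, pol_3, pol_le le_rfl, hfG_gt n (by omega)]
  · rw [hg1, pol_3]
  · intro i hi
    have e5 : 2 * n + 4 - (n + 4 + i) = n - i := by omega
    refine ⟨?_, ?_, ?_⟩
    · rw [hvb, pol_pal (by omega), pol_le (by omega), e5]
    · rw [hg0, pol_pal (by omega), pol_le (by omega), e5]
    · rw [hg1, pol_pal (by omega)]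
  · intro i
    exact pol_forall (p := fun x => x ∈ Icc b0 b1) hfbI (hwin _ hxL 1 h1I).1 (hwin _ hxR 1 h1I).1
      (hwin _ hxR 1 h1I).1 i
  · intro i
    refine ⟨?_, ?_⟩
    · exact pol_forall (p := fun x : ℕ →₀ T => x 0 = 0) hfG0 (by simp [M.freqA])
        (by simp [M.freqA]) (by simp [M.freqA, M.freqB]) i
    · exact pol_forall (p := fun x : ℕ →₀ T => x 0 = 0) (fun _ => by simp) (by simp [M.freqB])
        (by simp [M.freqB]) (by simp) i
  · intro i κ hκ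
    by_cases h1 : i = n + 1
    · rw [h1, hg0, hg1, pol_1, pol_1, smul_comm, ← smul_add]
      exact (hwin _ hxL κ hκ).2
    by_cases h2 : i = n + 2
    · rw [h2, hg0, hg1, pol_2, pol_2, smul_comm, ← smul_add]
      exact (hwin _ hxL κ hκ).2
    by_cases h3 : i = n + 3
    · rw [h3, hg0, hg1, pol_3, pol_3, smul_zero, add_zero]
      have := (hwin _ hxL 1 h1I).2
      rwa [one_smul] at this
    · have e5 : g1 i = 0 := by
        rw [hg1]; unfold pol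
        rw [if_neg h1, if_neg h2, if_neg h3]; simp
      rw [e5, smul_zero, add_zero, hg0]
      unfold pol
      rw [if_neg h1, if_neg h2, if_neg h3]
      split_ifs
      · exact hfGs _
      · exact hfGs _
  · rw [hvb, pol_le le_rfl]
    show b0 < fb (r + 2)
    rw [hfb_2]
    have h1 := hyI.1
    have h2 : ε * (-Sg) < ε * M.xL := mul_lt_mul_of_pos_left hSgL hε0
    linarith
  · intro k hk σ hσ l hl κ hκ hor i hi s hs
    have hk0 : K0 ≤ k := ((le_max_left _ _).trans (le_max_left _ _)).trans hk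
    have hk1 : K1 ≤ k := ((le_max_right _ _).trans (le_max_left _ _)).trans hk
    have hk2 : K2 ≤ k := (((le_max_left _ _).trans (le_max_left _ _)).trans
      (le_max_right _ _)).trans hk
    have hk3 : K3 ≤ k := (((le_max_right _ _).trans (le_max_left _ _)).trans
      (le_max_right _ _)).trans hk
    show F.OpenAt σ _ _ k l
    rcases lt_or_ge i n with h | h
    · have := fopen k hk0 hk1 i h s hs σ hσ l hl
      rw [hvb, hg0, hg1, pol_le h.le, pol_le (by omega : i + 1 ≤ n), pol_le h.le,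
        pol_le (by omega : i + 1 ≤ n), pol_le h.le, pol_le (by omega : i + 1 ≤ n)]
      simpa using this
    rcases lt_or_ge i (n + 4) with h4 | h4
    · obtain ⟨j, rfl⟩ : ∃ j, i = n + j := ⟨i - n, by omega⟩
      obtain ⟨x, κ', hb1, hb2, hcases⟩ := hpos κ j (by omega) s hs
      rw [hb1, hb2]
      rcases hcases with ⟨-, hx, hκ'⟩ | ⟨-, hx, hκ'⟩ | ⟨-, hx, hκ'⟩ | ⟨-, hx, hκ'⟩
      · rw [hx, hκ']
        exact wopen k hk2 hk3 σ hσ l hl _ hxL _ (hconv s hs 1 h1I κ hκ) (Or.inr (Or.inl rfl))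
      · rw [hx, hκ']
        refine wopen k hk2 hk3 σ hσ l hl _ (hmem1 s hs) _ hκ ?_
        rcases hor with h | h | h
        · exact Or.inl h
        · exact Or.inr (Or.inr (Or.inr (Or.inl h)))
        · exact Or.inr (Or.inr (Or.inr (Or.inr h)))
      · rw [hx, hκ']
        exact wopen k hk2 hk3 σ hσ l hl _ hxR _ (hconv s hs κ hκ 1 h1I)
          (Or.inr (Or.inr (Or.inl rfl)))
      · rw [hx, hκ']
        exact wopen k hk2 hk3 σ hσ l hl _ (hmem1 (1 - s) (hs' s hs)) _ h1I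
          (Or.inr (Or.inr (Or.inr (Or.inl rfl))))
    · obtain ⟨j, hj, rfl⟩ : ∃ j, j < n ∧ i = 2 * n + 4 - (j + 1) := ⟨2 * n + 3 - i, by omega,
        by omega⟩
      have e5 : 2 * n + 4 - (2 * n + 4 - (j + 1)) = j + 1 := by omega
      have e6 : 2 * n + 4 - (2 * n + 4 - (j + 1) + 1) = j := by omega
      have := fopen k hk0 hk1 j hj (1 - s) (hs' s hs) σ hσ l hl
      rw [hvb, hg0, hg1, pol_pal h4, pol_pal h4, pol_pal h4,
        pol_pal (by omega : n + 4 ≤ 2 * n + 4 - (j + 1) + 1),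
        pol_pal (by omega : n + 4 ≤ 2 * n + 4 - (j + 1) + 1),
        pol_pal (by omega : n + 4 ≤ 2 * n + 4 - (j + 1) + 1), e5, e6]
      simp only [smul_zero, add_zero]
      have e7 : (1 - s) * fb (j + 1) + s * fb j = (1 - (1 - s)) * fb j + (1 - s) * fb (j + 1) := by
        ring
      have e8 : (1 - s) • fG (j + 1) + s • fG j = (1 - (1 - s)) • fG j + (1 - s) • fG (j + 1) := by
        rw [sub_sub_cancel, add_comm]
      rw [e7, e8]
      exact this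
  · intro k hk κ hκ i hi s hs
    have hk4 : K4 ≤ k := ((le_max_right _ _).trans (le_max_right _ _)).trans hk
    have hκI : κ ∈ Icc (-1 : ℝ) 1 := by
      rcases hκ with rfl | rfl <;> constructor <;> norm_num
    obtain ⟨hwL, hwR, hwM⟩ := hK4 k hk4
    obtain ⟨x, κ', hb1, hb2, hcases⟩ := hpos κ i hi s hs
    rw [hb1, hb2]
    rcases hcases with ⟨rfl, hx, hκ'⟩ | ⟨rfl, hx, hκ'⟩ | ⟨rfl, hx, hκ'⟩ | ⟨rfl, hx, hκ'⟩
    · rw [hx, hκ', rotc_edge0 κ hs]
      exact hwL _ (hconv s hs 1 h1I κ hκI)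
    · rw [hx, hκ', rotc_edge1 hκ hs]
      have := hwM κ hκ κ hκ s hs
      have e5 : κ * κ = 1 := by rcases hκ with rfl | rfl <;> norm_num
      rw [e5, one_mul] at this
      exact this
    · rw [hx, hκ', rotc_edge2 hκ hs]
      exact hwR _ (hconv s hs κ hκI 1 h1I) κ hκ
    · rw [hx, hκ', rotc_edge3 hκ hs]
      have := hwM 1 (Or.inl rfl) κ hκ (1 - s) (hs' s hs)
      rw [sub_sub_cancel, mul_one] at this
      rw [sub_sub_cancel]
      exact this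

/-- **THE GATE THEOREM** -/
theorem gateThm (F : SpindleFamily d b0 b1 OK T V) : GateThm F := fun hb0 =>
  gateThm_of (approach hb0 (matPass F)) (matGate F) hb0

end Crest.Agent.R202.SF
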