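import Crest.Agent.R202.CluDefs

/-! Row 202, PART C4 (helper58): field `first` (P4) of the spindle family: first variation of the
form on pairs of spindle eigenfunctions of equal level. -/

set_option autoImplicit false

open MeasureTheory Set Filter
open scoped Topology ContDiff
open Crest.Agent.R202.Mod Crest.Agent.R202.Lab

noncomputable section

namespace Crest.Agent.R202.Clu

/-! ### trigonometric factors -/

/-- `∫ cos(aφ) trig_m trig_n` -/
def tT (par a m n : ℕ) : ℝ := if par = 0 then tcc a m n else tss a m n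

/-- `∫ cos(aφ) trig_m' trig_n'` -/
def tD (par a m n : ℕ) : ℝ := m * n * (if par = 0 then tss a m n else tcc a m n)

theorem int_trig (par a m n : ℕ) :
    ∫ φ in Ioo (0:ℝ) Real.pi, Real.cos (a * φ) * (trig par m φ * trig par n φ) = tT par a m n := by
  unfold trig tT
  by_cases h : par = 0
  · simp only [h, if_true]
    exact int_cos_cos_cos a m n
  · simp only [h, if_false]
    exact int_cos_sin_sin a m n

theorem int_trigD (par a m n : ℕ) :
    ∫ φ in Ioo (0:ℝ) Real.pi, Real.cos (a * φ) * (trigD par m φ * trigD par n φ) =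
      tD par a m n := by
  unfold trigD tD
  by_cases h : par = 0
  · simp only [h, if_true]
    rw [← int_cos_sin_sin a m n, ← integral_const_mul]
    congr 1; funext φ; ring
  · simp only [h, if_false]
    rw [← int_cos_cos_cos a m n, ← integral_const_mul]
    congr 1; funext φ; ring

/-! ### modes -/

theorem fW_smul_smul {q par d : ℕ} {W : Fin 4 → ℝ × ℝ → ℝ} (hW : Coef d W) (c c' : ℝ)
    (u v : VS q par) :
    fW d q par W (c • u : VS q par) (c' • v : VS q par) = c * c' * fW d q par W u v := by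
  have h : formW q par hW (c • u) (c' • v) = c * c' * formW q par hW u v := by
    rw [LinearMap.BilinForm.smul_left, LinearMap.BilinForm.smul_right]; ring
  exact h

/-- the first variation in the direction `η(x) cos(aφ)` on a pair of pure modes -/
theorem fW_W1_mode {q par d : ℕ} (b1 : ℝ) {u v : VS q par} {m n : ℕ} {R S : ℝ → ℝ}
    (hu : (u : ℕ →₀ (ℝ → ℝ)) = Finsupp.single m R) (hv : (v : ℕ →₀ (ℝ → ℝ)) = Finsupp.single n S)
    (a : ℕ) (η : ℝ → ℝ)
    (hW : Coef d (W1 b1 fun z => η z.1 * Real.cos (a * z.2))) :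
    fW d q par (W1 b1 fun z => η z.1 * Real.cos (a * z.2)) u v =
      tT par a m n * (∫ x in Ioo (0:ℝ) 1, x ^ d * (η x * (rcomp d q R 1 x * rcomp d q S 1 x))) -
      b1 ^ 2 * (tD par a m n *
        ∫ x in Ioo (0:ℝ) 1, x ^ d * (η x * (rcomp d q R 2 x * rcomp d q S 2 x))) := by
  rw [fW_eq_sum hW u v, Fin.sum_univ_four, hu, hv]
  have e0 : ∫ z, W1 b1 (fun z => η z.1 * Real.cos (a * z.2)) 0 z *
      comp d q par (Finsupp.single m R) 0 z * comp d q par (Finsupp.single n S) 0 z ∂(Mod.mu d) = 0 := by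
    simp [W1]
  have e3 : ∫ z, W1 b1 (fun z => η z.1 * Real.cos (a * z.2)) 3 z *
      comp d q par (Finsupp.single m R) 3 z * comp d q par (Finsupp.single n S) 3 z ∂(Mod.mu d) = 0 := by
    simp [W1]
  have e1 : ∫ z, W1 b1 (fun z => η z.1 * Real.cos (a * z.2)) 1 z *
      comp d q par (Finsupp.single m R) 1 z * comp d q par (Finsupp.single n S) 1 z ∂(Mod.mu d) =
      tT par a m n *
        (∫ x in Ioo (0:ℝ) 1, x ^ d * (η x * (rcomp d q R 1 x * rcomp d q S 1 x))) := by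
    rw [← int_trig, mul_comm, ← integral_mu_prod d
      (fun x => η x * (rcomp d q R 1 x * rcomp d q S 1 x))
      (fun φ => Real.cos (a * φ) * (trig par m φ * trig par n φ))]
    congr 1; funext z
    rw [comp_single, comp_single]
    simp only [W1, acomp, Fin.reduceEq, if_false]
    ring
  have e2 : ∫ z, W1 b1 (fun z => η z.1 * Real.cos (a * z.2)) 2 z *
      comp d q par (Finsupp.single m R) 2 z * comp d q par (Finsupp.single n S) 2 z ∂(Mod.mu d) =
      -(b1 ^ 2 * (tD par a m n *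
        ∫ x in Ioo (0:ℝ) 1, x ^ d * (η x * (rcomp d q R 2 x * rcomp d q S 2 x)))) := by
    rw [← int_trigD, mul_comm (∫ φ in Ioo (0:ℝ) Real.pi, _), ← integral_mu_prod d
      (fun x => η x * (rcomp d q R 2 x * rcomp d q S 2 x))
      (fun φ => Real.cos (a * φ) * (trigD par m φ * trigD par n φ)), ← integral_const_mul,
      ← integral_neg]
    congr 1; funext z
    rw [comp_single, comp_single]
    simp only [W1, acomp, if_true]
    ring
  rw [e0, e1, e2, e3]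
  ring

theorem fW_WS_mode {q par d : ℕ} {u v : VS q par} {m n : ℕ} {R S : ℝ → ℝ}
    (hu : (u : ℕ →₀ (ℝ → ℝ)) = Finsupp.single m R)
    (hv : (v : ℕ →₀ (ℝ → ℝ)) = Finsupp.single n S) :
    fW d q par WS u v = tD par 0 m n *
        ∫ x in Ioo (0:ℝ) 1, x ^ d * (rcomp d q R 2 x * rcomp d q S 2 x) := by
  rw [fW_eq_sum (coef_WS d) u v, Fin.sum_univ_four, hu, hv]
  have e2 : ∫ z, WS 2 z *
      comp d q par (Finsupp.single m R) 2 z * comp d q par (Finsupp.single n S) 2 z ∂(Mod.mu d) =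
      tD par 0 m n *
        ∫ x in Ioo (0:ℝ) 1, x ^ d * (rcomp d q R 2 x * rcomp d q S 2 x) := by
    rw [← int_trigD, mul_comm, ← integral_mu_prod d
      (fun x => rcomp d q R 2 x * rcomp d q S 2 x)
      (fun φ => Real.cos ((0:ℕ) * φ) * (trigD par m φ * trigD par n φ))]
    congr 1; funext z
    rw [comp_single, comp_single]
    simp only [WS, acomp, if_true, Nat.cast_zero, zero_mul, Real.cos_zero]
    ring
  rw [e2]
  simp [WS]

/-! ### spindle modes -/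

theorem deriv_trunc_Rj (d q : ℕ) (μ : ℝ) (j : ℕ) {x : ℝ} (hx : x ^ 2 < 1) :
    deriv (trunc (Rj d q μ j)) x = dRj d q μ j x := by
  have h : HasDerivAt (trunc (Rj d q μ j)) (dRj d q μ j x) x :=
    (Rj_hasDerivAt d q μ j (by linarith)).congr_of_eventuallyEq (trunc_eventuallyEq hx)
  exact h.deriv

/-- `I1 = ∫ η x^d (1-x²) R' S'`. -/
theorem rad_one (d q : ℕ) (μ : ℝ) (j : ℕ) (μ' : ℝ) (j' : ℕ) (η : ℝ → ℝ) :
    ∫ x in Ioo (0:ℝ) 1, x ^ d * (η x * (rcomp d q (trunc (Rj d q μ j)) 1 x *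
      rcomp d q (trunc (Rj d q μ' j')) 1 x)) =
    ∫ x in Ioo (0:ℝ) 1, η x * (x ^ d * ((1 - x ^ 2) * (dRj d q μ j x * dRj d q μ' j' x))) := by
  refine setIntegral_congr_fun measurableSet_Ioo fun x hx => ?_
  have hx2 := sq_lt_one_of_mem hx
  simp only [rcomp]
  rw [deriv_trunc_Rj d q μ j hx2, deriv_trunc_Rj d q μ' j' hx2, ← rh_sq hx2]
  ring

/-- `I2 = ∫ η x^d R S / (1-x²)`. -/
theorem rad_two (d q : ℕ) (μ : ℝ) (j : ℕ) (μ' : ℝ) (j' : ℕ) (η : ℝ → ℝ) :
    ∫ x in Ioo (0:ℝ) 1, x ^ d * (η x * (rcomp d q (trunc (Rj d q μ j)) 2 x *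
      rcomp d q (trunc (Rj d q μ' j')) 2 x)) =
    ∫ x in Ioo (0:ℝ) 1, η x * (x ^ d * (1 / (1 - x ^ 2) * (Rj d q μ j x * Rj d q μ' j' x))) := by
  refine setIntegral_congr_fun measurableSet_Ioo fun x hx => ?_
  have hx2 := sq_lt_one_of_mem hx
  have hrh := rh_pos hx2
  simp only [rcomp]
  rw [trunc_of_lt hx2, trunc_of_lt hx2, ← rh_sq hx2]
  field_simp

theorem rad_two' (d q : ℕ) (μ : ℝ) (j : ℕ) :
    ∫ x in Ioo (0:ℝ) 1, x ^ d * (rcomp d q (trunc (Rj d q μ j)) 2 x *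
      rcomp d q (trunc (Rj d q μ j)) 2 x) = sj1 d q μ j := by
  unfold sj1
  refine setIntegral_congr_fun measurableSet_Ioo fun x hx => ?_
  have hx2 := sq_lt_one_of_mem hx
  have hrh := rh_pos hx2
  simp only [rcomp]
  rw [trunc_of_lt hx2, ← rh_sq hx2]
  field_simp

theorem dens_one_cont (d q : ℕ) (μ : ℝ) (j : ℕ) (μ' : ℝ) (j' : ℕ) :
    ContinuousOn (fun x => x ^ d * ((1 - x ^ 2) * (dRj d q μ j x * dRj d q μ' j' x)))
      (Ioo 0 1) := by
  have h := ((linkDen_cont01 d q μ j μ' j').add (linkDenP_cont01 d q μ j μ' j')).div_const 2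
  refine h.congr fun x _ => ?_
  simp only [Pi.add_apply, linkDen, linkDenP]
  ring

theorem Rj_cont01 (d q : ℕ) (μ : ℝ) (j : ℕ) : ContinuousOn (Rj d q μ j) (Ioo 0 1) :=
  fun x hx => (Rj_hasDerivAt d q μ j (by have := sq_lt_one_of_mem hx; linarith)).continuousAt.continuousWithinAt

theorem dens_two_cont (d q : ℕ) (μ : ℝ) (j : ℕ) (μ' : ℝ) (j' : ℕ) :
    ContinuousOn (fun x => x ^ d * (1 / (1 - x ^ 2) * (Rj d q μ j x * Rj d q μ' j' x)))
      (Ioo 0 1) := by
  refine (continuous_pow d).continuousOn.mul (ContinuousOn.mul ?_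
    ((Rj_cont01 d q μ j).mul (Rj_cont01 d q μ' j')))
  refine ContinuousOn.div (by fun_prop) (by fun_prop) fun x hx => ?_
  have := sq_lt_one_of_mem hx
  linarith

variable {Xa Xb : ℝ}

theorem int_linkDen (ha : 0 < Xa) (hb : Xb < 1) (d q : ℕ) (μ : ℝ) (j : ℕ) (μ' : ℝ) (j' : ℕ)
    (η : TF Xa Xb) :
    ∫ x in Ioo (0:ℝ) 1, (η : ℝ → ℝ) x * linkDen d q μ j μ' j' x =
      (∫ x in Ioo (0:ℝ) 1, (η : ℝ → ℝ) x *
        (x ^ d * ((1 - x ^ 2) * (dRj d q μ j x * dRj d q μ' j' x)))) -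
      μ * μ' * ∫ x in Ioo (0:ℝ) 1, (η : ℝ → ℝ) x *
        (x ^ d * (1 / (1 - x ^ 2) * (Rj d q μ j x * Rj d q μ' j' x))) := by
  rw [← integral_const_mul, ← integral_sub (integrableOn_TF ha hb (dens_one_cont d q μ j μ' j') η)
    ((integrableOn_TF ha hb (dens_two_cont d q μ j μ' j') η).const_mul _)]
  congr 1; funext x
  unfold linkDen; ring

theorem int_linkDenP (ha : 0 < Xa) (hb : Xb < 1) (d q : ℕ) (μ : ℝ) (j : ℕ) (μ' : ℝ) (j' : ℕ)
    (η : TF Xa Xb) :
    ∫ x in Ioo (0:ℝ) 1, (η : ℝ → ℝ) x * linkDenP d q μ j μ' j' x =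
      (∫ x in Ioo (0:ℝ) 1, (η : ℝ → ℝ) x *
        (x ^ d * ((1 - x ^ 2) * (dRj d q μ j x * dRj d q μ' j' x)))) +
      μ * μ' * ∫ x in Ioo (0:ℝ) 1, (η : ℝ → ℝ) x *
        (x ^ d * (1 / (1 - x ^ 2) * (Rj d q μ j x * Rj d q μ' j' x))) := by
  rw [← integral_const_mul, ← integral_add (integrableOn_TF ha hb (dens_one_cont d q μ j μ' j') η)
    ((integrableOn_TF ha hb (dens_two_cont d q μ j μ' j') η).const_mul _)]
  congr 1; funext x
  unfold linkDenP; ring

theorem TF_bdd (η : TF Xa Xb) : ∃ C : ℝ, ∀ x, |(η : ℝ → ℝ) x| ≤ C := by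
  obtain ⟨C, hC⟩ := (isCompact_Icc (a := Xa) (b := Xb)).exists_bound_of_continuousOn
    (TF.continuous η).continuousOn
  refine ⟨|C|, fun x => ?_⟩
  by_cases hx : x ∈ Icc Xa Xb
  · exact (hC x hx).trans (le_abs_self C)
  · rw [TF.eq_zero η hx, abs_zero]; exact abs_nonneg C

theorem coef_mode (d : ℕ) (b1 : ℝ) (a : ℕ) (η : TF Xa Xb) :
    Coef d (W1 b1 fun z => (η : ℝ → ℝ) z.1 * Real.cos (a * z.2)) := by
  obtain ⟨C, hC⟩ := TF_bdd η
  refine coef_W1 (γ := C) b1 ?_ (fun z _ => ?_)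
  · have : Continuous fun z : ℝ × ℝ => (η : ℝ → ℝ) z.1 * Real.cos (a * z.2) :=
      ((TF.continuous η).comp continuous_fst).mul (by fun_prop)
    exact this.aestronglyMeasurable
  · rw [abs_mul]
    calc |(η : ℝ → ℝ) z.1| * |Real.cos (a * z.2)| ≤ |(η : ℝ → ℝ) z.1| * 1 := by
          gcongr; exact Real.abs_cos_le_one _
      _ ≤ C := by rw [mul_one]; exact hC _

/-- the value of the first variation on a pair of spindle functions. -/
theorem fW_W1_psi (ha : 0 < Xa) (hb : Xb < 1) (d q par : ℕ) {b : ℝ} (hb1 : 1 ≤ b)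
    {p p' : ℕ × ℕ} (hp : par ≤ p.1) (hp' : par ≤ p'.1) {f : ℕ} (hf : f ≠ 0) (η : TF Xa Xb) :
    fW d q par (W1 b fun z => (η : ℝ → ℝ) z.1 * Real.cos (f * z.2))
      (psiN d q par b p) (psiN d q par b p') =
    (if p.1 + f = p'.1 ∨ p'.1 + f = p.1 then cplA Xa Xb d q b p p' η else 0) +
      SF.sg par * (if p.1 + p'.1 = f then cplB Xa Xb d q b p p' η else 0) := by
  have hc := coef_mode d b f η
  unfold psiN
  rw [fW_smul_smul hc, fW_W1_mode b (coe_psi d q hb1 hp p.2) (coe_psi d q hb1 hp' p'.2) f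
    (η : ℝ → ℝ) hc, rad_one, rad_two, cplA_apply ha hb, cplB_apply ha hb,
    int_linkDen ha hb, int_linkDenP ha hb, mul_comm b p.1, mul_comm b p'.1]
  set I1 := ∫ x in Ioo (0:ℝ) 1, (η : ℝ → ℝ) x *
    (x ^ d * ((1 - x ^ 2) * (dRj d q (p.1 * b) p.2 x * dRj d q (p'.1 * b) p'.2 x)))
  set I2 := ∫ x in Ioo (0:ℝ) 1, (η : ℝ → ℝ) x *
    (x ^ d * (1 / (1 - x ^ 2) * (Rj d q (p.1 * b) p.2 x * Rj d q (p'.1 * b) p'.2 x)))
  have hd0 : ((f : ℤ) + p.1 + p'.1) ≠ 0 := by omega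
  have key : ∀ m n : ℕ,
      tcc f m n = Real.pi / 4 * ((if m + f = n ∨ n + f = m then 1 else 0) +
        (if m + n = f then 1 else 0)) ∧
      tss f m n = Real.pi / 4 * ((if m + f = n ∨ n + f = m then 1 else 0) -
        (if m + n = f then 1 else 0)) := by
    intro m n
    unfold tcc tss dz
    have h0 : ¬ ((f : ℤ) + m + n = 0) := by omega
    have h1 : ((f : ℤ) + m - n = 0) ↔ m + f = n := by omega
    have h2 : ((f : ℤ) - m + n = 0) ↔ n + f = m := by omega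
    have h3 : ((f : ℤ) - m - n = 0) ↔ m + n = f := by omega
    simp only [h0, h1, h2, h3, if_false]
    have hex : ¬ (m + f = n ∧ n + f = m) := by omega
    constructor
    · split_ifs <;> first | (exfalso; omega) | ring
    · split_ifs <;> first | (exfalso; omega) | ring
  obtain ⟨k1, k2⟩ := key p.1 p'.1
  unfold tT tD SF.sg
  rw [k1, k2, mul_inv]
  by_cases h0 : par = 0
  · simp only [h0, if_true]
    split_ifs <;> ring
  · simp only [h0, if_false]
    split_ifs <;> ring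

/-! ### the sum over the harmonics -/

theorem continuous_Gf (G : ℕ →₀ TF Xa Xb) : Continuous (Gf G) := by
  unfold Gf Finsupp.sum
  refine continuous_finsetSum _ fun f _ => ?_
  exact ((TF.continuous _).comp continuous_fst).mul (by fun_prop)

theorem fW_W1_Gf {q par d : ℕ} (b : ℝ) (G : ℕ →₀ TF Xa Xb) (u v : VS q par) :
    fW d q par (W1 b (Gf G)) u v =
      G.sum fun f η => fW d q par (W1 b fun z => (η : ℝ → ℝ) z.1 * Real.cos (f * z.2)) u v := by
  unfold Finsupp.sum fW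
  rw [← integral_finsetSum _ fun f _ => integrable_sum (coef_mode d b f (G f)) u v]
  congr 1; funext z
  rw [Finset.sum_comm]
  refine Finset.sum_congr rfl fun i _ => ?_
  have : W1 b (Gf G) i z =
      ∑ f ∈ G.support, W1 b (fun z => (G f : ℝ → ℝ) z.1 * Real.cos (f * z.2)) i z := by
    fin_cases i
    · simp [W1]
    · simp [W1, Gf, Finsupp.sum]
    · simp only [W1, Gf, Finsupp.sum]
      rw [Finset.mul_sum, ← Finset.sum_neg_distrib]
    · simp [W1]
  rw [this, Finset.sum_mul, Finset.sum_mul]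

/-! ### slopes -/

theorem slope_self (d q : ℕ) {par : ℕ} {b : ℝ} (hb1 : 1 ≤ b) {p : ℕ × ℕ} (hp : par ≤ p.1) :
    2 * b * fW d q par WS (psiN d q par b p) (psiN d q par b p) = SF.slope d q b p := by
  have hb0 : (0:ℝ) ≤ b := by linarith
  have hn := nsq_pos d q hb0 p
  unfold psiN
  rw [fW_smul_smul (coef_WS d), fW_WS_mode (coe_psi d q hb1 hp p.2) (coe_psi d q hb1 hp p.2),
    rad_two', ← mul_inv, Real.mul_self_sqrt hn.le]
  unfold SF.slope
  by_cases hm : p.1 = 0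
  · unfold tD
    rw [hm]; simp
  · have hm1 : (1:ℝ) ≤ p.1 := by exact_mod_cast Nat.one_le_iff_ne_zero.mpr hm
    have hμ : (0:ℝ) < p.1 * b := by positivity
    have hs := slope d q hμ p.2
    have hT : tD par 0 p.1 p.1 = p.1 * p.1 * (Real.pi / 2) := by
      unfold tD
      split_ifs
      · rw [tss_zero_self hm]
      · rw [tcc_zero_self hm]
    have hN : nsq d q b p = Real.pi / 2 * nj1 d q (p.1 * b) p.2 := by
      unfold nsq
      rw [if_neg hm, mul_comm b]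
    rw [hN] at hn
    have hn1 : nj1 d q (p.1 * b) p.2 ≠ 0 := (nj1_pos d q hμ.le p.2).ne'
    rw [hT, hN]
    have hmu : aj q (p.1 * b) p.2 = Lab.mu b p + q := by
      unfold aj Lab.mu; ring
    rw [← hmu]
    have hpi : Real.pi ≠ 0 := Real.pi_pos.ne'
    generalize nj1 d q (p.1 * b) p.2 = n at hs hn1 ⊢
    generalize sj1 d q (p.1 * b) p.2 = s at hs ⊢
    generalize aj q (p.1 * b) p.2 = A at hs ⊢
    generalize (p.1 : ℝ) = m at hs ⊢
    have e1 : 2 * b * ((Real.pi / 2 * n)⁻¹ * (m * m * (Real.pi / 2) * s)) =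
        m * (2 * (m * b) * s) / n := by field_simp
    rw [e1, hs]
    field_simp

theorem slope_ne (d q : ℕ) {par : ℕ} {b : ℝ} (hb1 : 1 ≤ b) {p p' : ℕ × ℕ} (hp : par ≤ p.1)
    (hp' : par ≤ p'.1) (hne : p.1 ≠ p'.1) :
    2 * b * fW d q par WS (psiN d q par b p) (psiN d q par b p') = 0 := by
  unfold psiN
  rw [fW_smul_smul (coef_WS d), fW_WS_mode (coe_psi d q hb1 hp p.2) (coe_psi d q hb1 hp' p'.2)]
  have hT : tD par 0 p.1 p'.1 = 0 := by
    unfold tD
    split_ifs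
    · rw [tss_zero_ne hne, mul_zero]
    · rw [tcc_zero_ne hne, mul_zero]
  rw [hT]; ring

/-! ### the field `first` -/

/-- **(P4)**: field `first` of `SF.SpindleFamily` for the concrete objects. -/
theorem first_field {d : ℕ} {b0 b1 : ℝ} (hb0 : 1 ≤ b0) (ha : 0 < Xa) (hb : Xb < 1)
    (h : ℕ → ℝ → ℝ) (hh : ∀ k, Measurable (h k)) (h01 : ∀ k, ∀ x ∈ Ioo (0:ℝ) 1, 0 ≤ h k x ∧ h k x ≤ 1)
    (hlim : Tendsto (fun k => ∫ z, |h k z.1| ∂(Mod.mu d)) atTop (𝓝 0))
    (sz : (ℕ →₀ TF Xa Xb) → ℝ) (hsz : ∀ G, ∀ z ∈ Om, |Gf G z| ≤ sz G)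
    (σ : ℕ × ℕ) {b' : ℝ} (hb' : b' ∈ Ioo b0 b1) (p p' : SF.Lbl σ.2)
    (hmu : Lab.mu b' (p : ℕ × ℕ) = Lab.mu b' (p' : ℕ × ℕ))
    (heig : aform d σ b' (fun _ => 1) (psiN d σ.1 σ.2 b' p) (psiN d σ.1 σ.2 b' p') =
      if p = p' then SF.lev d σ.1 b' p else 0) :
    ∃ C : ℝ, 0 ≤ C ∧ ∃ o : ℕ → ℝ, (∀ k, 0 ≤ o k) ∧ Tendsto o atTop (𝓝 0) ∧
    ∀ b ∈ Icc b0 b1, ∀ G : ℕ →₀ TF Xa Xb, G 0 = 0 → sz G ≤ 1 / 2 → ∀ k,
      |aform d σ b (prof (h k) b G) (psiN d σ.1 σ.2 b' p) (psiN d σ.1 σ.2 b' p') -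
        ((if p = p' then SF.lev d σ.1 b' p + (b - b') * SF.slope d σ.1 b' p else 0) +
          SF.firstVar (cplA Xa Xb d) (cplB Xa Xb d) σ b' p p' G)| ≤
        C * (|b - b'| + sz G) ^ 2 + o k := by
  have hb'1 : 1 ≤ b' := hb0.trans hb'.1.le
  have hbb : b0 ≤ b1 := (hb'.1.trans hb'.2).le
  have hb1p : 1 ≤ b1 := hb0.trans hbb
  set K : ℝ := 2 + b1 with hK
  obtain ⟨C, hC0, hC⟩ := expansion d (psiN d σ.1 σ.2 b' p) (psiN d σ.1 σ.2 b' p') b1 K
  refine ⟨C, hC0, fun k => C * ((b1 - 1) * ∫ z, |h k z.1| ∂(Mod.mu d)), fun k => ?_, ?_, ?_⟩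
  · have : 0 ≤ ∫ z, |h k z.1| ∂(Mod.mu d) := integral_nonneg fun z => abs_nonneg _
    have h2 : 0 ≤ b1 - 1 := by linarith
    positivity
  · have := (hlim.const_mul (b1 - 1)).const_mul C
    simpa using this
  intro b hbI G hG0 hGs k
  have hb1' : 1 ≤ b := hb0.trans hbI.1
  -- admissibility
  have hτm : AEStronglyMeasurable (fun z : ℝ × ℝ => (b - 1) * h k z.1) (Mod.mu d) :=
    (((hh k).comp measurable_fst).const_mul _).aestronglyMeasurable
  have hGm : AEStronglyMeasurable (Gf G) (Mod.mu d) := (continuous_Gf G).aestronglyMeasurable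
  have hpt : ∀ z ∈ Om, 0 ≤ (b - 1) * h k z.1 ∧ (b - 1) * h k z.1 ≤ b1 - 1 := by
    intro z hz
    obtain ⟨a1, a2⟩ := h01 k z.1 hz.1
    have a3 : 0 ≤ b - 1 := by linarith
    refine ⟨mul_nonneg a3 a1, ?_⟩
    calc (b - 1) * h k z.1 ≤ (b - 1) * 1 := mul_le_mul_of_nonneg_left a2 a3
      _ ≤ b1 - 1 := by linarith [hbI.2]
  have hAdm : Adm d K (prof (h k) b G) := by
    refine ⟨?_, by rw [hK]; linarith, fun z hz => ?_, fun z hz => ?_⟩
    · exact (aestronglyMeasurable_const.add hτm).add hGm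
    · obtain ⟨a1, a2⟩ := hpt z hz
      have a3 := abs_le.1 ((hsz G z hz).trans hGs)
      have a4 : K⁻¹ ≤ 1 / 2 := by
        rw [one_div]
        exact inv_anti₀ (by norm_num) (by rw [hK]; linarith)
      unfold prof
      linarith [a3.1]
    · obtain ⟨a1, a2⟩ := hpt z hz
      have a3 := abs_le.1 ((hsz G z hz).trans hGs)
      unfold prof
      rw [hK]
      linarith [a3.2]
  have hexp := hC b b' (sz G) (prof (h k) b G) (fun z => (b - 1) * h k z.1) (Gf G)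
    (by rw [abs_of_nonneg (by linarith)]; exact hbI.2)
    (by rw [abs_of_nonneg (by linarith)]; exact hb'.2.le) hAdm hτm hGm
    (fun z hz => ⟨rfl, by
      obtain ⟨a1, a2⟩ := hpt z hz
      rw [abs_of_nonneg a1, hK]; linarith, hsz G z hz⟩)
    (hGs.trans (by rw [hK]; linarith))
  rw [← aform_apply σ b hAdm, ← aform_apply σ b' (adm_one d), heig] at hexp
  -- the main terms
  have hA1 : (b - b') * (2 * b' * fW d σ.1 σ.2 WS (psiN d σ.1 σ.2 b' p) (psiN d σ.1 σ.2 b' p')) =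
      if p = p' then (b - b') * SF.slope d σ.1 b' p else 0 := by
    by_cases hpp : p = p'
    · subst hpp
      rw [if_pos rfl, slope_self d σ.1 hb'1 p.2]
    · rw [if_neg hpp, slope_ne d σ.1 hb'1 p.2 p'.2, mul_zero]
      intro h1
      apply hpp
      apply Subtype.ext
      have h2 : ((p : ℕ × ℕ).2 : ℝ) = ((p' : ℕ × ℕ).2 : ℝ) := by
        unfold Lab.mu at hmu
        rw [h1] at hmu
        linarith
      exact Prod.ext h1 (by exact_mod_cast h2)
  have hA2 : fW d σ.1 σ.2 (W1 b' (Gf G)) (psiN d σ.1 σ.2 b' p) (psiN d σ.1 σ.2 b' p') =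
      SF.firstVar (cplA Xa Xb d) (cplB Xa Xb d) σ b' p p' G := by
    rw [fW_W1_Gf]
    unfold SF.firstVar Finsupp.sum
    refine Finset.sum_congr rfl fun f hf => ?_
    have hf0 : f ≠ 0 := by
      rintro rfl
      exact (Finsupp.mem_support_iff.1 hf) hG0
    exact fW_W1_psi ha hb d σ.1 σ.2 hb'1 p.2 p'.2 hf0 (G f)
  rw [hA1, hA2] at hexp
  have hτint : ∫ z, |(b - 1) * h k z.1| ∂(Mod.mu d) ≤ (b1 - 1) * ∫ z, |h k z.1| ∂(Mod.mu d) := by
    have e : ∀ z : ℝ × ℝ, |(b - 1) * h k z.1| = (b - 1) * |h k z.1| := fun z => by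
      rw [abs_mul, abs_of_nonneg (by linarith)]
    simp_rw [e]
    rw [integral_const_mul]
    exact mul_le_mul_of_nonneg_right (by linarith [hbI.2]) (integral_nonneg fun z => abs_nonneg _)
  have hsz0 : 0 ≤ sz G := by
    have hne : ((1/2 : ℝ), (1:ℝ)) ∈ Om := ⟨⟨by norm_num, by norm_num⟩, ⟨by norm_num, by
      linarith [Real.pi_gt_three]⟩⟩
    exact (abs_nonneg _).trans (hsz G _ hne)
  have e : aform d σ b (prof (h k) b G) (psiN d σ.1 σ.2 b' p) (psiN d σ.1 σ.2 b' p') -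
        ((if p = p' then SF.lev d σ.1 b' p + (b - b') * SF.slope d σ.1 b' p else 0) +
          SF.firstVar (cplA Xa Xb d) (cplB Xa Xb d) σ b' p p' G) =
      aform d σ b (prof (h k) b G) (psiN d σ.1 σ.2 b' p) (psiN d σ.1 σ.2 b' p') -
        (if p = p' then SF.lev d σ.1 b' p else 0) -
        (if p = p' then (b - b') * SF.slope d σ.1 b' p else 0) -
        SF.firstVar (cplA Xa Xb d) (cplB Xa Xb d) σ b' p p' G := by
    split_ifs <;> ring
  rw [e]
  refine hexp.trans ?_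
  have h1 : (b - b') ^ 2 + sz G ^ 2 ≤ (|b - b'| + sz G) ^ 2 := by
    rw [← sq_abs (b - b')]
    nlinarith [abs_nonneg (b - b')]
  have h2 : (b - b') ^ 2 + sz G ^ 2 + ∫ z, |(b - 1) * h k z.1| ∂(Mod.mu d) ≤
      (|b - b'| + sz G) ^ 2 + (b1 - 1) * ∫ z, |h k z.1| ∂(Mod.mu d) := add_le_add h1 hτint
  have h3 := mul_le_mul_of_nonneg_left h2 hC0
  linarith

end Crest.Agent.R202.Clu
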