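import Crest.Agent.R202.Fou5
import Crest.Agent.R202.CluDefs

/-! Row 202, PART C (helper206): field `eig` of the spindle family for helper58's `psiN`. -/

set_option autoImplicit false

open MeasureTheory Set

noncomputable section

namespace Crest.Agent.R202.Mod

theorem nsq_eq (d q : ℕ) (b : ℝ) (p : ℕ × ℕ) :
    Clu.nsq d q b p = Fou.ntrg p.1 * Fou.nh d q (p.1 * b) p.2 := by
  have : (p.1 : ℝ) * b = b * p.1 := mul_comm _ _
  rw [this]
  rfl

/-- **(P0), field `eig`** -/
theorem eig_psiN {d q par : ℕ} (hadm : d = 0 → q ≤ 1) {b : ℝ} (hb : 1 ≤ b) :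
    Cut.Eig (g d q par) (Q q par (adm_one d) b)
      (fun p : SF.Lbl par => Clu.psiN d q par b p) (fun p : SF.Lbl par => SF.lev d q b p) := by
  have h := eig_main (q := q) (par := par) (d := d) hadm hb
    (fun p => (Real.sqrt (Clu.nsq d q b p))⁻¹) (fun p => by
      have hpos : 0 < Clu.nsq d q b p := Clu.nsq_pos d q (by linarith) p
      rw [← nsq_eq, inv_pow, Real.sq_sqrt hpos.le, inv_mul_cancel₀ hpos.ne'])
  exact h

end Crest.Agent.R202.Mod
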