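import Crest.Agent.R202.LinkGate
import Crest.Agent.R202.CluDefs

/-!
# Row 202, PART C: the fields `link`, `gate` for the concrete coupling functionals (helper225)
-/

set_option autoImplicit false

open MeasureTheory Set Filter Topology
open scoped ContDiff
open Crest.Agent.R202.Lab

noncomputable section
namespace Crest.Agent.R202.Clu

theorem link_TF_le (Xa Xb : ℝ) : Link.TF Xa Xb ≤ TF Xa Xb := fun η hη =>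
  ⟨hη.1, fun x hx => Link.TF.eq_zero hη fun h => hx (Ioo_subset_Icc_self h)⟩

theorem cpl_clu (d : ℕ) {Xa Xb : ℝ} (ha : 0 < Xa) (hb : Xb < 1) :
    Link.Cpl d (link_TF_le Xa Xb) (cplA Xa Xb d) (cplB Xa Xb d) := by
  have hc : ∀ (q : ℕ) (b : ℝ), 0 < b → ∀ p p' : ℕ × ℕ,
      (Real.sqrt (nsq d q b p) * Real.sqrt (nsq d q b p'))⁻¹ * (Real.pi / 4) ≠ 0 := by
    intro q b hb p p'
    have h1 := Real.sqrt_pos.2 (nsq_pos d q hb.le p)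
    have h2 := Real.sqrt_pos.2 (nsq_pos d q hb.le p')
    have := Real.pi_pos
    positivity
  constructor
  · intro q b hb0 p p'
    refine ⟨_, hc q b hb0 p p', fun η hη => ?_⟩
    rw [cplA_apply ha hb, Link.TF.setIntegral hη ha.le hb.le]
  · intro q b hb0 p p'
    refine ⟨_, hc q b hb0 p p', fun η hη => ?_⟩
    rw [cplB_apply ha hb, Link.TF.setIntegral hη ha.le hb.le]

/-- field `link` of `SF.SpindleFamily` for `cplA` -/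
theorem cpl_link {d : ℕ} {Xa Xb : ℝ} (ha : 0 < Xa) (hab : Xa < Xb) (hb : Xb < 1) {b0 b1 : ℝ}
    (OK : ℕ × ℕ → Prop) :
    ∀ (a c : ℕ), 0 < a → 0 < c → Nat.Coprime a c → 2 * (c : ℝ) / a ∈ Ioo b0 b1 →
    ∀ F : Finset (ℕ × (ℕ × ℕ)), (∀ z ∈ F, (∃ s, OK (z.1, s)) ∧ c ≤ z.2.2) →
    ∃ η : TF Xa Xb, ∀ z ∈ F,
      cplA Xa Xb d z.1 (2 * (c : ℝ) / a) z.2 (z.2.1 + a, z.2.2 - c) η ≠ 0 :=
  Link.link_field (cpl_clu d ha hb) hab ha.le hb.le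

/-- field `gate` of `SF.SpindleFamily` for `cplA`, `cplB` -/
theorem cpl_gate {d : ℕ} {Xa Xb : ℝ} (ha : 0 < Xa) (hab : Xa < Xb) (hb : Xb < 1) {b0 b1 : ℝ}
    {OK : ℕ × ℕ → Prop} (hOK : (∀ σ, OK σ → σ.1 ≤ 1) ∨ (∀ σ, OK σ → 1 ≤ σ.1)) :
    ∀ (a c : ℕ), 0 < a → 0 < c → Nat.Coprime a c → 2 * (c : ℝ) / a ∈ Ioo b0 b1 →
    ∀ (q : ℕ) (p : ℕ × ℕ), (∃ s, OK (q, s) ∧ s ≤ p.1) → c ≤ p.2 → p.2 - c < c →
    ∀ F : Finset (ℕ × (ℕ × ℕ)), (∀ z ∈ F, (∃ s, OK (z.1, s)) ∧ c ≤ z.2.2) →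
    ∃ ηA ηB ξ : TF Xa Xb,
      (cplA Xa Xb d q (2 * (c : ℝ) / a) p (p.1 + a, p.2 - c) ηA = 0) ∧
      (∀ z ∈ F, z ≠ (q, p) →
        cplA Xa Xb d z.1 (2 * (c : ℝ) / a) z.2 (z.2.1 + a, z.2.2 - c) ηA ≠ 0) ∧
      (cplA Xa Xb d q (2 * (c : ℝ) / a) p (p.1 + a, p.2 - c) ηB = 1) ∧
      (∀ p₁ : ℕ × ℕ, c ≤ p₁.2 → mu (2 * (c : ℝ) / a) p₁ = mu (2 * (c : ℝ) / a) p → p₁ ≠ p →
        cplA Xa Xb d q (2 * (c : ℝ) / a) p₁ (p₁.1 + a, p₁.2 - c) ηB = 0) ∧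
      (∀ p₁ : ℕ × ℕ, mu (2 * (c : ℝ) / a) p₁ = mu (2 * (c : ℝ) / a) p → 2 * p₁.1 = a →
        cplB Xa Xb d q (2 * (c : ℝ) / a) p₁ p₁ ηB = 0) ∧
      (cplB Xa Xb d q (2 * (c : ℝ) / a) p (p.1 + a, p.2 - c) ξ = 1) :=
  Link.gate_field (cpl_clu d ha hb) hab ha.le hb.le hOK

end Crest.Agent.R202.Clu
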