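import Crest.Agent.R202.InstCons
import Crest.Agent.R202.FouEig
import Crest.Agent.R202.CluFirst
import Crest.Agent.R202.LinkClu

/-!
# Row 202: the spindle family instance (helper98)
-/

set_option autoImplicit false

open MeasureTheory Set Filter
open scoped Topology ContDiff
open Crest.Agent.R202.Mod Crest.Agent.R202.Cut Crest.Agent.R202.PL Crest.Agent.R202.Clu

noncomputable section

namespace Crest.Agent.R202.Inst

variable {Xa Xb : ℝ}

/-- the tip profiles of `CThm` -/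
structure Tips (Xb : ℝ) (hs : ℕ → ℝ → ℝ) (ε : ℕ → ℝ) : Prop where
  meas : ∀ k, Measurable (hs k)
  nonneg : ∀ k x, 0 ≤ hs k x
  le_one : ∀ k x, hs k x ≤ 1
  lim : Tendsto ε atTop (𝓝 0)
  small : ∀ k, ∀ x ∈ Icc (0 : ℝ) 1, hs k x * (1 - x ^ 2) ≤ ε k

theorem Tips.int {Xb : ℝ} {hs : ℕ → ℝ → ℝ} {ε : ℕ → ℝ} (H : Tips Xb hs ε) (d : ℕ) :
    Tendsto (fun k => ∫ z, |hs k z.1| ∂(mu d)) atTop (𝓝 0) := by
  have key : Tendsto (fun k => ∫ z, |hs k z.1| ∂(mu d)) atTop (𝓝 (∫ _, (0 : ℝ) ∂(mu d))) := by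
    refine tendsto_integral_of_dominated_convergence (fun _ => (1 : ℝ))
      (fun k => (((H.meas k).comp measurable_fst).norm).aestronglyMeasurable)
      (integrable_const _) (fun k => Filter.Eventually.of_forall fun z => ?_) ?_
    · rw [Real.norm_eq_abs, abs_abs, abs_of_nonneg (H.nonneg k z.1)]
      exact H.le_one k z.1
    · filter_upwards [ae_mem_Om d] with z hz
      have hx : 0 < 1 - z.1 ^ 2 := by have := sq_lt_one_of_mem hz.1; linarith
      have hlim : Tendsto (fun k => ε k / (1 - z.1 ^ 2)) atTop (𝓝 0) := by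
        simpa using H.lim.div_const (1 - z.1 ^ 2)
      refine squeeze_zero (fun k => abs_nonneg _) (fun k => ?_) hlim
      rw [le_div_iff₀ hx, abs_of_nonneg (H.nonneg k z.1)]
      exact H.small k z.1 ⟨hz.1.1.le, hz.1.2.le⟩
  rwa [integral_zero] at key

theorem aform_one (d : ℕ) (σ : ℕ × ℕ) (b : ℝ) :
    aform d σ b (fun _ => 1) = Q σ.1 σ.2 (adm_one d) b := Clu.aform_eq σ b (adm_one d)

/-- **the spindle family** -/
def fam (d : ℕ) {b0 b1 : ℝ} (hb0 : 1 ≤ b0) (hb01 : b0 ≤ b1) {hs : ℕ → ℝ → ℝ} {ε : ℕ → ℝ}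
    (H : Tips Xb hs ε) (ha : 0 < Xa) (hab : Xa < Xb) (hb : Xb < 1) :
    SF.SpindleFamily d b0 b1 (Main.SecOK d) (TF Xa Xb) (fun σ => CT.VV σ) where
  g σ := g d σ.1 σ.2
  a σ b G k := aform d σ b (prof (hs k) b G)
  a0 σ b := a0form d σ b
  ψ σ b p := psiN d σ.1 σ.2 b p
  sz := jetN
  A := cplA Xa Xb d
  B := cplB Xa Xb d
  sz_nonneg := jetN_nonneg
  sz_smul := jetN_smul
  sz_add := jetN_add
  symm σ _ b _ G _ k u v := aform_symm d σ b _ u v
  eig σ hσ b hbm := eig_psiN (fun h => hσ.2.1 h) (hb0.trans hbm.1)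
  comp σ _ := aform_comp d σ hb0 hb01 H.meas H.nonneg H.le_one
  cons σ _ b' hb' p := by
    obtain ⟨C, hC, o, ho, hlim, h⟩ := aform_cons (Xa := Xa) (Xb := Xb) d σ hb0 H.meas H.nonneg
      H.le_one H.lim H.small hb' (psiN d σ.1 σ.2 b' p)
    exact ⟨C, hC, o, ho, hlim, fun b hbm G _ hG k v => h b hbm G hG k v⟩
  first σ hσ b' hb' p p' hmu := by
    have he := eig_psiN (d := d) (q := σ.1) (par := σ.2) (fun h => hσ.2.1 h)
      (hb0.trans hb'.1.le)
    refine first_field hb0 ha hb hs H.meas (fun k x _ => ⟨H.nonneg k x, H.le_one k x⟩) (H.int d)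
      jetN (fun G z _ => abs_Gf_le G z) σ hb' p p' hmu ?_
    rw [aform_one, he.eig]
    split_ifs with h
    · rw [h, he.one, mul_one]
    · rw [he.orth p p' h, mul_zero]
  A_symm := cplA_symm d
  B_symm := cplB_symm d
  B_eq_A q b p p' hp η := cplB_eq_cplA d q b p p' hp η
  link := cpl_link ha hab hb (Main.SecOK d)
  gate := cpl_gate ha hab hb (by
    rcases Nat.eq_zero_or_pos d with h | h
    · exact Or.inl fun σ hσ => hσ.2.1 h
    · exact Or.inr fun σ hσ => hσ.2.2 h)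

end Crest.Agent.R202.Inst
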