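import Crest.Agent.R202.HomeAbs
import Crest.Agent.R202.InstFam
import Crest.Agent.R202.CThmSep
import Crest.Agent.R202.ConstRem
import Crest.Agent.R202.Model4

/-!
# Row 202, PART C: the clause `home` of `COut` (helper816)
-/

set_option autoImplicit false

open MeasureTheory Set Filter Module
open scoped Topology ContDiff
open Crest.Agent.R202.Mod Crest.Agent.R202.Cut Crest.Agent.R202.PL Crest.Agent.R202.Clu
open Crest.Agent.R202.Lab

noncomputable section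

namespace Crest.Agent.R202.HomeC

open Crest.Agent.R202.Inst

/-- density of the polynomials at the normalised spindle functions -/
theorem exists_pol_near_psiN (d : ℕ) (σ : ℕ × ℕ) {b : ℝ} (hb : 1 ≤ b) (p : SF.Lbl σ.2) {ε : ℝ}
    (hε : 0 < ε) : ∃ q ∈ Pol σ.1 σ.2,
      href d σ.1 σ.2 (psiN d σ.1 σ.2 b p - q) (psiN d σ.1 σ.2 b p - q) < ε := by
  set c : ℝ := (Real.sqrt (nsq d σ.1 b p))⁻¹ with hc
  have hpos : 0 < c := inv_pos.2 (Real.sqrt_pos.2 (nsq_pos d σ.1 (by linarith) p))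
  obtain ⟨q, hq, h⟩ := exists_pol_near d σ.1 hb p.2 (p : ℕ × ℕ).2 (ε := ε / c ^ 2) (by positivity)
  refine ⟨c • q, Submodule.smul_mem _ _ hq, ?_⟩
  have e : psiN d σ.1 σ.2 b p - c • q =
      c • (psi d σ.1 σ.2 b (p : ℕ × ℕ).1 (p : ℕ × ℕ).2 - q) := by
    unfold psiN
    exact (smul_sub c (psi d σ.1 σ.2 b (p : ℕ × ℕ).1 (p : ℕ × ℕ).2) q).symm
  rw [e]
  simp only [map_smul, LinearMap.smul_apply, smul_eq_mul]
  rw [lt_div_iff₀ (by positivity)] at h
  calc _ = href d σ.1 σ.2 (psi d σ.1 σ.2 b (p : ℕ × ℕ).1 (p : ℕ × ℕ).2 - q)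
        (psi d σ.1 σ.2 b (p : ℕ × ℕ).1 (p : ℕ × ℕ).2 - q) * c ^ 2 := by ring
    _ < ε := h

/-- from a polynomial frame on the full space to `SepP` -/
theorem exists_sepP {d : ℕ} {σ : ℕ × ℕ} {l : ℕ} {K : ℝ} {P : ℝ × ℝ → ℝ} (hP : Adm d K P) {b : ℝ}
    {p : Fin (l + Main.sh σ) → CT.VV σ} (hp : ∀ i, p i ∈ Pol σ.1 σ.2) {A B : ℝ}
    (hs : LocS.SepB ⊤ (g d σ.1 σ.2) (aform d σ b P) p A B) :
    ∃ p' : Fin l → CT.VV σ, CT.SepP d σ l p' A B b P := by
  by_cases hσ : σ = (0, 0)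
  · subst hσ
    have hsh : Main.sh (0, 0) = 1 := rfl
    have hsep := sep_of_frame hs
    have e0 : aform d (0, 0) b P = Q 0 0 hP b := Clu.aform_eq (0, 0) b hP
    obtain ⟨p', hli, hmem, hone, hred⟩ := CR.exists_red (V := VS 0 0) (g := g d 0 0)
      (a := Q 0 0 hP b) g_symm (fun v hv => g_pos hv) (one := one) one_ne_zero' (l := l) (p := p)
      hs.li (Q_nonneg hP b) (Q_one hP b) (A := A) (B := B) (by rw [← e0]; exact hsep)
    have hR := hred (Q 0 0 hP b) (Q_symm hP b) (Q_nonneg hP b) (Q_one hP b) A B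
      (by rw [← e0]; exact hsep)
    refine ⟨p', ⟨fun i => ?_, fun i _ => hone i, hli, hR.lt, hR.le, fun v hv hvp =>
      hR.ge v (hv rfl) hvp⟩⟩
    have h1 : Submodule.span ℝ (Set.range p) ≤ Pol 0 0 := by
      rw [Submodule.span_le]
      rintro _ ⟨j, rfl⟩
      exact hp j
    exact h1 (hmem i)
  · have hsh : Main.sh σ = 0 := by unfold Main.sh; rw [if_neg hσ]
    have e0 : aform d σ b P = Q σ.1 σ.2 hP b := Clu.aform_eq σ b hP
    have key : ∀ (n : ℕ), n = 0 → ∀ p : Fin (l + n) → CT.VV σ, (∀ i, p i ∈ Pol σ.1 σ.2) →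
        LocS.SepB ⊤ (g d σ.1 σ.2) (aform d σ b P) p A B →
        ∃ p' : Fin l → CT.VV σ, CT.SepP d σ l p' A B b P := by
      rintro _ rfl p hp hs
      rw [e0] at hs
      exact ⟨p, ⟨hp, fun i h => absurd h hσ, hs.li, hs.lt, hs.le, fun v _ hv =>
        hs.ge v Submodule.mem_top hv⟩⟩
    exact key _ hsh p hp hs

theorem prof_zero_eq {Xa Xb : ℝ} (h : ℝ → ℝ) (b : ℝ) :
    prof h b (0 : ℕ →₀ TF Xa Xb) = CT.PF h b fun _ _ => 0 := by
  funext z
  simp [prof, CT.PF, Gf]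

/-- **the clause `home`** of `COut`, for all sharp tips -/
theorem home_clause {m : ℕ} {v : ℝ} {k : ℕ} (D : Main.CountData m v k) {Xa Xb : ℝ}
    (ha : 0 < Xa) (hab : Xa < Xb) (hb : Xb < 1) {hs : ℕ → ℝ → ℝ} {ε : ℕ → ℝ}
    (H : Tips Xb hs ε) {εh : ℝ} (hεh : 0 < εh) :
    ∀ᶠ n in atTop, ∀ σ ∈ D.S, ∀ l, D.i0 σ ≤ l → l ≤ D.N σ →
      ∃ (p : Fin l → CT.VV σ) (A B : ℝ),
        CT.SepP m σ l p A B D.b0 (CT.PF (hs n) D.b0 fun _ _ => 0) ∧
          A ≤ CT.homeLev D σ (l - 1) + εh ∧ CT.homeLev D σ l - εh ≤ B := by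
  have hb0 : 1 ≤ D.b0 := D.b0_gt.le
  have hb0' : 0 < D.b0 := by linarith
  set F := fam m hb0 D.b01.le H ha hab hb with hF
  rw [Filter.eventually_all_finset]
  intro σ hσS
  have hOK := D.secOK σ hσS
  obtain ⟨he, hm, hsur⟩ := D.enum σ.2 hOK.1
  have key : ∀ l ∈ Finset.range (D.N σ + 1), ∀ᶠ n in atTop, D.i0 σ ≤ l →
      ∃ (p : Fin l → CT.VV σ) (A B : ℝ),
        CT.SepP m σ l p A B D.b0 (CT.PF (hs n) D.b0 fun _ _ => 0) ∧
          A ≤ CT.homeLev D σ (l - 1) + εh ∧ CT.homeLev D σ l - εh ≤ B := by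
    intro l _
    by_cases hl : D.i0 σ ≤ l
    swap
    · exact Filter.Eventually.of_forall fun n h => absurd h hl
    have hl1 : 1 ≤ l := (D.i0_pos σ hσS).trans hl
    set s := Main.sh σ with hs'
    have el : l + s - 1 = l - 1 + s := by omega
    set gap : ℝ := SF.lev m σ.1 D.b0 (D.e σ.2 (l + s)) - SF.lev m σ.1 D.b0 (D.e σ.2 (l + s - 1))
      with hgap
    have hgap0 : 0 < gap := sub_pos.2 (SF.lev_lt hb0' (hm (by omega : l + s - 1 < l + s)))
    set ε1 : ℝ := min (εh / 2) (gap / 8) with hε1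
    have hε10 : 0 < ε1 := lt_min (by positivity) (by positivity)
    have hε11 : 2 * ε1 ≤ εh := by have := min_le_left (εh / 2) (gap / 8); linarith
    have hε12 : 8 * ε1 ≤ gap := by have := min_le_right (εh / 2) (gap / 8); linarith
    obtain ⟨K, hK⟩ := F.home_sep hb0' D.b01.le hOK he hm hsur (l := l + s) (by omega) hε10
      (by linarith)
    filter_upwards [eventually_ge_atTop K] with n hn _
    have hsep := hK n hn
    have heig := F.eig σ hOK D.b0 ⟨le_rfl, D.b01.le⟩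
    -- the frame
    set f : Fin (l + s) → CT.VV σ := fun i => F.ψ σ D.b0 ⟨D.e σ.2 i, he i⟩ with hf
    have hli : LinearIndependent ℝ f := by
      refine (SF.eig_li heig).comp (fun i : Fin (l + s) => (⟨D.e σ.2 i, he i⟩ : SF.Lbl σ.2)) ?_
      intro i j hij
      have h1 : D.e σ.2 i = D.e σ.2 j := congrArg Subtype.val hij
      exact Fin.ext (hm.injective (by simp only [h1]))
    have hB : LocS.SepB ⊤ (g m σ.1 σ.2) (aform m σ D.b0 (prof (hs n) D.b0 (0 : ℕ →₀ TF Xa Xb))) f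
        (SF.lev m σ.1 D.b0 (D.e σ.2 (l + s - 1)) + ε1)
        (SF.lev m σ.1 D.b0 (D.e σ.2 (l + s)) - ε1) := by
      refine ⟨fun _ => Submodule.mem_top, hli, hsep.lt, hsep.le, fun w _ hw => hsep.ge w ?_⟩
      intro u hu
      obtain ⟨x, rfl⟩ := (LocS.mem_span_iff (V := CT.VV σ) (f := f)).1 hu
      refine (LocS.g_cmb _ _ _ _).trans (Finset.sum_eq_zero fun i _ => ?_)
      exact mul_eq_zero_of_right _ (hw i)
    rw [prof_zero_eq] at hB
    have hadm : Adm m (D.b0 + 2) (CT.PF (hs n) D.b0 fun _ _ => 0) := by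
      rw [← prof_zero_eq (Xa := Xa) (Xb := Xb)]
      refine adm_prof m (H.meas n) (H.nonneg n) (H.le_one n) hb0 le_rfl ?_
      have h0 : jetN (0 : ℕ →₀ TF Xa Xb) = 0 := F.sz_zero_home
      rw [h0]; norm_num
    obtain ⟨p, hp, -, hev⟩ := open_local (d := m) (σ := σ) (X := Unit) (b := fun _ => D.b0)
      (P := fun _ => CT.PF (hs n) D.b0 fun _ _ => 0) (x0 := ()) (β := D.b0) ⟨hb0, le_rfl⟩ hadm
      (Filter.Eventually.of_forall fun _ => hadm)
      (fun δ hδ => Filter.Eventually.of_forall fun _ w => by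
        rw [sub_self, abs_zero]
        exact mul_nonneg hδ.le ((sn_href m σ.1 σ.2).nn w))
      hB (fun i ε hε => exists_pol_near_psiN m σ hb0 _ hε)
      (A' := SF.lev m σ.1 D.b0 (D.e σ.2 (l + s - 1)) + 2 * ε1)
      (B' := SF.lev m σ.1 D.b0 (D.e σ.2 (l + s)) - 2 * ε1) (by linarith) (by linarith)
      (by linarith)
    obtain ⟨p', hp'⟩ := exists_sepP hadm hp hev.self_of_nhds.2
    refine ⟨p', _, _, hp', ?_, ?_⟩
    · have e : CT.homeLev D σ (l - 1) = SF.lev m σ.1 D.b0 (D.e σ.2 (l + s - 1)) := by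
        rw [el]; rfl
      rw [e]; linarith
    · have e : CT.homeLev D σ l = SF.lev m σ.1 D.b0 (D.e σ.2 (l + s)) := rfl
      rw [e]; linarith
  have h2 := (Filter.eventually_all_finset _).2 key
  filter_upwards [h2] with n hn l hl hlN
  exact hn l (Finset.mem_range.2 (by omega)) hl

end Crest.Agent.R202.HomeC
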