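import Crest.Agent.R202.PolyCont
import Crest.Agent.R202.CThmLoop

/-! # Row 202, node CONT (helper557): the instance for the loops of the gates -/

set_option autoImplicit false

open MeasureTheory Set Filter
open scoped Topology ContDiff
open Crest.Agent.R202.Mod Crest.Agent.R202.Cut Crest.Agent.R202.PL Crest.Agent.R202.Clu

noncomputable section

namespace Crest.Agent.R202.Inst

variable {Xa Xb : ℝ} {d : ℕ} {b0 b1 : ℝ} {hb0 : 1 ≤ b0} {hb01 : b0 ≤ b1} {hs : ℕ → ℝ → ℝ}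
  {ε : ℕ → ℝ} {H : Tips Xb hs ε} {ha : 0 < Xa} {hab : Xa < Xb} {hb : Xb < 1}
  {S : Finset (ℕ × ℕ)} {N : ℕ × ℕ → ℕ} {σs : ℕ × ℕ} {ls : ℕ} {δ : ℝ}

/-- **(CONT)** for the loop of a gate -/
theorem loopCont (O : SF.GateOut (fam d hb0 hb01 H ha hab hb) S N σs ls δ) (hδ : δ ≤ 1 / 2)
    (k : ℕ) (σ : ℕ × ℕ) : LoopCont O k σ (b1 + 4) := fun τ0 _ hκ =>
  ⟨(poly O).adm_ev (poly_small O hδ) hb0 (H.meas k) (fun x _ => H.nonneg k x)
      (fun x _ => H.le_one k x) d τ0 hκ,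
    fun _ hη => (poly O).form_cont (poly_small O hδ) hb0 (H.meas k) (fun x _ => H.nonneg k x)
      (fun x _ => H.le_one k x) d σ τ0 hκ hη⟩

/-- **(CONT)**, name of 98's interface -/
theorem loop_cont (O : SF.GateOut (fam d hb0 hb01 H ha hab hb) S N σs ls δ) (hδ : δ ≤ 1 / 2)
    (k : ℕ) (σ : ℕ × ℕ) : LoopCont O k σ (b1 + 4) := loopCont O hδ k σ

end Crest.Agent.R202.Inst
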