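import Crest.Agent.R202.PolyLoop

/-! # Row 202 (helper523): palindromic polygons -/

set_option autoImplicit false

open Set
open scoped ContDiff

namespace Crest.Agent.R202.PL

noncomputable section

/-- symmetry of the smooth step -/
theorem smoothTransition_one_sub (x : ℝ) :
    Real.smoothTransition (1 - x) = 1 - Real.smoothTransition x := by
  have h := Real.smoothTransition.pos_denom x
  have h2 : (0 : ℝ) < expNegInvGlue (1 - x) + expNegInvGlue x := by rw [add_comm]; exact h
  unfold Real.smoothTransition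
  rw [sub_sub_cancel, eq_sub_iff_add_eq, add_comm (expNegInvGlue (1 - x)) (expNegInvGlue x),
    ← add_div, add_comm (expNegInvGlue (1 - x)), div_self h.ne']

section

variable {E : Type*} [AddCommGroup E] [Module ℝ E]

/-- a polygon which is palindromic in its first and last `n` edges -/
theorem tele_pal {r n : ℕ} (V : ℕ → E) (hn : 2 * n ≤ r) (hV : ∀ i ≤ n, V (r - i) = V i)
    {t : ℝ} (h0 : 0 ≤ t) (h1 : (r : ℝ) * t ≤ n) : tele r V (1 - t) = tele r V t := by
  rcases Nat.eq_zero_or_pos n with hn0 | hn0
  · subst hn0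
    rcases Nat.eq_zero_or_pos r with hr | hr
    · subst hr; simp [tele]
    · have hr' : (0 : ℝ) < r := by exact_mod_cast hr
      have ht : t = 0 := by
        refine le_antisymm ?_ h0
        by_contra hc
        have := mul_pos hr' (not_le.1 hc)
        push_cast at h1
        linarith
      subst ht
      rw [tele_left r V le_rfl, tele_right r V (by simp)]
      simpa using hV 0 le_rfl
  · -- the edge
    have hr : 0 < r := by omega
    have hτ : 0 ≤ (r : ℝ) * t := by positivity
    obtain ⟨i, hi, a1, a2⟩ : ∃ i : ℕ, i < n ∧ (i : ℝ) ≤ r * t ∧ (r : ℝ) * t ≤ i + 1 := by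
      refine ⟨min ⌊(r : ℝ) * t⌋₊ (n - 1), by omega, ?_, ?_⟩
      · have : ((min ⌊(r : ℝ) * t⌋₊ (n - 1) : ℕ) : ℝ) ≤ (⌊(r : ℝ) * t⌋₊ : ℝ) := by
          exact_mod_cast min_le_left _ _
        exact this.trans (Nat.floor_le hτ)
      · rcases le_total ⌊(r : ℝ) * t⌋₊ (n - 1) with h | h
        · rw [min_eq_left h]
          exact (Nat.lt_floor_add_one _).le
        · rw [min_eq_right h]
          have h3 : ((n - 1 : ℕ) : ℝ) + 1 = n := by
            have : (n - 1) + 1 = n := Nat.succ_pred_eq_of_pos hn0
            exact_mod_cast this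
          rw [h3]; exact h1
    have hir : i < r := by omega
    have hj : r - 1 - i < r := by omega
    have hjc : ((r - 1 - i : ℕ) : ℝ) = (r : ℝ) - 1 - i := by
      have : (r - 1 - i) + (1 + i) = r := by omega
      have h4 : ((r - 1 - i : ℕ) : ℝ) + (1 + i) = r := by exact_mod_cast this
      linarith
    rw [tele_edge r V t hir a1 a2, tele_edge r V (1 - t) hj (by rw [hjc]; linarith)
      (by rw [hjc]; linarith)]
    have e1 : r - 1 - i + 1 = r - i := by omega
    have e2 : V (r - 1 - i) = V (i + 1) := by
      have : r - 1 - i = r - (i + 1) := by omega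
      rw [this]; exact hV (i + 1) hi
    have e3 : (r : ℝ) * (1 - t) - ((r - 1 - i : ℕ) : ℝ) = 1 - (r * t - i) := by
      rw [hjc]; ring
    rw [e1, e2, hV i hi.le, e3, smoothTransition_one_sub]
    module

/-- the path on the interval `[i/r, (i+1)/r]`, in terms of the edge parameter -/
theorem tele_on_edge {r : ℕ} (V : ℕ → E) {i : ℕ} (hi : i < r) {t : ℝ}
    (h1 : (i : ℝ) ≤ r * t) (h2 : (r : ℝ) * t ≤ i + 1) :
    ∃ s ∈ Icc (0 : ℝ) 1, s = Real.smoothTransition (r * t - i) ∧
      tele r V t = (1 - s) • V i + s • V (i + 1) := by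
  refine ⟨_, ⟨Real.smoothTransition.nonneg _, Real.smoothTransition.le_one _⟩, rfl, ?_⟩
  rw [tele_edge r V t hi h1 h2]
  module

/-- the scalar path through `i - n` (used as a time function on the window) -/
theorem tele_nat {r n : ℕ} {i : ℕ} (hi : i < r) {t : ℝ}
    (h1 : (i : ℝ) ≤ r * t) (h2 : (r : ℝ) * t ≤ i + 1) :
    tele r (fun k : ℕ => (k : ℝ) - n) t = (i : ℝ) - n + Real.smoothTransition (r * t - i) := by
  rw [tele_edge r _ t hi h1 h2]
  simp

end

section

variable {E : Type*} [NormedAddCommGroup E] [NormedSpace ℝ E]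

theorem continuous_tele (r : ℕ) (V : ℕ → E) : Continuous (tele r V) := by
  unfold tele
  have : Continuous Real.smoothTransition := Real.smoothTransition.continuous
  fun_prop

end

end

end Crest.Agent.R202.PL
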