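import Crest.Agent.R202.InstLoop
import Crest.Agent.R202.TelePal
import Crest.Agent.R202.SignPatch

/-!
# Row 202 (helper116), node SIGN-GATE: the sign of the loop of a gate for `κ = ±1`
-/

set_option autoImplicit false

open MeasureTheory Set Filter
open scoped Topology ContDiff
open Crest.Agent.R202.Mod Crest.Agent.R202.Cut Crest.Agent.R202.PL Crest.Agent.R202.Clu

noncomputable section

namespace Crest.Agent.R202.Inst

/-! ### From `Cut.Sep` with an orthonormal frame to `Sign.SepA` -/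

section abs

variable {V : Type*} [AddCommGroup V] [Module ℝ V]

theorem g_span_zero {g : Cut.Bil V} {l : ℕ} {f : Fin l → V} {v : V}
    (h : ∀ i, g v (f i) = 0) : ∀ w ∈ Submodule.span ℝ (range f), g v w = 0 := by
  intro w hw
  induction hw using Submodule.span_induction with
  | mem x hx =>
    obtain ⟨i, rfl⟩ := hx
    exact h i
  | zero => exact map_zero _
  | add x y _ _ hx hy => rw [map_add, hx, hy, add_zero]
  | smul c x _ hx => rw [map_smul, hx, smul_zero]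

theorem li_of_on {g : Cut.Bil V} {l : ℕ} {f : Fin l → V}
    (h : ∀ i j, g (f i) (f j) = if i = j then 1 else 0) : LinearIndependent ℝ f := by
  rw [Fintype.linearIndependent_iff]
  intro x hx i
  have h1 : g (f i) (∑ j, x j • f j) = 0 := by rw [hx, map_zero]
  rw [map_sum] at h1
  simp only [map_smul, smul_eq_mul, h] at h1
  simpa using h1

theorem sepA_of_sep {g a : Cut.Bil V} {l : ℕ} {f : Fin l → V} {A B : ℝ}
    (h : Cut.Sep g a (Submodule.span ℝ (range f)) A B)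
    (hon : ∀ i j, g (f i) (f j) = if i = j then 1 else 0) :
    Sign.SepA (⊤ : Submodule ℝ V) g a f A B where
  red _ := Submodule.mem_top
  li := li_of_on hon
  lt := h.lt
  le w hw := h.le w hw
  ge v _ h0 := h.ge v (g_span_zero h0)

/-- the frame `rotV` is orthonormal -/
theorem rotV_on {g : Cut.Bil V} (hg : ∀ u v, g u v = g v u) {l : ℕ} {u : Fin l → V} {vB vE : V}
    (on_u : ∀ i j, g (u i) (u j) = if i = j then 1 else 0) (on_uB : ∀ i, g (u i) vB = 0)
    (on_uE : ∀ i, g (u i) vE = 0) (on_BE : g vB vE = 0) (on_B : g vB vB = 1)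
    (on_E : g vE vE = 1) {c : ℝ × ℝ} (hc : c.1 ^ 2 + c.2 ^ 2 = 1) (i j : Fin (l + 1)) :
    g (SF.rotV u vB vE c i) (SF.rotV u vB vE c j) = if i = j then 1 else 0 := by
  have k1 : ∀ i, g (u i) (c.1 • vB + c.2 • vE) = 0 := fun i => by
    rw [map_add, map_smul, map_smul, on_uB, on_uE, smul_zero, smul_zero, add_zero]
  unfold SF.rotV
  refine Fin.lastCases ?_ (fun i => ?_) i
  · refine Fin.lastCases ?_ (fun j => ?_) j
    · simp only [Fin.snoc_last, if_true, map_add, map_smul, LinearMap.add_apply,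
        LinearMap.smul_apply, smul_eq_mul, hg vE vB, on_BE, on_B, on_E]
      linarith
    · rw [Fin.snoc_last, Fin.snoc_castSucc, hg, k1, if_neg (Fin.castSucc_lt_last j).ne']
  · refine Fin.lastCases ?_ (fun j => ?_) j
    · rw [Fin.snoc_last, Fin.snoc_castSucc, k1, if_neg (Fin.castSucc_lt_last i).ne]
    · rw [Fin.snoc_castSucc, Fin.snoc_castSucc, on_u]
      simp only [Fin.castSucc_inj]

/-- continuity of the rotating frame -/
theorem rotV_cont {g : Cut.Bil V} {l : ℕ} {u : Fin l → V} {vB vE : V} {c : ℝ → ℝ × ℝ}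
    (hc : Continuous c) (i : Fin (l + 1)) (v : V) :
    Continuous fun t => g (SF.rotV u vB vE (c t) i) v := by
  unfold SF.rotV
  refine Fin.lastCases ?_ (fun i => ?_) i
  · simp only [Fin.snoc_last, map_add, map_smul, LinearMap.add_apply, LinearMap.smul_apply,
      smul_eq_mul]
    fun_prop
  · simp only [Fin.snoc_castSucc]
    exact continuous_const

/-- the matrix relating the frames at the two ends of the window -/
def Cmat (l : ℕ) (κ : ℝ) : Matrix (Fin (l + 1)) (Fin (l + 1)) ℝ :=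
  Matrix.diagonal (Fin.snoc (fun _ => (1 : ℝ)) κ)

theorem det_Cmat (l : ℕ) (κ : ℝ) : (Cmat l κ).det = κ := by
  unfold Cmat
  rw [Matrix.det_diagonal, Fin.prod_univ_castSucc]
  simp

theorem rotV_Cmat {l : ℕ} (u : Fin l → V) (vB vE : V) (κ : ℝ) (j : Fin (l + 1)) :
    SF.rotV u vB vE (0, -κ) j = ∑ i, Cmat l κ i j • SF.rotV u vB vE (0, -1) i := by
  have h : ∑ i, Cmat l κ i j • SF.rotV u vB vE (0, -1) i
      = Cmat l κ j j • SF.rotV u vB vE (0, -1) j := by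
    refine Finset.sum_eq_single j (fun i _ hi => ?_) (fun h => absurd (Finset.mem_univ j) h)
    rw [Cmat, Matrix.diagonal_apply_ne _ hi, zero_smul]
  rw [h, Cmat, Matrix.diagonal_apply_eq]
  unfold SF.rotV
  refine Fin.lastCases ?_ (fun j => ?_) j
  · simp only [Fin.snoc_last, zero_smul, zero_add]
    rw [smul_smul]
    congr 1
    ring
  · simp only [Fin.snoc_castSucc, one_smul]

end abs

variable {Xa Xb : ℝ} {d : ℕ} {b0 b1 : ℝ} {hb0 : 1 ≤ b0} {hb01 : b0 ≤ b1} {hs : ℕ → ℝ → ℝ}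
  {ε : ℕ → ℝ} {H : Tips Xb hs ε} {ha : 0 < Xa} {hab : Xa < Xb} {hb : Xb < 1}
  {S : Finset (ℕ × ℕ)} {N : ℕ × ℕ → ℕ} {σs : ℕ × ℕ} {ls : ℕ} {δ : ℝ}

theorem poly_vb_pal (O : SF.GateOut (fam d hb0 hb01 H ha hab hb) S N σs ls δ) :
    ∀ i ≤ O.n, (poly O).vb (2 * O.n + 4 - i) = (poly O).vb i := by
  intro i hi
  have h := (O.pal (O.n - i) (by omega)).1
  have e1 : O.n + 4 + (O.n - i) = 2 * O.n + 4 - i := by omega
  have e2 : O.n - (O.n - i) = i := by omega
  rw [e1, e2] at h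
  exact h

theorem poly_V_pal (O : SF.GateOut (fam d hb0 hb01 H ha hab hb) S N σs ls δ) (κ : ℝ) :
    ∀ i ≤ O.n, (poly O).V κ (2 * O.n + 4 - i) = (poly O).V κ i := by
  intro i hi
  have h := (O.pal (O.n - i) (by omega)).2
  have e1 : O.n + 4 + (O.n - i) = 2 * O.n + 4 - i := by omega
  have e2 : O.n - (O.n - i) = i := by omega
  rw [e1, e2] at h
  have h1 : (poly O).V κ (2 * O.n + 4 - i)
      = O.G0 (2 * O.n + 4 - i) + κ • O.G1 (2 * O.n + 4 - i) := rfl
  have h2 : (poly O).V κ i = O.G0 i + κ • O.G1 i := rfl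
  rw [h1, h2, h.1, h.2, O.appr i hi]

theorem aPath_pal (O : SF.GateOut (fam d hb0 hb01 H ha hab hb) S N σs ls δ) (k : ℕ)
    (σ : ℕ × ℕ) (κ : ℝ) {t : ℝ} (h0 : 0 ≤ t) (h1 : ((2 * O.n + 4 : ℕ) : ℝ) * t ≤ O.n) :
    aPath O k σ (1 - t) κ = aPath O k σ t κ := by
  have e1 : (poly O).y (1 - t) = (poly O).y t :=
    tele_pal (r := 2 * O.n + 4) (n := O.n) O.vb (by omega) (poly_vb_pal O) h0 h1
  have e2 : (poly O).G (1 - t) κ = (poly O).G t κ :=
    tele_pal (r := 2 * O.n + 4) (n := O.n) ((poly O).V κ) (by omega) (poly_V_pal O κ) h0 h1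
  unfold aPath
  rw [e1, e2]

/-- the time on the window -/
def wtime (n : ℕ) (t : ℝ) : ℝ := tele (2 * n + 4) (fun k : ℕ => (k : ℝ) - n) t

/-- the trial frame -/
def trial (O : SF.GateOut (fam d hb0 hb01 H ha hab hb) S N σs ls δ) (κ t : ℝ) :
    Fin (ls + 1) → CT.VV σs :=
  SF.rotV O.u O.vB O.vE (O.c κ (wtime O.n t))

theorem trial_on (O : SF.GateOut (fam d hb0 hb01 H ha hab hb) S N σs ls δ) (κ t : ℝ)
    (i j : Fin (ls + 1)) :
    g d σs.1 σs.2 (trial O κ t i) (trial O κ t j) = if i = j then 1 else 0 :=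
  rotV_on (V := CT.VV σs) (g := g d σs.1 σs.2) (u := O.u) (vB := O.vB) (vE := O.vE)
    (c := O.c κ (wtime O.n t)) g_symm O.on_u O.on_uB O.on_uE O.on_BE O.on_B O.on_E
    (O.c_circle κ _) i j

/-- separation on the window -/
theorem trial_sep (O : SF.GateOut (fam d hb0 hb01 H ha hab hb) S N σs ls δ) {k : ℕ}
    (hk : O.K ≤ k) {κ : ℝ} (hκ : κ = 1 ∨ κ = -1) {t : ℝ}
    (h0 : (O.n : ℝ) ≤ ((2 * O.n + 4 : ℕ) : ℝ) * t)
    (h1 : ((2 * O.n + 4 : ℕ) : ℝ) * t ≤ O.n + 4) :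
    ∃ A B, Sign.SepA (V := CT.VV σs) ⊤ (g d σs.1 σs.2) (aPath O k σs t κ)
      (trial O κ t) A B := by
  obtain ⟨i, hi, a1, a2⟩ : ∃ i : ℕ, i < 4 ∧ ((O.n + i : ℕ) : ℝ) ≤ ((2 * O.n + 4 : ℕ) : ℝ) * t ∧
      ((2 * O.n + 4 : ℕ) : ℝ) * t ≤ ((O.n + i : ℕ) : ℝ) + 1 := by
    set x := ((2 * O.n + 4 : ℕ) : ℝ) * t with hx
    push_cast
    rcases le_total x (O.n + 1) with c1 | c1
    · exact ⟨0, by norm_num, by simpa using h0, by simpa using c1⟩
    rcases le_total x (O.n + 2) with c2 | c2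
    · exact ⟨1, by norm_num, by push_cast; linarith, by push_cast; linarith⟩
    rcases le_total x (O.n + 3) with c3 | c3
    · exact ⟨2, by norm_num, by push_cast; linarith, by push_cast; linarith⟩
    · exact ⟨3, by norm_num, by push_cast; linarith, by push_cast; linarith⟩
  have hir : O.n + i < 2 * O.n + 4 := by omega
  set s : ℝ := Real.smoothTransition (((2 * O.n + 4 : ℕ) : ℝ) * t - ((O.n + i : ℕ) : ℝ)) with hs
  have hs01 : s ∈ Icc (0 : ℝ) 1 :=
    ⟨Real.smoothTransition.nonneg _, Real.smoothTransition.le_one _⟩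
  have ey : (poly O).y t = (1 - s) * O.vb (O.n + i) + s * O.vb (O.n + i + 1) := by
    have h := tele_edge (2 * O.n + 4) O.vb t hir a1 a2
    have h' : (poly O).y t = tele (2 * O.n + 4) O.vb t := rfl
    rw [h', h, ← hs, smul_eq_mul]
    ring
  have eG : (poly O).G t κ = (1 - s) • (O.G0 (O.n + i) + κ • O.G1 (O.n + i))
      + s • (O.G0 (O.n + i + 1) + κ • O.G1 (O.n + i + 1)) := by
    have h := tele_edge (2 * O.n + 4) ((poly O).V κ) t hir a1 a2
    have h' : (poly O).G t κ = tele (2 * O.n + 4) ((poly O).V κ) t := rfl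
    have h2 : ∀ j, (poly O).V κ j = O.G0 j + κ • O.G1 j := fun _ => rfl
    rw [h', h, ← hs, h2, h2]
    module
  have ew : wtime O.n t = i + s := by
    have h := tele_nat (n := O.n) hir a1 a2
    unfold wtime
    rw [h, ← hs]
    push_cast
    ring
  obtain ⟨A, B, hAB⟩ := O.window k hk κ hκ i hi s hs01
  refine ⟨A, B, sepA_of_sep ?_ (trial_on O κ t)⟩
  have e : trial O κ t = SF.rotV O.u O.vB O.vE (O.c κ (i + s)) := by
    unfold trial
    rw [ew]
  rw [e]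
  unfold aPath
  rw [ey, eG]
  exact hAB

theorem wtime_s1 (n : ℕ) : wtime n ((n : ℝ) / ((2 * n + 4 : ℕ) : ℝ)) = 0 := by
  unfold wtime
  rw [tele_vertex (by omega) _ (by omega : n ≤ 2 * n + 4), sub_self]

theorem wtime_s2 (n : ℕ) : wtime n (1 - (n : ℝ) / ((2 * n + 4 : ℕ) : ℝ)) = 4 := by
  have hr : (0 : ℝ) < ((2 * n + 4 : ℕ) : ℝ) := by positivity
  have e : 1 - (n : ℝ) / ((2 * n + 4 : ℕ) : ℝ) = ((n + 4 : ℕ) : ℝ) / ((2 * n + 4 : ℕ) : ℝ) := by
    rw [eq_div_iff hr.ne', sub_mul, div_mul_cancel₀ _ hr.ne']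
    push_cast
    ring
  unfold wtime
  rw [e, tele_vertex (by omega) _ (by omega : n + 4 ≤ 2 * n + 4)]
  push_cast
  ring

/-- **SIGN-GATE** -/
theorem sign_gate (O : SF.GateOut (fam d hb0 hb01 H ha hab hb) S N σs ls δ) (_hδ : δ ≤ 1 / 2)
    {k : ℕ} (hk : O.K ≤ k) {κ : ℝ} (hκ : κ = 1 ∨ κ = -1)
    {P0 : (Fin (ls + 1) → CT.VV σs) → Prop}
    (hR : Sign.Amb (V := CT.VV σs) ⊤ (g d σs.1 σs.2))
    (hloc : Sign.LocSepA (V := CT.VV σs) ⊤ (g d σs.1 σs.2) (ls + 1) P0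
      (fun τ => aPath O k σs τ κ) 0 1) :
    ∃ (r : ℕ) (t : ℕ → ℝ) (f : ℕ → Fin (ls + 1) → CT.VV σs) (A B : ℕ → ℝ), 0 < r ∧
      Monotone t ∧ t 0 = 0 ∧ t r = 1 ∧ f r = f 0 ∧ (∀ i, P0 (f i)) ∧
      (∀ i < r, ∀ τ ∈ Icc (t i) (t (i + 1)), Sign.SepA (V := CT.VV σs) ⊤
        (g d σs.1 σs.2) (aPath O k σs τ κ) (f i) (A i) (B i)) ∧
      0 < κ * ∏ i ∈ Finset.range r,
        Sign.Dt (V := CT.VV σs) (g d σs.1 σs.2) (f i) (f (i + 1)) := by
  have hr : (0 : ℝ) < ((2 * O.n + 4 : ℕ) : ℝ) := by positivity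
  set s1 : ℝ := (O.n : ℝ) / ((2 * O.n + 4 : ℕ) : ℝ) with hs1
  have hrs : ((2 * O.n + 4 : ℕ) : ℝ) * s1 = O.n := by
    rw [hs1]; field_simp
  have hs0 : 0 ≤ s1 := by positivity
  have hn : (0 : ℝ) ≤ O.n := Nat.cast_nonneg _
  have hrc : ((2 * O.n + 4 : ℕ) : ℝ) = 2 * O.n + 4 := by push_cast; ring
  have hs12 : s1 ≤ 1 / 2 := by
    rw [hs1, div_le_iff₀ hr, hrc]
    linarith
  have key := Sign.sign_patch (a := fun τ => aPath O k σs τ κ) hR
    (fun t _ u v => aform_symm d σs _ _ u v) hloc hs0 hs12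
    (fun t ht => aPath_pal O k σs κ ht.1 (by
      calc ((2 * O.n + 4 : ℕ) : ℝ) * t ≤ ((2 * O.n + 4 : ℕ) : ℝ) * s1 :=
            mul_le_mul_of_nonneg_left ht.2 hr.le
        _ = O.n := hrs))
    (fun t => trial O κ t)
    (fun t ht => trial_sep O hk hκ (by
        calc (O.n : ℝ) = ((2 * O.n + 4 : ℕ) : ℝ) * s1 := hrs.symm
          _ ≤ ((2 * O.n + 4 : ℕ) : ℝ) * t := mul_le_mul_of_nonneg_left ht.1 hr.le)
      (by
        calc ((2 * O.n + 4 : ℕ) : ℝ) * t ≤ ((2 * O.n + 4 : ℕ) : ℝ) * (1 - s1) :=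
              mul_le_mul_of_nonneg_left ht.2 hr.le
          _ = O.n + 4 := by rw [mul_sub, hrs, hrc]; ring))
    (fun i v => by
      have h0 : Continuous (wtime O.n) :=
        continuous_tele (2 * O.n + 4) (fun k : ℕ => (k : ℝ) - O.n)
      have h1 : Continuous fun t => O.c κ (wtime O.n t) := (O.c_cont κ).comp h0
      exact (rotV_cont (g := g d σs.1 σs.2) h1 i v).continuousOn)
    (Cmat ls κ)
    (fun j => by
      have e1 : trial O κ (1 - s1) = SF.rotV O.u O.vB O.vE (0, -κ) := by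
        unfold trial
        rw [wtime_s2, O.c_end κ hκ]
      have e2 : trial O κ s1 = SF.rotV O.u O.vB O.vE (0, -1) := by
        unfold trial
        rw [wtime_s1, O.c_start κ hκ]
      rw [e1, e2]
      exact rotV_Cmat O.u O.vB O.vE κ j)
  rw [det_Cmat] at key
  exact key

end Crest.Agent.R202.Inst
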