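import Crest.Agent.R202.CThmLoop
import Crest.Agent.R202.SignGate
import Crest.Agent.R202.HomeCl
import Crest.Agent.R202.GateThm
import Crest.Agent.R202.PolyContLoop
import Crest.Agent.R202.ConstRedP
import Crest.Agent.R202.ConstSep

/-!
# Row 202: PART C, the composition (helper98)
-/

set_option autoImplicit false

open MeasureTheory Set Filter Module
open scoped Topology ContDiff
open Crest.Agent.R202.Mod Crest.Agent.R202.Cut Crest.Agent.R202.PL Crest.Agent.R202.Clu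
open Crest.Agent.R202.Main Crest.Agent.R202.Lab

noncomputable section

namespace Crest.Agent.R202.Inst

/-- at an irrational parameter no cut is closed -/
theorem not_closed_of_irrational {b : ℝ} (hb : 0 < b) (hirr : Irrational b) (s l : ℕ) :
    ¬ Closed b s l := by
  intro hcl
  obtain ⟨p, -, q, -, hlt, he, -, -⟩ := hcl.exists_pair hb
  have := mu_injective hirr he
  rw [this] at hlt
  exact lt_irrefl _ hlt

instance finite_gate {m : ℕ} {v : ℝ} {k : ℕ} (D : CountData m v k) : Finite (CT.Gate D) := by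
  have h1 : ({j : (ℕ × ℕ) × ℕ | j.1 ∈ D.S ∧ D.i0 j.1 ≤ j.2 ∧ j.2 < D.N j.1}).Finite := by
    refine Set.Finite.subset
      ((D.S ×ˢ Finset.range ((D.S.sup D.N) + 1) : Finset ((ℕ × ℕ) × ℕ)).finite_toSet) ?_
    rintro ⟨σ, l⟩ ⟨h1, h2, h3⟩
    simp only [Finset.coe_product, Finset.coe_range, mem_prod, Finset.mem_coe, mem_Iio]
    refine ⟨h1, ?_⟩
    have : D.N σ ≤ D.S.sup D.N := Finset.le_sup (f := D.N) h1
    simp only at h3
    omega
  exact h1.to_subtype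


section

variable {Xa Xb : ℝ} {d : ℕ} {b0 b1 : ℝ} {hb0 : 1 ≤ b0} {hb01 : b0 ≤ b1} {hs : ℕ → ℝ → ℝ}
  {ε : ℕ → ℝ} {H : Tips Xb hs ε} {ha : 0 < Xa} {hab : Xa < Xb} {hb : Xb < 1}
  {S : Finset (ℕ × ℕ)} {N : ℕ × ℕ → ℕ} {σs : ℕ × ℕ} {ls : ℕ} {δ : ℝ}

/-- the datum of the loop in the notation of `COut` -/
theorem PF_poly (O : SF.GateOut (fam d hb0 hb01 H ha hab hb) S N σs ls δ)
    (hsm : ∀ κ ∈ Icc (-1 : ℝ) 1, ∀ i ≤ (poly O).r, jetN ((poly O).V κ i) ≤ 1 / 2)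
    (h : ℝ → ℝ) (τ κ : ℝ) :
    CT.PF h (((poly O).toYLoop hsm).y τ) (((poly O).toYLoop hsm).Gh τ κ) =
      prof h ((poly O).y τ) ((poly O).G τ κ) := Polygon.PF_loop _ _ _ _ _

/-- reduced local separation along the loop -/
theorem loop_sepP (O : SF.GateOut (fam d hb0 hb01 H ha hab hb) S N σs ls δ) (hδ : δ ≤ 1 / 2)
    {k : ℕ} (hk : O.K ≤ k) {σ : ℕ × ℕ} (hσ : σ ∈ S) {l : ℕ} (hl : l + sh σ ≤ N σ) (τ0 : ℝ)
    {κ0 : ℝ} (hκ : κ0 ∈ Icc (-1 : ℝ) 1)
    (hg : (σ, l + sh σ) ≠ (σs, ls + 1) ∨ κ0 = 1 ∨ κ0 = -1) :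
    ∃ (p : Fin l → CT.VV σ) (A B : ℝ), ∀ᶠ z in 𝓝 (τ0, κ0),
      CT.SepP d σ l p A B ((poly O).y z.1) (prof (hs k) ((poly O).y z.1) ((poly O).G z.1 z.2)) := by
  obtain ⟨p, A, B, hp, hli, hev⟩ := loop_sep O hk hσ (loop_cont O hδ k σ) hl τ0 hκ hg
  obtain ⟨hA0, hB0⟩ := hev.self_of_nhds
  obtain ⟨p', hp'⟩ := exists_redP (d := d) σ p hp hli ⟨_, _, _, _, _, hA0, sep_of_frame hB0⟩
  refine ⟨p', A, B, ?_⟩
  filter_upwards [hev] with z hz
  exact hp' _ _ _ _ _ hz.1 (sep_of_frame hz.2)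

theorem amb_g (d q par : ℕ) : Sign.Amb ⊤ (V := VS q par) (g d q par) :=
  ⟨fun u v => g_symm u v, fun _ _ hv => g_pos hv⟩

end

/-- **PART C** -/
theorem cThm (m : ℕ) : CT.CThm m := by
  classical
  intro v k D X0 Xa Xb hX0 hXa hXab hXb1 X1 hs ε hX1 hprof hε hsm η hη
  have hb0 : 1 ≤ D.b0 := D.b0_gt.le
  have hb01 : D.b0 ≤ D.b1 := D.b01.le
  have ha : 0 < Xa := hX0.trans hXa
  have H : Tips Xb hs ε := ⟨fun k => (hprof k).smooth.continuous.measurable,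
    fun k x => (hprof k).nonneg x, fun k x => (hprof k).le_one x, hε, hsm⟩
  have hb0' : 0 < D.b0 := by linarith
  set δ : ℝ := min (1 / 2) η with hδdef
  have hδ : 0 < δ := lt_min (by norm_num) hη
  -- the gates
  have hls : ∀ j : CT.Gate D, (j.1.2 + sh j.1.1 - 1) + 1 = j.1.2 + sh j.1.1 := by
    intro j
    have h1 := D.i0_pos _ j.2.1
    have h2 := j.2.2.1
    omega
  have hO : ∀ j : CT.Gate D, Nonempty (SF.GateOut (fam m hb0 hb01 H ha hXab hXb1) D.S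
      (fun σ => D.N σ + sh σ) j.1.1 (j.1.2 + sh j.1.1 - 1) δ) := by
    intro j
    refine SF.gateThm _ hb0' (fun s l => not_closed_of_irrational hb0' D.irr0 s l) D.S _
      (fun σ hσ => ⟨D.secOK σ hσ, (D.secOK σ hσ).1⟩) j.1.1 _ j.2.1 ?_ ?_ δ hδ
    · rw [hls]
      have := j.2.2.2
      omega
    · rw [hls]
      exact D.closed _ j.2.1 _ j.2.2.1 j.2.2.2
  let O := fun j => (hO j).some
  have hδ2 : δ ≤ 1 / 2 := min_le_left _ _
  have hδη : δ ≤ η := min_le_right _ _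
  refine ⟨fun j => (poly (O j)).toYLoop (poly_small (O j) hδ2), fun j => ?_, fun j => ?_,
    fun j τ κ X u => Polygon.even _ _ _ _ _ _, fun εh hεh => ?_⟩
  · exact Polygon.jetSmall _ _ (poly_small (O j) hδη)
  · exact Polygon.moves _ _ (i := (O j).n) (show (O j).n ≤ 2 * (O j).n + 4 by omega) (O j).moves
  have hK : ∀ᶠ n in atTop, ∀ j, (O j).K ≤ n :=
    eventually_all.2 fun j => eventually_ge_atTop _
  filter_upwards [hK, HomeC.home_clause D ha hXab hXb1 H hεh] with n hn hhome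
  have hsepP : ∀ (j : CT.Gate D), ∀ σ ∈ D.S, ∀ l, D.i0 σ ≤ l → l ≤ D.N σ →
      ∀ τ0 : ℝ, ∀ κ0 ∈ Icc (-1 : ℝ) 1, ((σ, l) ≠ j.1 ∨ κ0 = 1 ∨ κ0 = -1) →
      ∃ (p : Fin l → CT.VV σ) (A B : ℝ), ∀ᶠ z in 𝓝 (τ0, κ0),
        CT.SepP m σ l p A B ((poly (O j)).y z.1)
          (prof (hs n) ((poly (O j)).y z.1) ((poly (O j)).G z.1 z.2)) := by
    intro j σ hσ l hl hlN τ0 κ0 hκ0 hg
    refine loop_sepP (O j) hδ2 (hn j) hσ (by omega) τ0 hκ0 ?_
    rcases hg with hg | hg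
    · left
      intro he
      apply hg
      rw [hls j] at he
      have h1 := congrArg Prod.fst he
      have h2 := congrArg Prod.snd he
      simp only at h1 h2
      refine Prod.ext h1 ?_
      rw [h1] at h2
      simpa using h2
    · exact Or.inr hg
  constructor
  · exact hhome
  · intro j σ hσ l hl hlN τ0 _ κ0 hκ0 hg
    obtain ⟨p, A, B, h⟩ := hsepP j σ hσ l hl hlN τ0 κ0 hκ0 hg
    refine ⟨p, A, B, ?_⟩
    filter_upwards [h] with z hz
    rw [PF_poly]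
    exact hz
  · intro j κ hκ
    have hκI : κ ∈ Icc (-1 : ℝ) 1 := by
      rcases hκ with rfl | rfl <;> constructor <;> norm_num
    have hl1 : 1 ≤ j.1.2 := (D.i0_pos _ j.2.1).trans j.2.2.1
    have key := sign_red (d := m) (σ := j.1.1) (l := j.1.2) hl1 (hls j).symm
      (K := D.b1 + 2) (fun τ => (poly (O j)).y τ)
      (fun τ => prof (hs n) ((poly (O j)).y τ) ((poly (O j)).G τ κ))
      (fun τ _ => aPath_adm (O j) hδ2 n τ hκI) κ
      (fun τ0 hτ0 => by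
        obtain ⟨p, A, B, h⟩ := hsepP j j.1.1 j.2.1 j.1.2 j.2.2.1 j.2.2.2.le τ0 κ hκI (Or.inr hκ)
        refine ⟨p, A, B, ?_⟩
        have h2 : Tendsto (fun τ : ℝ => (τ, κ)) (𝓝 τ0) (𝓝 (τ0, κ)) :=
          (Continuous.prodMk continuous_id continuous_const).tendsto τ0
        exact (h2.eventually h).filter_mono nhdsWithin_le_nhds)
      (fun P0 hloc => sign_gate (O j) hδ2 (hn j) hκ (amb_g m j.1.1.1 j.1.1.2) hloc)
    obtain ⟨r, t, f, A, B, hr, hmono, ht0, htr, hf, hsep, hpos⟩ := key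
    refine ⟨r, t, f, A, B, hr, hmono, ht0, htr, hf, fun i hi τ hτ => ?_, hpos⟩
    rw [PF_poly]
    exact hsep i hi τ hτ

end Crest.Agent.R202.Inst
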