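import Crest.Agent.R202.Lab

/-!
Row 202, C2: tie classes (chains) at a rational parameter `b = 2 c / a`, `gcd(a,c) = 1`.
-/

set_option autoImplicit false

open Set

namespace Crest.Agent.R202.Lab

/-- difference of two levels which coincide at `b` -/
theorem mu_sub_mu {b : ℝ} {p q : ℕ × ℕ} (h : mu b p = mu b q) (b' : ℝ) :
    mu b' p - mu b' q = (b' - b) * ((p.1 : ℝ) - q.1) := by
  unfold mu at h ⊢
  linear_combination h

/-- below the coincidence the label with the larger `m` is lower -/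
theorem lt_of_tie_below {b b' : ℝ} {p q : ℕ × ℕ} (h : mu b p = mu b q) (hpq : p.1 < q.1)
    (hb : b' < b) : mu b' q < mu b' p := by
  have h1 := mu_sub_mu h b'
  have h2 : (p.1 : ℝ) < q.1 := by exact_mod_cast hpq
  nlinarith

/-- above the coincidence the label with the smaller `m` is lower -/
theorem lt_of_tie_above {b b' : ℝ} {p q : ℕ × ℕ} (h : mu b p = mu b q) (hpq : p.1 < q.1)
    (hb : b < b') : mu b' p < mu b' q := by
  have h1 := mu_sub_mu h b'
  have h2 : (p.1 : ℝ) < q.1 := by exact_mod_cast hpq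
  nlinarith

/-- a coincidence of two different labels: `b = 2 c / a` in lowest terms -/
theorem exists_ac {b : ℝ} (hb : 0 < b) {p q : ℕ × ℕ} (h : mu b p = mu b q) (hpq : p.1 < q.1) :
    ∃ a c : ℕ, 0 < a ∧ 0 < c ∧ Nat.Coprime a c ∧ b = 2 * c / a := by
  have hne : p.1 ≠ q.1 := hpq.ne
  have h1 : (p.1 : ℝ) < q.1 := by exact_mod_cast hpq
  have h2 : (q.2 : ℝ) < p.2 := by
    unfold mu at h; nlinarith
  have h2' : q.2 < p.2 := by exact_mod_cast h2
  set A := q.1 - p.1 with hA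
  set B := p.2 - q.2 with hB
  have hA0 : 0 < A := by omega
  have hB0 : 0 < B := by omega
  obtain ⟨g, a, c, hg, hcop, hAe, hBe⟩ := Nat.exists_coprime' (Nat.gcd_pos_of_pos_left B hA0)
  have ha : 0 < a := by
    rcases Nat.eq_zero_or_pos a with rfl | h
    · rw [zero_mul] at hAe; omega
    · exact h
  have hc : 0 < c := by
    rcases Nat.eq_zero_or_pos c with rfl | h
    · rw [zero_mul] at hBe; omega
    · exact h
  refine ⟨a, c, ha, hc, hcop, ?_⟩
  have e1 : ((q.1 : ℝ) - p.1) = a * g := by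
    have : (A : ℝ) = a * g := by exact_mod_cast hAe
    rw [← this, hA, Nat.cast_sub hpq.le]
  have e2 : ((p.2 : ℝ) - q.2) = c * g := by
    have : (B : ℝ) = c * g := by exact_mod_cast hBe
    rw [← this, hB, Nat.cast_sub h2'.le]
  have hg' : (0 : ℝ) < g := by exact_mod_cast hg
  have ha' : (0 : ℝ) < a := by exact_mod_cast ha
  have e3 : b * ((q.1 : ℝ) - p.1) = 2 * ((p.2 : ℝ) - q.2) := by
    unfold mu at h; linarith
  rw [e1, e2] at e3
  rw [eq_div_iff ha'.ne']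
  have : (b * a - 2 * c) * g = 0 := by linarith
  rcases mul_eq_zero.1 this with h | h
  · linarith
  · exact absurd h hg'.ne'

/-- equal levels at `b = 2 c / a` -/
theorem mu_eq_iff_chain {a c : ℕ} (ha : 0 < a) (hcop : Nat.Coprime a c) {p q : ℕ × ℕ}
    (hpq : p.1 ≤ q.1) :
    mu (2 * (c : ℝ) / a) p = mu (2 * (c : ℝ) / a) q ↔
      ∃ i : ℕ, q.1 = p.1 + i * a ∧ p.2 = q.2 + i * c := by
  have ha' : (0 : ℝ) < a := by exact_mod_cast ha
  constructor
  · intro h
    have h1 : (2 * (c : ℝ) / a) * ((q.1 : ℝ) - p.1) = 2 * ((p.2 : ℝ) - q.2) := by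
      unfold mu at h; linarith
    have h2 : (c : ℝ) * ((q.1 : ℝ) - p.1) = a * ((p.2 : ℝ) - q.2) := by
      field_simp at h1; linarith
    have h3 : (c : ℤ) * ((q.1 : ℤ) - p.1) = a * ((p.2 : ℤ) - q.2) := by exact_mod_cast h2
    have hdvd : (a : ℤ) ∣ ((q.1 : ℤ) - p.1) := by
      have hcop' : IsCoprime (a : ℤ) (c : ℤ) := Nat.isCoprime_iff_coprime.2 hcop
      exact hcop'.dvd_of_dvd_mul_left ⟨_, h3⟩
    obtain ⟨i, hi⟩ := hdvd
    have hi0 : 0 ≤ i := by
      have : (0 : ℤ) ≤ a * i := by rw [← hi]; have : (p.1 : ℤ) ≤ q.1 := by exact_mod_cast hpq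
                                   linarith
      by_contra hneg
      have : (a : ℤ) * i < 0 := mul_neg_of_pos_of_neg (by exact_mod_cast ha) (not_le.1 hneg)
      linarith
    obtain ⟨n, rfl⟩ := Int.eq_ofNat_of_zero_le hi0
    refine ⟨n, ?_, ?_⟩
    · have : (q.1 : ℤ) = p.1 + n * a := by linarith
      exact_mod_cast this
    · have h4 : (a : ℤ) * (c * n) = a * ((p.2 : ℤ) - q.2) := by rw [← h3, hi]; ring
      have h5 : (c : ℤ) * n = (p.2 : ℤ) - q.2 :=
        mul_left_cancel₀ (by exact_mod_cast ha.ne') h4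
      have : (p.2 : ℤ) = q.2 + n * c := by linarith
      exact_mod_cast this
  · rintro ⟨i, h1, h2⟩
    unfold mu
    rw [h1, h2]
    push_cast
    field_simp
    ring

/-- the `i`-th label of a chain starting at `p` -/
def chainLab (a c : ℕ) (p : ℕ × ℕ) (i : ℕ) : ℕ × ℕ := (p.1 + i * a, p.2 - i * c)

theorem chainLab_zero (a c : ℕ) (p : ℕ × ℕ) : chainLab a c p 0 = p := by simp [chainLab]

theorem mu_chainLab {a c : ℕ} (ha : 0 < a) {p : ℕ × ℕ} {i : ℕ} (hi : i * c ≤ p.2) :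
    mu (2 * (c : ℝ) / a) (chainLab a c p i) = mu (2 * (c : ℝ) / a) p := by
  have ha' : (0 : ℝ) < a := by exact_mod_cast ha
  unfold mu chainLab
  simp only
  rw [Nat.cast_sub hi]
  push_cast
  field_simp
  ring

/-- the tie class of a level at `b = 2 c / a`: a chain starting at its label with the smallest `m` -/
theorem tie_class {a c : ℕ} (ha : 0 < a) (hcop : Nat.Coprime a c) (s : ℕ) {p : ℕ × ℕ}
    (hp : p ∈ lab s) (hmin : ∀ q ∈ lab s, mu (2 * (c : ℝ) / a) q = mu (2 * (c : ℝ) / a) p →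
      p.1 ≤ q.1) (q : ℕ × ℕ) :
    (q ∈ lab s ∧ mu (2 * (c : ℝ) / a) q = mu (2 * (c : ℝ) / a) p) ↔
      ∃ i : ℕ, i * c ≤ p.2 ∧ q = chainLab a c p i := by
  constructor
  · rintro ⟨hq, he⟩
    obtain ⟨i, h1, h2⟩ := (mu_eq_iff_chain ha hcop (hmin q hq he)).1 he.symm
    refine ⟨i, by omega, ?_⟩
    unfold chainLab
    refine Prod.ext h1 ?_
    simp only; omega
  · rintro ⟨i, hi, rfl⟩
    refine ⟨?_, mu_chainLab ha hi⟩
    have : s ≤ p.1 := hp
    show s ≤ p.1 + i * a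
    omega

/-- first element of a chain: `m < a` (cos), `1 ≤ m ≤ a` (sin); in general `m < a + s` -/
theorem first_lt {a c : ℕ} (ha : 0 < a) {s : ℕ} {p : ℕ × ℕ}
    (hmin : ∀ q ∈ lab s, mu (2 * (c : ℝ) / a) q = mu (2 * (c : ℝ) / a) p → p.1 ≤ q.1) :
    p.1 < a + s := by
  by_contra hcon
  rw [not_lt] at hcon
  have ha' : (0 : ℝ) < a := by exact_mod_cast ha
  have h1 : a ≤ p.1 := by omega
  have hq : (p.1 - a, p.2 + c) ∈ lab s := by
    show s ≤ p.1 - a
    omega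
  have he : mu (2 * (c : ℝ) / a) (p.1 - a, p.2 + c) = mu (2 * (c : ℝ) / a) p := by
    unfold mu
    simp only
    rw [Nat.cast_sub h1]
    push_cast
    field_simp
    ring
  have := hmin _ hq he
  simp only at this
  omega

/-- every level has a label with the smallest `m` -/
theorem exists_first {b : ℝ} {s : ℕ} {q : ℕ × ℕ} (hq : q ∈ lab s) :
    ∃ p ∈ lab s, mu b p = mu b q ∧ ∀ r ∈ lab s, mu b r = mu b p → p.1 ≤ r.1 := by
  classical
  have hex : ∃ m, ∃ p, p ∈ lab s ∧ mu b p = mu b q ∧ p.1 = m := ⟨q.1, q, hq, rfl, rfl⟩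
  obtain ⟨p, hp, he, hm⟩ := Nat.find_spec hex
  refine ⟨p, hp, he, fun r hr hre => ?_⟩
  rw [hm]
  exact Nat.find_min' hex ⟨r, hr, hre.trans he, rfl⟩

/-- structure of a closed cut: `b = 2c/a` in lowest terms, the tie class is the chain
`chainLab a c p i`, `i ≤ P`, `P = p.2 / c`, and `l = #(strictly lower labels) + k`, `1 ≤ k ≤ P` -/
theorem Closed.exists_chain {b : ℝ} (hb : 0 < b) {s l : ℕ} (h : Closed b s l) :
    ∃ a c : ℕ, 0 < a ∧ 0 < c ∧ Nat.Coprime a c ∧ b = 2 * c / a ∧ ∃ p ∈ lab s, p.1 < a + s ∧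
      (∀ q : ℕ × ℕ, (q ∈ lab s ∧ mu b q = mu b p) ↔ ∃ i : ℕ, i ≤ p.2 / c ∧ q = chainLab a c p i) ∧
      ∃ k : ℕ, 1 ≤ k ∧ k ≤ p.2 / c ∧ l = (lows b s (mu b p)).card + k := by
  classical
  obtain ⟨p', hp', q', hq', hlt, he, h1, h2⟩ := h.exists_pair hb
  obtain ⟨a, c, ha, hc, hcop, hbe⟩ := exists_ac hb he hlt
  obtain ⟨p, hp, hpe, hmin⟩ := exists_first (b := b) hp'
  have hmin' : ∀ q ∈ lab s, mu (2 * (c : ℝ) / a) q = mu (2 * (c : ℝ) / a) p → p.1 ≤ q.1 := by
    rw [← hbe]; exact hmin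
  have hcls : ∀ q : ℕ × ℕ, (q ∈ lab s ∧ mu b q = mu b p) ↔
      ∃ i : ℕ, i ≤ p.2 / c ∧ q = chainLab a c p i := by
    intro q
    rw [hbe, tie_class ha hcop s hp hmin' q]
    constructor
    · rintro ⟨i, hi, rfl⟩; exact ⟨i, (Nat.le_div_iff_mul_le hc).2 hi, rfl⟩
    · rintro ⟨i, hi, rfl⟩; exact ⟨i, (Nat.le_div_iff_mul_le hc).1 hi, rfl⟩
  -- cardinality of the tie class
  have hinj : Function.Injective (chainLab a c p) := by
    intro i j hij
    have h3 : p.1 + i * a = p.1 + j * a := congrArg Prod.fst hij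
    exact Nat.eq_of_mul_eq_mul_right ha (Nat.add_left_cancel h3)
  have hdiff : low b s (mu b p) \ lows b s (mu b p) =
      (Finset.range (p.2 / c + 1)).image (chainLab a c p) := by
    ext q
    rw [Finset.mem_sdiff, mem_low hb, mem_lows hb, Finset.mem_image]
    have h3 := hcls q
    constructor
    · rintro ⟨⟨h4, h5⟩, h6⟩
      have h7 : mu b q = mu b p := le_antisymm h5 (not_lt.1 fun h8 => h6 ⟨h4, h8⟩)
      obtain ⟨i, hi, hq⟩ := h3.1 ⟨h4, h7⟩
      exact ⟨i, Finset.mem_range.2 (Nat.lt_succ_of_le hi), hq.symm⟩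
    · rintro ⟨i, hi, hq⟩
      obtain ⟨h4, h5⟩ := h3.2 ⟨i, Nat.lt_succ_iff.1 (Finset.mem_range.1 hi), hq.symm⟩
      exact ⟨⟨h4, h5.le⟩, fun h6 => absurd h6.2 (not_lt.2 h5.ge)⟩
  have hsub : lows b s (mu b p) ⊆ low b s (mu b p) := fun q hq =>
    (mem_low hb).2 ⟨((mem_lows hb).1 hq).1, ((mem_lows hb).1 hq).2.le⟩
  have hcard : (low b s (mu b p)).card = (lows b s (mu b p)).card + (p.2 / c + 1) := by
    have h3 := Finset.card_sdiff_add_card_eq_card hsub
    rw [hdiff, Finset.card_image_of_injective _ hinj, Finset.card_range] at h3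
    omega
  rw [← hpe] at h1 h2
  refine ⟨a, c, ha, hc, hcop, hbe, p, hp, first_lt ha hmin', hcls,
    l - (lows b s (mu b p)).card, ?_, ?_, ?_⟩
  · omega
  · omega
  · omega

/-- finitely many resonances for the labels in a box (`Y*` of the blueprint) -/
theorem finite_resonances_box {b0 b1 : ℝ} (h0 : 0 < b0) (X : ℕ) :
    {b : ℝ | b ∈ Icc b0 b1 ∧ ∃ p q : ℕ × ℕ, p.1 ≤ X ∧ p.2 ≤ X ∧ q ≠ p ∧ mu b q = mu b p}.Finite := by
  refine (finite_resonances (b1 := b1) h0 ((Finset.range (X + 1)) ×ˢ (Finset.range (X + 1)))).subset ?_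
  rintro b ⟨hb, p, q, h1, h2, h3, h4⟩
  exact ⟨hb, p, Finset.mem_product.2 ⟨Finset.mem_range.2 (by omega), Finset.mem_range.2
    (by omega)⟩, q, h3, h4⟩

end Crest.Agent.R202.Lab
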