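import Crest.Agent.R202.Model2

/-! Row 202, PART C4 (helper58): the `L¹` size of the tip tends to zero. -/

set_option autoImplicit false

open MeasureTheory Set Filter
open scoped Topology
open Crest.Agent.R202.Mod

noncomputable section

namespace Crest.Agent.R202.Clu

/-- `L¹` version of `tendsto_tipN` -/
theorem tendsto_tip1 (d : ℕ) {hs : ℕ → ℝ → ℝ} (hm : ∀ k, Measurable (hs k))
    (h0 : ∀ k x, 0 ≤ hs k x) (h1 : ∀ k x, hs k x ≤ 1) {ε : ℕ → ℝ} (hε : Tendsto ε atTop (𝓝 0))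
    (hsm : ∀ k, ∀ x ∈ Icc (0 : ℝ) 1, hs k x * (1 - x ^ 2) ≤ ε k) :
    Tendsto (fun k => ∫ z, |hs k z.1| ∂(mu d)) atTop (𝓝 0) := by
  have key : Tendsto (fun k => ∫ z, |hs k z.1| ∂(mu d)) atTop (𝓝 (∫ _, (0 : ℝ) ∂(mu d))) := by
    refine tendsto_integral_of_dominated_convergence (fun _ => (1 : ℝ))
      (fun k => ((hm k).comp measurable_fst).abs.aestronglyMeasurable)
      (integrable_const _) (fun k => Filter.Eventually.of_forall fun z => ?_) ?_
    · rw [Real.norm_eq_abs, abs_abs, abs_of_nonneg (h0 k z.1)]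
      exact h1 k z.1
    · filter_upwards [ae_mem_Om d] with z hz
      have hx : 0 < 1 - z.1 ^ 2 := by have := sq_lt_one_of_mem hz.1; linarith
      have hlim : Tendsto (fun k => ε k / (1 - z.1 ^ 2)) atTop (𝓝 0) := by
        simpa using hε.div_const (1 - z.1 ^ 2)
      refine squeeze_zero (fun k => abs_nonneg _) (fun k => ?_) hlim
      rw [le_div_iff₀ hx, abs_of_nonneg (h0 k z.1)]
      exact hsm k z.1 ⟨hz.1.1.le, hz.1.2.le⟩
  rwa [integral_zero] at key

end Crest.Agent.R202.Clu
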