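import Crest.Agent.R202.Lab

/-!
Row 202, part E: counting labels below a level and the mean of the levels.
-/

set_option autoImplicit false

open Set

namespace Crest.Agent.R202.Lab

theorem sum_low_eq {b : ℝ} (hb : 0 < b) (s : ℕ) {J : ℝ} (hJ : 0 ≤ J) (f : ℕ × ℕ → ℝ) :
    ∑ p ∈ low b s J, f p = ∑ m ∈ Finset.Ico s (⌊J / b⌋₊ + 1),
      ∑ j ∈ Finset.range (⌊(J - b * m) / 2⌋₊ + 1), f (m, j) := by
  classical
  rw [Finset.sum_sigma']
  have key : ∀ m j : ℕ, (m, j) ∈ low b s J ↔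
      (s ≤ m ∧ m < ⌊J / b⌋₊ + 1) ∧ j < ⌊(J - b * m) / 2⌋₊ + 1 := by
    intro m j
    rw [mem_low hb, Nat.lt_succ_iff, Nat.lt_succ_iff, Nat.le_floor_iff (by positivity),
      le_div_iff₀ hb]
    simp only [mu]
    have hj : (0 : ℝ) ≤ (j : ℝ) := Nat.cast_nonneg j
    constructor
    · rintro ⟨h1, h2⟩
      have h3 : (m : ℝ) * b ≤ J := by nlinarith
      refine ⟨⟨h1, h3⟩, ?_⟩
      rw [Nat.le_floor_iff (by nlinarith), le_div_iff₀ (by norm_num)]
      linarith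
    · rintro ⟨⟨h1, h2⟩, h3⟩
      rw [Nat.le_floor_iff (by nlinarith), le_div_iff₀ (by norm_num)] at h3
      exact ⟨h1, by linarith⟩
  refine Finset.sum_bij' (fun p _ => (⟨p.1, p.2⟩ : Σ _ : ℕ, ℕ)) (fun x _ => (x.1, x.2))
    ?_ ?_ ?_ ?_ ?_
  · intro p hp
    have := (key p.1 p.2).1 hp
    simp only [Finset.mem_sigma, Finset.mem_Ico, Finset.mem_range]
    exact this
  · intro x hx
    simp only [Finset.mem_sigma, Finset.mem_Ico, Finset.mem_range] at hx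
    exact (key x.1 x.2).2 hx
  · intro p _; rfl
  · intro x _; rfl
  · intro p _; rfl

theorem sum_range_lin (J b : ℝ) (n : ℕ) :
    ∑ m ∈ Finset.range n, (J - b * m) / 2 = (n * J - b * (n * (n - 1)) / 2) / 2 := by
  induction n with
  | zero => simp
  | succ n ih => rw [Finset.sum_range_succ, ih]; push_cast; ring

theorem sum_range_quad (J b : ℝ) (n : ℕ) :
    ∑ m ∈ Finset.range n, ((J ^ 2 - b ^ 2 * (m : ℝ) ^ 2) / 4 + (J + b * m) / 2) =
      (n * J ^ 2 - b ^ 2 * ((n - 1) * n * (2 * n - 1)) / 6) / 4 +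
        (n * J + b * (n * (n - 1)) / 2) / 2 := by
  induction n with
  | zero => simp
  | succ n ih => rw [Finset.sum_range_succ, ih]; push_cast; ring

/-- lower bound of the counting function -/
theorem card_low_ge {b : ℝ} (hb : 0 < b) (s : ℕ) {J : ℝ} (hJ : 0 ≤ J) :
    J ^ 2 / (4 * b) - s * J / 2 ≤ (low b s J).card := by
  have h1 : ((low b s J).card : ℝ) = ∑ p ∈ low b s J, (1 : ℝ) := by simp
  rw [h1, sum_low_eq hb s hJ]
  set M := ⌊J / b⌋₊ with hM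
  have hMle : (M : ℝ) ≤ J / b := Nat.floor_le (by positivity)
  have hMlt : J / b < M + 1 := Nat.lt_floor_add_one _
  -- lower bound of the inner count
  have h2 : ∀ m : ℕ, (J - b * m) / 2 ≤
      ∑ _j ∈ Finset.range (⌊(J - b * m) / 2⌋₊ + 1), (1 : ℝ) := by
    intro m
    rw [Finset.sum_const, Finset.card_range, nsmul_eq_mul, mul_one]
    push_cast
    exact (Nat.lt_floor_add_one _).le
  have h3 : ∑ m ∈ Finset.Ico s (M + 1), (J - b * m) / 2 ≤ ∑ m ∈ Finset.Ico s (M + 1),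
      ∑ _j ∈ Finset.range (⌊(J - b * m) / 2⌋₊ + 1), (1 : ℝ) :=
    Finset.sum_le_sum fun m _ => h2 m
  refine le_trans ?_ h3
  -- full sum
  have h4 : J ^ 2 / (4 * b) ≤ ∑ m ∈ Finset.range (M + 1), (J - b * m) / 2 := by
    rw [sum_range_lin]
    push_cast
    obtain ⟨x, hx⟩ : ∃ x, x = J / b := ⟨_, rfl⟩
    have hJx : J = b * x := by rw [hx]; field_simp
    rw [← hx] at hMle hMlt
    rw [hJx]
    have e1 : (b * x) ^ 2 / (4 * b) = b * x ^ 2 / 4 := by field_simp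
    rw [e1]
    have e2 : (0 : ℝ) ≤ (M : ℝ) + 2 * (x - M) - (x - M) ^ 2 := by
      have hM0 : (0 : ℝ) ≤ (M : ℝ) := Nat.cast_nonneg M
      nlinarith
    nlinarith [mul_nonneg hb.le e2]
  have hterm : ∀ m : ℕ, (J - b * m) / 2 ≤ J / 2 := by
    intro m
    have : (0 : ℝ) ≤ b * m := by positivity
    linarith
  have hrs : ∑ m ∈ Finset.range s, (J - b * m) / 2 ≤ s * J / 2 := by
    calc ∑ m ∈ Finset.range s, (J - b * m) / 2 ≤ ∑ m ∈ Finset.range s, J / 2 :=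
          Finset.sum_le_sum fun m _ => hterm m
      _ = s * J / 2 := by rw [Finset.sum_const, Finset.card_range, nsmul_eq_mul]; ring
  by_cases hs : s ≤ M + 1
  · have h5 := Finset.sum_Ico_consecutive (fun m : ℕ => (J - b * m) / 2) (Nat.zero_le s) hs
    rw [← Finset.range_eq_Ico, ← Finset.range_eq_Ico] at h5
    linarith
  · have h6 : ∑ m ∈ Finset.range (M + 1), (J - b * m) / 2 ≤ s * J / 2 := by
      calc ∑ m ∈ Finset.range (M + 1), (J - b * m) / 2 ≤ ∑ m ∈ Finset.range (M + 1), J / 2 :=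
            Finset.sum_le_sum fun m _ => hterm m
        _ = ((M + 1 : ℕ) : ℝ) * J / 2 := by
            rw [Finset.sum_const, Finset.card_range, nsmul_eq_mul]; ring
        _ ≤ s * J / 2 := by
            have : ((M + 1 : ℕ) : ℝ) ≤ s := by exact_mod_cast (not_le.1 hs).le
            have := mul_le_mul_of_nonneg_right this hJ
            linarith
    have h7 : Finset.Ico s (M + 1) = ∅ := Finset.Ico_eq_empty (by omega)
    rw [h7, Finset.sum_empty]
    linarith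

/-- upper bound of the sum of the levels -/
theorem sum_low_le {b : ℝ} (hb : 1 ≤ b) (s : ℕ) {J : ℝ} (hJ : 0 ≤ J) :
    ∑ p ∈ low b s J, mu b p ≤ J ^ 3 / (6 * b) + 2 * J ^ 2 + 2 * b * J := by
  have hb0 : 0 < b := by linarith
  rw [sum_low_eq hb0 s hJ]
  set M := ⌊J / b⌋₊ with hM
  have hMle : (M : ℝ) ≤ J / b := Nat.floor_le (by positivity)
  have hMlt : J / b < M + 1 := Nat.lt_floor_add_one _
  have hM0 : (0 : ℝ) ≤ (M : ℝ) := Nat.cast_nonneg M
  have hinner : ∀ (m n : ℕ), ∑ j ∈ Finset.range n, mu b (m, j) =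
      n * (b * m) + n * (n - 1) := by
    intro m n
    induction n with
    | zero => simp
    | succ n ih => rw [Finset.sum_range_succ, ih]; simp only [mu]; push_cast; ring
  have hbound : ∀ m ∈ Finset.range (M + 1),
      ∑ j ∈ Finset.range (⌊(J - b * m) / 2⌋₊ + 1), mu b (m, j) ≤
        (J ^ 2 - b ^ 2 * (m : ℝ) ^ 2) / 4 + (J + b * m) / 2 := by
    intro m hm
    have hmM : (m : ℝ) ≤ M := by exact_mod_cast Nat.lt_succ_iff.1 (Finset.mem_range.1 hm)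
    have hbm : b * (m : ℝ) ≤ J := by
      have : (m : ℝ) ≤ J / b := hmM.trans hMle
      rw [le_div_iff₀ hb0] at this; linarith
    have hbm0 : (0 : ℝ) ≤ b * m := by positivity
    rw [hinner]
    have hn : (⌊(J - b * m) / 2⌋₊ : ℝ) ≤ (J - b * m) / 2 := Nat.floor_le (by linarith)
    have hn0 : (0 : ℝ) ≤ (⌊(J - b * m) / 2⌋₊ : ℝ) := Nat.cast_nonneg _
    push_cast
    set n : ℝ := (⌊(J - b * m) / 2⌋₊ : ℝ) with hn'
    nlinarith [mul_nonneg (sub_nonneg.2 hn) hn0, mul_nonneg (sub_nonneg.2 hn) hbm0,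
      mul_nonneg (sub_nonneg.2 hn) (add_nonneg hn0 (sub_nonneg.2 hbm))]
  have hnonneg : ∀ m : ℕ, 0 ≤ ∑ j ∈ Finset.range (⌊(J - b * m) / 2⌋₊ + 1), mu b (m, j) :=
    fun m => Finset.sum_nonneg fun j _ => mu_nonneg hb0.le _
  have h1 : ∑ m ∈ Finset.Ico s (M + 1),
      ∑ j ∈ Finset.range (⌊(J - b * m) / 2⌋₊ + 1), mu b (m, j) ≤
      ∑ m ∈ Finset.range (M + 1), ((J ^ 2 - b ^ 2 * (m : ℝ) ^ 2) / 4 + (J + b * m) / 2) := by
    refine (Finset.sum_le_sum_of_subset_of_nonneg (t := Finset.range (M + 1)) ?_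
      (fun m _ _ => hnonneg m)).trans (Finset.sum_le_sum hbound)
    intro m hm
    exact Finset.mem_range.2 (Finset.mem_Ico.1 hm).2
  refine h1.trans ?_
  rw [sum_range_quad]
  push_cast
  obtain ⟨u, hu⟩ : ∃ u, u = J / b - M := ⟨_, rfl⟩
  have hu0 : 0 ≤ u := by rw [hu]; linarith
  have hu1 : u ≤ 1 := by rw [hu]; linarith
  have hJu : J = b * (M + u) := by
    rw [hu]; field_simp; ring
  rw [hJu]
  have e1 : (b * ((M : ℝ) + u)) ^ 3 / (6 * b) = b ^ 2 * (M + u) ^ 3 / 6 := by field_simp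
  rw [e1]
  obtain ⟨c, hc, hc0⟩ : ∃ c : ℝ, b = 1 + c ∧ 0 ≤ c := ⟨b - 1, by ring, by linarith⟩
  rw [hc]
  have hmu : (0 : ℝ) ≤ M * u := mul_nonneg hM0 hu0
  rw [← sub_nonneg]
  ring_nf
  nlinarith [mul_nonneg hM0 hM0, mul_nonneg hc0 hM0, mul_nonneg hc0 hu0,
    mul_nonneg hc0 (mul_nonneg hM0 hM0), mul_nonneg hc0 hmu, mul_nonneg hc0 (mul_nonneg hu0 hu0),
    mul_nonneg (mul_nonneg hc0 hc0) hM0, mul_nonneg (mul_nonneg hc0 hc0) hu0,
    mul_nonneg (mul_nonneg hc0 hc0) (mul_nonneg hM0 hM0),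
    mul_nonneg (mul_nonneg hc0 hc0) hmu, mul_nonneg (mul_nonneg hc0 hc0) (mul_nonneg hu0 hu0),
    mul_nonneg hM0 (mul_nonneg hu0 hu0), mul_nonneg hu0 (mul_nonneg hu0 hu0),
    mul_nonneg hc0 (mul_nonneg hM0 (mul_nonneg hu0 hu0)),
    mul_nonneg hc0 (mul_nonneg hu0 (mul_nonneg hu0 hu0)),
    mul_nonneg (mul_nonneg hc0 hc0) (mul_nonneg hM0 (mul_nonneg hu0 hu0)),
    mul_nonneg (mul_nonneg hc0 hc0) (mul_nonneg hu0 (mul_nonneg hu0 hu0)),
    mul_nonneg hu0 hu0, mul_nonneg (mul_nonneg hM0 hM0) hu0]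

/-- the constant of the mean level estimate -/
noncomputable def meanC (b : ℝ) (s i0 : ℕ) : ℝ := 4 * b * (4 + s + 2 * b + 2 * i0)

theorem meanC_pos {b : ℝ} (hb : 1 ≤ b) (s i0 : ℕ) : 1 ≤ meanC b s i0 := by
  unfold meanC
  have h1 : (0 : ℝ) ≤ (s : ℝ) := Nat.cast_nonneg _
  have h2 : (0 : ℝ) ≤ (i0 : ℝ) := Nat.cast_nonneg _
  nlinarith

theorem card_low_gt {b : ℝ} (hb : 1 ≤ b) (s i0 : ℕ) {J : ℝ} (hJ : meanC b s i0 ≤ J) :
    i0 < (low b s J).card := by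
  have h0 := meanC_pos hb s i0
  have hb0 : 0 < b := by linarith
  have h1 := card_low_ge hb0 s (J := J) (by linarith)
  have hs : (0 : ℝ) ≤ (s : ℝ) := Nat.cast_nonneg _
  have hi : (0 : ℝ) ≤ (i0 : ℝ) := Nat.cast_nonneg _
  have h2 : (4 + s + 2 * b + 2 * i0 : ℝ) ≤ J / (4 * b) := by
    rw [le_div_iff₀ (by positivity)]
    unfold meanC at hJ; linarith
  have h3 : J ^ 2 / (4 * b) - s * J / 2 = J * (J / (4 * b) - s / 2) := by ring
  have h4 : (i0 : ℝ) < J ^ 2 / (4 * b) - s * J / 2 := by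
    rw [h3]
    have h5 : (4 + 2 * i0 : ℝ) ≤ J / (4 * b) - s / 2 := by linarith
    nlinarith
  exact_mod_cast h4.trans_le h1

/-- the mean level estimate: after removing `i0` labels, the mean is at most `(2/3) J + C` -/
theorem sum_low_le_mean {b : ℝ} (hb : 1 ≤ b) (s i0 : ℕ) {J : ℝ} (hJ : meanC b s i0 ≤ J) :
    ∑ p ∈ low b s J, mu b p ≤ (2 / 3 * J + meanC b s i0) * ((low b s J).card - i0) := by
  have h0 := meanC_pos hb s i0
  have hb0 : 0 < b := by linarith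
  have hJ1 : 1 ≤ J := by linarith
  refine (sum_low_le hb s (J := J) (by linarith)).trans ?_
  have h1 := card_low_ge hb0 s (J := J) (by linarith)
  have hs : (0 : ℝ) ≤ (s : ℝ) := Nat.cast_nonneg _
  have hi : (0 : ℝ) ≤ (i0 : ℝ) := Nat.cast_nonneg _
  have h2 : (2 / 3 * J + meanC b s i0) * (J ^ 2 / (4 * b) - s * J / 2 - i0) ≤
      (2 / 3 * J + meanC b s i0) * ((low b s J).card - i0) :=
    mul_le_mul_of_nonneg_left (by linarith) (by linarith)
  refine le_trans ?_ h2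
  have e1 : (2 / 3 * J + meanC b s i0) * (J ^ 2 / (4 * b) - s * J / 2 - i0) =
      J ^ 3 / (6 * b) + meanC b s i0 / (4 * b) * J ^ 2 - s / 3 * J ^ 2 - 2 / 3 * i0 * J -
        meanC b s i0 * (s * J / 2) - meanC b s i0 * i0 := by
    field_simp
    ring
  have e2 : meanC b s i0 / (4 * b) = 4 + s + 2 * b + 2 * i0 := by
    unfold meanC; field_simp
  rw [e1, e2]
  have k1 : meanC b s i0 * (s * J / 2) ≤ J * (s * J / 2) :=
    mul_le_mul_of_nonneg_right hJ (by positivity)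
  have k2 : meanC b s i0 * i0 ≤ J * i0 := mul_le_mul_of_nonneg_right hJ hi
  have kJ : J ≤ J ^ 2 := by nlinarith
  have k3 : J * i0 ≤ J ^ 2 * i0 := mul_le_mul_of_nonneg_right kJ hi
  have k4 : b * J ≤ b * J ^ 2 := mul_le_mul_of_nonneg_left kJ hb0.le
  have k5 : (0 : ℝ) ≤ s * J ^ 2 := by positivity
  nlinarith

/-- the low set is an initial segment of the sorted enumeration -/
theorem low_eq_image {b : ℝ} (hb : 0 < b) {s : ℕ} {e : ℕ → ℕ × ℕ} (he : ∀ i, e i ∈ lab s)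
    (hm : StrictMono (fun i => mu b (e i))) (hs : ∀ p ∈ lab s, ∃ i, e i = p) (J : ℝ) :
    low b s J = (Finset.range (low b s J).card).image e :=
  (isLow_low hb s J).unique (isLow_image he hm hs _).1 (isLow_image he hm hs _).2.symm

theorem sum_low_enum {b : ℝ} (hb : 0 < b) {s : ℕ} {e : ℕ → ℕ × ℕ} (he : ∀ i, e i ∈ lab s)
    (hm : StrictMono (fun i => mu b (e i))) (hs : ∀ p ∈ lab s, ∃ i, e i = p) (J : ℝ)
    (f : ℕ × ℕ → ℝ) :
    ∑ p ∈ low b s J, f p = ∑ i ∈ Finset.range (low b s J).card, f (e i) := by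
  have hinj : Function.Injective e := fun i j h => hm.injective (by simp only [h])
  conv_lhs => rw [low_eq_image hb he hm hs J]
  rw [Finset.sum_image fun i _ j _ h => hinj h]

/-- the mean level estimate for the active levels of the sorted enumeration -/
theorem sum_enum_le {b : ℝ} (hb : 1 ≤ b) {s : ℕ} {e : ℕ → ℕ × ℕ} (he : ∀ i, e i ∈ lab s)
    (hm : StrictMono (fun i => mu b (e i))) (hs : ∀ p ∈ lab s, ∃ i, e i = p) (i0 : ℕ) {J : ℝ}
    (hJ : meanC b s i0 ≤ J) :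
    i0 < (low b s J).card ∧ ∑ i ∈ Finset.Ico i0 (low b s J).card, mu b (e i) ≤
      (2 / 3 * J + meanC b s i0) * ((low b s J).card - i0) := by
  have hb0 : 0 < b := by linarith
  refine ⟨card_low_gt hb s i0 hJ, ?_⟩
  refine le_trans ?_ (sum_low_le_mean hb s i0 hJ)
  rw [sum_low_enum hb0 he hm hs J]
  refine Finset.sum_le_sum_of_subset_of_nonneg ?_ fun i _ _ => mu_nonneg hb0.le _
  intro i hi
  exact Finset.mem_range.2 (Finset.mem_Ico.1 hi).2

/-- growth exponent of the level `x` on the cone over `ρ ·` (spindle), `D = n - 2` -/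
noncomputable def expo (D ρ x : ℝ) : ℝ := Real.sqrt (D ^ 2 / 4 + x * (x + D) / ρ ^ 2) - D / 2

theorem expo_le {D ρ x : ℝ} (hD : 0 ≤ D) (hρ : 0 < ρ) (hρ1 : ρ ≤ 1) (hx : 0 ≤ x) :
    expo D ρ x ≤ (x + D / 2) / ρ - D / 2 := by
  unfold expo
  have h1 : D ^ 2 / 4 + x * (x + D) / ρ ^ 2 ≤ ((x + D / 2) / ρ) ^ 2 := by
    rw [div_pow, ← sub_nonneg]
    have e : (x + D / 2) ^ 2 / ρ ^ 2 - (D ^ 2 / 4 + x * (x + D) / ρ ^ 2) =
        D ^ 2 / 4 * (1 / ρ ^ 2 - 1) := by field_simp; ring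
    rw [e]
    have h2 : 1 ≤ 1 / ρ ^ 2 := by
      rw [le_div_iff₀ (by positivity)]; nlinarith
    have : 0 ≤ 1 / ρ ^ 2 - 1 := by linarith
    positivity
  have h2 : Real.sqrt (D ^ 2 / 4 + x * (x + D) / ρ ^ 2) ≤ (x + D / 2) / ρ :=
    Real.sqrt_le_iff.2 ⟨by positivity, h1⟩
  linarith

/-- mean of the growth exponents of the active levels of a sector -/
theorem sum_expo_le {b D ρ q : ℝ} (hb : 1 ≤ b) (hD : 0 ≤ D) (hρ : 0 < ρ) (hρ1 : ρ ≤ 1)
    (hq : 0 ≤ q) {s : ℕ} {e : ℕ → ℕ × ℕ} (he : ∀ i, e i ∈ lab s)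
    (hm : StrictMono (fun i => mu b (e i))) (hs : ∀ p ∈ lab s, ∃ i, e i = p) (i0 : ℕ) {J : ℝ}
    (hJ : meanC b s i0 ≤ J) :
    ∑ i ∈ Finset.Ico i0 (low b s J).card, expo D ρ (mu b (e i) + q) ≤
      ((2 / 3 * J + meanC b s i0 + q + D / 2) / ρ) * ((low b s J).card - i0) := by
  have hb0 : 0 < b := by linarith
  obtain ⟨h1, h2⟩ := sum_enum_le hb he hm hs i0 hJ
  have h3 : ∀ i ∈ Finset.Ico i0 (low b s J).card, expo D ρ (mu b (e i) + q) ≤
      (mu b (e i) + (q + D / 2)) / ρ := by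
    intro i _
    have h4 := expo_le hD hρ hρ1 (x := mu b (e i) + q) (add_nonneg (mu_nonneg hb0.le _) hq)
    rw [add_assoc] at h4
    linarith
  refine (Finset.sum_le_sum h3).trans ?_
  rw [← Finset.sum_div, Finset.sum_add_distrib, Finset.sum_const, Nat.card_Ico, nsmul_eq_mul,
    Nat.cast_sub h1.le, div_mul_eq_mul_div]
  refine div_le_div_of_nonneg_right ?_ hρ.le
  nlinarith

end Crest.Agent.R202.Lab
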