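import Crest.Agent.R202.Cnt

/-!
Row 202, part E for `n = 3`: with `ρ² = b v`, all large `k` admit a level bound `J` with mean growth
exponent `≤ (1 - δ) k` in every sector and more than `c (k+1)²` modes.
-/

set_option autoImplicit false

open Set

namespace Crest.Agent.R202.Lab

theorem meanC_mono {b : ℝ} (hb : 1 ≤ b) {s s' : ℕ} (h : s ≤ s') (i0 : ℕ) :
    meanC b s i0 ≤ meanC b s' i0 := by
  unfold meanC
  have : (s : ℝ) ≤ s' := by exact_mod_cast h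
  nlinarith

/-- elementary: a quadratic beats a linear function -/
theorem exists_quad_ge {A : ℝ} (hA : 0 < A) (B E : ℝ) :
    ∃ x0 : ℝ, 1 ≤ x0 ∧ ∀ x, x0 ≤ x → B * x + E ≤ A * x ^ 2 := by
  refine ⟨max 1 ((|B| + |E|) / A), le_max_left _ _, fun x hx => ?_⟩
  have h1 : 1 ≤ x := (le_max_left _ _).trans hx
  have h2 : (|B| + |E|) / A ≤ x := (le_max_right _ _).trans hx
  rw [div_le_iff₀ hA] at h2
  have h3 : B * x ≤ |B| * x := mul_le_mul_of_nonneg_right (le_abs_self B) (by linarith)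
  have h4 : E ≤ |E| * x := (le_abs_self E).trans (by nlinarith [abs_nonneg E])
  nlinarith

theorem exists_delta {v c : ℝ} (h : c < 9 * v / 4) :
    ∃ δ : ℝ, 0 < δ ∧ δ < 1 ∧ c < 9 * v / 4 * (1 - δ) ^ 2 := by
  have hcont : Filter.Tendsto (fun δ : ℝ => 9 * v / 4 * (1 - δ) ^ 2) (nhds 0)
      (nhds (9 * v / 4 * (1 - 0) ^ 2)) := by
    apply Continuous.tendsto; fun_prop
  have h1 : ∀ᶠ δ in nhds (0 : ℝ), c < 9 * v / 4 * (1 - δ) ^ 2 :=
    hcont.eventually (lt_mem_nhds (by simpa using h))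
  have h2 : ∀ᶠ δ in nhdsWithin (0 : ℝ) (Ioi 0), c < 9 * v / 4 * (1 - δ) ^ 2 :=
    h1.filter_mono nhdsWithin_le_nhds
  have h3 : ∀ᶠ δ in nhdsWithin (0 : ℝ) (Ioi 0), δ ∈ Ioo (0 : ℝ) 1 := Ioo_mem_nhdsGT one_pos
  obtain ⟨δ, h4, h5⟩ := (h2.and h3).exists
  exact ⟨δ, h5.1, h5.2, h4⟩

/-- counting theorem for `n = 3`.  `N s = #(low b s J)` modes in each of the sectors `(q, s)`,
`q, s ∈ {0,1}`; active levels `i0 ≤ i < N s` (0-based); slack `k` in the count. -/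
theorem count3 {v c b ρ : ℝ} (hv : 0 < v) (hc : c < 9 * v / 4) (hb : 1 ≤ b)
    (hbv : b * v ≤ 1) (hρ : 0 < ρ) (hρ2 : ρ ^ 2 = b * v) (i0 : ℕ) :
    ∃ δ : ℝ, 0 < δ ∧ δ < 1 ∧ ∃ k0 : ℕ, ∀ k : ℕ, k0 ≤ k → ∃ J : ℝ,
      (∀ s q : ℕ, s ≤ 1 → q ≤ 1 → ∀ e : ℕ → ℕ × ℕ, (∀ i, e i ∈ lab s) →
        StrictMono (fun i => mu b (e i)) → (∀ p ∈ lab s, ∃ i, e i = p) →
        i0 < (low b s J).card ∧
        ∑ i ∈ Finset.Ico i0 (low b s J).card, expo 1 ρ (mu b (e i) + q) ≤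
          ((1 - δ) * k) * ((low b s J).card - i0)) ∧
      c * ((k : ℝ) + 1) ^ 2 + k ≤ 2 * ((low b 0 J).card + (low b 1 J).card) := by
  obtain ⟨δ, hδ0, hδ1, hδ⟩ := exists_delta hc
  have hb0 : 0 < b := by linarith
  have hρ1 : ρ ≤ 1 := by
    by_contra h
    rw [not_le] at h
    nlinarith
  set C := meanC b 1 i0 with hC
  have hC1 : 1 ≤ C := meanC_pos hb 1 i0
  -- `J = α k - β`
  set α : ℝ := 3 / 2 * (ρ * (1 - δ)) with hα
  set β : ℝ := 3 / 2 * (C + 3 / 2) with hβ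
  have hα0 : 0 < α := by
    have : 0 < 1 - δ := by linarith
    positivity
  have hα2 : α ^ 2 / b = 9 * v / 4 * (1 - δ) ^ 2 := by
    have : α ^ 2 = 9 / 4 * (b * v) * (1 - δ) ^ 2 := by rw [hα, ← hρ2]; ring
    rw [this]; field_simp
  have hA : 0 < 9 * v / 4 * (1 - δ) ^ 2 - c := by linarith
  obtain ⟨x0, hx0, hquad⟩ := exists_quad_ge hA (2 * α * β / b + α + 2 * c + 1) (c - β ^ 2 / b - β)
  obtain ⟨k1, hk1⟩ := exists_nat_ge (max x0 ((β + C) / α))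
  refine ⟨δ, hδ0, hδ1, k1, fun k hk => ?_⟩
  have hkr : max x0 ((β + C) / α) ≤ (k : ℝ) := hk1.trans (by exact_mod_cast hk)
  have hkx : x0 ≤ (k : ℝ) := (le_max_left _ _).trans hkr
  have hkJ : C ≤ α * k - β := by
    have := (le_max_right x0 ((β + C) / α)).trans hkr
    rw [div_le_iff₀ hα0] at this
    linarith
  refine ⟨α * k - β, ?_, ?_⟩
  · intro s q hs hq e he hm hsur
    have hJ : meanC b s i0 ≤ α * k - β := (meanC_mono hb hs i0).trans hkJ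
    refine ⟨card_low_gt hb s i0 hJ, ?_⟩
    have hq0 : (0 : ℝ) ≤ (q : ℝ) := Nat.cast_nonneg q
    have hq1 : (q : ℝ) ≤ 1 := by exact_mod_cast hq
    refine (sum_expo_le hb zero_le_one hρ hρ1 hq0 he hm hsur i0 hJ).trans ?_
    have hcard : (i0 : ℝ) ≤ (low b s (α * k - β)).card := by
      exact_mod_cast (card_low_gt hb s i0 hJ).le
    refine mul_le_mul_of_nonneg_right ?_ (by linarith)
    rw [div_le_iff₀ hρ]
    have h1 : meanC b s i0 ≤ C := meanC_mono hb hs i0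
    have h2 : 2 / 3 * (α * k - β) = ρ * (1 - δ) * k - (C + 3 / 2) := by rw [hα, hβ]; ring
    rw [h2]
    nlinarith
  · have hJ0 : 0 ≤ α * k - β := by linarith
    have h1 := card_low_ge hb0 0 hJ0
    have h2 := card_low_ge hb0 1 hJ0
    have h3 := hquad k hkx
    have h4 : 2 * (((α * k - β) ^ 2 / (4 * b) - (0 : ℕ) * (α * k - β) / 2) +
        ((α * k - β) ^ 2 / (4 * b) - (1 : ℕ) * (α * k - β) / 2)) =
        9 * v / 4 * (1 - δ) ^ 2 * (k : ℝ) ^ 2 - (2 * α * β / b + α) * k + β ^ 2 / b + β := by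
      rw [← hα2]; push_cast; field_simp; ring
    nlinarith

end Crest.Agent.R202.Lab
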