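import Crest.Agent.R202.MainDefs
import Crest.Agent.R202.Cnt8
import Crest.Agent.R202.Chain

/-!
Row 202, part E: the counting data `CountData` for `n = 3` and `n = 8`.
-/

set_option autoImplicit false

open Set Filter

namespace Crest.Agent.R202.Lab

theorem meanC_mono' {b : ℝ} (hb : 1 ≤ b) {s s' i i' : ℕ} (h : s ≤ s') (hi : i ≤ i') :
    meanC b s i ≤ meanC b s' i' := by
  unfold meanC
  have h1 : (s : ℝ) ≤ s' := by exact_mod_cast h
  have h2 : (i : ℝ) ≤ i' := by exact_mod_cast hi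
  exact mul_le_mul_of_nonneg_left (by linarith) (by positivity)

/-- `count3` with all lower ends `i ≤ i0` of the active window -/
theorem count3_all {v c b ρ : ℝ} (hv : 0 < v) (hc : c < 9 * v / 4) (hb : 1 ≤ b)
    (hbv : b * v ≤ 1) (hρ : 0 < ρ) (hρ2 : ρ ^ 2 = b * v) (i0 : ℕ) :
    ∃ δ : ℝ, 0 < δ ∧ δ < 1 ∧ ∃ k0 : ℕ, ∀ k : ℕ, k0 ≤ k → ∃ J : ℝ,
      (∀ s q i : ℕ, s ≤ 1 → q ≤ 1 → i ≤ i0 → ∀ e : ℕ → ℕ × ℕ, (∀ i, e i ∈ lab s) →
        StrictMono (fun i => mu b (e i)) → (∀ p ∈ lab s, ∃ i, e i = p) →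
        i < (low b s J).card ∧
        ∑ i ∈ Finset.Ico i (low b s J).card, expo 1 ρ (mu b (e i) + q) ≤
          ((1 - δ) * k) * ((low b s J).card - i)) ∧
      c * ((k : ℝ) + 1) ^ 2 + k ≤ 2 * ((low b 0 J).card + (low b 1 J).card) := by
  obtain ⟨δ, hδ0, hδ1, hδ⟩ := exists_delta hc
  have hb0 : 0 < b := by linarith
  have hρ1 : ρ ≤ 1 := by
    by_contra h
    rw [not_le] at h
    nlinarith
  set C := meanC b 1 i0 with hC
  have hC1 : 1 ≤ C := meanC_pos hb 1 i0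
  set α : ℝ := 3 / 2 * (ρ * (1 - δ)) with hα
  set β : ℝ := 3 / 2 * (C + 3 / 2) with hβ
  have hα0 : 0 < α := by
    have : 0 < 1 - δ := by linarith
    positivity
  have hα2 : α ^ 2 / b = 9 * v / 4 * (1 - δ) ^ 2 := by
    have : α ^ 2 = 9 / 4 * (b * v) * (1 - δ) ^ 2 := by rw [hα, ← hρ2]; ring
    rw [this]; field_simp
  have hA : 0 < 9 * v / 4 * (1 - δ) ^ 2 - c := by linarith
  obtain ⟨x0, hx0, hquad⟩ := exists_quad_ge hA (2 * α * β / b + α + 2 * c + 1) (c - β ^ 2 / b - β)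
  obtain ⟨k1, hk1⟩ := exists_nat_ge (max x0 ((β + C) / α))
  refine ⟨δ, hδ0, hδ1, k1, fun k hk => ?_⟩
  have hkr : max x0 ((β + C) / α) ≤ (k : ℝ) := hk1.trans (by exact_mod_cast hk)
  have hkx : x0 ≤ (k : ℝ) := (le_max_left _ _).trans hkr
  have hkJ : C ≤ α * k - β := by
    have := (le_max_right x0 ((β + C) / α)).trans hkr
    rw [div_le_iff₀ hα0] at this
    linarith
  refine ⟨α * k - β, ?_, ?_⟩
  · intro s q i hs hq hi e he hm hsur
    have hJ : meanC b s i ≤ α * k - β := (meanC_mono' hb hs hi).trans hkJ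
    refine ⟨card_low_gt hb s i hJ, ?_⟩
    have hq0 : (0 : ℝ) ≤ (q : ℝ) := Nat.cast_nonneg q
    have hq1 : (q : ℝ) ≤ 1 := by exact_mod_cast hq
    refine (sum_expo_le hb zero_le_one hρ hρ1 hq0 he hm hsur i hJ).trans ?_
    have hcard : (i : ℝ) ≤ (low b s (α * k - β)).card := by
      exact_mod_cast (card_low_gt hb s i hJ).le
    refine mul_le_mul_of_nonneg_right ?_ (by linarith)
    rw [div_le_iff₀ hρ]
    have h1 : meanC b s i ≤ C := meanC_mono' hb hs hi
    have h2 : 2 / 3 * (α * k - β) = ρ * (1 - δ) * k - (C + 3 / 2) := by rw [hα, hβ]; ring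
    rw [h2]
    nlinarith
  · have hJ0 : 0 ≤ α * k - β := by linarith
    have h1 := card_low_ge hb0 0 hJ0
    have h2 := card_low_ge hb0 1 hJ0
    have h3 := hquad k hkx
    have h4 : 2 * (((α * k - β) ^ 2 / (4 * b) - (0 : ℕ) * (α * k - β) / 2) +
        ((α * k - β) ^ 2 / (4 * b) - (1 : ℕ) * (α * k - β) / 2)) =
        9 * v / 4 * (1 - δ) ^ 2 * (k : ℝ) ^ 2 - (2 * α * β / b + α) * k + β ^ 2 / b + β := by
      rw [← hα2]; push_cast; field_simp; ring
    nlinarith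

/-- `count8` with all lower ends `i ≤ i0` of the active window -/
theorem count8_all {v b ρ : ℝ} (hv : 4 / 9 < v) (hb : 1 ≤ b) (hbv : b * v ≤ 1) (hρ : 0 < ρ)
    (hρ7 : ρ ^ 7 = b * v) (i0 : ℕ) :
    ∃ δ : ℝ, 0 < δ ∧ δ < 1 ∧ ∀ᶠ k : ℕ in atTop, ∃ (Q : ℕ) (J : ℕ → ℝ),
      (∀ q s i : ℕ, q ≤ Q → s ≤ 1 → i ≤ i0 → ∀ e : ℕ → ℕ × ℕ, (∀ i, e i ∈ lab s) →
        StrictMono (fun i => mu b (e i)) → (∀ p ∈ lab s, ∃ i, e i = p) →
        i < (low b s (J q)).card ∧
        ∑ i ∈ Finset.Ico i (low b s (J q)).card, expo 6 ρ (mu b (e i) + q) ≤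
          ((1 - δ) * k) * ((low b s (J q)).card - i)) ∧
      (8 + k - 1).choose k + (8 + k - 2).choose (k - 1) <
        ∑ q ∈ Finset.Icc 1 Q, Sph.dimH 6 q * ((low b 0 (J q)).card + (low b 1 (J q)).card) := by
  obtain ⟨δ, hδ0, hδ1, hδ⟩ := exists_delta8 hv
  have hb0 : 0 < b := by linarith
  have hρ1 : ρ ≤ 1 := by
    by_contra h
    rw [not_le] at h
    have : 1 < ρ ^ 7 := one_lt_pow₀ h (by norm_num)
    linarith
  refine ⟨δ, hδ0, hδ1, ?_⟩
  have hmain : 1 / 2 < 9 / (8 * b) * (ρ * (1 - δ)) ^ 7 := by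
    have e1 : 9 / (8 * b) * (ρ * (1 - δ)) ^ 7 = 9 / 8 * (v * (1 - δ) ^ 7) := by
      rw [mul_pow, hρ7]; field_simp
    rw [e1]; linarith
  filter_upwards [count8_core hb hρ hδ1 i0 (a := 9 / (8 * b)) (by positivity) hmain]
    with k hk
  obtain ⟨Q, J, hJ, hcount⟩ := hk
  refine ⟨Q, J, ?_, hcount _ ?_⟩
  · intro q s i hq hs hi e he hm hsur
    obtain ⟨h1, h2⟩ := hJ q hq
    have hJs : meanC b s i ≤ J q := (meanC_mono' hb hs hi).trans h1
    refine ⟨card_low_gt hb s i hJs, ?_⟩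
    refine (sum_expo_le hb (by norm_num) hρ hρ1 (Nat.cast_nonneg q) he hm hsur i hJs).trans ?_
    have hcard : (i : ℝ) ≤ (low b s (J q)).card := by exact_mod_cast (card_low_gt hb s i hJs).le
    refine mul_le_mul_of_nonneg_right ?_ (by linarith)
    rw [div_le_iff₀ hρ]
    have h3 : meanC b s i ≤ meanC b 1 i0 := meanC_mono' hb hs hi
    linarith
  · intro q hq
    obtain ⟨h1, h2⟩ := hJ q hq
    have hJ0 : 0 ≤ J q := by linarith [meanC_pos hb 1 i0]
    have h3 := card_low_ge hb0 0 hJ0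
    have h4 := card_low_ge hb0 1 hJ0
    push_cast at h3 h4 ⊢
    have e1 : 9 / (8 * b) * (2 / 3 * J q) ^ 2 = 2 * (J q ^ 2 / (4 * b)) := by field_simp; ring
    rw [e1]
    linarith

end Crest.Agent.R202.Lab

namespace Crest.Agent.R202.Main
open Crest.Agent.R202.Lab

theorem sh_le_one (σ : ℕ × ℕ) : sh σ ≤ 1 := by
  unfold sh; split_ifs <;> omega

/-- common choices: `1 < b0 < b1 < 1/v` irrational, enumerations, uniform `I1 ≥ 1` for the cuts -/
theorem exists_base {v : ℝ} (hv : 0 < v) (hv1 : v < 1) :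
    ∃ b0 b1 : ℝ, 1 < b0 ∧ b0 < b1 ∧ v * b1 < 1 ∧ Irrational b0 ∧ Irrational b1 ∧
      (∃ e : ℕ → ℕ → ℕ × ℕ, IsEnum b0 e) ∧
      ∃ I1 : ℕ, 1 ≤ I1 ∧ ∀ s, s ≤ 1 → ∀ l, I1 ≤ l → ∃ b, b0 < b ∧ b < b1 ∧ Closed b s l := by
  have h1 : (1 : ℝ) < 1 / v := by rw [lt_div_iff₀ hv]; linarith
  obtain ⟨b1, hb1, h11, h12⟩ := exists_irrational_btwn h1
  obtain ⟨b0, hb0, h01, h02⟩ := exists_irrational_btwn h11
  have hb0p : 0 < b0 := by linarith
  have hvb : v * b1 < 1 := by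
    rw [lt_div_iff₀ hv] at h12; linarith
  refine ⟨b0, b1, h01, h02, hvb, hb0, hb1, ?_, ?_⟩
  · have hex := fun s => exists_enum hb0p hb0 s
    choose e he using hex
    exact ⟨e, fun s _ => he s⟩
  · obtain ⟨j0, hj0⟩ := exists_closed_large hb0p h02 hb0 hb1 0
    obtain ⟨j1, hj1⟩ := exists_closed_large hb0p h02 hb0 hb1 1
    refine ⟨max 1 (max j0 j1), le_max_left _ _, fun s hs l hl => ?_⟩
    have h3 : j0 ≤ l := ((le_max_left j0 j1).trans (le_max_right _ _)).trans hl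
    have h4 : j1 ≤ l := ((le_max_right j0 j1).trans (le_max_right _ _)).trans hl
    interval_cases s
    · obtain ⟨b, hb, hc⟩ := hj0 l h3; exact ⟨b, hb.1, hb.2, hc⟩
    · obtain ⟨b, hb, hc⟩ := hj1 l h4; exact ⟨b, hb.1, hb.2, hc⟩

/-- the cardinality of the index set -/
theorem card_Idx {m : ℕ} {v : ℝ} {k : ℕ} (D : CountData m v k) :
    Fintype.card (Idx D) = ∑ σ ∈ D.S, Sph.dimH (m + 1) σ.1 * D.N σ := by
  rw [Fintype.card_sigma]
  simp only [Fintype.card_prod, Fintype.card_fin]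
  exact Finset.sum_coe_sort D.S (fun σ => Sph.dimH (m + 1) σ.1 * D.N σ)

/-- shift of the summation index -/
theorem sum_shift {f : ℕ → ℝ} {I1 M s : ℕ} (hs : s ≤ 1) (h1 : 1 ≤ I1) (hM : I1 + 1 < M) :
    ∑ c ∈ Finset.Icc (I1 + 1 - s - 1) (M - s - 1), f (c + s) = ∑ i ∈ Finset.Ico I1 M, f i := by
  refine Finset.sum_bij' (fun c _ => c + s) (fun i _ => i - s) ?_ ?_ ?_ ?_ ?_
  · intro c hc
    rw [Finset.mem_Icc] at hc
    rw [Finset.mem_Ico]
    omega
  · intro i hi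
    rw [Finset.mem_Ico] at hi
    rw [Finset.mem_Icc]
    omega
  · intro c _; omega
  · intro i hi
    rw [Finset.mem_Ico] at hi
    omega
  · intro c _; rfl

/-- **counting data for `n = 3`** -/
theorem exists_countData3 {v c : ℝ} (hv : 0 < v) (hv1 : v < 1) (hc : c < 9 * v / 4) :
    ∃ k0 : ℕ, ∀ k : ℕ, k0 ≤ k → ∃ D : CountData 0 v k,
      c * ((k : ℝ) + 1) ^ 2 ≤ (Fintype.card (Idx D) : ℝ) := by
  obtain ⟨b0, b1, hb0, h01, hvb, hi0, hi1, ⟨e, he⟩, I1, hI1, hcl⟩ := exists_base hv hv1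
  have hvb0 : v * b0 ≤ 1 := by nlinarith
  have hvb0p : 0 < v * b0 := by nlinarith
  set ρ : ℝ := (v * b0) ^ ((1 : ℝ) / (((0 : ℕ) : ℝ) + 2)) with hρd
  have hρ : 0 < ρ := Real.rpow_pos_of_pos hvb0p _
  have hρ2 : ρ ^ 2 = b0 * v := by
    rw [hρd, ← Real.rpow_natCast, ← Real.rpow_mul hvb0p.le]
    norm_num
    ring
  obtain ⟨δ, hδ0, hδ1, k0, hk0⟩ := count3_all hv hc hb0.le (by linarith) hρ hρ2 (I1 + 1)
  refine ⟨max k0 1, fun k hk => ?_⟩
  have hkk : k0 ≤ k := (le_max_left _ _).trans hk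
  have hk1 : 1 ≤ k := (le_max_right _ _).trans hk
  obtain ⟨J, hJ, hcount⟩ := hk0 k hkk
  have hM : ∀ s, s ≤ 1 → I1 + 1 < (low b0 s J).card := fun s hs =>
    (hJ s 0 (I1 + 1) hs (by omega) le_rfl (e s) (he s hs).1 (he s hs).2.1 (he s hs).2.2).1
  have hSmem : ∀ σ : ℕ × ℕ, σ ∈ Finset.range 2 ×ˢ Finset.range 2 → σ.1 ≤ 1 ∧ σ.2 ≤ 1 := by
    intro σ hσ
    rw [Finset.mem_product, Finset.mem_range, Finset.mem_range] at hσ
    omega
  let D : CountData 0 v k :=
    { b0 := b0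
      b1 := b1
      e := e
      S := Finset.range 2 ×ˢ Finset.range 2
      i0 := fun σ => I1 + 1 - sh σ
      N := fun σ => (low b0 σ.2 J).card - sh σ
      v_pos := hv
      v_lt := hv1
      b0_gt := hb0
      b01 := h01
      irr0 := hi0
      irr1 := hi1
      vb1 := hvb
      enum := he
      secOK := fun σ hσ => ⟨(hSmem σ hσ).2, fun _ => (hSmem σ hσ).1, fun h => absurd h (by simp)⟩
      i0_pos := fun σ _ => by have := sh_le_one σ; omega
      S_ne := ⟨(0, 0), by simp⟩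
      i0_lt := fun σ hσ => by
        have := sh_le_one σ
        have := hM σ.2 (hSmem σ hσ).2
        omega
      closed := fun σ hσ l hl _ => by
        have := sh_le_one σ
        exact hcl σ.2 (hSmem σ hσ).2 (l + sh σ) (by omega)
      mean := fun σ hσ => by
        have hs := (hSmem σ hσ).2
        have hq := (hSmem σ hσ).1
        have hsh := sh_le_one σ
        have hMs := hM σ.2 hs
        obtain ⟨-, h2⟩ := hJ σ.2 σ.1 I1 hs hq (by omega) (e σ.2) (he _ hs).1 (he _ hs).2.1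
          (he _ hs).2.2
        have h3 : ∀ c, homeExp 0 v b0 e σ c =
            expo 1 ρ (mu b0 (e σ.2 (c + sh σ)) + (σ.1 : ℝ)) := by
          intro c
          unfold homeExp
          rw [hρd]
          norm_num
        simp only [h3]
        rw [sum_shift (f := fun i => expo 1 ρ (mu b0 (e σ.2 i) + (σ.1 : ℝ))) hsh hI1 hMs]
        refine h2.trans_lt ?_
        have e1 : (((low b0 σ.2 J).card - sh σ : ℕ) : ℝ) - ((I1 + 1 - sh σ : ℕ) : ℝ) + 1 =
            (low b0 σ.2 J).card - I1 := by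
          rw [Nat.cast_sub (by omega), Nat.cast_sub (by omega)]
          push_cast; ring
        rw [e1]
        have h4 : (0 : ℝ) < (low b0 σ.2 J).card - I1 := by
          have : (I1 : ℝ) < (low b0 σ.2 J).card := by exact_mod_cast (by omega :
            I1 < (low b0 σ.2 J).card)
          linarith
        have h5 : (1 : ℝ) ≤ k := by exact_mod_cast hk1
        refine mul_lt_mul_of_pos_right ?_ h4
        nlinarith }
  refine ⟨D, ?_⟩
  rw [card_Idx]
  have hd0 : Sph.dimH (0 + 1) 0 = 1 := by decide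
  have hd1 : Sph.dimH (0 + 1) 1 = 1 := by decide
  have hsum : ∑ σ ∈ D.S, Sph.dimH (0 + 1) σ.1 * D.N σ =
      ((low b0 0 J).card - 1) + (low b0 1 J).card + ((low b0 0 J).card + (low b0 1 J).card) := by
    show ∑ σ ∈ Finset.range 2 ×ˢ Finset.range 2, Sph.dimH (0 + 1) σ.1 *
      ((low b0 σ.2 J).card - sh σ) = _
    rw [Finset.sum_product]
    simp only [Finset.sum_range_succ, Finset.sum_range_zero, zero_add, hd0, hd1, one_mul]
    simp [sh]
  rw [hsum]
  have h0 := hM 0 (by omega)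
  have hk1' : (1 : ℝ) ≤ k := by exact_mod_cast hk1
  push_cast [Nat.cast_sub (by omega : 1 ≤ (low b0 0 J).card)]
  linarith

/-- **counting data for `n = 8`** -/
theorem exists_countData8 {v : ℝ} (hv : 4 / 9 < v) (hv1 : v < 1) :
    ∀ᶠ k : ℕ in atTop, ∃ D : CountData 5 v k,
      (8 + k - 1).choose k + (8 + k - 2).choose (k - 1) < Fintype.card (Idx D) := by
  have hv0 : 0 < v := by linarith
  obtain ⟨b0, b1, hb0, h01, hvb, hi0, hi1, ⟨e, he⟩, I1, hI1, hcl⟩ := exists_base hv0 hv1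
  have hvb0 : v * b0 ≤ 1 := by nlinarith
  have hvb0p : 0 < v * b0 := by nlinarith
  set ρ : ℝ := (v * b0) ^ ((1 : ℝ) / (((5 : ℕ) : ℝ) + 2)) with hρd
  have hρ : 0 < ρ := Real.rpow_pos_of_pos hvb0p _
  have hρ7 : ρ ^ 7 = b0 * v := by
    rw [hρd, ← Real.rpow_natCast, ← Real.rpow_mul hvb0p.le]
    norm_num
    ring
  obtain ⟨δ, hδ0, hδ1, hev⟩ := count8_all hv hb0.le (by linarith) hρ hρ7 (I1 + 1)
  filter_upwards [hev, eventually_ge_atTop 1] with k hk hk1
  obtain ⟨Q, J, hJ, hcount⟩ := hk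
  have hQ : 1 ≤ Q := by
    by_contra hQ
    have : Finset.Icc 1 Q = ∅ := Finset.Icc_eq_empty (by omega)
    rw [this, Finset.sum_empty] at hcount
    omega
  have hM : ∀ q s, q ≤ Q → s ≤ 1 → I1 + 1 < (low b0 s (J q)).card := fun q s hq hs =>
    (hJ q s (I1 + 1) hq hs le_rfl (e s) (he s hs).1 (he s hs).2.1 (he s hs).2.2).1
  have hSmem : ∀ σ : ℕ × ℕ, σ ∈ Finset.Icc 1 Q ×ˢ Finset.range 2 →
      1 ≤ σ.1 ∧ σ.1 ≤ Q ∧ σ.2 ≤ 1 ∧ sh σ = 0 := by
    intro σ hσ
    rw [Finset.mem_product, Finset.mem_Icc, Finset.mem_range] at hσ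
    refine ⟨hσ.1.1, hσ.1.2, by omega, ?_⟩
    unfold sh
    rw [if_neg]
    rintro rfl
    simp at hσ
  let D : CountData 5 v k :=
    { b0 := b0
      b1 := b1
      e := e
      S := Finset.Icc 1 Q ×ˢ Finset.range 2
      i0 := fun σ => I1 + 1 - sh σ
      N := fun σ => (low b0 σ.2 (J σ.1)).card - sh σ
      v_pos := hv0
      v_lt := hv1
      b0_gt := hb0
      b01 := h01
      irr0 := hi0
      irr1 := hi1
      vb1 := hvb
      enum := he
      secOK := fun σ hσ => ⟨(hSmem σ hσ).2.2.1, fun h => absurd h (by simp), fun _ => (hSmem σ hσ).1⟩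
      i0_pos := fun σ _ => by have := sh_le_one σ; omega
      S_ne := ⟨(1, 0), by simp [hQ]⟩
      i0_lt := fun σ hσ => by
        have := sh_le_one σ
        have := hM σ.1 σ.2 (hSmem σ hσ).2.1 (hSmem σ hσ).2.2.1
        omega
      closed := fun σ hσ l hl _ => by
        have := sh_le_one σ
        exact hcl σ.2 (hSmem σ hσ).2.2.1 (l + sh σ) (by omega)
      mean := fun σ hσ => by
        have hs := (hSmem σ hσ).2.2.1
        have hq := (hSmem σ hσ).2.1
        have hsh := sh_le_one σ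
        have hMs := hM σ.1 σ.2 hq hs
        obtain ⟨-, h2⟩ := hJ σ.1 σ.2 I1 hq hs (by omega) (e σ.2) (he _ hs).1 (he _ hs).2.1
          (he _ hs).2.2
        have h3 : ∀ c, homeExp 5 v b0 e σ c =
            expo 6 ρ (mu b0 (e σ.2 (c + sh σ)) + (σ.1 : ℝ)) := by
          intro c
          unfold homeExp
          rw [hρd]
          norm_num
        simp only [h3]
        rw [sum_shift (f := fun i => expo 6 ρ (mu b0 (e σ.2 i) + (σ.1 : ℝ))) hsh hI1 hMs]
        refine h2.trans_lt ?_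
        have e1 : (((low b0 σ.2 (J σ.1)).card - sh σ : ℕ) : ℝ) - ((I1 + 1 - sh σ : ℕ) : ℝ) + 1 =
            (low b0 σ.2 (J σ.1)).card - I1 := by
          rw [Nat.cast_sub (by omega), Nat.cast_sub (by omega)]
          push_cast; ring
        rw [e1]
        have h4 : (0 : ℝ) < (low b0 σ.2 (J σ.1)).card - I1 := by
          have : (I1 : ℝ) < (low b0 σ.2 (J σ.1)).card := by exact_mod_cast (by omega :
            I1 < (low b0 σ.2 (J σ.1)).card)
          linarith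
        have h5 : (1 : ℝ) ≤ k := by exact_mod_cast hk1
        refine mul_lt_mul_of_pos_right ?_ h4
        nlinarith }
  refine ⟨D, ?_⟩
  rw [card_Idx]
  refine hcount.trans_le (le_of_eq ?_)
  show _ = ∑ σ ∈ Finset.Icc 1 Q ×ˢ Finset.range 2, Sph.dimH (5 + 1) σ.1 *
      ((low b0 σ.2 (J σ.1)).card - sh σ)
  rw [Finset.sum_product]
  refine Finset.sum_congr rfl fun q hq => ?_
  have hq1 : 1 ≤ q := (Finset.mem_Icc.1 hq).1
  simp only [Finset.sum_range_succ, Finset.sum_range_zero, zero_add]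
  have hsh0 : ∀ s, sh (q, s) = 0 := by
    intro s
    unfold sh
    rw [if_neg]
    intro h
    have : q = 0 := congrArg Prod.fst h
    omega
  rw [hsh0, hsh0, Nat.sub_zero, Nat.sub_zero]
  ring

end Crest.Agent.R202.Main
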