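import Mathlib

/-!
# Row 202, part E (count): lattice point sums for the spindle levels

Level of the label `(m,j)` in the sector `q`: `m/θ + 2j + q`.
-/

set_option autoImplicit false
open scoped BigOperators
open Finset

namespace Crest.Agent.R202

/-- level of the label `(m,j)` in the sector `q` at the spindle parameter `θ`. -/
noncomputable def lev (θ : ℝ) (q : ℕ) (p : ℕ × ℕ) : ℝ := (p.1 : ℝ) / θ + 2 * (p.2 : ℝ) + (q : ℝ)

/-- labels `(m,j)` with `m ≥ ε` (`ε = 0`: cosine sector, `ε = 1`: sine sector) of level `< M`. -/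
noncomputable def labs (θ : ℝ) (q ε : ℕ) (M : ℝ) : Finset (ℕ × ℕ) :=
  ((Finset.range (⌈M⌉₊ + 1)) ×ˢ (Finset.range (⌈M⌉₊ + 1))).filter
    (fun p => ε ≤ p.1 ∧ lev θ q p < M)

theorem mem_labs {θ : ℝ} (h0 : 0 < θ) (h1 : θ ≤ 1) (q ε : ℕ) (M : ℝ) (p : ℕ × ℕ) :
    p ∈ labs θ q ε M ↔ ε ≤ p.1 ∧ lev θ q p < M := by
  unfold labs
  rw [Finset.mem_filter, Finset.mem_product, Finset.mem_range, Finset.mem_range]
  constructor
  · exact fun h => h.2
  · intro h
    refine ⟨?_, h⟩
    have hl := h.2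
    unfold lev at hl
    have hp1 : (p.1 : ℝ) ≤ (p.1 : ℝ) / θ := by
      rw [le_div_iff₀ h0]
      have : (0:ℝ) ≤ p.1 := Nat.cast_nonneg _
      nlinarith
    have hp1' : (0:ℝ) ≤ (p.1 : ℝ) := Nat.cast_nonneg _
    have hp2' : (0:ℝ) ≤ (p.2 : ℝ) := Nat.cast_nonneg _
    have hq' : (0:ℝ) ≤ (q : ℝ) := Nat.cast_nonneg _
    have hc : M ≤ (⌈M⌉₊ : ℝ) := Nat.le_ceil M
    constructor
    · have : (p.1 : ℝ) < (⌈M⌉₊ : ℝ) + 1 := by linarith
      exact_mod_cast this
    · have : (p.2 : ℝ) < (⌈M⌉₊ : ℝ) + 1 := by linarith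
      exact_mod_cast this

/-- telescoping lower bound. -/
theorem sum_ge_of_telescope (f F : ℝ → ℝ) (d : ℝ) (hF : ∀ x, F x - F (x - d) ≤ f x)
    (hF0 : ∀ x, x ≤ 0 → F x = 0) (x : ℝ) (n : ℕ) (hn : x - n * d ≤ 0) :
    F x ≤ ∑ i ∈ Finset.range n, f (x - i * d) := by
  have key : ∀ n : ℕ, F x - F (x - n * d) ≤ ∑ i ∈ Finset.range n, f (x - i * d) := by
    intro n
    induction n with
    | zero => simp
    | succ n ih =>
      rw [Finset.sum_range_succ]
      have h := hF (x - n * d)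
      have e : x - (n:ℝ) * d - d = x - ((n + 1 : ℕ) : ℝ) * d := by push_cast; ring
      rw [e] at h
      linarith
  have := key n
  rw [hF0 _ hn] at this
  linarith

/-- telescoping upper bound. -/
theorem sum_le_of_telescope (f F : ℝ → ℝ) (d : ℝ) (hF : ∀ x, f x ≤ F x - F (x - d))
    (hF0 : ∀ x, 0 ≤ F x) (x : ℝ) (n : ℕ) :
    ∑ i ∈ Finset.range n, f (x - i * d) ≤ F x := by
  have key : ∀ n : ℕ, ∑ i ∈ Finset.range n, f (x - i * d) ≤ F x - F (x - n * d) := by
    intro n
    induction n with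
    | zero => simp
    | succ n ih =>
      rw [Finset.sum_range_succ]
      have h := hF (x - n * d)
      have e : x - (n:ℝ) * d - d = x - ((n + 1 : ℕ) : ℝ) * d := by push_cast; ring
      rw [e] at h
      linarith
  have := key n
  have := hF0 (x - n * d)
  linarith

/-- row decomposition of sums over `labs`. -/
theorem sum_labs_rows {θ : ℝ} (h0 : 0 < θ) (h1 : θ ≤ 1) (q ε : ℕ) (M : ℝ) (f : ℕ × ℕ → ℝ)
    (n : ℕ) (hn : M ≤ n) :
    ∑ p ∈ labs θ q ε M, f p =
      ∑ j ∈ Finset.range n, ∑ i ∈ Finset.range n,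
        if (((i + ε : ℕ) : ℝ)) / θ + 2 * (j : ℝ) + q < M then f (i + ε, j) else 0 := by
  rw [Finset.sum_comm, ← Finset.sum_product', ← Finset.sum_filter]
  refine Finset.sum_bij' (fun p _ => (p.1 - ε, p.2)) (fun p _ => (p.1 + ε, p.2)) ?_ ?_ ?_ ?_ ?_
  · intro p hp
    rw [mem_labs h0 h1] at hp
    have hl := hp.2
    unfold lev at hl
    have hp1 : (p.1 : ℝ) ≤ (p.1 : ℝ) / θ := by
      rw [le_div_iff₀ h0]
      have : (0:ℝ) ≤ p.1 := Nat.cast_nonneg _
      nlinarith
    have hp1' : (0:ℝ) ≤ (p.1 : ℝ) := Nat.cast_nonneg _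
    have hp2' : (0:ℝ) ≤ (p.2 : ℝ) := Nat.cast_nonneg _
    have hq' : (0:ℝ) ≤ (q : ℝ) := Nat.cast_nonneg _
    rw [Finset.mem_filter, Finset.mem_product, Finset.mem_range, Finset.mem_range]
    have a1 : p.1 < n := by
      have : (p.1 : ℝ) < (n : ℝ) := by linarith
      exact_mod_cast this
    have a2 : p.2 < n := by
      have : (p.2 : ℝ) < (n : ℝ) := by linarith
      exact_mod_cast this
    refine ⟨⟨by dsimp; omega, a2⟩, ?_⟩
    dsimp
    rw [Nat.sub_add_cancel hp.1]
    exact hl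
  · intro p hp
    rw [Finset.mem_filter] at hp
    rw [mem_labs h0 h1]
    exact ⟨Nat.le_add_left _ _, hp.2⟩
  · intro p hp
    rw [mem_labs h0 h1] at hp
    ext
    · dsimp; omega
    · rfl
  · intro p hp
    ext
    · dsimp; omega
    · rfl
  · intro p hp
    rw [mem_labs h0 h1] at hp
    dsimp
    rw [Nat.sub_add_cancel hp.1]

/-- lower bound for the first moment. -/
theorem sum_sub_lev_ge {θ : ℝ} (h0 : 0 < θ) (h1 : θ ≤ 1) (q ε : ℕ) (M : ℝ) (hM : 0 ≤ M) :
    θ / 12 * (max (M - q - ε / θ) 0) ^ 3 ≤ ∑ p ∈ labs θ q ε M, (M - lev θ q p) := by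
  obtain ⟨n, hn⟩ := exists_nat_ge M
  rw [sum_labs_rows h0 h1 q ε M _ n hn]
  have hdpos : (0:ℝ) < 1 / θ := by positivity
  have hd1 : (1:ℝ) ≤ 1 / θ := by rw [le_div_iff₀ h0]; linarith
  -- rows
  have row : ∀ j ∈ Finset.range n, θ / 2 * (max (M - q - ε / θ - (j:ℝ) * 2) 0) ^ 2 ≤
      ∑ i ∈ Finset.range n, (if (((i + ε : ℕ) : ℝ)) / θ + 2 * (j : ℝ) + q < M then
        (M - lev θ q (i + ε, j)) else 0) := by
    intro j _
    have hrew : ∀ i ∈ Finset.range n, (if (((i + ε : ℕ) : ℝ)) / θ + 2 * (j : ℝ) + q < M then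
        (M - lev θ q (i + ε, j)) else 0) =
        (fun x : ℝ => max x 0) ((M - q - ε / θ - (j:ℝ) * 2) - (i:ℝ) * (1 / θ)) := by
      intro i _
      have e : M - q - ε / θ - (j:ℝ) * 2 - (i:ℝ) * (1 / θ) =
          M - ((((i + ε : ℕ) : ℝ)) / θ + 2 * (j : ℝ) + q) := by
        push_cast; ring
      try dsimp only
      rw [e]
      unfold lev
      split_ifs with h
      · rw [max_eq_left (by linarith)]
      · rw [max_eq_right (by linarith)]
    rw [Finset.sum_congr rfl hrew]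
    refine sum_ge_of_telescope (fun x : ℝ => max x 0) (fun x => θ / 2 * (max x 0) ^ 2) (1 / θ)
      ?_ ?_ _ n ?_
    · intro x
      try dsimp only
      have hθd : θ * (1 / θ) = 1 := by field_simp
      rcases le_total x 0 with hx | hx
      · rw [max_eq_right hx, max_eq_right (by linarith)]; simp
      · rw [max_eq_left hx]
        rcases le_total (x - 1 / θ) 0 with hx2 | hx2
        · rw [max_eq_right hx2]
          have : θ * x ≤ 1 := by
            have := mul_le_mul_of_nonneg_left (show x ≤ 1 / θ by linarith) h0.le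
            linarith
          nlinarith
        · rw [max_eq_left hx2]
          have e : θ / 2 * x ^ 2 - θ / 2 * (x - 1 / θ) ^ 2 = x * (θ * (1/θ)) -
            (θ * (1 / θ)) * (1 / θ) / 2 := by ring
          rw [e, hθd]
          linarith
    · intro x hx
      try dsimp only
      rw [max_eq_right hx]; simp
    · have : (n : ℝ) ≤ (n : ℝ) * (1 / θ) := by
        have : (0:ℝ) ≤ n := Nat.cast_nonneg _
        nlinarith
      have hq' : (0:ℝ) ≤ (q : ℝ) := Nat.cast_nonneg _
      have hε' : (0:ℝ) ≤ (ε : ℝ) / θ := by positivity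
      have hj' : (0:ℝ) ≤ (j : ℝ) := Nat.cast_nonneg _
      linarith
  refine le_trans ?_ (Finset.sum_le_sum row)
  refine sum_ge_of_telescope (fun x : ℝ => θ / 2 * (max x 0) ^ 2)
    (fun x => θ / 12 * (max x 0) ^ 3) 2 ?_ ?_ _ n ?_
  · intro x
    try dsimp only
    rcases le_total x 0 with hx | hx
    · rw [max_eq_right hx, max_eq_right (by linarith)]; simp
    · rw [max_eq_left hx]
      rcases le_total (x - 2) 0 with hx2 | hx2
      · rw [max_eq_right hx2]
        have : θ * (x ^ 2 * (6 - x)) ≥ 0 := by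
          have : 0 ≤ 6 - x := by linarith
          positivity
        nlinarith
      · rw [max_eq_left hx2]
        have : θ * (12 * x - 8) ≥ 0 := by
          have : 0 ≤ 12 * x - 8 := by linarith
          positivity
        nlinarith
  · intro x hx
    try dsimp only
    rw [max_eq_right hx]; simp
  · have hq' : (0:ℝ) ≤ (q : ℝ) := Nat.cast_nonneg _
    have hε' : (0:ℝ) ≤ (ε : ℝ) / θ := by positivity
    have : (0:ℝ) ≤ n := Nat.cast_nonneg _
    linarith

/-- lower bound for the number of labels. -/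
theorem card_labs_ge {θ : ℝ} (h0 : 0 < θ) (h1 : θ ≤ 1) (q ε : ℕ) (M : ℝ) (hM : 0 ≤ M) :
    θ / 4 * (max (M - q - ε / θ) 0) ^ 2 ≤ (labs θ q ε M).card := by
  obtain ⟨n, hn⟩ := exists_nat_ge M
  have hcard : ((labs θ q ε M).card : ℝ) = ∑ p ∈ labs θ q ε M, (1:ℝ) := by simp
  rw [hcard, sum_labs_rows h0 h1 q ε M _ n hn]
  have hdpos : (0:ℝ) < 1 / θ := by positivity
  have hd1 : (1:ℝ) ≤ 1 / θ := by rw [le_div_iff₀ h0]; linarith
  have row : ∀ j ∈ Finset.range n, θ * (max (M - q - ε / θ - (j:ℝ) * 2) 0) ≤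
      ∑ i ∈ Finset.range n, (if (((i + ε : ℕ) : ℝ)) / θ + 2 * (j : ℝ) + q < M then
        (1:ℝ) else 0) := by
    intro j _
    have hrew : ∀ i ∈ Finset.range n, (if (((i + ε : ℕ) : ℝ)) / θ + 2 * (j : ℝ) + q < M then
        (1:ℝ) else 0) =
        (fun x : ℝ => if 0 < x then (1:ℝ) else 0)
          ((M - q - ε / θ - (j:ℝ) * 2) - (i:ℝ) * (1 / θ)) := by
      intro i _
      have e : M - q - ε / θ - (j:ℝ) * 2 - (i:ℝ) * (1 / θ) =
          M - ((((i + ε : ℕ) : ℝ)) / θ + 2 * (j : ℝ) + q) := by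
        push_cast; ring
      try dsimp only
      rw [e]
      by_cases h : (((i + ε : ℕ) : ℝ)) / θ + 2 * (j : ℝ) + q < M
      · rw [if_pos h, if_pos (by linarith)]
      · rw [if_neg h, if_neg (by linarith)]
    rw [Finset.sum_congr rfl hrew]
    refine sum_ge_of_telescope (fun x : ℝ => if 0 < x then (1:ℝ) else 0)
      (fun x => θ * (max x 0)) (1 / θ) ?_ ?_ _ n ?_
    · intro x
      try dsimp only
      have hθd : θ * (1 / θ) = 1 := by field_simp
      by_cases hx : 0 < x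
      · rw [if_pos hx, max_eq_left hx.le]
        rcases le_total (x - 1 / θ) 0 with hx2 | hx2
        · rw [max_eq_right hx2]
          have := mul_le_mul_of_nonneg_left (show x ≤ 1 / θ by linarith) h0.le
          linarith
        · rw [max_eq_left hx2]
          have : θ * x - θ * (x - 1 / θ) = θ * (1 / θ) := by ring
          linarith
      · rw [if_neg hx, max_eq_right (by linarith), max_eq_right (by linarith)]; simp
    · intro x hx
      try dsimp only
      rw [max_eq_right hx]; simp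
    · have : (n : ℝ) ≤ (n : ℝ) * (1 / θ) := by
        have : (0:ℝ) ≤ n := Nat.cast_nonneg _
        nlinarith
      have hq' : (0:ℝ) ≤ (q : ℝ) := Nat.cast_nonneg _
      have hε' : (0:ℝ) ≤ (ε : ℝ) / θ := by positivity
      have hj' : (0:ℝ) ≤ (j : ℝ) := Nat.cast_nonneg _
      linarith
  refine le_trans ?_ (Finset.sum_le_sum row)
  refine sum_ge_of_telescope (fun x : ℝ => θ * (max x 0))
    (fun x => θ / 4 * (max x 0) ^ 2) 2 ?_ ?_ _ n ?_
  · intro x
    try dsimp only
    rcases le_total x 0 with hx | hx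
    · rw [max_eq_right hx, max_eq_right (by linarith)]; simp
    · rw [max_eq_left hx]
      rcases le_total (x - 2) 0 with hx2 | hx2
      · rw [max_eq_right hx2]
        have : θ * (x * (4 - x)) ≥ 0 := by
          have : 0 ≤ 4 - x := by linarith
          positivity
        nlinarith
      · rw [max_eq_left hx2]
        nlinarith
  · intro x hx
    try dsimp only
    rw [max_eq_right hx]; simp
  · have hq' : (0:ℝ) ≤ (q : ℝ) := Nat.cast_nonneg _
    have hε' : (0:ℝ) ≤ (ε : ℝ) / θ := by positivity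
    have : (0:ℝ) ≤ n := Nat.cast_nonneg _
    linarith

/-- upper bound for the number of labels. -/
theorem card_labs_le {θ : ℝ} (h0 : 0 < θ) (h1 : θ ≤ 1) (q ε : ℕ) (M : ℝ) (hM : 0 ≤ M) :
    ((labs θ q ε M).card : ℝ) ≤ θ / 4 * (max (M - q + (1 + 1 / θ)) 0) ^ 2 := by
  obtain ⟨n, hn⟩ := exists_nat_ge M
  have hcard : ((labs θ q ε M).card : ℝ) = ∑ p ∈ labs θ q ε M, (1:ℝ) := by simp
  rw [hcard, sum_labs_rows h0 h1 q ε M _ n hn]
  have hdpos : (0:ℝ) < 1 / θ := by positivity
  have hd1 : (1:ℝ) ≤ 1 / θ := by rw [le_div_iff₀ h0]; linarith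
  have hθd : θ * (1 / θ) = 1 := by field_simp
  have row : ∀ j ∈ Finset.range n,
      ∑ i ∈ Finset.range n, (if (((i + ε : ℕ) : ℝ)) / θ + 2 * (j : ℝ) + q < M then
        (1:ℝ) else 0) ≤ (fun x : ℝ => if 0 < x then θ * (x + 1/θ) else 0)
          (M - q - (j:ℝ) * 2) := by
    intro j _
    try dsimp only
    by_cases hpos : 0 < M - q - (j:ℝ) * 2
    · rw [if_pos hpos]
      have h1' : ∑ i ∈ Finset.range n, (if (((i + ε : ℕ) : ℝ)) / θ + 2 * (j : ℝ) + q < M then
        (1:ℝ) else 0) ≤ ∑ i ∈ Finset.range n, (fun x : ℝ => if 0 < x then (1:ℝ) else 0)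
          ((M - q - (j:ℝ) * 2) - (i:ℝ) * (1 / θ)) := by
        refine Finset.sum_le_sum ?_
        intro i _
        try dsimp only
        by_cases h : (((i + ε : ℕ) : ℝ)) / θ + 2 * (j : ℝ) + q < M
        · have : 0 < M - ↑q - ↑j * 2 - ↑i * (1 / θ) := by
            push_cast at h
            have e1 : ((i:ℝ) + (ε:ℝ)) / θ = (i:ℝ) * (1/θ) + (ε:ℝ) / θ := by ring
            have hε' : (0:ℝ) ≤ (ε : ℝ) / θ := by positivity
            linarith
          rw [if_pos h, if_pos this]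
        · rw [if_neg h]
          split_ifs <;> norm_num
      refine le_trans h1' ?_
      refine sum_le_of_telescope (fun x : ℝ => if 0 < x then (1:ℝ) else 0)
        (fun x => θ * (max (x + 1/θ) 0)) (1 / θ) ?_ ?_ (M - q - (j:ℝ) * 2) n |>.trans ?_
      · intro x
        try dsimp only
        by_cases hx : 0 < x
        · rw [if_pos hx, max_eq_left (by linarith), max_eq_left (by linarith)]
          have : θ * (x + 1 / θ) - θ * (x - 1 / θ + 1 / θ) = θ * (1 / θ) := by ring
          linarith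
        · rw [if_neg hx]
          have : max (x - 1 / θ + 1 / θ) 0 ≤ max (x + 1 / θ) 0 :=
            max_le_max (by linarith) le_rfl
          have := mul_le_mul_of_nonneg_left this h0.le
          linarith
      · intro x
        try dsimp only
        positivity
      · try dsimp only
        rw [max_eq_left (by linarith)]
    · rw [if_neg hpos]
      refine le_of_eq ?_
      refine Finset.sum_eq_zero ?_
      intro i _
      rw [if_neg]
      intro h
      apply hpos
      have : (0:ℝ) ≤ (((i + ε : ℕ) : ℝ)) / θ := by positivity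
      linarith
  refine le_trans (Finset.sum_le_sum row) ?_
  have := sum_le_of_telescope (fun x : ℝ => if 0 < x then θ * (x + 1/θ) else 0)
    (fun x => θ / 4 * (max (x + (1 + 1 / θ)) 0) ^ 2) 2 ?_ ?_ (M - q) n
  · exact this
  · intro x
    try dsimp only
    by_cases hx : 0 < x
    · rw [if_pos hx, max_eq_left (by linarith), max_eq_left (by linarith)]
      have : θ / 4 * (x + (1 + 1 / θ)) ^ 2 - θ / 4 * (x - 2 + (1 + 1 / θ)) ^ 2 =
        θ * (x + 1 / θ) := by ring
      linarith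
    · rw [if_neg hx]
      have h3 : max (x - 2 + (1 + 1 / θ)) 0 ≤ max (x + (1 + 1 / θ)) 0 :=
        max_le_max (by linarith) le_rfl
      have h4 : 0 ≤ max (x - 2 + (1 + 1 / θ)) 0 := le_max_right _ _
      have : (max (x - 2 + (1 + 1 / θ)) 0) ^ 2 ≤ (max (x + (1 + 1 / θ)) 0) ^ 2 := by
        exact pow_le_pow_left₀ h4 h3 2
      nlinarith
  · intro x
    try dsimp only
    positivity

/-- mean of the levels below `M` is at most `(2/3) M + q/3 + C`. -/
theorem sum_lev_le {θ : ℝ} (h0 : 0 < θ) (h1 : θ ≤ 1) (q ε : ℕ) (hε : ε ≤ 1) (M : ℝ)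
    (hM : q + 1 / θ ≤ M) :
    ∑ p ∈ labs θ q ε M, lev θ q p ≤
      (labs θ q ε M).card * (2 / 3 * M + q / 3 + (2 + 5 / θ) / 3) := by
  have hd1 : (1:ℝ) ≤ 1 / θ := by rw [le_div_iff₀ h0]; linarith
  have hM0 : 0 ≤ M := by
    have : (0:ℝ) ≤ q := Nat.cast_nonneg _
    linarith
  have A := sum_sub_lev_ge h0 h1 q ε M hM0
  have B := card_labs_le h0 h1 q ε M hM0
  have hεr : (ε : ℝ) / θ ≤ 1 / θ := by
    have : (ε:ℝ) ≤ 1 := by exact_mod_cast hε
    gcongr
  set a : ℝ := 1 / θ with ha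
  set X : ℝ := M - q with hX
  have hXa : a ≤ X := by linarith
  have A' : θ / 12 * (X - a) ^ 3 ≤ ∑ p ∈ labs θ q ε M, (M - lev θ q p) := by
    refine le_trans ?_ A
    have : X - a ≤ max (X - ε / θ) 0 := le_trans (by linarith) (le_max_left _ _)
    have h3 : (X - a) ^ 3 ≤ (max (X - ε / θ) 0) ^ 3 :=
      pow_le_pow_left₀ (by linarith) this 3
    nlinarith
  rw [max_eq_left (by linarith)] at B
  rw [Finset.sum_sub_distrib, Finset.sum_const, nsmul_eq_mul] at A'
  set c : ℝ := ((labs θ q ε M).card : ℝ) with hc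
  have hc0 : 0 ≤ c := Nat.cast_nonneg _
  -- (X-a)^3 ≥ (X-2-5a) (X+1+a)^2
  have key : (X - 2 - 5 * a) * (X + (1 + a)) ^ 2 ≤ (X - a) ^ 3 := by
    have hD : 0 ≤ X + (1 + a) := by linarith
    have : (X - a) ^ 3 - (X - 2 - 5 * a) * (X + (1 + a)) ^ 2 =
      (1 + 2 * a) ^ 2 * (3 * (X + (1 + a)) - (1 + 2 * a)) := by ring
    have h2 : 0 ≤ (1 + 2 * a) ^ 2 * (3 * (X + (1 + a)) - (1 + 2 * a)) := by
      apply mul_nonneg (sq_nonneg _)
      linarith
    linarith
  have key2 : c * ((X - 2 - 5 * a) / 3) ≤ θ / 12 * (X - a) ^ 3 := by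
    rcases le_total (X - 2 - 5 * a) 0 with hneg | hpos
    · have h5 : c * ((X - 2 - 5 * a) / 3) ≤ 0 := by
        apply mul_nonpos_of_nonneg_of_nonpos hc0
        linarith
      have h6 : 0 ≤ θ / 12 * (X - a) ^ 3 := by
        have : 0 ≤ X - a := by linarith
        positivity
      linarith
    · have h5 : c * ((X - 2 - 5 * a) / 3) ≤
          (θ / 4 * (X + (1 + a)) ^ 2) * ((X - 2 - 5 * a) / 3) := by
        apply mul_le_mul_of_nonneg_right B
        linarith
      have h6 : (θ / 4 * (X + (1 + a)) ^ 2) * ((X - 2 - 5 * a) / 3) =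
        θ / 12 * ((X - 2 - 5 * a) * (X + (1 + a)) ^ 2) := by ring
      have h7 : θ / 12 * ((X - 2 - 5 * a) * (X + (1 + a)) ^ 2) ≤ θ / 12 * (X - a) ^ 3 := by
        apply mul_le_mul_of_nonneg_left key
        positivity
      linarith
  have e1 : c * (2 / 3 * M + q / 3 + (2 + 5 / θ) / 3) = c * M - c * ((X - 2 - 5 * a) / 3) := by
    rw [hX, ha]
    ring
  rw [e1]
  linarith

end Crest.Agent.R202
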