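import Crest.Agent.R202.CutSep

/-!
# Row 202, PART C: removal of a kernel vector (the constants in the sector `(0,0)`)

`one` is a vector with `a one = 0`, `g one one > 0`.  If `W` separates `a` on `V`, `W ≠ 0`, then
`W ∩ one^⊥` separates `a` on `one^⊥`, with the same constants and dimension one less.
-/

set_option autoImplicit false

noncomputable section

open Module

namespace Crest.Agent.R202.Cut

variable {V : Type*} [AddCommGroup V] [Module ℝ V]

/-- `g`-orthogonal complement of a vector -/
def perp (g : Bil V) (one : V) : Submodule ℝ V where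
  carrier := {v | g v one = 0}
  zero_mem' := by simp
  add_mem' := fun {u v} (hu : g u one = 0) (hv : g v one = 0) => by
    show g (u + v) one = 0
    rw [map_add, LinearMap.add_apply, hu, hv, add_zero]
  smul_mem' := fun c {v} (hv : g v one = 0) => by
    show g (c • v) one = 0
    rw [map_smul, LinearMap.smul_apply, hv, smul_zero]

theorem mem_perp {g : Bil V} {one v : V} : v ∈ perp g one ↔ g v one = 0 := Iff.rfl

/-- separation on a subspace `U` -/
structure SepOn (g a : Bil V) (U W : Submodule ℝ V) (A B : ℝ) : Prop where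
  sub : W ≤ U
  lt : A < B
  le : ∀ w ∈ W, a w w ≤ A * g w w
  ge : ∀ v ∈ U, (∀ w ∈ W, g v w = 0) → B * g v v ≤ a v v

theorem Sep.toSepOn {g a : Bil V} {W : Submodule ℝ V} {A B : ℝ} (h : Sep g a W A B) :
    SepOn g a ⊤ W A B := ⟨le_top, h.lt, h.le, fun v _ hv => h.ge v hv⟩

/-- a nonzero separating space is not orthogonal to the kernel vector, and `B > 0`... -/
theorem Sep.exists_not_orth {g a : Bil V} {one : V} (hg1 : 0 < g one one)
    (ha1 : ∀ v, a one v = 0) (ann : ∀ v, 0 ≤ a v v)
    (gpos : ∀ v, v ≠ 0 → 0 < g v v) (gsymm : ∀ u v, g u v = g v u)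
    {W : Submodule ℝ V} {A B : ℝ} (h : Sep g a W A B) (hW : W ≠ ⊥) :
    ∃ w ∈ W, g w one ≠ 0 := by
  by_contra hcon
  push Not at hcon
  obtain ⟨w, hw, hw0⟩ := (Submodule.ne_bot_iff W).1 hW
  have h1 := h.ge one fun w hw => by rw [gsymm]; exact hcon w hw
  rw [ha1] at h1
  have hB : B ≤ 0 := by
    by_contra hB
    push Not at hB
    have := mul_pos hB hg1
    linarith
  have h2 := h.le w hw
  have h3 := ann w
  have h4 := gpos w hw0
  have hA : A < 0 := lt_of_lt_of_le h.lt hB
  nlinarith

/-- **removal of the kernel vector** -/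
theorem Sep.reduce {g a : Bil V} {one : V} (hg1 : 0 < g one one)
    (ha1 : ∀ v, a one v = 0) (asymm : ∀ u v, a u v = a v u) (ann : ∀ v, 0 ≤ a v v)
    (gpos : ∀ v, v ≠ 0 → 0 < g v v) (gsymm : ∀ u v, g u v = g v u)
    {W : Submodule ℝ V} [FiniteDimensional ℝ W] {A B : ℝ} (h : Sep g a W A B) (hW : W ≠ ⊥) :
    SepOn g a (perp g one) (W ⊓ perp g one) A B ∧
      finrank ℝ (W ⊓ perp g one : Submodule ℝ V) + 1 = finrank ℝ W := by
  obtain ⟨w1, hw1, hw1'⟩ := h.exists_not_orth hg1 ha1 ann gpos gsymm hW
  have ha1' : ∀ v, a v one = 0 := fun v => by rw [asymm, ha1]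
  refine ⟨⟨inf_le_right, h.lt, fun w hw => h.le w hw.1, ?_⟩, ?_⟩
  · intro v hv hvW
    -- `t` with `v + t • one ⊥ W`
    set t : ℝ := - g v w1 / g one w1 with ht
    have h1w : g one w1 ≠ 0 := by rw [gsymm]; exact hw1'
    have horth : ∀ w ∈ W, g (v + t • one) w = 0 := by
      intro w hw
      -- `w = w' + r • w1`, `w' ∈ W ∩ one^⊥`
      set r : ℝ := g w one / g w1 one with hr
      have hw' : w - r • w1 ∈ W ⊓ perp g one := by
        refine ⟨W.sub_mem hw (W.smul_mem _ hw1), ?_⟩
        show g (w - r • w1) one = 0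
        rw [map_sub, LinearMap.sub_apply, map_smul, LinearMap.smul_apply, smul_eq_mul, hr]
        field_simp
        ring
      have e1 := hvW _ hw'
      have e2 : g one (w - r • w1) = 0 := by rw [gsymm]; exact hw'.2
      have e3 : g (v + t • one) w = g (v + t • one) (w - r • w1) + r * g (v + t • one) w1 := by
        simp only [map_sub, map_smul, smul_eq_mul]; ring
      have e4 : g (v + t • one) w1 = 0 := by
        rw [map_add, LinearMap.add_apply, map_smul, LinearMap.smul_apply, smul_eq_mul, ht]
        field_simp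
        ring
      rw [e3, e4, map_add, LinearMap.add_apply, map_smul, LinearMap.smul_apply, e1, e2]
      simp
    have h2 := h.ge _ horth
    have h3 : a (v + t • one) (v + t • one) = a v v := by
      simp only [map_add, LinearMap.add_apply, map_smul, LinearMap.smul_apply, smul_eq_mul, ha1,
        ha1']
      ring
    have hv1 : g v one = 0 := hv
    have hv1' : g one v = 0 := by rw [gsymm]; exact hv
    have h4 : g (v + t • one) (v + t • one) = g v v + t ^ 2 * g one one := by
      simp only [map_add, LinearMap.add_apply, map_smul, LinearMap.smul_apply, smul_eq_mul, hv1,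
        hv1']
      ring
    rw [h3, h4] at h2
    -- `B ≥ 0`
    by_cases hB : 0 ≤ B
    · have : 0 ≤ B * (t ^ 2 * g one one) := by positivity
      linarith
    · push Not at hB
      have hgv : 0 ≤ g v v := by
        by_cases h0 : v = 0
        · rw [h0]; simp
        · exact (gpos v h0).le
      have := ann v
      nlinarith
  · -- dimension: kernel of a nonzero functional on `W`
    set φ : W →ₗ[ℝ] ℝ := ((g.flip one).comp W.subtype) with hφ
    have hφ1 : φ ⟨w1, hw1⟩ ≠ 0 := hw1'
    have hsurj : LinearMap.range φ = ⊤ := by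
      rw [LinearMap.range_eq_top]
      intro y
      refine ⟨(y / φ ⟨w1, hw1⟩) • ⟨w1, hw1⟩, ?_⟩
      rw [map_smul, smul_eq_mul]
      field_simp
    have h1 := φ.finrank_range_add_finrank_ker
    rw [hsurj, finrank_top, finrank_self] at h1
    have h2 : finrank ℝ (LinearMap.ker φ) = finrank ℝ (W ⊓ perp g one : Submodule ℝ V) := by
      have h3 : (LinearMap.ker φ).map W.subtype = W ⊓ perp g one := by
        ext v
        constructor
        · rintro ⟨w, hw, rfl⟩
          exact ⟨w.2, hw⟩
        · rintro ⟨hv1, hv2⟩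
          exact ⟨⟨v, hv1⟩, hv2, rfl⟩
      rw [← h3]
      exact (LinearEquiv.finrank_eq (Submodule.equivMapOfInjective _ W.injective_subtype _))
    omega

end Crest.Agent.R202.Cut
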