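import Crest.Prelude.Def_CoordMetric
import Mathlib

/-!
Row 202, interior elliptic regularity, file 1: convolution with kernels, Young's inequality
`L¹ * L² ⊆ L²`, test functions, weak derivatives.
(helper912)
-/

set_option autoImplicit false
open scoped ContDiff ENNReal Topology
open MeasureTheory Set Filter
open Crest.GeometryTopology.CoordMetric

namespace Crest.Agent.R202.Ell

noncomputable section

variable {n : ℕ}

/-- `ℝⁿ`. -/
abbrev EE (n : ℕ) := EuclideanSpace ℝ (Fin n)

/-- Test functions. -/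
structure IsTest (φ : EE n → ℝ) : Prop where
  smooth : ContDiff ℝ ∞ φ
  cpt : HasCompactSupport φ

theorem IsTest.pderiv {φ : EE n → ℝ} (h : IsTest φ) (i : Fin n) : IsTest (pderiv i φ) := by
  refine ⟨?_, ?_⟩
  · have h1 : ContDiff ℝ ∞ (fderiv ℝ φ) := h.smooth.fderiv_right (m := ∞) (by simp)
    exact h1.clm_apply contDiff_const
  · exact h.cpt.fderiv_apply (𝕜 := ℝ) (EuclideanSpace.single i 1)

theorem IsTest.continuous {φ : EE n → ℝ} (h : IsTest φ) : Continuous φ := h.smooth.continuous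

theorem IsTest.integrable {φ : EE n → ℝ} (h : IsTest φ) : Integrable φ :=
  h.continuous.integrable_of_hasCompactSupport h.cpt

theorem IsTest.memLp {φ : EE n → ℝ} (h : IsTest φ) (p : ℝ≥0∞) : MemLp φ p :=
  h.continuous.memLp_of_hasCompactSupport h.cpt

theorem IsTest.mul_left {φ ψ : EE n → ℝ} (h : IsTest φ) (hψ : ContDiff ℝ ∞ ψ) :
    IsTest (fun x => ψ x * φ x) :=
  ⟨hψ.mul h.smooth, h.cpt.mul_left⟩

theorem IsTest.add {φ ψ : EE n → ℝ} (h : IsTest φ) (hψ : IsTest ψ) :
    IsTest (fun x => φ x + ψ x) :=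
  ⟨h.smooth.add hψ.smooth, h.cpt.add hψ.cpt⟩

theorem IsTest.const_mul {φ : EE n → ℝ} (h : IsTest φ) (c : ℝ) :
    IsTest (fun x => c * φ x) := h.mul_left contDiff_const

/-- The function `t ↦ K (x - t)` is a test function. -/
theorem IsTest.comp_sub {K : EE n → ℝ} (h : IsTest K) (x : EE n) :
    IsTest (fun t => K (x - t)) := by
  refine ⟨h.smooth.comp (contDiff_const.sub contDiff_id), ?_⟩
  exact h.cpt.comp_homeomorph (Homeomorph.subLeft x)

/-- `pderiv` rules. -/
theorem pderiv_add {f g : EE n → ℝ} (i : Fin n) (x : EE n) (hf : DifferentiableAt ℝ f x)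
    (hg : DifferentiableAt ℝ g x) :
    pderiv i (fun y => f y + g y) x = pderiv i f x + pderiv i g x := by
  unfold Crest.GeometryTopology.CoordMetric.pderiv
  rw [fderiv_fun_add hf hg]; rfl

theorem pderiv_mul {f g : EE n → ℝ} (i : Fin n) (x : EE n) (hf : DifferentiableAt ℝ f x)
    (hg : DifferentiableAt ℝ g x) :
    pderiv i (fun y => f y * g y) x = pderiv i f x * g x + f x * pderiv i g x := by
  unfold Crest.GeometryTopology.CoordMetric.pderiv
  rw [fderiv_fun_mul hf hg]
  simp only [add_apply, smul_apply, smul_eq_mul]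
  ring

theorem pderiv_const_mul {f : EE n → ℝ} (i : Fin n) (x : EE n) (c : ℝ)
    (hf : DifferentiableAt ℝ f x) :
    pderiv i (fun y => c * f y) x = c * pderiv i f x := by
  unfold Crest.GeometryTopology.CoordMetric.pderiv
  rw [fderiv_const_mul hf]
  simp

theorem pderiv_sum {ι : Type*} (s : Finset ι) {f : ι → EE n → ℝ} (i : Fin n) (x : EE n)
    (hf : ∀ j ∈ s, DifferentiableAt ℝ (f j) x) :
    pderiv i (fun y => ∑ j ∈ s, f j y) x = ∑ j ∈ s, pderiv i (f j) x := by
  unfold Crest.GeometryTopology.CoordMetric.pderiv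
  rw [fderiv_fun_sum hf]
  simp

theorem pderiv_comm {f : EE n → ℝ} (i j : Fin n) (x : EE n) (hf : ContDiffAt ℝ 2 f x) :
    pderiv i (pderiv j f) x = pderiv j (pderiv i f) x := by
  have hd : DifferentiableAt ℝ (fderiv ℝ f) x :=
    (hf.fderiv_right (m := 1) (by norm_num)).differentiableAt one_ne_zero
  have key : ∀ a b : Fin n, pderiv a (pderiv b f) x
      = fderiv ℝ (fderiv ℝ f) x (EuclideanSpace.single a 1) (EuclideanSpace.single b 1) := by
    intro a b
    have : (pderiv b f) = fun y => (fderiv ℝ f y) (EuclideanSpace.single b 1) := rfl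
    rw [this]
    show fderiv ℝ (fun y => (fderiv ℝ f y) (EuclideanSpace.single b 1)) x
      (EuclideanSpace.single a 1) = _
    rw [fderiv_clm_apply hd (differentiableAt_const _)]
    simp
  rw [key, key]
  have hs : IsSymmSndFDerivAt ℝ f x := hf.isSymmSndFDerivAt (by simp)
  exact hs _ _

theorem pderiv_comp_sub {K : EE n → ℝ} (i : Fin n) (x t : EE n)
    (hK : DifferentiableAt ℝ K (x - t)) :
    pderiv i (fun t => K (x - t)) t = - pderiv i K (x - t) := by
  unfold Crest.GeometryTopology.CoordMetric.pderiv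
  have h1 : HasFDerivAt (fun t : EE n => x - t) (-(ContinuousLinearMap.id ℝ (EE n))) t := by
    simpa using (hasFDerivAt_id t).const_sub x
  have h2 := (hK.hasFDerivAt.comp t h1).fderiv
  have h3 : (K ∘ fun t => x - t) = fun t => K (x - t) := rfl
  rw [h3] at h2
  rw [h2]; simp

/-- integration by parts for products with integrable terms -/
theorem integral_parts {f g : EE n → ℝ} (i : Fin n)
    (hf : Differentiable ℝ f) (hg : Differentiable ℝ g)
    (h1 : Integrable (fun x => f x * pderiv i g x))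
    (h2 : Integrable (fun x => pderiv i f x * g x))
    (h3 : Integrable (fun x => f x * g x)) :
    ∫ x, f x * pderiv i g x = - ∫ x, pderiv i f x * g x := by
  exact integral_mul_fderiv_eq_neg_fderiv_mul_of_integrable h2 h1 h3 (fun x _ => hf x) (fun x _ => hg x)

/-- Convolution with the kernel `K` : `cv K g x = ∫ g t * K (x - t)`. -/
def cv (K g : EE n → ℝ) : EE n → ℝ :=
  convolution g K (ContinuousLinearMap.mul ℝ ℝ) volume

theorem cv_apply (K g : EE n → ℝ) (x : EE n) : cv K g x = ∫ t, g t * K (x - t) := rfl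

theorem cv_smooth {K g : EE n → ℝ} (hK : IsTest K) (hg : LocallyIntegrable g) :
    ContDiff ℝ ∞ (cv K g) :=
  hK.cpt.contDiff_convolution_right _ hg hK.smooth

theorem cv_exists {K g : EE n → ℝ} (hK : IsTest K) (hg : LocallyIntegrable g) (x : EE n) :
    Integrable (fun t => g t * K (x - t)) :=
  hK.cpt.convolutionExists_right (ContinuousLinearMap.mul ℝ ℝ) hg hK.continuous x

theorem pderiv_cv {K g : EE n → ℝ} (hK : IsTest K) (hg : LocallyIntegrable g) (i : Fin n)
    (x : EE n) : pderiv i (cv K g) x = cv (pderiv i K) g x := by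
  unfold Crest.GeometryTopology.CoordMetric.pderiv
  have h1 : ContDiff ℝ 1 K := hK.smooth.of_le (by exact_mod_cast le_top)
  rw [cv, (hK.cpt.hasFDerivAt_convolution_right _ hg h1 x).fderiv]
  rw [convolution_precompR_apply (ContinuousLinearMap.mul ℝ ℝ) hg (hK.cpt.fderiv ℝ)
    (h1.continuous_fderiv one_ne_zero)]
  rfl

/-- Young's inequality in `lintegral` form. -/
theorem lintegral_young (K g : EE n → ℝ≥0∞) (hK : Measurable K) (hg : AEMeasurable g) :
    ∫⁻ x, (∫⁻ t, g t * K (x - t)) ^ 2 ≤ (∫⁻ x, K x) ^ 2 * ∫⁻ x, g x ^ 2 := by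
  -- Cauchy–Schwarz
  have hcs : ∀ x, (∫⁻ t, g t * K (x - t)) ^ 2 ≤ (∫⁻ t, K t) * ∫⁻ t, g t ^ 2 * K (x - t) := by
    intro x
    have hKx : Measurable (fun t => K (x - t)) := hK.comp (measurable_const.sub measurable_id)
    have h0 : ∫⁻ t, K t = ∫⁻ t, K (x - t) := (lintegral_sub_left_eq_self K x).symm
    rw [h0]
    have h1 := ENNReal.lintegral_mul_le_Lp_mul_Lq (volume : Measure (EE n))
      (Real.HolderConjugate.two_two) (f := fun t => K (x - t) ^ (1/2 : ℝ))
      (g := fun t => g t * K (x - t) ^ (1/2 : ℝ))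
      ((hKx.pow_const _).aemeasurable) (hg.mul (hKx.pow_const _).aemeasurable)
    have h2 : ∀ t, ((fun t => K (x - t) ^ (1/2 : ℝ)) * fun t => g t * K (x - t) ^ (1/2 : ℝ)) t
        = g t * K (x - t) := by
      intro t
      simp only [Pi.mul_apply]
      have : K (x - t) ^ (1/2 : ℝ) * K (x - t) ^ (1/2 : ℝ) = K (x - t) := by
        rw [← ENNReal.rpow_add_of_nonneg _ _ (by norm_num) (by norm_num)]; norm_num
      calc K (x - t) ^ (1/2 : ℝ) * (g t * K (x - t) ^ (1/2 : ℝ))
          = g t * (K (x - t) ^ (1/2 : ℝ) * K (x - t) ^ (1/2 : ℝ)) := by ring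
        _ = _ := by rw [this]
    simp only [h2] at h1
    have h3 : ∀ t, (K (x - t) ^ (1/2 : ℝ)) ^ (2 : ℝ) = K (x - t) := by
      intro t; rw [← ENNReal.rpow_mul]; norm_num
    have h4 : ∀ t, (g t * K (x - t) ^ (1/2 : ℝ)) ^ (2 : ℝ) = g t ^ 2 * K (x - t) := by
      intro t
      rw [ENNReal.mul_rpow_of_nonneg _ _ (by norm_num), h3]
      norm_num
    simp only [h3, h4] at h1
    calc (∫⁻ t, g t * K (x - t)) ^ 2
        ≤ ((∫⁻ t, K (x - t)) ^ (1/2 : ℝ) * (∫⁻ t, g t ^ 2 * K (x - t)) ^ (1/2 : ℝ)) ^ 2 := by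
          gcongr
      _ = _ := by
          rw [mul_pow, ← ENNReal.rpow_natCast, ← ENNReal.rpow_natCast, ← ENNReal.rpow_mul,
            ← ENNReal.rpow_mul]
          norm_num
  calc ∫⁻ x, (∫⁻ t, g t * K (x - t)) ^ 2
      ≤ ∫⁻ x, (∫⁻ t, K t) * ∫⁻ t, g t ^ 2 * K (x - t) := lintegral_mono hcs
    _ ≤ (∫⁻ x, K x) * ∫⁻ x, ∫⁻ t, g t ^ 2 * K (x - t) := by
        rw [lintegral_const_mul'']
        exact AEMeasurable.lintegral_prod_right' (f := fun p : EE n × EE n => g p.2 ^ 2 * K (p.1 - p.2))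
          ((hg.comp_snd.pow_const _).mul (hK.comp measurable_sub).aemeasurable)
    _ = (∫⁻ x, K x) * ∫⁻ t, ∫⁻ x, g t ^ 2 * K (x - t) := by
        rw [lintegral_lintegral_swap]
        exact ((hg.comp_snd.pow_const _).mul (hK.comp measurable_sub).aemeasurable)
    _ = (∫⁻ x, K x) * ∫⁻ t, g t ^ 2 * ∫⁻ x, K x := by
        congr 1
        apply lintegral_congr
        intro t
        have hKt : Measurable (fun x => K (x - t)) := hK.comp (measurable_id.sub measurable_const)
        rw [lintegral_const_mul _ hKt]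
        congr 1
        exact lintegral_sub_right_eq_self K t
    _ = (∫⁻ x, K x) ^ 2 * ∫⁻ x, g x ^ 2 := by
        rw [lintegral_mul_const'']
        · ring
        · exact hg.pow_const _

end

end Crest.Agent.R202.Ell
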