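import Crest.Agent.R202.Ell1

/-!
Row 202, interior elliptic regularity, file 2: Young's inequality for `MemLp _ 2`, the mollifiers,
weak derivatives.
(helper912)
-/

set_option autoImplicit false
open scoped ContDiff ENNReal Topology
open MeasureTheory Set Filter
open Crest.GeometryTopology.CoordMetric

namespace Crest.Agent.R202.Ell

noncomputable section

variable {n : ℕ}

theorem sq_lintegral_eLpNorm {g : EE n → ℝ} :
    eLpNorm g 2 volume ^ 2 = ∫⁻ x, ‖g x‖ₑ ^ 2 := by
  rw [eLpNorm_eq_lintegral_rpow_enorm_toReal (by norm_num) (by norm_num)]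
  rw [← ENNReal.rpow_natCast, ← ENNReal.rpow_mul]
  norm_num

/-- Young: `‖K * g‖₂ ≤ ‖K‖₁ ‖g‖₂`, for any function `h` dominated by the convolution of `|K|`
with `|g|`. -/
theorem eLpNorm_le_of_dom (K g : EE n → ℝ) (hK : Continuous K) (hg : AEStronglyMeasurable g)
    {h : EE n → ℝ} {c : ℝ≥0∞}
    (hd : ∀ x, ‖h x‖ₑ ≤ c * ∫⁻ t, ‖g t‖ₑ * ‖K (x - t)‖ₑ) :
    eLpNorm h 2 volume ≤ c * (∫⁻ x, ‖K x‖ₑ) * eLpNorm g 2 volume := by
  have h1 : eLpNorm h 2 volume ^ 2 ≤ (c * (∫⁻ x, ‖K x‖ₑ) * eLpNorm g 2 volume) ^ 2 := by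
    rw [sq_lintegral_eLpNorm, mul_pow, mul_pow, sq_lintegral_eLpNorm]
    calc ∫⁻ x, ‖h x‖ₑ ^ 2 ≤ ∫⁻ x, c ^ 2 * (∫⁻ t, ‖g t‖ₑ * ‖K (x - t)‖ₑ) ^ 2 := by
          apply lintegral_mono
          intro x
          calc ‖h x‖ₑ ^ 2 ≤ (c * ∫⁻ t, ‖g t‖ₑ * ‖K (x - t)‖ₑ) ^ 2 := by
                gcongr; exact hd x
            _ = _ := by ring
      _ = c ^ 2 * ∫⁻ x, (∫⁻ t, ‖g t‖ₑ * ‖K (x - t)‖ₑ) ^ 2 := by
          rw [lintegral_const_mul'']
          apply AEMeasurable.pow_const
          exact AEMeasurable.lintegral_prod_right'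
            (f := fun p : EE n × EE n => ‖g p.2‖ₑ * ‖K (p.1 - p.2)‖ₑ)
            ((hg.enorm.comp_snd).mul ((hK.comp (continuous_fst.sub continuous_snd)).enorm.aemeasurable))
      _ ≤ c ^ 2 * ((∫⁻ x, ‖K x‖ₑ) ^ 2 * ∫⁻ x, ‖g x‖ₑ ^ 2) := by
          gcongr
          exact lintegral_young (fun x => ‖K x‖ₑ) (fun x => ‖g x‖ₑ) hK.enorm.measurable hg.enorm
      _ = _ := by ring
  exact (ENNReal.pow_le_pow_left_iff two_ne_zero).1 h1

theorem enorm_cv_le (K g : EE n → ℝ) (x : EE n) :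
    ‖cv K g x‖ₑ ≤ ∫⁻ t, ‖g t‖ₑ * ‖K (x - t)‖ₑ := by
  rw [cv_apply]
  refine (enorm_integral_le_lintegral_enorm _).trans ?_
  apply lintegral_mono
  intro t
  simp [enorm_mul]

theorem eLpNorm_cv_le {K g : EE n → ℝ} (hK : Continuous K) (hg : AEStronglyMeasurable g) :
    eLpNorm (cv K g) 2 volume ≤ (∫⁻ x, ‖K x‖ₑ) * eLpNorm g 2 volume := by
  have := eLpNorm_le_of_dom K g hK hg (h := cv K g) (c := 1) (fun x => by
    simpa using enorm_cv_le K g x)
  simpa using this

theorem MemLp.locInt {g : EE n → ℝ} (hg : MemLp g 2) : LocallyIntegrable g :=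
  hg.locallyIntegrable (by norm_num)

theorem memLp_cv {K g : EE n → ℝ} (hK : IsTest K) (hg : MemLp g 2) : MemLp (cv K g) 2 := by
  refine ⟨(cv_smooth hK (MemLp.locInt hg)).continuous.aestronglyMeasurable, ?_⟩
  refine (eLpNorm_cv_le hK.continuous hg.1).trans_lt ?_
  exact ENNReal.mul_lt_top (hK.integrable.2) hg.2

/-- Weak derivative in direction `i`. -/
def WD (i : Fin n) (v g : EE n → ℝ) : Prop :=
  ∀ φ : EE n → ℝ, IsTest φ → ∫ x, v x * pderiv i φ x = - ∫ x, g x * φ x

/-- The mollification of a function with a weak derivative. -/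
theorem pderiv_cv_wd {K v g : EE n → ℝ} (hK : IsTest K) (hv : LocallyIntegrable v)
    {i : Fin n} (h : WD i v g) (x : EE n) : pderiv i (cv K v) x = cv K g x := by
  rw [pderiv_cv hK hv, cv_apply, cv_apply]
  have h1 := h (fun t => K (x - t)) (hK.comp_sub x)
  have h2 : ∀ t, v t * pderiv i (fun t => K (x - t)) t = - (v t * pderiv i K (x - t)) := by
    intro t
    rw [pderiv_comp_sub i x t (hK.smooth.differentiable (by simp) _)]
    ring
  simp only [h2, integral_neg] at h1
  linarith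


theorem int_mul {g φ : EE n → ℝ} (hg : LocallyIntegrable g) (hφ : IsTest φ) :
    Integrable (fun x => g x * φ x) := by
  have := hg.integrable_smul_right_of_hasCompactSupport (g := φ) hφ.continuous hφ.cpt
  simpa using this

theorem WD.add {i : Fin n} {v g v' g' : EE n → ℝ} (hv : LocallyIntegrable v)
    (hg : LocallyIntegrable g) (hv' : LocallyIntegrable v') (hg' : LocallyIntegrable g')
    (h : WD i v g) (h' : WD i v' g') : WD i (fun x => v x + v' x) (fun x => g x + g' x) := by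
  intro φ hφ
  have i1 := int_mul hv (hφ.pderiv i)
  have i2 := int_mul hv' (hφ.pderiv i)
  have i3 := int_mul hg hφ
  have i4 := int_mul hg' hφ
  simp only [add_mul]
  rw [integral_add i1 i2, integral_add i3 i4, h φ hφ, h' φ hφ]
  ring

theorem WD.const_mul {i : Fin n} {v g : EE n → ℝ} (h : WD i v g) (c : ℝ) :
    WD i (fun x => c * v x) (fun x => c * g x) := by
  intro φ hφ
  simp only [mul_assoc]
  rw [integral_const_mul, integral_const_mul, h φ hφ]
  ring

theorem WD.zero {i : Fin n} : WD i (fun _ : EE n => (0 : ℝ)) (fun _ => 0) := by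
  intro φ hφ; simp

theorem WD.congr {i : Fin n} {v g v' g' : EE n → ℝ} (h : WD i v g) (hv : v' =ᵐ[volume] v)
    (hg : g' =ᵐ[volume] g) : WD i v' g' := by
  intro φ hφ
  have h1 : ∫ x, v' x * pderiv i φ x = ∫ x, v x * pderiv i φ x := by
    apply integral_congr_ae; filter_upwards [hv] with x hx; rw [hx]
  have h2 : ∫ x, g' x * φ x = ∫ x, g x * φ x := by
    apply integral_congr_ae; filter_upwards [hg] with x hx; rw [hx]
  rw [h1, h2, h φ hφ]

theorem WD.unique {i : Fin n} {v g g' : EE n → ℝ} (hg : LocallyIntegrable g)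
    (hg' : LocallyIntegrable g') (h : WD i v g) (h' : WD i v g') : g =ᵐ[volume] g' := by
  apply ae_eq_of_integral_contDiff_smul_eq hg hg'
  intro φ h1 h2
  have e1 := h φ ⟨h1, h2⟩
  have e2 := h' φ ⟨h1, h2⟩
  simp only [smul_eq_mul]
  simp only [mul_comm (φ _)]
  linarith

/-- Product with a smooth function. -/
theorem WD.mul {i : Fin n} {v g ψ : EE n → ℝ} (hv : LocallyIntegrable v)
    (hg : LocallyIntegrable g) (hψ : ContDiff ℝ ∞ ψ) (h : WD i v g) :
    WD i (fun x => ψ x * v x) (fun x => pderiv i ψ x * v x + ψ x * g x) := by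
  intro φ hφ
  have h1 := h (fun x => ψ x * φ x) (hφ.mul_left hψ)
  have hd : ∀ x, pderiv i (fun x => ψ x * φ x) x = pderiv i ψ x * φ x + ψ x * pderiv i φ x :=
    fun x => pderiv_mul i x (hψ.differentiable (by simp) x) (hφ.smooth.differentiable (by simp) x)
  have hψ' : ContDiff ℝ ∞ (pderiv i ψ) := by
    have h1 : ContDiff ℝ ∞ (fderiv ℝ ψ) := hψ.fderiv_right (m := ∞) (by simp)
    exact h1.clm_apply contDiff_const
  have i1 : Integrable (fun x => v x * (pderiv i ψ x * φ x)) := int_mul hv (hφ.mul_left hψ')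
  have i2 : Integrable (fun x => v x * (ψ x * pderiv i φ x)) :=
    int_mul hv ((hφ.pderiv i).mul_left hψ)
  have i3 : Integrable (fun x => g x * (ψ x * φ x)) := int_mul hg (hφ.mul_left hψ)
  simp only [hd, mul_add] at h1
  rw [integral_add i1 i2] at h1
  have e1 : ∫ x, ψ x * v x * pderiv i φ x = ∫ x, v x * (ψ x * pderiv i φ x) := by
    congr 1; ext x; ring
  have e2 : ∫ x, (pderiv i ψ x * v x + ψ x * g x) * φ x
      = (∫ x, v x * (pderiv i ψ x * φ x)) + ∫ x, g x * (ψ x * φ x) := by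
    rw [← integral_add i1 i3]
    congr 1; ext x; ring
  rw [e1, e2]; linarith

/-- Smooth functions have their classical derivatives as weak derivatives. -/
theorem WD.of_smooth {i : Fin n} {f : EE n → ℝ} (hf : ContDiff ℝ 1 f) : WD i f (pderiv i f) := by
  intro φ hφ
  have hf' : Continuous (pderiv i f) :=
    (hf.continuous_fderiv one_ne_zero).clm_apply continuous_const
  exact integral_parts i (hf.differentiable one_ne_zero) (hφ.smooth.differentiable (by simp))
    (int_mul (hf.continuous.locallyIntegrable) (hφ.pderiv i))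
    (int_mul hf'.locallyIntegrable hφ)
    (int_mul (hf.continuous.locallyIntegrable) hφ)

/-- Symmetry of second weak derivatives. -/
theorem WD.symm {i j : Fin n} {v gi gj h : EE n → ℝ} (hi : WD i v gi) (hj : WD j v gj)
    (hij : WD i gj h) : WD j gi h := by
  intro φ hφ
  have h1 := hi _ (hφ.pderiv j)
  have h2 := hj _ (hφ.pderiv i)
  have h3 := hij φ hφ
  have hc : ∀ x, pderiv i (pderiv j φ) x = pderiv j (pderiv i φ) x := fun x =>
    pderiv_comm i j x ((hφ.smooth.contDiffAt).of_le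
      (show ((2 : ℕ∞) : WithTop ℕ∞) ≤ ((⊤ : ℕ∞) : WithTop ℕ∞) from WithTop.coe_le_coe.2 le_top))
  simp only [hc] at h1
  linarith

/-! ### Mollifiers -/

/-- The standard bump at scale `ε`. -/
def bmp (n : ℕ) (ε : ℝ) (hε : 0 < ε) : ContDiffBump (0 : EE n) :=
  ⟨ε / 2, ε, by positivity, by linarith⟩

/-- The mollifier at scale `1/(k+1)`. -/
def rho (n k : ℕ) : EE n → ℝ := (bmp n (1 / (k + 1)) (by positivity)).normed volume

theorem rho_test (k : ℕ) : IsTest (rho n k) :=
  ⟨ContDiffBump.contDiff_normed _ (n := ⊤), ContDiffBump.hasCompactSupport_normed _⟩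

theorem rho_nonneg (k : ℕ) (x : EE n) : 0 ≤ rho n k x := ContDiffBump.nonneg_normed _ x

theorem rho_integral (k : ℕ) : ∫ x, rho n k x = 1 := ContDiffBump.integral_normed _

theorem rho_neg (k : ℕ) (x : EE n) : rho n k (-x) = rho n k x := ContDiffBump.normed_neg _ x

theorem rho_lintegral (k : ℕ) : ∫⁻ x, ‖rho n k x‖ₑ = 1 := by
  have h1 : ∫⁻ x, ‖rho n k x‖ₑ = ENNReal.ofReal (∫ x, ‖rho n k x‖) :=
    (ofReal_integral_norm_eq_lintegral_enorm (rho_test k).integrable).symm
  have h2 : ∀ x, ‖rho n k x‖ = rho n k x := fun x => Real.norm_of_nonneg (rho_nonneg k x)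
  rw [h1]
  simp only [h2, rho_integral, ENNReal.ofReal_one]

theorem cv_rho_eq (k : ℕ) (g : EE n → ℝ) (x : EE n) :
    cv (rho n k) g x = convolution (rho n k) g (ContinuousLinearMap.lsmul ℝ ℝ) volume x := by
  rw [cv_apply, convolution_eq_swap]
  congr 1; ext t
  simp only [ContinuousLinearMap.lsmul_apply, smul_eq_mul]; ring

theorem cv_rho_ae {g : EE n → ℝ} (hg : LocallyIntegrable g) :
    ∀ᵐ x, Tendsto (fun k => cv (rho n k) g x) atTop (𝓝 (g x)) := by
  have h0 : Tendsto (fun k : ℕ => (bmp n (1 / ((k : ℝ) + 1)) (by positivity)).rOut) atTop (𝓝 0) :=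
    tendsto_one_div_add_atTop_nhds_zero_nat
  have h := ContDiffBump.ae_convolution_tendsto_right_of_locallyIntegrable (K := 2)
    (φ := fun k : ℕ => bmp n (1 / ((k : ℝ) + 1)) (by positivity)) (l := atTop) h0
    (Eventually.of_forall fun k => by simp [bmp]; linarith) hg
  filter_upwards [h] with x hx
  refine hx.congr fun k => ?_
  exact (cv_rho_eq k g x).symm

theorem eLpNorm_cv_rho_le {g : EE n → ℝ} (k : ℕ) (hg : AEStronglyMeasurable g) :
    eLpNorm (cv (rho n k) g) 2 volume ≤ eLpNorm g 2 volume := by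
  have := eLpNorm_cv_le (K := rho n k) (rho_test k).continuous hg
  rwa [rho_lintegral, one_mul] at this

end

end Crest.Agent.R202.Ell
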