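import Crest.Agent.R202.Ell2

/-!
Row 202, interior elliptic regularity, file 3: weak convergence of mollifications, existence of weak
derivatives by Riesz representation.
(helper912)
-/

set_option autoImplicit false
open scoped ContDiff ENNReal Topology
open MeasureTheory Set Filter
open Crest.GeometryTopology.CoordMetric

namespace Crest.Agent.R202.Ell

noncomputable section

variable {n : ℕ}

/-- duality for mollification -/
theorem integral_cv_mul {K g ψ : EE n → ℝ} (hK : IsTest K) (hKn : ∀ x, K (-x) = K x)
    (hg : LocallyIntegrable g) (hψ : IsTest ψ) :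
    ∫ x, cv K g x * ψ x = ∫ x, g x * cv K ψ x := by
  obtain ⟨C1, hC1⟩ := hK.cpt.exists_bound_of_continuous hK.continuous
  obtain ⟨C2, hC2⟩ := hψ.cpt.exists_bound_of_continuous hψ.continuous
  have hC1' : 0 ≤ C1 := (norm_nonneg _).trans (hC1 0)
  have hC2' : 0 ≤ C2 := (norm_nonneg _).trans (hC2 0)
  -- compact set containing the relevant `t`
  let S : Set (EE n) := (fun p : EE n × EE n => p.1 - p.2) '' (tsupport ψ ×ˢ tsupport K)
  have hS : IsCompact S :=
    ((show IsCompact (tsupport ψ) from hψ.cpt).prod
      (show IsCompact (tsupport K) from hK.cpt)).image (continuous_fst.sub continuous_snd)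
  have hgS : Integrable (S.indicator g) := by
    rw [integrable_indicator_iff hS.measurableSet]
    exact hg.integrableOn_isCompact hS
  have h1 : Integrable (fun p : EE n × EE n => (tsupport ψ).indicator (fun _ => C1 * C2) p.1 *
      ‖S.indicator g p.2‖) (volume.prod volume) := by
    refine Integrable.mul_prod (f := (tsupport ψ).indicator (fun _ => C1 * C2))
      (g := fun t => ‖S.indicator g t‖) ?_ hgS.norm
    rw [integrable_indicator_iff (isClosed_tsupport _).measurableSet]
    exact integrableOn_const (ne_of_lt (show IsCompact (tsupport ψ) from hψ.cpt).measure_lt_top)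
  have hgm : AEStronglyMeasurable g volume := hg.aestronglyMeasurable
  have hint : Integrable (fun p : EE n × EE n => g p.2 * K (p.1 - p.2) * ψ p.1)
      (volume.prod volume) := by
    refine h1.mono' ?_ (Eventually.of_forall ?_)
    · exact ((hgm.comp_snd).mul
        (hK.continuous.comp (continuous_fst.sub continuous_snd)).aestronglyMeasurable).mul
        (hψ.continuous.comp continuous_fst).aestronglyMeasurable
    · rintro ⟨x, t⟩
      simp only
      by_cases hx : x ∈ tsupport ψ
      · by_cases ht : x - t ∈ tsupport K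
        · have htS : t ∈ S := ⟨(x, x - t), ⟨hx, ht⟩, by simp⟩
          rw [indicator_of_mem hx, indicator_of_mem htS, norm_mul, norm_mul]
          calc ‖g t‖ * ‖K (x - t)‖ * ‖ψ x‖ ≤ ‖g t‖ * C1 * C2 := by
                gcongr
                · exact hC1 _
                · exact hC2 _
            _ = _ := by ring
        · rw [image_eq_zero_of_notMem_tsupport ht]
          simp only [mul_zero, zero_mul, norm_zero]
          apply mul_nonneg _ (norm_nonneg _)
          rw [indicator_of_mem hx]; positivity
      · rw [image_eq_zero_of_notMem_tsupport hx]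
        simp [indicator_of_notMem hx]
  have e1 : ∫ x, cv K g x * ψ x = ∫ x, ∫ t, g t * K (x - t) * ψ x := by
    congr 1; ext x
    rw [cv_apply, integral_mul_const]
  have e2 : ∫ x, g x * cv K ψ x = ∫ t, ∫ x, g t * K (x - t) * ψ x := by
    congr 1; ext t
    rw [cv_apply, ← integral_const_mul]
    congr 1; ext x
    rw [← hKn (t - x), neg_sub]; ring
  rw [e1, e2]
  exact integral_integral_swap hint

theorem cv_rho_dist {ψ : EE n → ℝ} (hψ : Continuous ψ) {δ : ℝ} (k : ℕ) (x : EE n)
    (h : ∀ y, dist y x < 1 / (k + 1) → dist (ψ y) (ψ x) ≤ δ) :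
    dist (cv (rho n k) ψ x) (ψ x) ≤ δ := by
  rw [cv_rho_eq]
  apply ContDiffBump.dist_normed_convolution_le
  · exact hψ.aestronglyMeasurable
  · intro y hy
    exact h y hy

theorem cv_rho_support {ψ : EE n → ℝ} {R : ℝ} (hψ : ∀ x, R ≤ ‖x‖ → ψ x = 0) (k : ℕ) (x : EE n)
    (hx : R + 1 ≤ ‖x‖) : cv (rho n k) ψ x = 0 := by
  rw [cv_apply]
  have : ∀ t, ψ t * rho n k (x - t) = 0 := by
    intro t
    by_cases ht : R ≤ ‖t‖
    · rw [hψ t ht, zero_mul]
    · push Not at ht
      have h1 : rho n k (x - t) = 0 := by
        have h2 : x - t ∉ Function.support (rho n k) := by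
          rw [rho, ContDiffBump.support_normed_eq]
          simp only [bmp, Metric.mem_ball, dist_zero_right, not_lt]
          have h3 : ‖x‖ ≤ ‖x - t‖ + ‖t‖ := by
            simpa using norm_add_le (x - t) t
          have h4 : (1 : ℝ) / (k + 1) ≤ 1 := by
            rw [div_le_one (by positivity)]; linarith [(Nat.cast_nonneg k : (0 : ℝ) ≤ k)]
          linarith
        simpa using h2
      rw [h1, mul_zero]
  simp [this]

/-- weak convergence of the mollification -/
theorem tendsto_integral_cv_mul {g ψ : EE n → ℝ} (hg : LocallyIntegrable g) (hψ : IsTest ψ) :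
    Tendsto (fun k => ∫ x, cv (rho n k) g x * ψ x) atTop (𝓝 (∫ x, g x * ψ x)) := by
  have e : ∀ k, ∫ x, cv (rho n k) g x * ψ x = ∫ x, g x * cv (rho n k) ψ x := fun k =>
    integral_cv_mul (rho_test k) (rho_neg k) hg hψ
  simp only [e]
  obtain ⟨C2, hC2⟩ := hψ.cpt.exists_bound_of_continuous hψ.continuous
  obtain ⟨R, hR⟩ : ∃ R : ℝ, ∀ x, R ≤ ‖x‖ → ψ x = 0 := by
    obtain ⟨R, hR⟩ := (show IsCompact (tsupport ψ) from hψ.cpt).isBounded.exists_norm_le
    refine ⟨R + 1, fun x hx => image_eq_zero_of_notMem_tsupport fun h => ?_⟩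
    have := hR x h
    linarith
  -- dominated convergence
  have hgi : Integrable ((Metric.closedBall (0 : EE n) (R + 1)).indicator g) := by
    rw [integrable_indicator_iff Metric.isClosed_closedBall.measurableSet]
    exact hg.integrableOn_isCompact (isCompact_closedBall _ _)
  refine tendsto_integral_of_dominated_convergence
    (fun x => ‖(Metric.closedBall (0 : EE n) (R + 1)).indicator g x‖ * (C2 + 1)) ?_ ?_ ?_ ?_
  · intro k
    exact hg.aestronglyMeasurable.mul
      (cv_smooth (rho_test k) hψ.continuous.locallyIntegrable).continuous.aestronglyMeasurable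
  · exact hgi.norm.mul_const _
  · intro k
    refine Eventually.of_forall fun x => ?_
    have hb : ‖cv (rho n k) ψ x‖ ≤ C2 := by
      rw [cv_apply]
      calc ‖∫ t, ψ t * rho n k (x - t)‖ ≤ ∫ t, C2 * rho n k (x - t) := by
            apply norm_integral_le_of_norm_le
            · exact ((rho_test k).comp_sub x).integrable.const_mul C2
            · refine Eventually.of_forall fun t => ?_
              rw [norm_mul, Real.norm_of_nonneg (rho_nonneg k _)]
              exact mul_le_mul_of_nonneg_right (hC2 t) (rho_nonneg k _)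
        _ = C2 := by
            rw [integral_const_mul, integral_sub_left_eq_self (rho n k) volume x, rho_integral,
              mul_one]
    by_cases hx : R + 1 ≤ ‖x‖
    · rw [cv_rho_support hR k x hx]
      simp only [mul_zero, norm_zero]
      have : 0 ≤ C2 := (norm_nonneg _).trans (hC2 0)
      positivity
    · push Not at hx
      rw [indicator_of_mem (by simpa using hx.le), norm_mul]
      gcongr
      linarith
  · refine Eventually.of_forall fun x => ?_
    apply Tendsto.const_mul
    rw [Metric.tendsto_atTop]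
    intro ε hε
    obtain ⟨δ, hδ, hd⟩ := Metric.continuous_iff.1 hψ.continuous x (ε / 2) (by positivity)
    obtain ⟨N, hN⟩ := exists_nat_one_div_lt hδ
    refine ⟨N, fun k hk => ?_⟩
    have h1 : dist (cv (rho n k) ψ x) (ψ x) ≤ ε / 2 := by
      apply cv_rho_dist hψ.continuous
      intro y hy
      have h2 : (1 : ℝ) / (k + 1) ≤ 1 / (N + 1) := by
        apply one_div_le_one_div_of_le (by positivity)
        have : (N : ℝ) ≤ k := by exact_mod_cast hk
        linarith
      exact (hd y (by linarith)).le
    linarith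

/-- Riesz: a functional bounded by the Hilbert norm of an embedding is represented. -/
theorem riesz_rep {V H : Type*} [AddCommGroup V] [Module ℝ V] [NormedAddCommGroup H]
    [InnerProductSpace ℝ H] [CompleteSpace H] (ι : V →ₗ[ℝ] H) (T : V →ₗ[ℝ] ℝ) {C : ℝ}
    (hC : 0 ≤ C) (hT : ∀ v, |T v| ≤ C * ‖ι v‖) :
    ∃ z : H, ‖z‖ ≤ C ∧ ∀ v, T v = inner ℝ z (ι v) := by
  classical
  -- define the functional on the range
  have hker : LinearMap.ker ι ≤ LinearMap.ker T := by
    intro v hv
    rw [LinearMap.mem_ker] at hv ⊢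
    have := hT v
    rw [hv, norm_zero, mul_zero] at this
    exact abs_nonpos_iff.1 this
  let e := ι.quotKerEquivRange
  let T' : LinearMap.range ι →ₗ[ℝ] ℝ := ((LinearMap.ker ι).liftQ T hker).comp e.symm.toLinearMap
  have hT' : ∀ v, T' ⟨ι v, LinearMap.mem_range_self ι v⟩ = T v := by
    intro v
    have h1 : e.symm ⟨ι v, LinearMap.mem_range_self ι v⟩ = (LinearMap.ker ι).mkQ v := by
      rw [LinearEquiv.symm_apply_eq]
      rfl
    simp only [T', LinearMap.comp_apply, LinearEquiv.coe_coe, h1]
    rfl
  have hb : ∀ y : LinearMap.range ι, ‖T' y‖ ≤ C * ‖y‖ := by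
    rintro ⟨y, v, rfl⟩
    rw [hT' v, Real.norm_eq_abs]
    exact hT v
  let f : StrongDual ℝ (LinearMap.range ι) := T'.mkContinuous C hb
  obtain ⟨g, hg1, hg2⟩ := _root_.exists_extension_norm_eq (LinearMap.range ι) f
  refine ⟨(InnerProductSpace.toDual ℝ H).symm g, ?_, ?_⟩
  · rw [LinearIsometryEquiv.norm_map, hg2]
    exact T'.mkContinuous_norm_le hC hb
  · intro v
    rw [InnerProductSpace.toDual_symm_apply]
    have := hg1 ⟨ι v, LinearMap.mem_range_self ι v⟩
    rw [this]
    exact (hT' v).symm

/-- The test functions as a submodule. -/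
def testSub (n : ℕ) : Submodule ℝ (EE n → ℝ) where
  carrier := {φ | IsTest φ}
  add_mem' := fun ha hb => IsTest.add ha hb
  zero_mem' := ⟨contDiff_const, HasCompactSupport.zero⟩
  smul_mem' := fun c _ hφ => IsTest.const_mul hφ c

/-- existence of the weak derivative -/
theorem exists_wd {v : EE n → ℝ} (hv : LocallyIntegrable v) (i : Fin n) {C : ℝ} (hC : 0 ≤ C)
    (h : ∀ φ, IsTest φ → |∫ x, v x * pderiv i φ x| ≤ C * (eLpNorm φ 2 volume).toReal) :
    ∃ g : EE n → ℝ, MemLp g 2 ∧ eLpNorm g 2 volume ≤ ENNReal.ofReal C ∧ WD i v g := by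
  let ι : testSub n →ₗ[ℝ] Lp ℝ 2 (volume : Measure (EE n)) :=
    { toFun := fun φ => (φ.2.memLp 2).toLp φ.1
      map_add' := fun a b => by
        exact MemLp.toLp_add (a.2.memLp 2) (b.2.memLp 2)
      map_smul' := fun c a => by
        exact MemLp.toLp_const_smul c (a.2.memLp 2) }
  let T : testSub n →ₗ[ℝ] ℝ :=
    { toFun := fun φ => - ∫ x, v x * pderiv i φ.1 x
      map_add' := fun a b => by
        have e : ∀ x, v x * pderiv i (a + b : testSub n).1 x
            = v x * pderiv i a.1 x + v x * pderiv i b.1 x := by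
          intro x
          have : pderiv i (a + b : testSub n).1 x = pderiv i a.1 x + pderiv i b.1 x :=
            pderiv_add i x (a.2.smooth.differentiable (by simp) x)
              (b.2.smooth.differentiable (by simp) x)
          rw [this]; ring
        simp only [e]
        rw [integral_add (int_mul hv (a.2.pderiv i)) (int_mul hv (b.2.pderiv i))]
        ring
      map_smul' := fun c a => by
        have e : ∀ x, v x * pderiv i (c • a : testSub n).1 x = c * (v x * pderiv i a.1 x) := by
          intro x
          have : pderiv i (c • a : testSub n).1 x = c * pderiv i a.1 x :=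
            pderiv_const_mul i x c (a.2.smooth.differentiable (by simp) x)
          rw [this]; ring
        simp only [e, integral_const_mul, RingHom.id_apply, smul_eq_mul]
        ring }
  obtain ⟨z, hz1, hz2⟩ := riesz_rep ι T hC (fun φ => by
    have h1 := h φ.1 φ.2
    have h2 : ‖ι φ‖ = (eLpNorm φ.1 2 volume).toReal := Lp.norm_toLp _ (φ.2.memLp 2)
    rw [h2]
    show |- ∫ x, v x * pderiv i φ.1 x| ≤ _
    rw [abs_neg]; exact h1)
  refine ⟨z, Lp.memLp z, ?_, ?_⟩
  · rw [← ENNReal.ofReal_toReal (Lp.eLpNorm_ne_top z)]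
    apply ENNReal.ofReal_le_ofReal
    rwa [Lp.norm_def] at hz1
  · intro φ hφ
    have h1 := hz2 ⟨φ, hφ⟩
    have h2 : T ⟨φ, hφ⟩ = - ∫ x, v x * pderiv i φ x := rfl
    rw [h2, L2.inner_def] at h1
    have h3 : ∫ x, inner ℝ ((z : EE n → ℝ) x) ((ι ⟨φ, hφ⟩ : EE n → ℝ) x) = ∫ x, z x * φ x := by
      apply integral_congr_ae
      have h4 : (ι ⟨φ, hφ⟩ : EE n → ℝ) =ᵐ[volume] φ := MemLp.coeFn_toLp (hφ.memLp 2)
      filter_upwards [h4] with x hx
      rw [hx]
      simp [mul_comm]
    rw [h3] at h1
    linarith

end

end Crest.Agent.R202.Ell
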