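import Crest.Agent.R202.Ell3

/-!
Row 202, interior elliptic regularity, file 4: scaling of the mollifiers, the `L²` norm calculus,
Friedrichs' commutator, the `H²` estimate.
(helper912)
-/

set_option autoImplicit false
open scoped ContDiff ENNReal Topology
open MeasureTheory Set Filter
open Crest.GeometryTopology.CoordMetric

namespace Crest.Agent.R202.Ell

noncomputable section

variable {n : ℕ}

/-! ### scaling -/

theorem bmp_scale (k : ℕ) (z : EE n) :
    (bmp n (1 / ((k : ℝ) + 1)) (by positivity)) z = (bmp n (1 / (((0 : ℕ) : ℝ) + 1)) (by positivity))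
      (((k : ℝ) + 1) • z) := by
  rw [ContDiffBump.apply, ContDiffBump.apply]
  have hk : ((k : ℝ) + 1) ≠ 0 := by positivity
  have h1 : (bmp n (1 / ((k : ℝ) + 1)) (by positivity)).rOut /
      (bmp n (1 / ((k : ℝ) + 1)) (by positivity)).rIn = 2 := by
    simp only [bmp]; field_simp
  have h2 : (bmp n (1 / (((0 : ℕ) : ℝ) + 1)) (by positivity)).rOut /
      (bmp n (1 / (((0 : ℕ) : ℝ) + 1)) (by positivity)).rIn = 2 := by
    simp only [bmp]; norm_num
  have h3 : (bmp n (1 / ((k : ℝ) + 1)) (by positivity)).rIn⁻¹ • (z - 0)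
      = (bmp n (1 / (((0 : ℕ) : ℝ) + 1)) (by positivity)).rIn⁻¹ • ((((k : ℝ) + 1) • z) - 0) := by
    rw [sub_zero, sub_zero, smul_smul]
    congr 1
    simp only [bmp]; field_simp; norm_num
  rw [h1, h2, h3]

theorem rho_scale (k : ℕ) (z : EE n) :
    rho n k z = ((k : ℝ) + 1) ^ n * rho n 0 (((k : ℝ) + 1) • z) := by
  have hk : (0 : ℝ) < (k : ℝ) + 1 := by positivity
  rw [rho, rho, ContDiffBump.normed_def, ContDiffBump.normed_def]
  have h1 : ∫ x, (bmp n (1 / ((k : ℝ) + 1)) (by positivity)) x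
      = (((k : ℝ) + 1) ^ n)⁻¹ * ∫ x, (bmp n (1 / (((0 : ℕ) : ℝ) + 1)) (by positivity)) x := by
    simp_rw [bmp_scale k]
    rw [Measure.integral_comp_smul_of_nonneg volume _ _ (hR := hk.le)]
    simp
  rw [h1, bmp_scale k z]
  have h2 : 0 < ∫ x, (bmp n (1 / (((0 : ℕ) : ℝ) + 1)) (by positivity)) x :=
    ContDiffBump.integral_pos _
  field_simp

theorem pderiv_rho_scale (k : ℕ) (l : Fin n) (z : EE n) :
    pderiv l (rho n k) z = ((k : ℝ) + 1) ^ n * (((k : ℝ) + 1) *
      pderiv l (rho n 0) (((k : ℝ) + 1) • z)) := by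
  have e : rho n k = fun z => ((k : ℝ) + 1) ^ n * rho n 0 (((k : ℝ) + 1) • z) := by
    ext z; exact rho_scale k z
  have hd : Differentiable ℝ (rho n 0) := (rho_test 0).smooth.differentiable (by simp)
  have h1 : HasFDerivAt (fun z : EE n => ((k : ℝ) + 1) • z)
      (((k : ℝ) + 1) • ContinuousLinearMap.id ℝ (EE n)) z := by
    exact (hasFDerivAt_id z).const_smul ((k : ℝ) + 1)
  have h2 : HasFDerivAt (fun z => rho n 0 (((k : ℝ) + 1) • z)) _ z :=
    (hd (((k : ℝ) + 1) • z)).hasFDerivAt.comp z h1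
  rw [e, pderiv_const_mul l z _ h2.differentiableAt]
  congr 1
  unfold Crest.GeometryTopology.CoordMetric.pderiv
  rw [h2.fderiv]
  simp

/-- The kernel of the commutator. -/
def kerK (n k : ℕ) (l : Fin n) (z : EE n) : ℝ := ‖z‖ * pderiv l (rho n k) z

theorem kerK_cont (k : ℕ) (l : Fin n) : Continuous (kerK n k l) :=
  continuous_norm.mul ((rho_test k).pderiv l).continuous

/-- `L¹` norm of the kernel: independent of the scale. -/
def cK (n : ℕ) : ℝ := ∑ l : Fin n, ∫ z, ‖kerK n 0 l z‖

theorem kerK_int (k : ℕ) (l : Fin n) : Integrable (kerK n k l) := by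
  apply (kerK_cont k l).integrable_of_hasCompactSupport
  exact ((rho_test k).pderiv l).cpt.mul_left

theorem cK_nonneg (n : ℕ) : 0 ≤ cK n :=
  Finset.sum_nonneg fun _ _ => integral_nonneg fun _ => norm_nonneg _

theorem kerK_lintegral (k : ℕ) (l : Fin n) :
    ∫⁻ z, ‖kerK n k l z‖ₑ ≤ ENNReal.ofReal (cK n) := by
  rw [← ofReal_integral_norm_eq_lintegral_enorm (kerK_int k l)]
  apply ENNReal.ofReal_le_ofReal
  have hk : (0 : ℝ) < (k : ℝ) + 1 := by positivity
  have h1 : ∀ z, ‖kerK n k l z‖ = ((k : ℝ) + 1) ^ n * ‖kerK n 0 l (((k : ℝ) + 1) • z)‖ := by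
    intro z
    rw [kerK, pderiv_rho_scale, kerK, norm_smul, Real.norm_of_nonneg hk.le]
    simp only [norm_mul, norm_pow, norm_norm, Real.norm_of_nonneg hk.le]
    ring
  simp only [h1]
  rw [integral_const_mul, Measure.integral_comp_smul_of_nonneg volume
    (fun z => ‖kerK n 0 l z‖) ((k : ℝ) + 1) (hR := hk.le)]
  simp only [finrank_euclideanSpace, Fintype.card_fin, smul_eq_mul]
  rw [mul_inv_cancel_left₀ (by positivity)]
  exact Finset.single_le_sum (f := fun l : Fin n => ∫ z, ‖kerK n 0 l z‖)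
    (fun _ _ => integral_nonneg fun _ => norm_nonneg _) (Finset.mem_univ l)

/-! ### `L²` calculus -/

/-- The `L²` norm. -/
def nm (f : EE n → ℝ) : ℝ := (eLpNorm f 2 volume).toReal

/-- `f ∈ L²` with norm at most `B`. -/
def N2 (B : ℝ) (f : EE n → ℝ) : Prop := MemLp f 2 ∧ eLpNorm f 2 volume ≤ ENNReal.ofReal B

theorem nm_nonneg (f : EE n → ℝ) : 0 ≤ nm f := ENNReal.toReal_nonneg

theorem N2.nm_le {B : ℝ} {f : EE n → ℝ} (h : N2 B f) (hB : 0 ≤ B) : nm f ≤ B := by
  have := ENNReal.toReal_mono ENNReal.ofReal_ne_top h.2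
  rwa [ENNReal.toReal_ofReal hB] at this

theorem N2.of_nm {B : ℝ} {f : EE n → ℝ} (hf : MemLp f 2) (h : nm f ≤ B) : N2 B f := by
  refine ⟨hf, ?_⟩
  rw [← ENNReal.ofReal_toReal hf.2.ne]
  exact ENNReal.ofReal_le_ofReal h

theorem N2.mono {B B' : ℝ} {f : EE n → ℝ} (h : N2 B f) (hB : B ≤ B') : N2 B' f :=
  ⟨h.1, h.2.trans (ENNReal.ofReal_le_ofReal hB)⟩

theorem N2.add {B B' : ℝ} {f g : EE n → ℝ} (h : N2 B f) (h' : N2 B' g) (hB : 0 ≤ B)
    (hB' : 0 ≤ B') : N2 (B + B') (fun x => f x + g x) := by
  refine ⟨h.1.add h'.1, ?_⟩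
  rw [ENNReal.ofReal_add hB hB']
  exact (eLpNorm_add_le h.1.1 h'.1.1 (by norm_num)).trans (add_le_add h.2 h'.2)

theorem N2.zero {B : ℝ} : N2 B (fun _ : EE n => (0 : ℝ)) := by
  refine ⟨MemLp.zero, ?_⟩
  have : eLpNorm (fun _ : EE n => (0 : ℝ)) 2 volume = 0 := eLpNorm_zero
  rw [this]; exact bot_le

theorem N2.sum {ι : Type*} (s : Finset ι) {B : ι → ℝ} {f : ι → EE n → ℝ}
    (h : ∀ i ∈ s, N2 (B i) (f i)) (hB : ∀ i ∈ s, 0 ≤ B i) :
    N2 (∑ i ∈ s, B i) (fun x => ∑ i ∈ s, f i x) := by
  classical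
  induction s using Finset.induction_on with
  | empty => simpa using N2.zero
  | insert a s ha ih =>
    simp only [Finset.sum_insert ha]
    exact (h a (by simp)).add (ih (fun i hi => h i (by simp [hi])) (fun i hi => hB i (by simp [hi])))
      (hB a (by simp)) (Finset.sum_nonneg fun i hi => hB i (by simp [hi]))

theorem N2.of_dom {B c : ℝ} {f g : EE n → ℝ} (hf : N2 B f) (hg : AEStronglyMeasurable g)
    (hc : 0 ≤ c) (h : ∀ x, |g x| ≤ c * |f x|) : N2 (c * B) g := by
  have h1 : eLpNorm g 2 volume ≤ ENNReal.ofReal c * eLpNorm f 2 volume :=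
    eLpNorm_le_mul_eLpNorm_of_ae_le_mul (Eventually.of_forall fun x => by
      simpa [Real.norm_eq_abs] using h x) 2
  have h2 : eLpNorm g 2 volume ≤ ENNReal.ofReal (c * B) := by
    rw [ENNReal.ofReal_mul hc]
    exact h1.trans (by gcongr; exact hf.2)
  exact ⟨⟨hg, h2.trans_lt ENNReal.ofReal_lt_top⟩, h2⟩

theorem N2.mul_bdd {B c : ℝ} {f ψ : EE n → ℝ} (hf : N2 B f) (hψ : Continuous ψ)
    (hc : ∀ x, |ψ x| ≤ c) : N2 (c * B) (fun x => ψ x * f x) := by
  have hc0 : 0 ≤ c := (abs_nonneg _).trans (hc 0)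
  refine hf.of_dom (hψ.aestronglyMeasurable.mul hf.1.1) hc0 fun x => ?_
  rw [abs_mul]
  exact mul_le_mul_of_nonneg_right (hc x) (abs_nonneg _)

theorem integrable_mul {f g : EE n → ℝ} (hf : MemLp f 2) (hg : MemLp g 2) :
    Integrable (fun x => f x * g x) := hf.integrable_mul hg

theorem abs_integral_mul_le {f g : EE n → ℝ} (hf : MemLp f 2) (hg : MemLp g 2) :
    |∫ x, f x * g x| ≤ nm f * nm g := by
  have h1 : (∫ x, f x * g x) = inner ℝ (hg.toLp g) (hf.toLp f) := by
    rw [L2.inner_def]
    apply integral_congr_ae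
    filter_upwards [hf.coeFn_toLp, hg.coeFn_toLp] with x h1 h2
    rw [h1, h2]; simp
  rw [h1]
  refine (abs_real_inner_le_norm _ _).trans ?_
  rw [Lp.norm_toLp, Lp.norm_toLp, mul_comm]
  exact le_rfl

theorem integral_sq {f : EE n → ℝ} (hf : MemLp f 2) : ∫ x, f x ^ 2 = nm f ^ 2 := by
  have h1 : (∫ x, f x ^ 2) = inner ℝ (hf.toLp f) (hf.toLp f) := by
    rw [L2.inner_def]
    apply integral_congr_ae
    filter_upwards [hf.coeFn_toLp] with x h1
    rw [h1]; simp [sq]
  rw [h1, real_inner_self_eq_norm_sq, Lp.norm_toLp]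
  rfl

/-! ### Friedrichs commutator -/

/-- data of the uniformly elliptic equation -/
structure Coef (n : ℕ) (lam M : ℝ) (A : Fin n → Fin n → EE n → ℝ) : Prop where
  lam_pos : 0 < lam
  cont : ∀ i j, Continuous (A i j)
  bdd : ∀ i j x, |A i j x| ≤ M
  lip : ∀ i j x y, |A i j x - A i j y| ≤ M * ‖x - y‖
  ell : ∀ x (ξ : Fin n → ℝ), lam * ∑ i, ξ i ^ 2 ≤ ∑ i, ∑ j, A i j x * ξ j * ξ i

theorem Coef.M_nonneg {lam M : ℝ} {A : Fin n → Fin n → EE n → ℝ} (h : Coef n lam M A)
    (i : Fin n) : 0 ≤ M := (abs_nonneg _).trans (h.bdd i i 0)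

theorem commutator {lam M B : ℝ} {A : Fin n → Fin n → EE n → ℝ} (h : Coef n lam M A)
    {g : EE n → ℝ} (hg : N2 B g) (i j l : Fin n) (k : ℕ) :
    N2 (M * cK n * B) (fun x => A i j x * cv (pderiv l (rho n k)) g x
      - cv (pderiv l (rho n k)) (fun x => A i j x * g x) x) := by
  have hM := h.M_nonneg i
  have hK : IsTest (pderiv l (rho n k)) := (rho_test k).pderiv l
  have hgl := MemLp.locInt hg.1
  have hAg : MemLp (fun x => A i j x * g x) 2 := (hg.mul_bdd (h.cont i j) (h.bdd i j)).1
  have hd : ∀ x, ‖A i j x * cv (pderiv l (rho n k)) g x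
      - cv (pderiv l (rho n k)) (fun x => A i j x * g x) x‖ₑ
      ≤ ENNReal.ofReal M * ∫⁻ t, ‖g t‖ₑ * ‖kerK n k l (x - t)‖ₑ := by
    intro x
    have e : A i j x * cv (pderiv l (rho n k)) g x
      - cv (pderiv l (rho n k)) (fun x => A i j x * g x) x
      = ∫ t, (A i j x - A i j t) * g t * pderiv l (rho n k) (x - t) := by
      rw [cv_apply, cv_apply, ← integral_const_mul, ← integral_sub]
      · congr 1; ext t; ring
      · exact (cv_exists hK hgl x).const_mul _
      · exact cv_exists hK (MemLp.locInt hAg) x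
    rw [e]
    refine (enorm_integral_le_lintegral_enorm _).trans ?_
    rw [← lintegral_const_mul']
    · apply lintegral_mono
      intro t
      simp only
      rw [enorm_mul, enorm_mul, kerK, enorm_mul]
      have h1 : ‖A i j x - A i j t‖ₑ ≤ ENNReal.ofReal M * ‖‖x - t‖‖ₑ := by
        rw [← ofReal_norm, ← ofReal_norm, ← ENNReal.ofReal_mul hM]
        apply ENNReal.ofReal_le_ofReal
        rw [norm_norm]
        exact h.lip i j x t
      calc ‖A i j x - A i j t‖ₑ * ‖g t‖ₑ * ‖pderiv l (rho n k) (x - t)‖ₑ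
          ≤ (ENNReal.ofReal M * ‖‖x - t‖‖ₑ) * ‖g t‖ₑ * ‖pderiv l (rho n k) (x - t)‖ₑ := by
            gcongr
        _ = _ := by ring
    · exact ENNReal.ofReal_ne_top
  have h2 := eLpNorm_le_of_dom (kerK n k l) g (kerK_cont k l) hg.1.1 hd
  have h3 : eLpNorm (fun x => A i j x * cv (pderiv l (rho n k)) g x
      - cv (pderiv l (rho n k)) (fun x => A i j x * g x) x) 2 volume
      ≤ ENNReal.ofReal (M * cK n * B) := by
    refine h2.trans ?_
    rw [ENNReal.ofReal_mul (by have := cK_nonneg n; positivity), ENNReal.ofReal_mul hM]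
    gcongr
    · exact kerK_lintegral k l
    · exact hg.2
  refine ⟨⟨?_, h3.trans_lt ENNReal.ofReal_lt_top⟩, h3⟩
  exact (((h.cont i j).mul (cv_smooth hK hgl).continuous).sub
    (cv_smooth hK (MemLp.locInt hAg)).continuous).aestronglyMeasurable

/-- **The `H²` estimate** : the weak gradient of a weak solution of `div (A ∇ v) = f` has weak
derivatives, with a bound. -/
theorem h2_est {lam M B : ℝ} {A : Fin n → Fin n → EE n → ℝ} (h : Coef n lam M A) (hB : 0 ≤ B)
    {v f : EE n → ℝ} {G : Fin n → EE n → ℝ} (hv : LocallyIntegrable v) (hG : ∀ i, N2 B (G i))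
    (hf : N2 B f) (hvG : ∀ i, WD i v (G i))
    (heq : ∀ φ, IsTest φ → ∫ x, ∑ i, ∑ j, A i j x * G j x * pderiv i φ x = - ∫ x, f x * φ x)
    (j l : Fin n) :
    ∃ g, N2 ((1 + n * (n * (M * cK n))) / lam * B) g ∧ WD l (G j) g := by
  classical
  have hM := h.M_nonneg j
  have hcK := cK_nonneg n
  set C : ℝ := (1 + n * (n * (M * cK n))) / lam * B with hC
  have hC0 : 0 ≤ C := by
    have := h.lam_pos
    positivity
  have hfl := MemLp.locInt hf.1
  have hGl : ∀ i, LocallyIntegrable (G i) := fun i => MemLp.locInt (hG i).1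
  -- the flux
  set F : Fin n → EE n → ℝ := fun i x => ∑ j, A i j x * G j x with hFdef
  have hF1 : ∀ i j, MemLp (fun x => A i j x * G j x) 2 := fun i j =>
    ((hG j).mul_bdd (h.cont i j) (h.bdd i j)).1
  have hF : ∀ i, MemLp (F i) 2 := fun i => by
    exact memLp_finsetSum _ (fun j _ => hF1 i j)
  have hFl : ∀ i, LocallyIntegrable (F i) := fun i => MemLp.locInt (hF i)
  -- key bound at each scale
  have key : ∀ k : ℕ, nm (pderiv l (cv (rho n k) (G j))) ≤ C := by
    intro k
    have hρ := rho_test (n := n) k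
    set w : EE n → ℝ := cv (rho n k) (G l) with hw
    have hws : ContDiff ℝ ∞ w := cv_smooth hρ (hGl l)
    have hwd : Differentiable ℝ w := hws.differentiable (by simp)
    set D : Fin n → EE n → ℝ := fun i => cv (pderiv i (rho n k)) (G l) with hD
    have hDw : ∀ i, pderiv i w = D i := fun i => by
      ext x; exact pderiv_cv hρ (hGl l) i x
    have hDm : ∀ i, MemLp (D i) 2 := fun i => memLp_cv (hρ.pderiv i) (hG l).1
    have hDs : ∀ i, ContDiff ℝ ∞ (D i) := fun i => cv_smooth (hρ.pderiv i) (hGl l)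
    have hDd : ∀ i, Differentiable ℝ (D i) := fun i => (hDs i).differentiable (by simp)
    have hwm : MemLp w 2 := memLp_cv hρ (hG l).1
    -- the mollified solution
    set u : EE n → ℝ := cv (rho n k) v with hu
    have hus : ContDiff ℝ ∞ u := cv_smooth hρ hv
    have hud : ∀ i, pderiv i u = cv (rho n k) (G i) := fun i => by
      ext x; exact pderiv_cv_wd hρ hv (hvG i) x
    have hcomm : ∀ i, D i = cv (pderiv l (rho n k)) (G i) := by
      intro i
      ext x
      have h1 : pderiv i (pderiv l u) x = pderiv l (pderiv i u) x :=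
        pderiv_comm i l x (hus.contDiffAt.of_le
          (show ((2 : ℕ∞) : WithTop ℕ∞) ≤ ((⊤ : ℕ∞) : WithTop ℕ∞) from WithTop.coe_le_coe.2 le_top))
      rw [hud l, hud i, pderiv_cv hρ (hGl l), pderiv_cv hρ (hGl i)] at h1
      exact h1
    -- the mollified flux
    set S : Fin n → EE n → ℝ := fun i => cv (rho n k) (F i) with hS
    have hSs : ∀ i, ContDiff ℝ ∞ (S i) := fun i => cv_smooth hρ (hFl i)
    have hSd : ∀ i, Differentiable ℝ (S i) := fun i => (hSs i).differentiable (by simp)
    have hSm : ∀ i, MemLp (S i) 2 := fun i => memLp_cv hρ (hF i)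
    have hdS : ∀ i m x, pderiv m (S i) x = cv (pderiv m (rho n k)) (F i) x := fun i m x =>
      pderiv_cv hρ (hFl i) m x
    have hdSm : ∀ i m, MemLp (pderiv m (S i)) 2 := fun i m => by
      have : pderiv m (S i) = cv (pderiv m (rho n k)) (F i) := by ext x; exact hdS i m x
      rw [this]; exact memLp_cv (hρ.pderiv m) (hF i)
    -- divergence of the mollified flux
    have hdiv : ∀ x, ∑ i, pderiv i (S i) x = cv (rho n k) f x := by
      intro x
      have h1 := heq (fun t => rho n k (x - t)) (hρ.comp_sub x)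
      have h2 : ∀ t, ∑ i, ∑ j, A i j t * G j t * pderiv i (fun t => rho n k (x - t)) t
          = - ∑ i, F i t * pderiv i (rho n k) (x - t) := by
        intro t
        rw [← Finset.sum_neg_distrib]
        apply Finset.sum_congr rfl
        intro i _
        rw [← Finset.sum_mul, pderiv_comp_sub i x t (hρ.smooth.differentiable (by simp) _)]
        simp only [F]; ring
      simp only [h2, integral_neg] at h1
      rw [integral_finsetSum] at h1
      · simp only [hdS, cv_apply]
        linarith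
      · intro i _
        exact cv_exists (hρ.pderiv i) (hFl i) x
    -- commutator
    set R : Fin n → EE n → ℝ := fun i x => ∑ j, (A i j x * cv (pderiv l (rho n k)) (G j) x
      - cv (pderiv l (rho n k)) (fun x => A i j x * G j x) x) with hR
    have hRn : ∀ i, N2 (n * (M * cK n * B)) (R i) := by
      intro i
      have := N2.sum Finset.univ (f := fun j x => (A i j x * cv (pderiv l (rho n k)) (G j) x
        - cv (pderiv l (rho n k)) (fun x => A i j x * G j x) x)) (B := fun _ => M * cK n * B)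
        (fun j _ => commutator h (hG j) i j l k) (fun _ _ => by positivity)
      rw [Finset.sum_const, Finset.card_univ, Fintype.card_fin, nsmul_eq_mul] at this
      exact this
    have hcvF : ∀ i x, cv (pderiv l (rho n k)) (F i) x
        = ∑ j, cv (pderiv l (rho n k)) (fun x => A i j x * G j x) x := by
      intro i x
      simp only [cv_apply, F]
      rw [← integral_finsetSum]
      · congr 1; ext t; rw [Finset.sum_mul]
      · intro j _
        exact cv_exists (hρ.pderiv l) (MemLp.locInt (hF1 i j)) x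
    have hAD : ∀ i x, ∑ j, A i j x * D j x = pderiv l (S i) x + R i x := by
      intro i x
      rw [hdS, hcvF]
      simp only [R, Finset.sum_sub_distrib]
      simp only [hcomm]
      ring
    -- energy
    have hE1 : ∀ i, ∫ x, D i x ^ 2 = nm (D i) ^ 2 := fun i => integral_sq (hDm i)
    have hDi2 : ∀ i, Integrable (fun x => D i x ^ 2) := fun i => by
      have := integrable_mul (hDm i) (hDm i)
      simpa [sq] using this
    have hsd : ∀ i, Integrable (fun x => pderiv l (S i) x * D i x) := fun i =>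
      integrable_mul (hdSm i l) (hDm i)
    have hrd : ∀ i, Integrable (fun x => R i x * D i x) := fun i =>
      integrable_mul (hRn i).1 (hDm i)
    have hE2 : lam * ∑ i, nm (D i) ^ 2 ≤ (∑ i, ∫ x, pderiv l (S i) x * D i x)
        + ∑ i, ∫ x, R i x * D i x := by
      have h1 : lam * ∑ i, nm (D i) ^ 2 = ∫ x, lam * ∑ i, D i x ^ 2 := by
        rw [integral_const_mul, integral_finsetSum _ (fun i _ => hDi2 i)]
        simp only [hE1]
      rw [h1, ← integral_finsetSum _ (fun i _ => hsd i), ← integral_finsetSum _ (fun i _ => hrd i),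
        ← integral_add (integrable_finsetSum _ fun i _ => hsd i)
          (integrable_finsetSum _ fun i _ => hrd i)]
      apply integral_mono
      · exact (integrable_finsetSum _ fun i _ => hDi2 i).const_mul lam
      · exact (integrable_finsetSum _ fun i _ => hsd i).add
          (integrable_finsetSum _ fun i _ => hrd i)
      · intro x
        simp only
        refine (h.ell x (fun i => D i x)).trans (le_of_eq ?_)
        rw [← Finset.sum_add_distrib]
        apply Finset.sum_congr rfl
        intro i _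
        rw [← add_mul, ← hAD i x, Finset.sum_mul]
    -- integration by parts twice
    have hIBP : ∑ i, ∫ x, pderiv l (S i) x * D i x = ∫ x, cv (rho n k) f x * D l x := by
      have hdDm : ∀ i m, MemLp (pderiv m (D i)) 2 := fun i m => by
        have : pderiv m (D i) = cv (pderiv m (pderiv i (rho n k))) (G l) := by
          ext x; exact pderiv_cv (hρ.pderiv i) (hGl l) m x
        rw [this]; exact memLp_cv ((hρ.pderiv i).pderiv m) (hG l).1
      have h1 : ∀ i, ∫ x, pderiv l (S i) x * D i x = ∫ x, pderiv i (S i) x * D l x := by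
        intro i
        have e1 := integral_parts (f := D i) (g := S i) l (hDd i) (hSd i)
          (integrable_mul (hDm i) (hdSm i l)) (integrable_mul (hdDm i l) (hSm i))
          (integrable_mul (hDm i) (hSm i))
        have e2 := integral_parts (f := S i) (g := D l) i (hSd i) (hDd l)
          (integrable_mul (hSm i) (hdDm l i)) (integrable_mul (hdSm i i) (hDm l))
          (integrable_mul (hSm i) (hDm l))
        have e3 : ∀ x, pderiv l (D i) x = pderiv i (D l) x := by
          intro x
          rw [← hDw i, ← hDw l]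
          exact pderiv_comm l i x (hws.contDiffAt.of_le
            (show ((2 : ℕ∞) : WithTop ℕ∞) ≤ ((⊤ : ℕ∞) : WithTop ℕ∞) from
              WithTop.coe_le_coe.2 le_top))
        have e4 : ∫ x, pderiv l (S i) x * D i x = ∫ x, D i x * pderiv l (S i) x := by
          congr 1; ext x; ring
        have e5 : ∫ x, pderiv l (D i) x * S i x = ∫ x, S i x * pderiv i (D l) x := by
          congr 1; ext x; rw [e3 x]; ring
        rw [e4, e1, e5, e2]; ring
      simp only [h1]
      rw [← integral_finsetSum _ (fun i _ => integrable_mul (hdSm i i) (hDm l))]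
      congr 1; ext x
      rw [← Finset.sum_mul, hdiv x]
    -- conclusion at scale `k`
    have hT0 : 0 ≤ ∑ i, nm (D i) ^ 2 := Finset.sum_nonneg fun i _ => by positivity
    set T : ℝ := Real.sqrt (∑ i, nm (D i) ^ 2) with hT
    have hTsq : T ^ 2 = ∑ i, nm (D i) ^ 2 := Real.sq_sqrt hT0
    have hTn : 0 ≤ T := Real.sqrt_nonneg _
    have hDT : ∀ i, nm (D i) ≤ T := fun i => by
      apply Real.le_sqrt_of_sq_le
      exact Finset.single_le_sum (f := fun i => nm (D i) ^ 2) (fun i _ => by positivity)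
        (Finset.mem_univ i)
    have hb1 : ∫ x, cv (rho n k) f x * D l x ≤ B * T := by
      have h1 : MemLp (cv (rho n k) f) 2 := memLp_cv hρ hf.1
      have h2 : nm (cv (rho n k) f) ≤ B := by
        refine le_trans ?_ (hf.nm_le hB)
        exact ENNReal.toReal_mono hf.1.2.ne (eLpNorm_cv_rho_le k hf.1.1)
      refine (le_abs_self _).trans ((abs_integral_mul_le h1 (hDm l)).trans ?_)
      exact mul_le_mul h2 (hDT l) (nm_nonneg _) hB
    have hb2 : ∑ i, ∫ x, R i x * D i x ≤ n * (n * (M * cK n * B) * T) := by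
      calc ∑ i, ∫ x, R i x * D i x ≤ ∑ _i : Fin n, n * (M * cK n * B) * T := by
            apply Finset.sum_le_sum
            intro i _
            refine (le_abs_self _).trans ((abs_integral_mul_le (hRn i).1 (hDm i)).trans ?_)
            exact mul_le_mul ((hRn i).nm_le (by positivity)) (hDT i) (nm_nonneg _) (by positivity)
        _ = _ := by simp
    have hlam := h.lam_pos
    have hfinal : lam * T ^ 2 ≤ (1 + n * (n * (M * cK n))) * B * T := by
      rw [hTsq]
      calc lam * ∑ i, nm (D i) ^ 2 ≤ _ := hE2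
        _ ≤ B * T + n * (n * (M * cK n * B) * T) := by rw [hIBP]; exact add_le_add hb1 hb2
        _ = _ := by ring
    have hTC : T ≤ C := by
      rcases hTn.eq_or_lt with h0 | h0
      · rw [← h0]; exact hC0
      · have h1 : lam * T ≤ (1 + n * (n * (M * cK n))) * B := by
          have h2 : (lam * T) * T ≤ ((1 + n * (n * (M * cK n))) * B) * T := by
            calc (lam * T) * T = lam * T ^ 2 := by ring
              _ ≤ _ := hfinal
          exact le_of_mul_le_mul_right h2 h0
        rw [hC, div_mul_eq_mul_div, le_div_iff₀ hlam]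
        linarith
    have hfin : pderiv l (cv (rho n k) (G j)) = D j := by
      rw [hcomm j]; ext x; exact pderiv_cv hρ (hGl j) l x
    rw [hfin]
    exact (hDT j).trans hTC
  -- conclusion
  have hfin : ∀ φ, IsTest φ → |∫ x, G j x * pderiv l φ x| ≤ C * (eLpNorm φ 2 volume).toReal := by
    intro φ hφ
    have h1 := tendsto_integral_cv_mul (hGl j) (hφ.pderiv l)
    refine le_of_tendsto h1.abs (Eventually.of_forall fun k => ?_)
    have hρ := rho_test (n := n) k
    have hs : ContDiff ℝ ∞ (cv (rho n k) (G j)) := cv_smooth hρ (hGl j)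
    have hs' : ContDiff ℝ 1 (cv (rho n k) (G j)) := hs.of_le (by exact_mod_cast le_top)
    have h2 := WD.of_smooth (i := l) hs' φ hφ
    rw [h2, abs_neg]
    have hm : MemLp (pderiv l (cv (rho n k) (G j))) 2 := by
      have : pderiv l (cv (rho n k) (G j)) = cv (pderiv l (rho n k)) (G j) := by
        ext x; exact pderiv_cv hρ (hGl j) l x
      rw [this]; exact memLp_cv (hρ.pderiv l) (hG j).1
    refine (abs_integral_mul_le hm (hφ.memLp 2)).trans ?_
    exact mul_le_mul_of_nonneg_right (key k) (nm_nonneg φ)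
  obtain ⟨g, h1, h2, h3⟩ := exists_wd (hGl j) l hC0 hfin
  exact ⟨g, ⟨h1, h2⟩, h3⟩

end

end Crest.Agent.R202.Ell
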