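import Crest.Agent.R202.Ell4

/-!
Row 202, interior elliptic regularity, file 5: the classes `HB k C` (`H^k` with norm bound) and
`DBOn U k M` (smooth with bounded derivatives), the induction for the `H^(k+2)` estimate.
(helper912)
-/

set_option autoImplicit false
open scoped ContDiff ENNReal Topology
open MeasureTheory Set Filter
open Crest.GeometryTopology.CoordMetric

namespace Crest.Agent.R202.Ell

noncomputable section

variable {n : ℕ}

theorem two_le_top' : ((2 : ℕ∞) : WithTop ℕ∞) ≤ ((⊤ : ℕ∞) : WithTop ℕ∞) :=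
  WithTop.coe_le_coe.2 le_top

theorem one_le_top' : ((1 : ℕ∞) : WithTop ℕ∞) ≤ ((⊤ : ℕ∞) : WithTop ℕ∞) :=
  WithTop.coe_le_coe.2 le_top

/-! ### `H^k` with bounds -/

/-- `v ∈ H^k(ℝⁿ)`, all weak derivatives up to order `k` have `L²` norm at most `C`. -/
def HB : ℕ → ℝ → (EE n → ℝ) → Prop
  | 0, C, v => N2 C v
  | k + 1, C, v => N2 C v ∧ ∀ i, ∃ g, WD i v g ∧ HB k C g

theorem HB.n2 {k : ℕ} {C : ℝ} {v : EE n → ℝ} (h : HB k C v) : N2 C v := by
  cases k with
  | zero => exact h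
  | succ k => exact h.1

theorem HB.mono {k : ℕ} {C C' : ℝ} {v : EE n → ℝ} (h : HB k C v) (hC : C ≤ C') : HB k C' v := by
  induction k generalizing v with
  | zero => exact N2.mono h hC
  | succ k ih =>
    refine ⟨h.1.mono hC, fun i => ?_⟩
    obtain ⟨g, h1, h2⟩ := h.2 i
    exact ⟨g, h1, ih h2⟩

theorem HB.pred {k : ℕ} {C : ℝ} {v : EE n → ℝ} (h : HB (k + 1) C v) : HB k C v := by
  induction k generalizing v with
  | zero => exact h.1
  | succ k ih =>
    refine ⟨h.1, fun i => ?_⟩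
    obtain ⟨g, h1, h2⟩ := h.2 i
    exact ⟨g, h1, ih h2⟩

theorem HB.le {k k' : ℕ} {C : ℝ} {v : EE n → ℝ} (h : HB k C v) (hk : k' ≤ k) : HB k' C v := by
  induction hk with
  | refl => exact h
  | step _ ih => exact ih h.pred

theorem N2.congr {C : ℝ} {v w : EE n → ℝ} (h : N2 C v) (hw : w =ᵐ[volume] v) : N2 C w := by
  refine ⟨(memLp_congr_ae hw).2 h.1, ?_⟩
  rw [eLpNorm_congr_ae hw]; exact h.2

theorem HB.congr {k : ℕ} {C : ℝ} {v w : EE n → ℝ} (h : HB k C v) (hw : w =ᵐ[volume] v) :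
    HB k C w := by
  cases k with
  | zero => exact N2.congr h hw
  | succ k =>
    refine ⟨h.1.congr hw, fun i => ?_⟩
    obtain ⟨g, h1, h2⟩ := h.2 i
    exact ⟨g, h1.congr hw (EventuallyEq.refl _ _), h2⟩

theorem N2.locInt {C : ℝ} {v : EE n → ℝ} (h : N2 C v) : LocallyIntegrable v := MemLp.locInt h.1

theorem HB.locInt {k : ℕ} {C : ℝ} {v : EE n → ℝ} (h : HB k C v) : LocallyIntegrable v :=
  h.n2.locInt

theorem HB.add {k : ℕ} {C C' : ℝ} {v w : EE n → ℝ} (h : HB k C v) (h' : HB k C' w)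
    (hC : 0 ≤ C) (hC' : 0 ≤ C') : HB k (C + C') (fun x => v x + w x) := by
  induction k generalizing v w with
  | zero => exact N2.add h h' hC hC'
  | succ k ih =>
    refine ⟨N2.add h.1 h'.1 hC hC', fun i => ?_⟩
    obtain ⟨g, h1, h2⟩ := h.2 i
    obtain ⟨g', h1', h2'⟩ := h'.2 i
    exact ⟨_, WD.add h.1.locInt h2.locInt h'.1.locInt h2'.locInt h1 h1', ih h2 h2'⟩

theorem HB.zero {k : ℕ} {C : ℝ} : HB k C (fun _ : EE n => (0 : ℝ)) := by
  induction k with
  | zero => exact N2.zero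
  | succ k ih => exact ⟨N2.zero, fun i => ⟨_, WD.zero, ih⟩⟩

theorem HB.sum {k : ℕ} {ι : Type*} (s : Finset ι) {B : ι → ℝ} {f : ι → EE n → ℝ}
    (h : ∀ i ∈ s, HB k (B i) (f i)) (hB : ∀ i ∈ s, 0 ≤ B i) :
    HB k (∑ i ∈ s, B i) (fun x => ∑ i ∈ s, f i x) := by
  classical
  induction s using Finset.induction_on with
  | empty => simpa using HB.zero
  | insert a s ha ih =>
    simp only [Finset.sum_insert ha]
    exact (h a (by simp)).add (ih (fun i hi => h i (by simp [hi])) (fun i hi => hB i (by simp [hi])))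
      (hB a (by simp)) (Finset.sum_nonneg fun i hi => hB i (by simp [hi]))

theorem HB.const_mul {k : ℕ} {C : ℝ} {v : EE n → ℝ} (h : HB k C v) (c : ℝ) :
    HB k (|c| * C) (fun x => c * v x) := by
  induction k generalizing v with
  | zero => exact N2.mul_bdd h continuous_const (fun _ => le_rfl)
  | succ k ih =>
    refine ⟨N2.mul_bdd h.1 continuous_const (fun _ => le_rfl), fun i => ?_⟩
    obtain ⟨g, h1, h2⟩ := h.2 i
    exact ⟨_, h1.const_mul c, ih h2⟩

theorem HB.neg {k : ℕ} {C : ℝ} {v : EE n → ℝ} (h : HB k C v) : HB k C (fun x => - v x) := by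
  have := h.const_mul (-1)
  simpa using this

/-! ### smooth functions with bounded derivatives -/

/-- smooth on the open set `U`, all partial derivatives of order at most `k` are bounded by `M`. -/
def DBOn (U : Set (EE n)) : ℕ → ℝ → (EE n → ℝ) → Prop
  | 0, M, ψ => ContDiffOn ℝ ∞ ψ U ∧ ∀ x ∈ U, |ψ x| ≤ M
  | k + 1, M, ψ => (ContDiffOn ℝ ∞ ψ U ∧ ∀ x ∈ U, |ψ x| ≤ M) ∧ ∀ i, DBOn U k M (pderiv i ψ)

theorem DBOn.base {U : Set (EE n)} {k : ℕ} {M : ℝ} {ψ : EE n → ℝ} (h : DBOn U k M ψ) :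
    ContDiffOn ℝ ∞ ψ U ∧ ∀ x ∈ U, |ψ x| ≤ M := by
  cases k with
  | zero => exact h
  | succ k => exact h.1

theorem DBOn.mono {U : Set (EE n)} {k : ℕ} {M M' : ℝ} {ψ : EE n → ℝ} (h : DBOn U k M ψ)
    (hM : M ≤ M') : DBOn U k M' ψ := by
  induction k generalizing ψ with
  | zero => exact ⟨h.1, fun x hx => (h.2 x hx).trans hM⟩
  | succ k ih => exact ⟨⟨h.1.1, fun x hx => (h.1.2 x hx).trans hM⟩, fun i => ih (h.2 i)⟩

theorem DBOn.pred {U : Set (EE n)} {k : ℕ} {M : ℝ} {ψ : EE n → ℝ} (h : DBOn U (k + 1) M ψ) :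
    DBOn U k M ψ := by
  induction k generalizing ψ with
  | zero => exact h.1
  | succ k ih => exact ⟨h.1, fun i => ih (h.2 i)⟩

theorem DBOn.le {U : Set (EE n)} {k k' : ℕ} {M : ℝ} {ψ : EE n → ℝ} (h : DBOn U k M ψ)
    (hk : k' ≤ k) : DBOn U k' M ψ := by
  induction hk with
  | refl => exact h
  | step _ ih => exact ih h.pred

theorem DBOn.subset {U V : Set (EE n)} {k : ℕ} {M : ℝ} {ψ : EE n → ℝ} (h : DBOn U k M ψ)
    (hV : V ⊆ U) : DBOn V k M ψ := by
  induction k generalizing ψ with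
  | zero => exact ⟨h.1.mono hV, fun x hx => h.2 x (hV hx)⟩
  | succ k ih => exact ⟨⟨h.1.1.mono hV, fun x hx => h.1.2 x (hV hx)⟩, fun i => ih (h.2 i)⟩

theorem pderiv_congr_of_eqOn {U : Set (EE n)} (hU : IsOpen U) {f g : EE n → ℝ} (h : EqOn f g U)
    (i : Fin n) : EqOn (pderiv i f) (pderiv i g) U := by
  intro x hx
  unfold Crest.GeometryTopology.CoordMetric.pderiv
  have : f =ᶠ[𝓝 x] g := by
    filter_upwards [hU.mem_nhds hx] with y hy using h hy
  rw [this.fderiv_eq]

theorem DBOn.congr {U : Set (EE n)} (hU : IsOpen U) {k : ℕ} {M : ℝ} {ψ ψ' : EE n → ℝ}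
    (h : DBOn U k M ψ) (he : EqOn ψ' ψ U) : DBOn U k M ψ' := by
  induction k generalizing ψ ψ' with
  | zero => exact ⟨h.1.congr he, fun x hx => by rw [he hx]; exact h.2 x hx⟩
  | succ k ih =>
    exact ⟨⟨h.1.1.congr he, fun x hx => by rw [he hx]; exact h.1.2 x hx⟩,
      fun i => ih (h.2 i) (pderiv_congr_of_eqOn hU he i)⟩

theorem contDiffOn_pderiv {U : Set (EE n)} (hU : IsOpen U) {ψ : EE n → ℝ}
    (h : ContDiffOn ℝ ∞ ψ U) (i : Fin n) : ContDiffOn ℝ ∞ (pderiv i ψ) U := by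
  have h1 : ContDiffOn ℝ ∞ (fderiv ℝ ψ) U := h.fderiv_of_isOpen hU (by simp)
  exact h1.clm_apply contDiffOn_const

theorem DBOn.add {U : Set (EE n)} (hU : IsOpen U) {k : ℕ} {M M' : ℝ} {ψ φ : EE n → ℝ}
    (h : DBOn U k M ψ) (h' : DBOn U k M' φ) : DBOn U k (M + M') (fun x => ψ x + φ x) := by
  have hb : ∀ (k : ℕ) (ψ φ : EE n → ℝ), DBOn U k M ψ → DBOn U k M' φ →
      ContDiffOn ℝ ∞ (fun x => ψ x + φ x) U ∧ ∀ x ∈ U, |ψ x + φ x| ≤ M + M' := by
    intro k ψ φ h h'
    exact ⟨h.base.1.add h'.base.1, fun x hx =>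
      (abs_add_le _ _).trans (add_le_add (h.base.2 x hx) (h'.base.2 x hx))⟩
  induction k generalizing ψ φ with
  | zero => exact hb 0 ψ φ h h'
  | succ k ih =>
    refine ⟨hb _ ψ φ h h', fun i => (ih (h.2 i) (h'.2 i)).congr hU fun x hx => ?_⟩
    exact pderiv_add i x (((h.base.1 x hx).contDiffAt (hU.mem_nhds hx)).differentiableAt (by simp))
      (((h'.base.1 x hx).contDiffAt (hU.mem_nhds hx)).differentiableAt (by simp))

theorem DBOn.mul {U : Set (EE n)} (hU : IsOpen U) {k : ℕ} {M M' : ℝ} {ψ φ : EE n → ℝ}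
    (hM : 0 ≤ M) (hM' : 0 ≤ M')
    (h : DBOn U k M ψ) (h' : DBOn U k M' φ) : DBOn U k (2 ^ k * (M * M')) (fun x => ψ x * φ x) := by
  induction k generalizing ψ φ with
  | zero =>
    refine ⟨h.1.mul h'.1, fun x hx => ?_⟩
    rw [abs_mul, pow_zero, one_mul]
    exact mul_le_mul (h.2 x hx) (h'.2 x hx) (abs_nonneg _) hM
  | succ k ih =>
    refine ⟨⟨h.base.1.mul h'.base.1, fun x hx => ?_⟩, fun i => ?_⟩
    · rw [abs_mul]
      have h1 : |ψ x| * |φ x| ≤ M * M' :=
        mul_le_mul (h.base.2 x hx) (h'.base.2 x hx) (abs_nonneg _) hM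
      have h2 : M * M' ≤ 2 ^ (k + 1) * (M * M') :=
        le_mul_of_one_le_left (by positivity) (one_le_pow₀ (by norm_num))
      exact h1.trans h2
    · have h1 := (ih (h.2 i) h'.pred).add hU (ih h.pred (h'.2 i))
      have h2 : 2 ^ k * (M * M') + 2 ^ k * (M * M') = 2 ^ (k + 1) * (M * M') := by ring
      rw [h2] at h1
      refine h1.congr hU fun x hx => ?_
      exact pderiv_mul i x
        (((h.base.1 x hx).contDiffAt (hU.mem_nhds hx)).differentiableAt (by simp))
        (((h'.base.1 x hx).contDiffAt (hU.mem_nhds hx)).differentiableAt (by simp))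

theorem DBOn.const {U : Set (EE n)} {k : ℕ} {M c : ℝ} (hc : |c| ≤ M) (hM : 0 ≤ M) :
    DBOn U k M (fun _ => c) := by
  induction k generalizing c with
  | zero => exact ⟨contDiffOn_const, fun _ _ => hc⟩
  | succ k ih =>
    refine ⟨⟨contDiffOn_const, fun _ _ => hc⟩, fun i => ?_⟩
    have : pderiv i (fun _ : EE n => c) = fun _ => (0 : ℝ) := by
      ext x
      unfold Crest.GeometryTopology.CoordMetric.pderiv
      simp
    rw [this]
    exact ih (by simpa using hM)

/-- Test functions have bounded derivatives. -/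
theorem IsTest.exists_db {χ : EE n → ℝ} (h : IsTest χ) (k : ℕ) :
    ∃ M : ℝ, 0 ≤ M ∧ DBOn univ k M χ := by
  induction k generalizing χ with
  | zero =>
    obtain ⟨C, hC⟩ := h.cpt.exists_bound_of_continuous h.continuous
    exact ⟨C, (norm_nonneg _).trans (hC 0), h.smooth.contDiffOn, fun x _ => hC x⟩
  | succ k ih =>
    obtain ⟨C, hC⟩ := h.cpt.exists_bound_of_continuous h.continuous
    have hC0 : 0 ≤ C := (norm_nonneg _).trans (hC 0)
    choose M hM1 hM2 using fun i => ih (h.pderiv i)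
    have hS : 0 ≤ ∑ i, M i := Finset.sum_nonneg fun i _ => hM1 i
    refine ⟨C + ∑ i, M i, by positivity, ⟨h.smooth.contDiffOn, fun x _ => ?_⟩, fun i => ?_⟩
    · have := hC x
      rw [Real.norm_eq_abs] at this
      linarith
    · refine (hM2 i).mono ?_
      have := Finset.single_le_sum (f := M) (fun i _ => hM1 i) (Finset.mem_univ i)
      linarith

/-- Product of a cutoff with a function smooth on `U`. -/
theorem DBOn.cutoff {U : Set (EE n)} (hU : IsOpen U) {k : ℕ} {M M' : ℝ} {χ φ : EE n → ℝ}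
    (hM : 0 ≤ M) (hM' : 0 ≤ M') (hχ : tsupport χ ⊆ U)
    (h : DBOn univ k M χ) (h' : DBOn U k M' φ) :
    DBOn univ k (2 ^ k * (M * M')) (fun x => χ x * φ x) := by
  have hsm : ∀ (χ φ : EE n → ℝ), tsupport χ ⊆ U → ContDiffOn ℝ ∞ χ univ → ContDiffOn ℝ ∞ φ U →
      ContDiffOn ℝ ∞ (fun x => χ x * φ x) univ := by
    intro χ φ hχ h1 h2 x _
    by_cases hx : x ∈ tsupport χ
    · have hxU := hχ hx
      exact (((h1 x (mem_univ x)).contDiffAt univ_mem).mul
        ((h2 x hxU).contDiffAt (hU.mem_nhds hxU))).contDiffWithinAt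
    · have h3 : (fun x => χ x * φ x) =ᶠ[𝓝 x] fun _ => 0 := by
        filter_upwards [(isClosed_tsupport χ).isOpen_compl.mem_nhds hx] with y hy
        rw [image_eq_zero_of_notMem_tsupport hy, zero_mul]
      exact (contDiffAt_const.congr_of_eventuallyEq h3).contDiffWithinAt
  have hbd : ∀ (χ φ : EE n → ℝ), tsupport χ ⊆ U → (∀ x ∈ (univ : Set (EE n)), |χ x| ≤ M) →
      (∀ x ∈ U, |φ x| ≤ M') → ∀ x, |χ x * φ x| ≤ M * M' := by
    intro χ φ hχ h1 h2 x
    by_cases hx : x ∈ tsupport χ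
    · rw [abs_mul]
      exact mul_le_mul (h1 x (mem_univ x)) (h2 x (hχ hx)) (abs_nonneg _) hM
    · rw [image_eq_zero_of_notMem_tsupport hx, zero_mul, abs_zero]
      positivity
  induction k generalizing χ φ with
  | zero =>
    refine ⟨hsm χ φ hχ h.1 h'.1, fun x _ => ?_⟩
    rw [pow_zero, one_mul]
    exact hbd χ φ hχ h.2 h'.2 x
  | succ k ih =>
    refine ⟨⟨hsm χ φ hχ h.base.1 h'.base.1, fun x _ => ?_⟩, fun i => ?_⟩
    · have h2 : M * M' ≤ 2 ^ (k + 1) * (M * M') :=
        le_mul_of_one_le_left (by positivity) (one_le_pow₀ (by norm_num))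
      exact (hbd χ φ hχ h.base.2 h'.base.2 x).trans h2
    · have hs : tsupport (pderiv i χ) ⊆ U := by
        refine Subset.trans ?_ hχ
        exact closure_minimal (fun x hx => by
          by_contra hx'
          apply hx
          show fderiv ℝ χ x _ = 0
          rw [fderiv_of_notMem_tsupport (𝕜 := ℝ) hx']
          rfl) (isClosed_tsupport χ)
      have h1 := (ih hs (h.2 i) h'.pred).add isOpen_univ (ih hχ h.pred (h'.2 i))
      have h2 : 2 ^ k * (M * M') + 2 ^ k * (M * M') = 2 ^ (k + 1) * (M * M') := by ring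
      rw [h2] at h1
      refine h1.congr isOpen_univ fun x _ => ?_
      by_cases hx : x ∈ tsupport χ
      · have hxU := hχ hx
        exact pderiv_mul i x
          (((h.base.1 x (mem_univ x)).contDiffAt univ_mem).differentiableAt (by simp))
          (((h'.base.1 x hxU).contDiffAt (hU.mem_nhds hxU)).differentiableAt (by simp))
      · have h3 : (fun x => χ x * φ x) =ᶠ[𝓝 x] fun _ => 0 := by
          filter_upwards [(isClosed_tsupport χ).isOpen_compl.mem_nhds hx] with y hy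
          rw [image_eq_zero_of_notMem_tsupport hy, zero_mul]
        have h4 : pderiv i (fun x => χ x * φ x) x = 0 := by
          unfold Crest.GeometryTopology.CoordMetric.pderiv
          rw [h3.fderiv_eq]; simp
        have h5 : pderiv i χ x = 0 := by
          show fderiv ℝ χ x _ = 0
          rw [fderiv_of_notMem_tsupport (𝕜 := ℝ) hx]; rfl
        rw [h4]
        simp only
        rw [h5, image_eq_zero_of_notMem_tsupport hx]
        ring

/-- Product rule in `H^k`. -/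
theorem HB.mul {k : ℕ} {C M : ℝ} {v ψ : EE n → ℝ} (h : HB k C v) (hψ : DBOn univ k M ψ)
    (hC : 0 ≤ C) (hM : 0 ≤ M) : HB k (2 ^ k * (M * C)) (fun x => ψ x * v x) := by
  induction k generalizing v ψ with
  | zero =>
    rw [pow_zero, one_mul]
    have hc : Continuous ψ := by
      rw [← continuousOn_univ]; exact hψ.1.continuousOn
    exact N2.mul_bdd h hc (fun x => hψ.2 x (mem_univ x))
  | succ k ih =>
    have hc : Continuous ψ := by
      rw [← continuousOn_univ]; exact hψ.base.1.continuousOn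
    have hs : ContDiff ℝ ∞ ψ := contDiffOn_univ.1 hψ.base.1
    have h2 : M * C ≤ 2 ^ (k + 1) * (M * C) :=
      le_mul_of_one_le_left (by positivity) (one_le_pow₀ (by norm_num))
    refine ⟨(N2.mul_bdd h.1 hc (fun x => hψ.base.2 x (mem_univ x))).mono h2, fun i => ?_⟩
    obtain ⟨g, h3, h4⟩ := h.2 i
    refine ⟨_, WD.mul h.1.locInt h4.locInt hs h3, ?_⟩
    have h5 := (ih h.pred (hψ.2 i)).add (ih h4 hψ.pred) (by positivity) (by positivity)
    have h6 : 2 ^ k * (M * C) + 2 ^ k * (M * C) = 2 ^ (k + 1) * (M * C) := by ring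
    rw [h6] at h5
    exact h5

end

end Crest.Agent.R202.Ell
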