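import Crest.Agent.R202.Ell5

/-!
Row 202, interior elliptic regularity, file 6: global `H^(k+2)` regularity with constants.
(helper912)
-/

set_option autoImplicit false
open scoped ContDiff ENNReal Topology
open MeasureTheory Set Filter
open Crest.GeometryTopology.CoordMetric

namespace Crest.Agent.R202.Ell

noncomputable section

variable {n : ℕ}

/-- The weak equation `div (A G) = f` on `ℝⁿ`. -/
def WEq (A : Fin n → Fin n → EE n → ℝ) (G : Fin n → EE n → ℝ) (f : EE n → ℝ) : Prop :=
  ∀ φ, IsTest φ → ∫ x, ∑ i, ∑ j, A i j x * G j x * pderiv i φ x = - ∫ x, f x * φ x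

theorem integral_dsum {F : Fin n → Fin n → EE n → ℝ} (h : ∀ i j, Integrable (F i j)) :
    ∫ x, ∑ i, ∑ j, F i j x = ∑ i, ∑ j, ∫ x, F i j x := by
  rw [integral_finsetSum _ (fun i _ => integrable_finsetSum _ fun j _ => h i j)]
  exact Finset.sum_congr rfl fun i _ => integral_finsetSum _ fun j _ => h i j

/-- differentiated equation -/
theorem WEq.diff {lam M B : ℝ} {A : Fin n → Fin n → EE n → ℝ} (h : Coef n lam M A)
    (hA : ∀ i j, ContDiff ℝ ∞ (A i j))
    {f : EE n → ℝ} {G : Fin n → EE n → ℝ} (hG : ∀ i, N2 B (G i)) (hf : N2 B f)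
    (heq : WEq A G f) {l : Fin n} {fl : EE n → ℝ} (hfl : WD l f fl) (hfl' : LocallyIntegrable fl)
    {g : Fin n → Fin n → EE n → ℝ} (hg : ∀ j i, WD i (G j) (g j i))
    (hgl : ∀ j i, LocallyIntegrable (g j i)) :
    WEq A (fun j => g j l) (fun x => fl x + - ∑ i, ∑ j,
      (pderiv i (pderiv l (A i j)) x * G j x + pderiv l (A i j) x * g j i x)) := by
  intro φ hφ
  have hpA : ∀ i j m, ContDiff ℝ ∞ (pderiv m (A i j)) := fun i j m => by
    have := contDiffOn_pderiv isOpen_univ (contDiffOn_univ.2 (hA i j)) m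
    exact contDiffOn_univ.1 this
  have hGl : ∀ j, LocallyIntegrable (G j) := fun j => (hG j).locInt
  have h0 := heq _ (hφ.pderiv l)
  have hc : ∀ i x, pderiv i (pderiv l φ) x = pderiv l (pderiv i φ) x := fun i x =>
    pderiv_comm i l x (hφ.smooth.contDiffAt.of_le two_le_top')
  simp only [hc] at h0
  -- the left side
  have hI0 : ∀ i j, Integrable (fun x => A i j x * G j x * pderiv l (pderiv i φ) x) := by
    intro i j
    have := int_mul (hGl j) (((hφ.pderiv i).pderiv l).mul_left (hA i j))
    refine this.congr (Eventually.of_forall fun x => ?_)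
    simp only; ring
  rw [integral_dsum hI0] at h0
  have h1 : ∀ i j, ∫ x, A i j x * G j x * pderiv l (pderiv i φ) x
      = (∫ x, (pderiv i (pderiv l (A i j)) x * G j x + pderiv l (A i j) x * g j i x) * φ x)
        - ∫ x, A i j x * g j l x * pderiv i φ x := by
    intro i j
    have e1 := WD.mul (hGl j) (hgl j l) (hA i j) (hg j l) _ (hφ.pderiv i)
    have e2 := WD.mul (hGl j) (hgl j i) (hpA i j l) (hg j i) _ hφ
    rw [e1]
    have i1 : Integrable (fun x => pderiv l (A i j) x * G j x * pderiv i φ x) := by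
      have := int_mul (hGl j) ((hφ.pderiv i).mul_left (hpA i j l))
      refine this.congr (Eventually.of_forall fun x => ?_)
      simp only; ring
    have i2 : Integrable (fun x => A i j x * g j l x * pderiv i φ x) := by
      have := int_mul (hgl j l) ((hφ.pderiv i).mul_left (hA i j))
      refine this.congr (Eventually.of_forall fun x => ?_)
      simp only; ring
    simp only [add_mul]
    rw [integral_add i1 i2, e2]
    simp only [add_mul]
    ring
  simp only [h1, Finset.sum_sub_distrib] at h0
  -- integrability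
  have hI1 : ∀ i j, Integrable (fun x => (pderiv i (pderiv l (A i j)) x * G j x
      + pderiv l (A i j) x * g j i x) * φ x) := by
    intro i j
    have hp2 : ContDiff ℝ ∞ (pderiv i (pderiv l (A i j))) := by
      have := contDiffOn_pderiv isOpen_univ (contDiffOn_univ.2 (hpA i j l)) i
      exact contDiffOn_univ.1 this
    have a1 := int_mul (hGl j) (hφ.mul_left hp2)
    have a2 := int_mul (hgl j i) (hφ.mul_left (hpA i j l))
    refine (a1.add a2).congr (Eventually.of_forall fun x => ?_)
    simp only [Pi.add_apply]; ring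
  have hI2 : ∀ i j, Integrable (fun x => A i j x * g j l x * pderiv i φ x) := by
    intro i j
    have := int_mul (hgl j l) ((hφ.pderiv i).mul_left (hA i j))
    refine this.congr (Eventually.of_forall fun x => ?_)
    simp only; ring
  rw [integral_dsum hI2]
  have h2 : ∫ x, (fl x + - ∑ i, ∑ j,
      (pderiv i (pderiv l (A i j)) x * G j x + pderiv l (A i j) x * g j i x)) * φ x
      = (∫ x, fl x * φ x) - ∑ i, ∑ j, ∫ x, (pderiv i (pderiv l (A i j)) x * G j x
      + pderiv l (A i j) x * g j i x) * φ x := by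
    rw [← integral_dsum hI1, ← integral_sub (int_mul hfl' hφ)
      (integrable_finsetSum _ fun i _ => integrable_finsetSum _ fun j _ => hI1 i j)]
    congr 1; ext x
    have : ∑ i, ∑ j, (pderiv i (pderiv l (A i j)) x * G j x + pderiv l (A i j) x * g j i x) * φ x
        = (∑ i, ∑ j, (pderiv i (pderiv l (A i j)) x * G j x + pderiv l (A i j) x * g j i x))
          * φ x := by
      simp only [Finset.sum_mul]
    rw [this]; ring
  rw [h2]
  have h3 := hfl φ hφ
  linarith

/-- **Global regularity with constants.** -/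
theorem ellreg (n : ℕ) (k : ℕ) (lam M : ℝ) : ∃ C : ℝ, 1 ≤ C ∧
    ∀ (A : Fin n → Fin n → EE n → ℝ), Coef n lam M A → (∀ i j, DBOn univ (k + 1) M (A i j)) →
    ∀ (B : ℝ), 0 ≤ B → ∀ (v f : EE n → ℝ) (G : Fin n → EE n → ℝ),
    LocallyIntegrable v → (∀ i, N2 B (G i)) → (∀ i, WD i v (G i)) → HB k B f → WEq A G f →
    ∀ j, HB (k + 1) (C * B) (G j) := by
  induction k with
  | zero =>
    refine ⟨|(1 + n * (n * (M * cK n))) / lam| + 1, by
      have := abs_nonneg ((1 + n * (n * (M * cK n))) / lam); linarith, ?_⟩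
    intro A hA _ B hB v f G hv hG hvG hf heq j
    refine ⟨(hG j).mono ?_, fun i => ?_⟩
    · refine le_mul_of_one_le_left hB ?_
      have := abs_nonneg ((1 + n * (n * (M * cK n))) / lam); linarith
    · obtain ⟨g, h1, h2⟩ := h2_est hA hB hv hG hf hvG heq j i
      refine ⟨g, h2, N2.mono h1 ?_⟩
      gcongr
      exact (le_abs_self _).trans (by linarith)
  | succ k ih =>
    obtain ⟨C, hC1, hC⟩ := ih
    set C' : ℝ := C * (1 + C + n * (n * (2 ^ k * (|M| * C) + 2 ^ k * (|M| * C)))) with hC'
    have hC0 : 0 ≤ C := by linarith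
    have hge : 1 ≤ 1 + C + n * (n * (2 ^ k * (|M| * C) + 2 ^ k * (|M| * C))) := by
      have : 0 ≤ C + n * (n * (2 ^ k * (|M| * C) + 2 ^ k * (|M| * C))) := by positivity
      linarith
    have hC'C : C ≤ C' := by
      rw [hC']; exact le_mul_of_one_le_right hC0 hge
    refine ⟨C', hC1.trans hC'C, ?_⟩
    intro A hA hAd B hB v f G hv hG hvG hf heq j
    have hAs : ∀ i j, ContDiff ℝ ∞ (A i j) := fun i j => contDiffOn_univ.1 (hAd i j).base.1
    have hG1 : ∀ j, HB (k + 1) (C * B) (G j) :=
      hC A hA (fun i j => (hAd i j).pred) B hB v f G hv hG hvG hf.pred heq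
    choose g hg1 hg2 using fun j i => (hG1 j).2 i
    have hM : 0 ≤ M := hA.M_nonneg j
    have hMM : |M| = M := abs_of_nonneg hM
    -- the constants
    set B' : ℝ := (1 + C + n * (n * (2 ^ k * (|M| * C) + 2 ^ k * (|M| * C)))) * B with hB'
    have hB'0 : 0 ≤ B' := by positivity
    have hBB' : B ≤ B' := le_mul_of_one_le_left hB hge
    have hCBB' : C * B ≤ B' := by
      rw [hB']
      gcongr
      have : 0 ≤ 1 + n * (n * (2 ^ k * (|M| * C) + 2 ^ k * (|M| * C))) := by positivity
      linarith
    refine ⟨(hG j).mono ?_, fun l => ⟨g j l, hg1 j l, ?_⟩⟩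
    · exact le_mul_of_one_le_left hB (hC1.trans hC'C)
    obtain ⟨fl, hfl1, hfl2⟩ := hf.2 l
    have heq' := WEq.diff hA hAs hG hf.1 heq hfl1 hfl2.locInt hg1 (fun j i => (hg2 j i).locInt)
    have hf' : HB k B' (fun x => fl x + - ∑ i, ∑ j,
        (pderiv i (pderiv l (A i j)) x * G j x + pderiv l (A i j) x * g j i x)) := by
      have hs : HB k (∑ _i : Fin n, ∑ _j : Fin n, (2 ^ k * (M * (C * B)) + 2 ^ k * (M * (C * B))))
          (fun x => ∑ i, ∑ j,
          (pderiv i (pderiv l (A i j)) x * G j x + pderiv l (A i j) x * g j i x)) := by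
        refine HB.sum _ (fun i _ => HB.sum _ (fun j _ => ?_) (fun _ _ => by positivity))
          (fun _ _ => Finset.sum_nonneg fun _ _ => by positivity)
        refine HB.add ?_ ?_ (by positivity) (by positivity)
        · exact HB.mul (hG1 j).pred (((hAd i j).2 l).2 i) (by positivity) hM
        · exact HB.mul (hg2 j i) (((hAd i j).2 l).pred) (by positivity) hM
      have h1 := hfl2.add hs.neg hB (by positivity)
      refine h1.mono ?_
      simp only [Finset.sum_const, Finset.card_univ, Fintype.card_fin, nsmul_eq_mul]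
      rw [hB', hMM]
      have : 0 ≤ C * B := by positivity
      nlinarith [this]
    have hfin := hC A hA (fun i j => (hAd i j).pred) B' hB'0 (G l) _ (fun j => g j l)
      (hG l).locInt (fun j => (hg2 j l).n2.mono hCBB')
      (fun i => WD.symm (hvG l) (hvG i) (hg1 i l)) hf' heq' j
    refine hfin.mono ?_
    rw [hC', hB']
    exact le_of_eq (by ring)

end

end Crest.Agent.R202.Ell
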