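import Crest.Agent.R202.Ell6

/-!
Row 202, interior elliptic regularity, file 7: the elementary Sobolev embedding
`sup |v| ≤ ∫ |∂₁ ⋯ ∂ₙ v|` and its consequence for `HB n C`.
(helper912)
-/

set_option autoImplicit false
open scoped ContDiff ENNReal Topology
open MeasureTheory Set Filter
open Crest.GeometryTopology.CoordMetric

namespace Crest.Agent.R202.Ell

noncomputable section

variable {n : ℕ}

/-- iterated derivatives along a list of directions -/
def pds : List (Fin n) → (EE n → ℝ) → (EE n → ℝ)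
  | [], f => f
  | i :: L, f => pderiv i (pds L f)

theorem IsTest.pds {φ : EE n → ℝ} (h : IsTest φ) (L : List (Fin n)) : IsTest (pds L φ) := by
  induction L with
  | nil => exact h
  | cons i L ih => exact ih.pderiv i

theorem one_dim {φ : EE n → ℝ} (h : IsTest φ) (i : Fin n) (x : Fin n → ℝ) :
    ‖φ (WithLp.toLp 2 x)‖ₑ ≤
      ∫⁻ t : ℝ, ‖pderiv i φ (WithLp.toLp 2 (Function.update x i t))‖ₑ := by
  set e : EE n := EuclideanSpace.single i (1 : ℝ) with he
  set a : EE n := WithLp.toLp 2 (Function.update x i 0) with ha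
  have hγ : ∀ t : ℝ, WithLp.toLp 2 (Function.update x i t) = a + t • e := by
    intro t
    ext j
    by_cases hj : j = i
    · subst hj; simp [ha, he]
    · simp [ha, he, hj]
  have hne : ‖e‖ = 1 := by simp [he]
  have hiso : Isometry (fun t : ℝ => a + t • e) := by
    apply Isometry.of_dist_eq
    intro s t
    rw [dist_eq_norm, dist_eq_norm, add_sub_add_left_eq_sub, ← sub_smul, norm_smul, hne, mul_one]
  have hce : Topology.IsClosedEmbedding (fun t : ℝ => a + t • e) := hiso.isClosedEmbedding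
  have hc : HasCompactSupport (fun t : ℝ => φ (a + t • e)) := h.cpt.comp_isClosedEmbedding hce
  have hs : ContDiff ℝ 1 (fun t : ℝ => φ (a + t • e)) := by
    refine (h.smooth.of_le one_le_top').comp ?_
    exact contDiff_const.add (contDiff_id.smul contDiff_const)
  have hd : ∀ t : ℝ, deriv (fun t : ℝ => φ (a + t • e)) t = pderiv i φ (a + t • e) := by
    intro t
    have h1 : HasDerivAt (fun t : ℝ => a + t • e) e t := by
      simpa using ((hasDerivAt_id t).smul_const e).const_add a
    have h2 := ((h.smooth.differentiable (by simp)) (a + t • e)).hasFDerivAt.comp_hasDerivAt t h1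
    exact h2.deriv
  have h3 := HasCompactSupport.enorm_le_lintegral_Ici_deriv hs hc (x i)
  have h4 : a + x i • e = WithLp.toLp 2 x := by
    rw [← hγ, Function.update_eq_self]
  rw [h4] at h3
  refine h3.trans ((setLIntegral_le_lintegral _ _).trans (le_of_eq ?_))
  apply lintegral_congr
  intro t
  rw [hd t, hγ t]

theorem lmarginal_bound {φ : EE n → ℝ} (h : IsTest φ) (L : List (Fin n)) (hL : L.Nodup) :
    (fun x : Fin n → ℝ => ‖φ (WithLp.toLp 2 x)‖ₑ) ≤
      ∫⋯∫⁻_L.toFinset, (fun y => ‖pds L φ (WithLp.toLp 2 y)‖ₑ) ∂(fun _ => volume) := by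
  induction L with
  | nil => simp [pds]
  | cons i L ih =>
    have hi : i ∉ L := (List.nodup_cons.1 hL).1
    have ih' := ih (List.nodup_cons.1 hL).2
    refine ih'.trans ?_
    rw [List.toFinset_cons, lmarginal_insert' _ _ (by simpa using hi)]
    · exact lmarginal_mono fun x => one_dim (h.pds L) i x
    · exact (((h.pds (i :: L)).continuous.comp (PiLp.continuous_toLp 2 _)).enorm).measurable

theorem sup_le_lintegral {φ : EE n → ℝ} (h : IsTest φ) (x : EE n) :
    ‖φ x‖ₑ ≤ ∫⁻ y, ‖pds (List.finRange n) φ y‖ₑ := by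
  have h1 := lmarginal_bound h (List.finRange n) (List.nodup_finRange n) (WithLp.ofLp x)
  have h2 : (List.finRange n).toFinset = Finset.univ := by ext i; simp
  rw [h2, lmarginal_univ] at h1
  simp only [WithLp.toLp_ofLp] at h1
  refine h1.trans (le_of_eq ?_)
  rw [← volume_pi]
  exact (PiLp.volume_preserving_toLp (Fin n)).lintegral_comp
    ((h.pds (List.finRange n)).continuous.enorm.measurable)

theorem pds_cv {C : ℝ} (L : List (Fin n)) (m : ℕ) {v : EE n → ℝ} (h : HB (L.length + m) C v) :
    ∃ g, HB m C g ∧ ∀ k, pds L (cv (rho n k) v) = cv (rho n k) g := by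
  induction L generalizing m with
  | nil => exact ⟨v, by simpa using h, fun k => rfl⟩
  | cons i L ih =>
    obtain ⟨g, h1, h2⟩ := ih (m + 1) (by
      have : (i :: L).length + m = L.length + (m + 1) := by simp; ring
      rwa [this] at h)
    obtain ⟨g', h3, h4⟩ := h1.2 i
    refine ⟨g', h4, fun k => ?_⟩
    show pderiv i (pds L (cv (rho n k) v)) = _
    rw [h2 k]
    ext x
    exact pderiv_cv_wd (rho_test k) h1.locInt h3 x

theorem isTest_cv {v : EE n → ℝ} {R : ℝ} (hv : LocallyIntegrable v)
    (hR : ∀ x, R ≤ ‖x‖ → v x = 0) (k : ℕ) : IsTest (cv (rho n k) v) := by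
  refine ⟨cv_smooth (rho_test k) hv, ?_⟩
  apply HasCompactSupport.of_support_subset_isCompact (isCompact_closedBall (0 : EE n) (R + 1))
  intro x hx
  by_contra hx'
  apply hx
  apply cv_rho_support hR
  simp only [Metric.mem_closedBall, dist_zero_right, not_le] at hx'
  exact hx'.le

/-- the constant of the Sobolev embedding -/
def cS (n : ℕ) (R : ℝ) : ℝ := ((volume (Metric.closedBall (0 : EE n) (R + 1))) ^ (1 / 2 : ℝ)).toReal

theorem cS_nonneg (n : ℕ) (R : ℝ) : 0 ≤ cS n R := ENNReal.toReal_nonneg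

theorem sup_cv_le {v : EE n → ℝ} {R C : ℝ} (h : HB n C v) (hC : 0 ≤ C)
    (hR : ∀ x, R ≤ ‖x‖ → v x = 0) (k : ℕ) (x : EE n) :
    |cv (rho n k) v x| ≤ cS n R * C := by
  obtain ⟨g, hg, hgk⟩ := pds_cv (List.finRange n) 0 (v := v) (C := C) (by simpa using h)
  have ht := isTest_cv h.locInt hR k
  have h1 := sup_le_lintegral ht x
  rw [hgk k] at h1
  set S := Metric.closedBall (0 : EE n) (R + 1) with hS
  have hgz : ∀ y, y ∉ S → cv (rho n k) g y = 0 := by
    intro y hy
    rw [← hgk k]
    -- the iterated derivative vanishes off the support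
    have : ∀ L : List (Fin n), ∀ y, y ∉ S → pds L (cv (rho n k) v) y = 0 := by
      intro L
      induction L with
      | nil =>
        intro y hy
        apply cv_rho_support hR
        simp only [hS, Metric.mem_closedBall, dist_zero_right, not_le] at hy
        exact hy.le
      | cons i L ih =>
        intro y hy
        have h2 : pds L (cv (rho n k) v) =ᶠ[𝓝 y] fun _ => 0 := by
          filter_upwards [Metric.isClosed_closedBall.isOpen_compl.mem_nhds hy] with z hz
          exact ih z hz
        show fderiv ℝ (pds L (cv (rho n k) v)) y _ = 0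
        rw [h2.fderiv_eq]; simp
    exact this _ y hy
  have h2 : ∫⁻ y, ‖cv (rho n k) g y‖ₑ = ∫⁻ y in S, ‖cv (rho n k) g y‖ₑ := by
    rw [← lintegral_indicator Metric.isClosed_closedBall.measurableSet]
    apply lintegral_congr
    intro y
    by_cases hy : y ∈ S
    · rw [indicator_of_mem hy]
    · rw [indicator_of_notMem hy, hgz y hy]; simp
  have hm : AEStronglyMeasurable (cv (rho n k) g) (volume.restrict S) :=
    (cv_smooth (rho_test k) hg.locInt).continuous.aestronglyMeasurable
  have h3 : ∫⁻ y in S, ‖cv (rho n k) g y‖ₑ ≤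
      ENNReal.ofReal C * (volume S) ^ (1 / 2 : ℝ) := by
    have e1 := eLpNorm_le_eLpNorm_mul_rpow_measure_univ (p := 1) (q := 2)
      (μ := volume.restrict S) (by norm_num) hm
    rw [eLpNorm_one_eq_lintegral_enorm, Measure.restrict_apply_univ] at e1
    refine e1.trans ?_
    have e2 : (1 / (1 : ℝ≥0∞).toReal - 1 / (2 : ℝ≥0∞).toReal) = (1 / 2 : ℝ) := by norm_num
    rw [e2]
    gcongr
    calc eLpNorm (cv (rho n k) g) 2 (volume.restrict S) ≤ eLpNorm (cv (rho n k) g) 2 volume :=
          eLpNorm_mono_measure _ Measure.restrict_le_self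
      _ ≤ eLpNorm g 2 volume := eLpNorm_cv_rho_le k hg.n2.1.1
      _ ≤ ENNReal.ofReal C := hg.n2.2
  rw [h2] at h1
  have h4 := h1.trans h3
  have hfin : (volume S) ^ (1 / 2 : ℝ) ≠ ⊤ :=
    ENNReal.rpow_ne_top_of_nonneg (by norm_num) (isCompact_closedBall _ _).measure_lt_top.ne
  have h5 := ENNReal.toReal_mono (ENNReal.mul_ne_top ENNReal.ofReal_ne_top hfin) h4
  rw [ENNReal.toReal_mul, ENNReal.toReal_ofReal hC, toReal_enorm, Real.norm_eq_abs] at h5
  calc |cv (rho n k) v x| ≤ C * ((volume S) ^ (1 / 2 : ℝ)).toReal := h5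
    _ = cS n R * C := by rw [cS, mul_comm]

/-- **Sobolev embedding** : `‖v‖_∞ ≤ c ‖v‖_{H^n}`. -/
theorem ae_le_of_HB {v : EE n → ℝ} {R C : ℝ} (h : HB n C v) (hC : 0 ≤ C)
    (hR : ∀ x, R ≤ ‖x‖ → v x = 0) : ∀ᵐ x, |v x| ≤ cS n R * C := by
  filter_upwards [cv_rho_ae h.locInt] with x hx
  exact le_of_tendsto hx.abs (Eventually.of_forall fun k => sup_cv_le h hC hR k x)

end

end Crest.Agent.R202.Ell
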