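import Mathlib

/-! Row 202: elliptic regularity, part 1: test functions, weak derivatives, L² pairing,
difference quotients. -/

set_option autoImplicit false
open MeasureTheory Filter Topology Set
open scoped ENNReal NNReal ContDiff RealInnerProductSpace

namespace Crest.Agent.R202.Ell

variable {V : Type*} [NormedAddCommGroup V] [InnerProductSpace ℝ V] [FiniteDimensional ℝ V]
  [MeasurableSpace V] [BorelSpace V]

/-- smooth compactly supported functions -/
def Test (φ : V → ℝ) : Prop := ContDiff ℝ ∞ φ ∧ HasCompactSupport φ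

/-- directional derivative -/
noncomputable def dd (e : V) (φ : V → ℝ) (x : V) : ℝ := fderiv ℝ φ x e

/-- `v` is a weak derivative of `u` in direction `e` (on the whole space) -/
def WD (e : V) (u v : V → ℝ) : Prop :=
  ∀ φ : V → ℝ, Test φ → ∫ x, u x * dd e φ x = - ∫ x, v x * φ x

/-- the L² norm -/
noncomputable def nn (f : V → ℝ) : ℝ := Real.sqrt (∫ x, f x ^ 2)

omit [MeasurableSpace V] [BorelSpace V] in
omit [FiniteDimensional ℝ V] in
theorem Test.dd {φ : V → ℝ} (h : Test φ) (e : V) : Test (Ell.dd e φ) := by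
  refine ⟨?_, ?_⟩
  · have := h.1.fderiv_right (m := ∞) (by simp)
    exact this.clm_apply contDiff_const
  · have h1 := h.2.fderiv (𝕜 := ℝ)
    have : Ell.dd e φ = (fun L : V →L[ℝ] ℝ => L e) ∘ (fderiv ℝ φ) := rfl
    rw [this]
    exact h1.comp_left (by simp)

omit [MeasurableSpace V] [BorelSpace V] in
omit [FiniteDimensional ℝ V] in
theorem Test.continuous {φ : V → ℝ} (h : Test φ) : Continuous φ := h.1.continuous

theorem Test.memLp {φ : V → ℝ} (h : Test φ) (p : ℝ≥0∞) : MemLp φ p (volume : Measure V) :=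
  h.continuous.memLp_of_hasCompactSupport h.2

theorem Test.integrable {φ : V → ℝ} (h : Test φ) : Integrable φ (volume : Measure V) :=
  h.continuous.integrable_of_hasCompactSupport h.2

omit [MeasurableSpace V] [BorelSpace V] [FiniteDimensional ℝ V] in
theorem Test.add {φ ψ : V → ℝ} (h : Test φ) (h' : Test ψ) : Test (fun x => φ x + ψ x) :=
  ⟨h.1.add h'.1, h.2.add h'.2⟩

omit [MeasurableSpace V] [BorelSpace V] [FiniteDimensional ℝ V] in
theorem Test.const_mul {φ : V → ℝ} (h : Test φ) (c : ℝ) : Test (fun x => c * φ x) :=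
  ⟨contDiff_const.mul h.1, h.2.mul_left⟩

omit [MeasurableSpace V] [BorelSpace V] [FiniteDimensional ℝ V] in
theorem Test.smooth_mul {φ a : V → ℝ} (h : Test φ) (ha : ContDiff ℝ ∞ a) :
    Test (fun x => a x * φ x) :=
  ⟨ha.mul h.1, h.2.mul_left⟩

omit [MeasurableSpace V] [BorelSpace V] [FiniteDimensional ℝ V] in
theorem Test.comp_add {φ : V → ℝ} (h : Test φ) (a : V) : Test (fun x => φ (x + a)) := by
  refine ⟨h.1.comp (contDiff_id.add contDiff_const), ?_⟩
  exact h.2.comp_homeomorph (Homeomorph.addRight a)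

omit [MeasurableSpace V] [BorelSpace V] [FiniteDimensional ℝ V] in
theorem dd_comp_add (e : V) (φ : V → ℝ) (a : V) (x : V) :
    dd e (fun x => φ (x + a)) x = dd e φ (x + a) := by
  unfold dd
  rw [fderiv_comp_add_right]

omit [MeasurableSpace V] [BorelSpace V] [FiniteDimensional ℝ V] in
theorem dd_mul (e : V) {f g : V → ℝ} (hf : Differentiable ℝ f) (hg : Differentiable ℝ g) (x : V) :
    dd e (fun x => f x * g x) x = dd e f x * g x + f x * dd e g x := by
  unfold dd
  rw [fderiv_fun_mul (hf x) (hg x)]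
  simp; ring

/-! ### L² pairing -/

theorem nn_eq_norm {f : V → ℝ} (hf : MemLp f 2 (volume : Measure V)) : nn f = ‖hf.toLp f‖ := by
  have h1 : ‖hf.toLp f‖ ^ 2 = ∫ x, f x ^ 2 := by
    rw [← real_inner_self_eq_norm_sq, L2.inner_def]
    apply integral_congr_ae
    filter_upwards [hf.coeFn_toLp] with x hx
    rw [hx]; simp [pow_two]
  rw [nn, ← h1, Real.sqrt_sq (norm_nonneg _)]

theorem nn_nonneg (f : V → ℝ) : 0 ≤ nn f := Real.sqrt_nonneg _

theorem nn_sq {f : V → ℝ} : nn f ^ 2 = ∫ x, f x ^ 2 := by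
  rw [nn, Real.sq_sqrt (integral_nonneg fun x => sq_nonneg _)]

theorem integral_mul_eq_inner {f g : V → ℝ} (hf : MemLp f 2 (volume : Measure V))
    (hg : MemLp g 2 (volume : Measure V)) :
    ∫ x, f x * g x = ⟪hf.toLp f, hg.toLp g⟫ := by
  rw [L2.inner_def]
  apply integral_congr_ae
  filter_upwards [hf.coeFn_toLp, hg.coeFn_toLp] with x hx hy
  rw [hx, hy]; simp [mul_comm]

theorem abs_integral_mul_le {f g : V → ℝ} (hf : MemLp f 2 (volume : Measure V))
    (hg : MemLp g 2 (volume : Measure V)) : |∫ x, f x * g x| ≤ nn f * nn g := by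
  rw [integral_mul_eq_inner hf hg, nn_eq_norm hf, nn_eq_norm hg]
  exact abs_real_inner_le_norm _ _

theorem nn_add_le {f g : V → ℝ} (hf : MemLp f 2 (volume : Measure V))
    (hg : MemLp g 2 (volume : Measure V)) : nn (fun x => f x + g x) ≤ nn f + nn g := by
  have h := hf.add hg
  have h0 : nn (fun x => f x + g x) = nn (f + g) := rfl
  rw [h0, nn_eq_norm h, nn_eq_norm hf, nn_eq_norm hg, MemLp.toLp_add]
  exact norm_add_le _ _

theorem nn_const_mul (c : ℝ) (f : V → ℝ) : nn (fun x => c * f x) = |c| * nn f := by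
  unfold nn
  simp_rw [mul_pow]
  rw [integral_const_mul, Real.sqrt_mul (sq_nonneg c), Real.sqrt_sq_eq_abs]

theorem nn_comp_add (f : V → ℝ) (a : V) : nn (fun x => f (x + a)) = nn f := by
  unfold nn
  rw [integral_add_right_eq_self (fun x => f x ^ 2) a]

theorem memLp_comp_add {f : V → ℝ} {p : ℝ≥0∞} (hf : MemLp f p (volume : Measure V)) (a : V) :
    MemLp (fun x => f (x + a)) p (volume : Measure V) :=
  hf.comp_measurePreserving (measurePreserving_add_right volume a)

theorem integrable_mul {f g : V → ℝ} (hf : MemLp f 2 (volume : Measure V))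
    (hg : MemLp g 2 (volume : Measure V)) : Integrable (fun x => f x * g x) volume :=
  hf.integrable_mul hg

/-- bounded times L² -/
theorem nn_bdd_mul_le {a f : V → ℝ} {C : ℝ} (hC : 0 ≤ C) (ha : ∀ x, |a x| ≤ C)
    (hf : MemLp f 2 (volume : Measure V)) : nn (fun x => a x * f x) ≤ C * nn f := by
  unfold nn
  have h0 : C * Real.sqrt (∫ x, f x ^ 2) = Real.sqrt (∫ x, C ^ 2 * f x ^ 2) := by
    rw [integral_const_mul, Real.sqrt_mul (sq_nonneg C), Real.sqrt_sq hC]
  rw [h0]
  apply Real.sqrt_le_sqrt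
  apply integral_mono_of_nonneg
  · exact Eventually.of_forall fun x => sq_nonneg _
  · exact (hf.integrable_sq).const_mul _
  · refine Eventually.of_forall fun x => ?_
    simp only [mul_pow]
    apply mul_le_mul_of_nonneg_right _ (sq_nonneg _)
    rw [← sq_abs]
    exact pow_le_pow_left₀ (abs_nonneg _) (ha x) 2

theorem memLp_bdd_mul {a f : V → ℝ} {C : ℝ} (ha : ∀ x, |a x| ≤ C) (hac : Continuous a)
    (hf : MemLp f 2 (volume : Measure V)) : MemLp (fun x => a x * f x) 2 (volume : Measure V) := by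
  refine MemLp.of_le_mul (c := C) hf (hac.aestronglyMeasurable.mul hf.1) ?_
  refine Eventually.of_forall fun x => ?_
  rw [norm_mul, Real.norm_eq_abs]
  exact mul_le_mul_of_nonneg_right (ha x) (norm_nonneg _)

/-! ### duality with test functions -/

theorem nn_le_of_test {g : V → ℝ} (hg : MemLp g 2 (volume : Measure V)) {M : ℝ} (hM : 0 ≤ M)
    (h : ∀ φ : V → ℝ, Test φ → |∫ x, g x * φ x| ≤ M * nn φ) : nn g ≤ M := by
  -- |<g, f>| ≤ M ‖f‖ for all f in L², by density
  have key : ∀ f : Lp ℝ 2 (volume : Measure V), |⟪hg.toLp g, f⟫| ≤ M * ‖f‖ := by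
    intro f
    have hd := Lp.dense_hasCompactSupport_contDiff (F := ℝ) (E := V) (μ := volume) (p := 2)
      (by norm_num)
    have hcl : IsClosed {f : Lp ℝ 2 (volume : Measure V) | |⟪hg.toLp g, f⟫| ≤ M * ‖f‖} :=
      isClosed_le (by fun_prop) (by fun_prop)
    have hsub : {f : Lp ℝ 2 (volume : Measure V) | ∃ (g : V → ℝ), f =ᵐ[volume] g ∧
        HasCompactSupport g ∧ ContDiff ℝ ∞ g} ⊆
        {f : Lp ℝ 2 (volume : Measure V) | |⟪hg.toLp g, f⟫| ≤ M * ‖f‖} := by
      rintro f ⟨φ, hφ, hφc, hφs⟩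
      have hT : Test φ := ⟨hφs, hφc⟩
      have hm := hT.memLp (2 : ℝ≥0∞)
      have : f = hm.toLp φ := by
        apply Lp.ext
        exact hφ.trans hm.coeFn_toLp.symm
      have h1 := h φ hT
      rw [integral_mul_eq_inner hg hm, nn_eq_norm hm, ← this] at h1
      exact h1
    have := closure_minimal hsub hcl (hd f)
    exact this
  have h2 := key (hg.toLp g)
  rw [real_inner_self_eq_norm_sq, abs_of_nonneg (sq_nonneg _), pow_two] at h2
  rw [nn_eq_norm hg]
  by_contra hlt
  push Not at hlt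
  have h3 : 0 < ‖hg.toLp g‖ := lt_of_le_of_lt hM hlt
  exact absurd (le_of_mul_le_mul_right h2 h3) (not_le.mpr hlt)

/-- The submodule of test functions. -/
def testSub (V : Type*) [NormedAddCommGroup V] [InnerProductSpace ℝ V] : Submodule ℝ (V → ℝ) where
  carrier := {φ | Test φ}
  add_mem' := fun ha hb => Test.add ha hb
  zero_mem' := ⟨contDiff_const, HasCompactSupport.zero⟩
  smul_mem' := fun c _ h => h.const_mul c

/-- Riesz representation for functionals on test functions bounded in L². -/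
theorem exists_repr (Λ : testSub V →ₗ[ℝ] ℝ) {C : ℝ} (hC : 0 ≤ C)
    (h : ∀ φ : testSub V, |Λ φ| ≤ C * nn (φ : V → ℝ)) :
    ∃ v : V → ℝ, MemLp v 2 (volume : Measure V) ∧
      ∀ φ : testSub V, Λ φ = ∫ x, v x * (φ : V → ℝ) x := by
  classical
  let ι : testSub V →ₗ[ℝ] Lp ℝ 2 (volume : Measure V) :=
    { toFun := fun φ => (Test.memLp φ.2 (2 : ℝ≥0∞)).toLp (φ : V → ℝ)
      map_add' := by
        intro a b
        rw [← MemLp.toLp_add]
        rfl
      map_smul' := by
        intro c a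
        rw [RingHom.id_apply, ← MemLp.toLp_const_smul]
        rfl }
  have hι : ∀ φ : testSub V, ‖ι φ‖ = nn (φ : V → ℝ) := fun φ =>
    (nn_eq_norm (Test.memLp φ.2 (2 : ℝ≥0∞))).symm
  have hker : LinearMap.ker ι ≤ LinearMap.ker Λ := by
    intro φ hφ
    rw [LinearMap.mem_ker] at hφ ⊢
    have h1 := h φ
    rw [← hι φ, hφ, norm_zero, mul_zero] at h1
    exact abs_eq_zero.mp (le_antisymm h1 (abs_nonneg _))
  -- factor through the range
  obtain ⟨g, hg⟩ : ∃ g : LinearMap.range ι →ₗ[ℝ] ℝ, ∀ φ, g (ι.rangeRestrict φ) = Λ φ := by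
    refine ⟨(LinearMap.ker ι).liftQ Λ hker ∘ₗ (ι.quotKerEquivRange.symm : _ →ₗ[ℝ] _), ?_⟩
    intro φ
    simp only [LinearMap.comp_apply]
    have : (ι.quotKerEquivRange.symm : _ →ₗ[ℝ] _) (ι.rangeRestrict φ) =
        (LinearMap.ker ι).mkQ φ := by
      simp only [LinearEquiv.coe_coe]
      rw [LinearEquiv.symm_apply_eq]
      rfl
    rw [this]
    simp
  have hgb : ∀ y : LinearMap.range ι, ‖g y‖ ≤ C * ‖y‖ := by
    rintro ⟨y, φ, rfl⟩
    have := hg φ
    have h2 : g ⟨ι φ, ⟨φ, rfl⟩⟩ = Λ φ := this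
    rw [h2, Real.norm_eq_abs]
    have h3 : ‖(⟨ι φ, ⟨φ, rfl⟩⟩ : LinearMap.range ι)‖ = nn (φ : V → ℝ) := hι φ
    rw [h3]
    exact h φ
  let G : StrongDual ℝ (LinearMap.range ι) := g.mkContinuous C hgb
  obtain ⟨G', hG', -⟩ := exists_extension_norm_eq (LinearMap.range ι) G
  let v' := (InnerProductSpace.toDual ℝ (Lp ℝ 2 (volume : Measure V))).symm G'
  refine ⟨v', Lp.memLp v', ?_⟩
  intro φ
  have h4 : G' (ι φ) = Λ φ := by
    have := hG' ⟨ι φ, ⟨φ, rfl⟩⟩
    rw [this]
    exact hg φ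
  have h5 : ⟪v', ι φ⟫ = Λ φ := by
    rw [← h4]
    exact InnerProductSpace.toDual_symm_apply
  rw [← h5]
  have hm := Test.memLp φ.2 (2 : ℝ≥0∞)
  have h6 := integral_mul_eq_inner (Lp.memLp v') hm
  rw [h6]
  congr 1
  exact (Lp.toLp_coeFn v' (Lp.memLp v')).symm

end Crest.Agent.R202.Ell
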