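import Crest.Agent.R202.EllSeq

/-!
# Fourier series of smooth functions supported in a cube of side one

`ee k x = exp(2πi k·x)`, `cf ψ k = ∫ ψ ee(-k)`.
-/

set_option autoImplicit false

noncomputable section

open scoped BigOperators ComplexConjugate FourierTransform ContDiff
open Filter MeasureTheory

namespace Crest.Agent.R202.Ell

variable {n : ℕ}

/-! ### summability of powers of the weight -/

lemma summable_prod {g : ℤ → ℝ} (hg0 : ∀ m, 0 ≤ g m) (hg : Summable g) :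
    ∀ n : ℕ, Summable fun k : Fin n → ℤ => ∏ i, g (k i) := by
  intro n
  induction n with
  | zero => exact summable_of_hasFiniteSupport (Set.toFinite _)
  | succ n ih =>
    rw [← (Fin.consEquiv fun _ => ℤ).summable_iff]
    have h := hg.mul_of_nonneg ih hg0 (fun k => Finset.prod_nonneg fun i _ => hg0 _)
    refine h.congr fun p => ?_
    simp [Fin.prod_univ_succ, Fin.consEquiv]

lemma summable_one_add_abs_inv_sq : Summable fun m : ℤ => ((1 + |(m : ℝ)|) ^ 2)⁻¹ := by
  have h1 : Summable fun m : ℕ => ((1 + (m : ℝ)) ^ 2)⁻¹ := by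
    have := (summable_nat_add_iff 1).2 (Real.summable_nat_pow_inv.2 (by norm_num : 1 < 2))
    refine this.congr fun m => ?_
    push_cast
    rw [add_comm]
  refine Summable.of_nat_of_neg (h1.congr fun m => ?_) (h1.congr fun m => ?_)
  · simp
  · simp

lemma prod_le_J_pow (k : Fin n → ℤ) : ∏ i, (1 + |(k i : ℝ)|) ^ 2 ≤ J k ^ (2 * n) := by
  have h : ∀ i ∈ (Finset.univ : Finset (Fin n)), (1 + |(k i : ℝ)|) ^ 2 ≤ J k ^ 2 := by
    intro i _
    refine pow_le_pow_left₀ (by positivity) ?_ 2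
    unfold J
    have := Finset.single_le_sum (f := fun i => |(k i : ℝ)|) (fun i _ => abs_nonneg _)
      (Finset.mem_univ i)
    linarith
  calc ∏ i, (1 + |(k i : ℝ)|) ^ 2 ≤ ∏ _i : Fin n, J k ^ 2 :=
        Finset.prod_le_prod (fun i _ => by positivity) h
    _ = J k ^ (2 * n) := by simp [← pow_mul]

lemma summable_J_inv {M : ℕ} (hM : 2 * n ≤ M) : Summable fun k : Fin n → ℤ => (J k ^ M)⁻¹ := by
  have h := summable_prod (fun m => by positivity) summable_one_add_abs_inv_sq n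
  refine Summable.of_nonneg_of_le (fun k => by have := J_pos k; positivity) (fun k => ?_) h
  have h1 := prod_le_J_pow k
  have h2 : J k ^ (2 * n) ≤ J k ^ M := pow_le_pow_right₀ (one_le_J k) hM
  rw [Finset.prod_inv_distrib]
  exact inv_anti₀ (Finset.prod_pos fun i _ => by positivity) (h1.trans h2)

/-! ### exponentials and coefficients -/

/-- `exp(2πi k·x)`. -/
def ee (k : Fin n → ℤ) (x : EuclideanSpace ℝ (Fin n)) : ℂ :=
  Complex.exp (2 * Real.pi * Complex.I * ∑ i, ((k i : ℝ) : ℂ) * ((x i : ℝ) : ℂ))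

lemma ee_eq_real (k : Fin n → ℤ) (x : EuclideanSpace ℝ (Fin n)) :
    ee k x = Complex.exp (((2 * Real.pi * ∑ i, (k i : ℝ) * x i : ℝ) : ℂ) * Complex.I) := by
  unfold ee
  congr 1
  push_cast
  ring

lemma norm_ee (k : Fin n → ℤ) (x : EuclideanSpace ℝ (Fin n)) : ‖ee k x‖ = 1 := by
  rw [ee_eq_real, Complex.norm_exp_ofReal_mul_I]

lemma ee_add (k l : Fin n → ℤ) (x : EuclideanSpace ℝ (Fin n)) : ee (k + l) x = ee k x * ee l x := by
  unfold ee
  rw [← Complex.exp_add]
  congr 1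
  simp only [Pi.add_apply, Int.cast_add, Complex.ofReal_add, add_mul, Finset.sum_add_distrib,
    mul_add]

lemma ee_zero (x : EuclideanSpace ℝ (Fin n)) : ee (0 : Fin n → ℤ) x = 1 := by
  simp [ee]

lemma ee_neg (k : Fin n → ℤ) (x : EuclideanSpace ℝ (Fin n)) : ee (-k) x = conj (ee k x) := by
  rw [ee_eq_real, ee_eq_real, ← Complex.exp_conj]
  congr 1
  rw [map_mul, Complex.conj_ofReal, Complex.conj_I]
  simp

lemma contDiff_coord (i : Fin n) :
    ContDiff ℝ ∞ (fun x : EuclideanSpace ℝ (Fin n) => ((x i : ℝ) : ℂ)) :=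
  Complex.ofRealCLM.contDiff.comp (EuclideanSpace.proj i : _ →L[ℝ] ℝ).contDiff

lemma contDiff_ee (k : Fin n → ℤ) : ContDiff ℝ ∞ (ee k) := by
  unfold ee
  refine ContDiff.cexp ?_
  refine contDiff_const.mul ?_
  exact ContDiff.sum fun i _ => contDiff_const.mul (contDiff_coord i)

/-- the coefficient `∫ ψ ee(-k)`. -/
def cf (ψ : EuclideanSpace ℝ (Fin n) → ℂ) (k : Fin n → ℤ) : ℂ := ∫ x, ψ x * ee (-k) x

/-- integer frequency as a vector. -/
def fv (k : Fin n → ℤ) : EuclideanSpace ℝ (Fin n) := WithLp.toLp 2 fun i => (k i : ℝ)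

lemma J_le_fv (k : Fin n → ℤ) : J k ≤ (n + 1) * (1 + ‖fv k‖) := by
  unfold J
  have h : ∀ i ∈ (Finset.univ : Finset (Fin n)), |(k i : ℝ)| ≤ ‖fv k‖ := by
    intro i _
    have := PiLp.norm_apply_le (fv k) i
    simpa [fv] using this
  have h2 := Finset.sum_le_sum h
  simp only [Finset.sum_const, Finset.card_univ, Fintype.card_fin, nsmul_eq_mul] at h2
  nlinarith [norm_nonneg (fv k)]

lemma cf_eq_fourier (ψ : EuclideanSpace ℝ (Fin n) → ℂ) (k : Fin n → ℤ) :
    cf ψ k = 𝓕 ψ (fv k) := by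
  rw [Real.fourier_eq']
  unfold cf
  refine integral_congr_ae (Eventually.of_forall fun x => ?_)
  simp only [smul_eq_mul]
  rw [mul_comm, ee_eq_real]
  congr 2
  simp [fv, PiLp.inner_apply]

/-- rapid decay of the coefficients of a test function. -/
lemma cf_decay {ψ : EuclideanSpace ℝ (Fin n) → ℂ} (h1 : HasCompactSupport ψ)
    (h2 : ContDiff ℝ ∞ ψ) (N : ℕ) : ∃ C, ∀ k, J k ^ N * ‖cf ψ k‖ ≤ C := by
  let f : SchwartzMap (EuclideanSpace ℝ (Fin n)) ℂ := h1.toSchwartzMap h2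
  have hf : (f : EuclideanSpace ℝ (Fin n) → ℂ) = ψ := rfl
  have h := SchwartzMap.one_add_le_sup_seminorm_apply (𝕜 := ℝ) (m := (N, 0)) (k := N) (n := 0)
    le_rfl le_rfl (𝓕 f)
  set S := (2 : ℝ) ^ N * ((Finset.Iic ((N, 0) : ℕ × ℕ)).sup
    fun m => SchwartzMap.seminorm ℝ m.1 m.2) (𝓕 f) with hS
  refine ⟨(n + 1 : ℝ) ^ N * S, fun k => ?_⟩
  have h3 := h (fv k)
  rw [norm_iteratedFDeriv_zero, SchwartzMap.fourier_coe, hf, ← cf_eq_fourier] at h3
  have h4 := J_le_fv k
  have h5 : J k ^ N ≤ ((n + 1) * (1 + ‖fv k‖)) ^ N := pow_le_pow_left₀ (J_pos k).le h4 N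
  calc J k ^ N * ‖cf ψ k‖ ≤ ((n + 1) * (1 + ‖fv k‖)) ^ N * ‖cf ψ k‖ := by gcongr
    _ = (n + 1 : ℝ) ^ N * ((1 + ‖fv k‖) ^ N * ‖cf ψ k‖) := by rw [mul_pow]; ring
    _ ≤ (n + 1 : ℝ) ^ N * S := by gcongr

lemma summable_of_decay {w : (Fin n → ℤ) → ℂ} (hw : ∀ N : ℕ, ∃ C, ∀ k, J k ^ N * ‖w k‖ ≤ C)
    (N : ℕ) : Summable fun k => J k ^ N * ‖w k‖ := by
  obtain ⟨C, hC⟩ := hw (N + 2 * n)
  refine Summable.of_nonneg_of_le (fun k => by have := J_pos k; positivity) (fun k => ?_)
    ((summable_J_inv (n := n) le_rfl).mul_left C)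
  have hJ := J_pos k
  have h1 := hC k
  rw [← div_eq_mul_inv, le_div_iff₀ (by positivity)]
  calc J k ^ N * ‖w k‖ * J k ^ (2 * n) = J k ^ (N + 2 * n) * ‖w k‖ := by ring
    _ ≤ C := h1

lemma summable_cf {ψ : EuclideanSpace ℝ (Fin n) → ℂ} (h1 : HasCompactSupport ψ)
    (h2 : ContDiff ℝ ∞ ψ) (N : ℕ) : Summable fun k => J k ^ N * ‖cf ψ k‖ :=
  summable_of_decay (cf_decay h1 h2) N

/-! ### the torus function -/

/-- representative in the cube centred at `c`. -/
def rep (c : EuclideanSpace ℝ (Fin n)) (t : UnitAddTorus (Fin n)) : EuclideanSpace ℝ (Fin n) :=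
  WithLp.toLp 2 fun i => ((AddCircle.equivIoc (1 : ℝ) (c i - 1 / 2) (t i) : Set.Ioc _ _) : ℝ)

/-- projection to the torus. -/
def prj (x : EuclideanSpace ℝ (Fin n)) : UnitAddTorus (Fin n) := fun i => ((x i : ℝ) : UnitAddCircle)

lemma rep_prj (c x : EuclideanSpace ℝ (Fin n))
    (hx : ∀ i, x i ∈ Set.Ioc (c i - 1 / 2) (c i - 1 / 2 + 1)) : rep c (prj x) = x := by
  unfold rep prj
  ext i
  simp only
  rw [AddCircle.equivIoc_coe_eq (hx i)]

lemma mFourier_prj (k : Fin n → ℤ) (x : EuclideanSpace ℝ (Fin n)) :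
    UnitAddTorus.mFourier k (prj x) = ee k x := by
  unfold prj ee UnitAddTorus.mFourier
  simp only [ContinuousMap.coe_mk]
  rw [Finset.mul_sum, Complex.exp_sum]
  refine Finset.prod_congr rfl fun i _ => ?_
  rw [fourier_coe_apply]
  congr 1
  push_cast
  ring

lemma continuous_torusFun {ψ : EuclideanSpace ℝ (Fin n) → ℂ} (hψ : Continuous ψ)
    (c : EuclideanSpace ℝ (Fin n)) {r : ℝ} (hr : r < 1 / 2)
    (hsupp : ∀ x, r ≤ ‖x - c‖ → ψ x = 0) : Continuous fun t => ψ (rep c t) := by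
  rw [continuous_iff_continuousAt]
  intro t
  by_cases ht : ∀ i, t i ≠ ((c i - 1 / 2 : ℝ) : UnitAddCircle)
  · refine ContinuousAt.comp (g := ψ) hψ.continuousAt ?_
    refine (PiLp.continuous_toLp 2 _).continuousAt.comp ?_
    refine continuousAt_pi.2 fun i => ?_
    have h1 := AddCircle.continuousAt_equivIoc (1 : ℝ) (c i - 1 / 2) (ht i)
    have h2 : ContinuousAt (fun t : UnitAddTorus (Fin n) =>
        AddCircle.equivIoc (1 : ℝ) (c i - 1 / 2) (t i)) t :=
      ContinuousAt.comp (f := fun t : UnitAddTorus (Fin n) => t i) h1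
        (continuous_apply i).continuousAt
    exact continuous_subtype_val.continuousAt.comp h2
  · push Not at ht
    obtain ⟨i, hi⟩ := ht
    -- near `t`, the representative is far from `c`, so the function vanishes
    have hopen : IsOpen {t' : UnitAddTorus (Fin n) | r < ‖t' i - ((c i : ℝ) : UnitAddCircle)‖} := by
      refine isOpen_lt continuous_const ?_
      exact ((continuous_apply i).sub continuous_const).norm
    have hmem : t ∈ {t' : UnitAddTorus (Fin n) | r < ‖t' i - ((c i : ℝ) : UnitAddCircle)‖} := by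
      simp only [Set.mem_ofPred_eq]
      rw [hi, ← AddCircle.coe_sub]
      have : ‖((c i - 1 / 2 - c i : ℝ) : UnitAddCircle)‖ = 1 / 2 := by
        have e : (c i - 1 / 2 - c i : ℝ) = -(1 / 2) := by ring
        rw [e, AddCircle.coe_neg, norm_neg]
        have := AddCircle.norm_half_period_eq (1 : ℝ)
        simpa using this
      rw [this]
      exact hr
    have hzero : ∀ t' ∈ {t' : UnitAddTorus (Fin n) | r < ‖t' i - ((c i : ℝ) : UnitAddCircle)‖},
        ψ (rep c t') = 0 := by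
      intro t' ht'
      apply hsupp
      simp only [Set.mem_ofPred_eq] at ht'
      have h1 : ‖(rep c t' - c) i‖ ≤ ‖rep c t' - c‖ := PiLp.norm_apply_le _ i
      refine le_trans ?_ h1
      have h2 : t' i = (((rep c t') i : ℝ) : UnitAddCircle) := by
        unfold rep
        simp only
        exact AddCircle.coe_equivIoc.symm
      rw [h2, ← AddCircle.coe_sub] at ht'
      refine ht'.le.trans ?_
      have h3 : ‖(((rep c t') i - c i : ℝ) : UnitAddCircle)‖ ≤ |(rep c t') i - c i| := by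
        rw [UnitAddCircle.norm_eq]
        have := round_le ((rep c t') i - c i) 0
        simpa using this
      simpa using h3
    have : (fun t => ψ (rep c t)) =ᶠ[nhds t] fun _ => 0 := by
      filter_upwards [hopen.mem_nhds hmem] with t' ht'
      exact hzero t' ht'
    exact continuousAt_const.congr this.symm

lemma mem_box_of_norm_lt {c x : EuclideanSpace ℝ (Fin n)} (h : ‖x - c‖ < 1 / 2) (i : Fin n) :
    x i ∈ Set.Ioc (c i - 1 / 2) (c i - 1 / 2 + 1) := by
  have h1 : ‖(x - c) i‖ ≤ ‖x - c‖ := PiLp.norm_apply_le _ i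
  have h2 : |x i - c i| < 1 / 2 := by
    have : (x - c) i = x i - c i := rfl
    rw [this, Real.norm_eq_abs] at h1
    linarith
  rw [abs_lt] at h2
  constructor <;> linarith [h2.1, h2.2]

lemma mFourierCoeff_torusFun {ψ : EuclideanSpace ℝ (Fin n) → ℂ}
    (c : EuclideanSpace ℝ (Fin n)) {r : ℝ} (hr : r < 1 / 2)
    (hsupp : ∀ x, r ≤ ‖x - c‖ → ψ x = 0) (k : Fin n → ℤ) :
    UnitAddTorus.mFourierCoeff (fun t => ψ (rep c t)) k = cf ψ k := by
  rw [UnitAddTorus.mFourierCoeff_eq_integral _ k (fun i => c i - 1 / 2)]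
  have hS : MeasurableSet {x : Fin n → ℝ | ∀ i, x i ∈ Set.Ioc (c i - 1 / 2) (c i - 1 / 2 + 1)} := by
    have : {x : Fin n → ℝ | ∀ i, x i ∈ Set.Ioc (c i - 1 / 2) (c i - 1 / 2 + 1)} =
        Set.univ.pi fun i => Set.Ioc (c i - 1 / 2) (c i - 1 / 2 + 1) := by
      ext x; simp
    rw [this]
    exact MeasurableSet.univ_pi fun i => measurableSet_Ioc
  have e1 : ∫ x in {x : Fin n → ℝ | ∀ i, x i ∈ Set.Ioc (c i - 1 / 2) (c i - 1 / 2 + 1)},
      (UnitAddTorus.mFourier (-k) fun i => ((x i : ℝ) : UnitAddCircle)) •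
        ψ (rep c fun i => ((x i : ℝ) : UnitAddCircle)) =
      ∫ x in {x : Fin n → ℝ | ∀ i, x i ∈ Set.Ioc (c i - 1 / 2) (c i - 1 / 2 + 1)},
        (fun y : EuclideanSpace ℝ (Fin n) => ψ y * ee (-k) y) (WithLp.toLp 2 x) := by
    refine setIntegral_congr_fun hS fun x hx => ?_
    have h1 : (fun i => ((x i : ℝ) : UnitAddCircle)) = prj (WithLp.toLp 2 x) := rfl
    simp only [h1]
    rw [rep_prj c (WithLp.toLp 2 x) hx, mFourier_prj, smul_eq_mul, mul_comm]
  rw [e1, setIntegral_eq_integral_of_forall_compl_eq_zero]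
  · rw [cf]
    exact (PiLp.volume_preserving_toLp (Fin n)).integral_comp
      (MeasurableEquiv.toLp 2 (Fin n → ℝ)).measurableEmbedding
      (fun y : EuclideanSpace ℝ (Fin n) => ψ y * ee (-k) y)
  · intro x hx
    have : ψ (WithLp.toLp 2 x) = 0 := by
      apply hsupp
      by_contra hlt
      push Not at hlt
      exact hx fun i => mem_box_of_norm_lt (x := WithLp.toLp 2 x) (hlt.trans hr) i
    simp [this]

/-- **Fourier expansion** of a test function supported near `c`, valid in the cube around `c`. -/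
theorem hasSum_cf {ψ : EuclideanSpace ℝ (Fin n) → ℂ} (h1 : HasCompactSupport ψ)
    (h2 : ContDiff ℝ ∞ ψ) (c : EuclideanSpace ℝ (Fin n)) {r : ℝ} (hr : r < 1 / 2)
    (hsupp : ∀ x, r ≤ ‖x - c‖ → ψ x = 0) {x : EuclideanSpace ℝ (Fin n)} (hx : ‖x - c‖ < 1 / 2) :
    HasSum (fun k => cf ψ k * ee k x) (ψ x) := by
  let f : C(UnitAddTorus (Fin n), ℂ) := ⟨fun t => ψ (rep c t),
    continuous_torusFun h2.continuous c hr hsupp⟩
  have hcoef : ∀ k, UnitAddTorus.mFourierCoeff (⇑f) k = cf ψ k :=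
    mFourierCoeff_torusFun c hr hsupp
  have hs : Summable (UnitAddTorus.mFourierCoeff ⇑f) := by
    have h := summable_cf h1 h2 0
    simp only [pow_zero, one_mul] at h
    refine Summable.of_norm (h.congr fun k => ?_)
    rw [hcoef]
  have h3 := UnitAddTorus.hasSum_mFourier_series_apply_of_summable hs (prj x)
  have h4 : f (prj x) = ψ x := by
    change ψ (rep c (prj x)) = ψ x
    rw [rep_prj c x (mem_box_of_norm_lt hx)]
  rw [h4] at h3
  have h5 : (fun k => cf ψ k * ee k x) = fun k =>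
      UnitAddTorus.mFourierCoeff (⇑f) k • (UnitAddTorus.mFourier k) (prj x) := by
    funext k
    rw [hcoef, mFourier_prj, smul_eq_mul]
  rw [h5]
  exact h3

end Crest.Agent.R202.Ell
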