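import Crest.Agent.R202.EllEnergy
import Crest.Agent.R202.EllCube

/-!
# Coercivity at the sequence level from pointwise ellipticity
-/

set_option autoImplicit false

noncomputable section

open scoped BigOperators ComplexConjugate FourierTransform ContDiff
open Filter MeasureTheory

namespace Crest.Agent.R202.Ell

variable {n : ℕ}

/-- the unit box centred at `c`. -/
def box (c : EuclideanSpace ℝ (Fin n)) : Set (Fin n → ℝ) :=
  {x : Fin n → ℝ | ∀ i, x i ∈ Set.Ioc (c i - 1 / 2) (c i - 1 / 2 + 1)}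

lemma box_eq_pi (c : EuclideanSpace ℝ (Fin n)) :
    box c = Set.univ.pi fun i => Set.Ioc (c i - 1 / 2) (c i - 1 / 2 + 1) := by
  ext x; simp [box]

lemma measurableSet_box (c : EuclideanSpace ℝ (Fin n)) : MeasurableSet (box c) := by
  rw [box_eq_pi]
  exact MeasurableSet.univ_pi fun i => measurableSet_Ioc

/-- integral of a function over the unit box. -/
def bi (c : EuclideanSpace ℝ (Fin n)) (F : EuclideanSpace ℝ (Fin n) → ℂ) : ℂ :=
  ∫ x in box c, F (WithLp.toLp 2 x)

lemma integrableOn_box (c : EuclideanSpace ℝ (Fin n)) {F : EuclideanSpace ℝ (Fin n) → ℂ}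
    (hF : Continuous F) : IntegrableOn (fun x => F (WithLp.toLp 2 x)) (box c) := by
  have hc : Continuous fun x : Fin n → ℝ => F (WithLp.toLp 2 x) :=
    hF.comp (PiLp.continuous_toLp 2 _)
  have hK : IsCompact (Set.univ.pi fun i : Fin n => Set.Icc (c i - 1 / 2) (c i - 1 / 2 + 1)) :=
    isCompact_univ_pi fun i => isCompact_Icc
  refine (hc.continuousOn.integrableOn_compact hK).mono_set ?_
  rw [box_eq_pi]
  exact Set.pi_mono fun i _ => Set.Ioc_subset_Icc_self

lemma bi_ee (c : EuclideanSpace ℝ (Fin n)) (m : Fin n → ℤ) :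
    bi c (fun x => ee (-m) x) = if m = 0 then 1 else 0 := by
  have h1 : bi c (fun x => ee (-m) x) =
      UnitAddTorus.mFourierCoeff (⇑(UnitAddTorus.mFourier (0 : Fin n → ℤ))) m := by
    rw [UnitAddTorus.mFourierCoeff_eq_integral _ m (fun i => c i - 1 / 2)]
    unfold bi
    refine setIntegral_congr_fun (measurableSet_box c) fun x _ => ?_
    have h1 : (fun i => ((x i : ℝ) : UnitAddCircle)) = prj (WithLp.toLp 2 x) := rfl
    simp only [h1]
    rw [mFourier_prj, mFourier_prj, ee_zero, smul_eq_mul, mul_one]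
  rw [h1]
  have h := UnitAddTorus.mFourierBasis_repr (UnitAddTorus.mFourierBasis (0 : Fin n → ℤ)) m
  rw [HilbertBasis.repr_self, UnitAddTorus.coe_mFourierBasis,
    UnitAddTorus.mFourierCoeff_toLp] at h
  rw [← h]
  by_cases hm : m = 0
  · subst hm; simp
  · simp [hm]

lemma bi_cf (c : EuclideanSpace ℝ (Fin n)) {ψ : EuclideanSpace ℝ (Fin n) → ℂ} {r : ℝ}
    (hr : r < 1 / 2) (hsupp : ∀ x, r ≤ ‖x - c‖ → ψ x = 0) (m : Fin n → ℤ) :
    bi c (fun x => ψ x * ee (-m) x) = cf ψ m := by
  unfold bi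
  rw [setIntegral_eq_integral_of_forall_compl_eq_zero]
  · rw [cf]
    exact (PiLp.volume_preserving_toLp (Fin n)).integral_comp
      (MeasurableEquiv.toLp 2 (Fin n → ℝ)).measurableEmbedding
      (fun y : EuclideanSpace ℝ (Fin n) => ψ y * ee (-m) y)
  · intro x hx
    have : ψ (WithLp.toLp 2 x) = 0 := by
      apply hsupp
      by_contra hlt
      push Not at hlt
      exact hx fun i => mem_box_of_norm_lt (x := WithLp.toLp 2 x) (hlt.trans hr) i
    simp [this]

/-- Fourier coefficients of the matrix field `δ + B`. -/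
def am (B : Fin n → Fin n → EuclideanSpace ℝ (Fin n) → ℂ) (i j : Fin n) (m : Fin n → ℤ) : ℂ :=
  (if i = j ∧ m = 0 then 1 else 0) + cf (B i j) m

lemma bi_am (c : EuclideanSpace ℝ (Fin n)) {B : Fin n → Fin n → EuclideanSpace ℝ (Fin n) → ℂ}
    {r : ℝ} (hr : r < 1 / 2) (hcont : ∀ i j, Continuous (B i j))
    (hsupp : ∀ i j x, r ≤ ‖x - c‖ → B i j x = 0) (i j : Fin n) (m : Fin n → ℤ) :
    bi c (fun x => ((if i = j then 1 else 0) + B i j x) * ee (-m) x) = am B i j m := by
  have h1 : bi c (fun x => ((if i = j then 1 else 0) + B i j x) * ee (-m) x) =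
      bi c (fun x => (if i = j then 1 else 0) * ee (-m) x) + bi c (fun x => B i j x * ee (-m) x) := by
    have i1 := integrableOn_box c (F := fun x => (if i = j then 1 else 0) * ee (-m) x)
      (continuous_const.mul (contDiff_ee _).continuous)
    have i2 := integrableOn_box c (F := fun x => B i j x * ee (-m) x)
      ((hcont i j).mul (contDiff_ee _).continuous)
    have := integral_add i1 i2
    unfold bi
    rw [← this]
    refine integral_congr_ae (Eventually.of_forall fun x => ?_)
    simp only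
    ring
  rw [h1, bi_cf c hr (hsupp i j)]
  unfold am
  congr 1
  have h2 : bi c (fun x => (if i = j then 1 else 0) * ee (-m) x) =
      (if i = j then 1 else 0) * bi c (fun x => ee (-m) x) := by
    unfold bi
    rw [← integral_const_mul]
  rw [h2, bi_ee]
  by_cases h : i = j <;> by_cases hm : m = 0 <;> simp [h, hm]

/-- trigonometric polynomial. -/
def tp (S : Finset (Fin n → ℤ)) (g : (Fin n → ℤ) → ℂ) (x : EuclideanSpace ℝ (Fin n)) : ℂ :=
  ∑ l ∈ S, g l * ee l x

lemma continuous_tp (S : Finset (Fin n → ℤ)) (g : (Fin n → ℤ) → ℂ) : Continuous (tp S g) := by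
  unfold tp
  exact continuous_finsetSum _ fun l _ => continuous_const.mul (contDiff_ee l).continuous

lemma bi_tp (c : EuclideanSpace ℝ (Fin n)) {B : Fin n → Fin n → EuclideanSpace ℝ (Fin n) → ℂ}
    {r : ℝ} (hr : r < 1 / 2) (hcont : ∀ i j, Continuous (B i j))
    (hsupp : ∀ i j x, r ≤ ‖x - c‖ → B i j x = 0) (i j : Fin n) (S : Finset (Fin n → ℤ))
    (g h : (Fin n → ℤ) → ℂ) :
    bi c (fun x => ((if i = j then 1 else 0) + B i j x) * tp S g x * conj (tp S h x)) =
      ∑ k ∈ S, ∑ l ∈ S, conj (h k) * am B i j (k - l) * g l := by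
  have hexp : ∀ x, ((if i = j then 1 else 0) + B i j x) * tp S g x * conj (tp S h x) =
      ∑ k ∈ S, ∑ l ∈ S, (conj (h k) * g l) *
        (((if i = j then 1 else 0) + B i j x) * ee (-(k - l)) x) := by
    intro x
    unfold tp
    rw [map_sum, Finset.mul_sum]
    refine Finset.sum_congr rfl fun k _ => ?_
    rw [Finset.mul_sum, Finset.sum_mul]
    refine Finset.sum_congr rfl fun l _ => ?_
    have : -(k - l) = l + (-k) := by abel
    rw [this, ee_add, ee_neg, map_mul]
    ring
  have hint : ∀ k l, IntegrableOn (fun x => (fun y : EuclideanSpace ℝ (Fin n) =>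
      (conj (h k) * g l) * (((if i = j then 1 else 0) + B i j y) * ee (-(k - l)) y))
        (WithLp.toLp 2 x)) (box c) := by
    intro k l
    exact integrableOn_box c (F := fun y : EuclideanSpace ℝ (Fin n) =>
      (conj (h k) * g l) * (((if i = j then 1 else 0) + B i j y) * ee (-(k - l)) y))
      (continuous_const.mul ((continuous_const.add (hcont i j)).mul (contDiff_ee _).continuous))
  simp only [hexp]
  unfold bi
  rw [integral_finsetSum _ fun k _ => integrable_finsetSum _ fun l _ => hint k l]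
  refine Finset.sum_congr rfl fun k _ => ?_
  rw [integral_finsetSum _ fun l _ => hint k l]
  refine Finset.sum_congr rfl fun l _ => ?_
  rw [integral_const_mul]
  have := bi_am c hr hcont hsupp i j (k - l)
  unfold bi at this
  rw [this]
  ring

/-- pointwise ellipticity, real form. -/
def Elliptic (lam : ℝ) (B : Fin n → Fin n → EuclideanSpace ℝ (Fin n) → ℝ) : Prop :=
  ∀ x, ∀ ξ : Fin n → ℝ, lam * ∑ i, ξ i ^ 2 ≤
    ∑ i, ∑ j, ((if i = j then 1 else 0) + B i j x) * ξ i * ξ j

lemma elliptic_complex {lam : ℝ} {B : Fin n → Fin n → EuclideanSpace ℝ (Fin n) → ℝ}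
    (h : Elliptic lam B) (x : EuclideanSpace ℝ (Fin n)) (z : Fin n → ℂ) :
    lam * ∑ i, ‖z i‖ ^ 2 ≤
      (∑ i, ∑ j, ((if i = j then 1 else 0) + ((B i j x : ℝ) : ℂ)) * z i * conj (z j)).re := by
  have h1 := h x fun i => (z i).re
  have h2 := h x fun i => (z i).im
  have e1 : ∑ i, ‖z i‖ ^ 2 = ∑ i, (z i).re ^ 2 + ∑ i, (z i).im ^ 2 := by
    rw [← Finset.sum_add_distrib]
    refine Finset.sum_congr rfl fun i _ => ?_
    rw [← Complex.normSq_eq_norm_sq, Complex.normSq_apply]; ring
  have e2 : (∑ i, ∑ j, ((if i = j then 1 else 0) + ((B i j x : ℝ) : ℂ)) * z i * conj (z j)).re =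
      ∑ i, ∑ j, ((if i = j then 1 else 0) + B i j x) * (z i).re * (z j).re +
      ∑ i, ∑ j, ((if i = j then 1 else 0) + B i j x) * (z i).im * (z j).im := by
    rw [← Finset.sum_add_distrib, Complex.re_sum]
    refine Finset.sum_congr rfl fun i _ => ?_
    rw [← Finset.sum_add_distrib, Complex.re_sum]
    refine Finset.sum_congr rfl fun j _ => ?_
    have : ((if i = j then 1 else 0) + ((B i j x : ℝ) : ℂ)) =
        (((if i = j then 1 else 0) + B i j x : ℝ) : ℂ) := by
      push_cast
      split_ifs <;> simp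
    rw [this, mul_assoc, Complex.re_ofReal_mul]
    simp [Complex.mul_re]
    ring
  rw [e1, e2, mul_add]
  exact add_le_add h1 h2

lemma coercive_finite (c : EuclideanSpace ℝ (Fin n))
    {B : Fin n → Fin n → EuclideanSpace ℝ (Fin n) → ℝ}
    {r : ℝ} (hr : r < 1 / 2) (hcont : ∀ i j, Continuous (B i j))
    (hsupp : ∀ i j x, r ≤ ‖x - c‖ → B i j x = 0) {lam : ℝ} (hell : Elliptic lam B)
    (S : Finset (Fin n → ℤ)) (g : Fin n → (Fin n → ℤ) → ℂ) :
    lam * ∑ i, ∑ l ∈ S, ‖g i l‖ ^ 2 ≤
      (∑ i, ∑ j, ∑ k ∈ S, ∑ l ∈ S, conj (g j k) *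
        am (fun i j x => ((B i j x : ℝ) : ℂ)) i j (k - l) * g i l).re := by
  set Bc : Fin n → Fin n → EuclideanSpace ℝ (Fin n) → ℂ := fun i j x => ((B i j x : ℝ) : ℂ)
    with hBc
  have hcontc : ∀ i j, Continuous (Bc i j) := fun i j =>
    Complex.continuous_ofReal.comp (hcont i j)
  have hsuppc : ∀ i j x, r ≤ ‖x - c‖ → Bc i j x = 0 := fun i j x hx => by
    simp [hBc, hsupp i j x hx]
  have h0 : ∀ i, bi c (fun x => tp S (g i) x * conj (tp S (g i) x)) =
      ((∑ l ∈ S, ‖g i l‖ ^ 2 : ℝ) : ℂ) := by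
    intro i
    have := bi_tp c (B := fun _ _ _ => 0) (r := r) hr (fun _ _ => continuous_const)
      (fun _ _ _ _ => rfl) i i S (g i) (g i)
    simp only [if_true, add_zero, one_mul] at this
    rw [this]
    push_cast
    refine Finset.sum_congr rfl fun k hk => ?_
    rw [Finset.sum_eq_single k]
    · simp only [am, sub_self, true_and, if_true]
      have : cf (fun _ : EuclideanSpace ℝ (Fin n) => (0 : ℂ)) 0 = 0 := by simp [cf]
      rw [this, add_zero, mul_one, ← Complex.normSq_eq_conj_mul_self, Complex.normSq_eq_norm_sq]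
      push_cast; rfl
    · intro l _ hl
      have h1 : k - l ≠ 0 := sub_ne_zero.2 (Ne.symm hl)
      have : cf (fun _ : EuclideanSpace ℝ (Fin n) => (0 : ℂ)) (k - l) = 0 := by simp [cf]
      simp [am, h1, this]
    · intro h; exact absurd hk h
  have h1 : ∀ i j, bi c (fun x => ((if i = j then 1 else 0) + Bc i j x) * tp S (g i) x *
      conj (tp S (g j) x)) = ∑ k ∈ S, ∑ l ∈ S, conj (g j k) * am Bc i j (k - l) * g i l :=
    fun i j => bi_tp c hr hcontc hsuppc i j S (g i) (g j)
  have hc1 : ∀ i j, Continuous (fun x => ((if i = j then 1 else 0) + Bc i j x) * tp S (g i) x *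
      conj (tp S (g j) x)) := fun i j =>
    ((continuous_const.add (hcontc i j)).mul (continuous_tp S (g i))).mul
      (Complex.continuous_conj.comp (continuous_tp S (g j)))
  have hc0 : ∀ i, Continuous (fun x => tp S (g i) x * conj (tp S (g i) x)) := fun i =>
    (continuous_tp S (g i)).mul (Complex.continuous_conj.comp (continuous_tp S (g i)))
  have hI1 : bi c (fun x => ∑ i, ∑ j, ((if i = j then 1 else 0) + Bc i j x) * tp S (g i) x *
      conj (tp S (g j) x)) = ∑ i, ∑ j, ∑ k ∈ S, ∑ l ∈ S, conj (g j k) *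
        am Bc i j (k - l) * g i l := by
    have e : bi c (fun x => ∑ i, ∑ j, ((if i = j then 1 else 0) + Bc i j x) * tp S (g i) x *
        conj (tp S (g j) x)) = ∑ i, ∑ j, bi c (fun x => ((if i = j then 1 else 0) + Bc i j x) *
          tp S (g i) x * conj (tp S (g j) x)) := by
      unfold bi
      rw [integral_finsetSum _ fun i _ => integrable_finsetSum _ fun j _ =>
        integrableOn_box c (hc1 i j)]
      refine Finset.sum_congr rfl fun i _ => ?_
      rw [integral_finsetSum _ fun j _ => integrableOn_box c (hc1 i j)]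
    rw [e]
    exact Finset.sum_congr rfl fun i _ => Finset.sum_congr rfl fun j _ => h1 i j
  have hI0 : bi c (fun x => ∑ i, tp S (g i) x * conj (tp S (g i) x)) =
      ((∑ i, ∑ l ∈ S, ‖g i l‖ ^ 2 : ℝ) : ℂ) := by
    have e : bi c (fun x => ∑ i, tp S (g i) x * conj (tp S (g i) x)) =
        ∑ i, bi c (fun x => tp S (g i) x * conj (tp S (g i) x)) := by
      unfold bi
      rw [integral_finsetSum _ fun i _ => integrableOn_box c (hc0 i)]
    rw [e]
    push_cast
    refine Finset.sum_congr rfl fun i _ => ?_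
    rw [h0 i]; push_cast; rfl
  have hint1 : IntegrableOn (fun x : Fin n → ℝ => (∑ i, ∑ j, ((if i = j then 1 else 0) +
      Bc i j (WithLp.toLp 2 x)) * tp S (g i) (WithLp.toLp 2 x) *
      conj (tp S (g j) (WithLp.toLp 2 x)))) (box c) :=
    integrable_finsetSum _ fun i _ => integrable_finsetSum _ fun j _ => integrableOn_box c (hc1 i j)
  have hint0 : IntegrableOn (fun x : Fin n → ℝ => (∑ i, tp S (g i) (WithLp.toLp 2 x) *
      conj (tp S (g i) (WithLp.toLp 2 x)))) (box c) :=
    integrable_finsetSum _ fun i _ => integrableOn_box c (hc0 i)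
  have hR1 : (bi c (fun x => ∑ i, ∑ j, ((if i = j then 1 else 0) + Bc i j x) * tp S (g i) x *
      conj (tp S (g j) x))).re = ∫ x in box c, (∑ i, ∑ j, ((if i = j then 1 else 0) +
      Bc i j (WithLp.toLp 2 x)) * tp S (g i) (WithLp.toLp 2 x) *
      conj (tp S (g j) (WithLp.toLp 2 x))).re := by
    unfold bi
    exact (integral_re hint1).symm
  have hR0 : (bi c (fun x => ∑ i, tp S (g i) x * conj (tp S (g i) x))).re =
      ∫ x in box c, (∑ i, tp S (g i) (WithLp.toLp 2 x) *
      conj (tp S (g i) (WithLp.toLp 2 x))).re := by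
    unfold bi
    exact (integral_re hint0).symm
  rw [← hI1, hR1]
  have e0 : ∑ i, ∑ l ∈ S, ‖g i l‖ ^ 2 = ∫ x in box c, (∑ i, tp S (g i) (WithLp.toLp 2 x) *
      conj (tp S (g i) (WithLp.toLp 2 x))).re := by
    rw [← hR0, hI0, Complex.ofReal_re]
  rw [e0, ← integral_const_mul]
  refine integral_mono (hint0.re.const_mul lam) hint1.re fun x => ?_
  have h2 := elliptic_complex hell (WithLp.toLp 2 x) fun i => tp S (g i) (WithLp.toLp 2 x)
  refine le_trans (le_of_eq ?_) h2
  congr 1
  rw [Complex.re_sum]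
  refine Finset.sum_congr rfl fun i _ => ?_
  rw [Complex.mul_conj, Complex.ofReal_re, Complex.normSq_eq_norm_sq]

lemma tendsto_prod_self :
    Tendsto (fun S : Finset (Fin n → ℤ) => S ×ˢ S) atTop atTop := by
  refine tendsto_atTop.2 fun T => ?_
  filter_upwards [eventually_ge_atTop (T.image Prod.fst ∪ T.image Prod.snd)] with S hS
  intro p hp
  rw [Finset.mem_product]
  exact ⟨hS (Finset.mem_union_left _ (Finset.mem_image_of_mem _ hp)),
    hS (Finset.mem_union_right _ (Finset.mem_image_of_mem _ hp))⟩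

/-- **Coercivity** on `ℓ²` from pointwise ellipticity. -/
theorem coercive_am (c : EuclideanSpace ℝ (Fin n))
    {B : Fin n → Fin n → EuclideanSpace ℝ (Fin n) → ℝ}
    {r : ℝ} (hr : r < 1 / 2) (hcont : ∀ i j, Continuous (B i j))
    (hsupp : ∀ i j x, r ≤ ‖x - c‖ → B i j x = 0) {lam : ℝ} (hell : Elliptic lam B)
    (hsum : ∀ i j, Summable fun m => ‖am (fun i j x => ((B i j x : ℝ) : ℂ)) i j m‖) :
    Coercive lam (am fun i j x => ((B i j x : ℝ) : ℂ)) := by
  intro g hg
  set a := am (fun i j (x : EuclideanSpace ℝ (Fin n)) => ((B i j x : ℝ) : ℂ)) with ha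
  have hfin := coercive_finite c hr hcont hsupp hell
  have hL : Tendsto (fun S : Finset (Fin n → ℤ) => lam * ∑ i, ∑ l ∈ S, ‖g i l‖ ^ 2) atTop
      (nhds (lam * ∑ i, ∑' k, ‖g i k‖ ^ 2)) :=
    Tendsto.const_mul _ (tendsto_finsetSum _ fun i _ => (hg i).hasSum)
  have hR : Tendsto (fun S : Finset (Fin n → ℤ) => (∑ i, ∑ j, ∑ k ∈ S, ∑ l ∈ S, conj (g j k) *
        a i j (k - l) * g i l).re) atTop
      (nhds (∑ i, ∑ j, ∑' p : (Fin n → ℤ) × (Fin n → ℤ),
        conj (g j (p.1 + p.2)) * a i j p.1 * g i p.2).re) := by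
    refine (Complex.continuous_re.tendsto _).comp ?_
    refine tendsto_finsetSum _ fun i _ => tendsto_finsetSum _ fun j _ => ?_
    let X : (Fin n → ℤ) × (Fin n → ℤ) → ℂ := fun p =>
      conj (g j (p.1 + p.2)) * a i j p.1 * g i p.2
    let F : (Fin n → ℤ) × (Fin n → ℤ) → ℂ := fun q =>
      conj (g j q.1) * a i j (q.1 - q.2) * g i q.2
    let e : ((Fin n → ℤ) × (Fin n → ℤ)) ≃ ((Fin n → ℤ) × (Fin n → ℤ)) :=
      { toFun := fun p => (p.1 + p.2, p.2)
        invFun := fun q => (q.1 - q.2, q.2)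
        left_inv := fun p => by simp
        right_inv := fun q => by simp }
    have hFe : ∀ p, F (e p) = X p := by
      intro p
      have h1 : (e p).1 = p.1 + p.2 := rfl
      have h2 : (e p).2 = p.2 := rfl
      simp only [F, X, h1, h2, add_sub_cancel_right]
    have hX : Summable X := by
      have h := (conv_bound (α := fun m => ‖a i j m‖) (fun m => norm_nonneg _) (hsum i j)
        (γ := fun k => ‖g j k‖) (β := fun k => ‖g i k‖) (hg j) (hg i) one_pos).1
      refine Summable.of_norm_bounded h (fun p => ?_)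
      simp only [X]
      rw [norm_mul, norm_mul, RCLike.norm_conj, abs_norm, abs_norm]
      apply le_of_eq; ring
    have hF : Summable F := by
      rw [← e.summable_iff]
      exact hX.congr fun p => (hFe p).symm
    have hts : ∑' p, X p = ∑' q, F q := by
      rw [← e.tsum_eq F]
      exact tsum_congr fun p => (hFe p).symm
    change Tendsto _ atTop (nhds (∑' p, X p))
    rw [hts]
    have h3 := hF.hasSum.comp tendsto_prod_self
    refine h3.congr fun S => ?_
    simp only [Function.comp]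
    rw [Finset.sum_product]
  exact le_of_tendsto_of_tendsto' hL hR fun S => hfin S g

end Crest.Agent.R202.Ell
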