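import Crest.Agent.R202.EllBasic

/-! Row 202: elliptic regularity, part 2: convolution with test functions, difference quotients,
extension of weak equations to compactly supported H¹ test functions. -/

set_option autoImplicit false
open MeasureTheory Filter Topology Set
open scoped ENNReal NNReal ContDiff RealInnerProductSpace Convolution

namespace Crest.Agent.R202.Ell

variable {V : Type*} [NormedAddCommGroup V] [InnerProductSpace ℝ V] [FiniteDimensional ℝ V]
  [MeasurableSpace V] [BorelSpace V]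

/-- convolution of `u` with a test function -/
noncomputable def cv (u ρ : V → ℝ) (y : V) : ℝ := ∫ x, u x * ρ (y - x)

theorem cv_eq (u ρ : V → ℝ) : cv u ρ = (u ⋆[ContinuousLinearMap.mul ℝ ℝ, volume] ρ) := by
  ext y; rfl

theorem contDiff_cv {u ρ : V → ℝ} (hu : LocallyIntegrable u volume) (hρ : Test ρ) :
    ContDiff ℝ ∞ (cv u ρ) := by
  rw [cv_eq]
  exact hρ.2.contDiff_convolution_right _ hu hρ.1

theorem dd_cv {u ρ : V → ℝ} (hu : LocallyIntegrable u volume) (hρ : Test ρ) (e y : V) :
    dd e (cv u ρ) y = cv u (dd e ρ) y := by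
  unfold dd
  rw [cv_eq, (hρ.2.hasFDerivAt_convolution_right _ hu (hρ.1.of_le (by simp)) y).fderiv,
    convolution_precompR_apply _ hu (hρ.2.fderiv (𝕜 := ℝ)) (hρ.1.continuous_fderiv (by simp))]
  rfl

omit [MeasurableSpace V] [BorelSpace V] [FiniteDimensional ℝ V] in
theorem Test.reflect {φ : V → ℝ} (h : Test φ) (a : V) : Test (fun x => φ (a - x)) := by
  refine ⟨h.1.comp (contDiff_const.sub contDiff_id), ?_⟩
  exact h.2.comp_homeomorph (Homeomorph.subLeft a)

omit [MeasurableSpace V] [BorelSpace V] [FiniteDimensional ℝ V] in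
theorem dd_reflect {φ : V → ℝ} (h : Test φ) (e a x : V) :
    dd e (fun x => φ (a - x)) x = - dd e φ (a - x) := by
  unfold dd
  have h1 : HasFDerivAt φ (fderiv ℝ φ (a - x)) (a - x) :=
    (h.1.differentiable (by simp) (a - x)).hasFDerivAt
  have h2 : HasFDerivAt (fun x : V => a - x) (-(ContinuousLinearMap.id ℝ V)) x := by
    have h0 := (hasFDerivAt_id (𝕜 := ℝ) x).const_sub a
    exact h0
  have h3 := h1.comp x h2
  have h4 : fderiv ℝ (fun x => φ (a - x)) x =
    (fderiv ℝ φ (a - x)).comp (-(ContinuousLinearMap.id ℝ V)) := h3.fderiv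
  rw [h4]
  simp

theorem dd_cv_WD {u v ρ : V → ℝ} (hu : LocallyIntegrable u volume) (hρ : Test ρ) {e : V}
    (h : WD e u v) (y : V) : dd e (cv u ρ) y = cv v ρ y := by
  rw [dd_cv hu hρ]
  have h1 := h _ (hρ.reflect y)
  simp_rw [dd_reflect hρ] at h1
  simp only [mul_neg, integral_neg, neg_inj] at h1
  exact h1

theorem hasCompactSupport_cv {u ρ : V → ℝ} (hu : HasCompactSupport u) (hρ : HasCompactSupport ρ) :
    HasCompactSupport (cv u ρ) := by
  rw [cv_eq]
  exact HasCompactSupport.convolution _ hu hρ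

/-- The pairing of `u` with a translated test function is differentiable. -/
theorem hasDerivAt_pair {u φ : V → ℝ} (hu : LocallyIntegrable u volume) (hφ : Test φ) (e : V)
    (s : ℝ) : HasDerivAt (fun s : ℝ => ∫ x, u x * φ (x + s • e))
      (∫ x, u x * dd e φ (x + s • e)) s := by
  -- F s = cv u φˇ (-(s e))
  set ρ : V → ℝ := fun x => φ (0 - x) with hρdef
  have hρ : Test ρ := hφ.reflect 0
  have hF : (fun s : ℝ => ∫ x, u x * φ (x + s • e)) = fun s : ℝ => cv u ρ (-(s • e)) := by
    ext s
    unfold cv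
    congr 1; ext x
    simp only [hρdef]
    congr 2
    abel
  rw [hF]
  have h1 : HasFDerivAt (cv u ρ) (fderiv ℝ (cv u ρ) (-(s • e))) (-(s • e)) :=
    ((contDiff_cv hu hρ).differentiable (by simp) _).hasFDerivAt
  have h2 : HasDerivAt (fun s : ℝ => -(s • e)) (-e) s := by
    have h0 := ((hasDerivAt_id s).smul_const e).fun_neg
    simpa using h0
  have h3 := h1.comp_hasDerivAt s h2
  have h4 : fderiv ℝ (cv u ρ) (-(s • e)) (-e) = ∫ x, u x * dd e φ (x + s • e) := by
    rw [map_neg]
    have := dd_cv hu hρ e (-(s • e))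
    unfold dd at this
    rw [this]
    unfold cv
    rw [← integral_neg]
    congr 1; ext x
    have h5 := dd_reflect hφ e 0 (-(s • e) - x)
    have h6 : (fderiv ℝ ρ (-(s • e) - x)) e = dd e ρ (-(s • e) - x) := rfl
    show -(u x * (fderiv ℝ ρ (-(s • e) - x)) e) = _
    rw [h6, hρdef, h5]
    have : (0 : V) - (-(s • e) - x) = x + s • e := by abel
    rw [this]
    ring
  rw [← h4]
  exact h3

theorem integral_shift (f g : V → ℝ) (a : V) :
    ∫ x, f (x + a) * g x = ∫ x, f x * g (x - a) := by
  have := integral_sub_right_eq_self (μ := (volume : Measure V)) (fun x => f (x + a) * g x) a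
  rw [← this]
  simp

/-- pairing of the difference with a test function -/
theorem pair_diff {ψ φ : V → ℝ} (hψ : MemLp ψ 2 (volume : Measure V)) (hφ : Test φ) (e : V)
    (h : ℝ) : ∫ x, (ψ (x + h • e) - ψ x) * φ x =
      (∫ x, ψ x * φ (x + (-h) • e)) - ∫ x, ψ x * φ (x + (0 : ℝ) • e) := by
  have h1 : Integrable (fun x => ψ (x + h • e) * φ x) volume :=
    (memLp_comp_add hψ _).integrable_mul (hφ.memLp 2)
  have h2 : Integrable (fun x => ψ x * φ x) volume := hψ.integrable_mul (hφ.memLp 2)
  simp_rw [sub_mul]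
  rw [integral_sub h1 h2, integral_shift]
  simp [sub_eq_add_neg]

/-- **Difference quotient bound.** -/
theorem nn_diff_le {ψ v : V → ℝ} (hψ : MemLp ψ 2 (volume : Measure V))
    (hv : MemLp v 2 (volume : Measure V)) {e : V} (hw : WD e ψ v) (h : ℝ) :
    nn (fun x => ψ (x + h • e) - ψ x) ≤ |h| * nn v := by
  apply nn_le_of_test ((memLp_comp_add hψ _).sub hψ) (by positivity [nn_nonneg v])
  intro φ hφ
  show |∫ x, (ψ (x + h • e) - ψ x) * φ x| ≤ _
  rw [pair_diff hψ hφ]
  have hloc : LocallyIntegrable ψ volume := hψ.locallyIntegrable (by norm_num)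
  have hder : ∀ s : ℝ, HasDerivAt (fun s : ℝ => ∫ x, ψ x * φ (x + s • e))
      (- ∫ x, v x * φ (x + s • e)) s := by
    intro s
    have h1 := hasDerivAt_pair hloc hφ e s
    have h2 := hw _ (hφ.comp_add (s • e))
    simp_rw [dd_comp_add] at h2
    rw [h2] at h1
    exact h1
  have hb : ∀ s : ℝ, ‖- ∫ x, v x * φ (x + s • e)‖ ≤ nn v * nn φ := by
    intro s
    rw [norm_neg, Real.norm_eq_abs]
    have := abs_integral_mul_le hv (memLp_comp_add (hφ.memLp 2) (s • e))
    rwa [nn_comp_add] at this
  have := Convex.norm_image_sub_le_of_norm_hasDerivWithin_le (s := univ) (x := 0) (y := -h)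
    (fun s _ => (hder s).hasDerivWithinAt) (fun s _ => hb s) convex_univ (mem_univ _) (mem_univ _)
  rw [Real.norm_eq_abs] at this
  refine this.trans (le_of_eq ?_)
  simp
  ring

/-- **Existence of the weak derivative from bounded difference quotients.** -/
theorem exists_WD_of_diff {ψ : V → ℝ} (hψ : MemLp ψ 2 (volume : Measure V)) (e : V) {C : ℝ}
    (hC : 0 ≤ C) (hb : ∀ h : ℝ, nn (fun x => ψ (x + h • e) - ψ x) ≤ |h| * C) :
    ∃ v : V → ℝ, MemLp v 2 (volume : Measure V) ∧ WD e ψ v := by
  have hloc : LocallyIntegrable ψ volume := hψ.locallyIntegrable (by norm_num)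
  have hmul : ∀ φ : V → ℝ, Test φ → Integrable (fun x => ψ x * dd e φ x) volume := fun φ hφ =>
    hψ.integrable_mul ((hφ.dd e).memLp 2)
  let Λ : testSub V →ₗ[ℝ] ℝ :=
    { toFun := fun φ => - ∫ x, ψ x * dd e (φ : V → ℝ) x
      map_add' := by
        intro a b
        rw [← neg_add, ← integral_add (hmul _ a.2) (hmul _ b.2)]
        congr 2; ext x
        have : dd e (((a + b : testSub V) : V → ℝ)) x = dd e (a : V → ℝ) x + dd e (b : V → ℝ) x := by
          unfold dd
          have := fderiv_add (𝕜 := ℝ) (a.2.1.differentiable (by simp) x)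
            (b.2.1.differentiable (by simp) x)
          have h2 : ((a + b : testSub V) : V → ℝ) = (a : V → ℝ) + (b : V → ℝ) := rfl
          rw [h2, this]; rfl
        rw [this]; ring
      map_smul' := by
        intro c a
        rw [RingHom.id_apply, smul_eq_mul, mul_neg, ← integral_const_mul]
        congr 2; ext x
        have : dd e (((c • a : testSub V) : V → ℝ)) x = c * dd e (a : V → ℝ) x := by
          unfold dd
          have := fderiv_const_smul (𝕜 := ℝ) (a.2.1.differentiable (by simp) x) c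
          have h2 : ((c • a : testSub V) : V → ℝ) = c • (a : V → ℝ) := rfl
          rw [h2, this]; rfl
        rw [this]; ring }
  obtain ⟨v, hv, hv'⟩ := exists_repr Λ hC (by
    rintro ⟨φ, hφ⟩
    show |-∫ x, ψ x * dd e φ x| ≤ C * nn φ
    rw [abs_neg]
    have h0 := hasDerivAt_pair hloc hφ e 0
    simp only [zero_smul, add_zero] at h0
    have := h0.hasFDerivAt.le_of_lip' (C := C * nn φ) (mul_nonneg hC (nn_nonneg _)) (by
      refine Eventually.of_forall fun s => ?_
      have h1 := pair_diff hψ hφ e (-s)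
      simp only [neg_neg] at h1
      rw [← h1, Real.norm_eq_abs]
      refine (abs_integral_mul_le ((memLp_comp_add hψ _).sub hψ) (hφ.memLp 2)).trans ?_
      have h2 := mul_le_mul_of_nonneg_right (hb (-s)) (nn_nonneg φ)
      refine h2.trans (le_of_eq ?_)
      rw [sub_zero, Real.norm_eq_abs, abs_neg]
      ring)
    simpa using this)
  refine ⟨v, hv, fun φ hφ => ?_⟩
  have := hv' ⟨φ, hφ⟩
  simp only [LinearMap.coe_mk, AddHom.coe_mk, Λ] at this
  rw [← this, neg_neg]

/-! ### extension of weak equations to compactly supported H¹ test functions -/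

theorem continuous_pair_shift {G g : V → ℝ} (hG : MemLp G 2 (volume : Measure V))
    (hg : MemLp g 2 (volume : Measure V)) : Continuous (fun y : V => ∫ x, G x * g (x - y)) := by
  have h1 : ∀ y : V, ∫ x, G x * g (x - y) =
      ⟪hG.toLp G, (DomAddAct.mk (-y)) +ᵥ (hg.toLp g)⟫ := by
    intro y
    rw [DomAddAct.mk_vadd_toLp, ← integral_mul_eq_inner]
    congr 1; ext x
    congr 2
    simp only [vadd_eq_add]
    abel
  simp_rw [h1]
  have : Fact ((2 : ℝ≥0∞) ≠ ⊤) := ⟨by norm_num⟩
  have hc : Continuous fun y : V => (DomAddAct.mk (-y)) +ᵥ (hg.toLp g) := by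
    have h2 : Continuous fun y : V => DomAddAct.mk (-y) :=
      DomAddAct.continuous_mk.comp continuous_neg
    exact h2.vadd continuous_const
  fun_prop

theorem integrable_tri {G g ρ : V → ℝ} (hG : MemLp G 2 (volume : Measure V))
    (hg : MemLp g 2 (volume : Measure V)) (hρ : Test ρ) :
    Integrable (fun p : V × V => G p.1 * (ρ p.2 * g (p.1 - p.2))) (volume.prod volume) := by
  have hm1 : AEStronglyMeasurable (fun p : V × V => ρ p.2 * g (p.1 - p.2))
      ((volume : Measure V).prod volume) := by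
    have := AEStronglyMeasurable.convolution_integrand (ContinuousLinearMap.mul ℝ ℝ)
      (μ := (volume : Measure V)) (ν := volume) hρ.continuous.aestronglyMeasurable hg.1
    exact this
  have hm : AEStronglyMeasurable (fun p : V × V => G p.1 * (ρ p.2 * g (p.1 - p.2)))
      ((volume : Measure V).prod volume) := hG.1.comp_fst.mul hm1
  have hi1 : Integrable (fun p : V × V => (G p.1 ^ 2) * ‖ρ p.2‖)
      ((volume : Measure V).prod volume) := hG.integrable_sq.mul_prod hρ.integrable.norm
  have hi2 : Integrable (fun p : V × V => ‖ρ p.2‖ * (g (p.1 - p.2)) ^ 2)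
      ((volume : Measure V).prod volume) := by
    have := Integrable.convolution_integrand (ContinuousLinearMap.mul ℝ ℝ)
      (μ := (volume : Measure V)) (ν := volume) hρ.integrable.norm hg.integrable_sq
    exact this
  refine (hi1.add hi2).mono' hm (Eventually.of_forall fun p => ?_)
  simp only [Pi.add_apply, norm_mul, Real.norm_eq_abs]
  have h1 : 0 ≤ |ρ p.2| := abs_nonneg _
  have h2 : |G p.1| * |g (p.1 - p.2)| ≤ G p.1 ^ 2 + g (p.1 - p.2) ^ 2 := by
    have e1 := sq_abs (G p.1)
    have e2 := sq_abs (g (p.1 - p.2))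
    nlinarith [sq_nonneg (|G p.1| - |g (p.1 - p.2)|), abs_nonneg (G p.1),
      abs_nonneg (g (p.1 - p.2))]
  nlinarith [mul_le_mul_of_nonneg_left h2 h1]

theorem fubini_cv {G g ρ : V → ℝ} (hG : MemLp G 2 (volume : Measure V))
    (hg : MemLp g 2 (volume : Measure V)) (hρ : Test ρ) :
    ∫ x, G x * cv g ρ x = ∫ y, ρ y * ∫ x, G x * g (x - y) := by
  have h1 : ∀ x, G x * cv g ρ x = ∫ y, G x * (ρ y * g (x - y)) := by
    intro x
    rw [integral_const_mul]
    congr 1
    unfold cv
    rw [← integral_sub_left_eq_self (fun t => g t * ρ (x - t)) volume x]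
    congr 1; ext y
    rw [sub_sub_cancel]; ring
  simp_rw [h1]
  rw [integral_integral_swap (integrable_tri hG hg hρ)]
  congr 1; ext y
  rw [← integral_const_mul]
  congr 1; ext x
  ring

theorem testExt {ι : Type*} [Fintype ι] (e : ι → V) (G : ι → V → ℝ) (f : V → ℝ)
    (hG : ∀ i, MemLp (G i) 2 (volume : Measure V)) (hf : MemLp f 2 (volume : Measure V))
    (h : ∀ φ : V → ℝ, Test φ → ∑ i, ∫ x, G i x * dd (e i) φ x = ∫ x, f x * φ x)
    (ψ : V → ℝ) (ψ' : ι → V → ℝ) (hψ : MemLp ψ 2 (volume : Measure V))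
    (hψc : HasCompactSupport ψ) (hψ' : ∀ i, MemLp (ψ' i) 2 (volume : Measure V))
    (hw : ∀ i, WD (e i) ψ (ψ' i)) : ∑ i, ∫ x, G i x * ψ' i x = ∫ x, f x * ψ x := by
  set c : V → ℝ := fun y => (∑ i, ∫ x, G i x * ψ' i (x - y)) - ∫ x, f x * ψ (x - y) with hc
  have hcont : Continuous c := by
    apply Continuous.sub
    · exact continuous_finsetSum _ fun i _ => continuous_pair_shift (hG i) (hψ' i)
    · exact continuous_pair_shift hf hψ
  have hloc : LocallyIntegrable ψ volume := hψ.locallyIntegrable (by norm_num)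
  have h0 : ∀ᵐ y ∂(volume : Measure V), c y = 0 := by
    apply ae_eq_zero_of_integral_contDiff_smul_eq_zero hcont.locallyIntegrable
    intro ρ hρ hρc
    have hT : Test ρ := ⟨hρ, hρc⟩
    have h1 := h (cv ψ ρ) ⟨contDiff_cv hloc hT, hasCompactSupport_cv hψc hρc⟩
    simp_rw [dd_cv_WD hloc hT (hw _)] at h1
    simp_rw [fun i => fubini_cv (hG i) (hψ' i) hT] at h1
    rw [fubini_cv hf hψ hT] at h1
    simp only [hc, smul_eq_mul, mul_sub, Finset.mul_sum]
    have hint : ∀ {G g : V → ℝ}, MemLp G 2 (volume : Measure V) → MemLp g 2 (volume : Measure V) →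
        Integrable (fun y => ρ y * ∫ x, G x * g (x - y)) volume := by
      intro G g hG hg
      exact (hT.continuous.mul (continuous_pair_shift hG hg)).integrable_of_hasCompactSupport
        hρc.mul_right
    rw [integral_sub (integrable_finsetSum _ fun i _ => hint (hG i) (hψ' i)) (hint hf hψ),
      integral_finsetSum _ fun i _ => hint (hG i) (hψ' i), h1, sub_self]
  have h2 : c = fun _ => 0 := (hcont.ae_eq_iff_eq volume continuous_const).mp h0
  have h3 := congrFun h2 0
  simp only [hc, sub_zero] at h3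
  linarith

end Crest.Agent.R202.Ell
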