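import Crest.Agent.R202.EllCoer

/-!
# Derivatives and Fourier coefficients
-/

set_option autoImplicit false

noncomputable section

open scoped BigOperators ComplexConjugate FourierTransform ContDiff
open Filter MeasureTheory

namespace Crest.Agent.R202.Ell

variable {n : ℕ}

/-- complex valued partial derivative. -/
def cd (j : Fin n) (ψ : EuclideanSpace ℝ (Fin n) → ℂ) (x : EuclideanSpace ℝ (Fin n)) : ℂ :=
  fderiv ℝ ψ x (EuclideanSpace.single j 1)

/-- the linear phase. -/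
def phase (k : Fin n → ℤ) : EuclideanSpace ℝ (Fin n) →L[ℝ] ℂ :=
  (2 * Real.pi * Complex.I : ℂ) • ∑ i, ((k i : ℝ) : ℂ) •
    (Complex.ofRealCLM.comp (EuclideanSpace.proj i : EuclideanSpace ℝ (Fin n) →L[ℝ] ℝ))

lemma phase_apply (k : Fin n → ℤ) (x : EuclideanSpace ℝ (Fin n)) :
    phase k x = 2 * Real.pi * Complex.I * ∑ i, ((k i : ℝ) : ℂ) * ((x i : ℝ) : ℂ) := by
  simp [phase]

lemma ee_eq_phase (k : Fin n → ℤ) : ee k = fun x => Complex.exp (phase k x) := by
  funext x
  rw [phase_apply, ee]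

lemma hasFDerivAt_ee (k : Fin n → ℤ) (x : EuclideanSpace ℝ (Fin n)) :
    HasFDerivAt (ee k) (ee k x • phase k) x := by
  rw [ee_eq_phase]
  exact (phase k).hasFDerivAt.cexp

lemma cd_ee (k : Fin n → ℤ) (j : Fin n) (x : EuclideanSpace ℝ (Fin n)) :
    cd j (ee k) x = 2 * Real.pi * Complex.I * ((k j : ℝ) : ℂ) * ee k x := by
  unfold cd
  rw [(hasFDerivAt_ee k x).fderiv]
  simp only [smul_apply, phase_apply, smul_eq_mul]
  have : ∑ i, ((k i : ℝ) : ℂ) * (((EuclideanSpace.single j (1 : ℝ) : EuclideanSpace ℝ (Fin n)) i : ℝ) : ℂ)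
      = ((k j : ℝ) : ℂ) := by
    rw [Finset.sum_eq_single j]
    · simp
    · intro i _ hi
      simp [hi]
    · simp
  rw [this]
  ring

lemma cd_mul {ψ χ : EuclideanSpace ℝ (Fin n) → ℂ} {x : EuclideanSpace ℝ (Fin n)} (j : Fin n)
    (h1 : DifferentiableAt ℝ ψ x) (h2 : DifferentiableAt ℝ χ x) :
    cd j (fun y => ψ y * χ y) x = cd j ψ x * χ x + ψ x * cd j χ x := by
  unfold cd
  rw [fderiv_fun_mul h1 h2]
  simp
  ring

lemma cd_add {ψ χ : EuclideanSpace ℝ (Fin n) → ℂ} {x : EuclideanSpace ℝ (Fin n)} (j : Fin n)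
    (h1 : DifferentiableAt ℝ ψ x) (h2 : DifferentiableAt ℝ χ x) :
    cd j (fun y => ψ y + χ y) x = cd j ψ x + cd j χ x := by
  unfold cd
  rw [fderiv_fun_add h1 h2]
  simp

lemma cd_sum {ι : Type*} (s : Finset ι) {ψ : ι → EuclideanSpace ℝ (Fin n) → ℂ}
    {x : EuclideanSpace ℝ (Fin n)} (j : Fin n)
    (h : ∀ i ∈ s, DifferentiableAt ℝ (ψ i) x) :
    cd j (fun y => ∑ i ∈ s, ψ i y) x = ∑ i ∈ s, cd j (ψ i) x := by
  unfold cd
  rw [fderiv_fun_sum h]
  simp

lemma cd_const_mul {ψ : EuclideanSpace ℝ (Fin n) → ℂ} {x : EuclideanSpace ℝ (Fin n)} (j : Fin n)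
    (a : ℂ) (h1 : DifferentiableAt ℝ ψ x) :
    cd j (fun y => a * ψ y) x = a * cd j ψ x := by
  unfold cd
  rw [fderiv_const_mul h1]
  simp

lemma contDiff_cd {ψ : EuclideanSpace ℝ (Fin n) → ℂ} (h : ContDiff ℝ ∞ ψ) (j : Fin n) :
    ContDiff ℝ ∞ (cd j ψ) := by
  unfold cd
  exact (h.fderiv_right (m := ∞) (by simp)).clm_apply contDiff_const

lemma hasCompactSupport_cd {ψ : EuclideanSpace ℝ (Fin n) → ℂ} (h : HasCompactSupport ψ)
    (j : Fin n) : HasCompactSupport (cd j ψ) := by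
  have := h.fderiv (𝕜 := ℝ)
  exact this.comp_left (g := fun L : EuclideanSpace ℝ (Fin n) →L[ℝ] ℂ =>
    L (EuclideanSpace.single j 1)) (by simp)

lemma tsupport_cd_subset (ψ : EuclideanSpace ℝ (Fin n) → ℂ) (j : Fin n) :
    tsupport (cd j ψ) ⊆ tsupport ψ := by
  refine (closure_mono ?_).trans (tsupport_fderiv_subset ℝ (f := ψ))
  intro x hx
  rw [Function.mem_support] at hx ⊢
  intro h
  apply hx
  unfold cd
  rw [h]; simp

lemma integrable_of_cs {ψ : EuclideanSpace ℝ (Fin n) → ℂ} (h1 : HasCompactSupport ψ)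
    (h2 : ContDiff ℝ ∞ ψ) : Integrable ψ := h2.continuous.integrable_of_hasCompactSupport h1

/-- integration by parts against an exponential. -/
lemma cf_cd {ψ : EuclideanSpace ℝ (Fin n) → ℂ} (h1 : HasCompactSupport ψ)
    (h2 : ContDiff ℝ ∞ ψ) (j : Fin n) (k : Fin n → ℤ) :
    cf (cd j ψ) k = 2 * Real.pi * Complex.I * ((k j : ℝ) : ℂ) * cf ψ k := by
  unfold cf
  have hE : ContDiff ℝ ∞ (ee (-k)) := contDiff_ee (-k)
  have hd : ∀ x, cd j (ee (-k)) x = -(2 * Real.pi * Complex.I * ((k j : ℝ) : ℂ)) * ee (-k) x := by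
    intro x
    rw [cd_ee]
    push_cast
    simp
  have i1 : Integrable (fun x => cd j ψ x * ee (-k) x) :=
    integrable_of_cs ((hasCompactSupport_cd h1 j).mul_right) ((contDiff_cd h2 j).mul hE)
  have i2 : Integrable (fun x => ψ x * cd j (ee (-k)) x) :=
    integrable_of_cs (h1.mul_right) (h2.mul (contDiff_cd hE j))
  have i3 : Integrable (fun x => ψ x * ee (-k) x) :=
    integrable_of_cs (h1.mul_right) (h2.mul hE)
  have h := integral_mul_fderiv_eq_neg_fderiv_mul_of_integrable (μ := volume) (f := ψ)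
    (g := ee (-k)) (v := EuclideanSpace.single j (1 : ℝ)) i1 i2 i3
    (fun x _ => (h2.differentiable (by simp)) x) (fun x _ => (hE.differentiable (by simp)) x)
  have h' : ∫ x, ψ x * cd j (ee (-k)) x = -∫ x, cd j ψ x * ee (-k) x := h
  have h'' : ∫ x, cd j ψ x * ee (-k) x = -∫ x, ψ x * cd j (ee (-k)) x := by
    rw [h', neg_neg]
  rw [h'', ← integral_const_mul, ← integral_neg]
  refine integral_congr_ae (Eventually.of_forall fun x => ?_)
  simp only [hd]
  ring

lemma integrable_mul_ee {w : EuclideanSpace ℝ (Fin n) → ℂ} (hw : Integrable w)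
    (k : Fin n → ℤ) : Integrable (fun x => w x * ee k x) := by
  refine hw.mul_bdd (c := 1) (contDiff_ee k).continuous.aestronglyMeasurable ?_
  exact Eventually.of_forall fun x => (norm_ee k x).le

lemma norm_cf_le {w : EuclideanSpace ℝ (Fin n) → ℂ} (k : Fin n → ℤ) :
    ‖cf w k‖ ≤ ∫ x, ‖w x‖ := by
  unfold cf
  refine (norm_integral_le_integral_norm _).trans (le_of_eq ?_)
  refine integral_congr_ae (Eventually.of_forall fun x => ?_)
  simp only [norm_mul, norm_ee, mul_one]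

/-- the key product formula: `∫ w ∂_i (B ee(-k)) = -∑ B̂(m) 2πi (k-m)_i ŵ(k-m)`. -/
lemma integral_mul_cd {w : EuclideanSpace ℝ (Fin n) → ℂ} (hw : Integrable w)
    (c : EuclideanSpace ℝ (Fin n)) {r : ℝ} (hr : r < 1 / 2)
    (hws : ∀ x, r ≤ ‖x - c‖ → w x = 0) {B : EuclideanSpace ℝ (Fin n) → ℂ}
    (hB1 : HasCompactSupport B) (hB2 : ContDiff ℝ ∞ B)
    (hBs : ∀ x, r ≤ ‖x - c‖ → B x = 0) (hBd : ∀ j x, r ≤ ‖x - c‖ → cd j B x = 0)
    (i : Fin n) (k : Fin n → ℤ) :
    ∫ x, w x * cd i (fun y => B y * ee (-k) y) x =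
      -∑' m, cf B m * (2 * Real.pi * Complex.I * (((k - m) i : ℝ) : ℂ)) * cf w (k - m) := by
  set F : (Fin n → ℤ) → EuclideanSpace ℝ (Fin n) → ℂ := fun m x =>
    (cf B m * (2 * Real.pi * Complex.I * (((k - m) i : ℝ) : ℂ))) * (w x * ee (-(k - m)) x) with hF
  have hFi : ∀ m, Integrable (F m) := fun m => (integrable_mul_ee hw _).const_mul _
  have hnorm : ∀ m, ∫ x, ‖F m x‖ = ‖cf B m‖ * (2 * Real.pi * |((k - m) i : ℝ)|) * ∫ x, ‖w x‖ := by
    intro m
    rw [← integral_const_mul]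
    refine integral_congr_ae (Eventually.of_forall fun x => ?_)
    simp only [hF, norm_mul, norm_ee, mul_one, Complex.norm_real, Complex.norm_I,
      Real.norm_eq_abs, Complex.norm_ofNat, abs_of_pos Real.pi_pos]
  have hsum : Summable fun m => ∫ x, ‖F m x‖ := by
    simp only [hnorm]
    refine Summable.mul_right _ ?_
    refine Summable.of_nonneg_of_le (fun m => by positivity) (fun m => ?_)
      ((summable_cf hB1 hB2 1).mul_left (2 * Real.pi * J k))
    have h1 : |((k - m) i : ℝ)| ≤ J k * J m := by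
      have h2 := abs_le_J (k - m) i
      have h3 : J (k - m) ≤ J k * J (-m) := by
        have := J_add_le k (-m)
        rwa [← sub_eq_add_neg] at this
      rw [J_neg] at h3
      exact h2.trans h3
    have hpi := Real.pi_pos
    calc ‖cf B m‖ * (2 * Real.pi * |((k - m) i : ℝ)|)
        ≤ ‖cf B m‖ * (2 * Real.pi * (J k * J m)) := by gcongr
      _ = 2 * Real.pi * J k * (J m ^ 1 * ‖cf B m‖) := by ring
  have hmain := hasSum_integral_of_summable_integral_norm hFi hsum
  have hpt : ∀ x, w x * cd i (fun y => B y * ee (-k) y) x = -∑' m, F m x := by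
    intro x
    by_cases hx : r ≤ ‖x - c‖
    · rw [hws x hx]
      simp [hF, hws x hx]
    · push Not at hx
      have hx' : ‖x - c‖ < 1 / 2 := hx.trans hr
      have e1 := hasSum_cf hB1 hB2 c hr hBs hx'
      have e2 := hasSum_cf (hasCompactSupport_cd hB1 i) (contDiff_cd hB2 i) c hr (hBd i) hx'
      rw [cd_mul i (hB2.differentiable (by simp) x) ((contDiff_ee (-k)).differentiable (by simp) x),
        cd_ee]
      have e3 := ((e2.mul_right (ee (-k) x)).add (e1.mul_right
        (2 * Real.pi * Complex.I * (((-k) i : ℝ) : ℂ) * ee (-k) x))).mul_left (w x)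
      rw [← e3.tsum_eq, ← tsum_neg]
      refine tsum_congr fun m => ?_
      simp only [hF]
      rw [cf_cd hB1 hB2]
      have e4 : ee (-(k - m)) x = ee m x * ee (-k) x := by
        rw [← ee_add]; congr 1; abel
      rw [e4]
      push_cast
      simp only [Pi.neg_apply, Pi.sub_apply]
      push_cast
      ring
  calc ∫ x, w x * cd i (fun y => B y * ee (-k) y) x = ∫ x, -∑' m, F m x :=
        integral_congr_ae (Eventually.of_forall hpt)
    _ = -∫ x, ∑' m, F m x := integral_neg _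
    _ = -∑' m, ∫ x, F m x := by rw [hmain.tsum_eq]
    _ = _ := by
        congr 1
        refine tsum_congr fun m => ?_
        simp only [hF]
        rw [integral_const_mul]
        rfl

end Crest.Agent.R202.Ell
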