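import Crest.Agent.R202.EllSeq

/-!
# Energy estimate at the sequence level: `h^s` solution, right side in `h^(s-1)` ⟹ `h^(s+1)`.
-/

set_option autoImplicit false

noncomputable section

open scoped BigOperators ComplexConjugate
open Filter

namespace Crest.Agent.R202.Ell

variable {n : ℕ}

/-- the weighted space `h^s`. -/
def HS (s : ℤ) (w : (Fin n → ℤ) → ℂ) : Prop := Summable fun k => (J k ^ s * ‖w k‖) ^ 2

/-- shear equivalence `(m,l) ↦ (m, m+l)`. -/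
def shear : ((Fin n → ℤ) × (Fin n → ℤ)) ≃ ((Fin n → ℤ) × (Fin n → ℤ)) where
  toFun p := (p.1, p.1 + p.2)
  invFun p := (p.1, p.2 - p.1)
  left_inv p := by simp
  right_inv p := by simp

lemma conv_bound {α : (Fin n → ℤ) → ℝ} (hα0 : ∀ m, 0 ≤ α m) (hα : Summable α)
    {γ β : (Fin n → ℤ) → ℝ} (hγ : Summable fun k => γ k ^ 2) (hβ : Summable fun k => β k ^ 2)
    {t : ℝ} (ht : 0 < t) :
    Summable (fun p : (Fin n → ℤ) × (Fin n → ℤ) => α p.1 * (|γ (p.1 + p.2)| * |β p.2|)) ∧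
    ∑' p : (Fin n → ℤ) × (Fin n → ℤ), α p.1 * (|γ (p.1 + p.2)| * |β p.2|) ≤
      (∑' m, α m) * (t / 2 * ∑' k, γ k ^ 2 + 1 / (2 * t) * ∑' k, β k ^ 2) := by
  have hγ' : Summable fun k => t / 2 * γ k ^ 2 := hγ.mul_left _
  have hβ' : Summable fun k => 1 / (2 * t) * β k ^ 2 := hβ.mul_left _
  have s1 : Summable fun p : (Fin n → ℤ) × (Fin n → ℤ) => α p.1 * (t / 2 * γ p.2 ^ 2) :=
    hα.mul_of_nonneg hγ' hα0 (fun k => by simp only [Pi.zero_apply]; positivity)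
  have s1' : Summable fun p : (Fin n → ℤ) × (Fin n → ℤ) =>
      α p.1 * (t / 2 * γ (p.1 + p.2) ^ 2) := (shear.summable_iff (f := fun p :
        (Fin n → ℤ) × (Fin n → ℤ) => α p.1 * (t / 2 * γ p.2 ^ 2))).2 s1
  have s2 : Summable fun p : (Fin n → ℤ) × (Fin n → ℤ) => α p.1 * (1 / (2 * t) * β p.2 ^ 2) :=
    hα.mul_of_nonneg hβ' hα0 (fun k => by simp only [Pi.zero_apply]; positivity)
  have hle : ∀ p : (Fin n → ℤ) × (Fin n → ℤ), α p.1 * (|γ (p.1 + p.2)| * |β p.2|) ≤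
      α p.1 * (t / 2 * γ (p.1 + p.2) ^ 2) + α p.1 * (1 / (2 * t) * β p.2 ^ 2) := by
    intro p
    rw [← mul_add]
    refine mul_le_mul_of_nonneg_left ?_ (hα0 _)
    rw [← sq_abs (γ _), ← sq_abs (β _)]
    set x := |γ (p.1 + p.2)|
    set y := |β p.2|
    have : t / 2 * x ^ 2 + 1 / (2 * t) * y ^ 2 - x * y = (t * x - y) ^ 2 / (2 * t) := by
      field_simp; ring
    have h2 : 0 ≤ (t * x - y) ^ 2 / (2 * t) := by positivity
    linarith
  have s3 := s1'.add s2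
  have hs : Summable (fun p : (Fin n → ℤ) × (Fin n → ℤ) =>
      α p.1 * (|γ (p.1 + p.2)| * |β p.2|)) :=
    Summable.of_nonneg_of_le (fun p => mul_nonneg (hα0 _) (by positivity)) hle s3
  refine ⟨hs, ?_⟩
  calc ∑' p : (Fin n → ℤ) × (Fin n → ℤ), α p.1 * (|γ (p.1 + p.2)| * |β p.2|)
      ≤ ∑' p : (Fin n → ℤ) × (Fin n → ℤ), (α p.1 * (t / 2 * γ (p.1 + p.2) ^ 2) +
          α p.1 * (1 / (2 * t) * β p.2 ^ 2)) := hs.tsum_le_tsum hle s3
    _ = ∑' p : (Fin n → ℤ) × (Fin n → ℤ), α p.1 * (t / 2 * γ (p.1 + p.2) ^ 2) +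
        ∑' p : (Fin n → ℤ) × (Fin n → ℤ), α p.1 * (1 / (2 * t) * β p.2 ^ 2) := s1'.tsum_add s2
    _ = ∑' p : (Fin n → ℤ) × (Fin n → ℤ), α p.1 * (t / 2 * γ p.2 ^ 2) +
        ∑' p : (Fin n → ℤ) × (Fin n → ℤ), α p.1 * (1 / (2 * t) * β p.2 ^ 2) := by
        congr 1
        exact shear.tsum_eq (f := fun p :
          (Fin n → ℤ) × (Fin n → ℤ) => α p.1 * (t / 2 * γ p.2 ^ 2))
    _ = (∑' m, α m) * (t / 2 * ∑' k, γ k ^ 2 + 1 / (2 * t) * ∑' k, β k ^ 2) := by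
        rw [← hα.tsum_mul_tsum hγ' s1, ← hα.tsum_mul_tsum hβ' s2, tsum_mul_left, tsum_mul_left,
          mul_add]

/-- the coercivity hypothesis (Gårding with constant form). -/
def Coercive (lam : ℝ) (a : Fin n → Fin n → (Fin n → ℤ) → ℂ) : Prop :=
  ∀ g : Fin n → (Fin n → ℤ) → ℂ, (∀ i, Summable fun k => ‖g i k‖ ^ 2) →
    lam * ∑ i, ∑' k, ‖g i k‖ ^ 2 ≤
      (∑ i, ∑ j, ∑' p : (Fin n → ℤ) × (Fin n → ℤ),
        conj (g j (p.1 + p.2)) * a i j p.1 * g i p.2).re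

/-- the weighted gradient sequences. -/
def gg (s : ℤ) (ε : ℝ) (w : (Fin n → ℤ) → ℂ) (i : Fin n) (l : Fin n → ℤ) : ℂ :=
  ((l i : ℝ) : ℂ) * ((mu s ε l : ℝ) : ℂ) * w l

lemma norm_gg (s : ℤ) {ε : ℝ} (hε : 0 < ε) (w : (Fin n → ℤ) → ℂ) (i : Fin n) (l : Fin n → ℤ) :
    ‖gg s ε w i l‖ = |(l i : ℝ)| * mu s ε l * ‖w l‖ := by
  unfold gg
  rw [norm_mul, norm_mul, Complex.norm_real, Complex.norm_real, Real.norm_eq_abs,
    Real.norm_eq_abs, abs_of_pos (mu_pos s hε l)]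

lemma summable_gg {s : ℤ} {ε : ℝ} (hε : 0 < ε) {w : (Fin n → ℤ) → ℂ} (hw : HS s w) (i : Fin n) :
    Summable fun k => ‖gg s ε w i k‖ ^ 2 := by
  refine Summable.of_nonneg_of_le (fun k => by positivity) (fun k => ?_) (hw.mul_left ((1 / ε) ^ 2))
  rw [← mul_pow, norm_gg s hε]
  refine pow_le_pow_left₀ (by have := mu_pos s hε k; positivity) ?_ 2
  have h1 := mu_mul_J_le s hε k
  have h2 := abs_le_J k i
  have h3 := mu_pos s hε k
  calc |(k i : ℝ)| * mu s ε k * ‖w k‖ ≤ J k * mu s ε k * ‖w k‖ := by gcongr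
    _ = (mu s ε k * J k) * ‖w k‖ := by ring
    _ ≤ ((1 / ε) * J k ^ s) * ‖w k‖ := by gcongr
    _ = 1 / ε * (J k ^ s * ‖w k‖) := by ring

lemma sq_mu_J_le (s : ℤ) {ε : ℝ} (hε : 0 < ε) (w : (Fin n → ℤ) → ℂ) (k : Fin n → ℤ) :
    (mu s ε k * J k * ‖w k‖) ^ 2 ≤
      2 * (J k ^ s * ‖w k‖) ^ 2 + 2 * n * ∑ i, ‖gg s ε w i k‖ ^ 2 := by
  have h1 := J_sq_le k
  have h3 := mu_pos s hε k
  have h4 := mu_le s hε k
  have e1 : ∑ i, ‖gg s ε w i k‖ ^ 2 = (mu s ε k * ‖w k‖) ^ 2 * ∑ i, (k i : ℝ) ^ 2 := by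
    rw [Finset.mul_sum]
    refine Finset.sum_congr rfl fun i _ => ?_
    rw [norm_gg s hε, ← sq_abs (k i : ℝ)]
    ring
  rw [e1]
  calc (mu s ε k * J k * ‖w k‖) ^ 2 = (mu s ε k * ‖w k‖) ^ 2 * J k ^ 2 := by ring
    _ ≤ (mu s ε k * ‖w k‖) ^ 2 * (2 + 2 * n * ∑ i, (k i : ℝ) ^ 2) := by gcongr
    _ = 2 * (mu s ε k * ‖w k‖) ^ 2 +
        2 * n * ((mu s ε k * ‖w k‖) ^ 2 * ∑ i, (k i : ℝ) ^ 2) := by ring
    _ ≤ _ := by gcongr

section step

variable {a : Fin n → Fin n → (Fin n → ℤ) → ℂ}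

/-- the `X` terms. -/
def XX (a : Fin n → Fin n → (Fin n → ℤ) → ℂ) (s : ℤ) (ε : ℝ) (w : (Fin n → ℤ) → ℂ)
    (i j : Fin n) (p : (Fin n → ℤ) × (Fin n → ℤ)) : ℂ :=
  conj (gg s ε w j (p.1 + p.2)) * a i j p.1 * gg s ε w i p.2

/-- the `Y` terms (multiplier moved to the output frequency). -/
def YY (a : Fin n → Fin n → (Fin n → ℤ) → ℂ) (s : ℤ) (ε : ℝ) (w : (Fin n → ℤ) → ℂ)
    (i j : Fin n) (p : (Fin n → ℤ) × (Fin n → ℤ)) : ℂ :=
  conj (gg s ε w j (p.1 + p.2)) * a i j p.1 *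
    (((p.2 i : ℝ) : ℂ) * ((mu s ε (p.1 + p.2) : ℝ) : ℂ) * w p.2)

lemma summable_XX {s : ℤ} {ε : ℝ} (hε : 0 < ε) {w : (Fin n → ℤ) → ℂ} (hw : HS s w)
    (ha : ∀ i j, Summable fun m => ‖a i j m‖) (i j : Fin n) :
    Summable (XX a s ε w i j) := by
  have h := (conv_bound (α := fun m => ‖a i j m‖) (fun m => norm_nonneg _) (ha i j)
    (γ := fun k => ‖gg s ε w j k‖) (β := fun k => ‖gg s ε w i k‖) (summable_gg hε hw j)
    (summable_gg hε hw i) one_pos).1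
  refine Summable.of_norm_bounded h (fun p => ?_)
  unfold XX
  rw [norm_mul, norm_mul, RCLike.norm_conj, abs_norm, abs_norm]
  apply le_of_eq; ring

lemma norm_XX_sub_YY_le {s : ℤ} {ε : ℝ} (hε : 0 < ε) (w : (Fin n → ℤ) → ℂ) (i j : Fin n)
    (p : (Fin n → ℤ) × (Fin n → ℤ)) :
    ‖XX a s ε w i j p - YY a s ε w i j p‖ ≤
      ((s.natAbs + 1 : ℝ) * (J p.1 ^ (2 * s.natAbs + 2) * ‖a i j p.1‖)) *
        (|‖gg s ε w j (p.1 + p.2)‖| * |J p.2 ^ s * ‖w p.2‖|) := by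
  have e1 : XX a s ε w i j p - YY a s ε w i j p =
      conj (gg s ε w j (p.1 + p.2)) * a i j p.1 *
        (((p.2 i : ℝ) : ℂ) * ((mu s ε p.2 - mu s ε (p.1 + p.2) : ℝ) : ℂ) * w p.2) := by
    unfold XX YY gg
    push_cast
    ring
  have hJ : 0 < J p.2 ^ s := zpow_pos (J_pos _) _
  rw [e1, norm_mul, norm_mul, RCLike.norm_conj, norm_mul, norm_mul, Complex.norm_real,
    Complex.norm_real, Real.norm_eq_abs, Real.norm_eq_abs, abs_norm,
    abs_of_nonneg (by positivity : 0 ≤ J p.2 ^ s * ‖w p.2‖), abs_sub_comm]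
  have h1 := mu_diff s hε p.1 p.2
  have h2 := abs_le_J p.2 i
  have h3 : |(p.2 i : ℝ)| * |mu s ε (p.1 + p.2) - mu s ε p.2| ≤
      (s.natAbs + 1) * J p.1 ^ (2 * s.natAbs + 2) * J p.2 ^ s := by
    refine le_trans ?_ h1
    rw [mul_comm]
    gcongr
  calc ‖gg s ε w j (p.1 + p.2)‖ * ‖a i j p.1‖ *
        (|(p.2 i : ℝ)| * |mu s ε (p.1 + p.2) - mu s ε p.2| * ‖w p.2‖)
      ≤ ‖gg s ε w j (p.1 + p.2)‖ * ‖a i j p.1‖ *
        (((s.natAbs + 1) * J p.1 ^ (2 * s.natAbs + 2) * J p.2 ^ s) * ‖w p.2‖) := by gcongr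
    _ = _ := by ring

lemma summable_YY {s : ℤ} {ε : ℝ} (hε : 0 < ε) {w : (Fin n → ℤ) → ℂ} (hw : HS s w)
    (ha : ∀ i j (N : ℕ), Summable fun m => J m ^ N * ‖a i j m‖) (i j : Fin n) :
    Summable (YY a s ε w i j) := by
  have h := (conv_bound
    (α := fun m => (s.natAbs + 1 : ℝ) * (J m ^ (2 * s.natAbs + 2) * ‖a i j m‖))
    (fun m => by have := J_pos m; positivity) ((ha i j _).mul_left _)
    (γ := fun k => ‖gg s ε w j k‖) (β := fun k => J k ^ s * ‖w k‖) (summable_gg hε hw j)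
    hw one_pos).1
  have h1 : Summable fun p => XX a s ε w i j p - YY a s ε w i j p :=
    Summable.of_norm_bounded h (fun p => norm_XX_sub_YY_le hε w i j p)
  have h2 := summable_XX hε hw (fun i j => by simpa using ha i j 0) i j
  have h3 := h2.sub h1
  simpa using h3

/-- `∑ Y = ∑ μ² conj w · H`. -/
lemma tsum_YY {s : ℤ} {ε : ℝ} (hε : 0 < ε) {w H : (Fin n → ℤ) → ℂ} (hw : HS s w)
    (ha : ∀ i j (N : ℕ), Summable fun m => J m ^ N * ‖a i j m‖)
    (heq : ∀ k, ∑ j, ((k j : ℝ) : ℂ) * ∑ i, ∑' m, a i j m * (((k - m) i : ℝ) : ℂ) * w (k - m) =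
      H k) :
    ∑ i, ∑ j, ∑' p, YY a s ε w i j p =
      ∑' k, ((mu s ε k : ℝ) : ℂ) ^ 2 * conj (w k) * H k := by
  have key : ∀ i j, (∑' p, YY a s ε w i j p = ∑' k, conj (gg s ε w j k) * ((mu s ε k : ℝ) : ℂ) *
      ∑' m, a i j m * (((k - m) i : ℝ) : ℂ) * w (k - m)) ∧
      Summable fun k => conj (gg s ε w j k) * ((mu s ε k : ℝ) : ℂ) *
      ∑' m, a i j m * (((k - m) i : ℝ) : ℂ) * w (k - m) := by
    intro i j
    let Y' : (Fin n → ℤ) × (Fin n → ℤ) → ℂ := fun q =>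
      conj (gg s ε w j q.1) * ((mu s ε q.1 : ℝ) : ℂ) *
        (a i j q.2 * (((q.1 - q.2) i : ℝ) : ℂ) * w (q.1 - q.2))
    let e : ((Fin n → ℤ) × (Fin n → ℤ)) ≃ ((Fin n → ℤ) × (Fin n → ℤ)) :=
      shear.trans (Equiv.prodComm _ _)
    have hY : ∀ p, Y' (e p) = YY a s ε w i j p := by
      intro p
      have h1 : (e p).1 = p.1 + p.2 := rfl
      have h2 : (e p).2 = p.1 := rfl
      simp only [Y', YY, h1, h2, add_sub_cancel_left]
      ring
    have hs : Summable Y' := by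
      rw [← e.summable_iff]
      refine (summable_YY hε hw ha i j).congr (fun p => ?_)
      exact (hY p).symm
    have h1 : ∑' p, YY a s ε w i j p = ∑' q, Y' q := by
      rw [← e.tsum_eq Y']
      exact tsum_congr fun p => (hY p).symm
    have h2 : ∑' q, Y' q = ∑' k, ∑' m, Y' (k, m) := hs.tsum_prod
    have h3 : ∀ k, ∑' m, Y' (k, m) = conj (gg s ε w j k) * ((mu s ε k : ℝ) : ℂ) *
        ∑' m, a i j m * (((k - m) i : ℝ) : ℂ) * w (k - m) := by
      intro k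
      rw [← tsum_mul_left]
    have h4 : Summable fun k => ∑' m, Y' (k, m) := hs.prod
    refine ⟨?_, ?_⟩
    · rw [h1, h2]
      exact tsum_congr h3
    · exact h4.congr (fun k => (h3 k))
  calc ∑ i, ∑ j, ∑' p, YY a s ε w i j p
      = ∑ i, ∑ j, ∑' k, conj (gg s ε w j k) * ((mu s ε k : ℝ) : ℂ) *
          ∑' m, a i j m * (((k - m) i : ℝ) : ℂ) * w (k - m) := by
        refine Finset.sum_congr rfl fun i _ => Finset.sum_congr rfl fun j _ => (key i j).1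
    _ = ∑' k, ∑ i, ∑ j, conj (gg s ε w j k) * ((mu s ε k : ℝ) : ℂ) *
          ∑' m, a i j m * (((k - m) i : ℝ) : ℂ) * w (k - m) := by
        rw [Summable.tsum_finsetSum (fun i _ => summable_sum fun j _ => (key i j).2)]
        refine Finset.sum_congr rfl fun i _ => ?_
        rw [Summable.tsum_finsetSum (fun j _ => (key i j).2)]
    _ = ∑' k, ((mu s ε k : ℝ) : ℂ) ^ 2 * conj (w k) * H k := by
        refine tsum_congr fun k => ?_
        rw [← heq k, Finset.sum_comm, Finset.mul_sum]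
        refine Finset.sum_congr rfl fun j _ => ?_
        rw [← Finset.mul_sum]
        unfold gg
        simp only [map_mul, Complex.conj_ofReal]
        ring

/-- uniform bound for the weighted gradient energy. -/
lemma energy_bound (ha : ∀ i j (N : ℕ), Summable fun m => J m ^ N * ‖a i j m‖)
    {lam : ℝ} (hlam : 0 < lam) (hcoer : Coercive lam a) (s : ℤ) {w H : (Fin n → ℤ) → ℂ}
    (hw : HS s w) (hH : HS (s - 1) H)
    (heq : ∀ k, ∑ j, ((k j : ℝ) : ℂ) * ∑ i, ∑' m, a i j m * (((k - m) i : ℝ) : ℂ) * w (k - m) =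
      H k) :
    ∃ K : ℝ, ∀ ε : ℝ, 0 < ε → ∑ i, ∑' k, ‖gg s ε w i k‖ ^ 2 ≤ K := by
  set A : Fin n → Fin n → ℝ := fun i j =>
    ∑' m, ((s.natAbs + 1 : ℝ) * (J m ^ (2 * s.natAbs + 2) * ‖a i j m‖)) with hA
  have hA0 : ∀ i j, 0 ≤ A i j := fun i j => tsum_nonneg fun m => by
    have := J_pos m; positivity
  set D : ℝ := ∑ i, ∑ j, A i j with hD
  have hD0 : 0 ≤ D := Finset.sum_nonneg fun i _ => Finset.sum_nonneg fun j _ => hA0 i j
  set t : ℝ := lam / (2 * n + D + 1) with ht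
  have hden : 0 < 2 * (n : ℝ) + D + 1 := by positivity
  have ht0 : 0 < t := div_pos hlam hden
  set W : ℝ := ∑' k, (J k ^ s * ‖w k‖) ^ 2 with hW
  set Hh : ℝ := ∑' k, (J k ^ (s - 1) * ‖H k‖) ^ 2 with hHh
  refine ⟨(2 / lam) * (t * W + 1 / (2 * t) * Hh + D * (1 / (2 * t) * W)), fun ε hε => ?_⟩
  set G : ℝ := ∑ i, ∑' k, ‖gg s ε w i k‖ ^ 2 with hG
  have hGi : ∀ j, ∑' k, ‖gg s ε w j k‖ ^ 2 ≤ G := fun j =>
    Finset.single_le_sum (f := fun i => ∑' k, ‖gg s ε w i k‖ ^ 2)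
      (fun i _ => tsum_nonneg fun k => by positivity) (Finset.mem_univ j)
  have hG0 : 0 ≤ G := Finset.sum_nonneg fun i _ => tsum_nonneg fun k => by positivity
  have hW0 : 0 ≤ W := tsum_nonneg fun k => by positivity
  have hHh0 : 0 ≤ Hh := tsum_nonneg fun k => by positivity
  have hc := hcoer (gg s ε w) (summable_gg hε hw)
  have hXs : ∀ i j, Summable (XX a s ε w i j) :=
    summable_XX hε hw (fun i j => by simpa using ha i j 0)
  have hYs : ∀ i j, Summable (YY a s ε w i j) := summable_YY hε hw ha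
  -- difference
  have hdiff : ∀ i j, ‖∑' p, XX a s ε w i j p - ∑' p, YY a s ε w i j p‖ ≤
      A i j * (t / 2 * G + 1 / (2 * t) * W) := by
    intro i j
    have hcb := conv_bound
      (α := fun m => (s.natAbs + 1 : ℝ) * (J m ^ (2 * s.natAbs + 2) * ‖a i j m‖))
      (fun m => by have := J_pos m; positivity) ((ha i j _).mul_left _)
      (γ := fun k => ‖gg s ε w j k‖) (β := fun k => J k ^ s * ‖w k‖) (summable_gg hε hw j)
      hw ht0
    rw [← (hXs i j).tsum_sub (hYs i j)]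
    refine (tsum_of_norm_bounded hcb.1.hasSum (fun p => norm_XX_sub_YY_le hε w i j p)).trans ?_
    refine hcb.2.trans ?_
    refine mul_le_mul_of_nonneg_left ?_ (hA0 i j)
    have := hGi j
    gcongr
  have hYb : ‖∑ i, ∑ j, ∑' p, YY a s ε w i j p‖ ≤
      t / 2 * (2 * W + 2 * n * G) + 1 / (2 * t) * Hh := by
    rw [tsum_YY hε hw ha heq]
    have hsm : ∀ k, (mu s ε k * J k * ‖w k‖) ^ 2 ≤
        2 * (J k ^ s * ‖w k‖) ^ 2 + 2 * n * ∑ i, ‖gg s ε w i k‖ ^ 2 := sq_mu_J_le s hε w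
    have hgs : Summable fun k => ∑ i, ‖gg s ε w i k‖ ^ 2 :=
      summable_sum fun i _ => summable_gg hε hw i
    have hmaj : Summable fun k => t / 2 * (2 * (J k ^ s * ‖w k‖) ^ 2 +
        2 * n * ∑ i, ‖gg s ε w i k‖ ^ 2) + 1 / (2 * t) * (J k ^ (s - 1) * ‖H k‖) ^ 2 :=
      (((hw.mul_left _).add (hgs.mul_left _)).mul_left _).add (hH.mul_left _)
    have hb : ∀ k, ‖((mu s ε k : ℝ) : ℂ) ^ 2 * conj (w k) * H k‖ ≤
        t / 2 * (2 * (J k ^ s * ‖w k‖) ^ 2 +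
        2 * n * ∑ i, ‖gg s ε w i k‖ ^ 2) + 1 / (2 * t) * (J k ^ (s - 1) * ‖H k‖) ^ 2 := by
      intro k
      have hJ := J_pos k
      have hμ := mu_pos s hε k
      have hμJ : mu s ε k ≤ J k * J k ^ (s - 1) := by
        have h1 := mu_le s hε k
        have h2 : J k ^ s = J k * J k ^ (s - 1) := by
          rw [← zpow_one_add₀ hJ.ne']; congr 1; ring
        rw [← h2]; exact h1
      have e1 : ‖((mu s ε k : ℝ) : ℂ) ^ 2 * conj (w k) * H k‖ =
          mu s ε k ^ 2 * ‖w k‖ * ‖H k‖ := by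
        rw [norm_mul, norm_mul, norm_pow, RCLike.norm_conj, Complex.norm_real, Real.norm_eq_abs,
          abs_of_pos hμ]
      rw [e1]
      set x := mu s ε k * J k * ‖w k‖ with hx
      set y := J k ^ (s - 1) * ‖H k‖ with hy
      have h1 : mu s ε k ^ 2 * ‖w k‖ * ‖H k‖ ≤ x * y := by
        calc mu s ε k ^ 2 * ‖w k‖ * ‖H k‖ = mu s ε k * (mu s ε k) * ‖w k‖ * ‖H k‖ := by ring
          _ ≤ mu s ε k * (J k * J k ^ (s - 1)) * ‖w k‖ * ‖H k‖ := by gcongr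
          _ = x * y := by rw [hx, hy]; ring
      have h2 : x * y ≤ t / 2 * x ^ 2 + 1 / (2 * t) * y ^ 2 := by
        have : t / 2 * x ^ 2 + 1 / (2 * t) * y ^ 2 - x * y = (t * x - y) ^ 2 / (2 * t) := by
          field_simp; ring
        have h2 : 0 ≤ (t * x - y) ^ 2 / (2 * t) := by positivity
        linarith
      refine h1.trans (h2.trans ?_)
      have := hsm k
      gcongr
    refine (tsum_of_norm_bounded hmaj.hasSum hb).trans (le_of_eq ?_)
    rw [Summable.tsum_add (((hw.mul_left _).add (hgs.mul_left _)).mul_left _) (hH.mul_left _),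
      tsum_mul_left, tsum_mul_left, Summable.tsum_add (hw.mul_left _) (hgs.mul_left _),
      tsum_mul_left, tsum_mul_left, Summable.tsum_finsetSum (fun i _ => summable_gg hε hw i)]
  have hXre : lam * G ≤ ‖∑ i, ∑ j, ∑' p, XX a s ε w i j p‖ := hc.trans (Complex.re_le_norm _)
  have hXY : ‖∑ i, ∑ j, ∑' p, XX a s ε w i j p‖ ≤
      D * (t / 2 * G + 1 / (2 * t) * W) + (t / 2 * (2 * W + 2 * n * G) + 1 / (2 * t) * Hh) := by
    have e : ∑ i, ∑ j, ∑' p, XX a s ε w i j p =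
        ∑ i, ∑ j, (∑' p, XX a s ε w i j p - ∑' p, YY a s ε w i j p) +
          ∑ i, ∑ j, ∑' p, YY a s ε w i j p := by
      simp only [Finset.sum_sub_distrib]; ring
    rw [e]
    refine (norm_add_le _ _).trans (add_le_add ?_ hYb)
    refine (norm_sum_le _ _).trans ?_
    rw [hD, Finset.sum_mul]
    refine Finset.sum_le_sum fun i _ => ?_
    refine (norm_sum_le _ _).trans ?_
    rw [Finset.sum_mul]
    exact Finset.sum_le_sum fun j _ => hdiff i j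
  have hfin := hXre.trans hXY
  have htlam : t * (2 * n + D + 1) = lam := by
    rw [ht]; field_simp
  have hGt : (D * (t / 2) + t * n) * G ≤ lam / 2 * G := by
    refine mul_le_mul_of_nonneg_right ?_ hG0
    nlinarith
  have h1 : lam / 2 * G ≤ t * W + 1 / (2 * t) * Hh + D * (1 / (2 * t) * W) := by
    have : D * (t / 2 * G + 1 / (2 * t) * W) + (t / 2 * (2 * W + 2 * n * G) + 1 / (2 * t) * Hh) =
      (D * (t / 2) + t * n) * G + (t * W + 1 / (2 * t) * Hh + D * (1 / (2 * t) * W)) := by ring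
    rw [this] at hfin
    linarith
  have h2 : G = (2 / lam) * (lam / 2 * G) := by field_simp
  rw [h2]
  gcongr

/-- **Regularity gain at the sequence level.** -/
theorem HS_step (ha : ∀ i j (N : ℕ), Summable fun m => J m ^ N * ‖a i j m‖)
    {lam : ℝ} (hlam : 0 < lam) (hcoer : Coercive lam a) (s : ℤ) {w H : (Fin n → ℤ) → ℂ}
    (hw : HS s w) (hH : HS (s - 1) H)
    (heq : ∀ k, ∑ j, ((k j : ℝ) : ℂ) * ∑ i, ∑' m, a i j m * (((k - m) i : ℝ) : ℂ) * w (k - m) =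
      H k) :
    HS (s + 1) w := by
  obtain ⟨K, hK⟩ := energy_bound ha hlam hcoer s hw hH heq
  have h1 : Summable fun k : Fin n → ℤ => (∑ i, (k i : ℝ) ^ 2) * (J k ^ s * ‖w k‖) ^ 2 := by
    refine summable_of_sum_le (c := K) (fun k => by positivity) (fun S => ?_)
    have hb : ∀ ε : ℝ, 0 < ε →
        ∑ k ∈ S, (∑ i, (k i : ℝ) ^ 2) * (mu s ε k * ‖w k‖) ^ 2 ≤ K := by
      intro ε hε
      refine le_trans ?_ (hK ε hε)
      have e : ∀ k, (∑ i, (k i : ℝ) ^ 2) * (mu s ε k * ‖w k‖) ^ 2 = ∑ i, ‖gg s ε w i k‖ ^ 2 := by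
        intro k
        rw [Finset.sum_mul]
        refine Finset.sum_congr rfl fun i _ => ?_
        rw [norm_gg s hε, ← sq_abs (k i : ℝ)]
        ring
      simp only [e]
      rw [Finset.sum_comm]
      refine Finset.sum_le_sum fun i _ => ?_
      exact (summable_gg hε hw i).sum_le_tsum S (fun k _ => by positivity)
    have hlim : Tendsto (fun ε : ℝ => ∑ k ∈ S, (∑ i, (k i : ℝ) ^ 2) * (mu s ε k * ‖w k‖) ^ 2)
        (nhdsWithin 0 (Set.Ioi 0)) (nhds (∑ k ∈ S, (∑ i, (k i : ℝ) ^ 2) * (J k ^ s * ‖w k‖) ^ 2)) := by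
      refine tendsto_finsetSum _ fun k _ => ?_
      refine Tendsto.const_mul _ (Tendsto.pow (Tendsto.mul_const _ ?_) 2)
      have h2 : ContinuousAt (fun ε : ℝ => mu s ε k) 0 := by
        unfold mu
        refine ContinuousAt.div (by fun_prop) (by fun_prop) (by simp)
      have h3 : mu s 0 k = J k ^ s := by simp [mu]
      have h4 := h2.tendsto
      rw [h3] at h4
      exact h4.mono_left nhdsWithin_le_nhds
    refine le_of_tendsto hlim ?_
    filter_upwards [self_mem_nhdsWithin] with ε hε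
    exact hb ε hε
  unfold HS
  refine Summable.of_nonneg_of_le (fun k => by positivity) (fun k => ?_)
    (Summable.add (hw.mul_left 2) (h1.mul_left (2 * (n : ℝ))))
  have hJ := J_pos k
  have h2 := J_sq_le k
  have e : (J k ^ (s + 1) * ‖w k‖) ^ 2 = J k ^ 2 * (J k ^ s * ‖w k‖) ^ 2 := by
    rw [zpow_add_one₀ hJ.ne']; ring
  rw [e]
  calc J k ^ 2 * (J k ^ s * ‖w k‖) ^ 2
      ≤ (2 + 2 * n * ∑ i, (k i : ℝ) ^ 2) * (J k ^ s * ‖w k‖) ^ 2 := by gcongr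
    _ = _ := by ring

end step

end Crest.Agent.R202.Ell
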