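import Crest.Agent.R202.EllDer

/-!
# Local regularity: coefficients of `χ u` decay rapidly.
-/

set_option autoImplicit false

noncomputable section

open scoped BigOperators ComplexConjugate FourierTransform ContDiff
open Filter MeasureTheory

namespace Crest.Agent.R202.Ell

variable {n : ℕ}

/-! ### closure properties of `HS` -/

lemma HS.mono {s s' : ℤ} (h : s' ≤ s) {w : (Fin n → ℤ) → ℂ} (hw : HS s w) : HS s' w := by
  unfold HS at *
  refine Summable.of_nonneg_of_le (fun k => by positivity) (fun k => ?_) hw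
  have hJ := one_le_J k
  have h1 : J k ^ s' ≤ J k ^ s := zpow_le_zpow_right₀ hJ h
  have h2 : 0 < J k ^ s' := zpow_pos (J_pos k) _
  gcongr

lemma HS.add {s : ℤ} {w w' : (Fin n → ℤ) → ℂ} (hw : HS s w) (hw' : HS s w') :
    HS s (fun k => w k + w' k) := by
  unfold HS at *
  refine Summable.of_nonneg_of_le (fun k => by positivity) (fun k => ?_)
    (Summable.add (hw.mul_left 2) (hw'.mul_left 2))
  have h2 : 0 < J k ^ s := zpow_pos (J_pos k) _
  have h3 : ‖w k + w' k‖ ≤ ‖w k‖ + ‖w' k‖ := norm_add_le _ _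
  calc (J k ^ s * ‖w k + w' k‖) ^ 2 ≤ (J k ^ s * (‖w k‖ + ‖w' k‖)) ^ 2 := by gcongr
    _ ≤ 2 * (J k ^ s * ‖w k‖) ^ 2 + 2 * (J k ^ s * ‖w' k‖) ^ 2 := by
        nlinarith [sq_nonneg (J k ^ s * ‖w k‖ - J k ^ s * ‖w' k‖)]

lemma HS.const_mul {s : ℤ} {w : (Fin n → ℤ) → ℂ} (hw : HS s w) (a : ℂ) :
    HS s (fun k => a * w k) := by
  unfold HS at *
  refine (hw.mul_left (‖a‖ ^ 2)).congr fun k => ?_
  rw [norm_mul]; ring

lemma HS.zero (s : ℤ) : HS s (fun _ : Fin n → ℤ => (0 : ℂ)) := by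
  unfold HS; simp

lemma HS.sum {s : ℤ} {ι : Type*} (S : Finset ι) {w : ι → (Fin n → ℤ) → ℂ}
    (hw : ∀ i ∈ S, HS s (w i)) : HS s (fun k => ∑ i ∈ S, w i k) := by
  classical
  induction S using Finset.induction_on with
  | empty => simpa using HS.zero s
  | insert a S ha ih =>
    simp only [Finset.sum_insert ha]
    exact (hw a (Finset.mem_insert_self a S)).add
      (ih fun i hi => hw i (Finset.mem_insert_of_mem hi))

lemma HS.coord_mul {s : ℤ} {w : (Fin n → ℤ) → ℂ} (hw : HS s w) (j : Fin n) :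
    HS (s - 1) (fun k => ((k j : ℝ) : ℂ) * w k) := by
  unfold HS at *
  refine Summable.of_nonneg_of_le (fun k => by positivity) (fun k => ?_) hw
  have hJ := J_pos k
  have h1 := abs_le_J k j
  have h2 : J k ^ s = J k ^ (s - 1) * J k := by
    rw [← zpow_add_one₀ hJ.ne']; congr 1; ring
  rw [norm_mul, Complex.norm_real, Real.norm_eq_abs, h2]
  have h3 : 0 < J k ^ (s - 1) := zpow_pos hJ _
  calc (J k ^ (s - 1) * (|(k j : ℝ)| * ‖w k‖)) ^ 2 ≤ (J k ^ (s - 1) * (J k * ‖w k‖)) ^ 2 := by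
        gcongr
    _ = _ := by ring

lemma HS.of_decay {w : (Fin n → ℤ) → ℂ} (hw : ∀ N : ℕ, ∃ C, ∀ k, J k ^ N * ‖w k‖ ≤ C) (s : ℤ) :
    HS s w := by
  obtain ⟨C, hC⟩ := hw (s.natAbs + n)
  have hC0 : 0 ≤ C := le_trans (by have := J_pos (0 : Fin n → ℤ); positivity) (hC 0)
  unfold HS
  refine Summable.of_nonneg_of_le (fun k => by positivity) (fun k => ?_)
    ((summable_J_inv (n := n) (M := 2 * n) le_rfl).mul_left (C ^ 2))
  have hJ := J_pos k
  have h1 : J k ^ s ≤ J k ^ s.natAbs := by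
    rw [← zpow_natCast]
    exact zpow_le_zpow_right₀ (one_le_J k) (by omega)
  have h2 := hC k
  have h3 : J k ^ n * (J k ^ s * ‖w k‖) ≤ C := by
    refine le_trans ?_ h2
    calc J k ^ n * (J k ^ s * ‖w k‖) ≤ J k ^ n * (J k ^ s.natAbs * ‖w k‖) := by gcongr
      _ = _ := by ring
  have h4 : 0 < J k ^ s := zpow_pos hJ _
  rw [← div_eq_mul_inv, le_div_iff₀ (by positivity)]
  calc (J k ^ s * ‖w k‖) ^ 2 * J k ^ (2 * n) = (J k ^ n * (J k ^ s * ‖w k‖)) ^ 2 := by ring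
    _ ≤ C ^ 2 := by gcongr

lemma HS.decay {w : (Fin n → ℤ) → ℂ} (hw : ∀ s : ℤ, HS s w) (N : ℕ) :
    ∃ C, ∀ k, J k ^ N * ‖w k‖ ≤ C := by
  have h := hw (N : ℤ)
  unfold HS at h
  refine ⟨1 + ∑' k, (J k ^ (N : ℤ) * ‖w k‖) ^ 2, fun k => ?_⟩
  have h1 := h.le_tsum k (fun j _ => by positivity)
  rw [zpow_natCast] at h1
  nlinarith [sq_nonneg (J k ^ N * ‖w k‖ - 1)]

lemma HS.of_bdd {w : (Fin n → ℤ) → ℂ} {C : ℝ} (hw : ∀ k, ‖w k‖ ≤ C) : HS (-(n : ℤ)) w := by
  have hC0 : 0 ≤ C := le_trans (norm_nonneg _) (hw 0)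
  unfold HS
  refine Summable.of_nonneg_of_le (fun k => by positivity) (fun k => ?_)
    ((summable_J_inv (n := n) (M := 2 * n) le_rfl).mul_left (C ^ 2))
  have hJ := J_pos k
  have h1 := hw k
  have h3 : 0 < J k ^ (-(n : ℤ)) := zpow_pos hJ _
  calc (J k ^ (-(n : ℤ)) * ‖w k‖) ^ 2 ≤ (J k ^ (-(n : ℤ)) * C) ^ 2 := by gcongr
    _ = C ^ 2 * (J k ^ (2 * n))⁻¹ := by
        rw [zpow_neg, zpow_natCast]
        field_simp
        ring

/-! ### the operator -/

/-- complexified coefficient. -/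
def ac (B : Fin n → Fin n → EuclideanSpace ℝ (Fin n) → ℝ) (i j : Fin n)
    (x : EuclideanSpace ℝ (Fin n)) : ℂ := (if i = j then 1 else 0) + ((B i j x : ℝ) : ℂ)

/-- complexified operator. -/
def LC (B : Fin n → Fin n → EuclideanSpace ℝ (Fin n) → ℝ)
    (φ : EuclideanSpace ℝ (Fin n) → ℂ) (x : EuclideanSpace ℝ (Fin n)) : ℂ :=
  ∑ i, cd i (fun y => ∑ j, ac B i j y * cd j φ y) x

lemma contDiff_ofReal' {g : EuclideanSpace ℝ (Fin n) → ℝ} (h : ContDiff ℝ ∞ g) :
    ContDiff ℝ ∞ (fun x => ((g x : ℝ) : ℂ)) := Complex.ofRealCLM.contDiff.comp h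

lemma contDiff_ac {B : Fin n → Fin n → EuclideanSpace ℝ (Fin n) → ℝ}
    (hB : ∀ i j, ContDiff ℝ ∞ (B i j)) (i j : Fin n) : ContDiff ℝ ∞ (ac B i j) := by
  unfold ac
  exact contDiff_const.add (contDiff_ofReal' (hB i j))

lemma contDiff_flux {B : Fin n → Fin n → EuclideanSpace ℝ (Fin n) → ℝ}
    (hB : ∀ i j, ContDiff ℝ ∞ (B i j)) {φ : EuclideanSpace ℝ (Fin n) → ℂ}
    (hφ : ContDiff ℝ ∞ φ) (i : Fin n) :
    ContDiff ℝ ∞ (fun y => ∑ j, ac B i j y * cd j φ y) :=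
  ContDiff.sum fun j _ => (contDiff_ac hB i j).mul (contDiff_cd hφ j)

lemma contDiff_LC {B : Fin n → Fin n → EuclideanSpace ℝ (Fin n) → ℝ}
    (hB : ∀ i j, ContDiff ℝ ∞ (B i j)) {φ : EuclideanSpace ℝ (Fin n) → ℂ}
    (hφ : ContDiff ℝ ∞ φ) : ContDiff ℝ ∞ (LC B φ) :=
  ContDiff.sum fun i _ => contDiff_cd (contDiff_flux hB hφ i) i

lemma cd_eq_zero_of_notMem {ψ : EuclideanSpace ℝ (Fin n) → ℂ} {x : EuclideanSpace ℝ (Fin n)}
    (hx : x ∉ tsupport ψ) (j : Fin n) : cd j ψ x = 0 := by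
  have h := tsupport_cd_subset ψ j
  exact image_eq_zero_of_notMem_tsupport fun h' => hx (h h')

lemma tsupport_sum_mul_cd (B : Fin n → Fin n → EuclideanSpace ℝ (Fin n) → ℝ)
    (φ : EuclideanSpace ℝ (Fin n) → ℂ) (i : Fin n) :
    tsupport (fun y => ∑ j, ac B i j y * cd j φ y) ⊆ tsupport φ := by
  refine closure_minimal ?_ (isClosed_tsupport φ)
  intro x hx
  by_contra h
  apply hx
  simp only
  refine Finset.sum_eq_zero fun j _ => ?_
  rw [cd_eq_zero_of_notMem h, mul_zero]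

lemma tsupport_LC (B : Fin n → Fin n → EuclideanSpace ℝ (Fin n) → ℝ)
    (φ : EuclideanSpace ℝ (Fin n) → ℂ) : tsupport (LC B φ) ⊆ tsupport φ := by
  refine closure_minimal ?_ (isClosed_tsupport φ)
  intro x hx
  by_contra h
  apply hx
  unfold LC
  refine Finset.sum_eq_zero fun i _ => ?_
  exact cd_eq_zero_of_notMem (fun h' => h (tsupport_sum_mul_cd B φ i h')) i

/-- the symmetrised drift `X_j = ∑_i (A_ji + A_ij) ∂_i χ`. -/
def XX1 (B : Fin n → Fin n → EuclideanSpace ℝ (Fin n) → ℝ)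
    (χ : EuclideanSpace ℝ (Fin n) → ℂ) (j : Fin n) (x : EuclideanSpace ℝ (Fin n)) : ℂ :=
  ∑ i, ac B j i x * cd i χ x + ∑ i, ac B i j x * cd i χ x

lemma contDiff_XX1 {B : Fin n → Fin n → EuclideanSpace ℝ (Fin n) → ℝ}
    (hB : ∀ i j, ContDiff ℝ ∞ (B i j)) {χ : EuclideanSpace ℝ (Fin n) → ℂ}
    (hχ : ContDiff ℝ ∞ χ) (j : Fin n) : ContDiff ℝ ∞ (XX1 B χ j) :=
  (ContDiff.sum fun i _ => (contDiff_ac hB j i).mul (contDiff_cd hχ i)).add
    (ContDiff.sum fun i _ => (contDiff_ac hB i j).mul (contDiff_cd hχ i))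

lemma tsupport_XX1 (B : Fin n → Fin n → EuclideanSpace ℝ (Fin n) → ℝ)
    (χ : EuclideanSpace ℝ (Fin n) → ℂ) (j : Fin n) : tsupport (XX1 B χ j) ⊆ tsupport χ := by
  refine closure_minimal ?_ (isClosed_tsupport χ)
  intro x hx
  by_contra h
  apply hx
  unfold XX1
  rw [Finset.sum_eq_zero fun i _ => ?_, Finset.sum_eq_zero fun i _ => ?_, add_zero]
  · rw [cd_eq_zero_of_notMem h, mul_zero]
  · rw [cd_eq_zero_of_notMem h, mul_zero]

/-- Leibniz rule for `L (χ e_{-k})`. -/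
lemma LC_mul_ee {B : Fin n → Fin n → EuclideanSpace ℝ (Fin n) → ℝ}
    (hB : ∀ i j, ContDiff ℝ ∞ (B i j)) {χ : EuclideanSpace ℝ (Fin n) → ℂ}
    (hχ : ContDiff ℝ ∞ χ) (k : Fin n → ℤ) (x : EuclideanSpace ℝ (Fin n)) :
    LC B (fun y => χ y * ee (-k) y) x =
      χ x * (∑ i, ∑ j, (-(2 * Real.pi * Complex.I * ((k j : ℝ) : ℂ))) *
        cd i (fun y => ac B i j y * ee (-k) y) x) +
      (∑ j, (-(2 * Real.pi * Complex.I * ((k j : ℝ) : ℂ))) * (XX1 B χ j x * ee (-k) x)) +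
      LC B χ x * ee (-k) x := by
  set cc : Fin n → ℂ := fun j => -(2 * Real.pi * Complex.I * ((k j : ℝ) : ℂ)) with hcc
  have dE : ∀ y, DifferentiableAt ℝ (ee (-k)) y := fun y =>
    (contDiff_ee (-k)).differentiable (by simp) y
  have dχ : ∀ y, DifferentiableAt ℝ χ y := fun y => hχ.differentiable (by simp) y
  have dac : ∀ i j y, DifferentiableAt ℝ (ac B i j) y := fun i j y =>
    (contDiff_ac hB i j).differentiable (by simp) y
  have dcd : ∀ j y, DifferentiableAt ℝ (cd j χ) y := fun j y =>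
    (contDiff_cd hχ j).differentiable (by simp) y
  have hE : ∀ j y, cd j (ee (-k)) y = cc j * ee (-k) y := by
    intro j y
    rw [cd_ee]
    simp [hcc]
  have h1 : ∀ j y, cd j (fun y => χ y * ee (-k) y) y =
      cd j χ y * ee (-k) y + χ y * (cc j * ee (-k) y) := by
    intro j y
    rw [cd_mul j (dχ y) (dE y), hE]
  have h2 : ∀ i, (fun y => ∑ j, ac B i j y * cd j (fun y => χ y * ee (-k) y) y) =
      fun y => (∑ j, ac B i j y * cd j χ y) * ee (-k) y +
        ∑ j, (cc j * (χ y * (ac B i j y * ee (-k) y))) := by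
    intro i
    funext y
    rw [Finset.sum_mul, ← Finset.sum_add_distrib]
    refine Finset.sum_congr rfl fun j _ => ?_
    rw [h1]; ring
  have dP : ∀ i y, DifferentiableAt ℝ (fun y => ∑ j, ac B i j y * cd j χ y) y := fun i y =>
    (contDiff_flux hB hχ i).differentiable (by simp) y
  have dQ : ∀ i j y, DifferentiableAt ℝ (fun y => ac B i j y * ee (-k) y) y := fun i j y =>
    (dac i j y).mul (dE y)
  have h3 : ∀ i, cd i (fun y => ∑ j, ac B i j y * cd j (fun y => χ y * ee (-k) y) y) x =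
      cd i (fun y => ∑ j, ac B i j y * cd j χ y) x * ee (-k) x +
      (∑ j, ac B i j x * cd j χ x) * (cc i * ee (-k) x) +
      ∑ j, cc j * (cd i χ x * (ac B i j x * ee (-k) x) +
        χ x * cd i (fun y => ac B i j y * ee (-k) y) x) := by
    intro i
    have d1 : DifferentiableAt ℝ (fun y => (∑ j, ac B i j y * cd j χ y) * ee (-k) y) x :=
      (dP i x).mul (dE x)
    have d2 : ∀ j, DifferentiableAt ℝ (fun y => χ y * (ac B i j y * ee (-k) y)) x := fun j =>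
      (dχ x).mul (dQ i j x)
    have d3 : ∀ j ∈ Finset.univ, DifferentiableAt ℝ
        (fun y => cc j * (χ y * (ac B i j y * ee (-k) y))) x := fun j _ => (d2 j).const_mul _
    have d4 : DifferentiableAt ℝ
        (fun y => ∑ j, cc j * (χ y * (ac B i j y * ee (-k) y))) x :=
      DifferentiableAt.fun_sum d3
    rw [h2 i, cd_add i d1 d4, cd_mul i (dP i x) (dE x), hE, cd_sum _ i d3]
    congr 1
    refine Finset.sum_congr rfl fun j _ => ?_
    rw [cd_const_mul i _ (d2 j), cd_mul i (dχ x) (dQ i j x)]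
  unfold LC
  simp only [h3]
  rw [Finset.sum_add_distrib, Finset.sum_add_distrib, ← Finset.sum_mul]
  have h4 : ∑ i, ∑ j, cc j * (cd i χ x * (ac B i j x * ee (-k) x) +
        χ x * cd i (fun y => ac B i j y * ee (-k) y) x) =
      (∑ j, cc j * ((∑ i, ac B i j x * cd i χ x) * ee (-k) x)) +
      χ x * ∑ i, ∑ j, cc j * cd i (fun y => ac B i j y * ee (-k) y) x := by
    have : ∑ j, cc j * ((∑ i, ac B i j x * cd i χ x) * ee (-k) x) =
        ∑ i, ∑ j, cc j * (cd i χ x * (ac B i j x * ee (-k) x)) := by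
      rw [Finset.sum_comm]
      refine Finset.sum_congr rfl fun j _ => ?_
      rw [Finset.sum_mul, Finset.mul_sum]
      refine Finset.sum_congr rfl fun i _ => ?_
      ring
    rw [this, Finset.mul_sum, ← Finset.sum_add_distrib]
    refine Finset.sum_congr rfl fun i _ => ?_
    rw [Finset.mul_sum, ← Finset.sum_add_distrib]
    refine Finset.sum_congr rfl fun j _ => ?_
    ring
  rw [h4]
  have h5 : ∑ j, cc j * (XX1 B χ j x * ee (-k) x) =
      ∑ i, (∑ j, ac B i j x * cd j χ x) * (cc i * ee (-k) x) +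
      ∑ j, cc j * ((∑ i, ac B i j x * cd i χ x) * ee (-k) x) := by
    rw [← Finset.sum_add_distrib]
    refine Finset.sum_congr rfl fun j _ => ?_
    unfold XX1
    ring
  rw [h5]
  ring

end Crest.Agent.R202.Ell
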