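import Crest.Agent.R202.EllRecon
import Crest.Agent.R202.EllDefs

/-!
# From the real distributional equation to the complex one; integration by parts
-/

set_option autoImplicit false

noncomputable section

open scoped BigOperators ComplexConjugate FourierTransform ContDiff
open Filter MeasureTheory Crest.GeometryTopology.CoordMetric

namespace Crest.Agent.R202.Ell

variable {n : ℕ}

lemma contDiff_pderiv {φ : EuclideanSpace ℝ (Fin n) → ℝ} (h : ContDiff ℝ ∞ φ) (j : Fin n) :
    ContDiff ℝ ∞ (pderiv j φ) := by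
  unfold pderiv
  exact (h.fderiv_right (m := ∞) (by simp)).clm_apply contDiff_const

lemma contDiffOn_pd {U : Set (EuclideanSpace ℝ (Fin n))} (hU : IsOpen U)
    {φ : EuclideanSpace ℝ (Fin n) → ℝ} (h : ContDiffOn ℝ ∞ φ U) (j : Fin n) :
    ContDiffOn ℝ ∞ (pderiv j φ) U := by
  unfold pderiv
  exact (h.fderiv_of_isOpen hU (m := ∞) (by simp)).clm_apply contDiffOn_const

lemma tsupport_pderiv_subset (φ : EuclideanSpace ℝ (Fin n) → ℝ) (j : Fin n) :
    tsupport (pderiv j φ) ⊆ tsupport φ := by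
  refine (closure_mono ?_).trans (tsupport_fderiv_subset ℝ (f := φ))
  intro x hx
  rw [Function.mem_support] at hx ⊢
  intro h
  apply hx
  unfold pderiv
  rw [h]; simp

lemma hasCompactSupport_pderiv {φ : EuclideanSpace ℝ (Fin n) → ℝ} (h : HasCompactSupport φ)
    (j : Fin n) : HasCompactSupport (pderiv j φ) :=
  h.isCompact.of_isClosed_subset (isClosed_tsupport _) (tsupport_pderiv_subset φ j)

lemma pderiv_congr {φ ψ : EuclideanSpace ℝ (Fin n) → ℝ} {x : EuclideanSpace ℝ (Fin n)}
    (h : φ =ᶠ[nhds x] ψ) (j : Fin n) : pderiv j φ x = pderiv j ψ x := by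
  unfold pderiv
  rw [h.fderiv_eq]

lemma pderiv_eq_zero_of_notMem {φ : EuclideanSpace ℝ (Fin n) → ℝ} {x : EuclideanSpace ℝ (Fin n)}
    (hx : x ∉ tsupport φ) (j : Fin n) : pderiv j φ x = 0 :=
  image_eq_zero_of_notMem_tsupport fun h' => hx (tsupport_pderiv_subset φ j h')

/-- the global matrix field `1 + B`. -/
def AB (B : Fin n → Fin n → EuclideanSpace ℝ (Fin n) → ℝ) (x : EuclideanSpace ℝ (Fin n)) :
    Matrix (Fin n) (Fin n) ℝ := Matrix.of fun i j => (if i = j then 1 else 0) + B i j x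

lemma AB_apply (B : Fin n → Fin n → EuclideanSpace ℝ (Fin n) → ℝ) (x : EuclideanSpace ℝ (Fin n))
    (i j : Fin n) : AB B x i j = (if i = j then 1 else 0) + B i j x := rfl

lemma contDiff_AB {B : Fin n → Fin n → EuclideanSpace ℝ (Fin n) → ℝ}
    (hB : ∀ i j, ContDiff ℝ ∞ (B i j)) (i j : Fin n) : ContDiff ℝ ∞ fun x => AB B x i j := by
  simp only [AB_apply]
  exact contDiff_const.add (hB i j)

lemma contDiff_fluxA {A : EuclideanSpace ℝ (Fin n) → Matrix (Fin n) (Fin n) ℝ}
    (hA : ∀ i j, ContDiff ℝ ∞ fun x => A x i j) {φ : EuclideanSpace ℝ (Fin n) → ℝ}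
    (hφ : ContDiff ℝ ∞ φ) (i : Fin n) : ContDiff ℝ ∞ fun y => ∑ j, A y i j * pderiv j φ y :=
  ContDiff.sum fun j _ => (hA i j).mul (contDiff_pderiv hφ j)

lemma contDiff_divA {A : EuclideanSpace ℝ (Fin n) → Matrix (Fin n) (Fin n) ℝ}
    (hA : ∀ i j, ContDiff ℝ ∞ fun x => A x i j) {φ : EuclideanSpace ℝ (Fin n) → ℝ}
    (hφ : ContDiff ℝ ∞ φ) : ContDiff ℝ ∞ (divA A φ) := by
  unfold divA
  exact ContDiff.sum fun i _ => contDiff_pderiv (contDiff_fluxA hA hφ i) i

lemma cd_ofReal {φ : EuclideanSpace ℝ (Fin n) → ℝ} {x : EuclideanSpace ℝ (Fin n)}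
    (h : DifferentiableAt ℝ φ x) (j : Fin n) :
    cd j (fun y => ((φ y : ℝ) : ℂ)) x = ((pderiv j φ x : ℝ) : ℂ) := by
  unfold cd pderiv
  have h1 : HasFDerivAt (fun y => ((φ y : ℝ) : ℂ)) (Complex.ofRealCLM.comp (fderiv ℝ φ x)) x :=
    Complex.ofRealCLM.hasFDerivAt.comp x h.hasFDerivAt
  rw [h1.fderiv]
  simp

lemma LC_ofReal {B : Fin n → Fin n → EuclideanSpace ℝ (Fin n) → ℝ}
    (hB : ∀ i j, ContDiff ℝ ∞ (B i j)) {φ : EuclideanSpace ℝ (Fin n) → ℝ}
    (hφ : ContDiff ℝ ∞ φ) (x : EuclideanSpace ℝ (Fin n)) :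
    LC B (fun y => ((φ y : ℝ) : ℂ)) x = ((divA (AB B) φ x : ℝ) : ℂ) := by
  unfold LC divA
  rw [Complex.ofReal_sum]
  refine Finset.sum_congr rfl fun i _ => ?_
  have e : (fun y => ∑ j, ac B i j y * cd j (fun y => ((φ y : ℝ) : ℂ)) y) =
      fun y => ((∑ j, AB B y i j * pderiv j φ y : ℝ) : ℂ) := by
    funext y
    rw [Complex.ofReal_sum]
    refine Finset.sum_congr rfl fun j _ => ?_
    rw [cd_ofReal ((hφ.differentiable (by simp)) y)]
    unfold ac
    rw [AB_apply]
    push_cast
    split_ifs <;> simp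
  rw [e, cd_ofReal (((contDiff_fluxA (contDiff_AB hB) hφ i).differentiable (by simp)) x)]

lemma LC_add_mul {B : Fin n → Fin n → EuclideanSpace ℝ (Fin n) → ℝ}
    (hB : ∀ i j, ContDiff ℝ ∞ (B i j)) {φ ψ : EuclideanSpace ℝ (Fin n) → ℂ}
    (hφ : ContDiff ℝ ∞ φ) (hψ : ContDiff ℝ ∞ ψ) (a : ℂ) (x : EuclideanSpace ℝ (Fin n)) :
    LC B (fun y => φ y + a * ψ y) x = LC B φ x + a * LC B ψ x := by
  unfold LC
  rw [Finset.mul_sum, ← Finset.sum_add_distrib]
  refine Finset.sum_congr rfl fun i _ => ?_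
  have e : (fun y => ∑ j, ac B i j y * cd j (fun y => φ y + a * ψ y) y) =
      fun y => (∑ j, ac B i j y * cd j φ y) + a * ∑ j, ac B i j y * cd j ψ y := by
    funext y
    rw [Finset.mul_sum, ← Finset.sum_add_distrib]
    refine Finset.sum_congr rfl fun j _ => ?_
    rw [cd_add j ((hφ.differentiable (by simp)) y) (((hψ.differentiable (by simp)) y).const_mul a),
      cd_const_mul j a ((hψ.differentiable (by simp)) y)]
    ring
  rw [e, cd_add i (((contDiff_flux hB hφ i).differentiable (by simp)) x)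
    ((((contDiff_flux hB hψ i).differentiable (by simp)) x).const_mul a),
    cd_const_mul i a (((contDiff_flux hB hψ i).differentiable (by simp)) x)]

/-- the complex equation from the real one. -/
lemma CEq_of_real {c : EuclideanSpace ℝ (Fin n)} {r1 : ℝ}
    {B : Fin n → Fin n → EuclideanSpace ℝ (Fin n) → ℝ} (hB : ∀ i j, ContDiff ℝ ∞ (B i j))
    {u f : EuclideanSpace ℝ (Fin n) → ℝ} (hu : Integrable u) (hf : ContDiff ℝ ∞ f)
    (h : ∀ φ : EuclideanSpace ℝ (Fin n) → ℝ, ContDiff ℝ ∞ φ → tsupport φ ⊆ Metric.ball c r1 →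
      ∫ x, u x * divA (AB B) φ x = ∫ x, f x * φ x) :
    CEq c r1 B (fun x => ((u x : ℝ) : ℂ)) (fun x => ((f x : ℝ) : ℂ)) := by
  intro Φ hΦ hΦs
  set φ : EuclideanSpace ℝ (Fin n) → ℝ := fun x => (Φ x).re with hφdef
  set ψ : EuclideanSpace ℝ (Fin n) → ℝ := fun x => (Φ x).im with hψdef
  have hφ : ContDiff ℝ ∞ φ := Complex.reCLM.contDiff.comp hΦ
  have hψ : ContDiff ℝ ∞ ψ := Complex.imCLM.contDiff.comp hΦ
  have hφs : tsupport φ ⊆ tsupport Φ := closure_mono fun x hx => by
    rw [Function.mem_support] at hx ⊢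
    intro h0; apply hx; simp [hφdef, h0]
  have hψs : tsupport ψ ⊆ tsupport Φ := closure_mono fun x hx => by
    rw [Function.mem_support] at hx ⊢
    intro h0; apply hx; simp [hψdef, h0]
  have hΦe : Φ = fun y => ((φ y : ℝ) : ℂ) + Complex.I * ((ψ y : ℝ) : ℂ) := by
    funext y
    simp only [hφdef, hψdef]
    rw [mul_comm]
    exact (Complex.re_add_im (Φ y)).symm
  have hcs : HasCompactSupport Φ := hasCompactSupport_of_ball hΦs
  have hφc : HasCompactSupport φ := hasCompactSupport_of_ball (hφs.trans hΦs)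
  have hψc : HasCompactSupport ψ := hasCompactSupport_of_ball (hψs.trans hΦs)
  have h1 := h φ hφ (hφs.trans hΦs)
  have h2 := h ψ hψ (hψs.trans hΦs)
  have uC : Integrable (fun x => ((u x : ℝ) : ℂ)) := hu.ofReal
  have fC : ContDiff ℝ ∞ (fun x => ((f x : ℝ) : ℂ)) := contDiff_ofReal' hf
  have dcs : ∀ {g : EuclideanSpace ℝ (Fin n) → ℝ}, HasCompactSupport g →
      HasCompactSupport (LC B (fun y => ((g y : ℝ) : ℂ))) := by
    intro g hg
    have : HasCompactSupport (fun y => ((g y : ℝ) : ℂ)) :=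
      hg.comp_left (g := fun t : ℝ => (t : ℂ)) (by simp)
    exact this.isCompact.of_isClosed_subset (isClosed_tsupport _) (tsupport_LC B _)
  have i1 : ∀ {g : EuclideanSpace ℝ (Fin n) → ℝ}, ContDiff ℝ ∞ g → HasCompactSupport g →
      Integrable (fun x => ((u x : ℝ) : ℂ) * LC B (fun y => ((g y : ℝ) : ℂ)) x) := by
    intro g hg hgc
    exact integrable_mul_cs uC (contDiff_LC hB (contDiff_ofReal' hg)).continuous (dcs hgc)
  have i2 : ∀ {g : EuclideanSpace ℝ (Fin n) → ℝ}, ContDiff ℝ ∞ g → HasCompactSupport g →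
      Integrable (fun x => ((f x : ℝ) : ℂ) * ((g x : ℝ) : ℂ)) := by
    intro g hg hgc
    have : HasCompactSupport (fun y => ((g y : ℝ) : ℂ)) :=
      hgc.comp_left (g := fun t : ℝ => (t : ℂ)) (by simp)
    exact integrable_of_cs this.mul_left (fC.mul (contDiff_ofReal' hg))
  have e1 : ∫ x, ((u x : ℝ) : ℂ) * LC B Φ x =
      ∫ x, ((u x : ℝ) : ℂ) * LC B (fun y => ((φ y : ℝ) : ℂ)) x +
        Complex.I * (((u x : ℝ) : ℂ) * LC B (fun y => ((ψ y : ℝ) : ℂ)) x) := by
    refine integral_congr_ae (Eventually.of_forall fun x => ?_)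
    simp only
    rw [hΦe, LC_add_mul hB (contDiff_ofReal' hφ) (contDiff_ofReal' hψ)]
    ring
  have e2 : ∫ x, ((f x : ℝ) : ℂ) * Φ x =
      ∫ x, ((f x : ℝ) : ℂ) * ((φ x : ℝ) : ℂ) +
        Complex.I * (((f x : ℝ) : ℂ) * ((ψ x : ℝ) : ℂ)) := by
    refine integral_congr_ae (Eventually.of_forall fun x => ?_)
    simp only
    rw [hΦe]
    ring
  rw [e1, e2, integral_add (i1 hφ hφc) ((i1 hψ hψc).const_mul _),
    integral_add (i2 hφ hφc) ((i2 hψ hψc).const_mul _), integral_const_mul, integral_const_mul]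
  have e3 : ∀ {g : EuclideanSpace ℝ (Fin n) → ℝ}, ContDiff ℝ ∞ g →
      ∫ x, ((u x : ℝ) : ℂ) * LC B (fun y => ((g y : ℝ) : ℂ)) x =
      ((∫ x, u x * divA (AB B) g x : ℝ) : ℂ) := by
    intro g hg
    rw [← integral_complex_ofReal]
    refine integral_congr_ae (Eventually.of_forall fun x => ?_)
    simp only
    rw [LC_ofReal hB hg]
    push_cast
    rfl
  have e4 : ∀ {g : EuclideanSpace ℝ (Fin n) → ℝ},
      ∫ x, ((f x : ℝ) : ℂ) * ((g x : ℝ) : ℂ) = ((∫ x, f x * g x : ℝ) : ℂ) := by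
    intro g
    rw [← integral_complex_ofReal]
    refine integral_congr_ae (Eventually.of_forall fun x => ?_)
    simp only
    push_cast
    rfl
  rw [e3 hφ, e3 hψ, e4, e4, h1, h2]

/-! ### integration by parts -/

lemma ibpR {f g : EuclideanSpace ℝ (Fin n) → ℝ} (hf : ContDiff ℝ ∞ f) (hg : ContDiff ℝ ∞ g)
    (hgc : HasCompactSupport g) (i : Fin n) :
    ∫ x, f x * pderiv i g x = -∫ x, pderiv i f x * g x := by
  have i1 : Integrable (fun x => pderiv i f x * g x) :=
    ((contDiff_pderiv hf i).mul hg).continuous.integrable_of_hasCompactSupport hgc.mul_left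
  have i2 : Integrable (fun x => f x * pderiv i g x) :=
    (hf.mul (contDiff_pderiv hg i)).continuous.integrable_of_hasCompactSupport
      (hasCompactSupport_pderiv hgc i).mul_left
  have i3 : Integrable (fun x => f x * g x) :=
    (hf.mul hg).continuous.integrable_of_hasCompactSupport hgc.mul_left
  exact integral_mul_fderiv_eq_neg_fderiv_mul_of_integrable (μ := volume) (f := f)
    (g := g) (v := EuclideanSpace.single i (1 : ℝ)) i1 i2 i3
    (fun x _ => (hf.differentiable (by simp)) x) (fun x _ => (hg.differentiable (by simp)) x)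

lemma green {A : EuclideanSpace ℝ (Fin n) → Matrix (Fin n) (Fin n) ℝ}
    (hA : ∀ i j, ContDiff ℝ ∞ fun x => A x i j) (hsymm : ∀ x i j, A x i j = A x j i)
    {V φ : EuclideanSpace ℝ (Fin n) → ℝ} (hV : ContDiff ℝ ∞ V) (hφ : ContDiff ℝ ∞ φ)
    (hφc : HasCompactSupport φ) :
    ∫ x, V x * divA A φ x = ∫ x, divA A V x * φ x := by
  have hfl : ∀ i, HasCompactSupport (fun y => ∑ j, A y i j * pderiv j φ y) := by
    intro i
    refine hφc.isCompact.of_isClosed_subset (isClosed_tsupport _) (closure_minimal ?_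
      (isClosed_tsupport _))
    intro x hx
    by_contra hx'
    rw [Function.mem_support] at hx
    apply hx
    exact Finset.sum_eq_zero fun j _ => by rw [pderiv_eq_zero_of_notMem hx', mul_zero]
  have hflc : ∀ i, ContDiff ℝ ∞ fun y => ∑ j, A y i j * pderiv j φ y := contDiff_fluxA hA hφ
  have hflV : ∀ i, ContDiff ℝ ∞ fun y => ∑ j, A y i j * pderiv j V y := contDiff_fluxA hA hV
  have eL : ∫ x, V x * divA A φ x =
      ∑ i, ∫ x, V x * pderiv i (fun y => ∑ j, A y i j * pderiv j φ y) x := by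
    rw [← integral_finsetSum]
    · refine integral_congr_ae (Eventually.of_forall fun x => ?_)
      simp only
      unfold divA
      rw [Finset.mul_sum]
    · intro i _
      exact (hV.mul (contDiff_pderiv (hflc i) i)).continuous.integrable_of_hasCompactSupport
        (hasCompactSupport_pderiv (hfl i) i).mul_left
  have eR : ∫ x, divA A V x * φ x =
      ∑ i, ∫ x, pderiv i (fun y => ∑ j, A y i j * pderiv j V y) x * φ x := by
    rw [← integral_finsetSum]
    · refine integral_congr_ae (Eventually.of_forall fun x => ?_)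
      simp only
      unfold divA
      rw [Finset.sum_mul]
    · intro i _
      exact ((contDiff_pderiv (hflV i) i).mul hφ).continuous.integrable_of_hasCompactSupport
        hφc.mul_left
  have e1 : ∀ i, ∫ x, V x * pderiv i (fun y => ∑ j, A y i j * pderiv j φ y) x =
      -∑ j, ∫ x, A x i j * pderiv i V x * pderiv j φ x := by
    intro i
    rw [ibpR hV (hflc i) (hfl i), ← integral_finsetSum]
    · congr 1
      refine integral_congr_ae (Eventually.of_forall fun x => ?_)
      simp only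
      rw [Finset.mul_sum]
      exact Finset.sum_congr rfl fun j _ => by ring
    · intro j _
      exact (((hA i j).mul (contDiff_pderiv hV i)).mul
        (contDiff_pderiv hφ j)).continuous.integrable_of_hasCompactSupport
        (hasCompactSupport_pderiv hφc j).mul_left
  have e2 : ∀ i, ∫ x, pderiv i (fun y => ∑ j, A y i j * pderiv j V y) x * φ x =
      -∑ j, ∫ x, A x i j * pderiv j V x * pderiv i φ x := by
    intro i
    have := ibpR (hflV i) hφ hφc i
    have e : ∫ x, pderiv i (fun y => ∑ j, A y i j * pderiv j V y) x * φ x =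
      -∫ x, (∑ j, A x i j * pderiv j V x) * pderiv i φ x := by rw [this, neg_neg]
    rw [e, ← integral_finsetSum]
    · congr 1
      refine integral_congr_ae (Eventually.of_forall fun x => ?_)
      simp only
      rw [Finset.sum_mul]
    · intro j _
      exact (((hA i j).mul (contDiff_pderiv hV j)).mul
        (contDiff_pderiv hφ i)).continuous.integrable_of_hasCompactSupport
        (hasCompactSupport_pderiv hφc i).mul_left
  rw [eL, eR]
  simp only [e1, e2]
  rw [Finset.sum_neg_distrib, Finset.sum_neg_distrib, Finset.sum_comm]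
  congr 1
  refine Finset.sum_congr rfl fun i _ => Finset.sum_congr rfl fun j _ => ?_
  refine integral_congr_ae (Eventually.of_forall fun x => ?_)
  simp only
  rw [hsymm x j i]

end Crest.Agent.R202.Ell
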