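import Crest.Agent.R202.EllStep

/-!
# Reconstruction: rapidly decaying coefficients give a smooth function
-/

set_option autoImplicit false

noncomputable section

open scoped BigOperators ComplexConjugate FourierTransform ContDiff
open Filter MeasureTheory

namespace Crest.Agent.R202.Ell

variable {n : ℕ}

/-- the real linear phase. -/
def rphase (k : Fin n → ℤ) : EuclideanSpace ℝ (Fin n) →L[ℝ] ℝ :=
  (2 * Real.pi) • ∑ i, (k i : ℝ) • (EuclideanSpace.proj i : EuclideanSpace ℝ (Fin n) →L[ℝ] ℝ)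

lemma rphase_apply (k : Fin n → ℤ) (x : EuclideanSpace ℝ (Fin n)) :
    rphase k x = 2 * Real.pi * ∑ i, (k i : ℝ) * x i := by
  simp [rphase]

lemma norm_rphase_le (k : Fin n → ℤ) : ‖rphase k‖ ≤ 2 * Real.pi * J k := by
  have hJ := J_pos k
  have hpi := Real.pi_pos
  refine ContinuousLinearMap.opNorm_le_bound _ (by positivity) fun x => ?_
  rw [rphase_apply, Real.norm_eq_abs, abs_mul, abs_of_pos (by positivity : 0 < 2 * Real.pi),
    mul_assoc (2 * Real.pi)]
  refine mul_le_mul_of_nonneg_left ?_ (by positivity)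
  have h1 : |∑ i, (k i : ℝ) * x i| ≤ ∑ i, |(k i : ℝ)| * ‖x‖ := by
    refine (Finset.abs_sum_le_sum_abs _ _).trans (Finset.sum_le_sum fun i _ => ?_)
    rw [abs_mul]
    refine mul_le_mul_of_nonneg_left ?_ (abs_nonneg _)
    have := PiLp.norm_apply_le x i
    simpa using this
  refine h1.trans ?_
  rw [← Finset.sum_mul]
  refine mul_le_mul_of_nonneg_right ?_ (norm_nonneg x)
  unfold J
  linarith

/-- `t ↦ exp(i t)`. -/
def ei (t : ℝ) : ℂ := Complex.exp ((t : ℂ) * Complex.I)

lemma hasDerivAt_ei (t : ℝ) : HasDerivAt ei (Complex.I * ei t) t := by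
  unfold ei
  have h := ((Complex.ofRealCLM.hasDerivAt (x := t)).mul_const Complex.I).cexp
  simp only [Complex.ofRealCLM_apply, Complex.ofReal_one, one_mul] at h
  rw [mul_comm]
  exact h

lemma contDiff_ei : ContDiff ℝ ∞ ei := by
  unfold ei
  exact (Complex.ofRealCLM.contDiff.mul contDiff_const).cexp

lemma iteratedDeriv_ei (m : ℕ) : iteratedDeriv m ei = fun t => Complex.I ^ m * ei t := by
  induction m with
  | zero => simp
  | succ m ih =>
    rw [iteratedDeriv_succ, ih]
    funext t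
    rw [((hasDerivAt_ei t).const_mul _).deriv]
    ring

lemma norm_ei (t : ℝ) : ‖ei t‖ = 1 := by
  unfold ei; rw [Complex.norm_exp_ofReal_mul_I]

lemma ee_eq_comp (k : Fin n → ℤ) : ee k = ei ∘ rphase k := by
  funext x
  rw [ee_eq_real, Function.comp_apply, rphase_apply, ei]

lemma norm_iteratedFDeriv_ee (k : Fin n → ℤ) (m : ℕ) (x : EuclideanSpace ℝ (Fin n)) :
    ‖iteratedFDeriv ℝ m (ee k) x‖ ≤ (2 * Real.pi * J k) ^ m := by
  rw [ee_eq_comp, ContinuousLinearMap.iteratedFDeriv_comp_right (rphase k) contDiff_ei x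
    (i := m) (by exact_mod_cast le_top)]
  refine (ContinuousMultilinearMap.norm_compContinuousLinearMap_le _ _).trans ?_
  rw [norm_iteratedFDeriv_eq_norm_iteratedDeriv, iteratedDeriv_ei]
  simp only [norm_mul, norm_pow, Complex.norm_I, one_pow, norm_ei, mul_one, one_mul,
    Finset.prod_const, Finset.card_univ, Fintype.card_fin]
  exact pow_le_pow_left₀ (norm_nonneg _) (norm_rphase_le k) m

/-- the smooth function with coefficients `w`. -/
def rec (w : (Fin n → ℤ) → ℂ) (x : EuclideanSpace ℝ (Fin n)) : ℂ := ∑' k, w k * ee k x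

lemma contDiff_rec {w : (Fin n → ℤ) → ℂ} (hw : ∀ N : ℕ, ∃ C, ∀ k, J k ^ N * ‖w k‖ ≤ C) :
    ContDiff ℝ ∞ (rec w) := by
  unfold rec
  refine contDiff_tsum (N := ⊤) (v := fun m k => ‖w k‖ * (2 * Real.pi * J k) ^ m)
    (fun k => contDiff_const.mul (contDiff_ee k)) (fun m _ => ?_) (fun m k x _ => ?_)
  · refine ((summable_of_decay hw m).mul_left ((2 * Real.pi) ^ m)).congr fun k => ?_
    rw [mul_pow]; ring
  · have : (fun x => w k * ee k x) = fun x => w k • ee k x := rfl
    rw [this, iteratedFDeriv_const_smul_apply' ((contDiff_ee k).contDiffAt.of_le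
      (by exact_mod_cast le_top)), norm_smul]
    exact mul_le_mul_of_nonneg_left (norm_iteratedFDeriv_ee k m x) (norm_nonneg _)

lemma integral_rec_mul {a : (Fin n → ℤ) → ℂ} (ha : Summable fun k => ‖a k‖)
    {W : EuclideanSpace ℝ (Fin n) → ℂ} (hW : Integrable W) :
    ∫ x, rec a x * W x = ∑' k, a k * cf W (-k) := by
  set F : (Fin n → ℤ) → EuclideanSpace ℝ (Fin n) → ℂ := fun k x => a k * (W x * ee k x) with hF
  have hFi : ∀ k, Integrable (F k) := fun k => (integrable_mul_ee hW k).const_mul _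
  have hnorm : ∀ k, ∫ x, ‖F k x‖ = ‖a k‖ * ∫ x, ‖W x‖ := by
    intro k
    rw [← integral_const_mul]
    refine integral_congr_ae (Eventually.of_forall fun x => ?_)
    simp only [hF, norm_mul, norm_ee, mul_one]
  have hsum : Summable fun k => ∫ x, ‖F k x‖ := by
    simp only [hnorm]
    exact ha.mul_right _
  have hmain := hasSum_integral_of_summable_integral_norm hFi hsum
  have hpt : ∀ x, rec a x * W x = ∑' k, F k x := by
    intro x
    unfold rec
    rw [← tsum_mul_right]
    refine tsum_congr fun k => ?_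
    simp only [hF]; ring
  rw [integral_congr_ae (Eventually.of_forall hpt), ← hmain.tsum_eq]
  refine tsum_congr fun k => ?_
  simp only [hF]
  rw [integral_const_mul]
  unfold cf
  rw [neg_neg]

lemma decay_norm_zero {w : (Fin n → ℤ) → ℂ} (hw : ∀ N : ℕ, ∃ C, ∀ k, J k ^ N * ‖w k‖ ≤ C) :
    Summable fun k => ‖w k‖ := by
  simpa using summable_of_decay hw 0

/-- **Reconstruction.** -/
theorem rec_ae {c : EuclideanSpace ℝ (Fin n)} {r : ℝ} (hr : r < 1 / 2)
    {W : EuclideanSpace ℝ (Fin n) → ℂ} (hW : Integrable W) (hWs : ∀ x, r ≤ ‖x - c‖ → W x = 0)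
    (hdec : ∀ N : ℕ, ∃ C, ∀ k, J k ^ N * ‖cf W k‖ ≤ C) :
    ∀ᵐ x, x ∈ Metric.ball c r → rec (cf W) x = W x := by
  have hVs := contDiff_rec hdec
  have hVint : LocallyIntegrable (fun x => rec (cf W) x - W x) :=
    hVs.continuous.locallyIntegrable.sub hW.locallyIntegrable
  have key := IsOpen.ae_eq_zero_of_integral_contDiff_smul_eq_zero (μ := volume)
    (U := Metric.ball c r) Metric.isOpen_ball (f := fun x => rec (cf W) x - W x)
    (hVint.locallyIntegrableOn _) ?_
  · filter_upwards [key] with x hx hxb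
    exact sub_eq_zero.1 (hx hxb)
  intro g hg hgc hgs
  set G : EuclideanSpace ℝ (Fin n) → ℂ := fun x => ((g x : ℝ) : ℂ) with hG
  have hGc : ContDiff ℝ ∞ G := contDiff_ofReal' hg
  have hGs : tsupport G ⊆ Metric.ball c r := (tsupport_ofReal g).trans hgs
  have hGcs : HasCompactSupport G := hasCompactSupport_of_ball hGs
  have hGi : Integrable G := integrable_of_cs hGcs hGc
  have e1 : ∫ x, rec (cf W) x * G x = ∑' k, cf W k * cf G (-k) :=
    integral_rec_mul (decay_norm_zero hdec) hGi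
  have e2 : ∫ x, rec (cf G) x * W x = ∑' k, cf G k * cf W (-k) :=
    integral_rec_mul (decay_norm_zero (cf_decay hGcs hGc)) hW
  have e3 : ∫ x, rec (cf G) x * W x = ∫ x, G x * W x := by
    refine integral_congr_ae (Eventually.of_forall fun x => ?_)
    simp only
    by_cases hx : r ≤ ‖x - c‖
    · rw [hWs x hx]; simp
    · push Not at hx
      unfold rec
      rw [(hasSum_cf hGcs hGc c hr (zero_of_ball hGs) (hx.trans hr)).tsum_eq]
  have e4 : ∑' k, cf G k * cf W (-k) = ∑' k, cf W k * cf G (-k) := by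
    rw [← (Equiv.neg (Fin n → ℤ)).tsum_eq]
    refine tsum_congr fun k => ?_
    simp only [Equiv.neg_apply, neg_neg]
    ring
  have i1 : Integrable (fun x => rec (cf W) x * G x) :=
    integrable_of_cs hGcs.mul_left (hVs.mul hGc)
  have i2 : Integrable (fun x => G x * W x) := by
    have := integrable_mul_cs hW hGc.continuous hGcs
    refine this.congr (Eventually.of_forall fun x => ?_)
    simp only; ring
  have e5 : ∫ x, g x • (rec (cf W) x - W x) =
      ∫ x, rec (cf W) x * G x - G x * W x := by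
    refine integral_congr_ae (Eventually.of_forall fun x => ?_)
    simp only [hG, Complex.real_smul]
    ring
  rw [e5, integral_sub i1 i2, e1, ← e3, e2, e4, sub_self]

/-- **Local regularity, complex form.** -/
theorem local_smooth {c : EuclideanSpace ℝ (Fin n)} {r r1 lam : ℝ} (hr1 : r1 ≤ r)
    {B : Fin n → Fin n → EuclideanSpace ℝ (Fin n) → ℝ} (hD : LocData c r lam B)
    {u f : EuclideanSpace ℝ (Fin n) → ℂ} (hu : Integrable u) (hf : ContDiff ℝ ∞ f)
    (hEq : CEq c r1 B u f) (χ : EuclideanSpace ℝ (Fin n) → ℂ) (hχ : ContDiff ℝ ∞ χ)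
    (hχs : tsupport χ ⊆ Metric.ball c r1) :
    ∃ V : EuclideanSpace ℝ (Fin n) → ℂ, ContDiff ℝ ∞ V ∧
      ∀ᵐ x, x ∈ Metric.ball c r1 → V x = u x * χ x := by
  have hcs := hasCompactSupport_of_ball hχs
  have hdec : ∀ N : ℕ, ∃ C, ∀ k, J k ^ N * ‖cf (fun x => u x * χ x) k‖ ≤ C := fun N =>
    HS.decay (fun s => HS_all hr1 hD hu hf hEq s χ hχ hχs) N
  refine ⟨_, contDiff_rec hdec, ?_⟩
  exact rec_ae (hr1.trans_lt hD.hr) (integrable_mul_cs hu hχ.continuous hcs)
    (fun x hx => by rw [zero_of_ball hχs x hx, mul_zero]) hdec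

end Crest.Agent.R202.Ell
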