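import Mathlib

/-!
# Elliptic regularity on the Fourier side (sequence level)

Row 202, PART R. Weights `J k = 1 + ∑ |k i|` on `ℤ^n`, multipliers `J^s / (1 + ε J)`, and the
commutator estimate: an `h^s` solution of an elliptic convolution equation with right side in
`h^(s-1)` is in `h^(s+1)`.
-/

set_option autoImplicit false

noncomputable section

open scoped BigOperators ComplexConjugate

namespace Crest.Agent.R202.Ell

variable {n : ℕ}

/-- the weight `1 + |k|_1` on `ℤ^n`. -/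
def J (k : Fin n → ℤ) : ℝ := 1 + ∑ i, |(k i : ℝ)|

lemma one_le_J (k : Fin n → ℤ) : 1 ≤ J k := by
  rw [J]
  have : 0 ≤ ∑ i, |(k i : ℝ)| := Finset.sum_nonneg fun i _ => abs_nonneg _
  linarith

lemma J_pos (k : Fin n → ℤ) : 0 < J k := lt_of_lt_of_le one_pos (one_le_J k)

lemma abs_le_J (k : Fin n → ℤ) (i : Fin n) : |(k i : ℝ)| ≤ J k := by
  unfold J
  have := Finset.single_le_sum (f := fun i => |(k i : ℝ)|) (fun i _ => abs_nonneg _)
    (Finset.mem_univ i)
  linarith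

lemma J_neg (k : Fin n → ℤ) : J (-k) = J k := by
  simp [J]

lemma J_add_le_add (k l : Fin n → ℤ) : J (k + l) ≤ J k + J l - 1 := by
  unfold J
  have : ∑ i, |((k + l) i : ℝ)| ≤ ∑ i, |(k i : ℝ)| + ∑ i, |(l i : ℝ)| := by
    rw [← Finset.sum_add_distrib]
    refine Finset.sum_le_sum fun i _ => ?_
    have := abs_add_le (k i : ℝ) (l i : ℝ)
    simpa using this
  linarith

lemma J_add_le (k l : Fin n → ℤ) : J (k + l) ≤ J k * J l := by
  have h1 := J_add_le_add k l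
  have h2 := one_le_J k
  have h3 := one_le_J l
  nlinarith [mul_nonneg (sub_nonneg.2 h2) (sub_nonneg.2 h3)]

lemma J_le_mul (m l : Fin n → ℤ) : J l ≤ J m * J (m + l) := by
  have := J_add_le (-m) (m + l)
  simpa [J_neg] using this

lemma abs_J_sub_le (m l : Fin n → ℤ) : |J (m + l) - J l| ≤ J m := by
  rw [abs_le]
  have h1 := J_add_le_add m l
  have h2 := J_add_le_add (-m) (m + l)
  simp only [neg_add_cancel_left, J_neg] at h2
  constructor <;> linarith [J_pos m]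

lemma J_sq_le (k : Fin n → ℤ) : J k ^ 2 ≤ 2 + 2 * n * ∑ i, (k i : ℝ) ^ 2 := by
  unfold J
  have h1 : (∑ i, |(k i : ℝ)|) ^ 2 ≤ n * ∑ i, |(k i : ℝ)| ^ 2 := by
    have := sq_sum_le_card_mul_sum_sq (s := (Finset.univ : Finset (Fin n)))
      (f := fun i => |(k i : ℝ)|)
    simpa using this
  have h2 : ∑ i, |(k i : ℝ)| ^ 2 = ∑ i, (k i : ℝ) ^ 2 := by
    refine Finset.sum_congr rfl fun i _ => sq_abs _
  rw [h2] at h1
  nlinarith [sq_nonneg (1 - ∑ i, |(k i : ℝ)|)]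

/-- monotonicity of integer powers under two-sided comparison. -/
lemma zpow_le_of_comparable {x y δ : ℝ} (hx : 1 ≤ x) (hy : 1 ≤ y) (hδ : 1 ≤ δ)
    (hxy : x ≤ δ * y) (hyx : y ≤ δ * x) (s : ℤ) : x ^ s ≤ δ ^ s.natAbs * y ^ s := by
  have hx0 : 0 < x := by linarith
  have hy0 : 0 < y := by linarith
  have hδ0 : 0 < δ := by linarith
  rcases Int.natAbs_eq s with h | h
  · rw [h]
    simp only [Int.natAbs_natCast, zpow_natCast]
    rw [← mul_pow]
    exact pow_le_pow_left₀ hx0.le hxy _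
  · rw [h]
    simp only [Int.natAbs_neg, Int.natAbs_natCast, zpow_neg, zpow_natCast]
    have h1 : y ^ s.natAbs ≤ δ ^ s.natAbs * x ^ s.natAbs := by
      rw [← mul_pow]
      exact pow_le_pow_left₀ hy0.le hyx _
    have hxp : 0 < x ^ s.natAbs := pow_pos hx0 _
    have hyp : 0 < y ^ s.natAbs := pow_pos hy0 _
    rw [← div_eq_mul_inv, le_div_iff₀ hyp, inv_mul_le_iff₀ hxp]
    linarith

lemma abs_pow_sub_pow_le {x y δ : ℝ} (hx : 1 ≤ x) (hy : 1 ≤ y) (hδ : 1 ≤ δ)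
    (hxy : x ≤ δ * y) (hd : |x - y| ≤ δ) (t : ℕ) :
    |x ^ t - y ^ t| ≤ t * δ ^ t * y ^ t / y := by
  have hx0 : 0 < x := by linarith
  have hy0 : 0 < y := by linarith
  have hδ0 : 0 < δ := by linarith
  rcases Nat.eq_zero_or_pos t with h0 | hpos
  · subst h0; simp
  obtain ⟨q, rfl⟩ : ∃ q, t = q + 1 := ⟨t - 1, by omega⟩
  have h1 : x ^ (q + 1) - y ^ (q + 1) =
      (∑ i ∈ Finset.range (q + 1), x ^ i * y ^ (q + 1 - 1 - i)) * (x - y) :=
    (Commute.all x y).geom_sum₂_mul (q + 1) |>.symm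
  rw [h1, abs_mul]
  have h2 : |∑ i ∈ Finset.range (q + 1), x ^ i * y ^ (q + 1 - 1 - i)| ≤
      (q + 1 : ℕ) * (δ ^ q * y ^ q) := by
    rw [abs_of_nonneg (Finset.sum_nonneg fun i _ => by positivity)]
    have : ∀ i ∈ Finset.range (q + 1), x ^ i * y ^ (q + 1 - 1 - i) ≤ δ ^ q * y ^ q := by
      intro i hi
      have hi' : i ≤ q := by simpa [Nat.lt_succ_iff] using hi
      have hxi : x ^ i ≤ (δ * y) ^ i := pow_le_pow_left₀ hx0.le hxy i
      calc x ^ i * y ^ (q + 1 - 1 - i) ≤ (δ * y) ^ i * y ^ (q + 1 - 1 - i) := by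
            gcongr
        _ = δ ^ i * y ^ q := by
            rw [mul_pow, mul_assoc, ← pow_add]
            congr 2
            omega
        _ ≤ δ ^ q * y ^ q := by
            gcongr
    calc ∑ i ∈ Finset.range (q + 1), x ^ i * y ^ (q + 1 - 1 - i)
        ≤ ∑ i ∈ Finset.range (q + 1), δ ^ q * y ^ q := Finset.sum_le_sum this
      _ = (q + 1 : ℕ) * (δ ^ q * y ^ q) := by simp
  calc |∑ i ∈ Finset.range (q + 1), x ^ i * y ^ (q + 1 - 1 - i)| * |x - y|
      ≤ ((q + 1 : ℕ) * (δ ^ q * y ^ q)) * δ := by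
        gcongr
    _ = ((q + 1 : ℕ) : ℝ) * δ ^ (q + 1) * y ^ (q + 1) / y := by
        field_simp
        ring

lemma abs_zpow_sub_zpow_le {x y δ : ℝ} (hx : 1 ≤ x) (hy : 1 ≤ y) (hδ : 1 ≤ δ)
    (hxy : x ≤ δ * y) (hyx : y ≤ δ * x) (hd : |x - y| ≤ δ) (s : ℤ) :
    |x ^ s - y ^ s| ≤ s.natAbs * δ ^ (2 * s.natAbs) * y ^ s / y := by
  have hx0 : 0 < x := by linarith
  have hy0 : 0 < y := by linarith
  have hδ0 : 0 < δ := by linarith
  set t := s.natAbs with ht
  have hδt : δ ^ t ≤ δ ^ (2 * t) := pow_le_pow_right₀ hδ (by omega)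
  rcases Int.natAbs_eq s with h | h
  · have hs : ∀ z : ℝ, z ^ s = z ^ t := by
      intro z
      rw [ht, ← zpow_natCast, ← h]
    rw [hs, hs]
    refine (abs_pow_sub_pow_le hx hy hδ hxy hd t).trans ?_
    gcongr
  · have hs : ∀ z : ℝ, z ^ s = (z ^ t)⁻¹ := by
      intro z
      rw [ht, ← zpow_natCast, ← zpow_neg, ← h]
    rw [hs, hs]
    have hxp : 0 < x ^ t := pow_pos hx0 _
    have hyp : 0 < y ^ t := pow_pos hy0 _
    have h1 := abs_pow_sub_pow_le hx hy hδ hxy hd t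
    have h2 : (x ^ t)⁻¹ - (y ^ t)⁻¹ = (y ^ t - x ^ t) / (x ^ t * y ^ t) := by
      field_simp
    rw [h2, abs_div, abs_of_pos (mul_pos hxp hyp), abs_sub_comm, div_le_iff₀ (mul_pos hxp hyp)]
    refine h1.trans ?_
    have h3 : y ^ t ≤ δ ^ t * x ^ t := by
      rw [← mul_pow]; exact pow_le_pow_left₀ hy0.le hyx _
    have h4 : (t : ℝ) * δ ^ (2 * t) * (y ^ t)⁻¹ / y * (x ^ t * y ^ t) =
        t * δ ^ t * (δ ^ t * x ^ t) / y := by
      field_simp
      ring
    rw [h4]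
    gcongr

/-- the smoothing multipliers. -/
def mu (s : ℤ) (ε : ℝ) (k : Fin n → ℤ) : ℝ := J k ^ s / (1 + ε * J k)

lemma mu_pos (s : ℤ) {ε : ℝ} (hε : 0 < ε) (k : Fin n → ℤ) : 0 < mu s ε k := by
  unfold mu
  have := J_pos k
  positivity

lemma mu_le (s : ℤ) {ε : ℝ} (hε : 0 < ε) (k : Fin n → ℤ) : mu s ε k ≤ J k ^ s := by
  unfold mu
  have h := J_pos k
  have h1 : 0 ≤ ε * J k := by positivity
  apply div_le_self (by positivity)
  linarith

lemma mu_mul_J_le (s : ℤ) {ε : ℝ} (hε : 0 < ε) (k : Fin n → ℤ) :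
    mu s ε k * J k ≤ (1 / ε) * J k ^ s := by
  unfold mu
  have h := J_pos k
  have h1 : 0 < 1 + ε * J k := by positivity
  rw [div_mul_eq_mul_div, div_le_iff₀ h1]
  have h2 : 0 < J k ^ s := by positivity
  have : (1 / ε) * J k ^ s * (1 + ε * J k) = (1 / ε) * J k ^ s + J k ^ s * J k := by
    field_simp
  rw [this]
  have : 0 < (1 / ε) * J k ^ s := by positivity
  linarith

/-- commutator bound for the multipliers, uniform in `ε`. -/
lemma mu_diff (s : ℤ) {ε : ℝ} (hε : 0 < ε) (m l : Fin n → ℤ) :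
    |mu s ε (m + l) - mu s ε l| * J l ≤
      (s.natAbs + 1) * J m ^ (2 * s.natAbs + 2) * J l ^ s := by
  set x := J (m + l) with hxd
  set y := J l with hyd
  set δ := J m with hδd
  have hx : 1 ≤ x := one_le_J _
  have hy : 1 ≤ y := one_le_J _
  have hδ : 1 ≤ δ := one_le_J _
  have hx0 : 0 < x := by linarith
  have hy0 : 0 < y := by linarith
  have hδ0 : 0 < δ := by linarith
  have hxy : x ≤ δ * y := J_add_le m l
  have hyx : y ≤ δ * x := J_le_mul m l
  have hd : |x - y| ≤ δ := abs_J_sub_le m l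
  have hεx : 0 < 1 + ε * x := by positivity
  have hεy : 0 < 1 + ε * y := by positivity
  have h1 : mu s ε (m + l) - mu s ε l =
      (x ^ s - y ^ s) / (1 + ε * y) + x ^ s * (ε * (y - x)) / ((1 + ε * x) * (1 + ε * y)) := by
    unfold mu
    rw [← hxd, ← hyd]
    field_simp
    ring
  have h2 : |(x ^ s - y ^ s) / (1 + ε * y)| ≤ s.natAbs * δ ^ (2 * s.natAbs) * y ^ s / y := by
    rw [abs_div, abs_of_pos hεy]
    refine (div_le_self (abs_nonneg _) (by nlinarith [mul_pos hε hy0])).trans ?_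
    exact abs_zpow_sub_zpow_le hx hy hδ hxy hyx hd s
  have h3 : |x ^ s * (ε * (y - x)) / ((1 + ε * x) * (1 + ε * y))| ≤
      δ ^ (s.natAbs + 2) * y ^ s / y := by
    rw [abs_div, abs_of_pos (mul_pos hεx hεy), abs_mul, abs_mul, abs_of_pos (by positivity : 0 < x ^ s),
      abs_of_pos hε, abs_sub_comm]
    rw [div_le_iff₀ (mul_pos hεx hεy)]
    have h4 : x ^ s ≤ δ ^ s.natAbs * y ^ s := zpow_le_of_comparable hx hy hδ hxy hyx s
    have h5 : ε * y ≤ δ * (ε * x) := by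
      calc ε * y ≤ ε * (δ * x) := by gcongr
        _ = δ * (ε * x) := by ring
    calc x ^ s * (ε * |x - y|) ≤ (δ ^ s.natAbs * y ^ s) * (ε * δ) := by gcongr
      _ = δ ^ (s.natAbs + 1) * y ^ s / y * (ε * y) := by
          field_simp
          ring
      _ ≤ δ ^ (s.natAbs + 1) * y ^ s / y * (δ * (ε * x)) := by gcongr
      _ = δ ^ (s.natAbs + 2) * y ^ s / y * (ε * x) := by ring
      _ ≤ δ ^ (s.natAbs + 2) * y ^ s / y * ((1 + ε * x) * (1 + ε * y)) := by
          refine mul_le_mul_of_nonneg_left ?_ (by positivity)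
          nlinarith [mul_pos hε hy0, mul_pos hε hx0, mul_pos (mul_pos hε hy0) (mul_pos hε hx0)]
  have h6 : |mu s ε (m + l) - mu s ε l| ≤
      s.natAbs * δ ^ (2 * s.natAbs) * y ^ s / y + δ ^ (s.natAbs + 2) * y ^ s / y := by
    rw [h1]
    exact (abs_add_le _ _).trans (add_le_add h2 h3)
  calc |mu s ε (m + l) - mu s ε l| * y
      ≤ (s.natAbs * δ ^ (2 * s.natAbs) * y ^ s / y + δ ^ (s.natAbs + 2) * y ^ s / y) * y := by
        gcongr
    _ = s.natAbs * δ ^ (2 * s.natAbs) * y ^ s + δ ^ (s.natAbs + 2) * y ^ s := by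
        field_simp
    _ ≤ s.natAbs * δ ^ (2 * s.natAbs + 2) * y ^ s + δ ^ (2 * s.natAbs + 2) * y ^ s := by
        have e1 : δ ^ (2 * s.natAbs) ≤ δ ^ (2 * s.natAbs + 2) := pow_le_pow_right₀ hδ (by omega)
        have e2 : δ ^ (s.natAbs + 2) ≤ δ ^ (2 * s.natAbs + 2) := pow_le_pow_right₀ hδ (by omega)
        gcongr
    _ = (s.natAbs + 1) * δ ^ (2 * s.natAbs + 2) * y ^ s := by ring

end Crest.Agent.R202.Ell
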