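import Crest.Agent.R202.EllLocal

/-!
# The coefficient equation and the induction on `s`
-/

set_option autoImplicit false

noncomputable section

open scoped BigOperators ComplexConjugate FourierTransform ContDiff
open Filter MeasureTheory

namespace Crest.Agent.R202.Ell

variable {n : ℕ}

/-- local data: smooth perturbation of the identity supported in a small ball, elliptic. -/
structure LocData (c : EuclideanSpace ℝ (Fin n)) (r lam : ℝ)
    (B : Fin n → Fin n → EuclideanSpace ℝ (Fin n) → ℝ) : Prop where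
  hr : r < 1 / 2
  hB : ∀ i j, ContDiff ℝ ∞ (B i j)
  hs : ∀ i j, tsupport (B i j) ⊆ Metric.ball c r
  hlam : 0 < lam
  hell : Elliptic lam B

lemma hasCompactSupport_of_ball {F : Type*} [NormedAddCommGroup F]
    {c : EuclideanSpace ℝ (Fin n)} {r : ℝ} {ψ : EuclideanSpace ℝ (Fin n) → F}
    (h : tsupport ψ ⊆ Metric.ball c r) : HasCompactSupport ψ :=
  (isCompact_closedBall c r).of_isClosed_subset (isClosed_tsupport ψ)
    (h.trans Metric.ball_subset_closedBall)

lemma zero_of_ball {F : Type*} [NormedAddCommGroup F]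
    {c : EuclideanSpace ℝ (Fin n)} {r : ℝ} {ψ : EuclideanSpace ℝ (Fin n) → F}
    (h : tsupport ψ ⊆ Metric.ball c r) (x : EuclideanSpace ℝ (Fin n)) (hx : r ≤ ‖x - c‖) :
    ψ x = 0 := by
  refine image_eq_zero_of_notMem_tsupport fun h' => ?_
  have := h h'
  rw [Metric.mem_ball, dist_eq_norm] at this
  linarith

lemma integrable_mul_cs {u g : EuclideanSpace ℝ (Fin n) → ℂ} (hu : Integrable u)
    (hg : Continuous g) (hgc : HasCompactSupport g) : Integrable (fun x => u x * g x) := by
  obtain ⟨C, hC⟩ := hgc.exists_bound_of_continuous hg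
  exact hu.mul_bdd hg.aestronglyMeasurable (Eventually.of_forall hC)

lemma tsupport_ofReal (g : EuclideanSpace ℝ (Fin n) → ℝ) :
    tsupport (fun x => ((g x : ℝ) : ℂ)) ⊆ tsupport g := by
  refine closure_mono fun x hx => ?_
  rw [Function.mem_support] at hx ⊢
  intro h; apply hx; simp [h]

lemma summable_am_term {c : EuclideanSpace ℝ (Fin n)} {r lam : ℝ}
    {B : Fin n → Fin n → EuclideanSpace ℝ (Fin n) → ℝ} (hD : LocData c r lam B)
    {w : EuclideanSpace ℝ (Fin n) → ℂ} (i j : Fin n) (k : Fin n → ℤ) :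
    Summable fun m => cf (fun x => ((B i j x : ℝ) : ℂ)) m * (((k - m) i : ℝ) : ℂ) *
      cf w (k - m) := by
  have hcs : HasCompactSupport (fun x => ((B i j x : ℝ) : ℂ)) :=
    hasCompactSupport_of_ball ((tsupport_ofReal _).trans (hD.hs i j))
  have h := summable_cf hcs (contDiff_ofReal' (hD.hB i j)) 1
  refine Summable.of_norm_bounded ((h.mul_left (J k)).mul_right (∫ x, ‖w x‖)) fun m => ?_
  rw [norm_mul, norm_mul, Complex.norm_real, Real.norm_eq_abs]
  have h1 : |((k - m) i : ℝ)| ≤ J k * J m := by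
    have h2 := abs_le_J (k - m) i
    have h3 : J (k - m) ≤ J k * J (-m) := by
      have := J_add_le k (-m)
      rwa [← sub_eq_add_neg] at this
    rw [J_neg] at h3
    exact h2.trans h3
  have h4 := norm_cf_le (w := w) (k - m)
  have h5 : 0 ≤ J k * J m := mul_nonneg (J_pos k).le (J_pos m).le
  calc ‖cf (fun x => ((B i j x : ℝ) : ℂ)) m‖ * |((k - m) i : ℝ)| * ‖cf w (k - m)‖
      ≤ ‖cf (fun x => ((B i j x : ℝ) : ℂ)) m‖ * (J k * J m) * ∫ x, ‖w x‖ := by gcongr
    _ = _ := by ring

lemma tsum_am {c : EuclideanSpace ℝ (Fin n)} {r lam : ℝ}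
    {B : Fin n → Fin n → EuclideanSpace ℝ (Fin n) → ℝ} (hD : LocData c r lam B)
    {w : EuclideanSpace ℝ (Fin n) → ℂ} (i j : Fin n) (k : Fin n → ℤ) :
    ∑' m, am (fun i j x => ((B i j x : ℝ) : ℂ)) i j m * (((k - m) i : ℝ) : ℂ) * cf w (k - m) =
      (if i = j then 1 else 0) * ((k i : ℝ) : ℂ) * cf w k +
      ∑' m, cf (fun x => ((B i j x : ℝ) : ℂ)) m * (((k - m) i : ℝ) : ℂ) * cf w (k - m) := by
  have h1 : HasSum (fun m : Fin n → ℤ => (if i = j ∧ m = 0 then (1 : ℂ) else 0) *
      (((k - m) i : ℝ) : ℂ) * cf w (k - m)) ((if i = j then 1 else 0) * ((k i : ℝ) : ℂ) *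
        cf w k) := by
    have := hasSum_single (f := fun m : Fin n → ℤ => (if i = j ∧ m = 0 then (1 : ℂ) else 0) *
      (((k - m) i : ℝ) : ℂ) * cf w (k - m)) 0 (fun m hm => by simp [hm])
    simpa using this
  have h2 := (summable_am_term hD (w := w) i j k).hasSum
  have h3 := h1.add h2
  rw [← h3.tsum_eq]
  refine tsum_congr fun m => ?_
  unfold am
  ring

/-- `∫ w ∂_i (A_ij e_{-k})`. -/
lemma integral_flux {c : EuclideanSpace ℝ (Fin n)} {r lam : ℝ}
    {B : Fin n → Fin n → EuclideanSpace ℝ (Fin n) → ℝ} (hD : LocData c r lam B)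
    {w : EuclideanSpace ℝ (Fin n) → ℂ} (hw : Integrable w)
    (hws : ∀ x, r ≤ ‖x - c‖ → w x = 0) (i j : Fin n) (k : Fin n → ℤ) :
    ∫ x, w x * cd i (fun y => ac B i j y * ee (-k) y) x =
      -(2 * Real.pi * Complex.I) *
      ∑' m, am (fun i j x => ((B i j x : ℝ) : ℂ)) i j m * (((k - m) i : ℝ) : ℂ) * cf w (k - m) := by
  have hts : tsupport (fun x => ((B i j x : ℝ) : ℂ)) ⊆ Metric.ball c r :=
    (tsupport_ofReal _).trans (hD.hs i j)
  have hcs : HasCompactSupport (fun x => ((B i j x : ℝ) : ℂ)) := hasCompactSupport_of_ball hts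
  have hBc := contDiff_ofReal' (hD.hB i j)
  have hBd : ∀ l x, r ≤ ‖x - c‖ → cd l (fun x => ((B i j x : ℝ) : ℂ)) x = 0 := by
    intro l x hx
    exact zero_of_ball ((tsupport_cd_subset _ l).trans hts) x hx
  have hmain := integral_mul_cd hw c hD.hr hws hcs hBc (zero_of_ball hts) hBd i k
  have hE := contDiff_ee (n := n) (-k)
  have h1 : ∀ x, w x * cd i (fun y => ac B i j y * ee (-k) y) x =
      (if i = j then 1 else 0) * (-(2 * Real.pi * Complex.I * ((k i : ℝ) : ℂ))) *
        (w x * ee (-k) x) +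
      w x * cd i (fun y => ((B i j y : ℝ) : ℂ) * ee (-k) y) x := by
    intro x
    have e1 : (fun y => ac B i j y * ee (-k) y) = fun y => (if i = j then 1 else 0) * ee (-k) y +
        ((B i j y : ℝ) : ℂ) * ee (-k) y := by
      funext y; unfold ac; ring
    rw [e1, cd_add i (((hE.differentiable (by simp)) x).const_mul _)
      (((hBc.mul hE).differentiable (by simp)) x), cd_const_mul i _ ((hE.differentiable (by simp)) x),
      cd_ee]
    push_cast
    simp only [Pi.neg_apply]
    push_cast
    ring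
  simp only [h1]
  have hi2 : Integrable (fun x => w x * cd i (fun y => ((B i j y : ℝ) : ℂ) * ee (-k) y) x) := by
    refine integrable_mul_cs hw (contDiff_cd (hBc.mul hE) i).continuous ?_
    exact hasCompactSupport_cd (hcs.mul_right) i
  rw [integral_add ((integrable_mul_ee hw _).const_mul _) hi2, integral_const_mul, hmain,
    tsum_am hD i j k, mul_add, ← tsum_mul_left, ← tsum_neg]
  have h2 : ∫ x, w x * ee (-k) x = cf w k := rfl
  rw [h2]
  congr 1
  · split_ifs <;> ring
  · refine tsum_congr fun m => ?_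
    ring

/-- complex distributional equation on the ball. -/
def CEq (c : EuclideanSpace ℝ (Fin n)) (r : ℝ)
    (B : Fin n → Fin n → EuclideanSpace ℝ (Fin n) → ℝ) (u f : EuclideanSpace ℝ (Fin n) → ℂ) : Prop :=
  ∀ Φ : EuclideanSpace ℝ (Fin n) → ℂ, ContDiff ℝ ∞ Φ → tsupport Φ ⊆ Metric.ball c r →
    ∫ x, u x * LC B Φ x = ∫ x, f x * Φ x

/-- **coefficient equation**. -/
lemma coeff_eq {c : EuclideanSpace ℝ (Fin n)} {r r1 lam : ℝ} (hr1 : r1 ≤ r)
    {B : Fin n → Fin n → EuclideanSpace ℝ (Fin n) → ℝ} (hD : LocData c r lam B)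
    {u f : EuclideanSpace ℝ (Fin n) → ℂ} (hu : Integrable u)
    (hEq : CEq c r1 B u f) {χ : EuclideanSpace ℝ (Fin n) → ℂ} (hχ : ContDiff ℝ ∞ χ)
    (hχs : tsupport χ ⊆ Metric.ball c r1) (k : Fin n → ℤ) :
    (-(2 * Real.pi * Complex.I)) ^ 2 * ∑ j, ((k j : ℝ) : ℂ) * ∑ i, ∑' m,
      am (fun i j x => ((B i j x : ℝ) : ℂ)) i j m * (((k - m) i : ℝ) : ℂ) *
        cf (fun x => u x * χ x) (k - m) =
      cf (fun x => f x * χ x) k -
        ∑ j, (-(2 * Real.pi * Complex.I * ((k j : ℝ) : ℂ))) * cf (fun x => u x * XX1 B χ j x) k -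
        cf (fun x => u x * LC B χ x) k := by
  have hcs : HasCompactSupport χ := hasCompactSupport_of_ball hχs
  have hE := contDiff_ee (n := n) (-k)
  have hw : Integrable (fun x => u x * χ x) := integrable_mul_cs hu hχ.continuous hcs
  have hws : ∀ x, r ≤ ‖x - c‖ → u x * χ x = 0 := fun x hx => by
    rw [zero_of_ball hχs x (hr1.trans hx), mul_zero]
  set cc : Fin n → ℂ := fun j => -(2 * Real.pi * Complex.I * ((k j : ℝ) : ℂ)) with hcc
  have hts : tsupport (fun y => χ y * ee (-k) y) ⊆ tsupport χ := tsupport_mul_subset_left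
  have h0 := hEq (fun y => χ y * ee (-k) y) (hχ.mul hE) (hts.trans hχs)
  have h1 : ∀ x, u x * LC B (fun y => χ y * ee (-k) y) x =
      (∑ i, ∑ j, cc j * ((u x * χ x) * cd i (fun y => ac B i j y * ee (-k) y) x)) +
      (∑ j, cc j * ((u x * XX1 B χ j x) * ee (-k) x)) + (u x * LC B χ x) * ee (-k) x := by
    intro x
    rw [LC_mul_ee hD.hB hχ k x, mul_add, mul_add]
    congr 1
    · congr 1
      · rw [Finset.mul_sum, Finset.mul_sum]
        refine Finset.sum_congr rfl fun i _ => ?_
        rw [Finset.mul_sum, Finset.mul_sum]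
        refine Finset.sum_congr rfl fun j _ => ?_
        simp only [hcc]
        ring
      · rw [Finset.mul_sum]
        refine Finset.sum_congr rfl fun j _ => ?_
        simp only [hcc]
        ring
    · ring
  have iA : ∀ i j, Integrable (fun x => (u x * χ x) *
      cd i (fun y => ac B i j y * ee (-k) y) x) := by
    intro i j
    have := integrable_mul_cs hu (g := fun x => χ x * cd i (fun y => ac B i j y * ee (-k) y) x)
      (hχ.continuous.mul (contDiff_cd ((contDiff_ac hD.hB i j).mul hE) i).continuous)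
      hcs.mul_right
    refine this.congr (Eventually.of_forall fun x => ?_)
    simp only
    ring
  have iX : ∀ j, Integrable (fun x => (u x * XX1 B χ j x) * ee (-k) x) := fun j =>
    integrable_mul_ee (integrable_mul_cs hu (contDiff_XX1 hD.hB hχ j).continuous
      (hasCompactSupport_of_ball ((tsupport_XX1 B χ j).trans hχs))) _
  have iL : Integrable (fun x => (u x * LC B χ x) * ee (-k) x) :=
    integrable_mul_ee (integrable_mul_cs hu (contDiff_LC hD.hB hχ).continuous
      (hasCompactSupport_of_ball ((tsupport_LC B χ).trans hχs))) _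
  have h2 : ∫ x, u x * LC B (fun y => χ y * ee (-k) y) x =
      (∑ i, ∑ j, cc j * ∫ x, (u x * χ x) * cd i (fun y => ac B i j y * ee (-k) y) x) +
      (∑ j, cc j * cf (fun x => u x * XX1 B χ j x) k) + cf (fun x => u x * LC B χ x) k := by
    simp only [h1]
    have i1 : Integrable (fun x => ∑ i, ∑ j, cc j * ((u x * χ x) *
        cd i (fun y => ac B i j y * ee (-k) y) x)) :=
      integrable_finsetSum _ fun i _ => integrable_finsetSum _ fun j _ => (iA i j).const_mul _
    have i2 : Integrable (fun x => ∑ j, cc j * ((u x * XX1 B χ j x) * ee (-k) x)) :=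
      integrable_finsetSum _ fun j _ => (iX j).const_mul _
    have i12 : Integrable (fun x => (∑ i, ∑ j, cc j * ((u x * χ x) *
        cd i (fun y => ac B i j y * ee (-k) y) x)) +
        ∑ j, cc j * ((u x * XX1 B χ j x) * ee (-k) x)) := i1.add i2
    rw [integral_add i12 iL, integral_add i1 i2,
      integral_finsetSum _ fun i _ => integrable_finsetSum _ fun j _ => (iA i j).const_mul _,
      integral_finsetSum _ fun j _ => (iX j).const_mul _]
    congr 1
    congr 1
    · refine Finset.sum_congr rfl fun i _ => ?_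
      rw [integral_finsetSum _ fun j _ => (iA i j).const_mul _]
      exact Finset.sum_congr rfl fun j _ => integral_const_mul _ _
    · exact Finset.sum_congr rfl fun j _ => integral_const_mul _ _
  have h3 : ∀ i j, ∫ x, (u x * χ x) * cd i (fun y => ac B i j y * ee (-k) y) x =
      -(2 * Real.pi * Complex.I) * ∑' m, am (fun i j x => ((B i j x : ℝ) : ℂ)) i j m *
        (((k - m) i : ℝ) : ℂ) * cf (fun x => u x * χ x) (k - m) := fun i j =>
    integral_flux hD hw hws i j k
  have h4 : ∫ x, f x * (χ x * ee (-k) x) = cf (fun x => f x * χ x) k := by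
    unfold cf
    refine integral_congr_ae (Eventually.of_forall fun x => ?_)
    simp only
    ring
  rw [h2, h4] at h0
  simp only [h3] at h0
  rw [← h0]
  have h5 : (-(2 * Real.pi * Complex.I)) ^ 2 * ∑ j, ((k j : ℝ) : ℂ) * ∑ i, ∑' m,
      am (fun i j x => ((B i j x : ℝ) : ℂ)) i j m * (((k - m) i : ℝ) : ℂ) *
        cf (fun x => u x * χ x) (k - m) =
      ∑ i, ∑ j, cc j * (-(2 * Real.pi * Complex.I) * ∑' m,
        am (fun i j x => ((B i j x : ℝ) : ℂ)) i j m *
        (((k - m) i : ℝ) : ℂ) * cf (fun x => u x * χ x) (k - m)) := by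
    rw [Finset.sum_comm, Finset.mul_sum]
    refine Finset.sum_congr rfl fun j _ => ?_
    rw [Finset.mul_sum, Finset.mul_sum]
    refine Finset.sum_congr rfl fun i _ => ?_
    simp only [hcc]
    ring
  rw [h5]
  ring

lemma summable_am {c : EuclideanSpace ℝ (Fin n)} {r lam : ℝ}
    {B : Fin n → Fin n → EuclideanSpace ℝ (Fin n) → ℝ} (hD : LocData c r lam B)
    (i j : Fin n) (N : ℕ) :
    Summable fun m => J m ^ N * ‖am (fun i j x => ((B i j x : ℝ) : ℂ)) i j m‖ := by
  have hcs : HasCompactSupport (fun x => ((B i j x : ℝ) : ℂ)) :=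
    hasCompactSupport_of_ball ((tsupport_ofReal _).trans (hD.hs i j))
  have h := summable_cf hcs (contDiff_ofReal' (hD.hB i j)) N
  have h1 : Summable fun m : Fin n → ℤ => J m ^ N * ‖(if i = j ∧ m = 0 then (1 : ℂ) else 0)‖ := by
    refine summable_of_ne_finset_zero (s := {0}) fun m hm => ?_
    simp only [Finset.mem_singleton] at hm
    simp [hm]
  refine Summable.of_nonneg_of_le (fun m => by have := J_pos m; positivity) (fun m => ?_)
    (h1.add h)
  rw [← mul_add]
  refine mul_le_mul_of_nonneg_left ?_ (pow_nonneg (J_pos m).le N)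
  exact norm_add_le _ _

/-- **Induction**: all weighted norms of the coefficients of `u χ` are finite. -/
theorem HS_all {c : EuclideanSpace ℝ (Fin n)} {r r1 lam : ℝ} (hr1 : r1 ≤ r)
    {B : Fin n → Fin n → EuclideanSpace ℝ (Fin n) → ℝ} (hD : LocData c r lam B)
    {u f : EuclideanSpace ℝ (Fin n) → ℂ} (hu : Integrable u) (hf : ContDiff ℝ ∞ f)
    (hEq : CEq c r1 B u f) (s : ℤ) :
    ∀ χ : EuclideanSpace ℝ (Fin n) → ℂ, ContDiff ℝ ∞ χ → tsupport χ ⊆ Metric.ball c r1 →
      HS s (cf fun x => u x * χ x) := by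
  have key : ∀ q : ℕ, ∀ χ : EuclideanSpace ℝ (Fin n) → ℂ, ContDiff ℝ ∞ χ →
      tsupport χ ⊆ Metric.ball c r1 → HS (-(n : ℤ) + q) (cf fun x => u x * χ x) := by
    intro q
    induction q with
    | zero =>
      intro χ hχ hχs
      simp only [Nat.cast_zero, add_zero]
      exact HS.of_bdd (fun k => norm_cf_le k)
    | succ q ih =>
      intro χ hχ hχs
      set s : ℤ := -(n : ℤ) + q with hs
      have hcs : HasCompactSupport χ := hasCompactSupport_of_ball hχs
      set H : (Fin n → ℤ) → ℂ := fun k => ((-(2 * Real.pi * Complex.I)) ^ 2)⁻¹ *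
        (cf (fun x => f x * χ x) k -
        ∑ j, (-(2 * Real.pi * Complex.I * ((k j : ℝ) : ℂ))) * cf (fun x => u x * XX1 B χ j x) k -
        cf (fun x => u x * LC B χ x) k) with hH
      have hpi : (-(2 * Real.pi * Complex.I : ℂ)) ^ 2 ≠ 0 := by
        refine pow_ne_zero 2 (neg_ne_zero.2 ?_)
        simp [Real.pi_ne_zero]
      have heq : ∀ k, ∑ j, ((k j : ℝ) : ℂ) * ∑ i, ∑' m,
          am (fun i j x => ((B i j x : ℝ) : ℂ)) i j m * (((k - m) i : ℝ) : ℂ) *
            cf (fun x => u x * χ x) (k - m) = H k := by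
        intro k
        have := coeff_eq hr1 hD hu hEq hχ hχs k
        simp only [hH]
        rw [← this, inv_mul_cancel_left₀ hpi]
      have hw := ih χ hχ hχs
      have hHs : HS (s - 1) H := by
        simp only [hH]
        refine HS.const_mul ?_ _
        have e : (fun k => cf (fun x => f x * χ x) k -
          ∑ j, (-(2 * Real.pi * Complex.I * ((k j : ℝ) : ℂ))) * cf (fun x => u x * XX1 B χ j x) k -
          cf (fun x => u x * LC B χ x) k) = fun k => (cf (fun x => f x * χ x) k +
          ∑ j, ((k j : ℝ) : ℂ) * ((2 * Real.pi * Complex.I) *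
            cf (fun x => u x * XX1 B χ j x) k)) + (-1) * cf (fun x => u x * LC B χ x) k := by
          funext k
          have : ∑ j, (-(2 * Real.pi * Complex.I * ((k j : ℝ) : ℂ))) *
              cf (fun x => u x * XX1 B χ j x) k = -∑ j, ((k j : ℝ) : ℂ) *
              ((2 * Real.pi * Complex.I) * cf (fun x => u x * XX1 B χ j x) k) := by
            rw [← Finset.sum_neg_distrib]
            refine Finset.sum_congr rfl fun j _ => ?_
            ring
          rw [this]; ring
        rw [e]
        refine HS.add (HS.add ?_ ?_) ?_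
        · refine HS.of_decay (cf_decay (HasCompactSupport.mul_left hcs) (hf.mul hχ)) _
        · refine HS.sum _ fun j _ => ?_
          refine HS.coord_mul ?_ j
          exact HS.const_mul (ih _ (contDiff_XX1 hD.hB hχ j) ((tsupport_XX1 B χ j).trans hχs)) _
        · exact HS.const_mul ((ih _ (contDiff_LC hD.hB hχ) ((tsupport_LC B χ).trans hχs)).mono
            (by omega)) _
      have hcoer := coercive_am c hD.hr (fun i j => (hD.hB i j).continuous)
        (fun i j => zero_of_ball (hD.hs i j)) hD.hell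
        (fun i j => by simpa using summable_am hD i j 0)
      have := HS_step (summable_am hD) hD.hlam hcoer s hw hHs heq
      have e : (-(n : ℤ) + ((q + 1 : ℕ) : ℤ)) = s + 1 := by rw [hs]; push_cast; ring
      rw [e]
      exact this
  intro χ hχ hχs
  refine (key (s + n).toNat χ hχ hχs).mono ?_
  omega

end Crest.Agent.R202.Ell
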