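import Crest.Agent.R202.SpinBasis

/-! Row 202, PART C1 (helper816): Parseval for the radial functions `R_j` in `L²(x^d dx)`. -/

set_option autoImplicit false

namespace Crest.Agent.R202

open MeasureTheory Set Polynomial Filter Topology

/-- the (unnormalised) coefficient. -/
noncomputable def coef (d q : ℕ) (μ : ℝ) (j : ℕ) (S : ℝ → ℝ) : ℝ :=
  ∫ x in Ioo (lft d) 1, x ^ d * (S x * Rj d q μ j x)

/-- parity condition on `(-1,1)` in the case `d = 0` (`n = 3`). -/
def ParOK (d q : ℕ) (S : ℝ → ℝ) : Prop :=
  d = 0 → ∀ x ∈ Ioo (-1 : ℝ) 1, S (-x) = (-1) ^ q * S x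

theorem jQ_natDegree (d q : ℕ) {μ : ℝ} (hμ : 0 ≤ μ) (j : ℕ) :
    (jQ d q μ j).natDegree = 2 * j + q := by
  unfold jQ
  rw [natDegree_mul (pow_ne_zero _ X_ne_zero), natDegree_X_pow, natDegree_comp,
    jp_natDegree d q hμ, natDegree_X_pow]
  · ring
  · intro h
    apply jQ_ne_zero d q μ j
    unfold jQ
    rw [h, mul_zero]

theorem jQ_degree (d q : ℕ) {μ : ℝ} (hμ : 0 ≤ μ) (j : ℕ) :
    (jQ d q μ j).degree = ((2 * j + q : ℕ) : WithBot ℕ) := by
  rw [degree_eq_natDegree (jQ_ne_zero d q μ j), jQ_natDegree d q hμ j]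

theorem jp_degree (d q : ℕ) {μ : ℝ} (hμ : 0 ≤ μ) (j : ℕ) : (jp d q μ j).degree = (j : ℕ) := by
  have h0 : jp d q μ j ≠ 0 := by
    intro h
    have := jp_eval_zero d q μ j
    rw [h] at this
    simp at this
  rw [degree_eq_natDegree h0, jp_natDegree d q hμ j]

theorem integral_odd_eq_zero {f : ℝ → ℝ} (hf : ∀ x ∈ Ioo (-1 : ℝ) 1, f (-x) = - f x) :
    ∫ x in Ioo (-1 : ℝ) 1, f x = 0 := by
  have h1 : ∫ x in Ioo (-1 : ℝ) 1, f x = ∫ x in (-1 : ℝ)..1, f x := by
    rw [intervalIntegral.integral_of_le (by norm_num), integral_Ioc_eq_integral_Ioo]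
  have h2 : ∫ x in (-1 : ℝ)..1, f (-x) = ∫ x in (-1 : ℝ)..1, f x := by
    rw [intervalIntegral.integral_comp_neg, neg_neg]
  have h3 : ∫ x in (-1 : ℝ)..1, f (-x) = ∫ x in Ioo (-1 : ℝ) 1, f (-x) := by
    rw [intervalIntegral.integral_of_le (by norm_num), integral_Ioc_eq_integral_Ioo]
  have h4 : ∫ x in Ioo (-1 : ℝ) 1, f (-x) = - ∫ x in Ioo (-1 : ℝ) 1, f x := by
    rw [← integral_neg]
    exact setIntegral_congr_fun measurableSet_Ioo hf
  linarith [h1, h2, h3, h4]

theorem jQ_eval_neg (d q : ℕ) (μ : ℝ) (j : ℕ) (x : ℝ) :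
    (jQ d q μ j).eval (-x) = (-1) ^ q * (jQ d q μ j).eval x := by
  rw [jQ_eval, jQ_eval, neg_sq, neg_pow]; ring

theorem Rj_neg (d q : ℕ) (μ : ℝ) (j : ℕ) (x : ℝ) :
    Rj d q μ j (-x) = (-1) ^ q * Rj d q μ j x := by
  unfold Rj
  rw [jQ_eval_neg, neg_sq]; ring

theorem parseval {d q : ℕ} (hadm : d = 0 → q ≤ 1) {μ : ℝ} (hμ : 0 ≤ μ) {S T : ℝ → ℝ}
    (hS : MemLp (fun x => Real.sqrt (x ^ d) * S x) 2 (volume.restrict (Ioo (lft d) 1)))
    (hT : MemLp (fun x => Real.sqrt (x ^ d) * T x) 2 (volume.restrict (Ioo (lft d) 1)))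
    (hp : ParOK d q S) :
    HasSum (fun j => coef d q μ j S * coef d q μ j T / nj d q μ j)
      (∫ x in Ioo (lft d) 1, x ^ d * (S x * T x)) := by
  have hsq : ∀ x ∈ Ioo (lft d) 1, Real.sqrt (x ^ d) * Real.sqrt (x ^ d) = x ^ d :=
    fun x hx => Real.mul_self_sqrt (pow_nonneg_of_mem hx)
  by_cases hd : d = 0
  · subst hd
    have hq := hadm rfl
    have hpar := hp rfl
    simp only [pow_zero, Real.sqrt_one, one_mul] at hS hT ⊢
    set F : ℕ → ℝ → ℝ := fun l => Rj 0 (l % 2) μ (l / 2) with hF
    have hmod : ∀ l : ℕ, l % 2 ≤ 1 := fun l => by omega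
    have main := parseval_system (a := lft 0) (b := 1) (om := fun x : ℝ => (1 - x ^ 2) ^ (μ / 2))
      (s := fun x => x) (σ := fun x => x) continuous_id continuous_id (fun x _ => rfl)
      ((Continuous.rpow_const (by fun_prop)
        (fun x => Or.inr (by linarith))).aestronglyMeasurable) (C := 1)
      (by
        intro x hx
        have h := one_sub_sq_pos hx
        rw [abs_of_nonneg (Real.rpow_nonneg h.le _)]
        exact Real.rpow_le_one h.le (by nlinarith [sq_nonneg x]) (by linarith))
      (fun x hx => (Real.rpow_pos_of_pos (one_sub_sq_pos hx) _).ne')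
      (p := fun l => jQ 0 (l % 2) μ (l / 2))
      (by
        intro l
        rw [jQ_degree 0 (l % 2) hμ (l / 2)]
        congr 1
        omega)
      (F := F) (fun l x _ => rfl)
      (by
        intro l
        have := nj_pos 0 (l % 2) hμ (l / 2)
        unfold nj at this
        simpa using this)
      (by
        intro i j hij
        rw [lft_zero]
        exact ortho_three (hmod i) (hmod j) hμ (by omega))
      hS hT
    have hzero : ∀ l : ℕ, l ∉ range (fun j : ℕ => 2 * j + q) →
        (∫ x in Ioo (lft 0) 1, S x * F l x) * (∫ x in Ioo (lft 0) 1, T x * F l x) /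
          ∫ x in Ioo (lft 0) 1, F l x ^ 2 = 0 := by
      intro l hl
      have hlq : l % 2 ≠ q := by
        intro h
        apply hl
        exact ⟨l / 2, by simp only; omega⟩
      have : ∫ x in Ioo (lft 0) 1, S x * F l x = 0 := by
        rw [lft_zero]
        apply integral_odd_eq_zero
        intro x hx
        rw [hF]
        simp only
        rw [hpar x hx, Rj_neg]
        have hs : ((-1 : ℝ)) ^ q * (-1) ^ (l % 2) = -1 := by
          rcases Nat.mod_two_eq_zero_or_one l with h | h
          · have : q = 1 := by omega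
            rw [h, this]; norm_num
          · have : q = 0 := by omega
            rw [h, this]; norm_num
        linear_combination (S x * Rj 0 (l % 2) μ (l / 2) x) * hs
      rw [this, zero_mul, zero_div]
    have hinj : Function.Injective (fun j : ℕ => 2 * j + q) := by
      intro i j h
      simp only at h
      omega
    have h2 := (hinj.hasSum_iff hzero).mpr main
    convert h2 using 1
    funext j
    have e1 : (2 * j + q) % 2 = q := by omega
    have e2 : (2 * j + q) / 2 = j := by omega
    simp only [Function.comp, coef, nj, hF, pow_zero, one_mul, e1, e2]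
  · have h0 := lft_pos hd
    have hx0 : ∀ x ∈ Ioo (lft d) 1, 0 < x := by
      intro x hx
      have := hx.1
      rwa [h0] at this
    have hcq : Continuous fun x : ℝ => Real.sqrt (x ^ d) := (continuous_pow d).sqrt
    have hcw : Continuous fun x : ℝ => (1 - x ^ 2) ^ (μ / 2) :=
      Continuous.rpow_const (by fun_prop) (fun x => Or.inr (by linarith))
    have main := parseval_system (a := lft d) (b := 1)
      (om := fun x : ℝ => Real.sqrt (x ^ d) * (x ^ q * (1 - x ^ 2) ^ (μ / 2)))
      (s := fun x => x ^ 2) (σ := Real.sqrt) (continuous_pow 2) Real.continuous_sqrt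
      (fun x hx => Real.sqrt_sq (hx0 x hx).le)
      ((hcq.mul ((continuous_pow q).mul hcw)).aestronglyMeasurable) (C := 1)
      (by
        intro x hx
        have h := one_sub_sq_pos hx
        have hx' := hx0 x hx
        have hx1 := hx.2
        have a1 : Real.sqrt (x ^ d) ≤ 1 := by
          rw [Real.sqrt_le_left (by norm_num), one_pow]
          exact pow_le_one₀ hx'.le hx1.le
        have a2 : x ^ q ≤ 1 := pow_le_one₀ hx'.le hx1.le
        have a3 : (1 - x ^ 2) ^ (μ / 2) ≤ 1 :=
          Real.rpow_le_one h.le (by nlinarith [sq_nonneg x]) (by linarith)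
        have a4 := Real.rpow_nonneg h.le (μ / 2)
        rw [abs_of_nonneg (by positivity)]
        exact mul_le_one₀ a1 (by positivity) (mul_le_one₀ a2 a4 a3))
      (by
        intro x hx
        have h1 := hx0 x hx
        have h2 : (0 : ℝ) < (1 - x ^ 2) ^ (μ / 2) := Real.rpow_pos_of_pos (one_sub_sq_pos hx) _
        have h3 : 0 < Real.sqrt (x ^ d) := Real.sqrt_pos.mpr (by positivity)
        positivity)
      (p := fun j => jp d q μ j) (fun j => jp_degree d q hμ j)
      (F := fun j x => Real.sqrt (x ^ d) * Rj d q μ j x)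
      (by
        intro j x _
        unfold Rj
        rw [jQ_eval]; ring)
      (by
        intro j
        have := nj_pos d q hμ j
        unfold nj at this
        refine this.trans_eq ?_
        apply setIntegral_congr_fun measurableSet_Ioo
        intro x hx
        simp only
        linear_combination (-(Rj d q μ j x ^ 2)) * hsq x hx)
      (by
        intro i j hij
        rw [← ortho d q hμ hij]
        apply setIntegral_congr_fun measurableSet_Ioo
        intro x hx
        simp only
        linear_combination (Rj d q μ i x * Rj d q μ j x) * hsq x hx)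
      hS hT
    convert main using 1
    · funext j
      have e1 : ∀ U : ℝ → ℝ, coef d q μ j U = ∫ x in Ioo (lft d) 1,
          Real.sqrt (x ^ d) * U x * (Real.sqrt (x ^ d) * Rj d q μ j x) := by
        intro U
        apply setIntegral_congr_fun measurableSet_Ioo
        intro x hx
        simp only
        linear_combination (-(U x * Rj d q μ j x)) * hsq x hx
      have e2 : nj d q μ j = ∫ x in Ioo (lft d) 1, (Real.sqrt (x ^ d) * Rj d q μ j x) ^ 2 := by
        apply setIntegral_congr_fun measurableSet_Ioo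
        intro x hx
        simp only
        linear_combination (-(Rj d q μ j x ^ 2)) * hsq x hx
      rw [e1 S, e1 T, e2]
    · apply setIntegral_congr_fun measurableSet_Ioo
      intro x hx
      simp only
      linear_combination (-(S x * T x)) * hsq x hx

end Crest.Agent.R202
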