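import Mathlib
import Crest.Agent.R202.SpinParseval

/-! Row 202, PART C1-2D (helper206): the radial basis on `(0,1)` (all `d`, including `d = 0`):
orthogonality, Parseval, bounds and the weak equation. -/

set_option autoImplicit false

namespace Crest.Agent.R202.Fou

open MeasureTheory Set Polynomial Filter Topology
open Crest.Agent.R202

theorem osp {x : ℝ} (hx : x ∈ Ioo (0 : ℝ) 1) : 0 < 1 - x ^ 2 := by
  have h1 := hx.1
  have h2 := hx.2
  nlinarith

theorem mem_lft (d : ℕ) {x : ℝ} (hx : x ∈ Ioo (0 : ℝ) 1) : x ∈ Ioo (lft d) 1 := by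
  refine ⟨lt_of_le_of_lt ?_ hx.1, hx.2⟩
  unfold lft
  split_ifs <;> norm_num

/-- the integral of an even function -/
theorem integral_even {f : ℝ → ℝ} (hf : Continuous f) (he : ∀ x, f (-x) = f x) :
    ∫ x in Ioo (-1 : ℝ) 1, f x = 2 * ∫ x in Ioo (0 : ℝ) 1, f x := by
  have h1 : ∫ x in Ioo (-1 : ℝ) 1, f x = ∫ x in (-1 : ℝ)..1, f x := by
    rw [intervalIntegral.integral_of_le (by norm_num), integral_Ioc_eq_integral_Ioo]
  have h2 : ∫ x in Ioo (0 : ℝ) 1, f x = ∫ x in (0 : ℝ)..1, f x := by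
    rw [intervalIntegral.integral_of_le (by norm_num), integral_Ioc_eq_integral_Ioo]
  have h3 : ∫ x in (-1 : ℝ)..0, f x = ∫ x in (0 : ℝ)..1, f x := by
    have := intervalIntegral.integral_comp_neg (a := (-1 : ℝ)) (b := 0) f
    simp only [he, neg_zero, neg_neg] at this
    exact this
  rw [h1, h2, ← intervalIntegral.integral_add_adjacent_intervals (b := 0)
    (hf.intervalIntegrable _ _) (hf.intervalIntegrable _ _), h3]
  ring

/-- square of the norm of `R_j` in `L²((0,1), x^d dx)` -/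
noncomputable def nh (d q : ℕ) (μ : ℝ) (j : ℕ) : ℝ :=
  ∫ x in Ioo (0 : ℝ) 1, x ^ d * Rj d q μ j x ^ 2

theorem nh_eq_nj_zero (q : ℕ) {μ : ℝ} (hμ : 0 ≤ μ) (j : ℕ) : nj 0 q μ j = 2 * nh 0 q μ j := by
  unfold nj nh
  rw [lft_zero]
  apply integral_even
  · exact (continuous_pow 0).mul ((Rj_cont 0 q hμ j).pow 2)
  · intro x
    rw [Rj_neg]
    simp only [pow_zero, one_mul, mul_pow, ← pow_mul]
    rw [mul_comm q 2, pow_mul, neg_one_sq, one_pow, one_mul]

theorem nh_pos (d q : ℕ) {μ : ℝ} (hμ : 0 ≤ μ) (j : ℕ) : 0 < nh d q μ j := by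
  by_cases hd : d = 0
  · subst hd
    have := nj_pos 0 q hμ j
    rw [nh_eq_nj_zero q hμ j] at this
    linarith
  · have := nj_pos d q hμ j
    unfold nj at this
    rw [lft_pos hd] at this
    exact this

theorem orthh (d q : ℕ) {μ : ℝ} (hμ : 0 ≤ μ) {i j : ℕ} (hij : i ≠ j) :
    ∫ x in Ioo (0 : ℝ) 1, x ^ d * (Rj d q μ i x * Rj d q μ j x) = 0 := by
  have h := ortho d q hμ hij
  by_cases hd : d = 0
  · subst hd
    rw [lft_zero, integral_even] at h
    · linarith
    · exact (continuous_pow 0).mul ((Rj_cont 0 q hμ i).mul (Rj_cont 0 q hμ j))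
    · intro x
      rw [Rj_neg, Rj_neg]
      have : ((-1 : ℝ)) ^ q * (-1) ^ q = 1 := by rw [← pow_add, ← two_mul, pow_mul]; simp
      linear_combination ((-x) ^ 0 * (Rj 0 q μ i x * Rj 0 q μ j x)) * this
  · rw [lft_pos hd] at h
    exact h

/-- **Parseval for the radial basis on `(0,1)`** -/
theorem parsevalh (d q : ℕ) {μ : ℝ} (hμ : 0 ≤ μ) {S T : ℝ → ℝ}
    (hS : MemLp (fun x => Real.sqrt (x ^ d) * S x) 2 (volume.restrict (Ioo (0 : ℝ) 1)))
    (hT : MemLp (fun x => Real.sqrt (x ^ d) * T x) 2 (volume.restrict (Ioo (0 : ℝ) 1))) :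
    HasSum (fun j => (∫ x in Ioo (0 : ℝ) 1, x ^ d * (S x * Rj d q μ j x)) *
        (∫ x in Ioo (0 : ℝ) 1, x ^ d * (T x * Rj d q μ j x)) / nh d q μ j)
      (∫ x in Ioo (0 : ℝ) 1, x ^ d * (S x * T x)) := by
  have hsq : ∀ x ∈ Ioo (0 : ℝ) 1, Real.sqrt (x ^ d) * Real.sqrt (x ^ d) = x ^ d :=
    fun x hx => Real.mul_self_sqrt (pow_nonneg hx.1.le _)
  have hx0 : ∀ x ∈ Ioo (0 : ℝ) 1, 0 < x := fun x hx => hx.1
  have hcq : Continuous fun x : ℝ => Real.sqrt (x ^ d) := (continuous_pow d).sqrt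
  have hcw : Continuous fun x : ℝ => (1 - x ^ 2) ^ (μ / 2) :=
    Continuous.rpow_const (by fun_prop) (fun x => Or.inr (by linarith))
  have main := parseval_system (a := 0) (b := 1)
    (om := fun x : ℝ => Real.sqrt (x ^ d) * (x ^ q * (1 - x ^ 2) ^ (μ / 2)))
    (s := fun x => x ^ 2) (σ := Real.sqrt) (continuous_pow 2) Real.continuous_sqrt
    (fun x hx => Real.sqrt_sq (hx0 x hx).le)
    ((hcq.mul ((continuous_pow q).mul hcw)).aestronglyMeasurable) (C := 1)
    (by
      intro x hx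
      have h := osp hx
      have hx' := hx0 x hx
      have hx1 := hx.2
      have a1 : Real.sqrt (x ^ d) ≤ 1 := by
        rw [Real.sqrt_le_left (by norm_num), one_pow]
        exact pow_le_one₀ hx'.le hx1.le
      have a2 : x ^ q ≤ 1 := pow_le_one₀ hx'.le hx1.le
      have a3 : (1 - x ^ 2) ^ (μ / 2) ≤ 1 :=
        Real.rpow_le_one h.le (by nlinarith [sq_nonneg x]) (by linarith)
      have a4 := Real.rpow_nonneg h.le (μ / 2)
      rw [abs_of_nonneg (by positivity)]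
      exact mul_le_one₀ a1 (by positivity) (mul_le_one₀ a2 a4 a3))
    (by
      intro x hx
      have h1 := hx0 x hx
      have h2 : (0 : ℝ) < (1 - x ^ 2) ^ (μ / 2) := Real.rpow_pos_of_pos (osp hx) _
      have h3 : 0 < Real.sqrt (x ^ d) := Real.sqrt_pos.mpr (by positivity)
      positivity)
    (p := fun j => jp d q μ j) (fun j => jp_degree d q hμ j)
    (F := fun j x => Real.sqrt (x ^ d) * Rj d q μ j x)
    (by
      intro j x _
      unfold Rj
      rw [jQ_eval]; ring)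
    (by
      intro j
      have := nh_pos d q hμ j
      unfold nh at this
      refine this.trans_eq ?_
      apply setIntegral_congr_fun measurableSet_Ioo
      intro x hx
      simp only
      linear_combination (-(Rj d q μ j x ^ 2)) * hsq x hx)
    (by
      intro i j hij
      refine Eq.trans ?_ (orthh d q hμ hij)
      apply setIntegral_congr_fun measurableSet_Ioo
      intro x hx
      simp only
      linear_combination (Rj d q μ i x * Rj d q μ j x) * hsq x hx)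
    hS hT
  convert main using 1
  · funext j
    have e1 : ∀ U : ℝ → ℝ, (∫ x in Ioo (0 : ℝ) 1, x ^ d * (U x * Rj d q μ j x)) =
        ∫ x in Ioo (0 : ℝ) 1,
        Real.sqrt (x ^ d) * U x * (Real.sqrt (x ^ d) * Rj d q μ j x) := by
      intro U
      apply setIntegral_congr_fun measurableSet_Ioo
      intro x hx
      simp only
      linear_combination (-(U x * Rj d q μ j x)) * hsq x hx
    have e2 : nh d q μ j = ∫ x in Ioo (0 : ℝ) 1, (Real.sqrt (x ^ d) * Rj d q μ j x) ^ 2 := by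
      apply setIntegral_congr_fun measurableSet_Ioo
      intro x hx
      simp only
      linear_combination (-(Rj d q μ j x ^ 2)) * hsq x hx
    rw [e1 S, e1 T, e2]
  · apply setIntegral_congr_fun measurableSet_Ioo
    intro x hx
    simp only
    linear_combination (-(S x * T x)) * hsq x hx

/-! ### bounds -/

theorem poly_bound (P : ℝ[X]) : ∃ C : ℝ, 0 ≤ C ∧ ∀ x ∈ Ioo (0 : ℝ) 1, |P.eval x| ≤ C := by
  obtain ⟨C, hC⟩ := (isCompact_Icc (a := (0 : ℝ)) (b := 1)).exists_bound_of_continuousOn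
    P.continuous.continuousOn
  refine ⟨max C 0, le_max_right _ _, fun x hx => ?_⟩
  exact (hC x (Ioo_subset_Icc_self hx)).trans (le_max_left _ _)

/-- pointwise bounds of the radial functions, `μ = 0` or `μ ≥ 1` -/
theorem Rj_bounds (d q : ℕ) {μ : ℝ} (hμ : μ = 0 ∨ 1 ≤ μ) (j : ℕ) :
    ∃ C : ℝ, 0 ≤ C ∧ ∀ x ∈ Ioo (0 : ℝ) 1,
      |Rj d q μ j x| ≤ C * x ^ q * (1 - x ^ 2) ^ (μ / 2) ∧
      |dRj d q μ j x| * Real.sqrt (1 - x ^ 2) ≤ C := by
  obtain ⟨C1, hC1, h1⟩ := poly_bound ((jp d q μ j).comp (X ^ 2))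
  obtain ⟨C2, hC2, h2⟩ := poly_bound (derivative (jQ d q μ j))
  obtain ⟨C3, hC3, h3⟩ := poly_bound (jQ d q μ j)
  have hμ0 : 0 ≤ μ := by rcases hμ with h | h <;> linarith
  refine ⟨C1 + C2 + μ * C3, by positivity, fun x hx => ⟨?_, ?_⟩⟩
  · have hr : 0 ≤ (1 - x ^ 2) ^ (μ / 2) := Real.rpow_nonneg (osp hx).le _
    have hxq : 0 ≤ x ^ q := pow_nonneg hx.1.le _
    unfold Rj
    rw [jQ_eval, abs_mul, abs_mul, abs_of_nonneg hr, abs_of_nonneg hxq]
    have := h1 x hx
    simp only [eval_comp, eval_pow, eval_X] at this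
    have h4 : |eval (x ^ 2) (jp d q μ j)| ≤ C1 + C2 + μ * C3 := by
      have : 0 ≤ μ * C3 := by positivity
      linarith
    calc (1 - x ^ 2) ^ (μ / 2) * (x ^ q * |eval (x ^ 2) (jp d q μ j)|)
        ≤ (1 - x ^ 2) ^ (μ / 2) * (x ^ q * (C1 + C2 + μ * C3)) := by gcongr
      _ = _ := by ring
  · have hp := osp hx
    have hs : 0 < Real.sqrt (1 - x ^ 2) := Real.sqrt_pos.2 hp
    have hs2 : Real.sqrt (1 - x ^ 2) * Real.sqrt (1 - x ^ 2) = 1 - x ^ 2 :=
      Real.mul_self_sqrt hp.le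
    have hs1 : Real.sqrt (1 - x ^ 2) ≤ 1 := by
      rw [Real.sqrt_le_left (by norm_num)]; nlinarith [sq_nonneg x]
    have hw1 : (1 - x ^ 2) ^ (μ / 2) ≤ 1 :=
      Real.rpow_le_one hp.le (by nlinarith [sq_nonneg x]) (by linarith)
    have hw0 : 0 ≤ (1 - x ^ 2) ^ (μ / 2) := Real.rpow_nonneg hp.le _
    -- `μ ρ^μ ≤ μ ρ`
    have hw2 : μ * (1 - x ^ 2) ^ (μ / 2) ≤ μ * Real.sqrt (1 - x ^ 2) := by
      rcases hμ with h | h
      · rw [h]; simp
      · apply mul_le_mul_of_nonneg_left _ hμ0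
        rw [Real.sqrt_eq_rpow]
        exact Real.rpow_le_rpow_of_exponent_ge hp (by nlinarith [sq_nonneg x]) (by linarith)
    have h2' := h2 x hx
    have h3' := h3 x hx
    have e : |dRj d q μ j x| * Real.sqrt (1 - x ^ 2) ≤
        ((1 - x ^ 2) ^ (μ / 2) * |(derivative (jQ d q μ j)).eval x|) * Real.sqrt (1 - x ^ 2) +
        (μ * (1 - x ^ 2) ^ (μ / 2)) * x * |(jQ d q μ j).eval x| / Real.sqrt (1 - x ^ 2) := by
      unfold dRj
      rw [abs_mul, abs_of_nonneg hw0]
      have t : |(derivative (jQ d q μ j)).eval x - μ * x / (1 - x ^ 2) * (jQ d q μ j).eval x| ≤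
          |(derivative (jQ d q μ j)).eval x| + μ * x / (1 - x ^ 2) * |(jQ d q μ j).eval x| := by
        refine (abs_sub _ _).trans ?_
        rw [abs_mul, abs_of_nonneg (div_nonneg (mul_nonneg hμ0 hx.1.le) hp.le)]
      calc _ ≤ (1 - x ^ 2) ^ (μ / 2) * (|(derivative (jQ d q μ j)).eval x| +
            μ * x / (1 - x ^ 2) * |(jQ d q μ j).eval x|) * Real.sqrt (1 - x ^ 2) := by gcongr
        _ = _ := by
          rw [mul_add, add_mul]
          congr 1
          have hh : Real.sqrt (1 - x ^ 2) / (1 - x ^ 2) = 1 / Real.sqrt (1 - x ^ 2) := by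
            rw [div_eq_div_iff hp.ne' hs.ne', hs2]; ring
          have : (1 - x ^ 2) ^ (μ / 2) * (μ * x / (1 - x ^ 2) * |(jQ d q μ j).eval x|) *
              Real.sqrt (1 - x ^ 2) = (1 - x ^ 2) ^ (μ / 2) * (μ * x * |(jQ d q μ j).eval x|) *
              (Real.sqrt (1 - x ^ 2) / (1 - x ^ 2)) := by field_simp
          rw [this, hh]
          field_simp
    refine e.trans ?_
    have t1 : ((1 - x ^ 2) ^ (μ / 2) * |(derivative (jQ d q μ j)).eval x|) *
        Real.sqrt (1 - x ^ 2) ≤ (1 * C2) * 1 := by gcongr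
    have t2 : (μ * (1 - x ^ 2) ^ (μ / 2)) * x * |(jQ d q μ j).eval x| / Real.sqrt (1 - x ^ 2) ≤
        μ * C3 := by
      rw [div_le_iff₀ hs]
      have hx1 := hx.2.le
      have hx00 := hx.1.le
      calc (μ * (1 - x ^ 2) ^ (μ / 2)) * x * |(jQ d q μ j).eval x|
          ≤ (μ * Real.sqrt (1 - x ^ 2)) * 1 * C3 := by gcongr
        _ = _ := by ring
    linarith

end Crest.Agent.R202.Fou
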