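import Mathlib

/-! Row 202, PART C1 (helper816): integration by parts of a weakly differentiable function
against a flux which is smooth in the open interval only. -/

set_option autoImplicit false

namespace Crest.Agent.R202

open MeasureTheory Set Filter Topology
open scoped ContDiff

/-- the derivative of `Real.smoothTransition` is bounded, and it vanishes outside `[0,1]`. -/
theorem st_deriv_bound : ∃ C : ℝ, 0 ≤ C ∧ ∀ y : ℝ, |deriv Real.smoothTransition y| ≤ C := by
  have hc : Continuous (deriv Real.smoothTransition) :=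
    (Real.smoothTransition.contDiff (n := 1)).continuous_deriv le_rfl
  obtain ⟨C, hC⟩ := (isCompact_Icc (a := (0:ℝ)) (b := 1)).exists_bound_of_continuousOn
    hc.continuousOn
  refine ⟨max C 0, le_max_right _ _, fun y => ?_⟩
  by_cases hy : y ∈ Icc (0:ℝ) 1
  · exact (hC y hy).trans (le_max_left _ _)
  · have : deriv Real.smoothTransition y = 0 := by
      rw [mem_Icc, not_and_or, not_le, not_le] at hy
      rcases hy with hy | hy
      · have : Real.smoothTransition =ᶠ[𝓝 y] fun _ => (0:ℝ) := by
          filter_upwards [Iio_mem_nhds hy] with z hz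
          exact Real.smoothTransition.zero_of_nonpos hz.le
        rw [this.deriv_eq]; simp
      · have : Real.smoothTransition =ᶠ[𝓝 y] fun _ => (1:ℝ) := by
          filter_upwards [Ioi_mem_nhds hy] with z hz
          exact Real.smoothTransition.one_of_one_le (le_of_lt hz)
        rw [this.deriv_eq]; simp
    rw [this]; simp

theorem st_deriv_eq_zero {y : ℝ} (hy : y < 0 ∨ 1 < y) : deriv Real.smoothTransition y = 0 := by
  rcases hy with hy | hy
  · have : Real.smoothTransition =ᶠ[𝓝 y] fun _ => (0:ℝ) := by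
      filter_upwards [Iio_mem_nhds hy] with z hz
      exact Real.smoothTransition.zero_of_nonpos hz.le
    rw [this.deriv_eq]; simp
  · have : Real.smoothTransition =ᶠ[𝓝 y] fun _ => (1:ℝ) := by
      filter_upwards [Ioi_mem_nhds hy] with z hz
      exact Real.smoothTransition.one_of_one_le (le_of_lt hz)
    rw [this.deriv_eq]; simp

/-- cut-off function of an open interval. -/
noncomputable def chi (a b : ℝ) (n : ℝ) (x : ℝ) : ℝ :=
  Real.smoothTransition ((x - a) * n - 1) * Real.smoothTransition ((b - x) * n - 1)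

theorem chi_contDiff (a b n : ℝ) : ContDiff ℝ ∞ (chi a b n) := by
  unfold chi
  exact (Real.smoothTransition.contDiff.comp (by fun_prop)).mul
    (Real.smoothTransition.contDiff.comp (by fun_prop))

theorem chi_nonneg (a b n x : ℝ) : 0 ≤ chi a b n x :=
  mul_nonneg (Real.smoothTransition.nonneg _) (Real.smoothTransition.nonneg _)

theorem chi_le_one (a b n x : ℝ) : chi a b n x ≤ 1 :=
  mul_le_one₀ (Real.smoothTransition.le_one _) (Real.smoothTransition.nonneg _)
    (Real.smoothTransition.le_one _)

theorem chi_support {a b n : ℝ} (hn : 0 < n) :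
    Function.support (chi a b n) ⊆ Icc (a + 1 / n) (b - 1 / n) := by
  intro x hx
  rw [Function.mem_support] at hx
  by_contra hcon
  apply hx
  rw [mem_Icc, not_and_or, not_le, not_le] at hcon
  unfold chi
  rcases hcon with h | h
  · rw [Real.smoothTransition.zero_of_nonpos, zero_mul]
    have : (x - a) < 1 / n := by linarith
    have := mul_lt_mul_of_pos_right this hn
    rw [one_div, inv_mul_cancel₀ hn.ne'] at this
    linarith
  · rw [Real.smoothTransition.zero_of_nonpos (x := (b - x) * n - 1), mul_zero]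
    have : (b - x) < 1 / n := by linarith
    have := mul_lt_mul_of_pos_right this hn
    rw [one_div, inv_mul_cancel₀ hn.ne'] at this
    linarith

theorem chi_tsupport {a b n : ℝ} (hn : 0 < n) :
    tsupport (chi a b n) ⊆ Icc (a + 1 / n) (b - 1 / n) :=
  closure_minimal (chi_support hn) isClosed_Icc

theorem chi_hasDerivAt (a b n x : ℝ) :
    HasDerivAt (chi a b n)
      (deriv Real.smoothTransition ((x - a) * n - 1) * n *
          Real.smoothTransition ((b - x) * n - 1) +
        Real.smoothTransition ((x - a) * n - 1) *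
          (deriv Real.smoothTransition ((b - x) * n - 1) * (-n))) x := by
  have hd : ∀ y : ℝ, HasDerivAt Real.smoothTransition (deriv Real.smoothTransition y) y :=
    fun y => ((Real.smoothTransition.contDiff (n := 1)).differentiable one_ne_zero y).hasDerivAt
  have h1 : HasDerivAt (fun x : ℝ => (x - a) * n - 1) n x := by
    have := (((hasDerivAt_id x).sub_const a).mul_const n).sub_const 1
    simpa using this
  have h2 : HasDerivAt (fun x : ℝ => (b - x) * n - 1) (-n) x := by
    have := (((hasDerivAt_id x).const_sub b).mul_const n).sub_const 1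
    simpa using this
  exact ((hd _).comp x h1).mul ((hd _).comp x h2)

theorem chi_deriv_bound {C : ℝ} (hC0 : 0 ≤ C) (hC : ∀ y : ℝ, |deriv Real.smoothTransition y| ≤ C)
    {a b n x : ℝ} (hn : 0 < n) (hx : x ∈ Ioo a b) :
    |deriv (chi a b n) x| ≤ 2 * C * (b - a) / ((x - a) * (b - x)) := by
  rw [(chi_hasDerivAt a b n x).deriv]
  have hxa : 0 < x - a := sub_pos.mpr hx.1
  have hbx : 0 < b - x := sub_pos.mpr hx.2
  have key : ∀ {s : ℝ}, 0 < s → |deriv Real.smoothTransition (s * n - 1) * n| ≤ 2 * C / s := by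
    intro s hs
    by_cases h : s * n - 1 ≤ 1
    · rw [abs_mul, abs_of_pos hn]
      have hn2 : n ≤ 2 / s := by
        rw [le_div_iff₀ hs]; linarith
      calc |deriv Real.smoothTransition (s * n - 1)| * n ≤ C * (2 / s) :=
            mul_le_mul (hC _) hn2 hn.le hC0
        _ = 2 * C / s := by ring
    · push Not at h
      rw [st_deriv_eq_zero (Or.inr h)]
      simp only [zero_mul, abs_zero]
      positivity
  have e1 := key hxa
  have e2 := key hbx
  have s1 := Real.smoothTransition.nonneg ((b - x) * n - 1)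
  have s1' := Real.smoothTransition.le_one ((b - x) * n - 1)
  have s2 := Real.smoothTransition.nonneg ((x - a) * n - 1)
  have s2' := Real.smoothTransition.le_one ((x - a) * n - 1)
  have hsum : 2 * C / (x - a) + 2 * C / (b - x) = 2 * C * (b - a) / ((x - a) * (b - x)) := by
    field_simp; ring
  rw [← hsum]
  refine (abs_add_le _ _).trans (add_le_add ?_ ?_)
  · rw [abs_mul, abs_of_nonneg s1]
    calc _ ≤ |deriv Real.smoothTransition ((x - a) * n - 1) * n| * 1 :=
          mul_le_mul_of_nonneg_left s1' (abs_nonneg _)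
      _ ≤ _ := by rw [mul_one]; exact e1
  · rw [abs_mul, abs_of_nonneg s2, mul_neg, abs_neg]
    calc _ ≤ 1 * |deriv Real.smoothTransition ((b - x) * n - 1) * n| :=
          mul_le_mul_of_nonneg_right s2' (abs_nonneg _)
      _ ≤ _ := by rw [one_mul]; exact e2

theorem chi_tendsto_one {a b x : ℝ} (hx : x ∈ Ioo a b) :
    Tendsto (fun n : ℕ => chi a b ((n : ℝ) + 1) x) atTop (𝓝 1) := by
  have hxa : 0 < x - a := sub_pos.mpr hx.1
  have hbx : 0 < b - x := sub_pos.mpr hx.2
  apply tendsto_const_nhds.congr'
  obtain ⟨N1, hN1⟩ := exists_nat_gt (2 / (x - a))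
  obtain ⟨N2, hN2⟩ := exists_nat_gt (2 / (b - x))
  filter_upwards [eventually_ge_atTop (max N1 N2)] with n hn
  have h1 : (N1 : ℝ) ≤ n := by exact_mod_cast (le_max_left _ _).trans hn
  have h2 : (N2 : ℝ) ≤ n := by exact_mod_cast (le_max_right _ _).trans hn
  have e1 : 2 < (x - a) * ((n : ℝ) + 1) := by
    rw [div_lt_iff₀ hxa] at hN1
    nlinarith
  have e2 : 2 < (b - x) * ((n : ℝ) + 1) := by
    rw [div_lt_iff₀ hbx] at hN2
    nlinarith
  unfold chi
  rw [Real.smoothTransition.one_of_one_le (by linarith),
    Real.smoothTransition.one_of_one_le (by linarith), mul_one]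

theorem chi_deriv_tendsto_zero {a b x : ℝ} (hx : x ∈ Ioo a b) :
    Tendsto (fun n : ℕ => deriv (chi a b ((n : ℝ) + 1)) x) atTop (𝓝 0) := by
  have hxa : 0 < x - a := sub_pos.mpr hx.1
  have hbx : 0 < b - x := sub_pos.mpr hx.2
  apply tendsto_const_nhds.congr'
  obtain ⟨N1, hN1⟩ := exists_nat_gt (2 / (x - a))
  obtain ⟨N2, hN2⟩ := exists_nat_gt (2 / (b - x))
  filter_upwards [eventually_ge_atTop (max N1 N2)] with n hn
  have h1 : (N1 : ℝ) ≤ n := by exact_mod_cast (le_max_left _ _).trans hn
  have h2 : (N2 : ℝ) ≤ n := by exact_mod_cast (le_max_right _ _).trans hn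
  have e1 : 2 < (x - a) * ((n : ℝ) + 1) := by
    rw [div_lt_iff₀ hxa] at hN1
    nlinarith
  have e2 : 2 < (b - x) * ((n : ℝ) + 1) := by
    rw [div_lt_iff₀ hbx] at hN2
    nlinarith
  rw [(chi_hasDerivAt a b _ x).deriv, st_deriv_eq_zero (Or.inr (by linarith)),
    st_deriv_eq_zero (Or.inr (by linarith))]
  ring

theorem contDiff_of_forall_tsupport {f : ℝ → ℝ}
    (hf : ∀ x, x ∈ tsupport f → ContDiffAt ℝ ∞ f x) : ContDiff ℝ ∞ f := by
  rw [contDiff_iff_contDiffAt]
  intro x
  by_cases hx : x ∈ tsupport f
  · exact hf x hx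
  · have : f =ᶠ[𝓝 x] fun _ => (0 : ℝ) := notMem_tsupport_iff_eventuallyEq.mp hx
    exact contDiffAt_const.congr_of_eventuallyEq this

/-- `g` is a weak derivative of `S` on the open interval `(a,b)`. -/
def WeakDerivOn (a b : ℝ) (S g : ℝ → ℝ) : Prop :=
  ∀ φ : ℝ → ℝ, ContDiff ℝ ∞ φ → HasCompactSupport φ → tsupport φ ⊆ Ioo a b →
    ∫ x in Ioo a b, S x * deriv φ x = -∫ x in Ioo a b, g x * φ x

/-- Integration by parts against a flux `Fl` smooth in the open interval. -/
theorem weak_parts {a b : ℝ} {S g Fl Fl' : ℝ → ℝ} (hw : WeakDerivOn a b S g)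
    (hFl : ContDiffOn ℝ ∞ Fl (Ioo a b)) (hFl' : ∀ x ∈ Ioo a b, HasDerivAt Fl (Fl' x) x)
    (h1 : IntegrableOn (fun x => Fl x * g x) (Ioo a b))
    (h2 : IntegrableOn (fun x => Fl' x * S x) (Ioo a b))
    (h3 : IntegrableOn (fun x => Fl x * S x / ((x - a) * (b - x))) (Ioo a b)) :
    ∫ x in Ioo a b, Fl x * g x = -∫ x in Ioo a b, Fl' x * S x := by
  obtain ⟨C, hC0, hC⟩ := st_deriv_bound
  have hopen : IsOpen (Ioo a b) := isOpen_Ioo
  -- the test functions
  have hts : ∀ n : ℕ, tsupport (fun x => Fl x * chi a b ((n : ℝ) + 1) x) ⊆ Ioo a b := by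
    intro n
    have hn : (0:ℝ) < (n : ℝ) + 1 := by positivity
    refine (tsupport_mul_subset_right (f := Fl) (g := chi a b ((n : ℝ) + 1))).trans
      ((chi_tsupport hn).trans ?_)
    intro x hx
    have : 0 < 1 / ((n : ℝ) + 1) := by positivity
    exact ⟨by linarith [hx.1], by linarith [hx.2]⟩
  have hcd : ∀ n : ℕ, ContDiff ℝ ∞ (fun x => Fl x * chi a b ((n : ℝ) + 1) x) := by
    intro n
    apply contDiff_of_forall_tsupport
    intro x hx
    exact (hFl.contDiffAt (hopen.mem_nhds (hts n hx))).mul (chi_contDiff a b _).contDiffAt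
  have hcs : ∀ n : ℕ, HasCompactSupport (fun x => Fl x * chi a b ((n : ℝ) + 1) x) := by
    intro n
    have hn : (0:ℝ) < (n : ℝ) + 1 := by positivity
    exact HasCompactSupport.mul_left
      (HasCompactSupport.of_support_subset_isCompact isCompact_Icc (chi_support hn))
  have hder : ∀ n : ℕ, ∀ x ∈ Ioo a b,
      deriv (fun x => Fl x * chi a b ((n : ℝ) + 1) x) x =
        Fl' x * chi a b ((n : ℝ) + 1) x + Fl x * deriv (chi a b ((n : ℝ) + 1)) x := by
    intro n x hx
    have := (hFl' x hx).mul ((chi_contDiff a b ((n : ℝ) + 1)).differentiable (by simp) x).hasDerivAt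
    exact this.deriv
  -- the identity for each n
  have hid : ∀ n : ℕ,
      ∫ x in Ioo a b, (Fl' x * S x * chi a b ((n : ℝ) + 1) x +
        Fl x * S x * deriv (chi a b ((n : ℝ) + 1)) x) =
      -∫ x in Ioo a b, Fl x * g x * chi a b ((n : ℝ) + 1) x := by
    intro n
    have h := hw _ (hcd n) (hcs n) (hts n)
    have e1 : ∫ x in Ioo a b, S x * deriv (fun x => Fl x * chi a b ((n : ℝ) + 1) x) x =
        ∫ x in Ioo a b, (Fl' x * S x * chi a b ((n : ℝ) + 1) x +
        Fl x * S x * deriv (chi a b ((n : ℝ) + 1)) x) := by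
      apply setIntegral_congr_fun measurableSet_Ioo
      intro x hx
      simp only
      rw [hder n x hx]; ring
    have e2 : ∫ x in Ioo a b, g x * (Fl x * chi a b ((n : ℝ) + 1) x) =
        ∫ x in Ioo a b, Fl x * g x * chi a b ((n : ℝ) + 1) x := by
      apply setIntegral_congr_fun measurableSet_Ioo
      intro x _
      simp only
      ring
    rw [← e1, h, e2]
  -- limits
  have hchim : ∀ n : ℕ, AEStronglyMeasurable (chi a b ((n : ℝ) + 1)) (volume.restrict (Ioo a b)) :=
    fun n => (chi_contDiff a b _).continuous.aestronglyMeasurable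
  have L1 : Tendsto (fun n : ℕ => ∫ x in Ioo a b, Fl x * g x * chi a b ((n : ℝ) + 1) x) atTop
      (𝓝 (∫ x in Ioo a b, Fl x * g x)) := by
    apply tendsto_integral_of_dominated_convergence (fun x => |Fl x * g x|)
    · intro n; exact h1.aestronglyMeasurable.mul (hchim n)
    · exact h1.abs
    · intro n
      filter_upwards with x
      rw [norm_mul, Real.norm_eq_abs, Real.norm_eq_abs, abs_of_nonneg (chi_nonneg _ _ _ _)]
      exact mul_le_of_le_one_right (abs_nonneg _) (chi_le_one _ _ _ _)
    · filter_upwards [ae_restrict_mem measurableSet_Ioo] with x hx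
      have := (chi_tendsto_one hx).const_mul (Fl x * g x)
      simpa using this
  have L2 : Tendsto (fun n : ℕ => ∫ x in Ioo a b, (Fl' x * S x * chi a b ((n : ℝ) + 1) x +
        Fl x * S x * deriv (chi a b ((n : ℝ) + 1)) x)) atTop
      (𝓝 (∫ x in Ioo a b, Fl' x * S x)) := by
    apply tendsto_integral_of_dominated_convergence
      (fun x => |Fl' x * S x| + 2 * C * (b - a) * |Fl x * S x / ((x - a) * (b - x))|)
    · intro n
      apply AEStronglyMeasurable.add
      · exact h2.aestronglyMeasurable.mul (hchim n)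
      · have hm : AEStronglyMeasurable (fun x => Fl x * S x) (volume.restrict (Ioo a b)) := by
          have : AEStronglyMeasurable (fun x => (Fl x * S x / ((x - a) * (b - x))) *
              ((x - a) * (b - x))) (volume.restrict (Ioo a b)) :=
            h3.aestronglyMeasurable.mul (by fun_prop)
          refine this.congr ?_
          filter_upwards [ae_restrict_mem measurableSet_Ioo] with x hx
          have h1 : x - a ≠ 0 := (sub_pos.mpr hx.1).ne'
          have h2 : b - x ≠ 0 := (sub_pos.mpr hx.2).ne'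
          field_simp
        exact hm.mul (((chi_contDiff a b _).continuous_deriv (by simp)).aestronglyMeasurable)
    · exact h2.abs.add (h3.abs.const_mul _)
    · intro n
      filter_upwards [ae_restrict_mem measurableSet_Ioo] with x hx
      have hn : (0:ℝ) < (n : ℝ) + 1 := by positivity
      refine (norm_add_le _ _).trans (add_le_add ?_ ?_)
      · rw [norm_mul, Real.norm_eq_abs, Real.norm_eq_abs, abs_of_nonneg (chi_nonneg _ _ _ _)]
        exact mul_le_of_le_one_right (abs_nonneg _) (chi_le_one _ _ _ _)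
      · rw [norm_mul, Real.norm_eq_abs, Real.norm_eq_abs, abs_div]
        have hpos : 0 < (x - a) * (b - x) := mul_pos (sub_pos.mpr hx.1) (sub_pos.mpr hx.2)
        rw [abs_of_pos hpos]
        calc |Fl x * S x| * |deriv (chi a b ((n : ℝ) + 1)) x|
            ≤ |Fl x * S x| * (2 * C * (b - a) / ((x - a) * (b - x))) :=
              mul_le_mul_of_nonneg_left (chi_deriv_bound hC0 hC hn hx) (abs_nonneg _)
          _ = _ := by ring
    · filter_upwards [ae_restrict_mem measurableSet_Ioo] with x hx
      have t1 := (chi_tendsto_one hx).const_mul (Fl' x * S x)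
      have t2 := (chi_deriv_tendsto_zero hx).const_mul (Fl x * S x)
      simpa using t1.add t2
  have L1' := L1.neg
  have : (fun n : ℕ => ∫ x in Ioo a b, (Fl' x * S x * chi a b ((n : ℝ) + 1) x +
        Fl x * S x * deriv (chi a b ((n : ℝ) + 1)) x)) =
      fun n : ℕ => -∫ x in Ioo a b, Fl x * g x * chi a b ((n : ℝ) + 1) x := funext hid
  rw [this] at L2
  have := tendsto_nhds_unique L2 L1'
  linarith

end Crest.Agent.R202
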