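import Crest.Agent.R202.SpinParseval
import Crest.Agent.R202.SpinWeak

/-! Row 202, PART C1 (helper816): weak form and energy Bessel inequality. -/

set_option autoImplicit false

namespace Crest.Agent.R202

open MeasureTheory Set Polynomial Filter Topology
open scoped ContDiff

/-- a `C¹` function on the open interval is weakly differentiable. -/
theorem weakDeriv_of_hasDerivAt {a b : ℝ} {S g : ℝ → ℝ}
    (h : ∀ x ∈ Ioo a b, HasDerivAt S (g x) x) (hg : ContinuousOn g (Ioo a b)) :
    WeakDerivOn a b S g := by
  intro φ hφ hφc hφs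
  have hφd : ∀ x, HasDerivAt φ (deriv φ x) x := fun x =>
    (hφ.differentiable (by simp) x).hasDerivAt
  have hSc : ContinuousOn S (Ioo a b) := fun x hx => (h x hx).continuousAt.continuousWithinAt
  have hφ' : Continuous (deriv φ) := hφ.continuous_deriv (by simp)
  have key : ∀ (u : ℝ → ℝ) (v : ℝ → ℝ), ContinuousOn u (Ioo a b) → Continuous v →
      tsupport v ⊆ Ioo a b → Continuous fun x => u x * v x := by
    intro u v hu hv hvs
    rw [continuous_iff_continuousAt]
    intro x
    by_cases hx : x ∈ tsupport v
    · exact ((hu.continuousAt (isOpen_Ioo.mem_nhds (hvs hx))).mul hv.continuousAt)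
    · have : (fun x => u x * v x) =ᶠ[𝓝 x] fun _ => (0 : ℝ) := by
        filter_upwards [notMem_tsupport_iff_eventuallyEq.mp hx] with y hy
        rw [hy]; simp
      exact continuousAt_const.congr this.symm
  have hs' : tsupport (deriv φ) ⊆ tsupport φ := tsupport_deriv_subset
  have c1 : Continuous fun x => g x * φ x := key g φ hg hφ.continuous hφs
  have c2 : Continuous fun x => S x * deriv φ x := key S _ hSc hφ' (hs'.trans hφs)
  have i1 : Integrable fun x => g x * φ x :=
    c1.integrable_of_hasCompactSupport hφc.mul_left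
  have i2 : Integrable fun x => S x * deriv φ x :=
    c2.integrable_of_hasCompactSupport hφc.deriv.mul_left
  have c0 : Continuous fun x => S x * φ x := key S φ hSc hφ.continuous hφs
  have hd : ∀ x, HasDerivAt (fun x => S x * φ x) (g x * φ x + S x * deriv φ x) x := by
    intro x
    by_cases hx : x ∈ tsupport φ
    · exact (h x (hφs hx)).mul (hφd x)
    · have e : (fun x => S x * φ x) =ᶠ[𝓝 x] fun _ => (0 : ℝ) := by
        filter_upwards [notMem_tsupport_iff_eventuallyEq.mp hx] with y hy
        rw [hy]; simp
      have e1 : φ x = 0 := image_eq_zero_of_notMem_tsupport hx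
      have e2 : deriv φ x = 0 := image_eq_zero_of_notMem_tsupport (fun h => hx (hs' h))
      rw [e1, e2, mul_zero, mul_zero, add_zero]
      exact (hasDerivAt_const x (0 : ℝ)).congr_of_eventuallyEq e
  have hcs : HasCompactSupport fun x => S x * φ x := hφc.mul_left
  have h0 : ∫ x, (g x * φ x + S x * deriv φ x) = 0 :=
    integral_eq_zero_of_hasDerivAt_of_integrable hd (i1.add i2)
      (c0.integrable_of_hasCompactSupport hcs)
  rw [integral_add i1 i2] at h0
  have z1 : ∫ x in Ioo a b, S x * deriv φ x = ∫ x, S x * deriv φ x := by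
    apply setIntegral_eq_integral_of_forall_compl_eq_zero
    intro x hx
    rw [image_eq_zero_of_notMem_tsupport (f := deriv φ) (fun h => hx (hφs (hs' h))), mul_zero]
  have z2 : ∫ x in Ioo a b, g x * φ x = ∫ x, g x * φ x := by
    apply setIntegral_eq_integral_of_forall_compl_eq_zero
    intro x hx
    rw [image_eq_zero_of_notMem_tsupport (f := φ) (fun h => hx (hφs h)), mul_zero]
  rw [z1, z2]
  linarith

theorem integrableOn_tip {μ : ℝ} (hμ : 0 < μ) (d : ℕ) :
    IntegrableOn (fun x : ℝ => (1 - x ^ 2) ^ (μ - 1)) (Ioo (lft d) 1) := by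
  have hsub : Ioo (lft d) 1 ⊆ Ioo (-1 : ℝ) 1 := Ioo_subset_Ioo_left (neg_one_le_lft d)
  refine IntegrableOn.mono_set ?_ hsub
  rcases le_or_gt 1 μ with h | h
  · have hc : Continuous fun x : ℝ => (1 - x ^ 2) ^ (μ - 1) :=
      Continuous.rpow_const (by fun_prop) (fun x => Or.inr (by linarith))
    exact (hc.continuousOn.integrableOn_Icc (a := -1) (b := 1)).mono_set Ioo_subset_Icc_self
  · have i1 : IntegrableOn (fun x : ℝ => (1 - x) ^ (μ - 1)) (Ioo (-1 : ℝ) 1) := by
      have h0 : IntervalIntegrable (fun x : ℝ => x ^ (μ - 1)) volume 0 2 :=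
        intervalIntegral.intervalIntegrable_rpow' (by linarith)
      have h1 := h0.comp_sub_left 1
      have h2 : IntervalIntegrable (fun x : ℝ => (1 - x) ^ (μ - 1)) volume (-1) 1 := by
        have e : (1 : ℝ) - 2 = -1 := by norm_num
        rw [e, sub_zero] at h1
        exact h1.symm
      exact ((intervalIntegrable_iff_integrableOn_Ioo_of_le (by norm_num)).mp h2)
    have i2 : IntegrableOn (fun x : ℝ => (x + 1) ^ (μ - 1)) (Ioo (-1 : ℝ) 1) := by
      have h0 : IntervalIntegrable (fun x : ℝ => x ^ (μ - 1)) volume 0 2 :=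
        intervalIntegral.intervalIntegrable_rpow' (by linarith)
      have h1 := h0.comp_add_right 1
      have h2 : IntervalIntegrable (fun x : ℝ => (x + 1) ^ (μ - 1)) volume (-1) 1 := by
        have e : (2 : ℝ) - 1 = 1 := by norm_num
        rw [e, zero_sub] at h1
        exact h1
      exact ((intervalIntegrable_iff_integrableOn_Ioo_of_le (by norm_num)).mp h2)
    refine Integrable.mono' (i1.add i2) ?_ ?_
    · have : Measurable fun x : ℝ => (1 - x ^ 2) ^ (μ - 1) := by fun_prop
      exact this.aestronglyMeasurable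
    · filter_upwards [ae_restrict_mem measurableSet_Ioo] with x hx
      have hx1 : 0 < 1 - x := by linarith [hx.2]
      have hx2 : 0 < x + 1 := by linarith [hx.1]
      have e : 1 - x ^ 2 = (1 - x) * (x + 1) := by ring
      have hp : 0 < 1 - x ^ 2 := by rw [e]; positivity
      rw [Real.norm_eq_abs, abs_of_nonneg (Real.rpow_nonneg hp.le _)]
      have n1 := Real.rpow_nonneg hx1.le (μ - 1)
      have n2 := Real.rpow_nonneg hx2.le (μ - 1)
      simp only [Pi.add_apply]
      rcases le_total 0 x with hx0 | hx0
      · have : (1 - x ^ 2) ^ (μ - 1) ≤ (1 - x) ^ (μ - 1) := by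
          apply Real.rpow_le_rpow_of_nonpos hx1 _ (by linarith)
          rw [e]; nlinarith
        linarith
      · have : (1 - x ^ 2) ^ (μ - 1) ≤ (x + 1) ^ (μ - 1) := by
          apply Real.rpow_le_rpow_of_nonpos hx2 _ (by linarith)
          rw [e]; nlinarith
        linarith

end Crest.Agent.R202
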