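import Mathlib
import Crest.Agent.R202.SpinForm
import Crest.Agent.R202.Fou2

/-! Row 202, PART C1-2D (helper206): the radial energy on `(0,1)`: weak equation and the
lower bound on the complement of the first eigenfunctions. -/

set_option autoImplicit false

namespace Crest.Agent.R202.Fou

open MeasureTheory Set Polynomial Filter Topology
open Crest.Agent.R202

/-- admissible radial profiles on `(0,1)` (with their derivative) -/
structure Cls (q : ℕ) (μ : ℝ) (C : ℝ) (S S' : ℝ → ℝ) : Prop where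
  hd : ∀ x ∈ Ioo (0 : ℝ) 1, HasDerivAt S (S' x) x
  cont : ContinuousOn S' (Ioo (0 : ℝ) 1)
  b0 : ∀ x ∈ Ioo (0 : ℝ) 1, |S x| ≤ C
  b1 : ∀ x ∈ Ioo (0 : ℝ) 1, |S' x| * Real.sqrt (1 - x ^ 2) ≤ C
  bq : 1 ≤ q → ∀ x ∈ Ioo (0 : ℝ) 1, |S x| ≤ C * x
  bp : μ ≠ 0 → ∀ x ∈ Ioo (0 : ℝ) 1, |S x| ≤ C * Real.sqrt (1 - x ^ 2)

namespace Cls

variable {q : ℕ} {μ C D : ℝ} {S S' T T' : ℝ → ℝ}

theorem nonneg (h : Cls q μ C S S') : 0 ≤ C :=
  (abs_nonneg _).trans (h.b0 (1 / 2) (by constructor <;> norm_num))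

theorem contS (h : Cls q μ C S S') : ContinuousOn S (Ioo (0 : ℝ) 1) :=
  fun x hx => (h.hd x hx).continuousAt.continuousWithinAt

theorem mono (h : Cls q μ C S S') (hCD : C ≤ D) : Cls q μ D S S' where
  hd := h.hd
  cont := h.cont
  b0 x hx := (h.b0 x hx).trans hCD
  b1 x hx := (h.b1 x hx).trans hCD
  bq hq x hx := (h.bq hq x hx).trans (mul_le_mul_of_nonneg_right hCD hx.1.le)
  bp hp x hx := (h.bp hp x hx).trans (mul_le_mul_of_nonneg_right hCD (Real.sqrt_nonneg _))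

theorem zero : Cls q μ 0 (fun _ => 0) (fun _ => 0) where
  hd x _ := hasDerivAt_const x 0
  cont := continuousOn_const
  b0 x _ := by simp
  b1 x _ := by simp
  bq _ x _ := by simp
  bp _ x _ := by simp

theorem add (h : Cls q μ C S S') (k : Cls q μ D T T') :
    Cls q μ (C + D) (fun x => S x + T x) (fun x => S' x + T' x) where
  hd x hx := (h.hd x hx).add (k.hd x hx)
  cont := h.cont.add k.cont
  b0 x hx := (abs_add_le _ _).trans (add_le_add (h.b0 x hx) (k.b0 x hx))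
  b1 x hx := by
    have h1 := h.b1 x hx
    have h2 := k.b1 x hx
    have h3 := abs_add_le (S' x) (T' x)
    have h4 := Real.sqrt_nonneg (1 - x ^ 2)
    nlinarith
  bq hq x hx := by
    have h1 := h.bq hq x hx
    have h2 := k.bq hq x hx
    have h3 := abs_add_le (S x) (T x)
    linarith
  bp hp x hx := by
    have h1 := h.bp hp x hx
    have h2 := k.bp hp x hx
    have h3 := abs_add_le (S x) (T x)
    linarith

theorem smul (h : Cls q μ C S S') (c : ℝ) :
    Cls q μ (|c| * C) (fun x => c * S x) (fun x => c * S' x) where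
  hd x hx := (h.hd x hx).const_mul c
  cont := continuousOn_const.mul h.cont
  b0 x hx := by
    rw [abs_mul]; exact mul_le_mul_of_nonneg_left (h.b0 x hx) (abs_nonneg _)
  b1 x hx := by
    rw [abs_mul, mul_assoc]; exact mul_le_mul_of_nonneg_left (h.b1 x hx) (abs_nonneg _)
  bq hq x hx := by
    rw [abs_mul, mul_assoc]; exact mul_le_mul_of_nonneg_left (h.bq hq x hx) (abs_nonneg _)
  bp hp x hx := by
    rw [abs_mul, mul_assoc]; exact mul_le_mul_of_nonneg_left (h.bp hp x hx) (abs_nonneg _)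

end Cls

/-- the radial functions are admissible -/
theorem Rj_cls (d q : ℕ) {μ : ℝ} (hμ : μ = 0 ∨ 1 ≤ μ) (j : ℕ) :
    ∃ C : ℝ, Cls q μ C (Rj d q μ j) (dRj d q μ j) := by
  obtain ⟨C, hC, h⟩ := Rj_bounds d q hμ j
  have hμ0 : 0 ≤ μ := by rcases hμ with h | h <;> linarith
  refine ⟨C, ⟨fun x hx => Rj_hasDerivAt d q μ j (osp hx), ?_, ?_, fun x hx => (h x hx).2, ?_, ?_⟩⟩
  · unfold dRj
    apply ContinuousOn.mul
    · exact (Continuous.rpow_const (by fun_prop) (fun x => Or.inr (by linarith))).continuousOn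
    · apply ContinuousOn.sub (derivative (jQ d q μ j)).continuous.continuousOn
      apply ContinuousOn.mul _ (jQ d q μ j).continuous.continuousOn
      apply ContinuousOn.div (by fun_prop) (by fun_prop)
      intro x hx
      exact (osp hx).ne'
  · intro x hx
    refine (h x hx).1.trans ?_
    have h1 : x ^ q ≤ 1 := pow_le_one₀ hx.1.le hx.2.le
    have h2 : (1 - x ^ 2) ^ (μ / 2) ≤ 1 :=
      Real.rpow_le_one (osp hx).le (by nlinarith [sq_nonneg x]) (by linarith)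
    have h3 : 0 ≤ (1 - x ^ 2) ^ (μ / 2) := Real.rpow_nonneg (osp hx).le _
    have h4 : 0 ≤ x ^ q := pow_nonneg hx.1.le _
    calc C * x ^ q * (1 - x ^ 2) ^ (μ / 2) ≤ C * 1 * 1 := by gcongr
      _ = C := by ring
  · intro hq x hx
    refine (h x hx).1.trans ?_
    have h1 : x ^ q ≤ x := by
      calc x ^ q ≤ x ^ 1 := pow_le_pow_of_le_one hx.1.le hx.2.le hq
        _ = x := pow_one x
    have h2 : (1 - x ^ 2) ^ (μ / 2) ≤ 1 :=
      Real.rpow_le_one (osp hx).le (by nlinarith [sq_nonneg x]) (by linarith)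
    have h3 : 0 ≤ (1 - x ^ 2) ^ (μ / 2) := Real.rpow_nonneg (osp hx).le _
    have hx0 := hx.1.le
    calc C * x ^ q * (1 - x ^ 2) ^ (μ / 2) ≤ C * x * 1 := by gcongr
      _ = C * x := by ring
  · intro hp x hx
    refine (h x hx).1.trans ?_
    have hμ1 : 1 ≤ μ := by rcases hμ with h | h; exact absurd h hp; exact h
    have h1 : x ^ q ≤ 1 := pow_le_one₀ hx.1.le hx.2.le
    have h2 : (1 - x ^ 2) ^ (μ / 2) ≤ Real.sqrt (1 - x ^ 2) := by
      rw [Real.sqrt_eq_rpow]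
      exact Real.rpow_le_rpow_of_exponent_ge (osp hx) (by nlinarith [sq_nonneg x]) (by linarith)
    have h3 : 0 ≤ (1 - x ^ 2) ^ (μ / 2) := Real.rpow_nonneg (osp hx).le _
    have h4 : 0 ≤ x ^ q := pow_nonneg hx.1.le _
    calc C * x ^ q * (1 - x ^ 2) ^ (μ / 2) ≤ C * 1 * Real.sqrt (1 - x ^ 2) := by gcongr
      _ = _ := by ring

/-- energy density -/
noncomputable def den (d q : ℕ) (μ : ℝ) (S S' T T' : ℝ → ℝ) (x : ℝ) : ℝ :=
  x ^ d * ((1 - x ^ 2) * (S' x * T' x) + μ ^ 2 / (1 - x ^ 2) * (S x * T x) +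
    E0 d q / x ^ 2 * (S x * T x))

/-- radial energy on `(0,1)` -/
noncomputable def en (d q : ℕ) (μ : ℝ) (S S' T T' : ℝ → ℝ) : ℝ :=
  ∫ x in Ioo (0 : ℝ) 1, den d q μ S S' T T' x

theorem E0_zero' {d q : ℕ} (hadm : d = 0 → q ≤ 1) (h : d = 0 ∨ q = 0) : E0 d q = 0 := by
  rcases h with h | h
  · subst h; exact E0_three (hadm rfl)
  · subst h; simp [E0]

theorem den_bound {d q : ℕ} (hadm : d = 0 → q ≤ 1) {μ C D : ℝ} {S S' T T' : ℝ → ℝ}
    (h : Cls q μ C S S') (k : Cls q μ D T T') {x : ℝ} (hx : x ∈ Ioo (0 : ℝ) 1) :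
    |den d q μ S S' T T' x| ≤ (1 + μ ^ 2 + E0 d q) * (C * D) := by
  have hC := h.nonneg
  have hD := k.nonneg
  have hp := osp hx
  have hxd0 : 0 ≤ x ^ d := pow_nonneg hx.1.le _
  have hxd1 : x ^ d ≤ 1 := pow_le_one₀ hx.1.le hx.2.le
  have hs2 : Real.sqrt (1 - x ^ 2) * Real.sqrt (1 - x ^ 2) = 1 - x ^ 2 :=
    Real.mul_self_sqrt hp.le
  have hE0 := E0_nonneg d q
  unfold den
  have t1 : |x ^ d * ((1 - x ^ 2) * (S' x * T' x))| ≤ C * D := by
    rw [abs_mul, abs_of_nonneg hxd0, abs_mul, abs_of_nonneg hp.le, abs_mul]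
    have e : (1 - x ^ 2) * (|S' x| * |T' x|) =
        (|S' x| * Real.sqrt (1 - x ^ 2)) * (|T' x| * Real.sqrt (1 - x ^ 2)) := by
      calc (1 - x ^ 2) * (|S' x| * |T' x|) =
          (Real.sqrt (1 - x ^ 2) * Real.sqrt (1 - x ^ 2)) * (|S' x| * |T' x|) := by rw [hs2]
        _ = _ := by ring
    rw [e]
    have h1 := h.b1 x hx
    have h2 := k.b1 x hx
    calc x ^ d * (|S' x| * Real.sqrt (1 - x ^ 2) * (|T' x| * Real.sqrt (1 - x ^ 2)))
        ≤ 1 * (C * D) := by gcongr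
      _ = C * D := one_mul _
  have t2 : |x ^ d * (μ ^ 2 / (1 - x ^ 2) * (S x * T x))| ≤ μ ^ 2 * (C * D) := by
    by_cases hμ : μ = 0
    · rw [hμ]; simp
    · rw [abs_mul, abs_of_nonneg hxd0, abs_mul, abs_of_nonneg (by positivity), abs_mul]
      have h1 := h.bp hμ x hx
      have h2 := k.bp hμ x hx
      calc x ^ d * (μ ^ 2 / (1 - x ^ 2) * (|S x| * |T x|))
          ≤ 1 * (μ ^ 2 / (1 - x ^ 2) * ((C * Real.sqrt (1 - x ^ 2)) *
            (D * Real.sqrt (1 - x ^ 2)))) := by gcongr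
        _ = μ ^ 2 / (1 - x ^ 2) * (C * D) * (Real.sqrt (1 - x ^ 2) * Real.sqrt (1 - x ^ 2)) := by
          ring
        _ = μ ^ 2 * (C * D) := by rw [hs2]; field_simp
  have t3 : |x ^ d * (E0 d q / x ^ 2 * (S x * T x))| ≤ E0 d q * (C * D) := by
    by_cases hz : d = 0 ∨ q = 0
    · rw [E0_zero' hadm hz]; simp
    · push Not at hz
      have hq : 1 ≤ q := by omega
      rw [abs_mul, abs_of_nonneg hxd0, abs_mul, abs_of_nonneg (by positivity), abs_mul]
      have h1 := h.bq hq x hx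
      have h2 := k.bq hq x hx
      have hx0 := hx.1
      calc x ^ d * (E0 d q / x ^ 2 * (|S x| * |T x|))
          ≤ 1 * (E0 d q / x ^ 2 * ((C * x) * (D * x))) := by gcongr
        _ = E0 d q * (C * D) := by field_simp
  have := abs_add_three (x ^ d * ((1 - x ^ 2) * (S' x * T' x)))
    (x ^ d * (μ ^ 2 / (1 - x ^ 2) * (S x * T x))) (x ^ d * (E0 d q / x ^ 2 * (S x * T x)))
  rw [mul_add, mul_add]
  linarith

theorem den_cont {d q : ℕ} {μ C D : ℝ} {S S' T T' : ℝ → ℝ}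
    (h : Cls q μ C S S') (k : Cls q μ D T T') :
    ContinuousOn (den d q μ S S' T T') (Ioo (0 : ℝ) 1) := by
  unfold den
  have h1 := h.contS
  have h2 := k.contS
  have h3 := h.cont
  have h4 := k.cont
  have c1 : ContinuousOn (fun x : ℝ => μ ^ 2 / (1 - x ^ 2)) (Ioo (0 : ℝ) 1) :=
    ContinuousOn.div (by fun_prop) (by fun_prop) (fun x hx => (osp hx).ne')
  have c2 : ContinuousOn (fun x : ℝ => E0 d q / x ^ 2) (Ioo (0 : ℝ) 1) :=
    ContinuousOn.div (by fun_prop) (by fun_prop) (fun x hx => pow_ne_zero 2 hx.1.ne')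
  have c3 : ContinuousOn (fun x : ℝ => 1 - x ^ 2) (Ioo (0 : ℝ) 1) := by fun_prop
  have c4 : ContinuousOn (fun x : ℝ => x ^ d) (Ioo (0 : ℝ) 1) := by fun_prop
  exact c4.mul (((c3.mul (h3.mul h4)).add (c1.mul (h1.mul h2))).add (c2.mul (h1.mul h2)))

theorem integrableOn_of_bound {f : ℝ → ℝ} {M : ℝ} (hf : ContinuousOn f (Ioo (0 : ℝ) 1))
    (hM : ∀ x ∈ Ioo (0 : ℝ) 1, |f x| ≤ M) : IntegrableOn f (Ioo (0 : ℝ) 1) := by
  refine ⟨hf.aestronglyMeasurable measurableSet_Ioo, ?_⟩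
  apply MeasureTheory.HasFiniteIntegral.of_bounded (C := M)
  filter_upwards [ae_restrict_mem measurableSet_Ioo] with x hx
  exact hM x hx

theorem den_int {d q : ℕ} (hadm : d = 0 → q ≤ 1) {μ C D : ℝ} {S S' T T' : ℝ → ℝ}
    (h : Cls q μ C S S') (k : Cls q μ D T T') :
    IntegrableOn (den d q μ S S' T T') (Ioo (0 : ℝ) 1) :=
  integrableOn_of_bound (den_cont h k) (fun _ hx => den_bound hadm h k hx)

theorem ip_int {d q : ℕ} {μ C D : ℝ} {S S' T T' : ℝ → ℝ}
    (h : Cls q μ C S S') (k : Cls q μ D T T') :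
    IntegrableOn (fun x => x ^ d * (S x * T x)) (Ioo (0 : ℝ) 1) := by
  have c4 : ContinuousOn (fun x : ℝ => x ^ d) (Ioo (0 : ℝ) 1) := by fun_prop
  refine integrableOn_of_bound (M := C * D) (c4.mul (h.contS.mul k.contS)) (fun x hx => ?_)
  have hC := h.nonneg
  have hxd0 : 0 ≤ x ^ d := pow_nonneg hx.1.le _
  have hxd1 : x ^ d ≤ 1 := pow_le_one₀ hx.1.le hx.2.le
  rw [abs_mul, abs_mul, abs_of_nonneg hxd0]
  have h1 := h.b0 x hx
  have h2 := k.b0 x hx
  calc x ^ d * (|S x| * |T x|) ≤ 1 * (C * D) := by gcongr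
    _ = C * D := one_mul _

/-- the flux of `R_j` at the end points -/
theorem Flj_tendsto (d q : ℕ) {μ : ℝ} (hμ : 0 ≤ μ) (j : ℕ) (l : Filter ℝ) {a : ℝ}
    (hl : l ≤ 𝓝 a) (hl2 : ∀ᶠ x in l, x ∈ Ioo (0 : ℝ) 1) :
    Tendsto (Flj d q μ j) l (𝓝 ((1 - a ^ 2) ^ (μ / 2) * (a ^ d *
      ((1 - a ^ 2) * (derivative (jQ d q μ j)).eval a - μ * a * (jQ d q μ j).eval a)))) := by
  have hc : Continuous fun x : ℝ => (1 - x ^ 2) ^ (μ / 2) * (x ^ d *
      ((1 - x ^ 2) * (derivative (jQ d q μ j)).eval x - μ * x * (jQ d q μ j).eval x)) := by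
    apply Continuous.mul
    · exact Continuous.rpow_const (by fun_prop) (fun x => Or.inr (by linarith))
    · apply Continuous.mul (by fun_prop)
      exact ((by fun_prop : Continuous fun x : ℝ => (1 - x ^ 2)).mul
        (derivative (jQ d q μ j)).continuous).sub
        ((by fun_prop : Continuous fun x : ℝ => μ * x).mul (jQ d q μ j).continuous)
  refine ((hc.tendsto a).mono_left hl).congr' ?_
  filter_upwards [hl2] with x hx
  exact (Flj_eq d q μ j (osp hx)).symm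

theorem djQ_zero (d : ℕ) (μ : ℝ) (j : ℕ) : (derivative (jQ d 0 μ j)).eval 0 = 0 := by
  unfold jQ
  simp [derivative_comp]

/-- **the weak equation** -/
theorem weakh {d q : ℕ} (hadm : d = 0 → q ≤ 1) {μ : ℝ} (hμ : μ = 0 ∨ 1 ≤ μ) (j : ℕ)
    {C : ℝ} {S S' : ℝ → ℝ} (h : Cls q μ C S S') :
    en d q μ (Rj d q μ j) (dRj d q μ j) S S' =
      Ej d q μ j * ∫ x in Ioo (0 : ℝ) 1, x ^ d * (Rj d q μ j x * S x) := by
  have hμ0 : 0 ≤ μ := by rcases hμ with h | h <;> linarith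
  obtain ⟨D, hR⟩ := Rj_cls d q hμ j
  have hIR := den_int hadm hR h
  have hIP := ip_int (d := d) hR h
  set f' : ℝ → ℝ := fun x => den d q μ (Rj d q μ j) (dRj d q μ j) S S' x -
    Ej d q μ j * (x ^ d * (Rj d q μ j x * S x)) with hf'
  have hder : ∀ x ∈ Ioo (0 : ℝ) 1, HasDerivAt (fun x => Flj d q μ j x * S x) (f' x) x := by
    intro x hx
    have h1 := Flj_hasDerivAt' hadm μ j (mem_lft d hx)
    have h2 := h1.mul (h.hd x hx)
    refine h2.congr_deriv ?_
    rw [hf']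
    simp only [den, Flj]
    ring
  have hint : IntegrableOn f' (Ioo (0 : ℝ) 1) := hIR.sub (hIP.const_mul _)
  have hev0 : ∀ᶠ x in 𝓝[>] (0 : ℝ), x ∈ Ioo (0 : ℝ) 1 := Ioo_mem_nhdsGT one_pos
  have hev1 : ∀ᶠ x in 𝓝[<] (1 : ℝ), x ∈ Ioo (0 : ℝ) 1 := Ioo_mem_nhdsLT one_pos
  have hSb : ∀ x ∈ Ioo (0 : ℝ) 1, |S x| ≤ C := h.b0
  have ha : Tendsto (fun x => Flj d q μ j x * S x) (𝓝[>] 0) (𝓝 0) := by
    have hF := Flj_tendsto d q hμ0 j (𝓝[>] 0) nhdsWithin_le_nhds hev0
    by_cases hz : 0 < d ∨ q = 0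
    · have e0 : (1 - (0 : ℝ) ^ 2) ^ (μ / 2) * ((0 : ℝ) ^ d *
          ((1 - 0 ^ 2) * (derivative (jQ d q μ j)).eval 0 - μ * 0 * (jQ d q μ j).eval 0)) = 0 := by
        rcases hz with hz | hz
        · rw [zero_pow hz.ne']; ring
        · subst hz; rw [djQ_zero]; ring
      rw [e0] at hF
      refine hF.zero_mul_isBoundedUnder_le ?_
      refine ⟨C, ?_⟩
      rw [eventually_map]
      filter_upwards [hev0] with x hx
      exact hSb x hx
    · push Not at hz
      have hq : 1 ≤ q := by omega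
      have hS0 : Tendsto S (𝓝[>] 0) (𝓝 0) := by
        have hx0 : Tendsto (fun x : ℝ => C * x) (𝓝[>] 0) (𝓝 0) := by
          have : Tendsto (fun x : ℝ => C * x) (𝓝 0) (𝓝 (C * 0)) :=
            (continuous_const.mul continuous_id).tendsto 0
          rw [mul_zero] at this
          exact this.mono_left nhdsWithin_le_nhds
        refine squeeze_zero_norm' ?_ hx0
        filter_upwards [hev0] with x hx
        exact h.bq hq x hx
      have := hF.mul hS0
      rw [mul_zero] at this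
      exact this
  have hb : Tendsto (fun x => Flj d q μ j x * S x) (𝓝[<] 1) (𝓝 0) := by
    have hF := Flj_tendsto d q hμ0 j (𝓝[<] 1) nhdsWithin_le_nhds hev1
    have e0 : (1 - (1 : ℝ) ^ 2) ^ (μ / 2) * ((1 : ℝ) ^ d *
          ((1 - 1 ^ 2) * (derivative (jQ d q μ j)).eval 1 - μ * 1 * (jQ d q μ j).eval 1)) = 0 := by
      rcases hμ with h | h
      · rw [h]; ring
      · rw [one_pow, sub_self, Real.zero_rpow (by linarith)]; ring
    rw [e0] at hF
    refine hF.zero_mul_isBoundedUnder_le ?_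
    refine ⟨C, ?_⟩
    rw [eventually_map]
    filter_upwards [hev1] with x hx
    exact hSb x hx
  have key := intervalIntegral.integral_eq_sub_of_hasDerivAt_of_tendsto one_pos hder
    ((intervalIntegrable_iff_integrableOn_Ioo_of_le zero_le_one).2 hint) ha hb
  rw [intervalIntegral.integral_of_le zero_le_one, integral_Ioc_eq_integral_Ioo, sub_zero, hf',
    integral_sub hIR (hIP.const_mul _), integral_const_mul] at key
  unfold en
  linarith

end Crest.Agent.R202.Fou
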