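import Mathlib
import Crest.Agent.R202.Model2
import Crest.Agent.R202.Fou1
import Crest.Agent.R202.Fou3

/-! Row 202, PART C, (P0) (helper206): the spindle forms on `VS q par`:
reduction to one variable, weak equation, orthogonality, lower bound. -/

set_option autoImplicit false

open MeasureTheory Set Filter Topology
open Crest.Agent.R202

noncomputable section

namespace Crest.Agent.R202.Mod

open Crest.Agent.R202.Fou (en den nh ntrg Cls osp)

/-! ### integrals of products -/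

theorem integral_mu (d : ℕ) (f : ℝ × ℝ → ℝ) :
    ∫ z, f z ∂(mu d) = ∫ z in Om, z.1 ^ d * f z := by
  unfold mu
  rw [integral_withDensity_eq_integral_toReal_smul (by fun_prop)
    (Filter.Eventually.of_forall fun z => ENNReal.ofReal_lt_top)]
  refine setIntegral_congr_fun measurableSet_Om fun z hz => ?_
  simp only [smul_eq_mul]
  rw [ENNReal.toReal_ofReal (pow_nonneg hz.1.1.le _)]

theorem integral_mu_mul (d : ℕ) (f k : ℝ → ℝ) :
    ∫ z, f z.1 * k z.2 ∂(mu d) =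
      (∫ x in Ioo (0 : ℝ) 1, x ^ d * f x) * ∫ φ in Ioo (0 : ℝ) Real.pi, k φ := by
  rw [integral_mu]
  have := setIntegral_prod_mul (μ := (volume : Measure ℝ)) (ν := (volume : Measure ℝ))
    (fun x : ℝ => x ^ d * f x) k (Ioo (0 : ℝ) 1) (Ioo (0 : ℝ) Real.pi)
  rw [← this, ← Measure.volume_eq_prod]
  refine setIntegral_congr_fun measurableSet_Om fun z _ => ?_
  show z.1 ^ d * (f z.1 * k z.2) = z.1 ^ d * f z.1 * k z.2
  ring

/-! ### trigonometric integrals -/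

theorem trig_eq (par m : ℕ) (φ : ℝ) :
    trig par m φ = Fou.trg (decide (par ≠ 0)) m φ := by
  unfold trig Fou.trg
  by_cases h : par = 0 <;> simp [h]

theorem trigD_eq (par m : ℕ) (φ : ℝ) :
    trigD par m φ = (if par = 0 then -1 else 1) * (m * Fou.trg (decide (par = 0)) m φ) := by
  unfold trigD Fou.trg
  by_cases h : par = 0 <;> simp [h]

theorem integral_trig_orthF (par : ℕ) {m n : ℕ} (h : m ≠ n) :
    ∫ φ in Ioo (0 : ℝ) Real.pi, trig par m φ * trig par n φ = 0 := by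
  simp_rw [trig_eq]
  exact Fou.integral_trg_orth h

theorem integral_trigD_orthF (par : ℕ) {m n : ℕ} (h : m ≠ n) :
    ∫ φ in Ioo (0 : ℝ) Real.pi, trigD par m φ * trigD par n φ = 0 := by
  simp_rw [trigD_eq]
  have e : ∀ φ : ℝ, (if par = 0 then (-1 : ℝ) else 1) * (m * Fou.trg (decide (par = 0)) m φ) *
      ((if par = 0 then (-1 : ℝ) else 1) * (n * Fou.trg (decide (par = 0)) n φ)) =
      (m * n) * (Fou.trg (decide (par = 0)) m φ * Fou.trg (decide (par = 0)) n φ) := by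
    intro φ
    split_ifs <;> ring
  simp_rw [e]
  rw [integral_const_mul, Fou.integral_trg_orth h, mul_zero]

theorem integral_trig_sqF {par m : ℕ} (hm : par ≤ m) :
    ∫ φ in Ioo (0 : ℝ) Real.pi, trig par m φ * trig par m φ = ntrg m := by
  have h := Fou.integral_trg_sq (par := decide (par ≠ 0)) (m := m) (by
    unfold Fou.m0
    by_cases h : par = 0
    · simp [h]
    · simp [h]; omega)
  rw [← h]
  refine setIntegral_congr_fun measurableSet_Ioo fun φ _ => ?_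
  simp only [trig_eq]; ring

theorem integral_trigD_sqF {par m : ℕ} (_hm : par ≤ m) :
    ∫ φ in Ioo (0 : ℝ) Real.pi, trigD par m φ * trigD par m φ = (m : ℝ) ^ 2 * ntrg m := by
  simp_rw [trigD_eq]
  have e : ∀ φ : ℝ, (if par = 0 then (-1 : ℝ) else 1) * (m * Fou.trg (decide (par = 0)) m φ) *
      ((if par = 0 then (-1 : ℝ) else 1) * (m * Fou.trg (decide (par = 0)) m φ)) =
      (m : ℝ) ^ 2 * (Fou.trg (decide (par = 0)) m φ ^ 2) := by
    intro φ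
    split_ifs <;> ring
  simp_rw [e]
  rw [integral_const_mul]
  rcases Nat.eq_zero_or_pos m with h | h
  · subst h; simp
  · rw [Fou.integral_trg_sq (by unfold Fou.m0; split_ifs <;> omega)]

/-! ### one-variable reduction -/

theorem isRad_cls {q m : ℕ} {R : ℝ → ℝ} (h : IsRad q m R) (b : ℝ) :
    ∃ C, Cls q (m * b) C R (deriv R) := by
  obtain ⟨C, hC⟩ := h.bd
  refine ⟨C, ⟨fun x hx => (h.diff x (sq_lt_one_of_mem hx)).hasDerivAt,
    h.cont.mono (Ioo_subset_Ioo (by norm_num) le_rfl),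
    fun x hx => (hC x (sq_lt_one_of_mem hx)).1,
    fun x hx => by
      rw [mul_comm]; exact (hC x (sq_lt_one_of_mem hx)).2.2.1, fun hq x hx => ?_,
    fun hp x hx => ?_⟩⟩
  · have := (hC x (sq_lt_one_of_mem hx)).2.2.2 hq
    rwa [abs_of_pos hx.1] at this
  · refine (hC x (sq_lt_one_of_mem hx)).2.1 ?_
    rcases Nat.eq_zero_or_pos m with h0 | h0
    · subst h0; simp at hp
    · exact h0

theorem comp_singleF (d q par m : ℕ) (R : ℝ → ℝ) (i : Fin 4) (z : ℝ × ℝ) :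
    comp d q par (Finsupp.single m R) i z = rcomp d q R i z.1 * acomp par m i z.2 := by
  rw [comp_eq, Finsupp.sum_single_index]
  rw [rcomp_zero]; ring

/-- the `m`-th Fourier component as an element of `VS` -/
def sg {q par : ℕ} (v : VS q par) (m : ℕ) : VS q par :=
  ⟨Finsupp.single m ((v : ℕ →₀ (ℝ → ℝ)) m), by
    classical
    intro k
    by_cases hk : m = k
    · subst hk
      rw [Finsupp.single_eq_same]
      exact v.2 m
    · rw [Finsupp.single_eq_of_ne' hk]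
      exact ⟨Submodule.zero_mem _, fun _ => rfl⟩⟩

theorem coe_sg {q par : ℕ} (v : VS q par) (m : ℕ) :
    (sg v m : ℕ →₀ (ℝ → ℝ)) = Finsupp.single m ((v : ℕ →₀ (ℝ → ℝ)) m) := rfl

theorem eq_sum_sg {q par : ℕ} (v : VS q par) :
    v = ∑ m ∈ (v : ℕ →₀ (ℝ → ℝ)).support, sg v m := by
  apply Subtype.ext
  rw [AddSubmonoidClass.coe_finsetSum]
  simp only [coe_sg]
  exact (Finsupp.sum_single (v : ℕ →₀ (ℝ → ℝ))).symm

theorem acomp_zero (par m : ℕ) (φ : ℝ) : acomp par m 0 φ = trig par m φ := rfl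

theorem acomp_one (par m : ℕ) (φ : ℝ) : acomp par m 1 φ = trig par m φ := rfl

theorem acomp_two (par m : ℕ) (φ : ℝ) : acomp par m 2 φ = trigD par m φ := rfl

theorem acomp_three (par m : ℕ) (φ : ℝ) : acomp par m 3 φ = trig par m φ := rfl

theorem g_sg_orth (d : ℕ) {q par : ℕ} (u v : VS q par) {m n : ℕ} (h : m ≠ n) :
    g d q par (sg u m) (sg v n) = 0 := by
  rw [g_apply]
  simp only [coe_sg, comp_singleF]
  have e : ∀ z : ℝ × ℝ, rcomp d q ((u : ℕ →₀ (ℝ → ℝ)) m) 0 z.1 * acomp par m 0 z.2 *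
      (rcomp d q ((v : ℕ →₀ (ℝ → ℝ)) n) 0 z.1 * acomp par n 0 z.2) =
      (rcomp d q ((u : ℕ →₀ (ℝ → ℝ)) m) 0 z.1 * rcomp d q ((v : ℕ →₀ (ℝ → ℝ)) n) 0 z.1) *
      (trig par m z.2 * trig par n z.2) := by
    intro z
    simp only [acomp_zero]; ring
  simp_rw [e]
  rw [integral_mu_mul d (fun x => rcomp d q ((u : ℕ →₀ (ℝ → ℝ)) m) 0 x *
    rcomp d q ((v : ℕ →₀ (ℝ → ℝ)) n) 0 x) (fun φ => trig par m φ * trig par n φ),
    integral_trig_orthF par h, mul_zero]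

theorem g_sg_same (d : ℕ) {q par : ℕ} (u v : VS q par) (m : ℕ) :
    g d q par (sg u m) (sg v m) = ntrg m * ∫ x in Ioo (0 : ℝ) 1,
      x ^ d * ((u : ℕ →₀ (ℝ → ℝ)) m x * (v : ℕ →₀ (ℝ → ℝ)) m x) := by
  by_cases hm : par ≤ m
  · rw [g_apply]
    simp only [coe_sg, comp_singleF]
    have e : ∀ z : ℝ × ℝ, rcomp d q ((u : ℕ →₀ (ℝ → ℝ)) m) 0 z.1 * acomp par m 0 z.2 *
        (rcomp d q ((v : ℕ →₀ (ℝ → ℝ)) m) 0 z.1 * acomp par m 0 z.2) =
        ((u : ℕ →₀ (ℝ → ℝ)) m z.1 * (v : ℕ →₀ (ℝ → ℝ)) m z.1) *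
        (trig par m z.2 * trig par m z.2) := by
      intro z
      simp only [acomp_zero, rcomp]; ring
    simp_rw [e]
    rw [integral_mu_mul d (fun x => (u : ℕ →₀ (ℝ → ℝ)) m x * (v : ℕ →₀ (ℝ → ℝ)) m x)
      (fun φ => trig par m φ * trig par m φ), integral_trig_sqF hm]
    ring
  · have hz : (u : ℕ →₀ (ℝ → ℝ)) m = 0 := (u.2 m).2 (by omega)
    have hs : sg u m = 0 := by
      apply Subtype.ext
      rw [coe_sg, hz]; simp
    rw [hs, hz]
    simp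

/-! the three parts of the radial energy -/

section parts

variable {d q : ℕ} {μ C D : ℝ} {S S' T T' : ℝ → ℝ}

theorem int1 (h : Cls q μ C S S') (k : Cls q μ D T T') :
    IntegrableOn (fun x => x ^ d * ((1 - x ^ 2) * (S' x * T' x))) (Ioo (0 : ℝ) 1) := by
  have hc : ContinuousOn (fun x => x ^ d * ((1 - x ^ 2) * (S' x * T' x))) (Ioo (0 : ℝ) 1) := by
    have c3 : ContinuousOn (fun x : ℝ => 1 - x ^ 2) (Ioo (0 : ℝ) 1) := by fun_prop
    have c4 : ContinuousOn (fun x : ℝ => x ^ d) (Ioo (0 : ℝ) 1) := by fun_prop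
    exact c4.mul (c3.mul (h.cont.mul k.cont))
  refine Fou.integrableOn_of_bound (M := C * D) hc fun x hx => ?_
  have hC := h.nonneg
  have hD := k.nonneg
  have hp := osp hx
  have hxd0 : 0 ≤ x ^ d := pow_nonneg hx.1.le _
  have hxd1 : x ^ d ≤ 1 := pow_le_one₀ hx.1.le hx.2.le
  have hs2 : Real.sqrt (1 - x ^ 2) * Real.sqrt (1 - x ^ 2) = 1 - x ^ 2 :=
    Real.mul_self_sqrt hp.le
  rw [abs_mul, abs_of_nonneg hxd0, abs_mul, abs_of_nonneg hp.le, abs_mul]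
  have e : (1 - x ^ 2) * (|S' x| * |T' x|) =
      (|S' x| * Real.sqrt (1 - x ^ 2)) * (|T' x| * Real.sqrt (1 - x ^ 2)) := by
    calc (1 - x ^ 2) * (|S' x| * |T' x|) =
        (Real.sqrt (1 - x ^ 2) * Real.sqrt (1 - x ^ 2)) * (|S' x| * |T' x|) := by rw [hs2]
      _ = _ := by ring
  rw [e]
  have h1 := h.b1 x hx
  have h2 := k.b1 x hx
  calc x ^ d * (|S' x| * Real.sqrt (1 - x ^ 2) * (|T' x| * Real.sqrt (1 - x ^ 2)))
      ≤ 1 * (C * D) := by gcongr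
    _ = C * D := one_mul _

theorem int2 (h : Cls q μ C S S') (k : Cls q μ D T T') :
    IntegrableOn (fun x => x ^ d * (μ ^ 2 / (1 - x ^ 2) * (S x * T x))) (Ioo (0 : ℝ) 1) := by
  have hc : ContinuousOn (fun x => x ^ d * (μ ^ 2 / (1 - x ^ 2) * (S x * T x)))
      (Ioo (0 : ℝ) 1) := by
    have c1 : ContinuousOn (fun x : ℝ => μ ^ 2 / (1 - x ^ 2)) (Ioo (0 : ℝ) 1) :=
      ContinuousOn.div (by fun_prop) (by fun_prop) (fun x hx => (osp hx).ne')
    have c4 : ContinuousOn (fun x : ℝ => x ^ d) (Ioo (0 : ℝ) 1) := by fun_prop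
    exact c4.mul (c1.mul (h.contS.mul k.contS))
  refine Fou.integrableOn_of_bound (M := μ ^ 2 * (C * D)) hc fun x hx => ?_
  have hC := h.nonneg
  have hD := k.nonneg
  have hp := osp hx
  have hxd0 : 0 ≤ x ^ d := pow_nonneg hx.1.le _
  have hxd1 : x ^ d ≤ 1 := pow_le_one₀ hx.1.le hx.2.le
  have hs2 : Real.sqrt (1 - x ^ 2) * Real.sqrt (1 - x ^ 2) = 1 - x ^ 2 :=
    Real.mul_self_sqrt hp.le
  by_cases hμ : μ = 0
  · rw [hμ]; simp
  · rw [abs_mul, abs_of_nonneg hxd0, abs_mul, abs_of_nonneg (by positivity), abs_mul]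
    have h1 := h.bp hμ x hx
    have h2 := k.bp hμ x hx
    calc x ^ d * (μ ^ 2 / (1 - x ^ 2) * (|S x| * |T x|))
        ≤ 1 * (μ ^ 2 / (1 - x ^ 2) * ((C * Real.sqrt (1 - x ^ 2)) *
          (D * Real.sqrt (1 - x ^ 2)))) := by gcongr
      _ = μ ^ 2 / (1 - x ^ 2) * (C * D) * (Real.sqrt (1 - x ^ 2) * Real.sqrt (1 - x ^ 2)) := by
        ring
      _ = μ ^ 2 * (C * D) := by rw [hs2]; field_simp

theorem int3 (h : Cls q μ C S S') (k : Cls q μ D T T') :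
    IntegrableOn (fun x => x ^ d * (E0 d q / x ^ 2 * (S x * T x))) (Ioo (0 : ℝ) 1) := by
  have hc : ContinuousOn (fun x => x ^ d * (E0 d q / x ^ 2 * (S x * T x)))
      (Ioo (0 : ℝ) 1) := by
    have c2 : ContinuousOn (fun x : ℝ => E0 d q / x ^ 2) (Ioo (0 : ℝ) 1) :=
      ContinuousOn.div (by fun_prop) (by fun_prop) (fun x hx => pow_ne_zero 2 hx.1.ne')
    have c4 : ContinuousOn (fun x : ℝ => x ^ d) (Ioo (0 : ℝ) 1) := by fun_prop
    exact c4.mul (c2.mul (h.contS.mul k.contS))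
  refine Fou.integrableOn_of_bound (M := E0 d q * (C * D)) hc fun x hx => ?_
  have hC := h.nonneg
  have hD := k.nonneg
  have hxd0 : 0 ≤ x ^ d := pow_nonneg hx.1.le _
  have hxd1 : x ^ d ≤ 1 := pow_le_one₀ hx.1.le hx.2.le
  have hE0 := E0_nonneg d q
  rcases Nat.eq_zero_or_pos q with hq | hq
  · subst hq
    have : E0 d 0 = 0 := by simp [E0]
    rw [this]; simp
  · rw [abs_mul, abs_of_nonneg hxd0, abs_mul, abs_of_nonneg (by positivity), abs_mul]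
    have h1 := h.bq hq x hx
    have h2 := k.bq hq x hx
    have hx0 := hx.1
    calc x ^ d * (E0 d q / x ^ 2 * (|S x| * |T x|))
        ≤ 1 * (E0 d q / x ^ 2 * ((C * x) * (D * x))) := by gcongr
      _ = E0 d q * (C * D) := by field_simp

theorem en_parts (h : Cls q μ C S S') (k : Cls q μ D T T') :
    en d q μ S S' T T' = (∫ x in Ioo (0 : ℝ) 1, x ^ d * ((1 - x ^ 2) * (S' x * T' x))) +
      (∫ x in Ioo (0 : ℝ) 1, x ^ d * (μ ^ 2 / (1 - x ^ 2) * (S x * T x))) +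
      ∫ x in Ioo (0 : ℝ) 1, x ^ d * (E0 d q / x ^ 2 * (S x * T x)) := by
  have i1 := int1 (d := d) h k
  have i2 := int2 (d := d) h k
  have i3 := int3 (d := d) h k
  calc en d q μ S S' T T' = ∫ x in Ioo (0 : ℝ) 1, ((x ^ d * ((1 - x ^ 2) * (S' x * T' x)) +
        x ^ d * (μ ^ 2 / (1 - x ^ 2) * (S x * T x))) +
        x ^ d * (E0 d q / x ^ 2 * (S x * T x))) := by
        refine setIntegral_congr_fun measurableSet_Ioo fun x _ => ?_
        simp only [den]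
        ring
    _ = (∫ x in Ioo (0 : ℝ) 1, (x ^ d * ((1 - x ^ 2) * (S' x * T' x)) +
        x ^ d * (μ ^ 2 / (1 - x ^ 2) * (S x * T x)))) +
        ∫ x in Ioo (0 : ℝ) 1, x ^ d * (E0 d q / x ^ 2 * (S x * T x)) :=
        integral_add (Integrable.add i1 i2) i3
    _ = _ := by rw [integral_add i1 i2]

end parts

theorem Q_sg_orth (d : ℕ) {q par : ℕ} (b : ℝ) (u v : VS q par) {m n : ℕ} (h : m ≠ n) :
    Q q par (adm_one d) b (sg u m) (sg v n) = 0 := by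
  show fW d q par (WQ b fun _ => 1) (sg u m : VS q par) (sg v n : VS q par) = 0
  rw [fW_eq_sum (coef_WQ (adm_one d) b), Fin.sum_univ_four]
  simp only [coe_sg, comp_singleF, WQ, acomp_one, acomp_two, acomp_three, zero_mul,
    integral_zero, zero_add, one_mul, div_one]
  have key : ∀ (c : ℝ) (A B : ℝ → ℝ) (k l : ℝ → ℝ),
      (∫ φ in Ioo (0 : ℝ) Real.pi, k φ * l φ = 0) →
      ∫ z : ℝ × ℝ, c * (A z.1 * k z.2) * (B z.1 * l z.2) ∂(mu d) = 0 := by
    intro c A B k l hkl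
    have := integral_mu_mul d (fun x => c * (A x * B x)) (fun φ => k φ * l φ)
    rw [hkl, mul_zero] at this
    rw [← this]
    congr 1; funext z; ring
  have k1 := key 1 (rcomp d q ((u : ℕ →₀ (ℝ → ℝ)) m) 1) (rcomp d q ((v : ℕ →₀ (ℝ → ℝ)) n) 1)
    (trig par m) (trig par n) (integral_trig_orthF par h)
  have k2 := key (b ^ 2) (rcomp d q ((u : ℕ →₀ (ℝ → ℝ)) m) 2)
    (rcomp d q ((v : ℕ →₀ (ℝ → ℝ)) n) 2)
    (trigD par m) (trigD par n) (integral_trigD_orthF par h)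
  have k3 := key 1 (rcomp d q ((u : ℕ →₀ (ℝ → ℝ)) m) 3) (rcomp d q ((v : ℕ →₀ (ℝ → ℝ)) n) 3)
    (trig par m) (trig par n) (integral_trig_orthF par h)
  simp only [one_mul] at k1 k3
  rw [k1, k2, k3]; ring

theorem Q_sg_same (d : ℕ) {q par : ℕ} (b : ℝ) (u v : VS q par) (m : ℕ) :
    Q q par (adm_one d) b (sg u m) (sg v m) =
      ntrg m * en d q (m * b) ((u : ℕ →₀ (ℝ → ℝ)) m) (deriv ((u : ℕ →₀ (ℝ → ℝ)) m))
        ((v : ℕ →₀ (ℝ → ℝ)) m) (deriv ((v : ℕ →₀ (ℝ → ℝ)) m)) := by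
  by_cases hm : par ≤ m
  swap
  · have hz : (u : ℕ →₀ (ℝ → ℝ)) m = 0 := (u.2 m).2 (by omega)
    have hs : sg u m = 0 := by
      apply Subtype.ext
      rw [coe_sg, hz]; simp
    have hd0 : deriv (0 : ℝ → ℝ) = 0 := by funext x; exact deriv_const x 0
    rw [hs, hz, hd0]
    simp [en, den]
  obtain ⟨C, hC⟩ := isRad_cls (isRad_coe u m) b
  obtain ⟨D, hD⟩ := isRad_cls (isRad_coe v m) b
  rw [en_parts hC hD]
  show fW d q par (WQ b fun _ => 1) (sg u m : VS q par) (sg v m : VS q par) = _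
  rw [fW_eq_sum (coef_WQ (adm_one d) b), Fin.sum_univ_four]
  simp only [coe_sg, comp_singleF, WQ, acomp_one, acomp_two, acomp_three, zero_mul,
    integral_zero, zero_add, one_mul, div_one]
  have key : ∀ (c : ℝ) (A B : ℝ → ℝ) (k : ℝ → ℝ),
      ∫ z : ℝ × ℝ, c * (A z.1 * k z.2) * (B z.1 * k z.2) ∂(mu d) =
      (∫ x in Ioo (0 : ℝ) 1, x ^ d * (c * (A x * B x))) *
        ∫ φ in Ioo (0 : ℝ) Real.pi, k φ * k φ := by
    intro c A B k
    rw [← integral_mu_mul d (fun x => c * (A x * B x)) (fun φ => k φ * k φ)]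
    congr 1; funext z; ring
  have k1 := key 1 (rcomp d q ((u : ℕ →₀ (ℝ → ℝ)) m) 1) (rcomp d q ((v : ℕ →₀ (ℝ → ℝ)) m) 1)
    (trig par m)
  have k2 := key (b ^ 2) (rcomp d q ((u : ℕ →₀ (ℝ → ℝ)) m) 2)
    (rcomp d q ((v : ℕ →₀ (ℝ → ℝ)) m) 2) (trigD par m)
  have k3 := key 1 (rcomp d q ((u : ℕ →₀ (ℝ → ℝ)) m) 3) (rcomp d q ((v : ℕ →₀ (ℝ → ℝ)) m) 3)
    (trig par m)
  simp only [one_mul] at k1 k3
  rw [k1, k2, k3, integral_trig_sqF hm, integral_trigD_sqF hm]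
  have e1 : (∫ x in Ioo (0 : ℝ) 1, x ^ d * (rcomp d q ((u : ℕ →₀ (ℝ → ℝ)) m) 1 x *
      rcomp d q ((v : ℕ →₀ (ℝ → ℝ)) m) 1 x)) = ∫ x in Ioo (0 : ℝ) 1, x ^ d * ((1 - x ^ 2) *
      (deriv ((u : ℕ →₀ (ℝ → ℝ)) m) x * deriv ((v : ℕ →₀ (ℝ → ℝ)) m) x)) := by
    refine setIntegral_congr_fun measurableSet_Ioo fun x hx => ?_
    simp only [rcomp]
    rw [← rh_sq (sq_lt_one_of_mem hx)]; ring
  have e2 : (∫ x in Ioo (0 : ℝ) 1, x ^ d * (b ^ 2 * (rcomp d q ((u : ℕ →₀ (ℝ → ℝ)) m) 2 x *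
      rcomp d q ((v : ℕ →₀ (ℝ → ℝ)) m) 2 x))) * ((m : ℝ) ^ 2 * ntrg m) =
      (∫ x in Ioo (0 : ℝ) 1, x ^ d * (((m : ℝ) * b) ^ 2 / (1 - x ^ 2) *
      (((u : ℕ →₀ (ℝ → ℝ)) m) x * ((v : ℕ →₀ (ℝ → ℝ)) m) x))) * ntrg m := by
    rw [← mul_assoc, ← integral_mul_const]
    congr 1
    refine setIntegral_congr_fun measurableSet_Ioo fun x hx => ?_
    simp only [rcomp]
    rw [← rh_sq (sq_lt_one_of_mem hx)]
    have := (rh_pos (sq_lt_one_of_mem hx)).ne'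
    field_simp
  have e3 : (∫ x in Ioo (0 : ℝ) 1, x ^ d * (rcomp d q ((u : ℕ →₀ (ℝ → ℝ)) m) 3 x *
      rcomp d q ((v : ℕ →₀ (ℝ → ℝ)) m) 3 x)) = ∫ x in Ioo (0 : ℝ) 1, x ^ d * (E0 d q / x ^ 2 *
      (((u : ℕ →₀ (ℝ → ℝ)) m) x * ((v : ℕ →₀ (ℝ → ℝ)) m) x)) := by
    refine setIntegral_congr_fun measurableSet_Ioo fun x hx => ?_
    simp only [rcomp]
    have hx0 := hx.1.ne'
    have hs := Real.mul_self_sqrt (E0_nonneg d q)
    have : x ^ d * (E0 d q / x ^ 2 * (((u : ℕ →₀ (ℝ → ℝ)) m) x * ((v : ℕ →₀ (ℝ → ℝ)) m) x)) =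
      x ^ d * ((Real.sqrt (E0 d q) * Real.sqrt (E0 d q)) / x ^ 2 *
        (((u : ℕ →₀ (ℝ → ℝ)) m) x * ((v : ℕ →₀ (ℝ → ℝ)) m) x)) := by rw [hs]
    rw [this]
    field_simp
  rw [e1, e2, e3]
  ring

end Crest.Agent.R202.Mod
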