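import Crest.Agent.R202.CutSep
import Crest.Agent.R202.Chain

/-!
# Row 202, PART C: the abstract spindle family (interface between the concrete sector model and
the abstract gate assembly)

Sectors are pairs `σ = (q, s)`, `s = 0` cos, `s = 1` sin.  `b = 1/θ`.  `G : ℕ →₀ T` stands for the
perturbation `G(x,φ) = ∑ f, η_f(x) cos (f φ)` of the profile `P = 1 + (b-1) h_k(x) + G(x,φ)`;
`k` = index of the tip profile (`k → ∞`: the tip shrinks).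

* `g σ`            L² product on the core space `V σ`
* `a σ b G k`      Dirichlet form of the cross-section `(b, P)`
* `a0 σ b`         ideal spindle (`P = 1`)
* `ψ σ b p`        normalised spindle eigenfunction with label `p = (m,j)`
* `sz G`           (a multiple of) the sup norm of `G`; forms are only used for `sz G ≤ 1/2`
* `A q b p p' η`, `B q b p p' η`  first variation in the direction `η cos (f φ)` on the pair of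
  labels `p, p'`, difference type (`f = |m-m'|`) resp. sum type (`f = m+m'`):
  `A = (norm) (π/4) ∫ η x^d [R_p' R_p'' - b² m m' R_p R_p' ρ⁻⁴]`,
  `B = (norm) (π/4) ∫ η x^d [R_p' R_p'' + b² m m' R_p R_p' ρ⁻⁴]`.
-/

set_option autoImplicit false

noncomputable section

open Filter Topology Set
open Crest.Agent.R202.Lab Crest.Agent.R202.Cut

namespace Crest.Agent.R202.SF

/-- labels of parity `s` -/
abbrev Lbl (s : ℕ) := {p : ℕ × ℕ // s ≤ p.1}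

/-- eigenvalue of the label `p` for the degree `q` -/
def lev (d q : ℕ) (b : ℝ) (p : ℕ × ℕ) : ℝ := (mu b p + q) * (mu b p + q + d + 1)

/-- slope of the eigenvalue: `m (2 α + d + 1)` -/
def slope (d q : ℕ) (b : ℝ) (p : ℕ × ℕ) : ℝ := p.1 * (2 * (mu b p + q) + d + 1)

/-- sign of the parity: `+1` cos, `-1` sin -/
def sg (s : ℕ) : ℝ := if s = 0 then 1 else -1

/-- first variation in the direction `G` on the pair of labels `p, p'` -/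
def firstVar {T : Type*} [AddCommGroup T] [Module ℝ T]
    (A B : ℕ → ℝ → ℕ × ℕ → ℕ × ℕ → T →ₗ[ℝ] ℝ) (σ : ℕ × ℕ) (b : ℝ) (p p' : ℕ × ℕ)
    (G : ℕ →₀ T) : ℝ :=
  G.sum fun f η => (if p.1 + f = p'.1 ∨ p'.1 + f = p.1 then A σ.1 b p p' η else 0) +
    sg σ.2 * (if p.1 + p'.1 = f then B σ.1 b p p' η else 0)

/-- **the abstract spindle family** on `b ∈ [b0, b1]` -/
structure SpindleFamily (d : ℕ) (b0 b1 : ℝ) (OK : ℕ × ℕ → Prop)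
    (T : Type*) [AddCommGroup T] [Module ℝ T]
    (V : ℕ × ℕ → Type*) [∀ σ, AddCommGroup (V σ)] [∀ σ, Module ℝ (V σ)] where
  g : ∀ σ, Bil (V σ)
  a : ∀ σ, ℝ → (ℕ →₀ T) → ℕ → Bil (V σ)
  a0 : ∀ σ, ℝ → Bil (V σ)
  ψ : ∀ σ, ℝ → Lbl σ.2 → V σ
  sz : (ℕ →₀ T) → ℝ
  A : ℕ → ℝ → ℕ × ℕ → ℕ × ℕ → T →ₗ[ℝ] ℝ
  B : ℕ → ℝ → ℕ × ℕ → ℕ × ℕ → T →ₗ[ℝ] ℝ
  /-- `sz` is a seminorm -/
  sz_nonneg : ∀ G, 0 ≤ sz G
  sz_smul : ∀ (r : ℝ) G, sz (r • G) = |r| * sz G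
  sz_add : ∀ G G', sz (G + G') ≤ sz G + sz G'
  /-- symmetry of the perturbed forms -/
  symm : ∀ σ, OK σ → ∀ b ∈ Icc b0 b1, ∀ G, sz G ≤ 1 / 2 → ∀ k u v, a σ b G k u v = a σ b G k v u
  /-- (P0) spectral data of the ideal spindle -/
  eig : ∀ σ, OK σ → ∀ b ∈ Icc b0 b1,
    Eig (g σ) (a0 σ b) (ψ σ b) (fun p : Lbl σ.2 => lev d σ.1 b p)
  /-- (P1) two-sided comparison (only this half is needed) -/
  comp : ∀ σ, OK σ → ∃ c : ℝ, 0 < c ∧ c ≤ 1 ∧ ∀ b ∈ Icc b0 b1, ∀ b' ∈ Icc b0 b1, ∀ G,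
    sz G ≤ 1 / 2 → ∀ k v, c * a0 σ b' v v ≤ a σ b G k v v
  /-- (P3) consistency on a fixed eigenfunction -/
  cons : ∀ σ, OK σ → ∀ b' ∈ Icc b0 b1, ∀ p : Lbl σ.2, ∃ C : ℝ, 0 ≤ C ∧ ∃ o : ℕ → ℝ,
    (∀ k, 0 ≤ o k) ∧ Tendsto o atTop (𝓝 0) ∧
    ∀ b ∈ Icc b0 b1, ∀ G : ℕ →₀ T, G 0 = 0 → sz G ≤ 1 / 2 → ∀ k v,
      (a σ b G k (ψ σ b' p) v - a0 σ b' (ψ σ b' p) v) ^ 2 ≤
        (C * (|b - b'| + sz G) + o k) ^ 2 * (a0 σ b' v v + g σ v v)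
  /-- (P4) first variation on a pair of labels of equal level -/
  first : ∀ σ, OK σ → ∀ b' ∈ Ioo b0 b1, ∀ p p' : Lbl σ.2, mu b' p = mu b' p' →
    ∃ C : ℝ, 0 ≤ C ∧ ∃ o : ℕ → ℝ, (∀ k, 0 ≤ o k) ∧ Tendsto o atTop (𝓝 0) ∧
    ∀ b ∈ Icc b0 b1, ∀ G : ℕ →₀ T, G 0 = 0 → sz G ≤ 1 / 2 → ∀ k,
      |a σ b G k (ψ σ b' p) (ψ σ b' p') -
        ((if p = p' then lev d σ.1 b' p + (b - b') * slope d σ.1 b' p else 0) +
          firstVar A B σ b' p p' G)| ≤ C * (|b - b'| + sz G) ^ 2 + o k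
  /-- symmetry of the coupling functionals -/
  A_symm : ∀ q b p p' η, A q b p p' η = A q b p' p η
  B_symm : ∀ q b p p' η, B q b p p' η = B q b p' p η
  /-- with an axisymmetric label both types coincide -/
  B_eq_A : ∀ q b (p p' : ℕ × ℕ), p.1 = 0 → ∀ η, B q b p p' η = A q b p p' η
  /-- (P5a) finitely many link functionals are simultaneously non-zero -/
  link : ∀ (a c : ℕ), 0 < a → 0 < c → Nat.Coprime a c → 2 * (c : ℝ) / a ∈ Ioo b0 b1 →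
    ∀ F : Finset (ℕ × (ℕ × ℕ)), (∀ z ∈ F, (∃ s, OK (z.1, s)) ∧ c ≤ z.2.2) →
    ∃ η : T, ∀ z ∈ F, A z.1 (2 * (c : ℝ) / a) z.2 (z.2.1 + a, z.2.2 - c) η ≠ 0
  /-- (P5b) the top link `p → p' = p + (a,-c)`, `p'.2 < c`, of the sector degree `q` is designated -/
  gate : ∀ (a c : ℕ), 0 < a → 0 < c → Nat.Coprime a c → 2 * (c : ℝ) / a ∈ Ioo b0 b1 →
    ∀ (q : ℕ) (p : ℕ × ℕ), (∃ s, OK (q, s) ∧ s ≤ p.1) → c ≤ p.2 → p.2 - c < c →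
    ∀ F : Finset (ℕ × (ℕ × ℕ)), (∀ z ∈ F, (∃ s, OK (z.1, s)) ∧ c ≤ z.2.2) →
    ∃ ηA ηB ξ : T,
      (A q (2 * (c : ℝ) / a) p (p.1 + a, p.2 - c) ηA = 0) ∧
      (∀ z ∈ F, z ≠ (q, p) → A z.1 (2 * (c : ℝ) / a) z.2 (z.2.1 + a, z.2.2 - c) ηA ≠ 0) ∧
      (A q (2 * (c : ℝ) / a) p (p.1 + a, p.2 - c) ηB = 1) ∧
      (∀ p₁ : ℕ × ℕ, c ≤ p₁.2 → mu (2 * (c : ℝ) / a) p₁ = mu (2 * (c : ℝ) / a) p → p₁ ≠ p →
        A q (2 * (c : ℝ) / a) p₁ (p₁.1 + a, p₁.2 - c) ηB = 0) ∧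
      (∀ p₁ : ℕ × ℕ, mu (2 * (c : ℝ) / a) p₁ = mu (2 * (c : ℝ) / a) p → 2 * p₁.1 = a →
        B q (2 * (c : ℝ) / a) p₁ p₁ ηB = 0) ∧
      (B q (2 * (c : ℝ) / a) p (p.1 + a, p.2 - c) ξ = 1)

end Crest.Agent.R202.SF
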