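import Mathlib
import Crest.Agent.R202.Model3
import Crest.Agent.R202.Fou4
import Crest.Agent.R202.SpFam

/-! Row 202, PART C, (P0) (helper206): spectral data of the ideal spindle on `VS q par`:
weak equation, orthogonality, lower bound on the complement, `Cut.Eig`. -/

set_option autoImplicit false

open MeasureTheory Set Filter Topology
open Crest.Agent.R202

noncomputable section

namespace Crest.Agent.R202.Mod

open Crest.Agent.R202.Fou (en den nh ntrg Cls osp)

variable {q par : ℕ}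

/-- a form for which different Fourier components are orthogonal -/
theorem sum_sg (F : LinearMap.BilinForm ℝ (VS q par))
    (h : ∀ (u v : VS q par) (m n : ℕ), m ≠ n → F (sg u m) (sg v n) = 0) (u v : VS q par) :
    F u v = ∑ m ∈ (v : ℕ →₀ (ℝ → ℝ)).support, F (sg u m) (sg v m) := by
  classical
  conv_lhs => rw [eq_sum_sg v]
  rw [map_sum]
  refine Finset.sum_congr rfl fun n _ => ?_
  conv_lhs => rw [eq_sum_sg u]
  rw [LinearMap.map_sum₂]
  by_cases hn : n ∈ (u : ℕ →₀ (ℝ → ℝ)).support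
  · rw [Finset.sum_eq_single n]
    · intro m _ hmn
      exact h u v m n hmn
    · intro hc; exact absurd hn hc
  · have hz : (u : ℕ →₀ (ℝ → ℝ)) n = 0 := by simpa using hn
    have hs : sg u n = 0 := by
      apply Subtype.ext
      rw [coe_sg, hz]; simp
    rw [hs]
    simp only [map_zero, LinearMap.zero_apply]
    exact Finset.sum_eq_zero fun m hm => h u v m n (fun hmn => hn (hmn ▸ hm))

theorem g_eq_sum (d : ℕ) (u v : VS q par) :
    g d q par u v = ∑ m ∈ (v : ℕ →₀ (ℝ → ℝ)).support, ntrg m * ∫ x in Ioo (0 : ℝ) 1,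
      x ^ d * ((u : ℕ →₀ (ℝ → ℝ)) m x * (v : ℕ →₀ (ℝ → ℝ)) m x) := by
  rw [sum_sg (g d q par) (fun u v m n h => g_sg_orth d u v h) u v]
  exact Finset.sum_congr rfl fun m _ => g_sg_same d u v m

theorem Q_eq_sum (d : ℕ) (b : ℝ) (u v : VS q par) :
    Q q par (adm_one d) b u v = ∑ m ∈ (v : ℕ →₀ (ℝ → ℝ)).support,
      ntrg m * en d q (m * b) ((u : ℕ →₀ (ℝ → ℝ)) m) (deriv ((u : ℕ →₀ (ℝ → ℝ)) m))
        ((v : ℕ →₀ (ℝ → ℝ)) m) (deriv ((v : ℕ →₀ (ℝ → ℝ)) m)) := by
  rw [sum_sg (Q q par (adm_one d) b) (fun u v m n h => Q_sg_orth d b u v h) u v]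
  exact Finset.sum_congr rfl fun m _ => Q_sg_same d b u v m

/-! ### the spindle functions -/

theorem mu_ok {b : ℝ} (hb : 1 ≤ b) (m : ℕ) : (m : ℝ) * b = 0 ∨ 1 ≤ (m : ℝ) * b := by
  rcases Nat.eq_zero_or_pos m with h | h
  · left; subst h; simp
  · right
    have : (1 : ℝ) ≤ m := by exact_mod_cast h
    nlinarith

theorem mu_nn {b : ℝ} (hb : 1 ≤ b) (m : ℕ) : 0 ≤ (m : ℝ) * b := by positivity

theorem g_psi (d : ℕ) {b : ℝ} (hb : 1 ≤ b) {m : ℕ} (hm : par ≤ m) (j : ℕ) (v : VS q par) :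
    g d q par (psi d q par b m j) v = ntrg m * ∫ x in Ioo (0 : ℝ) 1,
      x ^ d * (Rj d q (m * b) j x * (v : ℕ →₀ (ℝ → ℝ)) m x) := by
  classical
  rw [g_eq_sum, coe_psi d q hb hm]
  have hz : ∀ n, n ≠ m → (∫ x in Ioo (0 : ℝ) 1, x ^ d *
      ((Finsupp.single m (trunc (Rj d q (m * b) j))) n x * (v : ℕ →₀ (ℝ → ℝ)) n x)) = 0 := by
    intro n hn
    rw [Finsupp.single_eq_of_ne hn]
    simp
  have hs : (∫ x in Ioo (0 : ℝ) 1, x ^ d *
      ((Finsupp.single m (trunc (Rj d q (m * b) j))) m x * (v : ℕ →₀ (ℝ → ℝ)) m x)) =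
      ∫ x in Ioo (0 : ℝ) 1, x ^ d * (Rj d q (m * b) j x * (v : ℕ →₀ (ℝ → ℝ)) m x) := by
    rw [Finsupp.single_eq_same]
    refine setIntegral_congr_fun measurableSet_Ioo fun x hx => ?_
    rw [trunc_of_lt (sq_lt_one_of_mem hx)]
  by_cases hv : m ∈ (v : ℕ →₀ (ℝ → ℝ)).support
  · rw [Finset.sum_eq_single m (fun n _ hn => by rw [hz n hn, mul_zero])
      (fun hc => absurd hv hc), hs]
  · rw [Finset.sum_eq_zero (fun n hn => by
      rw [hz n (fun h => hv (h ▸ hn)), mul_zero])]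
    have : (v : ℕ →₀ (ℝ → ℝ)) m = 0 := by simpa using hv
    rw [this]
    simp

theorem Q_psi (d : ℕ) {b : ℝ} (hb : 1 ≤ b) {m : ℕ} (hm : par ≤ m) (j : ℕ) (v : VS q par) :
    Q q par (adm_one d) b (psi d q par b m j) v = ntrg m * en d q (m * b) (Rj d q (m * b) j)
      (dRj d q (m * b) j) ((v : ℕ →₀ (ℝ → ℝ)) m) (deriv ((v : ℕ →₀ (ℝ → ℝ)) m)) := by
  classical
  rw [Q_eq_sum, coe_psi d q hb hm]
  have hd0 : deriv (0 : ℝ → ℝ) = 0 := by funext x; exact deriv_const x 0
  have hz : ∀ n, n ≠ m → en d q (n * b) ((Finsupp.single m (trunc (Rj d q (m * b) j))) n)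
      (deriv ((Finsupp.single m (trunc (Rj d q (m * b) j))) n)) ((v : ℕ →₀ (ℝ → ℝ)) n)
      (deriv ((v : ℕ →₀ (ℝ → ℝ)) n)) = 0 := by
    intro n hn
    rw [Finsupp.single_eq_of_ne hn, hd0]
    simp [en, den]
  have hs : en d q (m * b) ((Finsupp.single m (trunc (Rj d q (m * b) j))) m)
      (deriv ((Finsupp.single m (trunc (Rj d q (m * b) j))) m)) ((v : ℕ →₀ (ℝ → ℝ)) m)
      (deriv ((v : ℕ →₀ (ℝ → ℝ)) m)) = en d q (m * b) (Rj d q (m * b) j)
      (dRj d q (m * b) j) ((v : ℕ →₀ (ℝ → ℝ)) m) (deriv ((v : ℕ →₀ (ℝ → ℝ)) m)) := by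
    rw [Finsupp.single_eq_same]
    refine setIntegral_congr_fun measurableSet_Ioo fun x hx => ?_
    have hx2 := sq_lt_one_of_mem hx
    have hder : deriv (trunc (Rj d q (m * b) j)) x = dRj d q (m * b) j x :=
      ((Rj_hasDerivAt d q (m * b) j (osp hx)).congr_of_eventuallyEq
        (trunc_eventuallyEq hx2)).deriv
    simp only [den]
    rw [trunc_of_lt hx2, hder]
  by_cases hv : m ∈ (v : ℕ →₀ (ℝ → ℝ)).support
  · rw [Finset.sum_eq_single m (fun n _ hn => by rw [hz n hn, mul_zero])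
      (fun hc => absurd hv hc), hs]
  · rw [Finset.sum_eq_zero (fun n hn => by
      rw [hz n (fun h => hv (h ▸ hn)), mul_zero])]
    have : (v : ℕ →₀ (ℝ → ℝ)) m = 0 := by simpa using hv
    rw [this, hd0]
    simp [en, den]

/-- **(P0) weak equation** -/
theorem Q_psi_eq {d : ℕ} (hadm : d = 0 → q ≤ 1) {b : ℝ} (hb : 1 ≤ b) {m : ℕ} (hm : par ≤ m)
    (j : ℕ) (v : VS q par) :
    Q q par (adm_one d) b (psi d q par b m j) v =
      Ej d q (m * b) j * g d q par (psi d q par b m j) v := by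
  obtain ⟨C, hC⟩ := isRad_cls (isRad_coe v m) b
  rw [Q_psi d hb hm, g_psi d hb hm, Fou.weakh hadm (mu_ok hb m) j hC]
  ring

theorem psi_apply_same (d : ℕ) {b : ℝ} (hb : 1 ≤ b) {m : ℕ} (hm : par ≤ m) (j : ℕ) :
    (psi d q par b m j : ℕ →₀ (ℝ → ℝ)) m = trunc (Rj d q (m * b) j) := by
  rw [coe_psi d q hb hm, Finsupp.single_eq_same]

theorem psi_apply_ne (d : ℕ) {b : ℝ} (hb : 1 ≤ b) {m n : ℕ} (hm : par ≤ m) (hn : n ≠ m)
    (j : ℕ) : (psi d q par b m j : ℕ →₀ (ℝ → ℝ)) n = 0 := by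
  classical
  rw [coe_psi d q hb hm, Finsupp.single_eq_of_ne hn]

/-- **(P0) orthogonality** -/
theorem g_psi_orth (d : ℕ) {b : ℝ} (hb : 1 ≤ b) {m m' : ℕ} (hm : par ≤ m) (hm' : par ≤ m')
    {j j' : ℕ} (h : (m, j) ≠ (m', j')) :
    g d q par (psi d q par b m j) (psi d q par b m' j') = 0 := by
  rw [g_psi d hb hm]
  by_cases hmm : m = m'
  · subst hmm
    have hj : j ≠ j' := fun hj => h (by rw [hj])
    rw [psi_apply_same d hb hm]
    have := Fou.orthh d q (mu_nn hb m) hj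
    have e : ∫ x in Ioo (0 : ℝ) 1, x ^ d * (Rj d q (m * b) j x *
        trunc (Rj d q (m * b) j') x) = 0 := by
      refine Eq.trans ?_ this
      refine setIntegral_congr_fun measurableSet_Ioo fun x hx => ?_
      rw [trunc_of_lt (sq_lt_one_of_mem hx)]
    rw [e, mul_zero]
  · rw [psi_apply_ne d hb hm' hmm]
    simp

/-- norm of the spindle functions -/
theorem g_psi_self (d : ℕ) {b : ℝ} (hb : 1 ≤ b) {m : ℕ} (hm : par ≤ m) (j : ℕ) :
    g d q par (psi d q par b m j) (psi d q par b m j) = ntrg m * nh d q (m * b) j := by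
  rw [g_psi d hb hm, psi_apply_same d hb hm]
  congr 1
  refine setIntegral_congr_fun measurableSet_Ioo fun x hx => ?_
  rw [trunc_of_lt (sq_lt_one_of_mem hx)]
  ring

theorem g_psi_self_pos (d : ℕ) {b : ℝ} (hb : 1 ≤ b) {m : ℕ} (hm : par ≤ m) (j : ℕ) :
    0 < g d q par (psi d q par b m j) (psi d q par b m j) := by
  rw [g_psi_self d hb hm]
  exact mul_pos (Fou.ntrg_pos m) (Fou.nh_pos d q (mu_nn hb m) j)

/-! ### Parseval -/

theorem memLp_rad {m : ℕ} (d : ℕ) {R : ℝ → ℝ} (h : IsRad q m R) :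
    MemLp (fun x => Real.sqrt (x ^ d) * R x) 2 (volume.restrict (Ioo (0 : ℝ) 1)) := by
  obtain ⟨C, hC⟩ := isRad_cls h 1
  have hc : ContinuousOn (fun x => Real.sqrt (x ^ d) * R x) (Ioo (0 : ℝ) 1) :=
    ((continuous_pow d).sqrt).continuousOn.mul hC.contS
  refine MemLp.of_bound (hc.aestronglyMeasurable measurableSet_Ioo) C ?_
  filter_upwards [ae_restrict_mem measurableSet_Ioo] with x hx
  rw [norm_mul, Real.norm_eq_abs, Real.norm_eq_abs, abs_of_nonneg (Real.sqrt_nonneg _)]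
  have a1 : Real.sqrt (x ^ d) ≤ 1 := by
    rw [Real.sqrt_le_left (by norm_num), one_pow]
    exact pow_le_one₀ hx.1.le hx.2.le
  have := hC.b0 x hx
  have hC0 := hC.nonneg
  calc Real.sqrt (x ^ d) * |R x| ≤ 1 * C := by gcongr
    _ = C := one_mul _

/-- **(P0) Parseval**, one Fourier component -/
theorem hasSum_comp (d : ℕ) {b : ℝ} (hb : 1 ≤ b) {m : ℕ} (hm : par ≤ m) (v : VS q par) :
    HasSum (fun j => g d q par (psi d q par b m j) v ^ 2 /
        g d q par (psi d q par b m j) (psi d q par b m j))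
      (ntrg m * ∫ x in Ioo (0 : ℝ) 1,
        x ^ d * ((v : ℕ →₀ (ℝ → ℝ)) m x * (v : ℕ →₀ (ℝ → ℝ)) m x)) := by
  have h := Fou.parsevalh d q (mu_nn hb m) (memLp_rad d (isRad_coe v m))
    (memLp_rad d (isRad_coe v m))
  refine (h.mul_left (ntrg m)).congr_fun fun j => ?_
  rw [g_psi d hb hm, g_psi_self d hb hm]
  have h1 := (Fou.ntrg_pos m).ne'
  have h2 := (Fou.nh_pos d q (mu_nn hb m) j).ne'
  have e : (∫ x in Ioo (0 : ℝ) 1, x ^ d * (Rj d q (m * b) j x * (v : ℕ →₀ (ℝ → ℝ)) m x)) =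
      ∫ x in Ioo (0 : ℝ) 1, x ^ d * ((v : ℕ →₀ (ℝ → ℝ)) m x * Rj d q (m * b) j x) := by
    refine setIntegral_congr_fun measurableSet_Ioo fun x _ => ?_
    ring
  rw [e]
  field_simp

/-- Bessel's inequality for a pair of forms -/
theorem bessel_abs {V : Type*} [AddCommGroup V] [Module ℝ V] (a g : LinearMap.BilinForm ℝ V)
    (hs : ∀ u v, a u v = a v u) (hn : ∀ v, 0 ≤ a v v) {ι : Type*} (F : Finset ι) (ψ : ι → V)
    (E : ι → ℝ) (horth : ∀ i ∈ F, ∀ j ∈ F, i ≠ j → g (ψ i) (ψ j) = 0)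
    (hpos : ∀ i ∈ F, 0 < g (ψ i) (ψ i)) (hw : ∀ i ∈ F, ∀ v, a (ψ i) v = E i * g (ψ i) v) (v : V) :
    ∑ i ∈ F, E i * (g (ψ i) v ^ 2 / g (ψ i) (ψ i)) ≤ a v v := by
  classical
  set c : ι → ℝ := fun i => g (ψ i) v / g (ψ i) (ψ i) with hc
  set w : V := ∑ i ∈ F, c i • ψ i with hwdef
  have h1 : a w v = ∑ i ∈ F, E i * (g (ψ i) v ^ 2 / g (ψ i) (ψ i)) := by
    rw [hwdef, LinearMap.map_sum₂]
    refine Finset.sum_congr rfl fun i hi => ?_
    rw [LinearMap.map_smul₂, smul_eq_mul, hw i hi, hc]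
    simp only; ring
  have h2 : a w w = ∑ i ∈ F, E i * (g (ψ i) v ^ 2 / g (ψ i) (ψ i)) := by
    rw [show a w w = a (∑ i ∈ F, c i • ψ i) w from rfl, LinearMap.map_sum₂]
    refine Finset.sum_congr rfl fun i hi => ?_
    rw [LinearMap.map_smul₂, smul_eq_mul, hw i hi, hwdef, map_sum]
    have : ∑ k ∈ F, g (ψ i) (c k • ψ k) = c i * g (ψ i) (ψ i) := by
      rw [Finset.sum_eq_single i]
      · rw [map_smul, smul_eq_mul]
      · intro k hk hki
        rw [map_smul, horth i hi k hk hki.symm, smul_zero]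
      · intro h; exact absurd hi h
    rw [this, hc]
    have := (hpos i hi).ne'
    simp only
    field_simp
  have h3 := hn (v - w)
  have h4 : a (v - w) (v - w) = a v v - a w v - a w v + a w w := by
    rw [LinearMap.map_sub₂, map_sub, map_sub, hs v w]; ring
  rw [h4, h1, h2] at h3
  linarith

/-- **(P0) lower bound on the complement** -/
theorem Q_lower {d : ℕ} (hadm : d = 0 → q ≤ 1) {b : ℝ} (hb : 1 ≤ b) {Λ : ℝ} (v : VS q par)
    (h : ∀ m j, par ≤ m → Ej d q (m * b) j < Λ → g d q par (psi d q par b m j) v = 0) :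
    Λ * g d q par v v ≤ Q q par (adm_one d) b v v := by
  classical
  set s := (v : ℕ →₀ (ℝ → ℝ)).support with hs
  have hsp : ∀ m ∈ s, par ≤ m := by
    intro m hm
    by_contra hc
    have := (v.2 m).2 (by omega)
    rw [hs, Finsupp.mem_support_iff] at hm
    exact hm this
  set f : ℕ → ℕ → ℝ := fun m j => g d q par (psi d q par b m j) v ^ 2 /
    g d q par (psi d q par b m j) (psi d q par b m j) with hf
  have hsum : HasSum (fun j => ∑ m ∈ s, f m j) (g d q par v v) := by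
    rw [g_eq_sum]
    exact hasSum_sum fun m hm => hasSum_comp d hb (hsp m hm) v
  have hbes : ∀ N : ℕ, Λ * ∑ j ∈ Finset.range N, ∑ m ∈ s, f m j ≤
      Q q par (adm_one d) b v v := by
    intro N
    have hB := bessel_abs (Q q par (adm_one d) b) (g d q par) (Q_symm (adm_one d) b)
      (Q_nonneg (adm_one d) b) (Finset.range N ×ˢ s)
      (fun p => psi d q par b p.2 p.1) (fun p => Ej d q (p.2 * b) p.1)
      (by
        intro i hi j hj hij
        rw [Finset.mem_product] at hi hj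
        refine g_psi_orth d hb (hsp _ hi.2) (hsp _ hj.2) ?_
        intro hc
        apply hij
        rw [Prod.mk.injEq] at hc
        exact Prod.ext hc.2 hc.1)
      (by
        intro i hi
        rw [Finset.mem_product] at hi
        exact g_psi_self_pos d hb (hsp _ hi.2) _)
      (by
        intro i hi w
        rw [Finset.mem_product] at hi
        exact Q_psi_eq hadm hb (hsp _ hi.2) _ w) v
    refine le_trans ?_ hB
    rw [Finset.sum_product, Finset.mul_sum]
    refine Finset.sum_le_sum fun j _ => ?_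
    rw [Finset.mul_sum]
    refine Finset.sum_le_sum fun m hm => ?_
    simp only [hf]
    have hnn : 0 ≤ g d q par (psi d q par b m j) v ^ 2 /
        g d q par (psi d q par b m j) (psi d q par b m j) :=
      div_nonneg (sq_nonneg _) (g_psi_self_pos d hb (hsp m hm) j).le
    by_cases hE : Ej d q (m * b) j < Λ
    · rw [h m j (hsp m hm) hE]; simp
    · exact mul_le_mul_of_nonneg_right (not_lt.1 hE) hnn
  refine le_of_tendsto' (hsum.tendsto_sum_nat.const_mul Λ) hbes

/-- **definiteness** of `g` modulo values on `(0,1)` is not needed; Parseval for all labels -/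
theorem hasSum_g (d : ℕ) {b : ℝ} (hb : 1 ≤ b) (v : VS q par) :
    HasSum (fun j => ∑ m ∈ (v : ℕ →₀ (ℝ → ℝ)).support,
      g d q par (psi d q par b m j) v ^ 2 /
        g d q par (psi d q par b m j) (psi d q par b m j)) (g d q par v v) := by
  have hsp : ∀ m ∈ (v : ℕ →₀ (ℝ → ℝ)).support, par ≤ m := by
    intro m hm
    by_contra hc
    have := (v.2 m).2 (by omega)
    rw [Finsupp.mem_support_iff] at hm
    exact hm this
  rw [g_eq_sum]
  exact hasSum_sum fun m hm => hasSum_comp d hb (hsp m hm) v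

/-! ### the interface of the abstract assembly -/

theorem lev_eq (d q : ℕ) (b : ℝ) (p : ℕ × ℕ) : SF.lev d q b p = Ej d q (p.1 * b) p.2 := by
  unfold SF.lev Lab.mu Ej aj
  ring

theorem finite_lev (d q : ℕ) {par : ℕ} {b : ℝ} (hb : 1 ≤ b) (Λ : ℝ) :
    {p : SF.Lbl par | SF.lev d q b p ≤ Λ}.Finite := by
  obtain ⟨N, hN⟩ := exists_nat_gt Λ
  have hsub : {p : SF.Lbl par | SF.lev d q b p ≤ Λ} ⊆
      Subtype.val ⁻¹' ((Finset.range (N + 1) ×ˢ Finset.range (N + 1) : Finset (ℕ × ℕ)) :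
        Set (ℕ × ℕ)) := by
    rintro ⟨⟨m, j⟩, hp⟩ hle
    simp only [Set.mem_ofPred_eq] at hle
    have hm : (0 : ℝ) ≤ m := by positivity
    have hj : (0 : ℝ) ≤ j := by positivity
    have hq : (0 : ℝ) ≤ q := by positivity
    have hd : (0 : ℝ) ≤ d := by positivity
    have h1 : (m : ℝ) + 2 * j ≤ SF.lev d q b (m, j) := by
      unfold SF.lev Lab.mu
      simp only
      have hbm : (m : ℝ) ≤ b * m := by nlinarith
      set t : ℝ := b * m + 2 * j + q with ht
      have ht0 : (m : ℝ) + 2 * j ≤ t := by rw [ht]; linarith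
      have ht1 : 0 ≤ t := by linarith
      nlinarith
    have h2 : (m : ℝ) + 2 * j < N := by linarith
    have h3 : m + 2 * j < N := by exact_mod_cast h2
    simp only [Set.mem_preimage, Finset.coe_product, Finset.coe_range, Set.mem_prod, Set.mem_Iio]
    omega
  exact ((Finset.finite_toSet _).preimage Subtype.val_injective.injOn).subset hsub

/-- **(P0) for the abstract assembly** (any normalisation `c`) -/
theorem eig_main {d : ℕ} (hadm : d = 0 → q ≤ 1) {b : ℝ} (hb : 1 ≤ b) (c : SF.Lbl par → ℝ)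
    (hc : ∀ p, c p ^ 2 * (ntrg p.1.1 * nh d q (p.1.1 * b) p.1.2) = 1) :
    Cut.Eig (g d q par) (Q q par (adm_one d) b)
      (fun p : SF.Lbl par => c p • psi d q par b p.1.1 p.1.2)
      (fun p : SF.Lbl par => SF.lev d q b p) where
  gsymm := g_symm
  gnn := g_nonneg
  asymm := Q_symm (adm_one d) b
  ann := Q_nonneg (adm_one d) b
  orth i j hij := by
    rw [LinearMap.map_smul₂, map_smul, g_psi_orth d hb i.2 j.2, smul_zero, smul_zero]
    intro h
    exact hij (Subtype.ext h)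
  one i := by
    rw [LinearMap.map_smul₂, map_smul, g_psi_self d hb i.2, smul_eq_mul, smul_eq_mul,
      ← hc i]
    ring
  eig i v := by
    rw [LinearMap.map_smul₂, LinearMap.map_smul₂,
      Q_psi_eq hadm hb i.2, lev_eq, smul_eq_mul, smul_eq_mul]
    ring
  fin Λ := finite_lev d q hb Λ
  compl Λ v h := by
    refine Q_lower hadm hb v fun m j hm hE => ?_
    have h1 := h ⟨(m, j), hm⟩ (by rw [lev_eq]; exact hE.le)
    rw [LinearMap.map_smul₂, smul_eq_mul] at h1
    have h2 := hc ⟨(m, j), hm⟩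
    have h3 : c ⟨(m, j), hm⟩ ≠ 0 := by
      intro h0
      rw [h0] at h2
      norm_num at h2
    exact (mul_eq_zero.1 h1).resolve_left h3

end Crest.Agent.R202.Mod
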