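import Crest.Agent.R202.GateUnif

/-!
# Row 202, PART C: auxiliary facts for the gate assembly

uniqueness of class descriptions, finiteness of resonances, bounds for `SepF`, the rotation curve
and the window frames.
-/

set_option autoImplicit false

noncomputable section

open Filter Topology Set Module
open scoped InnerProductSpace
open Crest.Agent.R202.Lab Crest.Agent.R202.Cut Crest.Agent.R202.Jac

namespace Crest.Agent.R202.SF

theorem Cls.mu_not_lt {a c s l : ℕ} (ha : 0 < a) (C C' : Cls a c s l) :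
    ¬ mu (2 * (c : ℝ) / a) C.p < mu (2 * (c : ℝ) / a) C'.p := by
  classical
  intro hlt
  have hinj := chE_injective ha C.p C.P (c := c)
  have hsub : C.S ∪ Finset.univ.image C.e ⊆ C'.S := by
    intro q hq
    rw [C'.mem_S]
    rcases Finset.mem_union.1 hq with hq | hq
    · exact ((C.mem_S q).1 hq).trans hlt
    · have : q ∈ Set.range C.e := by simpa using hq
      rw [(C.cls q).2 this]; exact hlt
  have hdisj : Disjoint C.S (Finset.univ.image C.e) := by
    rw [Finset.disjoint_left]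
    intro q hq hq'
    have h1 : q ∈ Set.range C.e := by simpa using hq'
    have h2 := (C.mem_S q).1 hq
    rw [(C.cls q).2 h1] at h2
    exact lt_irrefl _ h2
  have h1 := Finset.card_le_card hsub
  rw [Finset.card_union_of_disjoint hdisj, Finset.card_image_of_injective _ hinj,
    Finset.card_univ, Fintype.card_fin] at h1
  have h2 := C.card
  have h3 := C'.card
  have h4 := C.kk_le
  have h5 := C'.kk_pos
  have h6 : C.P = C.p.1.2 / c := rfl
  omega

/-- two descriptions of the same closed cut agree -/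
theorem Cls.unique {a c s l : ℕ} (ha : 0 < a) (C C' : Cls a c s l) : C = C' := by
  classical
  have hl : mu (2 * (c : ℝ) / a) C.p = mu (2 * (c : ℝ) / a) C'.p :=
    le_antisymm (not_lt.1 (C'.mu_not_lt ha C)) (not_lt.1 (C.mu_not_lt ha C'))
  have hp : C.p = C'.p := by
    obtain ⟨i, hi⟩ := (C.cls C'.p).1 hl.symm
    obtain ⟨j, hj⟩ := (C'.cls C.p).1 hl
    have hi1 : C.p.1.1 + i * a = C'.p.1.1 := congrArg (fun q : Lbl s => q.1.1) hi
    have hj1 : C'.p.1.1 + j * a = C.p.1.1 := congrArg (fun q : Lbl s => q.1.1) hj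
    have h0 : (i : ℕ) * a = 0 := by omega
    have hi0 : (i : ℕ) = 0 := (Nat.mul_eq_zero.1 h0).resolve_right (by omega)
    rw [← hi]
    apply Subtype.ext
    show C.p.1 = chainLab a c C.p.1 i
    rw [hi0, chainLab_zero]
  have hS : C.S = C'.S := by
    ext q
    rw [C.mem_S, C'.mem_S, hp]
  have hk : C.kk = C'.kk := by
    have h1 := C.card
    have h2 := C'.card
    rw [hS] at h1
    omega
  obtain ⟨p, h1, h2, S, h3, kk, h4, h5, h6⟩ := C
  obtain ⟨p', h1', h2', S', h3', kk', h4', h5', h6'⟩ := C'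
  simp only at hp hS hk
  subst hp hS hk
  rfl

/-- finitely many parameters in `[b0, b1]` with a closed cut `≤ N` -/
theorem finite_closed_le {b0 b1 : ℝ} (h0 : 0 < b0) (N : ℕ) :
    {b : ℝ | b ∈ Icc b0 b1 ∧ ∃ s ≤ 1, ∃ l ≤ N, Closed b s l}.Finite := by
  classical
  refine (finite_resonances (b1 := b1) h0 (finite_le h0 (b1 + 2 * N)).toFinset).subset ?_
  rintro b ⟨hb, s, hs, l, hl, hcl⟩
  have hb0 : 0 < b := h0.trans_le hb.1
  obtain ⟨p, hp, q, hq, hpq, hmu, hc1, hc2⟩ := hcl.exists_pair hb0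
  refine ⟨hb, p, ?_, q, ?_, hmu.symm⟩
  · simp only [Set.Finite.mem_toFinset, mem_ofPred_eq]
    have h1 : mu b p ≤ b1 + 2 * N := by
      by_contra hcon
      push Not at hcon
      have hsub : (Finset.range (N + 1)).image (fun j => (s, j)) ⊆ lows b s (mu b p) := by
        intro r hr
        obtain ⟨j, hj, rfl⟩ := Finset.mem_image.1 hr
        refine (mem_lows hb0).2 ⟨le_refl s, lt_of_le_of_lt ?_ hcon⟩
        unfold mu
        simp only
        have h2 : (s : ℝ) ≤ 1 := by exact_mod_cast hs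
        have h3 : (j : ℝ) ≤ N := by
          have := Finset.mem_range.1 hj
          exact_mod_cast Nat.lt_succ_iff.1 this
        have h4 : b * s ≤ b1 * 1 := mul_le_mul hb.2 h2 (by positivity) (by linarith [hb.2])
        linarith
      have h2 := Finset.card_le_card hsub
      rw [Finset.card_image_of_injective _ (fun i j h => (Prod.ext_iff.1 h).2),
        Finset.card_range] at h2
      omega
    exact (mu_mono hb.1 p).trans h1
  · rintro rfl
    exact lt_irrefl _ hpq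

/-- near a resonance (on the left, excluding it) there is no resonance -/
theorem eventually_not_closed {b0 b1 : ℝ} (h0 : 0 < b0) {bs : ℝ} (hbs : bs ∈ Ioo b0 b1)
    {Sg : ℝ} (hSg : 0 < Sg) (N : ℕ) :
    ∀ᶠ ε in 𝓝[>] (0 : ℝ), ∀ s ≤ 1, ∀ l ≤ N, ¬ Closed (bs - ε * Sg) s l := by
  have hfin := finite_closed_le (b1 := b1) h0 N
  have hev : ∀ᶠ b in 𝓝[≠] bs, b ∉ {b : ℝ | b ∈ Icc b0 b1 ∧ ∃ s ≤ 1, ∃ l ≤ N, Closed b s l} := by
    have h1 := hfin.isClosed.isOpen_compl
    have h2 : ({b : ℝ | b ∈ Icc b0 b1 ∧ ∃ s ≤ 1, ∃ l ≤ N, Closed b s l} \ {bs})ᶜ ∈ 𝓝 bs :=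
      (hfin.subset sdiff_subset).isClosed.isOpen_compl.mem_nhds (by simp)
    filter_upwards [mem_nhdsWithin_of_mem_nhds h2, self_mem_nhdsWithin] with b hb hb'
    intro hb''
    exact hb ⟨hb'', hb'⟩
  have ht : Tendsto (fun ε : ℝ => bs - ε * Sg) (𝓝[>] 0) (𝓝[≠] bs) := by
    refine tendsto_nhdsWithin_iff.2 ⟨?_, ?_⟩
    · have : Tendsto (fun ε : ℝ => bs - ε * Sg) (𝓝 0) (𝓝 (bs - 0 * Sg)) := by
        exact Continuous.tendsto (by fun_prop) 0
      rw [zero_mul, sub_zero] at this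
      exact this.mono_left nhdsWithin_le_nhds
    · filter_upwards [self_mem_nhdsWithin] with ε hε
      have : 0 < ε * Sg := mul_pos hε hSg
      simp only [mem_compl_iff, mem_singleton_iff]
      linarith
  have hI : ∀ᶠ ε in 𝓝[>] (0 : ℝ), bs - ε * Sg ∈ Icc b0 b1 := by
    have h3 : Tendsto (fun ε : ℝ => bs - ε * Sg) (𝓝[>] 0) (𝓝 bs) :=
      ht.mono_right nhdsWithin_le_nhds
    exact h3.eventually (Icc_mem_nhds hbs.1 hbs.2)
  filter_upwards [ht.eventually hev, hI] with ε h1 h2 s hs l hl hcl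
  exact h1 ⟨h2, s, hs, l, hl, hcl⟩

/-- bounds of the separating constants by the norm -/
theorem sepF_bounds {E : Type*} [NormedAddCommGroup E] [InnerProductSpace ℝ E]
    [FiniteDimensional ℝ E] {l : ℕ} {T : E →L[ℝ] E} {f : Fin l → E} {A B : ℝ}
    (h : SepF T f A B) (hl : 0 < l) (hd : l < finrank ℝ E) : -‖T‖ ≤ A ∧ B ≤ ‖T‖ := by
  have hT : ∀ v : E, |⟪T v, v⟫_ℝ| ≤ ‖T‖ * ‖v‖ ^ 2 := fun v => by
    calc |⟪T v, v⟫_ℝ| ≤ ‖T v‖ * ‖v‖ := abs_real_inner_le_norm _ _
      _ ≤ (‖T‖ * ‖v‖) * ‖v‖ := by gcongr; exact T.le_opNorm v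
      _ = ‖T‖ * ‖v‖ ^ 2 := by ring
  constructor
  · set w := f ⟨0, hl⟩ with hw
    have hw0 : w ≠ 0 := h.li.ne_zero _
    have h1 := h.le w (Submodule.subset_span ⟨_, rfl⟩)
    have h2 := (abs_le.1 (hT w)).1
    have h3 : 0 < ‖w‖ ^ 2 := by positivity
    have h4 : -‖T‖ * ‖w‖ ^ 2 ≤ A * ‖w‖ ^ 2 := by linarith
    exact le_of_mul_le_mul_right h4 h3
  · set W := Submodule.span ℝ (Set.range f) with hW
    have hne : Wᗮ ≠ ⊥ := by
      intro hbot
      have h1 := Submodule.finrank_add_finrank_orthogonal W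
      rw [hbot, finrank_bot, add_zero, hW, finrank_span_eq_card h.li, Fintype.card_fin] at h1
      omega
    obtain ⟨v, hv, hv0⟩ := (Submodule.ne_bot_iff _).1 hne
    have h1 := h.ge v fun i => (Submodule.mem_orthogonal W v).1 hv _ (Submodule.subset_span ⟨i, rfl⟩)
    have h2 := (abs_le.1 (hT v)).2
    have h3 : 0 < ‖v‖ ^ 2 := by positivity
    exact le_of_mul_le_mul_right (h1.trans h2) h3

/-- span of a frame `u, w` -/
theorem span_snoc {W : Type*} [AddCommGroup W] [Module ℝ W] {n : ℕ} (u : Fin n → W) (w : W) :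
    Submodule.span ℝ (Set.range (Fin.snoc (α := fun _ => W) u w)) =
      Submodule.span ℝ (Set.range u) ⊔ Submodule.span ℝ {w} := by
  rw [Fin.range_snoc, Set.insert_eq, Submodule.span_union, sup_comm]

theorem span_neg_singleton {W : Type*} [AddCommGroup W] [Module ℝ W] (w : W) :
    Submodule.span ℝ {-w} = Submodule.span ℝ {w} := by
  rw [← Set.neg_singleton, Submodule.span_neg]

/-! ### the rotation curve -/

/-- clamp to `[0,1]` -/
def cl01 (x : ℝ) : ℝ := max 0 (min 1 x)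

theorem continuous_cl01 : Continuous cl01 := by unfold cl01; fun_prop

theorem cl01_of_le {x : ℝ} (h : x ≤ 0) : cl01 x = 0 := by
  unfold cl01
  rw [min_eq_right (by linarith), max_eq_left h]

theorem cl01_of_ge {x : ℝ} (h : 1 ≤ x) : cl01 x = 1 := by
  unfold cl01
  rw [min_eq_left h, max_eq_right (by norm_num)]

theorem cl01_of_mem {x : ℝ} (h : x ∈ Icc (0 : ℝ) 1) : cl01 x = x := by
  unfold cl01
  rw [min_eq_right h.2, max_eq_right h.1]

/-- the angle `α` of the rotation: `κ = 1`: `π/2 → 0 → π/2`; `κ = -1`: `π/2 → 0 → -π/2` -/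
def ang (κ τ : ℝ) : ℝ :=
  Real.pi / 2 * (1 - cl01 (τ - 1) + (if κ = -1 then -1 else 1) * cl01 (τ - 3))

/-- the rotation curve -/
def rotc (κ τ : ℝ) : ℝ × ℝ :=
  ((if κ = -1 then -1 else 1) * Real.cos (ang κ τ), -Real.sin (ang κ τ))

theorem continuous_rotc (κ : ℝ) : Continuous (rotc κ) := by
  unfold rotc ang
  have h1 := continuous_cl01
  fun_prop

theorem rotc_circle (κ τ : ℝ) : (rotc κ τ).1 ^ 2 + (rotc κ τ).2 ^ 2 = 1 := by
  unfold rotc
  have := Real.sin_sq_add_cos_sq (ang κ τ)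
  split_ifs <;> nlinarith

theorem rotc_zero (κ : ℝ) : rotc κ 0 = (0, -1) := by
  unfold rotc ang
  rw [cl01_of_le (by norm_num), cl01_of_le (by norm_num)]
  simp

theorem rotc_four {κ : ℝ} (h : κ = 1 ∨ κ = -1) : rotc κ 4 = (0, -κ) := by
  unfold rotc ang
  rw [cl01_of_ge (by norm_num), cl01_of_ge (by norm_num)]
  rcases h with rfl | rfl
  · norm_num
  · norm_num

/-- first edge -/
theorem rotc_edge0 (κ : ℝ) {s : ℝ} (hs : s ∈ Icc (0 : ℝ) 1) : rotc κ ((0 : ℕ) + s) = (0, -1) := by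
  unfold rotc ang
  have h0 := hs.1
  have h1 := hs.2
  rw [cl01_of_le (by push_cast; linarith), cl01_of_le (by push_cast; linarith)]
  simp

/-- second edge: `cos α B - κ sin α E` up to the sign `κ`, `α = (π/2) (1 - s)` -/
theorem rotc_edge1 {κ : ℝ} (h : κ = 1 ∨ κ = -1) {s : ℝ} (hs : s ∈ Icc (0 : ℝ) 1) :
    rotc κ ((1 : ℕ) + s) = (κ * Real.cos (Real.pi / 2 * (1 - s)),
      - Real.sin (Real.pi / 2 * (1 - s))) := by
  unfold rotc ang
  have h0 := hs.1
  have h1 := hs.2
  have e : ((1 : ℕ) : ℝ) + s - 1 = s := by push_cast; ring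
  rw [e, cl01_of_mem hs, cl01_of_le (by push_cast; linarith)]
  rcases h with rfl | rfl
  · norm_num
  · norm_num

theorem rotc_edge2 {κ : ℝ} (h : κ = 1 ∨ κ = -1) {s : ℝ} (hs : s ∈ Icc (0 : ℝ) 1) :
    rotc κ ((2 : ℕ) + s) = (κ, 0) := by
  unfold rotc ang
  have h0 := hs.1
  have h1 := hs.2
  rw [cl01_of_ge (by push_cast; linarith), cl01_of_le (by push_cast; linarith)]
  rcases h with rfl | rfl
  · norm_num
  · norm_num

theorem rotc_edge3 {κ : ℝ} (h : κ = 1 ∨ κ = -1) {s : ℝ} (hs : s ∈ Icc (0 : ℝ) 1) :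
    rotc κ ((3 : ℕ) + s) = (κ * Real.cos (Real.pi / 2 * s), - (κ * Real.sin (Real.pi / 2 * s))) := by
  unfold rotc ang
  have h0 := hs.1
  have h1 := hs.2
  have e : ((3 : ℕ) : ℝ) + s - 3 = s := by push_cast; ring
  rw [cl01_of_ge (by push_cast; linarith), e, cl01_of_mem hs]
  rcases h with rfl | rfl
  · norm_num
  · norm_num

end Crest.Agent.R202.SF
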