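import Crest.Agent.R202.JacSep

/-!
# Row 202, matrix part: tridiagonal matrices with nonzero links
-/

set_option autoImplicit false

open Filter Topology Module Matrix
open scoped InnerProductSpace

noncomputable section

namespace Crest.Agent.R202.Jac

/-- symmetric tridiagonal matrices with nonzero links -/
structure Tri {p : ℕ} (J : Matrix (Fin p) (Fin p) ℝ) : Prop where
  symm : ∀ i j, J i j = J j i
  far : ∀ i j : Fin p, i.1 + 2 ≤ j.1 → J i j = 0
  link : ∀ i j : Fin p, i.1 + 1 = j.1 → J i j ≠ 0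

theorem Tri.eq_zero {p : ℕ} {J : Matrix (Fin (p + 1)) (Fin (p + 1)) ℝ} (hJ : Tri J) {lam : ℝ}
    {v : Fin (p + 1) → ℝ} (hv : J *ᵥ v = lam • v) (h0 : v 0 = 0) : v = 0 := by
  have key : ∀ k : ℕ, ∀ i : Fin (p + 1), i.1 ≤ k → v i = 0 := by
    intro k
    induction k with
    | zero =>
      intro i hi
      have : i = 0 := Fin.ext (by simpa using hi)
      rw [this, h0]
    | succ k ih =>
      intro i hi
      by_cases hik : i.1 ≤ k
      · exact ih i hik
      have hi' : i.1 = k + 1 := by omega
      have hk : k < p + 1 := by have := i.2; omega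
      set r : Fin (p + 1) := ⟨k, hk⟩ with hr
      have hrow : (J *ᵥ v) r = lam * v r := by rw [hv]; simp
      have hr0 : v r = 0 := ih r (le_refl _)
      rw [hr0, mul_zero] at hrow
      have hsum : (J *ᵥ v) r = J r i * v i := by
        unfold Matrix.mulVec dotProduct
        rw [Finset.sum_eq_single i]
        · intro j _ hj
          by_cases hjk : j.1 ≤ k
          · rw [ih j hjk, mul_zero]
          · have : r.1 + 2 ≤ j.1 := by
              have hne : j.1 ≠ i.1 := fun h => hj (Fin.ext h)
              simp only [hr]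
              omega
            show J r j * v j = 0
            rw [hJ.far r j this, zero_mul]
        · intro h
          exact absurd (Finset.mem_univ i) h
      rw [hsum] at hrow
      have hl : J r i ≠ 0 := hJ.link r i (by simp [hr]; omega)
      exact (mul_eq_zero.1 hrow).resolve_left hl
  funext i
  exact key i.1 i (le_refl _)

/-- the operator of a matrix on Euclidean space -/
def op {p : ℕ} (J : Matrix (Fin p) (Fin p) ℝ) :
    EuclideanSpace ℝ (Fin p) →L[ℝ] EuclideanSpace ℝ (Fin p) :=
  LinearMap.toContinuousLinearMap (Matrix.toEuclideanLin J)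

theorem op_apply {p : ℕ} (J : Matrix (Fin p) (Fin p) ℝ) (v : EuclideanSpace ℝ (Fin p))
    (i : Fin p) : op J v i = ∑ j, J i j * v j := by
  unfold op
  simp [Matrix.toLpLin_apply, Matrix.mulVec, dotProduct]

theorem op_add {p : ℕ} (J J' : Matrix (Fin p) (Fin p) ℝ) : op (J + J') = op J + op J' := by
  ext v i
  simp [op_apply, add_mul, Finset.sum_add_distrib]

theorem op_smul {p : ℕ} (a : ℝ) (J : Matrix (Fin p) (Fin p) ℝ) : op (a • J) = a • op J := by
  ext v i
  simp [op_apply, Finset.mul_sum, mul_assoc]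

theorem inner_op {p : ℕ} (J : Matrix (Fin p) (Fin p) ℝ) (v w : EuclideanSpace ℝ (Fin p)) :
    ⟪op J v, w⟫_ℝ = ∑ i, ∑ j, J i j * v j * w i := by
  rw [PiLp.inner_apply]
  refine Finset.sum_congr rfl fun i _ => ?_
  rw [op_apply]
  simp only [RCLike.inner_apply, conj_trivial]
  rw [Finset.mul_sum]
  refine Finset.sum_congr rfl fun j _ => ?_
  ring

theorem op_symm {p : ℕ} {J : Matrix (Fin p) (Fin p) ℝ} (hJ : ∀ i j, J i j = J j i)
    (v w : EuclideanSpace ℝ (Fin p)) : ⟪op J v, w⟫_ℝ = ⟪v, op J w⟫_ℝ := by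
  rw [real_inner_comm (op J w), inner_op, inner_op, Finset.sum_comm]
  refine Finset.sum_congr rfl fun i _ => Finset.sum_congr rfl fun j _ => ?_
  rw [hJ j i]
  ring

theorem Tri.op_eq_zero {p : ℕ} {J : Matrix (Fin (p + 1)) (Fin (p + 1)) ℝ} (hJ : Tri J) {lam : ℝ}
    {v : EuclideanSpace ℝ (Fin (p + 1))} (hv : op J v = lam • v) (h0 : v 0 = 0) : v = 0 := by
  have h1 : J *ᵥ (v : Fin (p + 1) → ℝ) = lam • (v : Fin (p + 1) → ℝ) := by
    funext i
    have := congrArg (fun w : EuclideanSpace ℝ (Fin (p + 1)) => w i) hv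
    simp only [op_apply] at this
    simpa [Matrix.mulVec, dotProduct] using this
  have := hJ.eq_zero h1 h0
  ext i
  simpa using congrFun this i

/-- sorted eigenbasis of a Jacobi matrix: strictly increasing eigenvalues, positive first
coordinates -/
theorem Tri.exists_basis {p : ℕ} {J : Matrix (Fin (p + 1)) (Fin (p + 1)) ℝ} (hJ : Tri J) :
    ∃ (b : OrthonormalBasis (Fin (p + 1)) ℝ (EuclideanSpace ℝ (Fin (p + 1))))
      (μ : Fin (p + 1) → ℝ), StrictMono μ ∧ (∀ i, op J (b i) = μ i • b i) ∧ ∀ i, 0 < b i 0 := by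
  classical
  have hsym : ((op J : EuclideanSpace ℝ (Fin (p + 1)) →L[ℝ] EuclideanSpace ℝ (Fin (p + 1))) :
      EuclideanSpace ℝ (Fin (p + 1)) →ₗ[ℝ] EuclideanSpace ℝ (Fin (p + 1))).IsSymmetric :=
    fun v w => op_symm hJ.symm v w
  obtain ⟨b, μ, hmono, hb⟩ := exists_sorted_basis (n := p + 1) (by simp) _ hsym
  have hb' : ∀ i, op J (b i) = μ i • b i := hb
  have hne0 : ∀ i, b i 0 ≠ 0 := by
    intro i h
    have := hJ.op_eq_zero (hb' i) h
    exact b.orthonormal.ne_zero i this
  have hinj : Function.Injective μ := by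
    intro i j hij
    by_contra hne
    set w : EuclideanSpace ℝ (Fin (p + 1)) := (b j 0) • b i - (b i 0) • b j with hw
    have h1 : op J w = μ i • w := by
      rw [hw, map_sub, map_smul, map_smul, hb' i, hb' j, ← hij, smul_sub]
      rw [smul_comm (b j 0) (μ i), smul_comm (b i 0) (μ i)]
    have h2 : w 0 = 0 := by
      simp [hw]
      ring
    have h3 := hJ.op_eq_zero h1 h2
    have h4 : ⟪b i, w⟫_ℝ = b j 0 := by
      rw [hw, inner_sub_right, inner_smul_right, inner_smul_right]
      have e1 : ⟪b i, b i⟫_ℝ = 1 := by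
        rw [real_inner_self_eq_norm_sq, b.orthonormal.1 i]; norm_num
      have e2 : ⟪b i, b j⟫_ℝ = 0 := b.orthonormal.2 hne
      rw [e1, e2]
      ring
    rw [h3, inner_zero_right] at h4
    exact hne0 j h4.symm
  -- adjust signs
  set σ : Fin (p + 1) → ℝ := fun i => if 0 < b i 0 then 1 else -1 with hσ
  have hσ1 : ∀ i, σ i = 1 ∨ σ i = -1 := by
    intro i
    simp only [hσ]
    split <;> simp
  have hon : Orthonormal ℝ (fun i => σ i • b i) := by
    constructor
    · intro i
      rw [norm_smul, b.orthonormal.1 i, mul_one]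
      rcases hσ1 i with h | h <;> rw [h] <;> simp
    · intro i j hij
      show ⟪σ i • b i, σ j • b j⟫_ℝ = 0
      rw [inner_smul_left, inner_smul_right, b.orthonormal.2 hij]
      simp
  have hsp : ⊤ ≤ Submodule.span ℝ (Set.range fun i => σ i • b i) := by
    have hli := hon.linearIndependent
    have := hli.span_eq_top_of_card_eq_finrank (by simp)
    rw [this]
  refine ⟨OrthonormalBasis.mk hon hsp, μ, hmono.strictMono_of_injective hinj, ?_, ?_⟩
  · intro i
    rw [OrthonormalBasis.coe_mk]
    show op J (σ i • b i) = μ i • σ i • b i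
    rw [map_smul, hb' i, smul_comm]
  · intro i
    rw [OrthonormalBasis.coe_mk]
    show 0 < (σ i • b i) 0
    simp only [hσ]
    by_cases h : 0 < b i 0
    · simp [h]
    · have h2 : b i 0 < 0 := lt_of_le_of_ne (not_lt.1 h) (hne0 i)
      simp [h]
      exact h2

end Crest.Agent.R202.Jac
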