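import Crest.Agent.R202.GateOpen

/-!
# Row 202, PART C: frozen output of the abstract gate assembly

The loop of a gate is a closed polygon with `2 n + 4` edges in the `(b, G)`-plane:
* vertices `0, …, n`: approach `(b0, 0) = v_0 → … → v_n = (bL, G(1))`, independent of `κ`;
* `v_{n+1} = (bL, G(κ))`, `v_{n+2} = (bR, G(κ))`, `v_{n+3} = (bR, G(1))`, `v_{n+4} = (bL, G(1))`;
* vertices `n+4+i = n-i`: the way back.
-/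

set_option autoImplicit false

noncomputable section

open Filter Topology Set Module
open Crest.Agent.R202.Lab Crest.Agent.R202.Cut

namespace Crest.Agent.R202.SF

variable {d : ℕ} {b0 b1 : ℝ} {OK : ℕ × ℕ → Prop} {T : Type*} [AddCommGroup T] [Module ℝ T]
  {V : ℕ × ℕ → Type*} [∀ σ, AddCommGroup (V σ)] [∀ σ, Module ℝ (V σ)]

/-- the frame `u_0, …, u_{l-2}, c₁ vB + c₂ vE` -/
def rotV {W : Type*} [AddCommGroup W] [Module ℝ W] {l : ℕ} (u : Fin l → W) (vB vE : W)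
    (c : ℝ × ℝ) : Fin (l + 1) → W := Fin.snoc u (c.1 • vB + c.2 • vE)

/-- **output of the abstract gate assembly** for the designated cut `ls + 1` of the sector `σs` -/
structure GateOut (F : SpindleFamily d b0 b1 OK T V) (S : Finset (ℕ × ℕ)) (N : ℕ × ℕ → ℕ)
    (σs : ℕ × ℕ) (ls : ℕ) (δ : ℝ) where
  n : ℕ
  vb : ℕ → ℝ
  G0 : ℕ → (ℕ →₀ T)
  G1 : ℕ → (ℕ →₀ T)
  n_pos : 0 < n
  start_b : vb 0 = b0
  start_G0 : G0 0 = 0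
  start_G1 : G1 0 = 0
  appr : ∀ i ≤ n, G1 i = 0
  b_w1 : vb (n + 1) = vb n
  b_w3 : vb (n + 3) = vb (n + 2)
  G_w12 : G0 (n + 1) = G0 (n + 2)
  G_w12' : G1 (n + 1) = G1 (n + 2)
  G_w1 : G0 (n + 1) + G1 (n + 1) = G0 n
  G_w3 : G0 (n + 3) = G0 n
  G_w3' : G1 (n + 3) = 0
  pal : ∀ i ≤ n, vb (n + 4 + i) = vb (n - i) ∧ G0 (n + 4 + i) = G0 (n - i) ∧ G1 (n + 4 + i) = 0
  mem : ∀ i, vb i ∈ Icc b0 b1
  freq0 : ∀ i, G0 i 0 = 0 ∧ G1 i 0 = 0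
  sz_le : ∀ i, ∀ κ ∈ Icc (-1 : ℝ) 1, F.sz (G0 i + κ • G1 i) ≤ δ
  moves : b0 < vb n
  K : ℕ
  /-- openness of the cuts along the polygon -/
  isOpen : ∀ k, K ≤ k → ∀ σ ∈ S, ∀ l ≤ N σ, ∀ κ ∈ Icc (-1 : ℝ) 1,
    ((σ, l) ≠ (σs, ls + 1) ∨ κ = 1 ∨ κ = -1) → ∀ i < 2 * n + 4, ∀ s ∈ Icc (0 : ℝ) 1,
    ∃ b' ∈ Icc b0 b1, IsOpenIn (F.g σ) (F.a σ ((1 - s) * vb i + s * vb (i + 1))
      ((1 - s) • (G0 i + κ • G1 i) + s • (G0 (i + 1) + κ • G1 (i + 1))) k)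
      (Submodule.span ℝ (Set.range (F.ψ σ b'))) l
  /-- the window: the resonance `bs` and the vectors of the trial frames -/
  bs : ℝ
  bs_mem : bs ∈ Ioo b0 b1
  u : Fin ls → V σs
  vB : V σs
  vE : V σs
  u_mem : ∀ i, u i ∈ Submodule.span ℝ (Set.range (F.ψ σs bs))
  vB_mem : vB ∈ Submodule.span ℝ (Set.range (F.ψ σs bs))
  vE_mem : vE ∈ Submodule.span ℝ (Set.range (F.ψ σs bs))
  /-- `u, vB, vE` are `g`-orthonormal -/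
  on_u : ∀ i j, F.g σs (u i) (u j) = if i = j then 1 else 0
  on_uB : ∀ i, F.g σs (u i) vB = 0
  on_uE : ∀ i, F.g σs (u i) vE = 0
  on_BE : F.g σs vB vE = 0
  on_B : F.g σs vB vB = 1
  on_E : F.g σs vE vE = 1
  /-- the rotating last vector on the window edges `n, …, n+3` (parameter `τ ∈ [0,4]`) -/
  c : ℝ → ℝ → ℝ × ℝ
  c_cont : ∀ κ, Continuous (c κ)
  c_circle : ∀ κ τ, (c κ τ).1 ^ 2 + (c κ τ).2 ^ 2 = 1
  c_start : ∀ κ, κ = 1 ∨ κ = -1 → c κ 0 = (0, -1)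
  c_end : ∀ κ, κ = 1 ∨ κ = -1 → c κ 4 = (0, -κ)
  window : ∀ k, K ≤ k → ∀ κ, κ = 1 ∨ κ = -1 → ∀ i < 4, ∀ s ∈ Icc (0 : ℝ) 1, ∃ A B : ℝ,
    Sep (F.g σs) (F.a σs ((1 - s) * vb (n + i) + s * vb (n + i + 1))
      ((1 - s) • (G0 (n + i) + κ • G1 (n + i)) + s • (G0 (n + i + 1) + κ • G1 (n + i + 1))) k)
      (Submodule.span ℝ (Set.range (rotV u vB vE (c κ (i + s))))) A B

/-- **the gate theorem** (statement; proved in `GateThm.lean`) -/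
def GateThm (F : SpindleFamily d b0 b1 OK T V) : Prop :=
  0 < b0 → (∀ (s l : ℕ), ¬ Closed b0 s l) →
  ∀ (S : Finset (ℕ × ℕ)) (N : ℕ × ℕ → ℕ), (∀ σ ∈ S, OK σ ∧ σ.2 ≤ 1) →
  ∀ (σs : ℕ × ℕ) (ls : ℕ), σs ∈ S → ls + 1 ≤ N σs →
    (∃ b, b0 < b ∧ b < b1 ∧ Closed b σs.2 (ls + 1)) →
  ∀ δ : ℝ, 0 < δ → Nonempty (GateOut F S N σs ls δ)

end Crest.Agent.R202.SF
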