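import Crest.Agent.R202.GateDefs

/-!
# Row 202, PART C: classes (chains) at a resonance and the frozen statements of the matrix part
-/

set_option autoImplicit false

noncomputable section

open Filter Topology Set Module
open scoped InnerProductSpace
open Crest.Agent.R202.Lab Crest.Agent.R202.Cut Crest.Agent.R202.Jac

namespace Crest.Agent.R202.SF

/-- the chain `chainLab a c p i`, `i ≤ P`, as labels of parity `s` -/
def chE (a c : ℕ) {s : ℕ} (p : Lbl s) (P : ℕ) : Fin (P + 1) → Lbl s :=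
  fun i => ⟨chainLab a c p i, p.2.trans (Nat.le_add_right _ _)⟩

/-- position of the closed cut `l` at `b = 2 c / a`: class `chE a c p P` (all labels of its level),
`S` = lower labels, `l = #S + kk`, `1 ≤ kk ≤ P` -/
structure Cls (a c s l : ℕ) where
  p : Lbl s
  first : p.1.1 < a + s
  cls : ∀ q : Lbl s, mu (2 * (c : ℝ) / a) q = mu (2 * (c : ℝ) / a) p ↔
    q ∈ Set.range (chE a c p (p.1.2 / c))
  S : Finset (Lbl s)
  mem_S : ∀ q : Lbl s, q ∈ S ↔ mu (2 * (c : ℝ) / a) q < mu (2 * (c : ℝ) / a) p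
  kk : ℕ
  kk_pos : 1 ≤ kk
  kk_le : kk ≤ p.1.2 / c
  card : l = S.card + kk

/-- length of the class minus one -/
abbrev Cls.P {a c s l : ℕ} (C : Cls a c s l) : ℕ := C.p.1.2 / c

/-- enumeration of the class -/
abbrev Cls.e {a c s l : ℕ} (C : Cls a c s l) : Fin (C.P + 1) → Lbl s := chE a c C.p C.P

theorem exists_cls {b : ℝ} (hb : 0 < b) {s l : ℕ} (h : Closed b s l) :
    ∃ a c : ℕ, 0 < a ∧ 0 < c ∧ Nat.Coprime a c ∧ b = 2 * c / a ∧ Nonempty (Cls a c s l) := by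
  classical
  obtain ⟨a, c, ha, hc, hcop, hbe, p, hp, hfirst, hcls, k, hk1, hk2, hl⟩ := h.exists_chain hb
  refine ⟨a, c, ha, hc, hcop, hbe, ⟨⟨⟨p, hp⟩, hfirst, ?_, (lows b s (mu b p)).subtype
    (fun q => s ≤ q.1), ?_, k, hk1, hk2, ?_⟩⟩⟩
  · intro q
    have h1 := hcls q.1
    rw [← hbe]
    constructor
    · intro hq
      obtain ⟨i, hi, hqi⟩ := h1.1 ⟨q.2, hq⟩
      exact ⟨⟨i, Nat.lt_succ_of_le hi⟩, Subtype.ext hqi.symm⟩
    · rintro ⟨i, rfl⟩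
      exact (h1.2 ⟨i, Nat.lt_succ_iff.1 i.2, rfl⟩).2
  · intro q
    rw [← hbe]
    simp only [Finset.mem_subtype, mem_lows hb]
    exact ⟨fun h => h.2, fun h => ⟨q.2, h⟩⟩
  · rw [hl, Finset.card_subtype, Finset.filter_true_of_mem]
    exact fun q hq => ((mem_lows hb).1 hq).1

/-- `a, c` are determined by `b` -/
theorem ac_unique {a c a' c' : ℕ} (ha : 0 < a) (ha' : 0 < a') (h : Nat.Coprime a c)
    (h' : Nat.Coprime a' c') (he : 2 * (c : ℝ) / a = 2 * c' / a') : a = a' ∧ c = c' := by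
  have h1 : (c : ℝ) * a' = c' * a := by
    have ha0 : (a : ℝ) ≠ 0 := by positivity
    have ha0' : (a' : ℝ) ≠ 0 := by positivity
    field_simp at he
    linarith
  have h2 : c * a' = c' * a := by exact_mod_cast h1
  have h3 : a ∣ a' := by
    have : a ∣ c * a' := ⟨c', by rw [h2]; ring⟩
    exact h.dvd_of_dvd_mul_left this
  have h4 : a' ∣ a := by
    have : a' ∣ c' * a := ⟨c, by rw [← h2]; ring⟩
    exact h'.dvd_of_dvd_mul_left this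
  have h5 : a = a' := Nat.dvd_antisymm h3 h4
  subst h5
  exact ⟨rfl, Nat.eq_of_mul_eq_mul_right ha h2⟩

variable {d : ℕ} {b0 b1 : ℝ} {OK : ℕ × ℕ → Prop} {T : Type*} [AddCommGroup T] [Module ℝ T]
  {V : ℕ × ℕ → Type*} [∀ σ, AddCommGroup (V σ)] [∀ σ, Module ℝ (V σ)]

/-- the effective matrix of the class `C` of the sector `(q, s)` -/
def SpindleFamily.XC (F : SpindleFamily d b0 b1 OK T V) (q : ℕ) {a c s l : ℕ} (C : Cls a c s l)
    (x : ℝ) (G : ℕ →₀ T) : Matrix (Fin (C.P + 1)) (Fin (C.P + 1)) ℝ :=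
  F.Xmat (q, s) (2 * (c : ℝ) / a) C.e x G

/-- the effective matrix has an open cut at the position of the class -/
def SpindleFamily.MOpen (F : SpindleFamily d b0 b1 OK T V) (q : ℕ) {a c s l : ℕ}
    (C : Cls a c s l) (x : ℝ) (G : ℕ →₀ T) : Prop :=
  ∃ (f : Fin C.kk → EuclideanSpace ℝ (Fin (C.P + 1))) (A B : ℝ), SepF (op (F.XC q C x G)) f A B

/-- (MAT-1) non-designated resonance: one direction `G = η cos (aφ)` opens every class -/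
def MatPass (F : SpindleFamily d b0 b1 OK T V) : Prop :=
  ∀ (a c : ℕ), 0 < a → 0 < c → Nat.Coprime a c → 2 * (c : ℝ) / a ∈ Ioo b0 b1 →
  ∀ (S : Finset (ℕ × ℕ)) (N : ℕ × ℕ → ℕ), (∀ σ ∈ S, OK σ ∧ σ.2 ≤ 1) →
  ∃ G : ℕ →₀ T, G 0 = 0 ∧
    ∀ σ ∈ S, ∀ l ≤ N σ, ∀ C : Cls a c σ.2 l, ∀ x t : ℝ, 0 ≤ t → (x ≠ 0 ∨ t ≠ 0) →
      F.MOpen σ.1 C x (t • G)

/-- (MAT-2) designated resonance.  `G(κ) = GA + κ GB`, window `[xL, xR]`. -/
structure MatGateOut (F : SpindleFamily d b0 b1 OK T V) {a c : ℕ} (S : Finset (ℕ × ℕ))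
    (N : ℕ × ℕ → ℕ) (σs : ℕ × ℕ) (ls : ℕ) (Cs : Cls a c σs.2 (ls + 1)) where
  GA : ℕ →₀ T
  GB : ℕ →₀ T
  freqA : GA 0 = 0
  freqB : GB 0 = 0
  xL : ℝ
  xR : ℝ
  xlt : xL < xR
  /-- approach: the direction `G(1)` opens every class -/
  appr : ∀ σ ∈ S, ∀ l ≤ N σ, ∀ C : Cls a c σ.2 l, ∀ x t : ℝ, 0 ≤ t → (x ≠ 0 ∨ t ≠ 0) →
    F.MOpen σ.1 C x (t • (GA + GB))
  /-- non-designated cuts on the whole window -/
  other : ∀ σ ∈ S, ∀ l ≤ N σ, (σ, l) ≠ (σs, ls + 1) → ∀ C : Cls a c σ.2 l,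
    ∀ x ∈ Icc xL xR, ∀ κ ∈ Icc (-1 : ℝ) 1, F.MOpen σ.1 C x (GA + κ • GB)
  /-- the frames of the designated cut -/
  kp : Cs.kk = (Cs.kk - 1) + 1
  u : Fin (Cs.kk - 1) → EuclideanSpace ℝ (Fin (Cs.P + 1))
  B : EuclideanSpace ℝ (Fin (Cs.P + 1))
  E : EuclideanSpace ℝ (Fin (Cs.P + 1))
  orth : Orthonormal ℝ (Sum.elim u ![B, E])
  /-- uniform gap -/
  gap : ℝ
  gap_pos : 0 < gap
  /-- left edge: `span (u, E)` -/
  left : ∀ κ ∈ Icc (-1 : ℝ) 1, ∃ Λ : ℝ,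
    SepF (op (F.XC σs.1 Cs xL (GA + κ • GB)))
      (Fin.snoc (α := fun _ => EuclideanSpace ℝ (Fin (Cs.P + 1))) u E) Λ (Λ + gap)
  /-- right edge: `span (u, B)` -/
  right : ∀ κ ∈ Icc (-1 : ℝ) 1, ∃ Λ : ℝ,
    SepF (op (F.XC σs.1 Cs xR (GA + κ • GB)))
      (Fin.snoc (α := fun _ => EuclideanSpace ℝ (Fin (Cs.P + 1))) u B) Λ (Λ + gap)
  /-- edges `κ = ±1`: `span (u, cos α B - κ sin α E)`, `α = (π/2)(1-s)`, `x = (1-s) xL + s xR` -/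
  mid : ∀ κ : ℝ, (κ = 1 ∨ κ = -1) → ∀ s ∈ Icc (0 : ℝ) 1, ∃ Λ : ℝ,
    SepF (op (F.XC σs.1 Cs ((1 - s) * xL + s * xR) (GA + κ • GB)))
      (Fin.snoc (α := fun _ => EuclideanSpace ℝ (Fin (Cs.P + 1))) u
        (Real.cos (Real.pi / 2 * (1 - s)) • B - (κ * Real.sin (Real.pi / 2 * (1 - s))) • E))
      Λ (Λ + gap)

/-- (MAT-2) statement -/
def MatGate (F : SpindleFamily d b0 b1 OK T V) : Prop :=
  ∀ (a c : ℕ), 0 < a → 0 < c → Nat.Coprime a c → 2 * (c : ℝ) / a ∈ Ioo b0 b1 →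
  ∀ (S : Finset (ℕ × ℕ)) (N : ℕ × ℕ → ℕ), (∀ σ ∈ S, OK σ ∧ σ.2 ≤ 1) →
  ∀ (σs : ℕ × ℕ) (ls : ℕ), σs ∈ S → ls + 1 ≤ N σs → ∀ Cs : Cls a c σs.2 (ls + 1),
    Nonempty (MatGateOut F S N σs ls Cs)

end Crest.Agent.R202.SF
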