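import Crest.Agent.R202.GateMatDefs

/-!
# Row 202, PART C: uniform openness on compact sets of directions at one scale `ε`
-/

set_option autoImplicit false

noncomputable section

open Filter Topology Set Module
open scoped InnerProductSpace
open Crest.Agent.R202.Lab Crest.Agent.R202.Cut Crest.Agent.R202.Jac

namespace Crest.Agent.R202.SF

variable {d : ℕ} {b0 b1 : ℝ} {OK : ℕ × ℕ → Prop} {T : Type*} [AddCommGroup T] [Module ℝ T]
  {V : ℕ × ℕ → Type*} [∀ σ, AddCommGroup (V σ)] [∀ σ, Module ℝ (V σ)]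
  (F : SpindleFamily d b0 b1 OK T V)

theorem SpindleFamily.Xmat_affine (σ : ℕ × ℕ) (b' : ℝ) {L : ℕ} (e : Fin L → Lbl σ.2) (x t : ℝ)
    (G0 G1 : ℕ →₀ T) :
    F.Xmat σ b' e x (G0 + t • G1) =
      F.Xmat σ b' e 0 G0 + x • F.Xmat σ b' e 1 0 + t • F.Xmat σ b' e 0 G1 := by
  ext i j
  simp only [SpindleFamily.Xmat, firstVar_add, firstVar_smul, firstVar_zero, Matrix.add_apply,
    Matrix.smul_apply, smul_eq_mul, zero_mul, one_mul, add_zero]
  split_ifs <;> ring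

theorem SpindleFamily.continuous_op (σ : ℕ × ℕ) (b' : ℝ) {L : ℕ} (e : Fin L → Lbl σ.2)
    (G0 G1 : ℕ →₀ T) :
    Continuous fun z : ℝ × ℝ => op (F.Xmat σ b' e z.1 (G0 + z.2 • G1)) := by
  have h1 : (fun z : ℝ × ℝ => op (F.Xmat σ b' e z.1 (G0 + z.2 • G1))) = fun z : ℝ × ℝ =>
      op (F.Xmat σ b' e 0 G0) + z.1 • op (F.Xmat σ b' e 1 0) + z.2 • op (F.Xmat σ b' e 0 G1) := by
    funext z
    rw [F.Xmat_affine, op_add, op_add, op_smul, op_smul]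
  rw [h1]
  fun_prop

theorem SpindleFamily.sz_affine_le (G0 G1 : ℕ →₀ T) (t : ℝ) :
    F.sz (G0 + t • G1) ≤ F.sz G0 + |t| * F.sz G1 := by
  have := F.sz_add G0 (t • G1)
  rwa [F.sz_smul] at this

/-- class data give the hypotheses of the blow-up lemma -/
theorem cls_level {a c s l : ℕ} (C : Cls a c s l) (q : Lbl s) :
    mu (2 * (c : ℝ) / a) q = mu (2 * (c : ℝ) / a) C.p ↔ q ∈ Set.range C.e := C.cls q

theorem chE_injective {a c : ℕ} (ha : 0 < a) {s : ℕ} (p : Lbl s) (P : ℕ) :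
    Function.Injective (chE a c p P) := by
  intro i j hij
  have h1 : p.1.1 + i * a = p.1.1 + j * a := congrArg (fun q : Lbl s => q.1.1) hij
  exact Fin.ext (Nat.eq_of_mul_eq_mul_right ha (Nat.add_left_cancel h1))

/-- blow-up at one direction, uniformly nearby -/
theorem SpindleFamily.unif_local (hb0 : 0 < b0) {a c : ℕ} (ha : 0 < a)
    (hb' : 2 * (c : ℝ) / a ∈ Ioo b0 b1) {q s l : ℕ} (hσ : OK (q, s)) (C : Cls a c s l)
    (G0 G1 : ℕ →₀ T) (h0 : G0 0 = 0) (h1 : G1 0 = 0) (z0 : ℝ × ℝ)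
    (hop : F.MOpen q C z0.1 (G0 + z0.2 • G1)) :
    ∃ U ∈ 𝓝 z0, ∀ᶠ ε in 𝓝[>] (0 : ℝ), ∀ᶠ k in atTop, ∀ z ∈ U,
      F.OpenAt (q, s) (2 * (c : ℝ) / a + ε * z.1) (ε • (G0 + z.2 • G1)) k l := by
  classical
  obtain ⟨f, A, B, hf⟩ := hop
  set b' : ℝ := 2 * (c : ℝ) / a with hb'def
  have hb'0 : 0 < b' := hb0.trans hb'.1
  have hAB := hf.lt
  set τ : ℝ := (B - A) / 4 with hτ
  have hτ0 : 0 < τ := by rw [hτ]; linarith
  have hcont := F.continuous_op (q, s) b' C.e G0 G1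
  set R : ℝ := |A| + |B| + τ + |z0.1| + 1 + (F.sz G0 + (|z0.2| + 1) * F.sz G1) with hR
  have hsz : 0 ≤ F.sz G0 + (|z0.2| + 1) * F.sz G1 := by
    have := F.sz_nonneg G0; have := F.sz_nonneg G1; positivity
  have hR0 : 0 ≤ R := by positivity
  obtain ⟨ε0, hε0, hblow⟩ := F.blowup hb0 (σ := (q, s)) hσ (b' := b') hb' (J := mu b' C.p)
    (mu_nonneg hb'0.le _) (S := C.S) C.mem_S (L := C.P + 1) (e := C.e)
    (chE_injective ha C.p _) C.cls R (2 * τ) hR0 (by positivity)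
  have hU : {z : ℝ × ℝ | ‖op (F.Xmat (q, s) b' C.e z.1 (G0 + z.2 • G1)) -
      op (F.Xmat (q, s) b' C.e z0.1 (G0 + z0.2 • G1))‖ < τ} ∩ Metric.ball z0 1 ∈ 𝓝 z0 := by
    refine inter_mem ?_ (Metric.ball_mem_nhds z0 one_pos)
    have h2 : Tendsto (fun z : ℝ × ℝ => ‖op (F.Xmat (q, s) b' C.e z.1 (G0 + z.2 • G1)) -
      op (F.Xmat (q, s) b' C.e z0.1 (G0 + z0.2 • G1))‖) (𝓝 z0) (𝓝 0) := by
      have h3 := (hcont.sub continuous_const).norm.tendsto (x := z0)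
        (f := fun z : ℝ × ℝ => ‖op (F.Xmat (q, s) b' C.e z.1 (G0 + z.2 • G1)) -
          op (F.Xmat (q, s) b' C.e z0.1 (G0 + z0.2 • G1))‖)
      simpa using h3
    exact (tendsto_order.1 h2).2 τ hτ0
  refine ⟨_, hU, ?_⟩
  have hev : ∀ᶠ ε in 𝓝[>] (0 : ℝ), 0 < ε ∧ ε ≤ ε0 := by
    have := Ioc_mem_nhdsGT hε0
    filter_upwards [this] with ε hε using hε
  filter_upwards [hev] with ε hε
  obtain ⟨K, hK⟩ := hblow ε hε.1 hε.2
  filter_upwards [eventually_ge_atTop K] with k hk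
  rintro z ⟨hz1, hz2⟩
  rw [Metric.mem_ball, Prod.dist_eq, max_lt_iff, Real.dist_eq, Real.dist_eq] at hz2
  have hx : |z.1| ≤ R := by
    have h3 : |z.1| ≤ |z.1 - z0.1| + |z0.1| := by
      have := abs_add_le (z.1 - z0.1) z0.1; simpa using this
    have := abs_nonneg A; have := abs_nonneg B
    rw [hR]; linarith [hz2.1]
  have hGz : F.sz (G0 + z.2 • G1) ≤ R := by
    have h3 : |z.2| ≤ |z0.2| + 1 := by
      have := abs_add_le (z.2 - z0.2) z0.2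
      simp only [sub_add_cancel] at this
      linarith [hz2.2]
    have h4 := F.sz_affine_le G0 G1 z.2
    have h5 : |z.2| * F.sz G1 ≤ (|z0.2| + 1) * F.sz G1 :=
      mul_le_mul_of_nonneg_right h3 (F.sz_nonneg _)
    have := abs_nonneg A; have := abs_nonneg B; have := abs_nonneg z0.1
    rw [hR]; linarith
  have hf' : SepF (op (F.Xmat (q, s) b' C.e z.1 (G0 + z.2 • G1))) f (A + τ) (B - τ) :=
    SepF.perturb_norm hf hz1.le (by rw [hτ]; linarith)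
  have hG00 : (G0 + z.2 • G1) 0 = 0 := by simp [h0, h1]
  obtain ⟨-, -, hli, hsep⟩ := hK k hk z.1 hx (G0 + z.2 • G1) hG00 hGz _ f (A + τ) (B - τ)
    (by
      have h3 := abs_add_le A τ
      rw [abs_of_pos hτ0] at h3
      have := abs_nonneg B; have := abs_nonneg z0.1
      rw [hR]; linarith)
    (by
      have h3 := abs_sub B τ
      rw [abs_of_pos hτ0] at h3
      have := abs_nonneg A; have := abs_nonneg z0.1
      rw [hR]; linarith)
    (by rw [hτ]; linarith) hf'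
  refine ⟨b', ⟨hb'.1.le, hb'.2.le⟩, _, _, _, frm_le_span _ _ _,
    FiniteDimensional.span_of_finite ℝ (Set.finite_range _), ?_, hsep⟩
  rw [finrank_span_eq_card hli]
  simp [C.card]

/-- uniform openness of one closed cut over a compact set of directions -/
theorem SpindleFamily.unif_cls (hb0 : 0 < b0) {a c : ℕ} (ha : 0 < a)
    (hb' : 2 * (c : ℝ) / a ∈ Ioo b0 b1) {q s l : ℕ} (hσ : OK (q, s)) (C : Cls a c s l)
    {Z : Set (ℝ × ℝ)} (hZ : IsCompact Z) (G0 G1 : ℕ →₀ T) (h0 : G0 0 = 0) (h1 : G1 0 = 0)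
    (hop : ∀ z ∈ Z, F.MOpen q C z.1 (G0 + z.2 • G1)) :
    ∀ᶠ ε in 𝓝[>] (0 : ℝ), ∀ᶠ k in atTop, ∀ z ∈ Z,
      F.OpenAt (q, s) (2 * (c : ℝ) / a + ε * z.1) (ε • (G0 + z.2 • G1)) k l := by
  refine hZ.induction_on (p := fun s' => ∀ᶠ ε in 𝓝[>] (0 : ℝ), ∀ᶠ k in atTop, ∀ z ∈ s',
      F.OpenAt (q, s) (2 * (c : ℝ) / a + ε * z.1) (ε • (G0 + z.2 • G1)) k l)
    ?_ ?_ ?_ ?_
  · exact Eventually.of_forall fun ε => Eventually.of_forall fun k z hz =>
      absurd hz (Set.notMem_empty z)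
  · intro s' t hst h
    filter_upwards [h] with ε hε
    filter_upwards [hε] with k hk z hz using hk z (hst hz)
  · intro s' t h h'
    filter_upwards [h, h'] with ε hε hε'
    filter_upwards [hε, hε'] with k hk hk' z hz
    rcases hz with hz | hz
    · exact hk z hz
    · exact hk' z hz
  · intro z hz
    obtain ⟨U, hU, h⟩ := F.unif_local hb0 ha hb' hσ C G0 G1 h0 h1 z (hop z hz)
    exact ⟨U, mem_nhdsWithin_of_mem_nhds hU, h⟩

/-- **uniform openness of all cuts over a compact set of directions at a resonance** -/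
theorem SpindleFamily.unif_all (hb0 : 0 < b0) {a c : ℕ} (ha : 0 < a) (hcop : Nat.Coprime a c)
    (hb' : 2 * (c : ℝ) / a ∈ Ioo b0 b1) (S : Finset (ℕ × ℕ)) (N : ℕ × ℕ → ℕ)
    (hS : ∀ σ ∈ S, OK σ ∧ σ.2 ≤ 1) (pr : ℕ × ℕ → ℕ → Prop) {Z : Set (ℝ × ℝ)} (hZ : IsCompact Z)
    (G0 G1 : ℕ →₀ T) (h0 : G0 0 = 0) (h1 : G1 0 = 0)
    (hop : ∀ σ ∈ S, ∀ l ≤ N σ, pr σ l → ∀ C : Cls a c σ.2 l, ∀ z ∈ Z,
      F.MOpen σ.1 C z.1 (G0 + z.2 • G1)) {δ : ℝ} (hδ : 0 < δ) :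
    ∃ ε0 : ℝ, 0 < ε0 ∧ ∀ ε : ℝ, 0 < ε → ε ≤ ε0 → ∃ K : ℕ, ∀ k, K ≤ k → ∀ z ∈ Z,
      (2 * (c : ℝ) / a + ε * z.1 ∈ Icc b0 b1) ∧ F.sz (ε • (G0 + z.2 • G1)) ≤ δ ∧
      ∀ σ ∈ S, ∀ l ≤ N σ, pr σ l → 
        F.OpenAt σ (2 * (c : ℝ) / a + ε * z.1) (ε • (G0 + z.2 • G1)) k l := by
  classical
  set b' : ℝ := 2 * (c : ℝ) / a with hb'def
  have hb'0 : 0 < b' := hb0.trans hb'.1
  have hbI : b' ∈ Icc b0 b1 := ⟨hb'.1.le, hb'.2.le⟩
  -- a bound for `Z`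
  obtain ⟨R, hR⟩ := hZ.isBounded.exists_norm_le
  set R' : ℝ := |R| + 1 with hR'
  have hR'0 : 0 < R' := by positivity
  have hZR : ∀ z ∈ Z, |z.1| ≤ R' ∧ |z.2| ≤ R' := by
    intro z hz
    have h2 := (hR z hz).trans (le_abs_self R)
    have h3 : |z.1| ≤ ‖z‖ := norm_fst_le z
    have h4 : |z.2| ≤ ‖z‖ := norm_snd_le z
    exact ⟨by rw [hR']; linarith, by rw [hR']; linarith⟩
  set M : ℝ := F.sz G0 + R' * F.sz G1 + 1 with hM
  have hM0 : 0 < M := by have := F.sz_nonneg G0; have := F.sz_nonneg G1; positivity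
  -- smallness facts valid for small `ε`
  have hsm : ∀ η : ℝ, 0 < η → ∀ᶠ ε in 𝓝[>] (0 : ℝ), 0 < ε ∧ ε ≤ η := fun η hη => by
    filter_upwards [Ioc_mem_nhdsGT hη] with ε hε using hε
  have hszle : ∀ ε : ℝ, 0 < ε → ∀ z ∈ Z, F.sz (ε • (G0 + z.2 • G1)) ≤ ε * M := by
    intro ε hε z hz
    rw [F.sz_smul, abs_of_pos hε]
    refine mul_le_mul_of_nonneg_left ?_ hε.le
    have h2 := F.sz_affine_le G0 G1 z.2
    have h3 := mul_le_mul_of_nonneg_right (hZR z hz).2 (F.sz_nonneg G1)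
    rw [hM]; linarith
  have hIcc : ∀ᶠ ε in 𝓝[>] (0 : ℝ), ∀ z ∈ Z, b' + ε * z.1 ∈ Icc b0 b1 := by
    filter_upwards [hsm (min ((b' - b0) / R') ((b1 - b') / R')) (lt_min
      (div_pos (sub_pos.2 hb'.1) hR'0) (div_pos (sub_pos.2 hb'.2) hR'0))] with ε hε z hz
    have h2 := hε.2.trans (min_le_left _ _)
    have h3 := hε.2.trans (min_le_right _ _)
    rw [le_div_iff₀ hR'0] at h2 h3
    have h4 : |ε * z.1| ≤ ε * R' := by
      rw [abs_mul, abs_of_pos hε.1]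
      exact mul_le_mul_of_nonneg_left (hZR z hz).1 hε.1.le
    have h5 := abs_le.1 h4
    constructor
    · linarith [h5.1]
    · linarith [h5.2]
  have hszδ : ∀ δ' : ℝ, 0 < δ' → ∀ᶠ ε in 𝓝[>] (0 : ℝ), ∀ z ∈ Z,
      F.sz (ε • (G0 + z.2 • G1)) ≤ δ' := by
    intro δ' hδ'
    filter_upwards [hsm (δ' / M) (by positivity)] with ε hε z hz
    refine (hszle ε hε.1 z hz).trans ?_
    have := hε.2
    rwa [le_div_iff₀ hM0] at this
  -- openness
  have hopen : ∀ᶠ ε in 𝓝[>] (0 : ℝ), ∀ᶠ k in atTop, ∀ σ ∈ S, ∀ l ≤ N σ, pr σ l → ∀ z ∈ Z,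
      F.OpenAt σ (b' + ε * z.1) (ε • (G0 + z.2 • G1)) k l := by
    have h2 : ∀ σ ∈ S, ∀ l ∈ Finset.range (N σ + 1), ∀ᶠ ε in 𝓝[>] (0 : ℝ), ∀ᶠ k in atTop,
        pr σ l → ∀ z ∈ Z,
        F.OpenAt σ (b' + ε * z.1) (ε • (G0 + z.2 • G1)) k l := by
      intro σ hσ l hl
      by_cases hp : pr σ l
      swap
      · exact Eventually.of_forall fun ε => Eventually.of_forall fun k h => absurd h hp
      by_cases hcl : Closed b' σ.2 l
      · obtain ⟨a', c', ha', hc', hcop', hbe, ⟨C⟩⟩ := exists_cls hb'0 hcl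
        obtain ⟨rfl, rfl⟩ := ac_unique ha ha' hcop hcop' hbe
        filter_upwards [F.unif_cls hb0 ha hb' (q := σ.1) (s := σ.2) (hS σ hσ).1 C hZ G0 G1 h0 h1
          (hop σ hσ l (by simpa [Nat.lt_succ_iff] using hl) hp C)] with ε hε
        filter_upwards [hε] with k hk _ z hz using hk z hz
      · obtain ⟨δ1, hδ1, K, hK⟩ := F.local_open hb0 (hS σ hσ).1 hbI hcl
        filter_upwards [hIcc, hszδ δ1 hδ1, hsm (δ1 / R') (by positivity)] with ε e1 e2 e3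
        filter_upwards [eventually_ge_atTop K] with k hk _ z hz
        refine hK _ (e1 z hz) ?_ _ (by simp [h0, h1]) (e2 z hz) k hk
        have h4 : |ε * z.1| ≤ ε * R' := by
          rw [abs_mul, abs_of_pos e3.1]
          exact mul_le_mul_of_nonneg_left (hZR z hz).1 e3.1.le
        have h5 := e3.2
        rw [le_div_iff₀ hR'0] at h5
        have h6 : b' + ε * z.1 - b' = ε * z.1 := by ring
        rw [h6]; linarith
    have h3 : ∀ᶠ ε in 𝓝[>] (0 : ℝ), ∀ σ ∈ S, ∀ l ∈ Finset.range (N σ + 1), ∀ᶠ k in atTop,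
        pr σ l → ∀ z ∈ Z,
        F.OpenAt σ (b' + ε * z.1) (ε • (G0 + z.2 • G1)) k l := by
      rw [Filter.eventually_all_finset]
      intro σ hσ
      rw [Filter.eventually_all_finset]
      exact fun l hl => h2 σ hσ l hl
    filter_upwards [h3] with ε hε
    have h4 : ∀ᶠ k in atTop, ∀ σ ∈ S, ∀ l ∈ Finset.range (N σ + 1), pr σ l → ∀ z ∈ Z,
        F.OpenAt σ (b' + ε * z.1) (ε • (G0 + z.2 • G1)) k l := by
      rw [Filter.eventually_all_finset]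
      intro σ hσ
      rw [Filter.eventually_all_finset]
      exact fun l hl => hε σ hσ l hl
    filter_upwards [h4] with k hk σ hσ l hl hp z hz
    exact hk σ hσ l (by simpa [Nat.lt_succ_iff] using hl) hp z hz
  have hall : ∀ᶠ ε in 𝓝[>] (0 : ℝ), ∀ᶠ k in atTop, ∀ z ∈ Z,
      (b' + ε * z.1 ∈ Icc b0 b1) ∧ F.sz (ε • (G0 + z.2 • G1)) ≤ δ ∧
      ∀ σ ∈ S, ∀ l ≤ N σ, pr σ l → 
        F.OpenAt σ (b' + ε * z.1) (ε • (G0 + z.2 • G1)) k l := by
    filter_upwards [hopen, hIcc, hszδ δ hδ] with ε e1 e2 e3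
    filter_upwards [e1] with k hk z hz
    exact ⟨e2 z hz, e3 z hz, fun σ hσ l hl hp => hk σ hσ l hl hp z hz⟩
  rw [eventually_nhdsWithin_iff, Metric.eventually_nhds_iff] at hall
  obtain ⟨ε1, hε1, hall⟩ := hall
  refine ⟨ε1 / 2, by positivity, fun ε hε hεle => ?_⟩
  have h2 := hall (y := ε) (by rw [Real.dist_eq, sub_zero, abs_of_pos hε]; linarith) hε
  obtain ⟨K, hK⟩ := eventually_atTop.1 h2
  exact ⟨K, fun k hk => hK k hk⟩

end Crest.Agent.R202.SF
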