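import Crest.Agent.R202.GateAux

/-!
# Row 202, PART C: the window frames of the gate
-/

set_option autoImplicit false

noncomputable section

open Filter Topology Set Module
open scoped InnerProductSpace
open Crest.Agent.R202.Lab Crest.Agent.R202.Cut Crest.Agent.R202.Jac

namespace Crest.Agent.R202.SF

/-- the fixed part `u` of the frame -/
theorem exists_frame {V : Type*} [AddCommGroup V] [Module ℝ V] {g a : Bil V} {ι : Type*}
    {ψ : ι → V} {E : ι → ℝ} (h : Eig g a ψ E) {S : Finset ι} {L m ls : ℕ} {e : Fin L → ι}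
    (he : Function.Injective e) (hdisj : ∀ i, e i ∉ S) (hls : ls = S.card + m)
    (u : Fin m → EuclideanSpace ℝ (Fin L)) (hu : ∀ i j, ⟪u i, u j⟫_ℝ = if i = j then 1 else 0) :
    ∃ U : Fin ls → V, (∀ i, U i ∈ Submodule.span ℝ (Set.range ψ)) ∧
      (∀ i j, g (U i) (U j) = if i = j then 1 else 0) ∧
      (∀ y, (∀ i, ⟪u i, y⟫_ℝ = 0) → ∀ i, g (U i) (Jmap ψ e y) = 0) ∧
      Submodule.span ℝ (Set.range U) = Submodule.span ℝ (ψ '' (S : Set ι)) ⊔
        (Submodule.span ℝ (Set.range u)).map (Jmap ψ e) := by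
  classical
  have hcard : Fintype.card (Fin ls) = Fintype.card (S ⊕ Fin m) := by
    simp [hls]
  let ev : Fin ls ≃ S ⊕ Fin m := Fintype.equivOfCardEq hcard
  have hSJ : ∀ p ∈ S, ∀ y, g (ψ p) (Jmap ψ e y) = 0 := by
    intro p hp y
    rw [Jmap_apply]
    simp only [map_sum, map_smul, smul_eq_mul]
    refine Finset.sum_eq_zero fun i _ => ?_
    rw [h.orth _ _ (fun hh => hdisj i (by rw [← hh]; exact hp)), mul_zero]
  refine ⟨fun i => frm ψ S e u (ev i), ?_, ?_, ?_, ?_⟩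
  · intro i
    show frm ψ S e u (ev i) ∈ _
    rcases ev i with p | j
    · exact Submodule.subset_span ⟨p, rfl⟩
    · exact Jmap_mem_range e (u j)
  · intro i j
    show g (frm ψ S e u (ev i)) (frm ψ S e u (ev j)) = _
    have hij : (i = j) ↔ ev i = ev j := ev.injective.eq_iff.symm
    simp only [hij]
    generalize ev i = x
    generalize ev j = y
    rcases x with p | i' <;> rcases y with q | j'
    · show g (ψ p) (ψ q) = _
      by_cases hpq : p = q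
      · subst hpq; simp [h.one]
      · have h1 : (p : ι) ≠ q := fun hh => hpq (Subtype.ext hh)
        rw [h.orth _ _ h1, if_neg]
        simpa using hpq
    · show g (ψ p) (Jmap ψ e (u j')) = _
      rw [hSJ p p.2, if_neg]
      simp
    · show g (Jmap ψ e (u i')) (ψ q) = _
      rw [h.gsymm, hSJ q q.2, if_neg]
      simp
    · show g (Jmap ψ e (u i')) (Jmap ψ e (u j')) = _
      rw [g_Jmap h he, hu]
      simp
  · intro y hy i
    show g (frm ψ S e u (ev i)) (Jmap ψ e y) = 0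
    rcases ev i with p | j
    · exact hSJ p p.2 y
    · show g (Jmap ψ e (u j)) (Jmap ψ e y) = 0
      rw [g_Jmap h he, hy]
  · rw [← span_frm]
    congr 1
    ext v
    constructor
    · rintro ⟨i, rfl⟩; exact ⟨ev i, rfl⟩
    · rintro ⟨x, rfl⟩; exact ⟨ev.symm x, by simp⟩

/-- span of the rotating frame -/
theorem span_rotV {V : Type*} [AddCommGroup V] [Module ℝ V] {ι : Type*}
    {ψ : ι → V} {S : Finset ι} {L m ls : ℕ} {e : Fin L → ι}
    {u : Fin m → EuclideanSpace ℝ (Fin L)} {U : Fin ls → V}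
    (hU : Submodule.span ℝ (Set.range U) = Submodule.span ℝ (ψ '' (S : Set ι)) ⊔
        (Submodule.span ℝ (Set.range u)).map (Jmap ψ e))
    (B E w : EuclideanSpace ℝ (Fin L)) (c : ℝ × ℝ)
    (hc : c.1 • B + c.2 • E = w ∨ c.1 • B + c.2 • E = -w) :
    Submodule.span ℝ (Set.range (rotV U (Jmap ψ e B) (Jmap ψ e E) c)) =
      Submodule.span ℝ (Set.range (frm ψ S e
        (Fin.snoc (α := fun _ => EuclideanSpace ℝ (Fin L)) u w))) := by
  unfold rotV
  rw [span_snoc, hU, span_frm, span_snoc, Submodule.map_sup, sup_assoc]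
  congr 2
  rw [Submodule.map_span, Set.image_singleton, ← map_smul, ← map_smul, ← map_add]
  rcases hc with hc | hc
  · rw [hc]
  · rw [hc, map_neg, span_neg_singleton]

variable {d : ℕ} {b0 b1 : ℝ} {OK : ℕ × ℕ → Prop} {T : Type*} [AddCommGroup T] [Module ℝ T]
  {V : ℕ × ℕ → Type*} [∀ σ, AddCommGroup (V σ)] [∀ σ, Module ℝ (V σ)]
  (F : SpindleFamily d b0 b1 OK T V)

theorem Cls.notMem_S {a c s l : ℕ} (C : Cls a c s l) (i : Fin (C.P + 1)) : C.e i ∉ C.S := by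
  intro hi
  have h1 := (C.mem_S _).1 hi
  rw [(C.cls _).2 ⟨i, rfl⟩] at h1
  exact lt_irrefl _ h1

/-- **window frames** -/
theorem SpindleFamily.winFrames (hb0 : 0 < b0) {a c : ℕ} (ha : 0 < a)
    (hb' : 2 * (c : ℝ) / a ∈ Ioo b0 b1) {S : Finset (ℕ × ℕ)} {N : ℕ × ℕ → ℕ}
    (hS : ∀ σ ∈ S, OK σ ∧ σ.2 ≤ 1) {σs : ℕ × ℕ} {ls : ℕ} (hσs : σs ∈ S)
    (Cs : Cls a c σs.2 (ls + 1)) (M : MatGateOut F S N σs ls Cs) :
    ∃ (U : Fin ls → V σs) (vB vE : V σs),
      (∀ i, U i ∈ Submodule.span ℝ (Set.range (F.ψ σs (2 * (c : ℝ) / a)))) ∧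
      vB ∈ Submodule.span ℝ (Set.range (F.ψ σs (2 * (c : ℝ) / a))) ∧
      vE ∈ Submodule.span ℝ (Set.range (F.ψ σs (2 * (c : ℝ) / a))) ∧
      (∀ i j, F.g σs (U i) (U j) = if i = j then 1 else 0) ∧
      (∀ i, F.g σs (U i) vB = 0) ∧ (∀ i, F.g σs (U i) vE = 0) ∧
      F.g σs vB vE = 0 ∧ F.g σs vB vB = 1 ∧ F.g σs vE vE = 1 ∧
      ∃ ε0 : ℝ, 0 < ε0 ∧ ∀ ε : ℝ, 0 < ε → ε ≤ ε0 → ∃ K : ℕ, ∀ k, K ≤ k →
        (∀ κ ∈ Icc (-1 : ℝ) 1, ∃ A B : ℝ, Sep (F.g σs)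
          (F.a σs (2 * (c : ℝ) / a + ε * M.xL) (ε • (M.GA + κ • M.GB)) k)
          (Submodule.span ℝ (Set.range (rotV U vB vE (0, -1)))) A B) ∧
        (∀ κ ∈ Icc (-1 : ℝ) 1, ∀ r : ℝ, (r = 1 ∨ r = -1) → ∃ A B : ℝ, Sep (F.g σs)
          (F.a σs (2 * (c : ℝ) / a + ε * M.xR) (ε • (M.GA + κ • M.GB)) k)
          (Submodule.span ℝ (Set.range (rotV U vB vE (r, 0)))) A B) ∧
        (∀ κ : ℝ, (κ = 1 ∨ κ = -1) → ∀ r : ℝ, (r = 1 ∨ r = -1) → ∀ s ∈ Icc (0 : ℝ) 1,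
          ∃ A B : ℝ, Sep (F.g σs)
          (F.a σs (2 * (c : ℝ) / a + ε * ((1 - s) * M.xL + s * M.xR)) (ε • (M.GA + κ • M.GB)) k)
          (Submodule.span ℝ (Set.range (rotV U vB vE
            (r * Real.cos (Real.pi / 2 * (1 - s)), -(r * κ * Real.sin (Real.pi / 2 * (1 - s)))))))
            A B) := by
  classical
  set b' : ℝ := 2 * (c : ℝ) / a with hb'def
  have hb'0 : 0 < b' := hb0.trans hb'.1
  have hbI : b' ∈ Icc b0 b1 := ⟨hb'.1.le, hb'.2.le⟩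
  have h := F.eig σs (hS σs hσs).1 b' hbI
  have he := chE_injective ha Cs.p Cs.P (c := c)
  -- orthonormality
  have hon := orthonormal_iff_ite.1 M.orth
  have huu : ∀ i j, ⟪M.u i, M.u j⟫_ℝ = if i = j then 1 else 0 := fun i j => by
    have := hon (Sum.inl i) (Sum.inl j)
    simpa using this
  have huB : ∀ i, ⟪M.u i, M.B⟫_ℝ = 0 := fun i => by
    have := hon (Sum.inl i) (Sum.inr 0)
    simpa using this
  have huE : ∀ i, ⟪M.u i, M.E⟫_ℝ = 0 := fun i => by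
    have := hon (Sum.inl i) (Sum.inr 1)
    simpa using this
  have hBE : ⟪M.B, M.E⟫_ℝ = 0 := by
    have := hon (Sum.inr 0) (Sum.inr 1)
    simpa using this
  have hBB : ⟪M.B, M.B⟫_ℝ = 1 := by
    have := hon (Sum.inr 0) (Sum.inr 0)
    simpa using this
  have hEE : ⟪M.E, M.E⟫_ℝ = 1 := by
    have := hon (Sum.inr 1) (Sum.inr 1)
    simpa using this
  have hls : ls = Cs.S.card + (Cs.kk - 1) := by
    have h1 := Cs.card
    have h2 := Cs.kk_pos
    omega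
  obtain ⟨U, hUmem, hUU, hUJ, hUspan⟩ := exists_frame h he Cs.notMem_S hls M.u huu
  refine ⟨U, Jmap (F.ψ σs b') Cs.e M.B, Jmap (F.ψ σs b') Cs.e M.E, hUmem,
    Jmap_mem_range _ _, Jmap_mem_range _ _, hUU, hUJ _ huB, hUJ _ huE, ?_, ?_, ?_, ?_⟩
  · rw [g_Jmap h he, hBE]
  · rw [g_Jmap h he, hBB]
  · rw [g_Jmap h he, hEE]
  -- bound for the operators
  have hcont := F.continuous_op σs b' Cs.e M.GA M.GB
  have hcpt : IsCompact (Icc M.xL M.xR ×ˢ Icc (-1 : ℝ) 1) := isCompact_Icc.prod isCompact_Icc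
  obtain ⟨Mx, hMx⟩ := hcpt.exists_bound_of_continuousOn hcont.continuousOn
  set R : ℝ := |Mx| + |M.xL| + |M.xR| + F.sz M.GA + F.sz M.GB with hR
  have hsA := F.sz_nonneg M.GA
  have hsB := F.sz_nonneg M.GB
  have hR0 : 0 ≤ R := by positivity
  obtain ⟨ε0, hε0, hblow⟩ := F.blowup hb0 (σ := σs) (hS σs hσs).1 (b' := b') hb' (J := mu b' Cs.p)
    (mu_nonneg hb'0.le _) (S := Cs.S) Cs.mem_S (L := Cs.P + 1) (e := Cs.e) he Cs.cls R M.gap hR0
    M.gap_pos
  refine ⟨ε0, hε0, fun ε hε hεle => ?_⟩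
  obtain ⟨K, hK⟩ := hblow ε hε hεle
  refine ⟨K, fun k hk => ?_⟩
  -- the key statement
  have key : ∀ x ∈ Icc M.xL M.xR, ∀ κ ∈ Icc (-1 : ℝ) 1, ∀ (w : EuclideanSpace ℝ (Fin (Cs.P + 1)))
      (Λ : ℝ), SepF (op (F.XC σs.1 Cs x (M.GA + κ • M.GB)))
        (Fin.snoc (α := fun _ => EuclideanSpace ℝ (Fin (Cs.P + 1))) M.u w) Λ (Λ + M.gap) →
      ∀ cc : ℝ × ℝ, (cc.1 • M.B + cc.2 • M.E = w ∨ cc.1 • M.B + cc.2 • M.E = -w) →
      ∃ A B : ℝ, Sep (F.g σs) (F.a σs (b' + ε * x) (ε • (M.GA + κ • M.GB)) k)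
        (Submodule.span ℝ (Set.range (rotV U (Jmap (F.ψ σs b') Cs.e M.B)
          (Jmap (F.ψ σs b') Cs.e M.E) cc))) A B := by
    intro x hx κ hκ w Λ hSep cc hcc
    have hn : ‖op (F.XC σs.1 Cs x (M.GA + κ • M.GB))‖ ≤ Mx := hMx (x, κ) ⟨hx, hκ⟩
    have hdim : Cs.kk - 1 + 1 < finrank ℝ (EuclideanSpace ℝ (Fin (Cs.P + 1))) := by
      rw [finrank_euclideanSpace, Fintype.card_fin]
      have h1 := Cs.kk_pos
      have h2 := Cs.kk_le
      show Cs.kk - 1 + 1 < Cs.p.1.2 / c + 1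
      omega
    obtain ⟨hb1, hb2⟩ := sepF_bounds hSep (Nat.succ_pos _) hdim
    have hgap := M.gap_pos
    have hMxR : Mx ≤ R := by
      have h1 := le_abs_self Mx
      have h2 := abs_nonneg M.xL
      have h3 := abs_nonneg M.xR
      rw [hR]; linarith
    have hΛ : |Λ| ≤ R := abs_le.2 ⟨by linarith, by linarith⟩
    have hΛ' : |Λ + M.gap| ≤ R := abs_le.2 ⟨by linarith, by linarith⟩
    have hxR : |x| ≤ R := by
      have h1 : |x| ≤ |M.xL| + |M.xR| := by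
        rw [abs_le]
        constructor
        · linarith [hx.1, neg_abs_le M.xL, abs_nonneg M.xR]
        · linarith [hx.2, le_abs_self M.xR, abs_nonneg M.xL]
      have h2 := abs_nonneg Mx
      rw [hR]; linarith
    have hsz : F.sz (M.GA + κ • M.GB) ≤ R := by
      have h1 := F.sz_affine_le M.GA M.GB κ
      have h2 : |κ| * F.sz M.GB ≤ 1 * F.sz M.GB :=
        mul_le_mul_of_nonneg_right (abs_le.2 hκ) hsB
      have h3 := abs_nonneg Mx
      have h4 := abs_nonneg M.xL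
      have h5 := abs_nonneg M.xR
      rw [hR]; linarith
    have hG00 : (M.GA + κ • M.GB) 0 = 0 := by simp [M.freqA, M.freqB]
    obtain ⟨-, -, -, hsep⟩ := hK k hk x hxR _ hG00 hsz _ _ _ _ hΛ hΛ' le_rfl hSep
    rw [← span_rotV hUspan M.B M.E w cc hcc] at hsep
    exact ⟨_, _, hsep⟩
  have hxL : M.xL ∈ Icc M.xL M.xR := ⟨le_rfl, M.xlt.le⟩
  have hxR : M.xR ∈ Icc M.xL M.xR := ⟨M.xlt.le, le_rfl⟩
  refine ⟨fun κ hκ => ?_, fun κ hκ r hr => ?_, fun κ hκ r hr s hs => ?_⟩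
  · obtain ⟨Λ, hΛ⟩ := M.left κ hκ
    exact key _ hxL κ hκ _ Λ hΛ _ (Or.inr (by simp))
  · obtain ⟨Λ, hΛ⟩ := M.right κ hκ
    refine key _ hxR κ hκ _ Λ hΛ _ ?_
    rcases hr with rfl | rfl
    · left; simp
    · right; simp
  · obtain ⟨Λ, hΛ⟩ := M.mid κ hκ s hs
    have hκI : κ ∈ Icc (-1 : ℝ) 1 := by
      rcases hκ with rfl | rfl <;> constructor <;> norm_num
    refine key _ ?_ κ hκI _ Λ hΛ _ ?_
    · have h1 := M.xlt
      have h2 := hs.1
      have h3 := hs.2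
      constructor
      · nlinarith
      · nlinarith
    · rcases hr with rfl | rfl
      · left
        simp only [one_mul, neg_smul]
        rw [← sub_eq_add_neg]
      · right
        simp only [neg_mul, one_mul, neg_neg, neg_smul, neg_sub]
        abel

end Crest.Agent.R202.SF
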