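import Mathlib
import Crest.Prelude.Def_CoordMetric
import Crest.Prelude.Def_ChartCurvature

/-!
Row 202, Part D: Ricci curvature of diagonal coordinate metrics
`g = ∑ exp (2 a_i) (dx^i)^2`.
-/

set_option autoImplicit false

open scoped ContDiff Topology
open Crest.GeometryTopology.CoordMetric Crest.GeometryTopology.ChartCurvature

namespace Crest.Agent.R202.Geo

noncomputable section

variable {n : ℕ}

/-! ### Calculus of `pderiv` -/

theorem pderiv_congr {i : Fin n} {f h : EuclideanSpace ℝ (Fin n) → ℝ}
    {x : EuclideanSpace ℝ (Fin n)} (e : f =ᶠ[𝓝 x] h) : pderiv i f x = pderiv i h x := by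
  unfold pderiv; rw [e.fderiv_eq]

theorem pderiv_add {i : Fin n} {f h : EuclideanSpace ℝ (Fin n) → ℝ}
    {x : EuclideanSpace ℝ (Fin n)} (hf : DifferentiableAt ℝ f x) (hh : DifferentiableAt ℝ h x) :
    pderiv i (fun y => f y + h y) x = pderiv i f x + pderiv i h x := by
  unfold pderiv; rw [fderiv_fun_add hf hh]; rfl

theorem pderiv_sub {i : Fin n} {f h : EuclideanSpace ℝ (Fin n) → ℝ}
    {x : EuclideanSpace ℝ (Fin n)} (hf : DifferentiableAt ℝ f x) (hh : DifferentiableAt ℝ h x) :
    pderiv i (fun y => f y - h y) x = pderiv i f x - pderiv i h x := by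
  unfold pderiv; rw [fderiv_fun_sub hf hh]; rfl

theorem pderiv_mul {i : Fin n} {f h : EuclideanSpace ℝ (Fin n) → ℝ}
    {x : EuclideanSpace ℝ (Fin n)} (hf : DifferentiableAt ℝ f x) (hh : DifferentiableAt ℝ h x) :
    pderiv i (fun y => f y * h y) x = pderiv i f x * h x + f x * pderiv i h x := by
  unfold pderiv; rw [fderiv_fun_mul hf hh]
  simp [smul_eq_mul]; ring

theorem pderiv_const_mul {i : Fin n} {f : EuclideanSpace ℝ (Fin n) → ℝ} (c : ℝ)
    {x : EuclideanSpace ℝ (Fin n)} (hf : DifferentiableAt ℝ f x) :
    pderiv i (fun y => c * f y) x = c * pderiv i f x := by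
  unfold pderiv; rw [fderiv_const_mul hf]; rfl

@[simp] theorem pderiv_const {i : Fin n} (c : ℝ) {x : EuclideanSpace ℝ (Fin n)} :
    pderiv i (fun _ => c) x = 0 := by
  unfold pderiv; simp

theorem pderiv_exp {i : Fin n} {f : EuclideanSpace ℝ (Fin n) → ℝ}
    {x : EuclideanSpace ℝ (Fin n)} (hf : DifferentiableAt ℝ f x) :
    pderiv i (fun y => Real.exp (f y)) x = Real.exp (f x) * pderiv i f x := by
  unfold pderiv; rw [fderiv_exp hf]; rfl

theorem pderiv_sum {i : Fin n} {ι : Type*} {s : Finset ι}
    {f : ι → EuclideanSpace ℝ (Fin n) → ℝ}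
    {x : EuclideanSpace ℝ (Fin n)} (hf : ∀ k ∈ s, DifferentiableAt ℝ (f k) x) :
    pderiv i (fun y => ∑ k ∈ s, f k y) x = ∑ k ∈ s, pderiv i (f k) x := by
  unfold pderiv; rw [fderiv_fun_sum hf]; simp

theorem differentiableAt_pderiv {i : Fin n} {f : EuclideanSpace ℝ (Fin n) → ℝ}
    {x : EuclideanSpace ℝ (Fin n)} (hf : ContDiffAt ℝ 2 f x) :
    DifferentiableAt ℝ (pderiv i f) x := by
  have h1 : ContDiffAt ℝ 1 (fderiv ℝ f) x := hf.fderiv_right (by norm_num)
  have h2 : ContDiffAt ℝ 1 (fun y => fderiv ℝ f y (EuclideanSpace.single i 1)) x :=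
    h1.clm_apply contDiffAt_const
  exact h2.differentiableAt (by norm_num)

theorem contDiffAt_pderiv {i : Fin n} {f : EuclideanSpace ℝ (Fin n) → ℝ} {k m : ℕ∞}
    {x : EuclideanSpace ℝ (Fin n)} (hf : ContDiffAt ℝ k f x) (hk : m + 1 ≤ k) :
    ContDiffAt ℝ m (pderiv i f) x := by
  have h1 : ContDiffAt ℝ m (fderiv ℝ f) x := hf.fderiv_right (by exact_mod_cast hk)
  exact h1.clm_apply contDiffAt_const

/-- Symmetry of second derivatives. -/
theorem pderiv_comm {i j : Fin n} {f : EuclideanSpace ℝ (Fin n) → ℝ}
    {x : EuclideanSpace ℝ (Fin n)} (hf : ContDiffAt ℝ 2 f x) :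
    pderiv i (pderiv j f) x = pderiv j (pderiv i f) x := by
  have hs : IsSymmSndFDerivAt ℝ f x := hf.isSymmSndFDerivAt (by simp)
  have hd : DifferentiableAt ℝ (fderiv ℝ f) x :=
    (hf.fderiv_right (m := 1) (by norm_num)).differentiableAt (by norm_num)
  have key : ∀ p q : Fin n, pderiv p (pderiv q f) x =
      fderiv ℝ (fderiv ℝ f) x (EuclideanSpace.single p 1) (EuclideanSpace.single q 1) := by
    intro p q
    unfold pderiv
    have := (hd.hasFDerivAt.clm_apply (hasFDerivAt_const (EuclideanSpace.single q (1:ℝ)) x)).fderiv
    rw [this]; simp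
  rw [key, key]
  exact hs _ _

/-! ### Diagonal metrics -/

/-- The diagonal metric field with entries `exp (2 a_i)`. -/
def diagMetric (a : Fin n → EuclideanSpace ℝ (Fin n) → ℝ) : MetricField n :=
  fun x => Matrix.diagonal fun i => Real.exp (2 * a i x)

variable {a : Fin n → EuclideanSpace ℝ (Fin n) → ℝ}

theorem diagMetric_apply (x : EuclideanSpace ℝ (Fin n)) (i j : Fin n) :
    diagMetric a x i j = if i = j then Real.exp (2 * a i x) else 0 := by
  simp [diagMetric, Matrix.diagonal_apply]

theorem inverseField_diagMetric (x : EuclideanSpace ℝ (Fin n)) (i j : Fin n) :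
    inverseField (diagMetric a) x i j = if i = j then Real.exp (-(2 * a i x)) else 0 := by
  have h : (diagMetric a x)⁻¹ = Matrix.diagonal fun i => Real.exp (-(2 * a i x)) := by
    apply Matrix.inv_eq_right_inv
    rw [diagMetric, Matrix.diagonal_mul_diagonal]
    have : (fun i => Real.exp (2 * a i x) * Real.exp (-(2 * a i x))) = fun _ => (1:ℝ) := by
      funext i; rw [← Real.exp_add]; simp
    rw [this, Matrix.diagonal_one]
  simp [inverseField, h, Matrix.diagonal_apply]

theorem pderiv_diagMetric {x : EuclideanSpace ℝ (Fin n)} (ha : ∀ i, DifferentiableAt ℝ (a i) x)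
    (k i j : Fin n) :
    pderiv k (fun y => diagMetric a y i j) x =
      if i = j then 2 * Real.exp (2 * a i x) * pderiv k (a i) x else 0 := by
  by_cases h : i = j
  · subst h
    simp only [diagMetric_apply, if_true]
    rw [pderiv_exp ((ha i).const_mul 2), pderiv_const_mul 2 (ha i)]; ring
  · simp [diagMetric_apply, h]

/-- Christoffel symbols of a diagonal metric. -/
theorem christoffel_diagMetric {x : EuclideanSpace ℝ (Fin n)}
    (ha : ∀ i, DifferentiableAt ℝ (a i) x) (k i j : Fin n) :
    christoffel (diagMetric a) x k i j =
      (if j = k then pderiv i (a k) x else 0) + (if i = k then pderiv j (a k) x else 0)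
        - (if i = j then Real.exp (2 * (a i x - a k x)) * pderiv k (a i) x else 0) := by
  unfold christoffel
  have h1 : ∀ l, inverseField (diagMetric a) x k l *
      (pderiv i (fun y => diagMetric a y j l) x + pderiv j (fun y => diagMetric a y i l) x
        - pderiv l (fun y => diagMetric a y i j) x) =
      if k = l then Real.exp (-(2 * a k x)) *
      (pderiv i (fun y => diagMetric a y j l) x + pderiv j (fun y => diagMetric a y i l) x
        - pderiv l (fun y => diagMetric a y i j) x) else 0 := by
    intro l; rw [inverseField_diagMetric]; split_ifs <;> simp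
  rw [Finset.sum_congr rfl fun l _ => h1 l, Finset.sum_ite_eq Finset.univ k]
  simp only [Finset.mem_univ, if_true]
  rw [pderiv_diagMetric ha, pderiv_diagMetric ha, pderiv_diagMetric ha]
  have e1 : Real.exp (-(2 * a k x)) * Real.exp (2 * a k x) = 1 := by
    rw [← Real.exp_add]; simp
  have e2 : Real.exp (2 * (a i x - a k x)) = Real.exp (-(2 * a k x)) * Real.exp (2 * a i x) := by
    rw [← Real.exp_add]; congr 1; ring
  by_cases hjk : j = k
  · subst hjk
    by_cases hij : i = j
    · subst hij
      simp only [if_true, sub_self, mul_zero, Real.exp_zero]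
      linear_combination (pderiv i (a i) x) * e1
    · simp only [if_true, if_neg hij]
      linear_combination (pderiv i (a j) x) * e1
  · by_cases hik : i = k
    · subst hik
      have hij : ¬ i = j := fun h => hjk h.symm
      simp only [if_neg hjk, if_true, if_neg hij]
      linear_combination (pderiv j (a i) x) * e1
    · by_cases hij : i = j
      · subst hij
        simp only [if_neg hjk, if_true]
        rw [e2]; ring
      · simp only [if_neg hjk, if_neg hik, if_neg hij]; ring

theorem sum_christoffel_diagMetric {x : EuclideanSpace ℝ (Fin n)}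
    (ha : ∀ i, DifferentiableAt ℝ (a i) x) (i : Fin n) :
    ∑ k, christoffel (diagMetric a) x k k i = ∑ k, pderiv i (a k) x := by
  have : ∀ k, christoffel (diagMetric a) x k k i = pderiv i (a k) x := by
    intro k
    rw [christoffel_diagMetric ha]
    by_cases hik : i = k
    · subst hik; simp
    · have h' : ¬ k = i := fun h => hik h.symm
      simp [hik, h']
  exact Finset.sum_congr rfl fun k _ => this k

theorem pderiv_christoffel_diagMetric {x : EuclideanSpace ℝ (Fin n)}
    (ha : ∀ i, ContDiffAt ℝ 2 (a i) x) (p k i j : Fin n) :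
    pderiv p (fun y => christoffel (diagMetric a) y k i j) x =
      (if j = k then pderiv p (pderiv i (a k)) x else 0)
        + (if i = k then pderiv p (pderiv j (a k)) x else 0)
        - (if i = j then Real.exp (2 * (a i x - a k x)) *
            (pderiv p (pderiv k (a i)) x
              + 2 * (pderiv p (a i) x - pderiv p (a k) x) * pderiv k (a i) x) else 0) := by
  have hev : ∀ᶠ y in 𝓝 x, ∀ i, DifferentiableAt ℝ (a i) y := by
    rw [Filter.eventually_all]
    intro i
    have := (ha i).eventually (by simp)
    filter_upwards [this] with y hy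
    exact hy.differentiableAt (by norm_num)
  have hda : ∀ i, DifferentiableAt ℝ (a i) x := fun i => (ha i).differentiableAt (by norm_num)
  have hdp : ∀ i k, DifferentiableAt ℝ (pderiv k (a i)) x := fun i k =>
    differentiableAt_pderiv (ha i)
  have e : (fun y => christoffel (diagMetric a) y k i j) =ᶠ[𝓝 x] fun y =>
      (if j = k then pderiv i (a k) y else 0) + (if i = k then pderiv j (a k) y else 0)
        - (if i = j then Real.exp (2 * (a i y - a k y)) * pderiv k (a i) y else 0) := by
    filter_upwards [hev] with y hy
    exact christoffel_diagMetric hy k i j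
  rw [pderiv_congr e]
  have d1 : DifferentiableAt ℝ (fun y => if j = k then pderiv i (a k) y else 0) x := by
    split_ifs
    · exact hdp _ _
    · exact differentiableAt_const _
  have d2 : DifferentiableAt ℝ (fun y => if i = k then pderiv j (a k) y else 0) x := by
    split_ifs
    · exact hdp _ _
    · exact differentiableAt_const _
  have d0 : DifferentiableAt ℝ (fun y => a i y - a k y) x := (hda i).fun_sub (hda k)
  have d00 : DifferentiableAt ℝ (fun y => 2 * (a i y - a k y)) x := d0.const_mul 2
  have dexp : DifferentiableAt ℝ (fun y => Real.exp (2 * (a i y - a k y))) x := d00.exp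
  have d3 : DifferentiableAt ℝ (fun y => if i = j then
      Real.exp (2 * (a i y - a k y)) * pderiv k (a i) y else 0) x := by
    split_ifs
    · exact dexp.mul (hdp _ _)
    · exact differentiableAt_const _
  rw [pderiv_sub (d1.fun_add d2) d3, pderiv_add d1 d2]
  congr 1
  · congr 1
    · split_ifs
      · rfl
      · simp
    · split_ifs
      · rfl
      · simp
  · split_ifs
    · rw [pderiv_mul dexp (hdp _ _), pderiv_exp d00,
        pderiv_const_mul 2 d0, pderiv_sub (hda i) (hda k)]
      ring
    · simp

/-- **Ricci tensor of a diagonal metric** `∑ exp (2 a_i) (dx^i)^2`. -/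
theorem ricci_diagMetric {x : EuclideanSpace ℝ (Fin n)}
    (ha : ∀ i, ContDiffAt ℝ 2 (a i) x) (i j : Fin n) :
    ricci (diagMetric a) x i j =
      pderiv i (pderiv j (a i)) x + pderiv i (pderiv j (a j)) x
        - (∑ k, pderiv i (pderiv j (a k)) x)
        + (∑ k, pderiv j (a k) x) * pderiv i (a j) x
        + (∑ k, pderiv i (a k) x) * pderiv j (a i) x
        - (∑ k, pderiv i (a k) x * pderiv j (a k) x)
        - 2 * (pderiv i (a j) x * pderiv j (a i) x)
        - (if i = j then ∑ k, Real.exp (2 * (a i x - a k x)) *
            (pderiv k (pderiv k (a i)) x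
              + ((∑ l, pderiv k (a l) x) - 2 * pderiv k (a k) x) * pderiv k (a i) x) else 0) := by
  have hda : ∀ i, DifferentiableAt ℝ (a i) x := fun i => (ha i).differentiableAt (by norm_num)
  have hev : ∀ᶠ y in 𝓝 x, ∀ i, DifferentiableAt ℝ (a i) y := by
    rw [Filter.eventually_all]
    intro i
    have := (ha i).eventually (by simp)
    filter_upwards [this] with y hy
    exact hy.differentiableAt (by norm_num)
  have hdp : ∀ i k, DifferentiableAt ℝ (pderiv k (a i)) x := fun i k =>
    differentiableAt_pderiv (ha i)
  unfold ricci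
  -- first term
  have T1 : ∑ k, pderiv k (fun y => christoffel (diagMetric a) y k i j) x =
      pderiv i (pderiv j (a j)) x + pderiv i (pderiv j (a i)) x
        - (if i = j then ∑ k, Real.exp (2 * (a i x - a k x)) *
            (pderiv k (pderiv k (a i)) x
              + 2 * (pderiv k (a i) x - pderiv k (a k) x) * pderiv k (a i) x) else 0) := by
    simp_rw [pderiv_christoffel_diagMetric ha]
    rw [Finset.sum_sub_distrib, Finset.sum_add_distrib, Finset.sum_ite_eq, Finset.sum_ite_eq]
    simp only [Finset.mem_univ, if_true]
    rw [pderiv_comm (i := j) (j := i) (ha j)]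
    split_ifs
    · rfl
    · simp
  -- second term
  have T2 : pderiv j (fun y => ∑ k, christoffel (diagMetric a) y k k i) x =
      ∑ k, pderiv i (pderiv j (a k)) x := by
    have e : (fun y => ∑ k, christoffel (diagMetric a) y k k i) =ᶠ[𝓝 x]
        fun y => ∑ k, pderiv i (a k) y := by
      filter_upwards [hev] with y hy
      exact sum_christoffel_diagMetric hy i
    rw [pderiv_congr e, pderiv_sum fun k _ => hdp _ _]
    exact Finset.sum_congr rfl fun k _ => pderiv_comm (ha k)
  -- third term
  have T3 : ∑ k, ∑ l, christoffel (diagMetric a) x k k l * christoffel (diagMetric a) x l i j =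
      (∑ k, pderiv j (a k) x) * pderiv i (a j) x + (∑ k, pderiv i (a k) x) * pderiv j (a i) x
        - (if i = j then ∑ l, Real.exp (2 * (a i x - a l x)) *
            ((∑ k, pderiv l (a k) x) * pderiv l (a i) x) else 0) := by
    rw [Finset.sum_comm]
    simp_rw [← Finset.sum_mul, sum_christoffel_diagMetric hda, christoffel_diagMetric hda, mul_sub,
      mul_add, mul_ite, mul_zero]
    rw [Finset.sum_sub_distrib, Finset.sum_add_distrib, Finset.sum_ite_eq, Finset.sum_ite_eq]
    simp only [Finset.mem_univ, if_true]
    congr 1
    split_ifs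
    · exact Finset.sum_congr rfl fun l _ => by ring
    · simp
  -- fourth term
  have T4 : ∑ k, ∑ l, christoffel (diagMetric a) x k j l * christoffel (diagMetric a) x l k i =
      (∑ k, pderiv i (a k) x * pderiv j (a k) x) + 2 * (pderiv i (a j) x * pderiv j (a i) x)
        - (if i = j then ∑ k, Real.exp (2 * (a i x - a k x)) *
            (2 * (pderiv k (a i) x * pderiv k (a i) x)) else 0) := by
    have s1 : ∀ k, ∑ l, christoffel (diagMetric a) x k j l * christoffel (diagMetric a) x l k i =
        pderiv j (a k) x * christoffel (diagMetric a) x k k i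
          + (if j = k then ∑ l, pderiv l (a j) x * christoffel (diagMetric a) x l j i else 0)
          - Real.exp (2 * (a j x - a k x)) * pderiv k (a j) x *
              christoffel (diagMetric a) x j k i := by
      intro k
      have s2 : ∀ l, christoffel (diagMetric a) x k j l * christoffel (diagMetric a) x l k i =
          (if l = k then pderiv j (a k) x * christoffel (diagMetric a) x k k i else 0)
          + (if j = k then pderiv l (a j) x * christoffel (diagMetric a) x l j i else 0)
          - (if j = l then Real.exp (2 * (a j x - a k x)) * pderiv k (a j) x *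
              christoffel (diagMetric a) x j k i else 0) := by
        intro l
        rw [christoffel_diagMetric hda k j l]
        by_cases h1 : l = k
        · subst h1
          by_cases h2 : j = l
          · subst h2; simp
          · simp [h2]
        · by_cases h2 : j = k
          · subst h2
            have h3 : ¬ j = l := fun h => h1 h.symm
            simp [h1, h3]
          · by_cases h3 : j = l
            · subst h3
              simp [h1]
            · simp [h1, h2, h3]
      simp_rw [s2]
      rw [Finset.sum_sub_distrib, Finset.sum_add_distrib]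
      congr 1
      · congr 1
        · rw [Finset.sum_ite_eq']; simp
        · split_ifs
          · rfl
          · simp
      · rw [Finset.sum_ite_eq]; simp
    simp_rw [s1]
    rw [Finset.sum_sub_distrib, Finset.sum_add_distrib, Finset.sum_ite_eq]
    simp only [Finset.mem_univ, if_true]
    have q1 : ∀ k, christoffel (diagMetric a) x k k i = pderiv i (a k) x := by
      intro k
      rw [christoffel_diagMetric hda]
      by_cases hik : i = k
      · subst hik; simp
      · have h' : ¬ k = i := fun h => hik h.symm
        simp [hik, h']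
    have q2 : ∑ l, pderiv l (a j) x * christoffel (diagMetric a) x l j i =
        pderiv i (a j) x * pderiv j (a i) x + pderiv j (a j) x * pderiv i (a j) x
          - (if i = j then ∑ l, Real.exp (2 * (a i x - a l x)) *
              (pderiv l (a i) x * pderiv l (a i) x) else 0) := by
      simp_rw [christoffel_diagMetric hda, mul_sub, mul_add, mul_ite, mul_zero]
      rw [Finset.sum_sub_distrib, Finset.sum_add_distrib, Finset.sum_ite_eq, Finset.sum_ite_eq]
      simp only [Finset.mem_univ, if_true]
      congr 1
      by_cases hij : i = j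
      · subst hij
        simp only [if_true]
        exact Finset.sum_congr rfl fun l _ => by ring
      · have h' : ¬ j = i := fun h => hij h.symm
        simp [hij, h']
    have q3 : ∑ k, Real.exp (2 * (a j x - a k x)) * pderiv k (a j) x *
              christoffel (diagMetric a) x j k i =
        (if i = j then ∑ k, Real.exp (2 * (a i x - a k x)) *
              (pderiv k (a i) x * pderiv k (a i) x) else 0)
          + pderiv j (a j) x * pderiv i (a j) x - pderiv i (a j) x * pderiv j (a i) x := by
      simp_rw [christoffel_diagMetric hda, mul_sub, mul_add, mul_ite, mul_zero]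
      rw [Finset.sum_sub_distrib, Finset.sum_add_distrib, Finset.sum_ite_eq', Finset.sum_ite_eq']
      simp only [Finset.mem_univ, if_true, sub_self, Real.exp_zero, one_mul]
      have e3 : Real.exp (2 * a j x - 2 * a i x) * Real.exp (2 * a i x - 2 * a j x) = 1 := by
        rw [← Real.exp_add]
        have : 2 * a j x - 2 * a i x + (2 * a i x - 2 * a j x) = 0 := by ring
        rw [this, Real.exp_zero]
      congr 1
      · congr 1
        by_cases hij : i = j
        · subst hij
          simp only [if_true]
          exact Finset.sum_congr rfl fun l _ => by ring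
        · simp [hij]
      · linear_combination (pderiv i (a j) x * pderiv j (a i) x) * e3
    rw [q2, q3]
    simp_rw [q1]
    have q4 : ∑ k, pderiv j (a k) x * pderiv i (a k) x = ∑ k, pderiv i (a k) x * pderiv j (a k) x :=
      Finset.sum_congr rfl fun k _ => by ring
    rw [q4]
    by_cases hij : i = j
    · subst hij
      simp only [if_true]
      have q5 : ∑ k, Real.exp (2 * (a i x - a k x)) * (2 * (pderiv k (a i) x * pderiv k (a i) x))
          = 2 * ∑ k, Real.exp (2 * (a i x - a k x)) * (pderiv k (a i) x * pderiv k (a i) x) := by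
        rw [Finset.mul_sum]
        exact Finset.sum_congr rfl fun l _ => by ring
      rw [q5]; ring
    · simp only [if_neg hij]; ring
  rw [T1, T2, T3, T4]
  by_cases hij : i = j
  · subst hij
    simp only [if_true]
    have q6 : ∑ k, Real.exp (2 * (a i x - a k x)) *
            (pderiv k (pderiv k (a i)) x
              + ((∑ l, pderiv k (a l) x) - 2 * pderiv k (a k) x) * pderiv k (a i) x) =
        (∑ k, Real.exp (2 * (a i x - a k x)) *
            (pderiv k (pderiv k (a i)) x
              + 2 * (pderiv k (a i) x - pderiv k (a k) x) * pderiv k (a i) x))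
        + (∑ l, Real.exp (2 * (a i x - a l x)) *
            ((∑ k, pderiv l (a k) x) * pderiv l (a i) x))
        - ∑ k, Real.exp (2 * (a i x - a k x)) *
            (2 * (pderiv k (a i) x * pderiv k (a i) x)) := by
      rw [← Finset.sum_add_distrib, ← Finset.sum_sub_distrib]
      exact Finset.sum_congr rfl fun l _ => by ring
    rw [q6]; ring
  · simp only [if_neg hij]; ring

end

end Crest.Agent.R202.Geo
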