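import Mathlib
import Crest.Prelude.Def_CoordMetric
import Crest.Prelude.Def_ChartCurvature
import Crest.Agent.R202.GeoDefs
import Crest.Agent.R202.GeoDiag

/-!
Row 202, Part D: polar type coordinates `(t, X, φ, η)` and the pullback of `gfam`.
-/

set_option autoImplicit false

open scoped ContDiff Topology
open Crest.GeometryTopology.CoordMetric Crest.GeometryTopology.ChartCurvature

namespace Crest.Agent.R202.Geo

noncomputable section

variable {m : ℕ}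

/-- `|η|²`, `η_k = q (k+3)`. -/
def NN (q : EuclideanSpace ℝ (Fin (m + 3))) : ℝ := ∑ k : Fin m, q k.succ.succ.succ ^ 2

theorem NN_nonneg (q : EuclideanSpace ℝ (Fin (m + 3))) : 0 ≤ NN q :=
  Finset.sum_nonneg fun _ _ => sq_nonneg _

theorem NN_pos' (q : EuclideanSpace ℝ (Fin (m + 3))) : 0 < 1 + NN q := by
  have := NN_nonneg q; linarith

/-- Polar coordinates `q = (t, X, φ, η)`; `ε = ±1` chooses the hemisphere of the `y`-sphere. -/
def Psi (ε : ℝ) (q : EuclideanSpace ℝ (Fin (m + 3))) : EuclideanSpace ℝ (Fin (m + 3)) :=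
  WithLp.toLp 2
    (Fin.cons (Real.exp (q 0) * (Real.sqrt (1 - q 1 ^ 2) * Real.cos (q 2)))
    (Fin.cons (Real.exp (q 0) * (Real.sqrt (1 - q 1 ^ 2) * Real.sin (q 2)))
    (Fin.cons (Real.exp (q 0) * (q 1 * (ε * (2 / (1 + NN q) - 1))))
      fun k : Fin m => Real.exp (q 0) * (q 1 * (ε * (2 * q k.succ.succ.succ / (1 + NN q)))))))

theorem Psi_zero (ε : ℝ) (q : EuclideanSpace ℝ (Fin (m + 3))) :
    Psi ε q 0 = Real.exp (q 0) * (Real.sqrt (1 - q 1 ^ 2) * Real.cos (q 2)) := rfl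

theorem Psi_one (ε : ℝ) (q : EuclideanSpace ℝ (Fin (m + 3))) :
    Psi ε q 1 = Real.exp (q 0) * (Real.sqrt (1 - q 1 ^ 2) * Real.sin (q 2)) := rfl

theorem Psi_two (ε : ℝ) (q : EuclideanSpace ℝ (Fin (m + 3))) :
    Psi ε q 2 = Real.exp (q 0) * (q 1 * (ε * (2 / (1 + NN q) - 1))) := rfl

theorem Psi_succ (ε : ℝ) (q : EuclideanSpace ℝ (Fin (m + 3))) (k : Fin m) :
    Psi ε q k.succ.succ.succ =
      Real.exp (q 0) * (q 1 * (ε * (2 * q k.succ.succ.succ / (1 + NN q)))) := rfl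

/-- Sums over `Fin (m+3)`. -/
theorem sum3 {M : Type*} [AddCommMonoid M] (f : Fin (m + 3) → M) :
    ∑ i, f i = f 0 + (f 1 + (f 2 + ∑ k : Fin m, f k.succ.succ.succ)) := by
  rw [Fin.sum_univ_succ, Fin.sum_univ_succ, Fin.sum_univ_succ]; rfl

/-- The domain of the polar coordinates. -/
def VV (m : ℕ) : Set (EuclideanSpace ℝ (Fin (m + 3))) := {q | 0 < q 1 ∧ q 1 < 1}

theorem isOpen_VV : IsOpen (VV m) := by
  have h1 : Continuous fun q : EuclideanSpace ℝ (Fin (m + 3)) => q 1 := by fun_prop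
  exact (isOpen_lt continuous_const h1).inter (isOpen_lt h1 continuous_const)

theorem one_sub_sq_pos {q : EuclideanSpace ℝ (Fin (m + 3))} (hq : q ∈ VV m) :
    0 < 1 - q 1 ^ 2 := by
  obtain ⟨h0, h1⟩ := hq
  nlinarith

/-- Projection as a continuous linear map. -/
abbrev pr (i : Fin (m + 3)) : EuclideanSpace ℝ (Fin (m + 3)) →L[ℝ] ℝ := EuclideanSpace.proj i

theorem hasFDerivAt_pr (i : Fin (m + 3)) (q : EuclideanSpace ℝ (Fin (m + 3))) :
    HasFDerivAt (fun q : EuclideanSpace ℝ (Fin (m + 3)) => q i) (pr i) q :=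
  (pr i).hasFDerivAt

/-- `∑ η_k v_k`. -/
def ev (q v : EuclideanSpace ℝ (Fin (m + 3))) : ℝ :=
  ∑ k : Fin m, q k.succ.succ.succ * v k.succ.succ.succ

theorem hasFDerivAt_NN (q : EuclideanSpace ℝ (Fin (m + 3))) :
    HasFDerivAt (NN (m := m)) (∑ k : Fin m, (2 * q k.succ.succ.succ) • pr k.succ.succ.succ) q := by
  unfold NN
  refine HasFDerivAt.fun_sum fun k _ => ?_
  have := (hasFDerivAt_pr k.succ.succ.succ q).pow 2
  refine this.congr_fderiv ?_
  ext v; simp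

theorem fderiv_NN (q v : EuclideanSpace ℝ (Fin (m + 3))) :
    fderiv ℝ (NN (m := m)) q v = 2 * ev q v := by
  rw [(hasFDerivAt_NN q).fderiv]
  simp only [sum_apply, smul_apply, ev, Finset.mul_sum]
  exact Finset.sum_congr rfl fun k _ => by simp; ring

theorem hasFDerivAt_exp (q : EuclideanSpace ℝ (Fin (m + 3))) :
    HasFDerivAt (fun q : EuclideanSpace ℝ (Fin (m + 3)) => Real.exp (q 0))
      (Real.exp (q 0) • pr 0) q := (hasFDerivAt_pr 0 q).exp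

theorem hasFDerivAt_rt {q : EuclideanSpace ℝ (Fin (m + 3))} (hq : q ∈ VV m) :
    HasFDerivAt (fun q : EuclideanSpace ℝ (Fin (m + 3)) => Real.sqrt (1 - q 1 ^ 2))
      ((-(q 1 / Real.sqrt (1 - q 1 ^ 2))) • pr 1) q := by
  have h := ((hasFDerivAt_pr (m := m) 1 q).pow 2).const_sub 1
  have h2 := h.sqrt (one_sub_sq_pos hq).ne'
  refine h2.congr_fderiv ?_
  ext v
  simp
  ring

theorem fderiv_Psi_zero (ε : ℝ) {q : EuclideanSpace ℝ (Fin (m + 3))} (hq : q ∈ VV m)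
    (v : EuclideanSpace ℝ (Fin (m + 3))) :
    fderiv ℝ (fun q => Psi ε q 0) q v =
      Real.exp (q 0) * (Real.sqrt (1 - q 1 ^ 2) * Real.cos (q 2) * v 0
        - q 1 / Real.sqrt (1 - q 1 ^ 2) * Real.cos (q 2) * v 1
        - Real.sqrt (1 - q 1 ^ 2) * Real.sin (q 2) * v 2) := by
  have h := (hasFDerivAt_exp q).fun_mul ((hasFDerivAt_rt hq).fun_mul (hasFDerivAt_pr 2 q).cos)
  have : HasFDerivAt (fun q => Psi ε q 0) _ q := h
  rw [this.fderiv]
  simp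
  ring

theorem fderiv_Psi_one (ε : ℝ) {q : EuclideanSpace ℝ (Fin (m + 3))} (hq : q ∈ VV m)
    (v : EuclideanSpace ℝ (Fin (m + 3))) :
    fderiv ℝ (fun q => Psi ε q 1) q v =
      Real.exp (q 0) * (Real.sqrt (1 - q 1 ^ 2) * Real.sin (q 2) * v 0
        - q 1 / Real.sqrt (1 - q 1 ^ 2) * Real.sin (q 2) * v 1
        + Real.sqrt (1 - q 1 ^ 2) * Real.cos (q 2) * v 2) := by
  have h := (hasFDerivAt_exp q).fun_mul ((hasFDerivAt_rt hq).fun_mul (hasFDerivAt_pr 2 q).sin)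
  have : HasFDerivAt (fun q => Psi ε q 1) _ q := h
  rw [this.fderiv]
  simp
  ring

theorem hasFDerivAt_invN (q : EuclideanSpace ℝ (Fin (m + 3))) :
    HasFDerivAt (fun q : EuclideanSpace ℝ (Fin (m + 3)) => (1 + NN q)⁻¹)
      ((-((1 + NN q) ^ 2)⁻¹) • (∑ k : Fin m, (2 * q k.succ.succ.succ) • pr k.succ.succ.succ)) q := by
  have h := (hasFDerivAt_NN q).const_add 1
  have h2 := (hasDerivAt_inv (NN_pos' q).ne').comp_hasFDerivAt q h
  exact h2

theorem fderiv_Psi_two (ε : ℝ) (q : EuclideanSpace ℝ (Fin (m + 3)))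
    (v : EuclideanSpace ℝ (Fin (m + 3))) :
    fderiv ℝ (fun q => Psi ε q 2) q v =
      Real.exp (q 0) * (ε * ((2 / (1 + NN q) - 1) * (q 1 * v 0 + v 1)
        - q 1 * (4 / (1 + NN q) ^ 2 * ev q v))) := by
  have h1 := ((hasFDerivAt_invN q).const_mul 2).sub_const 1
  have h := (hasFDerivAt_exp q).fun_mul ((hasFDerivAt_pr 1 q).fun_mul (h1.const_mul ε))
  have : HasFDerivAt (fun q => Psi ε q 2) _ q := h
  rw [this.fderiv]
  have e : (∑ k : Fin m, (2 * q k.succ.succ.succ) • pr k.succ.succ.succ) v = 2 * ev q v := by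
    rw [← (hasFDerivAt_NN q).fderiv, fderiv_NN]
  simp only [add_apply, smul_apply, e, smul_eq_mul]
  have e0 : (pr 0 : EuclideanSpace ℝ (Fin (m + 3)) →L[ℝ] ℝ) v = v 0 := rfl
  have e1 : (pr 1 : EuclideanSpace ℝ (Fin (m + 3)) →L[ℝ] ℝ) v = v 1 := rfl
  rw [e0, e1]
  field_simp
  ring

theorem fderiv_Psi_succ (ε : ℝ) (q : EuclideanSpace ℝ (Fin (m + 3))) (k : Fin m)
    (v : EuclideanSpace ℝ (Fin (m + 3))) :
    fderiv ℝ (fun q => Psi ε q k.succ.succ.succ) q v =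
      Real.exp (q 0) * (ε * (2 * q k.succ.succ.succ / (1 + NN q) * (q 1 * v 0 + v 1)
        + q 1 * (2 * v k.succ.succ.succ / (1 + NN q)
          - 4 * q k.succ.succ.succ / (1 + NN q) ^ 2 * ev q v))) := by
  have h1 := ((hasFDerivAt_pr k.succ.succ.succ q).const_mul 2).fun_mul (hasFDerivAt_invN q)
  have h := (hasFDerivAt_exp q).fun_mul ((hasFDerivAt_pr 1 q).fun_mul (h1.const_mul ε))
  have : HasFDerivAt (fun q => Psi ε q k.succ.succ.succ) _ q := h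
  rw [this.fderiv]
  have e : (∑ k : Fin m, (2 * q k.succ.succ.succ) • pr k.succ.succ.succ) v = 2 * ev q v := by
    rw [← (hasFDerivAt_NN q).fderiv, fderiv_NN]
  simp only [add_apply, smul_apply, e, smul_eq_mul]
  have e0 : (pr 0 : EuclideanSpace ℝ (Fin (m + 3)) →L[ℝ] ℝ) v = v 0 := rfl
  have e1 : (pr 1 : EuclideanSpace ℝ (Fin (m + 3)) →L[ℝ] ℝ) v = v 1 := rfl
  have e2 : (pr k.succ.succ.succ : EuclideanSpace ℝ (Fin (m + 3)) →L[ℝ] ℝ) v
    = v k.succ.succ.succ := rfl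
  rw [e0, e1, e2]
  field_simp
  ring

/-! ### Values of the geometric functions at `Psi ε q` -/

theorem w_sq (q : EuclideanSpace ℝ (Fin (m + 3))) :
    (2 / (1 + NN q) - 1) ^ 2 + ∑ k : Fin m, (2 * q k.succ.succ.succ / (1 + NN q)) ^ 2 = 1 := by
  have h : ∀ c : ℝ, ∑ k : Fin m, (2 * q k.succ.succ.succ / c) ^ 2 = 4 / c ^ 2 * NN q := by
    intro c
    rw [NN, Finset.mul_sum]
    exact Finset.sum_congr rfl fun k _ => by ring
  rw [h]
  have := (NN_pos' q).ne'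
  field_simp
  ring

theorem rho_Psi (ε : ℝ) {q : EuclideanSpace ℝ (Fin (m + 3))} (hq : q ∈ VV m) :
    rho (Psi ε q) = Real.exp (q 0) * Real.sqrt (1 - q 1 ^ 2) := by
  unfold rho
  rw [Psi_zero, Psi_one]
  have h1 := one_sub_sq_pos hq
  have e : (Real.exp (q 0) * (Real.sqrt (1 - q 1 ^ 2) * Real.cos (q 2))) ^ 2
      + (Real.exp (q 0) * (Real.sqrt (1 - q 1 ^ 2) * Real.sin (q 2))) ^ 2
      = (Real.exp (q 0) * Real.sqrt (1 - q 1 ^ 2)) ^ 2 := by
    have := Real.sin_sq_add_cos_sq (q 2)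
    linear_combination (Real.exp (q 0) * Real.sqrt (1 - q 1 ^ 2)) ^ 2 * this
  rw [e, Real.sqrt_sq (by positivity)]

theorem sig_Psi {ε : ℝ} (hε : ε ^ 2 = 1) {q : EuclideanSpace ℝ (Fin (m + 3))} (hq : q ∈ VV m) :
    sig (Psi ε q) = Real.exp (q 0) * q 1 := by
  unfold sig
  rw [Fin.sum_univ_succ]
  have e0 : Psi ε q (Fin.succ (Fin.succ (0 : Fin (m + 1)))) = Psi ε q 2 := rfl
  rw [e0, Psi_two]
  simp_rw [Psi_succ]
  have e : (Real.exp (q 0) * (q 1 * (ε * (2 / (1 + NN q) - 1)))) ^ 2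
      + ∑ k : Fin m, (Real.exp (q 0) * (q 1 * (ε * (2 * q k.succ.succ.succ / (1 + NN q))))) ^ 2
      = (Real.exp (q 0) * q 1) ^ 2 := by
    have h := w_sq q
    have h2 : ∑ k : Fin m, (Real.exp (q 0) * (q 1 * (ε * (2 * q k.succ.succ.succ / (1 + NN q))))) ^ 2
        = (Real.exp (q 0) * q 1) ^ 2 * ε ^ 2 *
          ∑ k : Fin m, (2 * q k.succ.succ.succ / (1 + NN q)) ^ 2 := by
      rw [Finset.mul_sum]
      exact Finset.sum_congr rfl fun k _ => by ring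
    rw [h2, hε]
    linear_combination (Real.exp (q 0) * q 1) ^ 2 * h +
      (Real.exp (q 0) * q 1) ^ 2 * (2 / (1 + NN q) - 1) ^ 2 * hε
  rw [e, Real.sqrt_sq (mul_nonneg (Real.exp_pos _).le hq.1.le)]

theorem norm_sq_eq (x : EuclideanSpace ℝ (Fin (m + 3))) :
    ‖x‖ ^ 2 = rho x ^ 2 + sig x ^ 2 := by
  rw [EuclideanSpace.norm_sq_eq, Fin.sum_univ_succ, Fin.sum_univ_succ]
  unfold rho sig
  rw [Real.sq_sqrt (by positivity), Real.sq_sqrt (Finset.sum_nonneg fun _ _ => sq_nonneg _)]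
  simp only [Real.norm_eq_abs, sq_abs]
  have : x (Fin.succ (0 : Fin (m + 2))) = x 1 := rfl
  rw [this]; ring

theorem norm_Psi {ε : ℝ} (hε : ε ^ 2 = 1) {q : EuclideanSpace ℝ (Fin (m + 3))} (hq : q ∈ VV m) :
    ‖Psi ε q‖ = Real.exp (q 0) := by
  have h := norm_sq_eq (Psi ε q)
  rw [rho_Psi ε hq, sig_Psi hε hq] at h
  have h1 := one_sub_sq_pos hq
  have h2 : ‖Psi ε q‖ ^ 2 = Real.exp (q 0) ^ 2 := by
    rw [h, mul_pow, mul_pow, Real.sq_sqrt h1.le]; ring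
  exact (pow_left_inj₀ (norm_nonneg _) (Real.exp_pos _).le two_ne_zero).1 h2

theorem XX_Psi {ε : ℝ} (hε : ε ^ 2 = 1) {q : EuclideanSpace ℝ (Fin (m + 3))} (hq : q ∈ VV m) :
    XX (Psi ε q) = q 1 := by
  unfold XX
  rw [sig_Psi hε hq, norm_Psi hε hq]
  have := (Real.exp_pos (q 0)).ne'
  field_simp

theorem log_norm_Psi {ε : ℝ} (hε : ε ^ 2 = 1) {q : EuclideanSpace ℝ (Fin (m + 3))}
    (hq : q ∈ VV m) : Real.log ‖Psi ε q‖ = q 0 := by
  rw [norm_Psi hε hq, Real.log_exp]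

theorem uu_Psi (ε : ℝ) {q : EuclideanSpace ℝ (Fin (m + 3))} (hq : q ∈ VV m) :
    uu (Psi ε q) = Complex.exp ((q 2 : ℂ) * Complex.I) := by
  unfold uu
  rw [rho_Psi ε hq, Psi_zero, Psi_one, Complex.exp_mul_I]
  have h1 : ((Real.exp (q 0) * Real.sqrt (1 - q 1 ^ 2) : ℝ) : ℂ) ≠ 0 := by
    have := Real.sqrt_pos.2 (one_sub_sq_pos hq)
    have h2 := Real.exp_pos (q 0)
    exact Complex.ofReal_ne_zero.2 (mul_pos h2 this).ne'
  rw [div_eq_iff h1]
  push_cast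
  ring

theorem Psi_ne_zero {ε : ℝ} (hε : ε ^ 2 = 1) {q : EuclideanSpace ℝ (Fin (m + 3))}
    (hq : q ∈ VV m) : Psi ε q ≠ 0 := by
  intro h
  have := norm_Psi hε hq
  rw [h, norm_zero] at this
  exact (Real.exp_pos (q 0)).ne this

/-- The derivative of `Psi` applied to a vector, as a vector (component by component). -/
def dPsi (ε : ℝ) (q v : EuclideanSpace ℝ (Fin (m + 3))) (a : Fin (m + 3)) : ℝ :=
  fderiv ℝ (fun q => Psi ε q a) q v

theorem sum_prod (q v w : EuclideanSpace ℝ (Fin (m + 3))) (A A' B B' : ℝ) :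
    ∑ k : Fin m, (A * q k.succ.succ.succ + B * v k.succ.succ.succ) *
      (A' * q k.succ.succ.succ + B' * w k.succ.succ.succ) =
    A * A' * NN q + A * B' * ev q w + A' * B * ev q v
      + B * B' * ∑ k : Fin m, v k.succ.succ.succ * w k.succ.succ.succ := by
  simp only [NN, ev, Finset.mul_sum, ← Finset.sum_add_distrib]
  exact Finset.sum_congr rfl fun k _ => by ring

theorem dPsi_zero (ε : ℝ) {q : EuclideanSpace ℝ (Fin (m + 3))} (hq : q ∈ VV m)
    (v : EuclideanSpace ℝ (Fin (m + 3))) :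
    dPsi ε q v 0 = Real.exp (q 0) * (
      (Real.sqrt (1 - q 1 ^ 2) * v 0 - q 1 / Real.sqrt (1 - q 1 ^ 2) * v 1) * Real.cos (q 2)
        - Real.sqrt (1 - q 1 ^ 2) * v 2 * Real.sin (q 2)) := by
  unfold dPsi; rw [fderiv_Psi_zero ε hq]; ring

theorem dPsi_one (ε : ℝ) {q : EuclideanSpace ℝ (Fin (m + 3))} (hq : q ∈ VV m)
    (v : EuclideanSpace ℝ (Fin (m + 3))) :
    dPsi ε q v 1 = Real.exp (q 0) * (
      (Real.sqrt (1 - q 1 ^ 2) * v 0 - q 1 / Real.sqrt (1 - q 1 ^ 2) * v 1) * Real.sin (q 2)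
        + Real.sqrt (1 - q 1 ^ 2) * v 2 * Real.cos (q 2)) := by
  unfold dPsi; rw [fderiv_Psi_one ε hq]; ring

theorem dPsi_two (ε : ℝ) (q v : EuclideanSpace ℝ (Fin (m + 3))) :
    dPsi ε q v 2 = Real.exp (q 0) * (ε * ((2 / (1 + NN q) - 1) * (q 1 * v 0 + v 1)
        - q 1 * (4 / (1 + NN q) ^ 2 * ev q v))) := by
  unfold dPsi; rw [fderiv_Psi_two]

theorem dPsi_succ (ε : ℝ) (q v : EuclideanSpace ℝ (Fin (m + 3))) (k : Fin m) :
    dPsi ε q v k.succ.succ.succ = (Real.exp (q 0) * ε) *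
      ((2 / (1 + NN q) * (q 1 * v 0 + v 1) - q 1 * (4 / (1 + NN q) ^ 2 * ev q v))
          * q k.succ.succ.succ + q 1 * (2 / (1 + NN q)) * v k.succ.succ.succ) := by
  unfold dPsi; rw [fderiv_Psi_succ]; ring

theorem dPsi_inner {ε : ℝ} (hε : ε ^ 2 = 1) {q : EuclideanSpace ℝ (Fin (m + 3))}
    (hq : q ∈ VV m) (v w : EuclideanSpace ℝ (Fin (m + 3))) :
    ∑ a, dPsi ε q v a * dPsi ε q w a =
      Real.exp (q 0) ^ 2 * (v 0 * w 0 + v 1 * w 1 / (1 - q 1 ^ 2) + (1 - q 1 ^ 2) * (v 2 * w 2)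
        + q 1 ^ 2 * (4 / (1 + NN q) ^ 2 *
          ∑ k : Fin m, v k.succ.succ.succ * w k.succ.succ.succ)) := by
  rw [sum3, dPsi_zero ε hq, dPsi_zero ε hq, dPsi_one ε hq, dPsi_one ε hq, dPsi_two, dPsi_two]
  have hS : ∑ k : Fin m, dPsi ε q v k.succ.succ.succ * dPsi ε q w k.succ.succ.succ =
      (Real.exp (q 0) * ε) ^ 2 *
        ∑ k : Fin m, ((2 / (1 + NN q) * (q 1 * v 0 + v 1) - q 1 * (4 / (1 + NN q) ^ 2 * ev q v))
          * q k.succ.succ.succ + q 1 * (2 / (1 + NN q)) * v k.succ.succ.succ) *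
          ((2 / (1 + NN q) * (q 1 * w 0 + w 1) - q 1 * (4 / (1 + NN q) ^ 2 * ev q w))
          * q k.succ.succ.succ + q 1 * (2 / (1 + NN q)) * w k.succ.succ.succ) := by
    rw [Finset.mul_sum]
    exact Finset.sum_congr rfl fun k _ => by rw [dPsi_succ, dPsi_succ]; ring
  rw [hS, sum_prod, mul_pow, hε]
  have hr2 : Real.sqrt (1 - q 1 ^ 2) ^ 2 = 1 - q 1 ^ 2 := Real.sq_sqrt (one_sub_sq_pos hq).le
  have hr0 : Real.sqrt (1 - q 1 ^ 2) ≠ 0 := (Real.sqrt_pos.2 (one_sub_sq_pos hq)).ne'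
  have hcs := Real.sin_sq_add_cos_sq (q 2)
  generalize Real.sqrt (1 - q 1 ^ 2) = r at *
  rw [← hr2]
  have hN : NN q = (1 + NN q) - 1 := by ring
  have hc0 : 1 + NN q ≠ 0 := (NN_pos' q).ne'
  generalize ev q v = a
  generalize ev q w = b
  generalize (∑ k : Fin m, v k.succ.succ.succ * w k.succ.succ.succ) = d
  generalize hcc : 1 + NN q = c at *
  rw [show NN q = c - 1 by linarith]
  generalize q 1 = X at *
  have hX : X ^ 2 = 1 - r ^ 2 := by linarith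
  generalize Real.exp (q 0) = e
  generalize Real.cos (q 2) = C at *
  generalize Real.sin (q 2) = S at *
  have hcs' : S ^ 2 = 1 - C ^ 2 := by linarith
  have key1 : (e * ((r * v 0 - X / r * v 1) * C - r * v 2 * S)) *
      (e * ((r * w 0 - X / r * w 1) * C - r * w 2 * S)) +
      (e * ((r * v 0 - X / r * v 1) * S + r * v 2 * C)) *
      (e * ((r * w 0 - X / r * w 1) * S + r * w 2 * C)) =
      e ^ 2 * ((r * v 0 - X / r * v 1) * (r * w 0 - X / r * w 1) + r ^ 2 * (v 2 * w 2)) := by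
    linear_combination e ^ 2 * ((r * v 0 - X / r * v 1) * (r * w 0 - X / r * w 1)
      + r ^ 2 * (v 2 * w 2)) * hcs
  have key2 : (r * v 0 - X / r * v 1) * (r * w 0 - X / r * w 1) =
      r ^ 2 * (v 0 * w 0) - X * (v 0 * w 1 + v 1 * w 0) + X ^ 2 * (v 1 * w 1) / r ^ 2 := by
    field_simp
    ring
  have key3 : (ε * ((2 / c - 1) * (X * v 0 + v 1) - X * (4 / c ^ 2 * a))) *
      (ε * ((2 / c - 1) * (X * w 0 + w 1) - X * (4 / c ^ 2 * b))) +
      ((2 / c * (X * v 0 + v 1) - X * (4 / c ^ 2 * a)) *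
        (2 / c * (X * w 0 + w 1) - X * (4 / c ^ 2 * b)) * (c - 1) +
      (2 / c * (X * v 0 + v 1) - X * (4 / c ^ 2 * a)) * (X * (2 / c)) * b +
      (2 / c * (X * w 0 + w 1) - X * (4 / c ^ 2 * b)) * (X * (2 / c)) * a +
      X * (2 / c) * (X * (2 / c)) * d) =
      (X * v 0 + v 1) * (X * w 0 + w 1) + X ^ 2 * (4 / c ^ 2 * d) := by
    have : (ε * ((2 / c - 1) * (X * v 0 + v 1) - X * (4 / c ^ 2 * a))) *
      (ε * ((2 / c - 1) * (X * w 0 + w 1) - X * (4 / c ^ 2 * b))) =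
      ((2 / c - 1) * (X * v 0 + v 1) - X * (4 / c ^ 2 * a)) *
      ((2 / c - 1) * (X * w 0 + w 1) - X * (4 / c ^ 2 * b)) := by
      linear_combination ((2 / c - 1) * (X * v 0 + v 1) - X * (4 / c ^ 2 * a)) *
      ((2 / c - 1) * (X * w 0 + w 1) - X * (4 / c ^ 2 * b)) * hε
    rw [this]
    field_simp
    ring
  have key4 : r ^ 2 * (v 0 * w 0) - X * (v 0 * w 1 + v 1 * w 0) + X ^ 2 * (v 1 * w 1) / r ^ 2
      + (X * v 0 + v 1) * (X * w 0 + w 1) = v 0 * w 0 + v 1 * w 1 / r ^ 2 := by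
    field_simp
    linear_combination (v 0 * w 0 * r ^ 2 + v 1 * w 1) * hX
  linear_combination key1 + e ^ 2 * key2 + e ^ 2 * key3 + e ^ 2 * key4

/-! ### The frame in polar coordinates -/

theorem forall_fin3 {p : Fin (m + 3) → Prop} (h0 : p 0) (h1 : p 1) (h2 : p 2)
    (hk : ∀ k : Fin m, p k.succ.succ.succ) : ∀ a, p a := by
  intro a
  refine Fin.cases h0 (fun a => ?_) a
  refine Fin.cases h1 (fun a => ?_) a
  refine Fin.cases h2 (fun a => ?_) a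
  exact hk a

theorem one_ne_zero3 : (1 : Fin (m + 3)) ≠ 0 := by
  intro h; have := congrArg Fin.val h; simp at this

theorem two_ne_zero3 : (2 : Fin (m + 3)) ≠ 0 := by
  intro h; have := congrArg Fin.val h
  rw [show ((2 : Fin (m + 3)) : ℕ) = 2 from rfl] at this
  simp at this

theorem two_ne_one3 : (2 : Fin (m + 3)) ≠ 1 := by
  intro h; have := congrArg Fin.val h
  rw [show ((2 : Fin (m + 3)) : ℕ) = 2 from rfl, show ((1 : Fin (m + 3)) : ℕ) = 1 from rfl] at this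
  simp at this

theorem succ3_ne_zero (k : Fin m) : (k.succ.succ.succ : Fin (m + 3)) ≠ 0 := Fin.succ_ne_zero _

theorem succ3_ne_one (k : Fin m) : (k.succ.succ.succ : Fin (m + 3)) ≠ 1 := by
  intro h; have := congrArg Fin.val h
  rw [show ((1 : Fin (m + 3)) : ℕ) = 1 from rfl] at this
  simp at this

theorem succ3_ne_two (k : Fin m) : (k.succ.succ.succ : Fin (m + 3)) ≠ 2 := by
  intro h; have := congrArg Fin.val h
  rw [show ((2 : Fin (m + 3)) : ℕ) = 2 from rfl] at this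
  simp at this

/-- Standard basis vector. -/
abbrev bv (i : Fin (m + 3)) : EuclideanSpace ℝ (Fin (m + 3)) := EuclideanSpace.single i 1

theorem bv_apply (i j : Fin (m + 3)) : bv i j = if j = i then 1 else 0 := by
  simp [bv]

theorem ev_bv_zero (q : EuclideanSpace ℝ (Fin (m + 3))) : ev q (bv 0) = 0 := by
  unfold ev; apply Finset.sum_eq_zero; intro k _; rw [bv_apply, if_neg (succ3_ne_zero k), mul_zero]

theorem ev_bv_one (q : EuclideanSpace ℝ (Fin (m + 3))) : ev q (bv 1) = 0 := by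
  unfold ev; apply Finset.sum_eq_zero; intro k _; rw [bv_apply, if_neg (succ3_ne_one k), mul_zero]

theorem ev_bv_two (q : EuclideanSpace ℝ (Fin (m + 3))) : ev q (bv 2) = 0 := by
  unfold ev; apply Finset.sum_eq_zero; intro k _; rw [bv_apply, if_neg (succ3_ne_two k), mul_zero]

theorem dPsi_bv_zero (ε : ℝ) {q : EuclideanSpace ℝ (Fin (m + 3))} (hq : q ∈ VV m) :
    ∀ a, dPsi ε q (bv 0) a = Psi ε q a := by
  have b0 : (bv 0 : EuclideanSpace ℝ (Fin (m + 3))) 0 = 1 := by rw [bv_apply, if_pos rfl]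
  have b1 : (bv 0 : EuclideanSpace ℝ (Fin (m + 3))) 1 = 0 := by
    rw [bv_apply, if_neg one_ne_zero3]
  have b2 : (bv 0 : EuclideanSpace ℝ (Fin (m + 3))) 2 = 0 := by
    rw [bv_apply, if_neg two_ne_zero3]
  have bk : ∀ k : Fin m, (bv 0 : EuclideanSpace ℝ (Fin (m + 3))) k.succ.succ.succ = 0 := by
    intro k; rw [bv_apply, if_neg (succ3_ne_zero k)]
  apply forall_fin3
  · rw [dPsi_zero ε hq, b0, b1, b2, Psi_zero]; ring
  · rw [dPsi_one ε hq, b0, b1, b2, Psi_one]; ring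
  · rw [dPsi_two, b0, b1, ev_bv_zero, Psi_two]; ring
  · intro k; rw [dPsi_succ, b0, b1, bk, ev_bv_zero, Psi_succ]; ring

theorem e1_zero (x : EuclideanSpace ℝ (Fin (m + 3))) : e1 x 0 = -(sig x / ‖x‖) * (x 0 / rho x) := rfl
theorem e1_one (x : EuclideanSpace ℝ (Fin (m + 3))) : e1 x 1 = -(sig x / ‖x‖) * (x 1 / rho x) := rfl
theorem e1_two (x : EuclideanSpace ℝ (Fin (m + 3))) : e1 x 2 = (rho x / ‖x‖) * (x 2 / sig x) := rfl
theorem e1_succ (x : EuclideanSpace ℝ (Fin (m + 3))) (k : Fin m) :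
    e1 x k.succ.succ.succ = (rho x / ‖x‖) * (x k.succ.succ.succ / sig x) := rfl
theorem e2_zero (x : EuclideanSpace ℝ (Fin (m + 3))) : e2 x 0 = -(x 1) / rho x := rfl
theorem e2_one (x : EuclideanSpace ℝ (Fin (m + 3))) : e2 x 1 = x 0 / rho x := rfl
theorem e2_two (x : EuclideanSpace ℝ (Fin (m + 3))) : e2 x 2 = 0 := rfl
theorem e2_succ (x : EuclideanSpace ℝ (Fin (m + 3))) (k : Fin m) :
    e2 x k.succ.succ.succ = 0 := rfl

theorem dPsi_bv_one {ε : ℝ} (hε : ε ^ 2 = 1) {q : EuclideanSpace ℝ (Fin (m + 3))} (hq : q ∈ VV m) :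
    ∀ a, dPsi ε q (bv 1) a = Real.exp (q 0) / Real.sqrt (1 - q 1 ^ 2) * e1 (Psi ε q) a := by
  have b0 : (bv 1 : EuclideanSpace ℝ (Fin (m + 3))) 0 = 0 := by
    rw [bv_apply, if_neg one_ne_zero3.symm]
  have b1 : (bv 1 : EuclideanSpace ℝ (Fin (m + 3))) 1 = 1 := by rw [bv_apply, if_pos rfl]
  have b2 : (bv 1 : EuclideanSpace ℝ (Fin (m + 3))) 2 = 0 := by
    rw [bv_apply, if_neg two_ne_one3]
  have bk : ∀ k : Fin m, (bv 1 : EuclideanSpace ℝ (Fin (m + 3))) k.succ.succ.succ = 0 := by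
    intro k; rw [bv_apply, if_neg (succ3_ne_one k)]
  have hr0 : Real.sqrt (1 - q 1 ^ 2) ≠ 0 := (Real.sqrt_pos.2 (one_sub_sq_pos hq)).ne'
  have he : Real.exp (q 0) ≠ 0 := (Real.exp_pos _).ne'
  have hX : q 1 ≠ 0 := hq.1.ne'
  apply forall_fin3
  · rw [dPsi_zero ε hq, b0, b1, b2, e1_zero, sig_Psi hε hq, norm_Psi hε hq, rho_Psi ε hq, Psi_zero]
    field_simp; ring
  · rw [dPsi_one ε hq, b0, b1, b2, e1_one, sig_Psi hε hq, norm_Psi hε hq, rho_Psi ε hq, Psi_one]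
    field_simp; ring
  · rw [dPsi_two, b0, b1, ev_bv_one, e1_two, sig_Psi hε hq, norm_Psi hε hq, rho_Psi ε hq, Psi_two]
    field_simp; ring
  · intro k
    rw [dPsi_succ, b0, b1, bk, ev_bv_one, e1_succ, sig_Psi hε hq, norm_Psi hε hq, rho_Psi ε hq,
      Psi_succ]
    have hN : 1 + NN q ≠ 0 := (NN_pos' q).ne'
    generalize 1 + NN q = c at *
    field_simp; ring

theorem dPsi_bv_two (ε : ℝ) {q : EuclideanSpace ℝ (Fin (m + 3))} (hq : q ∈ VV m) :
    ∀ a, dPsi ε q (bv 2) a = Real.exp (q 0) * Real.sqrt (1 - q 1 ^ 2) * e2 (Psi ε q) a := by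
  have b0 : (bv 2 : EuclideanSpace ℝ (Fin (m + 3))) 0 = 0 := by
    rw [bv_apply, if_neg two_ne_zero3.symm]
  have b1 : (bv 2 : EuclideanSpace ℝ (Fin (m + 3))) 1 = 0 := by
    rw [bv_apply, if_neg two_ne_one3.symm]
  have b2 : (bv 2 : EuclideanSpace ℝ (Fin (m + 3))) 2 = 1 := by
    rw [bv_apply, if_pos rfl]
  have bk : ∀ k : Fin m, (bv 2 : EuclideanSpace ℝ (Fin (m + 3))) k.succ.succ.succ = 0 := by
    intro k; rw [bv_apply, if_neg (succ3_ne_two k)]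
  have hr0 : Real.sqrt (1 - q 1 ^ 2) ≠ 0 := (Real.sqrt_pos.2 (one_sub_sq_pos hq)).ne'
  have he : Real.exp (q 0) ≠ 0 := (Real.exp_pos _).ne'
  apply forall_fin3
  · rw [dPsi_zero ε hq, b0, b1, b2, e2_zero, rho_Psi ε hq, Psi_one]
    field_simp; ring
  · rw [dPsi_one ε hq, b0, b1, b2, e2_one, rho_Psi ε hq, Psi_zero]
    field_simp; ring
  · rw [dPsi_two, b0, b1, ev_bv_two, e2_two]; ring
  · intro k
    rw [dPsi_succ, b0, b1, bk, ev_bv_two, e2_succ]; ring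

theorem nu_dPsi {ε : ℝ} (hε : ε ^ 2 = 1) {q : EuclideanSpace ℝ (Fin (m + 3))} (hq : q ∈ VV m)
    (v : EuclideanSpace ℝ (Fin (m + 3))) :
    ∑ a, nu (Psi ε q) a * dPsi ε q v a = Real.exp (q 0) * v 0 := by
  have h : ∀ a, nu (Psi ε q) a * dPsi ε q v a =
      (Real.exp (q 0))⁻¹ * (dPsi ε q (bv 0) a * dPsi ε q v a) := by
    intro a
    rw [dPsi_bv_zero ε hq]
    simp [nu, norm_Psi hε hq]; ring
  simp_rw [h]
  rw [← Finset.mul_sum, dPsi_inner hε hq]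
  have b0 : (bv 0 : EuclideanSpace ℝ (Fin (m + 3))) 0 = 1 := by rw [bv_apply, if_pos rfl]
  have b1 : (bv 0 : EuclideanSpace ℝ (Fin (m + 3))) 1 = 0 := by
    rw [bv_apply, if_neg one_ne_zero3]
  have b2 : (bv 0 : EuclideanSpace ℝ (Fin (m + 3))) 2 = 0 := by
    rw [bv_apply, if_neg two_ne_zero3]
  have bk : ∀ k : Fin m, (bv 0 : EuclideanSpace ℝ (Fin (m + 3))) k.succ.succ.succ = 0 := by
    intro k; rw [bv_apply, if_neg (succ3_ne_zero k)]
  simp only [b0, b1, b2, bk, zero_mul, Finset.sum_const_zero]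
  have he : Real.exp (q 0) ≠ 0 := (Real.exp_pos _).ne'
  field_simp
  ring

theorem e1_dPsi {ε : ℝ} (hε : ε ^ 2 = 1) {q : EuclideanSpace ℝ (Fin (m + 3))} (hq : q ∈ VV m)
    (v : EuclideanSpace ℝ (Fin (m + 3))) :
    ∑ a, e1 (Psi ε q) a * dPsi ε q v a = Real.exp (q 0) / Real.sqrt (1 - q 1 ^ 2) * v 1 := by
  have hr0 : Real.sqrt (1 - q 1 ^ 2) ≠ 0 := (Real.sqrt_pos.2 (one_sub_sq_pos hq)).ne'
  have hr2 : Real.sqrt (1 - q 1 ^ 2) ^ 2 = 1 - q 1 ^ 2 := Real.sq_sqrt (one_sub_sq_pos hq).le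
  have he : Real.exp (q 0) ≠ 0 := (Real.exp_pos _).ne'
  have h : ∀ a, e1 (Psi ε q) a * dPsi ε q v a =
      (Real.sqrt (1 - q 1 ^ 2) / Real.exp (q 0)) * (dPsi ε q (bv 1) a * dPsi ε q v a) := by
    intro a
    rw [dPsi_bv_one hε hq]
    field_simp
  simp_rw [h]
  rw [← Finset.mul_sum, dPsi_inner hε hq]
  have b0 : (bv 1 : EuclideanSpace ℝ (Fin (m + 3))) 0 = 0 := by
    rw [bv_apply, if_neg one_ne_zero3.symm]
  have b1 : (bv 1 : EuclideanSpace ℝ (Fin (m + 3))) 1 = 1 := by rw [bv_apply, if_pos rfl]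
  have b2 : (bv 1 : EuclideanSpace ℝ (Fin (m + 3))) 2 = 0 := by
    rw [bv_apply, if_neg two_ne_one3]
  have bk : ∀ k : Fin m, (bv 1 : EuclideanSpace ℝ (Fin (m + 3))) k.succ.succ.succ = 0 := by
    intro k; rw [bv_apply, if_neg (succ3_ne_one k)]
  simp only [b0, b1, b2, bk, zero_mul, Finset.sum_const_zero]
  rw [← hr2]
  field_simp
  rw [Real.sqrt_sq (Real.sqrt_nonneg _)]
  field_simp
  ring

theorem e2_dPsi {ε : ℝ} (hε : ε ^ 2 = 1) {q : EuclideanSpace ℝ (Fin (m + 3))} (hq : q ∈ VV m)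
    (v : EuclideanSpace ℝ (Fin (m + 3))) :
    ∑ a, e2 (Psi ε q) a * dPsi ε q v a = Real.exp (q 0) * Real.sqrt (1 - q 1 ^ 2) * v 2 := by
  have hr0 : Real.sqrt (1 - q 1 ^ 2) ≠ 0 := (Real.sqrt_pos.2 (one_sub_sq_pos hq)).ne'
  have hr2 : Real.sqrt (1 - q 1 ^ 2) ^ 2 = 1 - q 1 ^ 2 := Real.sq_sqrt (one_sub_sq_pos hq).le
  have he : Real.exp (q 0) ≠ 0 := (Real.exp_pos _).ne'
  have h : ∀ a, e2 (Psi ε q) a * dPsi ε q v a =
      (1 / (Real.sqrt (1 - q 1 ^ 2) * Real.exp (q 0))) * (dPsi ε q (bv 2) a * dPsi ε q v a) := by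
    intro a
    rw [dPsi_bv_two ε hq]
    field_simp
  simp_rw [h]
  rw [← Finset.mul_sum, dPsi_inner hε hq]
  have b0 : (bv 2 : EuclideanSpace ℝ (Fin (m + 3))) 0 = 0 := by
    rw [bv_apply, if_neg two_ne_zero3.symm]
  have b1 : (bv 2 : EuclideanSpace ℝ (Fin (m + 3))) 1 = 0 := by
    rw [bv_apply, if_neg two_ne_one3.symm]
  have b2 : (bv 2 : EuclideanSpace ℝ (Fin (m + 3))) 2 = 1 := by
    rw [bv_apply, if_pos rfl]
  have bk : ∀ k : Fin m, (bv 2 : EuclideanSpace ℝ (Fin (m + 3))) k.succ.succ.succ = 0 := by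
    intro k; rw [bv_apply, if_neg (succ3_ne_two k)]
  simp only [b0, b1, b2, bk, zero_mul, Finset.sum_const_zero]
  generalize Real.sqrt (1 - q 1 ^ 2) = r at *
  rw [← hr2]
  field_simp
  ring

/-! ### Bilinear forms of matrices -/

/-- The bilinear form of a matrix. -/
def bil {n : ℕ} (M : Matrix (Fin n) (Fin n) ℝ) (v w : Fin n → ℝ) : ℝ :=
  ∑ i, ∑ j, M i j * v i * w j

theorem bil_add {n : ℕ} (M N : Matrix (Fin n) (Fin n) ℝ) (v w : Fin n → ℝ) :
    bil (M + N) v w = bil M v w + bil N v w := by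
  simp only [bil, Matrix.add_apply, add_mul, Finset.sum_add_distrib]

theorem bil_sub {n : ℕ} (M N : Matrix (Fin n) (Fin n) ℝ) (v w : Fin n → ℝ) :
    bil (M - N) v w = bil M v w - bil N v w := by
  simp only [bil, Matrix.sub_apply, sub_mul, Finset.sum_sub_distrib]

theorem bil_smul {n : ℕ} (c : ℝ) (M : Matrix (Fin n) (Fin n) ℝ) (v w : Fin n → ℝ) :
    bil (c • M) v w = c * bil M v w := by
  simp only [bil, Matrix.smul_apply, smul_eq_mul, Finset.mul_sum, mul_assoc]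

theorem bil_one {n : ℕ} (v w : Fin n → ℝ) :
    bil (1 : Matrix (Fin n) (Fin n) ℝ) v w = ∑ i, v i * w i := by
  simp only [bil, Matrix.one_apply, ite_mul, one_mul, zero_mul, Finset.sum_ite_eq,
    Finset.mem_univ, if_true]

theorem bil_outer {n : ℕ} (u : EuclideanSpace ℝ (Fin n)) (v w : Fin n → ℝ) :
    bil (outer u) v w = (∑ i, u i * v i) * ∑ i, u i * w i := by
  simp only [bil, outer, Finset.sum_mul_sum]
  exact Finset.sum_congr rfl fun i _ => Finset.sum_congr rfl fun j _ => by ring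

/-- `λ² = e^{-2s} θ^{-2/(n-1)}`. -/
def lam2 (m : ℕ) (s θ : ℝ → ℝ) (t : ℝ) : ℝ :=
  Real.exp (-2 * s t) * (θ t) ^ (-(2 : ℝ) / ((m : ℝ) + 2))

/-- **Pullback of the metric** in polar coordinates (bilinear form version). -/
theorem bil_gfam_Psi {ε : ℝ} (hε : ε ^ 2 = 1) (s θ : ℝ → ℝ) (P : ℝ → ℝ → ℂ → ℝ)
    {q : EuclideanSpace ℝ (Fin (m + 3))} (hq : q ∈ VV m)
    (hP : P (q 0) (q 1) (Complex.exp ((q 2 : ℂ) * Complex.I)) ≠ 0)
    (v w : EuclideanSpace ℝ (Fin (m + 3))) :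
    bil (gfam s θ P (Psi ε q)) (dPsi ε q v) (dPsi ε q w) =
      Real.exp (q 0) ^ 2 * (v 0 * w 0 + lam2 m s θ (q 0) * (
        (P (q 0) (q 1) (Complex.exp ((q 2 : ℂ) * Complex.I)))⁻¹ / (1 - q 1 ^ 2) * (v 1 * w 1)
        + (θ (q 0)) ^ 2 * P (q 0) (q 1) (Complex.exp ((q 2 : ℂ) * Complex.I)) * (1 - q 1 ^ 2) *
          (v 2 * w 2)
        + q 1 ^ 2 * (4 / (1 + NN q) ^ 2 *
          ∑ k : Fin m, v k.succ.succ.succ * w k.succ.succ.succ))) := by
  have hne : Psi ε q ≠ 0 := Psi_ne_zero hε hq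
  have hr0 : Real.sqrt (1 - q 1 ^ 2) ≠ 0 := (Real.sqrt_pos.2 (one_sub_sq_pos hq)).ne'
  have hr2 : Real.sqrt (1 - q 1 ^ 2) ^ 2 = 1 - q 1 ^ 2 := Real.sq_sqrt (one_sub_sq_pos hq).le
  have he : Real.exp (q 0) ≠ 0 := (Real.exp_pos _).ne'
  have hrho : rho (Psi ε q) ≠ 0 := by rw [rho_Psi ε hq]; exact mul_ne_zero he hr0
  unfold gfam gRad
  rw [if_neg hne]
  unfold Afam
  rw [if_neg hrho]
  rw [log_norm_Psi hε hq, XX_Psi hε hq, uu_Psi ε hq, add_sub_cancel_left]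
  simp only [bil_add, bil_smul, bil_sub, bil_one, bil_outer]
  rw [nu_dPsi hε hq, nu_dPsi hε hq, e1_dPsi hε hq, e1_dPsi hε hq, e2_dPsi hε hq, e2_dPsi hε hq,
    dPsi_inner hε hq]
  unfold lam2
  generalize (θ (q 0)) ^ (-(2 : ℝ) / ((m : ℝ) + 2)) = c
  generalize Real.exp (-2 * s (q 0)) = d
  generalize Real.sqrt (1 - q 1 ^ 2) = r at *
  rw [← hr2]
  generalize (4 / (1 + NN q) ^ 2 * ∑ k : Fin m, v k.succ.succ.succ * w k.succ.succ.succ) = D
  generalize P (q 0) (q 1) (Complex.exp ((q 2 : ℂ) * Complex.I)) = p at *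
  field_simp
  ring

/-! ### The diagonal form -/

/-- `P` in polar coordinates. -/
def pp (P : ℝ → ℝ → ℂ → ℝ) (q : EuclideanSpace ℝ (Fin (m + 3))) : ℝ :=
  P (q 0) (q 1) (Complex.exp ((q 2 : ℂ) * Complex.I))

/-- Exponent of `dX²`. -/
def aX (s θ : ℝ → ℝ) (P : ℝ → ℝ → ℂ → ℝ) (q : EuclideanSpace ℝ (Fin (m + 3))) : ℝ :=
  q 0 - s (q 0) - Real.log (θ (q 0)) / ((m : ℝ) + 2) - 1 / 2 * Real.log (pp P q)
    - 1 / 2 * Real.log (1 - q 1 ^ 2)

/-- Exponent of `dφ²`. -/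
def aphi (s θ : ℝ → ℝ) (P : ℝ → ℝ → ℂ → ℝ) (q : EuclideanSpace ℝ (Fin (m + 3))) : ℝ :=
  q 0 - s (q 0) + (1 - 1 / ((m : ℝ) + 2)) * Real.log (θ (q 0)) + 1 / 2 * Real.log (pp P q)
    + 1 / 2 * Real.log (1 - q 1 ^ 2)

/-- Exponent of `dη²`. -/
def aeta (s θ : ℝ → ℝ) (q : EuclideanSpace ℝ (Fin (m + 3))) : ℝ :=
  q 0 - s (q 0) - Real.log (θ (q 0)) / ((m : ℝ) + 2) + Real.log (q 1)
    + (Real.log 2 - Real.log (1 + NN q))

/-- All exponents. -/
def aa (s θ : ℝ → ℝ) (P : ℝ → ℝ → ℂ → ℝ) :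
    Fin (m + 3) → EuclideanSpace ℝ (Fin (m + 3)) → ℝ :=
  Fin.cons (fun q => q 0) (Fin.cons (aX s θ P) (Fin.cons (aphi s θ P) fun _ => aeta s θ))

theorem aa_zero (s θ : ℝ → ℝ) (P : ℝ → ℝ → ℂ → ℝ) :
    aa (m := m) s θ P 0 = fun q => q 0 := rfl
theorem aa_one (s θ : ℝ → ℝ) (P : ℝ → ℝ → ℂ → ℝ) : aa (m := m) s θ P 1 = aX s θ P := rfl
theorem aa_two (s θ : ℝ → ℝ) (P : ℝ → ℝ → ℂ → ℝ) : aa (m := m) s θ P 2 = aphi s θ P := rfl
theorem aa_succ (s θ : ℝ → ℝ) (P : ℝ → ℝ → ℂ → ℝ) (k : Fin m) :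
    aa (m := m) s θ P k.succ.succ.succ = aeta s θ := rfl

/-- The pulled back metric field. -/
def gpull (ε : ℝ) (s θ : ℝ → ℝ) (P : ℝ → ℝ → ℂ → ℝ) : MetricField (m + 3) := fun q i j =>
  bil (gfam s θ P (Psi ε q)) (dPsi ε q (bv i)) (dPsi ε q (bv j))

theorem exp_two_sub (a b : ℝ) : Real.exp (2 * (a - b)) = Real.exp (2 * a) * Real.exp (-(2 * b)) := by
  rw [← Real.exp_add]; congr 1; ring

theorem gpull_eq {ε : ℝ} (hε : ε ^ 2 = 1) {s θ : ℝ → ℝ} {P : ℝ → ℝ → ℂ → ℝ}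
    {q : EuclideanSpace ℝ (Fin (m + 3))} (hq : q ∈ VV m) (hP : 0 < pp P q) (hθ : 0 < θ (q 0)) :
    gpull ε s θ P q = diagMetric (aa s θ P) q := by
  have key := fun i j => bil_gfam_Psi hε s θ P hq hP.ne' (bv i) (bv j)
  have hX := one_sub_sq_pos hq
  have hlam : lam2 m s θ (q 0) =
      Real.exp (-2 * s (q 0)) * Real.exp (Real.log (θ (q 0)) * (-(2 : ℝ) / ((m : ℝ) + 2))) := by
    unfold lam2; rw [Real.rpow_def_of_pos hθ]
  ext i j
  rw [diagMetric_apply]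
  show bil (gfam s θ P (Psi ε q)) (dPsi ε q (bv i)) (dPsi ε q (bv j)) = _
  rw [key i j]
  by_cases hij : i = j
  · subst hij
    rw [if_pos rfl]
    have hm : (m : ℝ) + 2 ≠ 0 := by positivity
    revert i
    apply forall_fin3
    · have b0 : (bv 0 : EuclideanSpace ℝ (Fin (m + 3))) 0 = 1 := by rw [bv_apply, if_pos rfl]
      have b1 : (bv 0 : EuclideanSpace ℝ (Fin (m + 3))) 1 = 0 := by
        rw [bv_apply, if_neg one_ne_zero3]
      have b2 : (bv 0 : EuclideanSpace ℝ (Fin (m + 3))) 2 = 0 := by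
        rw [bv_apply, if_neg two_ne_zero3]
      have bk : ∀ k : Fin m, (bv 0 : EuclideanSpace ℝ (Fin (m + 3))) k.succ.succ.succ = 0 := by
        intro k; rw [bv_apply, if_neg (succ3_ne_zero k)]
      simp only [b0, b1, b2, bk, mul_zero, Finset.sum_const_zero, aa_zero]
      rw [← Real.exp_nat_mul]
      simp
    · have b0 : (bv 1 : EuclideanSpace ℝ (Fin (m + 3))) 0 = 0 := by
        rw [bv_apply, if_neg one_ne_zero3.symm]
      have b1 : (bv 1 : EuclideanSpace ℝ (Fin (m + 3))) 1 = 1 := by rw [bv_apply, if_pos rfl]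
      have b2 : (bv 1 : EuclideanSpace ℝ (Fin (m + 3))) 2 = 0 := by
        rw [bv_apply, if_neg two_ne_one3]
      have bk : ∀ k : Fin m, (bv 1 : EuclideanSpace ℝ (Fin (m + 3))) k.succ.succ.succ = 0 := by
        intro k; rw [bv_apply, if_neg (succ3_ne_one k)]
      simp only [b0, b1, b2, bk, mul_zero, Finset.sum_const_zero, aa_one]
      have e : 2 * aX s θ P q = (2 : ℕ) * q 0 + (-2 * s (q 0)
          + Real.log (θ (q 0)) * (-(2 : ℝ) / ((m : ℝ) + 2)))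
          + -Real.log (pp P q) + -Real.log (1 - q 1 ^ 2) := by
        unfold aX; push_cast; ring
      rw [e, Real.exp_add, Real.exp_add, Real.exp_add, Real.exp_neg, Real.exp_neg, Real.exp_log hP,
        Real.exp_log hX, Real.exp_nat_mul, Real.exp_add, ← hlam]
      unfold pp
      field_simp
      ring
    · have b0 : (bv 2 : EuclideanSpace ℝ (Fin (m + 3))) 0 = 0 := by
        rw [bv_apply, if_neg two_ne_zero3.symm]
      have b1 : (bv 2 : EuclideanSpace ℝ (Fin (m + 3))) 1 = 0 := by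
        rw [bv_apply, if_neg two_ne_one3.symm]
      have b2 : (bv 2 : EuclideanSpace ℝ (Fin (m + 3))) 2 = 1 := by
        rw [bv_apply, if_pos rfl]
      have bk : ∀ k : Fin m, (bv 2 : EuclideanSpace ℝ (Fin (m + 3))) k.succ.succ.succ = 0 := by
        intro k; rw [bv_apply, if_neg (succ3_ne_two k)]
      simp only [b0, b1, b2, bk, mul_zero, Finset.sum_const_zero, aa_two]
      have e : 2 * aphi s θ P q = (2 : ℕ) * q 0 + (-2 * s (q 0)
          + Real.log (θ (q 0)) * (-(2 : ℝ) / ((m : ℝ) + 2))) + (2 : ℕ) * Real.log (θ (q 0))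
          + Real.log (pp P q) + Real.log (1 - q 1 ^ 2) := by
        unfold aphi; push_cast; ring
      rw [e, Real.exp_add, Real.exp_add, Real.exp_add, Real.exp_add, Real.exp_log hP,
        Real.exp_log hX, Real.exp_nat_mul, Real.exp_nat_mul, Real.exp_add, ← hlam,
        Real.exp_log hθ]
      unfold pp
      ring
    · intro k
      have b0 : (bv k.succ.succ.succ : EuclideanSpace ℝ (Fin (m + 3))) 0 = 0 := by
        rw [bv_apply, if_neg (succ3_ne_zero k).symm]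
      have b1 : (bv k.succ.succ.succ : EuclideanSpace ℝ (Fin (m + 3))) 1 = 0 := by
        rw [bv_apply, if_neg (succ3_ne_one k).symm]
      have b2 : (bv k.succ.succ.succ : EuclideanSpace ℝ (Fin (m + 3))) 2 = 0 := by
        rw [bv_apply, if_neg (succ3_ne_two k).symm]
      have bs : ∑ l : Fin m, (bv k.succ.succ.succ : EuclideanSpace ℝ (Fin (m + 3))) l.succ.succ.succ
          * (bv k.succ.succ.succ : EuclideanSpace ℝ (Fin (m + 3))) l.succ.succ.succ = 1 := by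
        rw [Finset.sum_eq_single k]
        · rw [bv_apply, if_pos rfl, one_mul]
        · intro l _ hl
          rw [bv_apply, if_neg, zero_mul]
          intro h; apply hl
          exact Fin.succ_injective _ (Fin.succ_injective _ (Fin.succ_injective _ h))
        · intro h; exact absurd (Finset.mem_univ _) h
      simp only [b0, b1, b2, bs, aa_succ]
      have hN := NN_pos' q
      have e : 2 * aeta s θ q = (2 : ℕ) * q 0 + (-2 * s (q 0)
          + Real.log (θ (q 0)) * (-(2 : ℝ) / ((m : ℝ) + 2))) + (2 : ℕ) * Real.log (q 1)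
          + (2 : ℕ) * Real.log 2 + -((2 : ℕ) * Real.log (1 + NN q)) := by
        unfold aeta; push_cast; ring
      rw [e, Real.exp_add, Real.exp_add, Real.exp_add, Real.exp_add, Real.exp_neg,
        Real.exp_nat_mul, Real.exp_nat_mul, Real.exp_nat_mul, Real.exp_nat_mul, Real.exp_add,
        ← hlam, Real.exp_log hN, Real.exp_log hq.1, Real.exp_log two_pos]
      field_simp
      ring
  · rw [if_neg hij]
    have hz : ∀ a, (bv i : EuclideanSpace ℝ (Fin (m + 3))) a * (bv j) a = 0 := by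
      intro a
      rw [bv_apply, bv_apply]
      by_cases h1 : a = i
      · subst h1; rw [if_neg hij, mul_zero]
      · rw [if_neg h1, zero_mul]
    have hs : ∑ k : Fin m, (bv i : EuclideanSpace ℝ (Fin (m + 3))) k.succ.succ.succ *
        (bv j) k.succ.succ.succ = 0 := Finset.sum_eq_zero fun k _ => hz _
    rw [hz 0, hz 1, hz 2, hs]
    ring

end

end Crest.Agent.R202.Geo
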