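import Mathlib
import Crest.Prelude.Def_CoordMetric
import Crest.Prelude.Def_ChartCurvature
import Crest.Agent.R202.GeoDefs
import Crest.Agent.R202.GeoDiag
import Crest.Agent.R202.GeoPolar

/-!
Row 202, Part D: Ricci tensor of the diagonal metric in polar coordinates; pure algebra from the
2-jet of the exponents.
-/

set_option autoImplicit false

open scoped ContDiff Topology
open Crest.GeometryTopology.CoordMetric Crest.GeometryTopology.ChartCurvature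

namespace Crest.Agent.R202.Geo

noncomputable section

variable {m : ℕ}

theorem ricci_diagMetric_symm {n : ℕ} {a : Fin n → EuclideanSpace ℝ (Fin n) → ℝ}
    {x : EuclideanSpace ℝ (Fin n)}
    (ha : ∀ i, ContDiffAt ℝ 2 (a i) x) (i j : Fin n) :
    ricci (diagMetric a) x i j = ricci (diagMetric a) x j i := by
  rw [ricci_diagMetric ha, ricci_diagMetric ha]
  have hc : ∀ k, pderiv i (pderiv j (a k)) x = pderiv j (pderiv i (a k)) x :=
    fun k => pderiv_comm (ha k)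
  simp_rw [hc]
  have h1 : ∑ k, pderiv i (a k) x * pderiv j (a k) x = ∑ k, pderiv j (a k) x * pderiv i (a k) x :=
    Finset.sum_congr rfl fun k _ => mul_comm _ _
  rw [h1]
  by_cases hij : i = j
  · subst hij; ring
  · rw [if_neg hij, if_neg (fun h => hij h.symm)]; ring

/-- The jet data of the exponents at `q`. -/
structure Jet (a : Fin (m + 3) → EuclideanSpace ℝ (Fin (m + 3)) → ℝ)
    (w : EuclideanSpace ℝ (Fin (m + 3)) → ℝ)
    (q : EuclideanSpace ℝ (Fin (m + 3)))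
    (X d f d01 d02 d0w h001 h002 h00w h012 h021 h11 h22 c : ℝ) (η : Fin m → ℝ) : Prop where
  c2 : ∀ i, ContDiffAt ℝ 2 (a i) q
  hw : ∀ k : Fin m, a k.succ.succ.succ = w
  hc : c = 1 + ∑ k : Fin m, η k ^ 2
  p00 : pderiv 0 (a 0) q = 1
  p10 : pderiv 1 (a 0) q = 0
  p20 : pderiv 2 (a 0) q = 0
  pk0 : ∀ k : Fin m, pderiv k.succ.succ.succ (a 0) q = 0
  p01 : pderiv 0 (a 1) q = d01
  p11 : pderiv 1 (a 1) q = d
  p21 : pderiv 2 (a 1) q = f
  pk1 : ∀ k : Fin m, pderiv k.succ.succ.succ (a 1) q = 0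
  p02 : pderiv 0 (a 2) q = d02
  p12 : pderiv 1 (a 2) q = -d
  p22 : pderiv 2 (a 2) q = -f
  pk2 : ∀ k : Fin m, pderiv k.succ.succ.succ (a 2) q = 0
  p0w : pderiv 0 w q = d0w
  p1w : pderiv 1 w q = 1 / X
  p2w : pderiv 2 w q = 0
  pkw : ∀ k : Fin m, pderiv k.succ.succ.succ w q = -(2 * η k / c)
  z : ∀ i j, pderiv i (pderiv j (a 0)) q = 0
  s001 : pderiv 0 (pderiv 0 (a 1)) q = h001
  s002 : pderiv 0 (pderiv 0 (a 2)) q = h002
  s00w : pderiv 0 (pderiv 0 w) q = h00w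
  s012 : pderiv 0 (pderiv 1 (a 2)) q = h012
  s021 : pderiv 0 (pderiv 2 (a 1)) q = h021
  s111 : pderiv 1 (pderiv 1 (a 1)) q = h11
  s112 : pderiv 1 (pderiv 1 (a 2)) q = -h11
  s221 : pderiv 2 (pderiv 2 (a 1)) q = h22
  s222 : pderiv 2 (pderiv 2 (a 2)) q = -h22
  s11w : pderiv 1 (pderiv 1 w) q = -(1 / X ^ 2)
  s01w : pderiv 0 (pderiv 1 w) q = 0
  s02w : pderiv 0 (pderiv 2 w) q = 0
  s12w : pderiv 1 (pderiv 2 w) q = 0
  s22w : pderiv 2 (pderiv 2 w) q = 0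
  s0k1 : ∀ k : Fin m, pderiv 0 (pderiv k.succ.succ.succ (a 1)) q = 0
  s0k2 : ∀ k : Fin m, pderiv 0 (pderiv k.succ.succ.succ (a 2)) q = 0
  s0kw : ∀ k : Fin m, pderiv 0 (pderiv k.succ.succ.succ w) q = 0
  s1k1 : ∀ k : Fin m, pderiv 1 (pderiv k.succ.succ.succ (a 1)) q = 0
  s1k2 : ∀ k : Fin m, pderiv 1 (pderiv k.succ.succ.succ (a 2)) q = 0
  s1kw : ∀ k : Fin m, pderiv 1 (pderiv k.succ.succ.succ w) q = 0
  s2k1 : ∀ k : Fin m, pderiv 2 (pderiv k.succ.succ.succ (a 1)) q = 0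
  s2k2 : ∀ k : Fin m, pderiv 2 (pderiv k.succ.succ.succ (a 2)) q = 0
  s2kw : ∀ k : Fin m, pderiv 2 (pderiv k.succ.succ.succ w) q = 0
  skk1 : ∀ k l : Fin m, pderiv k.succ.succ.succ (pderiv l.succ.succ.succ (a 1)) q = 0
  skk2 : ∀ k l : Fin m, pderiv k.succ.succ.succ (pderiv l.succ.succ.succ (a 2)) q = 0
  skkw : ∀ k l : Fin m, pderiv k.succ.succ.succ (pderiv l.succ.succ.succ w) q =
    -(if k = l then 2 / c else 0) + 4 * η k * η l / c ^ 2

namespace Jet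

variable {a : Fin (m + 3) → EuclideanSpace ℝ (Fin (m + 3)) → ℝ}
    {w : EuclideanSpace ℝ (Fin (m + 3)) → ℝ}
    {q : EuclideanSpace ℝ (Fin (m + 3))}
    {X d f d01 d02 d0w h001 h002 h00w h012 h021 h11 h22 c : ℝ} {η : Fin m → ℝ}

theorem S0 (J : Jet a w q X d f d01 d02 d0w h001 h002 h00w h012 h021 h11 h22 c η) :
    ∑ k, pderiv 0 (a k) q = 1 + (d01 + (d02 + m * d0w)) := by
  rw [sum3, J.p00, J.p01, J.p02]
  simp_rw [J.hw, J.p0w]
  simp

theorem S1 (J : Jet a w q X d f d01 d02 d0w h001 h002 h00w h012 h021 h11 h22 c η) :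
    ∑ k, pderiv 1 (a k) q = m / X := by
  rw [sum3, J.p10, J.p11, J.p12]
  simp_rw [J.hw, J.p1w]
  simp; ring

theorem S2 (J : Jet a w q X d f d01 d02 d0w h001 h002 h00w h012 h021 h11 h22 c η) :
    ∑ k, pderiv 2 (a k) q = 0 := by
  rw [sum3, J.p20, J.p21, J.p22]
  simp_rw [J.hw, J.p2w]
  simp

theorem Sk (J : Jet a w q X d f d01 d02 d0w h001 h002 h00w h012 h021 h11 h22 c η) (l : Fin m) :
    ∑ k, pderiv l.succ.succ.succ (a k) q = -(m * (2 * η l / c)) := by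
  rw [sum3, J.pk0, J.pk1, J.pk2]
  simp_rw [J.hw, J.pkw]
  simp

theorem cpos (J : Jet a w q X d f d01 d02 d0w h001 h002 h00w h012 h021 h11 h22 c η) :
    0 < c := by
  rw [J.hc]
  have : 0 ≤ ∑ k : Fin m, η k ^ 2 := Finset.sum_nonneg fun _ _ => sq_nonneg _
  linarith

theorem R00 (J : Jet a w q X d f d01 d02 d0w h001 h002 h00w h012 h021 h11 h22 c η) :
    ricci (diagMetric a) q 0 0 =
      -(h001 + h002 + m * h00w) + (1 + (d01 + (d02 + m * d0w)))
        - (1 + d01 ^ 2 + d02 ^ 2 + m * d0w ^ 2) := by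
  rw [ricci_diagMetric J.c2, J.S0, if_pos rfl]
  simp_rw [J.z]
  have e1 : ∑ k, pderiv 0 (pderiv 0 (a k)) q = h001 + h002 + m * h00w := by
    rw [sum3, J.z, J.s001, J.s002]; simp_rw [J.hw, J.s00w]; simp; ring
  have e2 : ∑ k, pderiv 0 (a k) q * pderiv 0 (a k) q = 1 + d01 ^ 2 + d02 ^ 2 + m * d0w ^ 2 := by
    rw [sum3, J.p00, J.p01, J.p02]; simp_rw [J.hw, J.p0w]; simp; ring
  have e3 : ∑ k, Real.exp (2 * (a 0 q - a k q)) *
      (0 + ((∑ l, pderiv k (a l) q) - 2 * pderiv k (a k) q) * pderiv k (a 0) q) =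
      (1 + (d01 + (d02 + m * d0w))) - 2 := by
    rw [sum3, J.p00, J.p10, J.p20, J.S0]; simp_rw [J.pk0]
    simp
  rw [e1, e2, e3, J.p00]; ring

theorem R01 (J : Jet a w q X d f d01 d02 d0w h001 h002 h00w h012 h021 h11 h22 c η) :
    ricci (diagMetric a) q 0 1 =
      -h012 + m / X * (d01 - d0w) - (d01 - d02) * d := by
  rw [ricci_diagMetric J.c2, J.S0, J.S1, if_neg one_ne_zero3.symm, J.z]
  have e1 : ∑ k, pderiv 0 (pderiv 1 (a k)) q = pderiv 0 (pderiv 1 (a 1)) q + h012 := by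
    rw [sum3, J.z, J.s012]; simp_rw [J.hw, J.s01w]; simp
  have e2 : ∑ k, pderiv 0 (a k) q * pderiv 1 (a k) q = d01 * d - d02 * d + m * (d0w / X) := by
    rw [sum3, J.p00, J.p01, J.p02, J.p10, J.p11, J.p12]
    simp_rw [J.hw, J.p0w, J.p1w]; simp; ring
  rw [e1, e2, J.p01, J.p10]; ring

theorem R02 (J : Jet a w q X d f d01 d02 d0w h001 h002 h00w h012 h021 h11 h22 c η) :
    ricci (diagMetric a) q 0 2 = -h021 - (d01 - d02) * f := by
  rw [ricci_diagMetric J.c2, J.S0, J.S2, if_neg two_ne_zero3.symm, J.z]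
  have e1 : ∑ k, pderiv 0 (pderiv 2 (a k)) q = h021 + pderiv 0 (pderiv 2 (a 2)) q := by
    rw [sum3, J.z, J.s021]; simp_rw [J.hw, J.s02w]; simp
  have e2 : ∑ k, pderiv 0 (a k) q * pderiv 2 (a k) q = d01 * f - d02 * f := by
    rw [sum3, J.p00, J.p01, J.p02, J.p20, J.p21, J.p22]
    simp_rw [J.hw, J.p0w, J.p2w]; simp; ring
  rw [e1, e2, J.p02, J.p20]; ring

theorem R0k (J : Jet a w q X d f d01 d02 d0w h001 h002 h00w h012 h021 h11 h22 c η) (l : Fin m) :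
    ricci (diagMetric a) q 0 l.succ.succ.succ = 0 := by
  rw [ricci_diagMetric J.c2, J.S0, J.Sk, if_neg (succ3_ne_zero l).symm, J.z, J.hw, J.s0kw]
  have e1 : ∑ k, pderiv 0 (pderiv l.succ.succ.succ (a k)) q = 0 := by
    rw [sum3, J.z, J.s0k1, J.s0k2]; simp_rw [J.hw, J.s0kw]; simp
  have e2 : ∑ k, pderiv 0 (a k) q * pderiv l.succ.succ.succ (a k) q =
      -(m * (d0w * (2 * η l / c))) := by
    rw [sum3, J.pk0, J.pk1, J.pk2]
    simp_rw [J.hw, J.p0w, J.pkw]; simp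
  rw [e1, e2, J.p0w, J.pk0]; ring

theorem R12 (J : Jet a w q X d f d01 d02 d0w h001 h002 h00w h012 h021 h11 h22 c η) :
    ricci (diagMetric a) q 1 2 = m / X * f := by
  rw [ricci_diagMetric J.c2, J.S1, J.S2, if_neg two_ne_one3.symm]
  have e1 : ∑ k, pderiv 1 (pderiv 2 (a k)) q =
      pderiv 1 (pderiv 2 (a 1)) q + pderiv 1 (pderiv 2 (a 2)) q := by
    rw [sum3, J.z]; simp_rw [J.hw, J.s12w]; simp
  have e2 : ∑ k, pderiv 1 (a k) q * pderiv 2 (a k) q = 2 * (d * f) := by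
    rw [sum3, J.p10, J.p11, J.p12, J.p20, J.p21, J.p22]
    simp_rw [J.hw, J.p1w, J.p2w]; simp; ring
  rw [e1, e2, J.p12, J.p21]; ring

theorem R1k (J : Jet a w q X d f d01 d02 d0w h001 h002 h00w h012 h021 h11 h22 c η) (l : Fin m) :
    ricci (diagMetric a) q 1 l.succ.succ.succ = 0 := by
  rw [ricci_diagMetric J.c2, J.S1, J.Sk, if_neg (succ3_ne_one l).symm, J.hw, J.s1kw, J.s1k1]
  have e1 : ∑ k, pderiv 1 (pderiv l.succ.succ.succ (a k)) q = 0 := by
    rw [sum3, J.z, J.s1k1, J.s1k2]; simp_rw [J.hw, J.s1kw]; simp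
  have e2 : ∑ k, pderiv 1 (a k) q * pderiv l.succ.succ.succ (a k) q =
      -(m * (1 / X * (2 * η l / c))) := by
    rw [sum3, J.pk0, J.pk1, J.pk2]
    simp_rw [J.hw, J.p1w, J.pkw]; simp
  rw [e1, e2, J.p1w, J.pk1]; ring

theorem R2k (J : Jet a w q X d f d01 d02 d0w h001 h002 h00w h012 h021 h11 h22 c η) (l : Fin m) :
    ricci (diagMetric a) q 2 l.succ.succ.succ = 0 := by
  rw [ricci_diagMetric J.c2, J.S2, J.Sk, if_neg (succ3_ne_two l).symm, J.hw, J.s2kw, J.s2k2]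
  have e1 : ∑ k, pderiv 2 (pderiv l.succ.succ.succ (a k)) q = 0 := by
    rw [sum3, J.z, J.s2k1, J.s2k2]; simp_rw [J.hw, J.s2kw]; simp
  have e2 : ∑ k, pderiv 2 (a k) q * pderiv l.succ.succ.succ (a k) q = 0 := by
    rw [sum3, J.pk0, J.pk1, J.pk2]
    simp_rw [J.hw, J.p2w, J.pkw]; simp
  rw [e1, e2, J.p2w, J.pk2]; ring

theorem R11 (J : Jet a w q X d f d01 d02 d0w h001 h002 h00w h012 h021 h11 h22 c η) :
    ricci (diagMetric a) q 1 1 =
      h11 + m / X * d - 2 * d ^ 2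
        - Real.exp (2 * (a 1 q - a 2 q)) * (h22 + 2 * f ^ 2)
        - Real.exp (2 * (a 1 q - a 0 q)) *
          (h001 + ((1 + (d01 + (d02 + m * d0w))) - 2) * d01) := by
  rw [ricci_diagMetric J.c2, J.S1, if_pos rfl, J.s111]
  have e1 : ∑ k, pderiv 1 (pderiv 1 (a k)) q = -(m / X ^ 2) := by
    rw [sum3, J.z, J.s111, J.s112]; simp_rw [J.hw, J.s11w]; simp; ring
  have e2 : ∑ k, pderiv 1 (a k) q * pderiv 1 (a k) q = 2 * d ^ 2 + m / X ^ 2 := by
    rw [sum3, J.p10, J.p11, J.p12]; simp_rw [J.hw, J.p1w]; simp; ring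
  have e3 : ∑ k, Real.exp (2 * (a 1 q - a k q)) *
      (pderiv k (pderiv k (a 1)) q
        + ((∑ l, pderiv k (a l) q) - 2 * pderiv k (a k) q) * pderiv k (a 1) q) =
      Real.exp (2 * (a 1 q - a 0 q)) * (h001 + ((1 + (d01 + (d02 + m * d0w))) - 2) * d01)
      + (h11 + (m / X - 2 * d) * d)
      + Real.exp (2 * (a 1 q - a 2 q)) * (h22 + 2 * f ^ 2) := by
    rw [sum3, J.p00, J.p01, J.p11, J.p22, J.p21, J.S0, J.S1, J.S2, J.s001, J.s111, J.s221]
    simp_rw [J.skk1, J.pk1]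
    simp; ring
  rw [e1, e2, e3, J.p11]; ring

theorem R22 (J : Jet a w q X d f d01 d02 d0w h001 h002 h00w h012 h021 h11 h22 c η) :
    ricci (diagMetric a) q 2 2 =
      Real.exp (2 * (a 2 q - a 1 q)) * (h11 + m / X * d - 2 * d ^ 2)
        - (h22 + 2 * f ^ 2)
        - Real.exp (2 * (a 2 q - a 0 q)) *
          (h002 + ((1 + (d01 + (d02 + m * d0w))) - 2) * d02) := by
  rw [ricci_diagMetric J.c2, J.S2, if_pos rfl, J.s222]
  have e1 : ∑ k, pderiv 2 (pderiv 2 (a k)) q = 0 := by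
    rw [sum3, J.z, J.s221, J.s222]; simp_rw [J.hw, J.s22w]; simp
  have e2 : ∑ k, pderiv 2 (a k) q * pderiv 2 (a k) q = 2 * f ^ 2 := by
    rw [sum3, J.p20, J.p21, J.p22]; simp_rw [J.hw, J.p2w]; simp; ring
  have e3 : ∑ k, Real.exp (2 * (a 2 q - a k q)) *
      (pderiv k (pderiv k (a 2)) q
        + ((∑ l, pderiv k (a l) q) - 2 * pderiv k (a k) q) * pderiv k (a 2) q) =
      Real.exp (2 * (a 2 q - a 0 q)) * (h002 + ((1 + (d01 + (d02 + m * d0w))) - 2) * d02)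
      + Real.exp (2 * (a 2 q - a 1 q)) * (-h11 - (m / X - 2 * d) * d)
      + (-h22 - 2 * f ^ 2) := by
    rw [sum3, J.p00, J.p02, J.p11, J.p12, J.p22, J.S0, J.S1, J.S2, J.s002, J.s112, J.s222]
    simp_rw [J.skk2, J.pk2]
    simp; ring
  rw [e1, e2, e3, J.p22]; ring

theorem Rkl (J : Jet a w q X d f d01 d02 d0w h001 h002 h00w h012 h021 h11 h22 c η)
    (k l : Fin m) :
    ricci (diagMetric a) q k.succ.succ.succ l.succ.succ.succ =
      if k = l then
        (m - 1) * (4 / c ^ 2)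
          - Real.exp (2 * (w q - a 1 q)) * (-(1 / X ^ 2) + (m / X - 2 * d) * (1 / X))
          - Real.exp (2 * (w q - a 0 q)) *
            (h00w + ((1 + (d01 + (d02 + m * d0w))) - 2) * d0w) else 0 := by
  have hc0 : c ≠ 0 := J.cpos.ne'
  rw [ricci_diagMetric J.c2, J.Sk, J.Sk, J.hw, J.hw, J.skkw]
  have e1 : ∑ p, pderiv k.succ.succ.succ (pderiv l.succ.succ.succ (a p)) q =
      m * (-(if k = l then 2 / c else 0) + 4 * η k * η l / c ^ 2) := by
    rw [sum3, J.z, J.skk1, J.skk2]; simp_rw [J.hw, J.skkw]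
    rw [Finset.sum_const, Finset.card_univ, Fintype.card_fin, nsmul_eq_mul]; ring
  have e2 : ∑ p, pderiv k.succ.succ.succ (a p) q * pderiv l.succ.succ.succ (a p) q =
      m * ((2 * η k / c) * (2 * η l / c)) := by
    rw [sum3, J.pk0, J.pk1, J.pk2]; simp_rw [J.hw, J.pkw]; simp
  have hinj : (k.succ.succ.succ : Fin (m + 3)) = l.succ.succ.succ ↔ k = l := by
    constructor
    · intro h
      exact Fin.succ_injective _ (Fin.succ_injective _ (Fin.succ_injective _ h))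
    · intro h; rw [h]
  rw [e1, e2, J.pkw, J.pkw]
  by_cases hkl : k = l
  · subst hkl
    simp only [if_true]
    have e3 : ∑ p, Real.exp (2 * (w q - a p q)) *
      (pderiv p (pderiv p w) q
        + ((∑ l, pderiv p (a l) q) - 2 * pderiv p (a p) q) * pderiv p w q) =
      Real.exp (2 * (w q - a 0 q)) * (h00w + ((1 + (d01 + (d02 + m * d0w))) - 2) * d0w)
      + Real.exp (2 * (w q - a 1 q)) * (-(1 / X ^ 2) + (m / X - 2 * d) * (1 / X))
      + (-(2 * m / c) + (4 * (m - 1) / c ^ 2) * (c - 1)) := by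
      rw [sum3, J.p00, J.p0w, J.p1w, J.p11, J.p2w, J.p22, J.S0, J.S1, J.S2, J.s00w, J.s11w, J.s22w]
      simp_rw [J.skkw, J.pkw, J.Sk, J.hw, J.pkw]
      have e4 : ∀ p : Fin m, Real.exp (2 * (w q - w q)) *
          ((-(if True then 2 / c else 0) + 4 * η p * η p / c ^ 2)
            + (-(m * (2 * η p / c)) - 2 * -(2 * η p / c)) * -(2 * η p / c)) =
          -(2 / c) + (4 * (m - 1) / c ^ 2) * η p ^ 2 := by
        intro p
        simp only [sub_self, mul_zero, Real.exp_zero, if_true]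
        field_simp; ring
      rw [Finset.sum_congr rfl fun p _ => e4 p, Finset.sum_add_distrib, ← Finset.mul_sum,
        show ∑ p : Fin m, η p ^ 2 = c - 1 by rw [J.hc]; ring]
      simp; ring
    rw [e3]
    field_simp
    ring
  · rw [if_neg hkl, if_neg hkl, if_neg (fun h => hkl (hinj.1 h))]
    field_simp
    ring

end Jet

end

end Crest.Agent.R202.Geo
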