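import Mathlib
import Crest.Prelude.Def_CoordMetric
import Crest.Prelude.Def_ChartCurvature
import Crest.Agent.R202.GeoDefs
import Crest.Agent.R202.GeoHyp
import Crest.Agent.R202.GeoDiag
import Crest.Agent.R202.GeoPolar
import Crest.Agent.R202.GeoJet

/-!
Row 202, Part D: calculus of functions of `(t, X, φ)` and the jet of the exponents `aa s θ P`.
-/

set_option autoImplicit false

open scoped ContDiff Topology
open Crest.GeometryTopology.CoordMetric Crest.GeometryTopology.ChartCurvature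

namespace Crest.Agent.R202.Geo

noncomputable section

variable {m : ℕ}

/-- The strip `0 < X < 1`. -/
def Str : Set (ℝ × ℝ × ℝ) := {p | 0 < p.2.1 ∧ p.2.1 < 1}

theorem isOpen_Str : IsOpen Str :=
  (isOpen_lt continuous_const (continuous_fst.comp continuous_snd)).inter
    (isOpen_lt (continuous_fst.comp continuous_snd) continuous_const)

/-- Smooth on `ℝ³`. -/
def Sm (F : ℝ → ℝ → ℝ → ℝ) : Prop := ContDiff ℝ ∞ (fun p : ℝ × ℝ × ℝ => F p.1 p.2.1 p.2.2)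

/-- Smooth on the strip. -/
def SmO (F : ℝ → ℝ → ℝ → ℝ) : Prop :=
  ContDiffOn ℝ ∞ (fun p : ℝ × ℝ × ℝ => F p.1 p.2.1 p.2.2) Str

theorem Sm.smO {F : ℝ → ℝ → ℝ → ℝ} (h : Sm F) : SmO F := h.contDiffOn

/-! partial derivatives as directional derivatives -/

theorem hasDerivAt_T {F : ℝ → ℝ → ℝ → ℝ} {p : ℝ × ℝ × ℝ}
    (h : DifferentiableAt ℝ (fun p : ℝ × ℝ × ℝ => F p.1 p.2.1 p.2.2) p) :
    HasDerivAt (fun τ => F τ p.2.1 p.2.2)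
      (fderiv ℝ (fun p : ℝ × ℝ × ℝ => F p.1 p.2.1 p.2.2) p (1, 0, 0)) p.1 := by
  have h1 : HasDerivAt (fun τ : ℝ => ((τ, p.2.1, p.2.2) : ℝ × ℝ × ℝ)) (1, 0, 0) p.1 :=
    (hasDerivAt_id p.1).prodMk (hasDerivAt_const p.1 (p.2.1, p.2.2))
  exact h.hasFDerivAt.comp_hasDerivAt p.1 h1

theorem hasDerivAt_X {F : ℝ → ℝ → ℝ → ℝ} {p : ℝ × ℝ × ℝ}
    (h : DifferentiableAt ℝ (fun p : ℝ × ℝ × ℝ => F p.1 p.2.1 p.2.2) p) :
    HasDerivAt (fun Y => F p.1 Y p.2.2)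
      (fderiv ℝ (fun p : ℝ × ℝ × ℝ => F p.1 p.2.1 p.2.2) p (0, 1, 0)) p.2.1 := by
  have h1 : HasDerivAt (fun Y : ℝ => ((p.1, Y, p.2.2) : ℝ × ℝ × ℝ)) (0, 1, 0) p.2.1 :=
    (hasDerivAt_const p.2.1 p.1).prodMk
      ((hasDerivAt_id p.2.1).prodMk (hasDerivAt_const p.2.1 p.2.2))
  exact h.hasFDerivAt.comp_hasDerivAt p.2.1 h1

theorem hasDerivAt_F {F : ℝ → ℝ → ℝ → ℝ} {p : ℝ × ℝ × ℝ}
    (h : DifferentiableAt ℝ (fun p : ℝ × ℝ × ℝ => F p.1 p.2.1 p.2.2) p) :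
    HasDerivAt (fun ψ => F p.1 p.2.1 ψ)
      (fderiv ℝ (fun p : ℝ × ℝ × ℝ => F p.1 p.2.1 p.2.2) p (0, 0, 1)) p.2.2 := by
  have h1 : HasDerivAt (fun ψ : ℝ => ((p.1, p.2.1, ψ) : ℝ × ℝ × ℝ)) (0, 0, 1) p.2.2 :=
    (hasDerivAt_const p.2.2 p.1).prodMk
      ((hasDerivAt_const p.2.2 p.2.1).prodMk (hasDerivAt_id p.2.2))
  exact h.hasFDerivAt.comp_hasDerivAt p.2.2 h1

theorem dT_eq {F : ℝ → ℝ → ℝ → ℝ} {p : ℝ × ℝ × ℝ}
    (h : DifferentiableAt ℝ (fun p : ℝ × ℝ × ℝ => F p.1 p.2.1 p.2.2) p) :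
    dT F p.1 p.2.1 p.2.2 =
      fderiv ℝ (fun p : ℝ × ℝ × ℝ => F p.1 p.2.1 p.2.2) p (1, 0, 0) := (hasDerivAt_T h).deriv

theorem dX_eq {F : ℝ → ℝ → ℝ → ℝ} {p : ℝ × ℝ × ℝ}
    (h : DifferentiableAt ℝ (fun p : ℝ × ℝ × ℝ => F p.1 p.2.1 p.2.2) p) :
    dX F p.1 p.2.1 p.2.2 =
      fderiv ℝ (fun p : ℝ × ℝ × ℝ => F p.1 p.2.1 p.2.2) p (0, 1, 0) := (hasDerivAt_X h).deriv

theorem dF_eq {F : ℝ → ℝ → ℝ → ℝ} {p : ℝ × ℝ × ℝ}
    (h : DifferentiableAt ℝ (fun p : ℝ × ℝ × ℝ => F p.1 p.2.1 p.2.2) p) :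
    dF F p.1 p.2.1 p.2.2 =
      fderiv ℝ (fun p : ℝ × ℝ × ℝ => F p.1 p.2.1 p.2.2) p (0, 0, 1) := (hasDerivAt_F h).deriv

theorem SmO.cda {F : ℝ → ℝ → ℝ → ℝ} (h : SmO F) {p : ℝ × ℝ × ℝ} (hp : p ∈ Str) :
    ContDiffAt ℝ ∞ (fun p : ℝ × ℝ × ℝ => F p.1 p.2.1 p.2.2) p :=
  h.contDiffAt (isOpen_Str.mem_nhds hp)

theorem SmO.da {F : ℝ → ℝ → ℝ → ℝ} (h : SmO F) {p : ℝ × ℝ × ℝ} (hp : p ∈ Str) :
    DifferentiableAt ℝ (fun p : ℝ × ℝ × ℝ => F p.1 p.2.1 p.2.2) p :=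
  (h.cda hp).differentiableAt (by simp)

theorem Sm.da {F : ℝ → ℝ → ℝ → ℝ} (h : Sm F) (p : ℝ × ℝ × ℝ) :
    DifferentiableAt ℝ (fun p : ℝ × ℝ × ℝ => F p.1 p.2.1 p.2.2) p :=
  h.differentiable (by simp) p

theorem fderiv_dir_smO {F : ℝ → ℝ → ℝ → ℝ} (h : SmO F) (v : ℝ × ℝ × ℝ) :
    ContDiffOn ℝ ∞ (fun p => fderiv ℝ (fun p : ℝ × ℝ × ℝ => F p.1 p.2.1 p.2.2) p v) Str := by
  have h1 : ContDiffOn ℝ ∞ (fderiv ℝ (fun p : ℝ × ℝ × ℝ => F p.1 p.2.1 p.2.2)) Str :=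
    ContDiffOn.fderiv_of_isOpen h isOpen_Str (by simp)
  exact h1.clm_apply contDiffOn_const

theorem SmO.dT {F : ℝ → ℝ → ℝ → ℝ} (h : SmO F) : SmO (dT F) :=
  (fderiv_dir_smO h (1, 0, 0)).congr fun p hp => dT_eq (h.da hp)

theorem SmO.dX {F : ℝ → ℝ → ℝ → ℝ} (h : SmO F) : SmO (dX F) :=
  (fderiv_dir_smO h (0, 1, 0)).congr fun p hp => dX_eq (h.da hp)

theorem SmO.dF {F : ℝ → ℝ → ℝ → ℝ} (h : SmO F) : SmO (dF F) :=
  (fderiv_dir_smO h (0, 0, 1)).congr fun p hp => dF_eq (h.da hp)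

theorem fderiv_dir_sm {F : ℝ → ℝ → ℝ → ℝ} (h : Sm F) (v : ℝ × ℝ × ℝ) :
    ContDiff ℝ ∞ (fun p => fderiv ℝ (fun p : ℝ × ℝ × ℝ => F p.1 p.2.1 p.2.2) p v) := by
  have h1 : ContDiff ℝ ∞ (fderiv ℝ (fun p : ℝ × ℝ × ℝ => F p.1 p.2.1 p.2.2)) :=
    h.fderiv_right (by simp)
  exact h1.clm_apply contDiff_const

theorem Sm.dT {F : ℝ → ℝ → ℝ → ℝ} (h : Sm F) : Sm (dT F) := by
  have := fderiv_dir_sm h (1, 0, 0)
  have e : (fun p : ℝ × ℝ × ℝ => Geo.dT F p.1 p.2.1 p.2.2) =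
      fun p => fderiv ℝ (fun p : ℝ × ℝ × ℝ => F p.1 p.2.1 p.2.2) p (1, 0, 0) := by
    funext p; exact dT_eq (h.da p)
  unfold Sm; rw [e]; exact this

theorem Sm.dX {F : ℝ → ℝ → ℝ → ℝ} (h : Sm F) : Sm (dX F) := by
  have := fderiv_dir_sm h (0, 1, 0)
  have e : (fun p : ℝ × ℝ × ℝ => Geo.dX F p.1 p.2.1 p.2.2) =
      fun p => fderiv ℝ (fun p : ℝ × ℝ × ℝ => F p.1 p.2.1 p.2.2) p (0, 1, 0) := by
    funext p; exact dX_eq (h.da p)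
  unfold Sm; rw [e]; exact this

theorem Sm.dF {F : ℝ → ℝ → ℝ → ℝ} (h : Sm F) : Sm (dF F) := by
  have := fderiv_dir_sm h (0, 0, 1)
  have e : (fun p : ℝ × ℝ × ℝ => Geo.dF F p.1 p.2.1 p.2.2) =
      fun p => fderiv ℝ (fun p : ℝ × ℝ × ℝ => F p.1 p.2.1 p.2.2) p (0, 0, 1) := by
    funext p; exact dF_eq (h.da p)
  unfold Sm; rw [e]; exact this

/-! slices -/

theorem Sm.hT {F : ℝ → ℝ → ℝ → ℝ} (h : Sm F) (t X φ : ℝ) :
    HasDerivAt (fun τ => F τ X φ) (Geo.dT F t X φ) t := by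
  have := hasDerivAt_T (F := F) (p := (t, X, φ)) (h.da _)
  rw [← dT_eq (h.da _)] at this; exact this

theorem Sm.hX {F : ℝ → ℝ → ℝ → ℝ} (h : Sm F) (t X φ : ℝ) :
    HasDerivAt (fun Y => F t Y φ) (Geo.dX F t X φ) X := by
  have := hasDerivAt_X (F := F) (p := (t, X, φ)) (h.da _)
  rw [← dX_eq (h.da _)] at this; exact this

theorem Sm.hF {F : ℝ → ℝ → ℝ → ℝ} (h : Sm F) (t X φ : ℝ) :
    HasDerivAt (fun ψ => F t X ψ) (Geo.dF F t X φ) φ := by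
  have := hasDerivAt_F (F := F) (p := (t, X, φ)) (h.da _)
  rw [← dF_eq (h.da _)] at this; exact this

/-! ### Base functions on `E (m+3)` -/

/-- The function `q ↦ F (q 0) (q 1) (q 2)`. -/
def bas (F : ℝ → ℝ → ℝ → ℝ) (q : EuclideanSpace ℝ (Fin (m + 3))) : ℝ := F (q 0) (q 1) (q 2)

/-- The projection `q ↦ (q 0, q 1, q 2)`. -/
def prj : EuclideanSpace ℝ (Fin (m + 3)) →L[ℝ] ℝ × ℝ × ℝ :=
  (pr 0).prod ((pr 1).prod (pr 2))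

theorem prj_apply (q : EuclideanSpace ℝ (Fin (m + 3))) : prj q = (q 0, q 1, q 2) := rfl

theorem prj_mem {q : EuclideanSpace ℝ (Fin (m + 3))} (hq : q ∈ VV m) : prj q ∈ Str := hq

theorem SmO.bas_cda {F : ℝ → ℝ → ℝ → ℝ} (h : SmO F) {q : EuclideanSpace ℝ (Fin (m + 3))}
    (hq : q ∈ VV m) : ContDiffAt ℝ ∞ (bas (m := m) F) q :=
  (h.cda (prj_mem hq)).comp q prj.contDiff.contDiffAt

theorem pderiv_bas {F : ℝ → ℝ → ℝ → ℝ} (h : SmO F) {q : EuclideanSpace ℝ (Fin (m + 3))}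
    (hq : q ∈ VV m) (i : Fin (m + 3)) :
    pderiv i (bas (m := m) F) q =
      fderiv ℝ (fun p : ℝ × ℝ × ℝ => F p.1 p.2.1 p.2.2) (prj q) (prj (bv i)) := by
  have h1 : HasFDerivAt (bas (m := m) F)
      ((fderiv ℝ (fun p : ℝ × ℝ × ℝ => F p.1 p.2.1 p.2.2) (prj q)).comp prj) q :=
    (h.da (prj_mem hq)).hasFDerivAt.comp q prj.hasFDerivAt
  unfold pderiv
  rw [h1.fderiv]
  rfl

theorem pderiv_bas0 {F : ℝ → ℝ → ℝ → ℝ} (h : SmO F) {q : EuclideanSpace ℝ (Fin (m + 3))}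
    (hq : q ∈ VV m) : pderiv 0 (bas (m := m) F) q = bas (dT F) q := by
  rw [pderiv_bas h hq]
  have : prj (bv 0 : EuclideanSpace ℝ (Fin (m + 3))) = ((1, 0, 0) : ℝ × ℝ × ℝ) := by
    rw [prj_apply, bv_apply, bv_apply, bv_apply, if_pos rfl, if_neg one_ne_zero3,
      if_neg two_ne_zero3]
  rw [this]
  exact (dT_eq (h.da (prj_mem hq))).symm

theorem pderiv_bas1 {F : ℝ → ℝ → ℝ → ℝ} (h : SmO F) {q : EuclideanSpace ℝ (Fin (m + 3))}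
    (hq : q ∈ VV m) : pderiv 1 (bas (m := m) F) q = bas (dX F) q := by
  rw [pderiv_bas h hq]
  have : prj (bv 1 : EuclideanSpace ℝ (Fin (m + 3))) = ((0, 1, 0) : ℝ × ℝ × ℝ) := by
    rw [prj_apply, bv_apply, bv_apply, bv_apply, if_pos rfl, if_neg one_ne_zero3.symm,
      if_neg two_ne_one3]
  rw [this]
  exact (dX_eq (h.da (prj_mem hq))).symm

theorem pderiv_bas2 {F : ℝ → ℝ → ℝ → ℝ} (h : SmO F) {q : EuclideanSpace ℝ (Fin (m + 3))}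
    (hq : q ∈ VV m) : pderiv 2 (bas (m := m) F) q = bas (dF F) q := by
  rw [pderiv_bas h hq]
  have : prj (bv 2 : EuclideanSpace ℝ (Fin (m + 3))) = ((0, 0, 1) : ℝ × ℝ × ℝ) := by
    rw [prj_apply, bv_apply, bv_apply, bv_apply, if_pos rfl, if_neg two_ne_zero3.symm,
      if_neg two_ne_one3.symm]
  rw [this]
  exact (dF_eq (h.da (prj_mem hq))).symm

theorem pderiv_bask {F : ℝ → ℝ → ℝ → ℝ} (h : SmO F) {q : EuclideanSpace ℝ (Fin (m + 3))}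
    (hq : q ∈ VV m) (k : Fin m) : pderiv k.succ.succ.succ (bas (m := m) F) q = 0 := by
  rw [pderiv_bas h hq]
  have : prj (bv k.succ.succ.succ : EuclideanSpace ℝ (Fin (m + 3))) = (0 : ℝ × ℝ × ℝ) := by
    rw [prj_apply, bv_apply, bv_apply, bv_apply, if_neg (succ3_ne_zero k).symm,
      if_neg (succ3_ne_one k).symm, if_neg (succ3_ne_two k).symm]; rfl
  rw [this, map_zero]

theorem eventually_VV {q : EuclideanSpace ℝ (Fin (m + 3))} (hq : q ∈ VV m) :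
    ∀ᶠ y in 𝓝 q, y ∈ VV m := isOpen_VV.mem_nhds hq

theorem pd_bas0 {F : ℝ → ℝ → ℝ → ℝ} (h : SmO F) {q : EuclideanSpace ℝ (Fin (m + 3))}
    (hq : q ∈ VV m) (i : Fin (m + 3)) :
    pderiv i (pderiv 0 (bas (m := m) F)) q = pderiv i (bas (m := m) (dT F)) q :=
  pderiv_congr <| (eventually_VV hq).mono fun _ hy => pderiv_bas0 h hy

theorem pd_bas1 {F : ℝ → ℝ → ℝ → ℝ} (h : SmO F) {q : EuclideanSpace ℝ (Fin (m + 3))}
    (hq : q ∈ VV m) (i : Fin (m + 3)) :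
    pderiv i (pderiv 1 (bas (m := m) F)) q = pderiv i (bas (m := m) (dX F)) q :=
  pderiv_congr <| (eventually_VV hq).mono fun _ hy => pderiv_bas1 h hy

theorem pd_bas2 {F : ℝ → ℝ → ℝ → ℝ} (h : SmO F) {q : EuclideanSpace ℝ (Fin (m + 3))}
    (hq : q ∈ VV m) (i : Fin (m + 3)) :
    pderiv i (pderiv 2 (bas (m := m) F)) q = pderiv i (bas (m := m) (dF F)) q :=
  pderiv_congr <| (eventually_VV hq).mono fun _ hy => pderiv_bas2 h hy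

theorem pd_bask {F : ℝ → ℝ → ℝ → ℝ} (h : SmO F) {q : EuclideanSpace ℝ (Fin (m + 3))}
    (hq : q ∈ VV m) (k : Fin m) (i : Fin (m + 3)) :
    pderiv i (pderiv k.succ.succ.succ (bas (m := m) F)) q = 0 := by
  have : pderiv i (pderiv k.succ.succ.succ (bas (m := m) F)) q = pderiv i (fun _ => (0:ℝ)) q :=
    pderiv_congr <| (eventually_VV hq).mono fun _ hy => pderiv_bask h hy k
  rw [this, pderiv_const]

end

end Crest.Agent.R202.Geo
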