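import Mathlib
import Crest.Prelude.Def_CoordMetric
import Crest.Prelude.Def_ChartCurvature
import Crest.Agent.R202.GeoCalc

/-!
Row 202, Part D: the jet of the exponents `aa s θ P`.
-/

set_option autoImplicit false

open scoped ContDiff Topology
open Crest.GeometryTopology.CoordMetric Crest.GeometryTopology.ChartCurvature

namespace Crest.Agent.R202.Geo

noncomputable section

variable {m : ℕ}

theorem pd2_add {n : ℕ} {f h : EuclideanSpace ℝ (Fin n) → ℝ} {x : EuclideanSpace ℝ (Fin n)}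
    (hf : ContDiffAt ℝ 2 f x) (hh : ContDiffAt ℝ 2 h x) (i j : Fin n) :
    pderiv i (pderiv j (fun y => f y + h y)) x =
      pderiv i (pderiv j f) x + pderiv i (pderiv j h) x := by
  have e : pderiv j (fun y => f y + h y) =ᶠ[𝓝 x] fun y => pderiv j f y + pderiv j h y := by
    filter_upwards [hf.eventually (by simp), hh.eventually (by simp)] with y h1 h2
    exact pderiv_add (h1.differentiableAt (by norm_num)) (h2.differentiableAt (by norm_num))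
  rw [pderiv_congr e, pderiv_add (differentiableAt_pderiv hf) (differentiableAt_pderiv hh)]

/-! ### The conformal factor of the sphere -/

/-- `ψ = log (2 / (1 + |η|²))`. -/
def psi (q : EuclideanSpace ℝ (Fin (m + 3))) : ℝ := Real.log 2 - Real.log (1 + NN q)

theorem contDiff_NNj : ContDiff ℝ ∞ (NN (m := m)) := by
  unfold NN
  refine ContDiff.sum fun k _ => ?_
  exact (pr k.succ.succ.succ).contDiff.pow 2

theorem contDiff_psi : ContDiff ℝ ∞ (psi (m := m)) := by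
  unfold psi
  exact contDiff_const.sub ((contDiff_const.add contDiff_NNj).log fun q => (NN_pos' q).ne')

theorem fderiv_psi (q v : EuclideanSpace ℝ (Fin (m + 3))) :
    fderiv ℝ (psi (m := m)) q v = -(2 * ev q v / (1 + NN q)) := by
  have h := (((hasFDerivAt_NN q).const_add 1).log (NN_pos' q).ne').const_sub (Real.log 2)
  have : HasFDerivAt (psi (m := m)) _ q := h
  rw [this.fderiv]
  have e : (∑ k : Fin m, (2 * q k.succ.succ.succ) • pr k.succ.succ.succ) v = 2 * ev q v := by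
    rw [← (hasFDerivAt_NN q).fderiv, fderiv_NN]
  simp only [neg_apply, smul_apply, e, smul_eq_mul]
  ring

theorem ev_bv_succ (q : EuclideanSpace ℝ (Fin (m + 3))) (k : Fin m) :
    ev q (bv k.succ.succ.succ) = q k.succ.succ.succ := by
  unfold ev
  rw [Finset.sum_eq_single k]
  · rw [bv_apply, if_pos rfl, mul_one]
  · intro l _ hl
    rw [bv_apply, if_neg, mul_zero]
    intro h; apply hl
    exact Fin.succ_injective _ (Fin.succ_injective _ (Fin.succ_injective _ h))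
  · intro h; exact absurd (Finset.mem_univ _) h

theorem pderiv_psi0 (q : EuclideanSpace ℝ (Fin (m + 3))) : pderiv 0 (psi (m := m)) q = 0 := by
  unfold pderiv; rw [fderiv_psi]; rw [ev_bv_zero]; simp

theorem pderiv_psi1 (q : EuclideanSpace ℝ (Fin (m + 3))) : pderiv 1 (psi (m := m)) q = 0 := by
  unfold pderiv; rw [fderiv_psi]; rw [ev_bv_one]; simp

theorem pderiv_psi2 (q : EuclideanSpace ℝ (Fin (m + 3))) : pderiv 2 (psi (m := m)) q = 0 := by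
  unfold pderiv; rw [fderiv_psi]; rw [ev_bv_two]; simp

theorem pderiv_psik (q : EuclideanSpace ℝ (Fin (m + 3))) (k : Fin m) :
    pderiv k.succ.succ.succ (psi (m := m)) q = -(2 * q k.succ.succ.succ / (1 + NN q)) := by
  unfold pderiv; rw [fderiv_psi]; rw [ev_bv_succ]

theorem pd_psi0 (q : EuclideanSpace ℝ (Fin (m + 3))) (i : Fin (m + 3)) :
    pderiv i (pderiv 0 (psi (m := m))) q = 0 := by
  have : pderiv 0 (psi (m := m)) = fun _ => (0 : ℝ) := funext pderiv_psi0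
  rw [this, pderiv_const]

theorem pd_psi1 (q : EuclideanSpace ℝ (Fin (m + 3))) (i : Fin (m + 3)) :
    pderiv i (pderiv 1 (psi (m := m))) q = 0 := by
  have : pderiv 1 (psi (m := m)) = fun _ => (0 : ℝ) := funext pderiv_psi1
  rw [this, pderiv_const]

theorem pd_psi2 (q : EuclideanSpace ℝ (Fin (m + 3))) (i : Fin (m + 3)) :
    pderiv i (pderiv 2 (psi (m := m))) q = 0 := by
  have : pderiv 2 (psi (m := m)) = fun _ => (0 : ℝ) := funext pderiv_psi2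
  rw [this, pderiv_const]

theorem fderiv_dpsi (q v : EuclideanSpace ℝ (Fin (m + 3))) (l : Fin m) :
    fderiv ℝ (pderiv l.succ.succ.succ (psi (m := m))) q v =
      -(2 * v l.succ.succ.succ / (1 + NN q))
        + 4 * q l.succ.succ.succ / (1 + NN q) ^ 2 * ev q v := by
  have e : pderiv l.succ.succ.succ (psi (m := m)) =
      fun q => -((2 * q l.succ.succ.succ) * (1 + NN q)⁻¹) := by
    funext q; rw [pderiv_psik]; rfl
  rw [e]
  have h := (((hasFDerivAt_pr l.succ.succ.succ q).const_mul 2).fun_mul (hasFDerivAt_invN q)).fun_neg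
  rw [h.fderiv]
  have e : (∑ k : Fin m, (2 * q k.succ.succ.succ) • pr k.succ.succ.succ) v = 2 * ev q v := by
    rw [← (hasFDerivAt_NN q).fderiv, fderiv_NN]
  simp only [neg_apply, add_apply, smul_apply, e, smul_eq_mul]
  have e2 : (pr l.succ.succ.succ : EuclideanSpace ℝ (Fin (m + 3)) →L[ℝ] ℝ) v
    = v l.succ.succ.succ := rfl
  rw [e2]
  field_simp
  ring

theorem pd_psik0 (q : EuclideanSpace ℝ (Fin (m + 3))) (l : Fin m) :
    pderiv 0 (pderiv l.succ.succ.succ (psi (m := m))) q = 0 := by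
  rw [pderiv, fderiv_dpsi]; rw [ev_bv_zero, bv_apply, if_neg (succ3_ne_zero l)]; simp

theorem pd_psik1 (q : EuclideanSpace ℝ (Fin (m + 3))) (l : Fin m) :
    pderiv 1 (pderiv l.succ.succ.succ (psi (m := m))) q = 0 := by
  rw [pderiv, fderiv_dpsi]; rw [ev_bv_one, bv_apply, if_neg (succ3_ne_one l)]; simp

theorem pd_psik2 (q : EuclideanSpace ℝ (Fin (m + 3))) (l : Fin m) :
    pderiv 2 (pderiv l.succ.succ.succ (psi (m := m))) q = 0 := by
  rw [pderiv, fderiv_dpsi]; rw [ev_bv_two, bv_apply, if_neg (succ3_ne_two l)]; simp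

theorem pd_psikk (q : EuclideanSpace ℝ (Fin (m + 3))) (k l : Fin m) :
    pderiv k.succ.succ.succ (pderiv l.succ.succ.succ (psi (m := m))) q =
      -(if k = l then 2 / (1 + NN q) else 0)
        + 4 * q k.succ.succ.succ * q l.succ.succ.succ / (1 + NN q) ^ 2 := by
  rw [pderiv, fderiv_dpsi]; rw [ev_bv_succ, bv_apply]
  by_cases h : k = l
  · subst h; simp; ring
  · have h' : ¬ (l.succ.succ.succ : Fin (m + 3)) = k.succ.succ.succ := fun h2 =>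
      h (Fin.succ_injective _ (Fin.succ_injective _ (Fin.succ_injective _ h2))).symm
    rw [if_neg h', if_neg h]; ring

/-! ### The base functions -/

/-- `κ = log θ`. -/
def klog (θ : ℝ → ℝ) (t : ℝ) : ℝ := Real.log (θ t)

/-- `L = log P`. -/
def LL (P : ℝ → ℝ → ℂ → ℝ) (t X φ : ℝ) : ℝ := Real.log (PP P t X φ)

def A1 (m : ℕ) (s θ : ℝ → ℝ) (P : ℝ → ℝ → ℂ → ℝ) (t X φ : ℝ) : ℝ :=
  t - s t - klog θ t / ((m : ℝ) + 2) - 1 / 2 * LL P t X φ - 1 / 2 * Real.log (1 - X ^ 2)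

def A2 (m : ℕ) (s θ : ℝ → ℝ) (P : ℝ → ℝ → ℂ → ℝ) (t X φ : ℝ) : ℝ :=
  t - s t + (1 - 1 / ((m : ℝ) + 2)) * klog θ t + 1 / 2 * LL P t X φ + 1 / 2 * Real.log (1 - X ^ 2)

def A3 (m : ℕ) (s θ : ℝ → ℝ) (t X _φ : ℝ) : ℝ :=
  t - s t - klog θ t / ((m : ℝ) + 2) + Real.log X

def A0 (t _X _φ : ℝ) : ℝ := t

theorem aX_eq (s θ : ℝ → ℝ) (P : ℝ → ℝ → ℂ → ℝ) : aX (m := m) s θ P = bas (A1 m s θ P) := rfl
theorem aphi_eq (s θ : ℝ → ℝ) (P : ℝ → ℝ → ℂ → ℝ) : aphi (m := m) s θ P = bas (A2 m s θ P) := rfl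
theorem aeta_eq (s θ : ℝ → ℝ) : aeta (m := m) s θ = fun q => bas (A3 m s θ) q + psi q := rfl
theorem a0_eq : (fun q : EuclideanSpace ℝ (Fin (m + 3)) => q 0) = bas A0 := rfl

section baseCalc

variable {s θ : ℝ → ℝ} {P : ℝ → ℝ → ℂ → ℝ} {t0 X0 X1 : ℝ}

theorem Fam.sm_PP (h : Fam s θ P t0 X0 X1) : Sm (PP P) := by
  have h1 : ContDiff ℝ ∞ (fun p : ℝ × ℝ × ℝ =>
      ((p.1, p.2.1, Complex.exp ((p.2.2 : ℂ) * Complex.I)) : ℝ × ℝ × ℂ)) := by
    have h2 : ContDiff ℝ ∞ (fun p : ℝ × ℝ × ℝ => ((p.2.2 : ℝ) : ℂ)) :=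
      Complex.ofRealCLM.contDiff.comp (contDiff_snd.comp contDiff_snd)
    exact contDiff_fst.prodMk ((contDiff_fst.comp contDiff_snd).prodMk
      (h2.mul contDiff_const).cexp)
  exact h.smooth_P.comp h1

theorem Fam.sm_LL (h : Fam s θ P t0 X0 X1) : Sm (LL P) :=
  ContDiff.log h.sm_PP fun p => (h.P_pos p.1 p.2.1 _).ne'

theorem Fam.smooth_klog (h : Fam s θ P t0 X0 X1) : ContDiff ℝ ∞ (klog θ) :=
  h.smooth_θ.log fun t => (h.θ_pos t).ne'

theorem sm_of_time {f : ℝ → ℝ} (h : ContDiff ℝ ∞ f) : Sm (fun t _ _ => f t) :=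
  h.comp contDiff_fst

theorem smO_logX : SmO (fun _ X _ => Real.log X) := by
  intro p hp
  exact ((contDiff_fst.comp contDiff_snd).contDiffAt.log hp.1.ne').contDiffWithinAt

theorem one_sub_sq_pos' {X : ℝ} (h0 : 0 < X) (h1 : X < 1) : 0 < 1 - X ^ 2 := by nlinarith

theorem smO_log1 : SmO (fun _ X _ => Real.log (1 - X ^ 2)) := by
  intro p hp
  have : ContDiff ℝ ∞ (fun p : ℝ × ℝ × ℝ => 1 - p.2.1 ^ 2) :=
    contDiff_const.sub ((contDiff_fst.comp contDiff_snd).pow 2)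
  exact (this.contDiffAt.log (one_sub_sq_pos' hp.1 hp.2).ne').contDiffWithinAt

theorem Fam.smO_A1 (h : Fam s θ P t0 X0 X1) : SmO (A1 m s θ P) := by
  have h1 : SmO (fun t _ _ => t - s t - klog θ t / ((m : ℝ) + 2)) :=
    (sm_of_time ((contDiff_id.sub h.smooth_s).sub (h.smooth_klog.div_const _))).smO
  exact (h1.sub (contDiffOn_const.mul h.sm_LL.smO)).sub (contDiffOn_const.mul smO_log1)

theorem Fam.smO_A2 (h : Fam s θ P t0 X0 X1) : SmO (A2 m s θ P) := by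
  have h1 : SmO (fun t _ _ => t - s t + (1 - 1 / ((m : ℝ) + 2)) * klog θ t) :=
    (sm_of_time ((contDiff_id.sub h.smooth_s).add (contDiff_const.mul h.smooth_klog))).smO
  exact (h1.add (contDiffOn_const.mul h.sm_LL.smO)).add (contDiffOn_const.mul smO_log1)

theorem Fam.smO_A3 (h : Fam s θ P t0 X0 X1) : SmO (A3 m s θ) := by
  have h1 : SmO (fun t _ _ => t - s t - klog θ t / ((m : ℝ) + 2)) :=
    (sm_of_time ((contDiff_id.sub h.smooth_s).sub (h.smooth_klog.div_const _))).smO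
  exact h1.add smO_logX

theorem smO_A0 : SmO A0 := (sm_of_time contDiff_id).smO

theorem hasDerivAt_log1 {X : ℝ} (h0 : 0 < X) (h1 : X < 1) :
    HasDerivAt (fun Y : ℝ => Real.log (1 - Y ^ 2)) (-(2 * X) / (1 - X ^ 2)) X := by
  have h := ((hasDerivAt_pow 2 X).const_sub 1).log (one_sub_sq_pos' h0 h1).ne'
  simpa using h

/-- derivative of a smooth function of `t` -/
theorem hd {f : ℝ → ℝ} (h : ContDiff ℝ ∞ f) (t : ℝ) : HasDerivAt f (deriv f t) t :=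
  ((h.differentiable (by simp)) t).hasDerivAt

theorem hd2 {f : ℝ → ℝ} (h : ContDiff ℝ ∞ f) (t : ℝ) :
    HasDerivAt (deriv f) (deriv (deriv f) t) t := by
  have h1 : ContDiff ℝ 1 (deriv f) := by
    have := (contDiff_succ_iff_deriv (n := 1) (𝕜 := ℝ) (f := f)).1 (h.of_le (by norm_cast))
    exact this.2.2
  exact ((h1.differentiable (by norm_num)) t).hasDerivAt

theorem Fam.dT_A1 (h : Fam s θ P t0 X0 X1) (t X φ : ℝ) :
    dT (A1 m s θ P) t X φ =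
      1 - deriv s t - deriv (klog θ) t / ((m : ℝ) + 2) - 1 / 2 * dT (LL P) t X φ := by
  have h1 := ((((hasDerivAt_id t).sub (hd h.smooth_s t)).sub
    ((hd h.smooth_klog t).div_const ((m : ℝ) + 2))).sub
      ((h.sm_LL.hT t X φ).const_mul (1 / 2))).sub_const (1 / 2 * Real.log (1 - X ^ 2))
  exact h1.deriv

theorem Fam.dT_A2 (h : Fam s θ P t0 X0 X1) (t X φ : ℝ) :
    dT (A2 m s θ P) t X φ =
      1 - deriv s t + (1 - 1 / ((m : ℝ) + 2)) * deriv (klog θ) t + 1 / 2 * dT (LL P) t X φ := by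
  have h1 := ((((hasDerivAt_id t).sub (hd h.smooth_s t)).add
    ((hd h.smooth_klog t).const_mul (1 - 1 / ((m : ℝ) + 2)))).add
      ((h.sm_LL.hT t X φ).const_mul (1 / 2))).add_const (1 / 2 * Real.log (1 - X ^ 2))
  exact h1.deriv

theorem Fam.dT_A3 (h : Fam s θ P t0 X0 X1) (t X φ : ℝ) :
    dT (A3 m s θ) t X φ = 1 - deriv s t - deriv (klog θ) t / ((m : ℝ) + 2) := by
  have h1 := ((((hasDerivAt_id t).sub (hd h.smooth_s t)).sub
    ((hd h.smooth_klog t).div_const ((m : ℝ) + 2)))).add_const (Real.log X)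
  exact h1.deriv

theorem Fam.dX_A1 (h : Fam s θ P t0 X0 X1) (t : ℝ) {X : ℝ} (φ : ℝ) (hX0 : 0 < X) (hX1 : X < 1) :
    dX (A1 m s θ P) t X φ = X / (1 - X ^ 2) - 1 / 2 * dX (LL P) t X φ := by
  have h1 := (((h.sm_LL.hX t X φ).const_mul (1 / 2)).const_sub
    (t - s t - klog θ t / ((m : ℝ) + 2))).sub ((hasDerivAt_log1 hX0 hX1).const_mul (1 / 2))
  have := h1.deriv
  refine Eq.trans this ?_
  ring

theorem Fam.dX_A2 (h : Fam s θ P t0 X0 X1) (t : ℝ) {X : ℝ} (φ : ℝ) (hX0 : 0 < X) (hX1 : X < 1) :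
    dX (A2 m s θ P) t X φ = -(X / (1 - X ^ 2) - 1 / 2 * dX (LL P) t X φ) := by
  have h1 := (((h.sm_LL.hX t X φ).const_mul (1 / 2)).const_add
    (t - s t + (1 - 1 / ((m : ℝ) + 2)) * klog θ t)).add ((hasDerivAt_log1 hX0 hX1).const_mul (1 / 2))
  have := h1.deriv
  refine Eq.trans this ?_
  ring

theorem dX_A3 (s θ : ℝ → ℝ) (t : ℝ) {X : ℝ} (φ : ℝ) (hX0 : 0 < X) :
    dX (A3 m s θ) t X φ = 1 / X := by
  have h1 := (Real.hasDerivAt_log hX0.ne').const_add (t - s t - klog θ t / ((m : ℝ) + 2))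
  have := h1.deriv
  refine Eq.trans this ?_
  simp

theorem Fam.dF_A1 (h : Fam s θ P t0 X0 X1) (t X φ : ℝ) :
    dF (A1 m s θ P) t X φ = -(1 / 2 * dF (LL P) t X φ) := by
  have h1 := (((h.sm_LL.hF t X φ).const_mul (1 / 2)).const_sub
    (t - s t - klog θ t / ((m : ℝ) + 2))).sub_const (1 / 2 * Real.log (1 - X ^ 2))
  exact h1.deriv

theorem Fam.dF_A2 (h : Fam s θ P t0 X0 X1) (t X φ : ℝ) :
    dF (A2 m s θ P) t X φ = 1 / 2 * dF (LL P) t X φ := by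
  have h1 := (((h.sm_LL.hF t X φ).const_mul (1 / 2)).const_add
    (t - s t + (1 - 1 / ((m : ℝ) + 2)) * klog θ t)).add_const (1 / 2 * Real.log (1 - X ^ 2))
  exact h1.deriv

theorem dF_A3 (s θ : ℝ → ℝ) (t X φ : ℝ) : dF (A3 m s θ) t X φ = 0 := by
  unfold dF A3; simp

theorem Fam.dTT_A1 (h : Fam s θ P t0 X0 X1) (t X φ : ℝ) :
    dT (dT (A1 m s θ P)) t X φ =
      -deriv (deriv s) t - deriv (deriv (klog θ)) t / ((m : ℝ) + 2)
        - 1 / 2 * dT (dT (LL P)) t X φ := by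
  have e : (fun τ => dT (A1 m s θ P) τ X φ) = fun τ =>
      1 - deriv s τ - deriv (klog θ) τ / ((m : ℝ) + 2) - 1 / 2 * dT (LL P) τ X φ :=
    funext fun τ => h.dT_A1 τ X φ
  have h1 := (((hd2 h.smooth_s t).const_sub 1).sub
    ((hd2 h.smooth_klog t).div_const ((m : ℝ) + 2))).sub
      ((h.sm_LL.dT.hT t X φ).const_mul (1 / 2))
  unfold dT at e ⊢
  rw [e]
  exact h1.deriv

theorem Fam.dTT_A2 (h : Fam s θ P t0 X0 X1) (t X φ : ℝ) :
    dT (dT (A2 m s θ P)) t X φ =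
      -deriv (deriv s) t + (1 - 1 / ((m : ℝ) + 2)) * deriv (deriv (klog θ)) t
        + 1 / 2 * dT (dT (LL P)) t X φ := by
  have e : (fun τ => dT (A2 m s θ P) τ X φ) = fun τ =>
      1 - deriv s τ + (1 - 1 / ((m : ℝ) + 2)) * deriv (klog θ) τ + 1 / 2 * dT (LL P) τ X φ :=
    funext fun τ => h.dT_A2 τ X φ
  have h1 := (((hd2 h.smooth_s t).const_sub 1).add
    ((hd2 h.smooth_klog t).const_mul (1 - 1 / ((m : ℝ) + 2)))).add
      ((h.sm_LL.dT.hT t X φ).const_mul (1 / 2))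
  unfold dT at e ⊢
  rw [e]
  exact h1.deriv

theorem Fam.dTT_A3 (h : Fam s θ P t0 X0 X1) (t X φ : ℝ) :
    dT (dT (A3 m s θ)) t X φ =
      -deriv (deriv s) t - deriv (deriv (klog θ)) t / ((m : ℝ) + 2) := by
  have e : (fun τ => dT (A3 m s θ) τ X φ) = fun τ =>
      1 - deriv s τ - deriv (klog θ) τ / ((m : ℝ) + 2) :=
    funext fun τ => h.dT_A3 τ X φ
  have h1 := (((hd2 h.smooth_s t).const_sub 1).sub
    ((hd2 h.smooth_klog t).div_const ((m : ℝ) + 2)))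
  unfold dT at e ⊢
  rw [e]
  exact h1.deriv

theorem Fam.dXT_A2 (h : Fam s θ P t0 X0 X1) (t X φ : ℝ) :
    dX (dT (A2 m s θ P)) t X φ = 1 / 2 * dX (dT (LL P)) t X φ := by
  have e : (fun Y => dT (A2 m s θ P) t Y φ) = fun Y =>
      1 - deriv s t + (1 - 1 / ((m : ℝ) + 2)) * deriv (klog θ) t + 1 / 2 * dT (LL P) t Y φ :=
    funext fun Y => h.dT_A2 t Y φ
  have h1 := ((h.sm_LL.dT.hX t X φ).const_mul (1 / 2)).const_add
    (1 - deriv s t + (1 - 1 / ((m : ℝ) + 2)) * deriv (klog θ) t)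
  unfold dX
  rw [e]
  exact h1.deriv

theorem Fam.dFT_A1 (h : Fam s θ P t0 X0 X1) (t X φ : ℝ) :
    dF (dT (A1 m s θ P)) t X φ = -(1 / 2 * dF (dT (LL P)) t X φ) := by
  have e : (fun ψ => dT (A1 m s θ P) t X ψ) = fun ψ =>
      1 - deriv s t - deriv (klog θ) t / ((m : ℝ) + 2) - 1 / 2 * dT (LL P) t X ψ :=
    funext fun ψ => h.dT_A1 t X ψ
  have h1 := ((h.sm_LL.dT.hF t X φ).const_mul (1 / 2)).const_sub
    (1 - deriv s t - deriv (klog θ) t / ((m : ℝ) + 2))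
  unfold dF
  rw [e]
  exact h1.deriv

theorem hasDerivAt_XX {X : ℝ} (h0 : 0 < X) (h1 : X < 1) :
    HasDerivAt (fun Y : ℝ => Y / (1 - Y ^ 2)) ((1 + X ^ 2) / (1 - X ^ 2) ^ 2) X := by
  have h := (hasDerivAt_id X).div ((hasDerivAt_pow 2 X).const_sub 1) (one_sub_sq_pos' h0 h1).ne'
  refine h.congr_deriv ?_
  simp
  ring

theorem Fam.dXX_A1 (h : Fam s θ P t0 X0 X1) (t : ℝ) {X : ℝ} (φ : ℝ) (hX0 : 0 < X) (hX1 : X < 1) :
    dX (dX (A1 m s θ P)) t X φ =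
      (1 + X ^ 2) / (1 - X ^ 2) ^ 2 - 1 / 2 * dX (dX (LL P)) t X φ := by
  have e : (fun Y => dX (A1 m s θ P) t Y φ) =ᶠ[𝓝 X] fun Y =>
      Y / (1 - Y ^ 2) - 1 / 2 * dX (LL P) t Y φ := by
    filter_upwards [Ioo_mem_nhds hX0 hX1] with Y hY
    exact h.dX_A1 t φ hY.1 hY.2
  have h1 := (hasDerivAt_XX hX0 hX1).sub ((h.sm_LL.dX.hX t X φ).const_mul (1 / 2))
  show deriv (fun Y => dX (A1 m s θ P) t Y φ) X = _
  rw [e.deriv_eq]
  exact h1.deriv

theorem Fam.dXX_A2 (h : Fam s θ P t0 X0 X1) (t : ℝ) {X : ℝ} (φ : ℝ) (hX0 : 0 < X) (hX1 : X < 1) :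
    dX (dX (A2 m s θ P)) t X φ =
      -((1 + X ^ 2) / (1 - X ^ 2) ^ 2 - 1 / 2 * dX (dX (LL P)) t X φ) := by
  have e : (fun Y => dX (A2 m s θ P) t Y φ) =ᶠ[𝓝 X] fun Y =>
      -(Y / (1 - Y ^ 2) - 1 / 2 * dX (LL P) t Y φ) := by
    filter_upwards [Ioo_mem_nhds hX0 hX1] with Y hY
    exact h.dX_A2 t φ hY.1 hY.2
  have h1 := ((hasDerivAt_XX hX0 hX1).sub ((h.sm_LL.dX.hX t X φ).const_mul (1 / 2))).fun_neg
  show deriv (fun Y => dX (A2 m s θ P) t Y φ) X = _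
  rw [e.deriv_eq]
  exact h1.deriv

theorem dXX_A3 (s θ : ℝ → ℝ) (t : ℝ) {X : ℝ} (φ : ℝ) (hX0 : 0 < X) :
    dX (dX (A3 m s θ)) t X φ = -(1 / X ^ 2) := by
  have e : (fun Y => dX (A3 m s θ) t Y φ) =ᶠ[𝓝 X] fun Y => Y⁻¹ := by
    filter_upwards [Ioi_mem_nhds hX0] with Y hY
    rw [dX_A3 s θ t φ hY]; simp
  show deriv (fun Y => dX (A3 m s θ) t Y φ) X = _
  rw [e.deriv_eq, (hasDerivAt_inv hX0.ne').deriv]
  simp

theorem Fam.dFF_A1 (h : Fam s θ P t0 X0 X1) (t X φ : ℝ) :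
    dF (dF (A1 m s θ P)) t X φ = -(1 / 2 * dF (dF (LL P)) t X φ) := by
  have e : (fun ψ => dF (A1 m s θ P) t X ψ) = fun ψ => -(1 / 2 * dF (LL P) t X ψ) :=
    funext fun ψ => h.dF_A1 t X ψ
  have h1 := ((h.sm_LL.dF.hF t X φ).const_mul (1 / 2)).fun_neg
  show deriv (fun ψ => dF (A1 m s θ P) t X ψ) φ = _
  rw [e]
  exact h1.deriv

theorem Fam.dFF_A2 (h : Fam s θ P t0 X0 X1) (t X φ : ℝ) :
    dF (dF (A2 m s θ P)) t X φ = 1 / 2 * dF (dF (LL P)) t X φ := by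
  have e : (fun ψ => dF (A2 m s θ P) t X ψ) = fun ψ => 1 / 2 * dF (LL P) t X ψ :=
    funext fun ψ => h.dF_A2 t X ψ
  have h1 := (h.sm_LL.dF.hF t X φ).const_mul (1 / 2)
  show deriv (fun ψ => dF (A2 m s θ P) t X ψ) φ = _
  rw [e]
  exact h1.deriv

end baseCalc

/-- **The jet** of the exponents. -/
theorem Fam.jet {s θ : ℝ → ℝ} {P : ℝ → ℝ → ℂ → ℝ} {t0 X0 X1 : ℝ} (h : Fam s θ P t0 X0 X1)
    {q : EuclideanSpace ℝ (Fin (m + 3))} (hq : q ∈ VV m) :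
    Jet (aa s θ P) (aeta s θ) q (q 1)
      (q 1 / (1 - q 1 ^ 2) - 1 / 2 * dX (LL P) (q 0) (q 1) (q 2))
      (-(1 / 2 * dF (LL P) (q 0) (q 1) (q 2)))
      (1 - deriv s (q 0) - deriv (klog θ) (q 0) / ((m : ℝ) + 2)
        - 1 / 2 * dT (LL P) (q 0) (q 1) (q 2))
      (1 - deriv s (q 0) + (1 - 1 / ((m : ℝ) + 2)) * deriv (klog θ) (q 0)
        + 1 / 2 * dT (LL P) (q 0) (q 1) (q 2))
      (1 - deriv s (q 0) - deriv (klog θ) (q 0) / ((m : ℝ) + 2))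
      (-deriv (deriv s) (q 0) - deriv (deriv (klog θ)) (q 0) / ((m : ℝ) + 2)
        - 1 / 2 * dT (dT (LL P)) (q 0) (q 1) (q 2))
      (-deriv (deriv s) (q 0) + (1 - 1 / ((m : ℝ) + 2)) * deriv (deriv (klog θ)) (q 0)
        + 1 / 2 * dT (dT (LL P)) (q 0) (q 1) (q 2))
      (-deriv (deriv s) (q 0) - deriv (deriv (klog θ)) (q 0) / ((m : ℝ) + 2))
      (1 / 2 * dX (dT (LL P)) (q 0) (q 1) (q 2))
      (-(1 / 2 * dF (dT (LL P)) (q 0) (q 1) (q 2)))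
      ((1 + q 1 ^ 2) / (1 - q 1 ^ 2) ^ 2 - 1 / 2 * dX (dX (LL P)) (q 0) (q 1) (q 2))
      (-(1 / 2 * dF (dF (LL P)) (q 0) (q 1) (q 2)))
      (1 + NN q) (fun k => q k.succ.succ.succ) := by
  have hA0 := smO_A0
  have hA1 := h.smO_A1 (m := m)
  have hA2 := h.smO_A2 (m := m)
  have hA3 := h.smO_A3 (m := m)
  have c0 : ContDiffAt ℝ 2 (bas (m := m) A0) q := (hA0.bas_cda hq).of_le (by norm_cast)
  have c1 : ContDiffAt ℝ 2 (bas (m := m) (A1 m s θ P)) q := (hA1.bas_cda hq).of_le (by norm_cast)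
  have c2 : ContDiffAt ℝ 2 (bas (m := m) (A2 m s θ P)) q := (hA2.bas_cda hq).of_le (by norm_cast)
  have c3 : ContDiffAt ℝ 2 (bas (m := m) (A3 m s θ)) q := (hA3.bas_cda hq).of_le (by norm_cast)
  have cψ : ContDiffAt ℝ 2 (psi (m := m)) q := (contDiff_psi.contDiffAt).of_le (by norm_cast)
  have cw : ContDiffAt ℝ 2 (aeta (m := m) s θ) q := by rw [aeta_eq]; exact c3.add cψ
  have d3 : DifferentiableAt ℝ (bas (m := m) (A3 m s θ)) q := c3.differentiableAt (by norm_num)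
  have dψ : DifferentiableAt ℝ (psi (m := m)) q := cψ.differentiableAt (by norm_num)
  have z0 : dT A0 = fun _ _ _ => (1:ℝ) := by funext t X φ; unfold dT A0; simp
  have z1 : dX A0 = fun _ _ _ => (0:ℝ) := by funext t X φ; unfold dX A0; simp
  have z2 : dF A0 = fun _ _ _ => (0:ℝ) := by funext t X φ; unfold dF A0; simp
  constructor
  · -- c2
    apply forall_fin3
    · rw [aa_zero, a0_eq]; exact c0
    · rw [aa_one, aX_eq]; exact c1
    · rw [aa_two, aphi_eq]; exact c2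
    · intro k; rw [aa_succ]; exact cw
  · intro k; rfl
  · rfl
  · rw [aa_zero, a0_eq, pderiv_bas0 hA0 hq, z0]; rfl
  · rw [aa_zero, a0_eq, pderiv_bas1 hA0 hq, z1]; rfl
  · rw [aa_zero, a0_eq, pderiv_bas2 hA0 hq, z2]; rfl
  · intro k; rw [aa_zero, a0_eq, pderiv_bask hA0 hq]
  · rw [aa_one, aX_eq, pderiv_bas0 hA1 hq, bas, h.dT_A1]
  · rw [aa_one, aX_eq, pderiv_bas1 hA1 hq, bas, h.dX_A1 _ _ hq.1 hq.2]
  · rw [aa_one, aX_eq, pderiv_bas2 hA1 hq, bas, h.dF_A1]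
  · intro k; rw [aa_one, aX_eq, pderiv_bask hA1 hq]
  · rw [aa_two, aphi_eq, pderiv_bas0 hA2 hq, bas, h.dT_A2]
  · rw [aa_two, aphi_eq, pderiv_bas1 hA2 hq, bas, h.dX_A2 _ _ hq.1 hq.2]
  · rw [aa_two, aphi_eq, pderiv_bas2 hA2 hq, bas, h.dF_A2, neg_neg]
  · intro k; rw [aa_two, aphi_eq, pderiv_bask hA2 hq]
  · rw [aeta_eq, pderiv_add d3 dψ, pderiv_bas0 hA3 hq, pderiv_psi0, bas, h.dT_A3, add_zero]
  · rw [aeta_eq, pderiv_add d3 dψ, pderiv_bas1 hA3 hq, pderiv_psi1, bas,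
      dX_A3 s θ _ _ hq.1, add_zero]
  · rw [aeta_eq, pderiv_add d3 dψ, pderiv_bas2 hA3 hq, pderiv_psi2, bas, dF_A3, add_zero]
  · intro k; rw [aeta_eq, pderiv_add d3 dψ, pderiv_bask hA3 hq, pderiv_psik, zero_add]
  · -- z
    intro i j
    rw [aa_zero, a0_eq]
    revert j
    apply forall_fin3
    · rw [pd_bas0 hA0 hq, z0]; exact pderiv_const _
    · rw [pd_bas1 hA0 hq, z1]; exact pderiv_const _
    · rw [pd_bas2 hA0 hq, z2]; exact pderiv_const _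
    · intro k; exact pd_bask hA0 hq k i
  · rw [aa_one, aX_eq, pd_bas0 hA1 hq, pderiv_bas0 hA1.dT hq, bas, h.dTT_A1]
  · rw [aa_two, aphi_eq, pd_bas0 hA2 hq, pderiv_bas0 hA2.dT hq, bas, h.dTT_A2]
  · rw [aeta_eq, pd2_add c3 cψ, pd_psi0, pd_bas0 hA3 hq, pderiv_bas0 hA3.dT hq, bas, h.dTT_A3,
      add_zero]
  · rw [aa_two, aphi_eq, pderiv_comm c2, pd_bas0 hA2 hq, pderiv_bas1 hA2.dT hq, bas, h.dXT_A2]
  · rw [aa_one, aX_eq, pderiv_comm c1, pd_bas0 hA1 hq, pderiv_bas2 hA1.dT hq, bas, h.dFT_A1]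
  · rw [aa_one, aX_eq, pd_bas1 hA1 hq, pderiv_bas1 hA1.dX hq, bas, h.dXX_A1 _ _ hq.1 hq.2]
  · rw [aa_two, aphi_eq, pd_bas1 hA2 hq, pderiv_bas1 hA2.dX hq, bas, h.dXX_A2 _ _ hq.1 hq.2]
  · rw [aa_one, aX_eq, pd_bas2 hA1 hq, pderiv_bas2 hA1.dF hq, bas, h.dFF_A1]
  · rw [aa_two, aphi_eq, pd_bas2 hA2 hq, pderiv_bas2 hA2.dF hq, bas, h.dFF_A2, neg_neg]
  · rw [aeta_eq, pd2_add c3 cψ, pd_psi1, pd_bas1 hA3 hq, pderiv_bas1 hA3.dX hq, bas,
      dXX_A3 s θ _ _ hq.1, add_zero]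
  · -- s01w
    rw [aeta_eq, pd2_add c3 cψ, pd_psi1, pderiv_comm c3, pd_bas0 hA3 hq, pderiv_bas1 hA3.dT hq, bas]
    have : dX (dT (A3 m s θ)) (q 0) (q 1) (q 2) = 0 := by
      unfold dX
      have e : (fun Y => dT (A3 m s θ) (q 0) Y (q 2)) = fun _ =>
        1 - deriv s (q 0) - deriv (klog θ) (q 0) / ((m : ℝ) + 2) := funext fun Y => h.dT_A3 _ _ _
      rw [e]; simp
    rw [this, add_zero]
  · -- s02w
    rw [aeta_eq, pd2_add c3 cψ, pd_psi2, pderiv_comm c3, pd_bas0 hA3 hq, pderiv_bas2 hA3.dT hq, bas]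
    have : dF (dT (A3 m s θ)) (q 0) (q 1) (q 2) = 0 := by
      unfold dF
      have e : (fun Y => dT (A3 m s θ) (q 0) (q 1) Y) = fun _ =>
        1 - deriv s (q 0) - deriv (klog θ) (q 0) / ((m : ℝ) + 2) := funext fun Y => h.dT_A3 _ _ _
      rw [e]; simp
    rw [this, add_zero]
  · -- s12w
    rw [aeta_eq, pd2_add c3 cψ, pd_psi2, pd_bas2 hA3 hq]
    have e : dF (A3 m s θ) = fun _ _ _ => (0:ℝ) := by funext t X φ; exact dF_A3 s θ t X φ
    rw [e, add_zero]; exact pderiv_const _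
  · -- s22w
    rw [aeta_eq, pd2_add c3 cψ, pd_psi2, pd_bas2 hA3 hq]
    have e : dF (A3 m s θ) = fun _ _ _ => (0:ℝ) := by funext t X φ; exact dF_A3 s θ t X φ
    rw [e, add_zero]; exact pderiv_const _
  · intro k; rw [aa_one, aX_eq]; exact pd_bask hA1 hq k _
  · intro k; rw [aa_two, aphi_eq]; exact pd_bask hA2 hq k _
  · intro k; rw [aeta_eq, pd2_add c3 cψ, pd_psik0, pd_bask hA3 hq, add_zero]
  · intro k; rw [aa_one, aX_eq]; exact pd_bask hA1 hq k _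
  · intro k; rw [aa_two, aphi_eq]; exact pd_bask hA2 hq k _
  · intro k; rw [aeta_eq, pd2_add c3 cψ, pd_psik1, pd_bask hA3 hq, add_zero]
  · intro k; rw [aa_one, aX_eq]; exact pd_bask hA1 hq k _
  · intro k; rw [aa_two, aphi_eq]; exact pd_bask hA2 hq k _
  · intro k; rw [aeta_eq, pd2_add c3 cψ, pd_psik2, pd_bask hA3 hq, add_zero]
  · intro k l; rw [aa_one, aX_eq]; exact pd_bask hA1 hq l _
  · intro k l; rw [aa_two, aphi_eq]; exact pd_bask hA2 hq l _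
  · intro k l
    rw [aeta_eq, pd2_add c3 cψ, pd_psikk, pd_bask hA3 hq, zero_add]

end

end Crest.Agent.R202.Geo
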