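import Mathlib
import Crest.Prelude.Def_CoordMetric
import Crest.Prelude.Def_ChartCurvature
import Crest.Agent.R202.GeoDefs
import Crest.Agent.R202.GeoHyp
import Crest.Agent.R202.GeoDiag
import Crest.Agent.R202.GeoPolar

/-!
Row 202, Part D: the polar estimate, as a statement (proved in `GeoRic.lean`).
-/

set_option autoImplicit false

open scoped ContDiff Topology
open Crest.GeometryTopology.CoordMetric Crest.GeometryTopology.ChartCurvature

namespace Crest.Agent.R202.Geo

noncomputable section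

/-- Lower bound of the Ricci form of the diagonal metric in polar coordinates.  Proved in
`GeoRic.lean` (helper580); consumed by `ricThm_of_polEst` (helper248). -/
def PolEst (m : ℕ) : Prop :=
  ∀ K μ X0 X1 : ℝ, 1 ≤ K → 0 < μ → 0 < X0 → X1 < 1 → ∃ c : ℝ, 0 < c ∧ c ≤ 1 ∧
    ∀ (s θ : ℝ → ℝ) (P : ℝ → ℝ → ℂ → ℝ) (t0 : ℝ), Fam s θ P t0 X0 X1 →
      ∀ q ∈ VV m, (DefPhase m s θ P K μ c (q 0) ∨ RoundPhase s θ P (q 0)) →
        ∀ v : EuclideanSpace ℝ (Fin (m + 3)),
          c * deriv s (q 0) / Real.exp (q 0) ^ 2 * quadForm (diagMetric (aa s θ P)) q v ≤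
            ∑ i, ∑ j, ricci (diagMetric (aa s θ P)) q i j * v i * v j

end

end Crest.Agent.R202.Geo
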