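import Crest.Agent.R202.GeoTensA
import Crest.Prelude.Def_CoordMetric
import Crest.Prelude.Def_ChartCurvature

/-!
Row 202, part D1: transformation law of the Christoffel symbols, the Riemann tensor, the Ricci
tensor, sectional curvature numerators and Gram determinants of `Def_CoordMetric` /
`Def_ChartCurvature` under local diffeomorphisms.
-/

set_option autoImplicit false

open scoped ContDiff Topology
open Filter Set
open Crest.GeometryTopology.CoordMetric Crest.GeometryTopology.ChartCurvature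

namespace Crest.Agent.R202.Tens

variable {n : ℕ}

lemma prj_apply (i : Fin n) (X : EuclideanSpace ℝ (Fin n)) :
    (EuclideanSpace.proj i : EuclideanSpace ℝ (Fin n) →L[ℝ] ℝ) X = X i := rfl

/-- The bilinear form of a matrix. -/
noncomputable def bil (M : Matrix (Fin n) (Fin n) ℝ) :
    EuclideanSpace ℝ (Fin n) →L[ℝ] EuclideanSpace ℝ (Fin n) →L[ℝ] ℝ :=
  ∑ i, ∑ j, M i j • ((EuclideanSpace.proj i : EuclideanSpace ℝ (Fin n) →L[ℝ] ℝ).smulRight
    (EuclideanSpace.proj j : EuclideanSpace ℝ (Fin n) →L[ℝ] ℝ))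

lemma bil_apply (M : Matrix (Fin n) (Fin n) ℝ) (X Y : EuclideanSpace ℝ (Fin n)) :
    bil M X Y = ∑ i, ∑ j, M i j * X i * Y j := by
  simp only [bil, sum_apply, smul_apply, ContinuousLinearMap.smulRight_apply, smul_eq_mul,
    prj_apply]
  refine Finset.sum_congr rfl fun i _ => Finset.sum_congr rfl fun j _ => ?_
  ring

/-- The Christoffel map of a metric field. -/
noncomputable def Gam (g : MetricField n) (x : EuclideanSpace ℝ (Fin n)) :
    EuclideanSpace ℝ (Fin n) →L[ℝ] EuclideanSpace ℝ (Fin n) →L[ℝ] EuclideanSpace ℝ (Fin n) :=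
  ∑ i, ∑ j, ∑ k, christoffel g x k i j •
    ((EuclideanSpace.proj i : EuclideanSpace ℝ (Fin n) →L[ℝ] ℝ).smulRight
      ((EuclideanSpace.proj j : EuclideanSpace ℝ (Fin n) →L[ℝ] ℝ).smulRight
        (EuclideanSpace.single k (1:ℝ))))

lemma Gam_apply (g : MetricField n) (x X Y : EuclideanSpace ℝ (Fin n)) (k : Fin n) :
    Gam g x X Y k = ∑ i, ∑ j, christoffel g x k i j * X i * Y j := by
  simp only [Gam, sum_apply, smul_apply,
    ContinuousLinearMap.smulRight_apply, PiLp.smul_apply, smul_eq_mul, WithLp.ofLp_sum,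
    Finset.sum_apply, prj_apply, PiLp.single_apply]
  refine Finset.sum_congr rfl fun i _ => Finset.sum_congr rfl fun j _ => ?_
  rw [Finset.sum_eq_single k]
  · simp; ring
  · intro b _ hb
    simp [hb.symm]
  · simp

lemma eq_sum_single (W : EuclideanSpace ℝ (Fin n)) :
    W = ∑ i, W i • EuclideanSpace.single i (1:ℝ) := by
  ext k
  simp [Pi.single_apply]

lemma fderiv_eq_sum (f : EuclideanSpace ℝ (Fin n) → ℝ) (x W : EuclideanSpace ℝ (Fin n)) :
    fderiv ℝ f x W = ∑ i, W i * pderiv i f x := by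
  conv_lhs => rw [eq_sum_single W]
  rw [map_sum]
  refine Finset.sum_congr rfl fun i _ => ?_
  rw [map_smul, smul_eq_mul]
  rfl

lemma hasFDerivAt_sum2 {ι κ E F : Type*} [Fintype ι] [Fintype κ] [NormedAddCommGroup E]
    [NormedSpace ℝ E] [NormedAddCommGroup F] [NormedSpace ℝ F] {f : ι → κ → E → ℝ}
    {f' : ι → κ → E →L[ℝ] ℝ} {x : E} (hf : ∀ i j, HasFDerivAt (f i j) (f' i j) x)
    (L : ι → κ → F) : HasFDerivAt (fun y => ∑ i, ∑ j, f i j y • L i j)
      (∑ i, ∑ j, (f' i j).smulRight (L i j)) x :=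
  HasFDerivAt.fun_sum fun i _ => HasFDerivAt.fun_sum fun j _ => (hf i j).smul_const (L i j)

lemma hasFDerivAt_sum3 {ι κ μ E F : Type*} [Fintype ι] [Fintype κ] [Fintype μ]
    [NormedAddCommGroup E]
    [NormedSpace ℝ E] [NormedAddCommGroup F] [NormedSpace ℝ F] {f : ι → κ → μ → E → ℝ}
    {f' : ι → κ → μ → E →L[ℝ] ℝ} {x : E} (hf : ∀ i j k, HasFDerivAt (f i j k) (f' i j k) x)
    (L : ι → κ → μ → F) : HasFDerivAt (fun y => ∑ i, ∑ j, ∑ k, f i j k y • L i j k)
      (∑ i, ∑ j, ∑ k, (f' i j k).smulRight (L i j k)) x :=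
  HasFDerivAt.fun_sum fun i _ => HasFDerivAt.fun_sum fun j _ => HasFDerivAt.fun_sum fun k _ =>
    (hf i j k).smul_const (L i j k)

/-- metric as a field of bilinear forms -/
noncomputable def Gf (g : MetricField n) (x : EuclideanSpace ℝ (Fin n)) :
    EuclideanSpace ℝ (Fin n) →L[ℝ] EuclideanSpace ℝ (Fin n) →L[ℝ] ℝ := bil (g x)

/-- matrix unit bilinear form -/
noncomputable def eij (i j : Fin n) :
    EuclideanSpace ℝ (Fin n) →L[ℝ] EuclideanSpace ℝ (Fin n) →L[ℝ] ℝ :=
  (EuclideanSpace.proj i : EuclideanSpace ℝ (Fin n) →L[ℝ] ℝ).smulRight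
    (EuclideanSpace.proj j : EuclideanSpace ℝ (Fin n) →L[ℝ] ℝ)

lemma hasFDerivAt_Gf {g : MetricField n} {x : EuclideanSpace ℝ (Fin n)}
    (hg : ∀ i j, DifferentiableAt ℝ (fun y => g y i j) x) :
    HasFDerivAt (Gf g) (∑ i, ∑ j, (fderiv ℝ (fun y => g y i j) x).smulRight (eij i j)) x := by
  exact hasFDerivAt_sum2 (F := EuclideanSpace ℝ (Fin n) →L[ℝ] EuclideanSpace ℝ (Fin n) →L[ℝ] ℝ)
    (fun i j => (hg i j).hasFDerivAt) eij

lemma fderiv_Gf {g : MetricField n} {x : EuclideanSpace ℝ (Fin n)}
    (hg : ∀ i j, DifferentiableAt ℝ (fun y => g y i j) x) (W X Y : EuclideanSpace ℝ (Fin n)) :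
    fderiv ℝ (Gf g) x W X Y = ∑ l, ∑ i, ∑ j, pderiv l (fun y => g y i j) x * W l * X i * Y j := by
  rw [(hasFDerivAt_Gf hg).fderiv]
  simp only [sum_apply, ContinuousLinearMap.smulRight_apply, eij,
    smul_apply, smul_eq_mul, prj_apply, fderiv_eq_sum, Finset.sum_mul]
  have : ∀ i : Fin n, ∑ j, ∑ l, W l * pderiv l (fun y => g y i j) x * (X i * Y j)
      = ∑ l, ∑ j, pderiv l (fun y => g y i j) x * W l * X i * Y j := by
    intro i
    rw [Finset.sum_comm]
    refine Finset.sum_congr rfl fun l _ => Finset.sum_congr rfl fun j _ => by ring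
  simp only [this]
  rw [Finset.sum_comm]

/-- lowered Christoffel symbols -/
noncomputable def low (g : MetricField n) (x : EuclideanSpace ℝ (Fin n)) (i j l : Fin n) : ℝ :=
  (1 / 2) * (pderiv i (fun y => g y j l) x + pderiv j (fun y => g y i l) x
    - pderiv l (fun y => g y i j) x)

lemma sum_g_christoffel {g : MetricField n} {x : EuclideanSpace ℝ (Fin n)}
    (hdet : IsUnit (g x).det) (l i j : Fin n) :
    ∑ k, g x l k * christoffel g x k i j = low g x i j l := by
  have h1 : ∀ k, christoffel g x k i j = ((g x)⁻¹.mulVec (fun l => low g x i j l)) k := by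
    intro k
    simp only [christoffel, low, Matrix.mulVec, dotProduct, inverseField, Finset.mul_sum]
    refine Finset.sum_congr rfl fun p _ => by ring
  have h2 : ∑ k, g x l k * christoffel g x k i j
      = ((g x).mulVec ((g x)⁻¹.mulVec (fun l => low g x i j l))) l := by
    simp only [h1]
    rfl
  rw [h2, Matrix.mulVec_mulVec, Matrix.mul_nonsing_inv _ hdet, Matrix.one_mulVec]

lemma isLC_Gam {g : MetricField n} {x : EuclideanSpace ℝ (Fin n)}
    (hg : ∀ i j, DifferentiableAt ℝ (fun y => g y i j) x)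
    (hdet : IsUnit (g x).det) (hsymm : ∀ i j, g x i j = g x j i) : IsLC (Gf g) x (Gam g x) := by
  intro X Y Z
  rw [fderiv_Gf hg, fderiv_Gf hg, fderiv_Gf hg]
  unfold Gf
  rw [bil_apply]
  simp only [Gam_apply]
  have h1 : ∑ m, ∑ l, g x m l * (∑ i, ∑ j, christoffel g x m i j * X i * Y j) * Z l
      = ∑ i, ∑ j, ∑ l, low g x i j l * X i * Y j * Z l := by
    have e1 : ∀ l, ∑ m, g x m l * (∑ i, ∑ j, christoffel g x m i j * X i * Y j) * Z l
        = ∑ i, ∑ j, low g x i j l * X i * Y j * Z l := by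
      intro l
      simp only [Finset.mul_sum, Finset.sum_mul]
      rw [Finset.sum_comm]
      refine Finset.sum_congr rfl fun i _ => ?_
      rw [Finset.sum_comm]
      refine Finset.sum_congr rfl fun j _ => ?_
      rw [← sum_g_christoffel hdet]
      simp only [Finset.sum_mul]
      refine Finset.sum_congr rfl fun m _ => ?_
      rw [hsymm m l]; ring
    rw [Finset.sum_comm]
    simp only [e1]
    rw [Finset.sum_comm]
    refine Finset.sum_congr rfl fun i _ => ?_
    rw [Finset.sum_comm]
  rw [h1]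
  have h2 : ∑ l, ∑ i, ∑ j, pderiv l (fun y => g y i j) x * Y l * X i * Z j
      = ∑ i, ∑ j, ∑ l, pderiv j (fun y => g y i l) x * Y j * X i * Z l := by
    rw [Finset.sum_comm]
  have h3 : ∑ l, ∑ i, ∑ j, pderiv l (fun y => g y i j) x * Z l * X i * Y j
      = ∑ i, ∑ j, ∑ l, pderiv l (fun y => g y i j) x * Z l * X i * Y j := by
    rw [Finset.sum_comm]
    refine Finset.sum_congr rfl fun i _ => ?_
    rw [Finset.sum_comm]
  rw [h2, h3]
  rw [← Finset.sum_add_distrib, ← Finset.sum_sub_distrib, Finset.mul_sum]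
  refine Finset.sum_congr rfl fun i _ => ?_
  rw [← Finset.sum_add_distrib, ← Finset.sum_sub_distrib, Finset.mul_sum]
  refine Finset.sum_congr rfl fun j _ => ?_
  rw [← Finset.sum_add_distrib, ← Finset.sum_sub_distrib, Finset.mul_sum]
  refine Finset.sum_congr rfl fun l _ => ?_
  unfold low
  ring

/-! ### Smoothness -/

lemma contDiffOn_inv_entry {g : MetricField n} {U : Set (EuclideanSpace ℝ (Fin n))}
    (hg : IsRiemannianOn g U) (k l : Fin n) :
    ContDiffOn ℝ ∞ (fun x => inverseField g x k l) U := by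
  have hdet : ContDiffOn ℝ ∞ (fun x => (g x).det) U := by
    simp only [Matrix.det_apply]
    refine ContDiffOn.sum fun σ _ => ?_
    have : ContDiffOn ℝ ∞ (fun x => ∏ i, g x (σ i) i) U := by
      refine contDiffOn_prod fun i _ => hg.contDiffOn _ _
    exact this.const_smul _
  have hadj : ContDiffOn ℝ ∞ (fun x => (g x).adjugate k l) U := by
    simp only [Matrix.adjugate_apply, Matrix.det_apply]
    refine ContDiffOn.sum fun σ _ => ?_
    have : ContDiffOn ℝ ∞ (fun x => ∏ i, ((g x).updateRow l (Pi.single k 1)) (σ i) i) U := by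
      refine contDiffOn_prod fun i _ => ?_
      by_cases h : σ i = l
      · subst h
        simp only [Matrix.updateRow_self]
        exact contDiffOn_const
      · simp only [Matrix.updateRow_ne h]
        exact hg.contDiffOn _ _
    exact this.const_smul _
  have heq : ∀ x ∈ U, inverseField g x k l = ((g x).det)⁻¹ * (g x).adjugate k l := by
    intro x hx
    have hne : (g x).det ≠ 0 := (hg.posDef x hx).det_pos.ne'
    simp only [inverseField, Matrix.inv_def, Ring.inverse_eq_inv', Matrix.smul_apply, smul_eq_mul]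
  refine ContDiffOn.congr ((hdet.inv fun x hx => (hg.posDef x hx).det_pos.ne').mul hadj) heq

lemma contDiffOn_pderiv {f : EuclideanSpace ℝ (Fin n) → ℝ} {U : Set (EuclideanSpace ℝ (Fin n))}
    (hU : IsOpen U) (hf : ContDiffOn ℝ ∞ f U) (i : Fin n) :
    ContDiffOn ℝ ∞ (fun x => pderiv i f x) U := by
  unfold pderiv
  exact (hf.fderiv_of_isOpen hU (by norm_num)).clm_apply contDiffOn_const

lemma contDiffOn_christoffel {g : MetricField n} {U : Set (EuclideanSpace ℝ (Fin n))}
    (hg : IsRiemannianOn g U) (k i j : Fin n) :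
    ContDiffOn ℝ ∞ (fun x => christoffel g x k i j) U := by
  unfold christoffel
  refine contDiffOn_const.mul (ContDiffOn.sum fun l _ => ?_)
  refine (contDiffOn_inv_entry hg k l).mul ?_
  exact ((contDiffOn_pderiv hg.isOpen (hg.contDiffOn j l) i).add
    (contDiffOn_pderiv hg.isOpen (hg.contDiffOn i l) j)).sub
      (contDiffOn_pderiv hg.isOpen (hg.contDiffOn i j) l)

/-- coordinate version of a 3-tensor basis element -/
noncomputable def eijk (i j k : Fin n) :
    EuclideanSpace ℝ (Fin n) →L[ℝ] EuclideanSpace ℝ (Fin n) →L[ℝ] EuclideanSpace ℝ (Fin n) :=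
  (EuclideanSpace.proj i : EuclideanSpace ℝ (Fin n) →L[ℝ] ℝ).smulRight
      ((EuclideanSpace.proj j : EuclideanSpace ℝ (Fin n) →L[ℝ] ℝ).smulRight
        (EuclideanSpace.single k (1:ℝ)))

lemma eijk_apply (i j k l : Fin n) (X Y : EuclideanSpace ℝ (Fin n)) :
    eijk i j k X Y l = X i * Y j * (if k = l then 1 else 0) := by
  simp only [eijk, ContinuousLinearMap.smulRight_apply, smul_apply, PiLp.smul_apply, smul_eq_mul,
    prj_apply, PiLp.single_apply]
  by_cases h : k = l
  · subst h; simp
  · have h' : ¬ l = k := fun h' => h h'.symm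
    simp [h, h']

lemma hasFDerivAt_Gam {g : MetricField n} {x : EuclideanSpace ℝ (Fin n)}
    (hc : ∀ k i j, DifferentiableAt ℝ (fun y => christoffel g y k i j) x) :
    HasFDerivAt (Gam g) (∑ i, ∑ j, ∑ k,
      (fderiv ℝ (fun y => christoffel g y k i j) x).smulRight (eijk i j k)) x := by
  exact hasFDerivAt_sum3 (F := EuclideanSpace ℝ (Fin n) →L[ℝ] EuclideanSpace ℝ (Fin n) →L[ℝ]
    EuclideanSpace ℝ (Fin n)) (fun i j k => (hc k i j).hasFDerivAt) eijk

lemma fderiv_Gam {g : MetricField n} {x : EuclideanSpace ℝ (Fin n)}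
    (hc : ∀ k i j, DifferentiableAt ℝ (fun y => christoffel g y k i j) x)
    (W X Y : EuclideanSpace ℝ (Fin n)) (l : Fin n) :
    fderiv ℝ (Gam g) x W X Y l =
      ∑ k, ∑ i, ∑ j, pderiv i (fun y => christoffel g y l j k) x * Y k * W i * X j := by
  rw [(hasFDerivAt_Gam hc).fderiv]
  simp only [sum_apply, ContinuousLinearMap.smulRight_apply, smul_apply, WithLp.ofLp_sum,
    Finset.sum_apply, PiLp.smul_apply, smul_eq_mul, eijk_apply, fderiv_eq_sum]
  -- sum over i (X index), j (Y index), k (output)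
  have e1 : ∀ i j : Fin n, ∑ k, (∑ p, W p * pderiv p (fun y => christoffel g y k i j) x) *
      (X i * Y j * (if k = l then 1 else 0))
      = ∑ p, pderiv p (fun y => christoffel g y l i j) x * Y j * W p * X i := by
    intro i j
    rw [Finset.sum_eq_single l]
    · simp only [if_true, mul_one, Finset.sum_mul]
      refine Finset.sum_congr rfl fun p _ => by ring
    · intro b _ hb
      simp [hb]
    · simp
  simp only [e1]
  rw [Finset.sum_comm]
  refine Finset.sum_congr rfl fun k _ => ?_
  rw [Finset.sum_comm]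

lemma Gam_Gam_apply (g : MetricField n) (x W X Y : EuclideanSpace ℝ (Fin n)) (l : Fin n) :
    Gam g x W (Gam g x X Y) l =
      ∑ k, ∑ i, ∑ j, (∑ a, christoffel g x l i a * christoffel g x a j k) * Y k * W i * X j := by
  rw [Gam_apply]
  simp only [Gam_apply]
  simp only [Finset.mul_sum, Finset.sum_mul]
  -- LHS: ∑ i, ∑ a, ∑ j, ∑ k
  have : ∀ i : Fin n, ∑ a, ∑ j, ∑ k, christoffel g x l i a * W i *
      (christoffel g x a j k * X j * Y k)
      = ∑ k, ∑ j, ∑ a, christoffel g x l i a * christoffel g x a j k * Y k * W i * X j := by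
    intro i
    have e1 : ∀ a : Fin n, ∑ j, ∑ k, christoffel g x l i a * W i *
      (christoffel g x a j k * X j * Y k)
      = ∑ k, ∑ j, christoffel g x l i a * christoffel g x a j k * Y k * W i * X j := by
      intro a
      rw [Finset.sum_comm]
      refine Finset.sum_congr rfl fun k _ => Finset.sum_congr rfl fun j _ => by ring
    simp only [e1]
    rw [Finset.sum_comm]
    refine Finset.sum_congr rfl fun k _ => ?_
    rw [Finset.sum_comm]
  simp only [this]
  rw [Finset.sum_comm]

lemma curv_apply {g : MetricField n} {x : EuclideanSpace ℝ (Fin n)}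
    (hc : ∀ k i j, DifferentiableAt ℝ (fun y => christoffel g y k i j) x)
    (W X Y : EuclideanSpace ℝ (Fin n)) (l : Fin n) :
    curv (Gam g) x W X Y l = ∑ k, ∑ i, ∑ j, riemann g x l k i j * Y k * W i * X j := by
  unfold curv
  rw [PiLp.sub_apply, PiLp.add_apply, PiLp.sub_apply, fderiv_Gam hc, fderiv_Gam hc,
    Gam_Gam_apply, Gam_Gam_apply]
  have h2 : ∑ k, ∑ i, ∑ j, pderiv i (fun y => christoffel g y l j k) x * Y k * X i * W j
      = ∑ k, ∑ i, ∑ j, pderiv j (fun y => christoffel g y l i k) x * Y k * X j * W i := by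
    refine Finset.sum_congr rfl fun k _ => ?_
    rw [Finset.sum_comm]
  have h3 : ∑ k, ∑ i, ∑ j, (∑ a, christoffel g x l i a * christoffel g x a j k) * Y k * X i * W j
      = ∑ k, ∑ i, ∑ j, (∑ a, christoffel g x l j a * christoffel g x a i k) * Y k * X j * W i := by
    refine Finset.sum_congr rfl fun k _ => ?_
    rw [Finset.sum_comm]
  rw [h2, h3]
  rw [← Finset.sum_sub_distrib, ← Finset.sum_add_distrib, ← Finset.sum_sub_distrib]
  refine Finset.sum_congr rfl fun k _ => ?_
  rw [← Finset.sum_sub_distrib, ← Finset.sum_add_distrib, ← Finset.sum_sub_distrib]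
  refine Finset.sum_congr rfl fun i _ => ?_
  rw [← Finset.sum_sub_distrib, ← Finset.sum_add_distrib, ← Finset.sum_sub_distrib]
  refine Finset.sum_congr rfl fun j _ => ?_
  simp only [riemann, Finset.sum_sub_distrib]
  ring

section Symm

variable {g : MetricField n} {U : Set (EuclideanSpace ℝ (Fin n))} {x : EuclideanSpace ℝ (Fin n)}

lemma metric_symm (hg : IsRiemannianOn g U) (hx : x ∈ U) (i j : Fin n) : g x i j = g x j i := by
  have := (hg.posDef x hx).isHermitian.apply j i
  simpa using this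

lemma pderiv_metric_symm (hg : IsRiemannianOn g U) (hx : x ∈ U) (l i j : Fin n) :
    pderiv l (fun y => g y i j) x = pderiv l (fun y => g y j i) x := by
  unfold pderiv
  have : (fun y => g y i j) =ᶠ[𝓝 x] fun y => g y j i := by
    filter_upwards [hg.isOpen.mem_nhds hx] with y hy using metric_symm hg hy i j
  rw [this.fderiv_eq]

lemma christoffel_symm (hg : IsRiemannianOn g U) (hx : x ∈ U) (k i j : Fin n) :
    christoffel g x k i j = christoffel g x k j i := by
  unfold christoffel
  congr 1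
  refine Finset.sum_congr rfl fun l _ => ?_
  rw [pderiv_metric_symm hg hx l i j]
  ring

lemma pderiv_christoffel_symm (hg : IsRiemannianOn g U) (hx : x ∈ U) (l k i j : Fin n) :
    pderiv l (fun y => christoffel g y k i j) x = pderiv l (fun y => christoffel g y k j i) x := by
  unfold pderiv
  have : (fun y => christoffel g y k i j) =ᶠ[𝓝 x] fun y => christoffel g y k j i := by
    filter_upwards [hg.isOpen.mem_nhds hx] with y hy using christoffel_symm hg hy k i j
  rw [this.fderiv_eq]

lemma differentiableAt_christoffel (hg : IsRiemannianOn g U) (hx : x ∈ U) (k i j : Fin n) :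
    DifferentiableAt ℝ (fun y => christoffel g y k i j) x :=
  ((contDiffOn_christoffel hg k i j).contDiffAt (hg.isOpen.mem_nhds hx)).differentiableAt
    (by norm_num)

lemma differentiableAt_entry (hg : IsRiemannianOn g U) (hx : x ∈ U) (i j : Fin n) :
    DifferentiableAt ℝ (fun y => g y i j) x :=
  ((hg.contDiffOn i j).contDiffAt (hg.isOpen.mem_nhds hx)).differentiableAt (by norm_num)

/-- The Ricci tensor is the contraction of the Riemann tensor. -/
lemma ricci_eq_sum_riemann (hg : IsRiemannianOn g U) (hx : x ∈ U) (i j : Fin n) :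
    ricci g x i j = ∑ k, riemann g x k i k j := by
  unfold ricci riemann
  have h1 : pderiv j (fun y => ∑ k, christoffel g y k k i) x
      = ∑ k, pderiv j (fun y => christoffel g y k k i) x := by
    unfold pderiv
    rw [fderiv_fun_sum fun k _ => differentiableAt_christoffel hg hx k k i]
    simp
  rw [h1]
  simp only [Finset.sum_add_distrib, Finset.sum_sub_distrib]
  have h2 : ∀ k, pderiv k (fun y => christoffel g y k j i) x
      = pderiv k (fun y => christoffel g y k i j) x := fun k =>
    pderiv_christoffel_symm hg hx k k j i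
  have h3 : ∀ a, christoffel g x a j i = christoffel g x a i j := fun a =>
    christoffel_symm hg hx a j i
  simp only [h2, h3]
  ring

/-- The Ricci form as a trace of the curvature. -/
lemma ricci_form (hg : IsRiemannianOn g U) (hx : x ∈ U) (X Y : EuclideanSpace ℝ (Fin n)) :
    ∑ i, ∑ j, ricci g x i j * Y i * X j
      = ∑ k, curv (Gam g) x (EuclideanSpace.single k 1) X Y k := by
  have h1 : ∀ k, curv (Gam g) x (EuclideanSpace.single k 1) X Y k
      = ∑ i, ∑ j, riemann g x k i k j * Y i * X j := by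
    intro k
    rw [curv_apply fun k i j => differentiableAt_christoffel hg hx k i j]
    refine Finset.sum_congr rfl fun i _ => ?_
    rw [Finset.sum_eq_single k]
    · refine Finset.sum_congr rfl fun j _ => ?_
      simp
    · intro b _ hb
      refine Finset.sum_eq_zero fun j _ => ?_
      simp [hb]
    · simp
  simp only [h1]
  conv_rhs => rw [Finset.sum_comm]
  refine Finset.sum_congr rfl fun i _ => ?_
  conv_rhs => rw [Finset.sum_comm]
  refine Finset.sum_congr rfl fun j _ => ?_
  rw [ricci_eq_sum_riemann hg hx]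
  simp only [Finset.sum_mul]

/-- the curvature numerator through `curv` -/
lemma secNumer_eq (hg : IsRiemannianOn g U) (hx : x ∈ U) (u v : EuclideanSpace ℝ (Fin n)) :
    secNumer g x u v = bil (g x) (curv (Gam g) x u v v) u := by
  rw [bil_apply]
  unfold secNumer
  refine Finset.sum_congr rfl fun l _ => Finset.sum_congr rfl fun m _ => ?_
  rw [curv_apply fun k i j => differentiableAt_christoffel hg hx k i j]

lemma quadForm_eq (g : MetricField n) (x v : EuclideanSpace ℝ (Fin n)) :
    quadForm g x v = bil (g x) v v := by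
  rw [bil_apply]; rfl

lemma gramDet_eq (g : MetricField n) (x u v : EuclideanSpace ℝ (Fin n)) :
    gramDet g x u v = bil (g x) u u * bil (g x) v v - (bil (g x) u v) ^ 2 := by
  rw [gramDet, quadForm_eq, quadForm_eq, bil_apply (g x) u v]

lemma bil_symm (hg : IsRiemannianOn g U) (hx : x ∈ U) (u v : EuclideanSpace ℝ (Fin n)) :
    bil (g x) u v = bil (g x) v u := by
  rw [bil_apply, bil_apply, Finset.sum_comm]
  refine Finset.sum_congr rfl fun i _ => Finset.sum_congr rfl fun j _ => ?_
  rw [metric_symm hg hx j i]; ring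

lemma bil_pos (hg : IsRiemannianOn g U) (hx : x ∈ U) {v : EuclideanSpace ℝ (Fin n)}
    (hv : v ≠ 0) : 0 < bil (g x) v v := by
  have hv' : (WithLp.ofLp v : Fin n → ℝ) ≠ 0 := by
    intro h0
    apply hv
    ext i
    exact congrFun h0 i
  have h2 := (hg.posDef x hx).dotProduct_mulVec_pos hv'
  have : bil (g x) v v = star (WithLp.ofLp v) ⬝ᵥ (g x).mulVec (WithLp.ofLp v) := by
    rw [bil_apply]
    simp only [dotProduct, Matrix.mulVec, Finset.mul_sum, star_trivial]
    refine Finset.sum_congr rfl fun i _ => Finset.sum_congr rfl fun j _ => by ring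
  rw [this]
  exact h2

end Symm

/-- `g'` on `V` is the pull-back of the Riemannian metric `g` on `W` under the local
diffeomorphism `Φ`. -/
structure Pull (g' g : MetricField n)
    (Φ : EuclideanSpace ℝ (Fin n) → EuclideanSpace ℝ (Fin n))
    (V W : Set (EuclideanSpace ℝ (Fin n))) : Prop where
  isOpen : IsOpen V
  riem : IsRiemannianOn g W
  maps : ∀ y ∈ V, Φ y ∈ W
  smooth : ContDiffOn ℝ ∞ Φ V
  pull : ∀ y ∈ V, ∀ i j, g' y i j = ∑ a, ∑ b, g (Φ y) a b *
    (fderiv ℝ Φ y (EuclideanSpace.single i 1)) a * (fderiv ℝ Φ y (EuclideanSpace.single j 1)) b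
  inj : ∀ y ∈ V, Function.Injective (fderiv ℝ Φ y)

namespace Pull

variable {g' g : MetricField n} {Φ : EuclideanSpace ℝ (Fin n) → EuclideanSpace ℝ (Fin n)}
  {V W : Set (EuclideanSpace ℝ (Fin n))} {y : EuclideanSpace ℝ (Fin n)}

lemma bil_eq (h : Pull g' g Φ V W) (hy : y ∈ V) (X Y : EuclideanSpace ℝ (Fin n)) :
    bil (g' y) X Y = bil (g (Φ y)) (fderiv ℝ Φ y X) (fderiv ℝ Φ y Y) := by
  have e : ∀ i j, g' y i j = bil (g (Φ y)) (fderiv ℝ Φ y (EuclideanSpace.single i 1))
      (fderiv ℝ Φ y (EuclideanSpace.single j 1)) := by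
    intro i j
    rw [bil_apply, h.pull y hy i j]
  rw [bil_apply]
  simp only [e]
  conv_rhs => rw [eq_sum_single X, eq_sum_single Y]
  simp only [map_sum, sum_apply, map_smul, smul_apply, smul_eq_mul, Finset.mul_sum]
  rw [Finset.sum_comm]
  refine Finset.sum_congr rfl fun i _ => ?_
  refine Finset.sum_congr rfl fun j _ => by ring

lemma riem' (h : Pull g' g Φ V W) : IsRiemannianOn g' V := by
  have hsm : ∀ i a, ContDiffOn ℝ ∞
      (fun y => (fderiv ℝ Φ y (EuclideanSpace.single i 1)) a) V := by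
    intro i a
    have h1 : ContDiffOn ℝ ∞ (fun y => fderiv ℝ Φ y (EuclideanSpace.single i (1:ℝ))) V :=
      (h.smooth.fderiv_of_isOpen h.isOpen (by norm_num)).clm_apply contDiffOn_const
    exact (EuclideanSpace.proj a : EuclideanSpace ℝ (Fin n) →L[ℝ] ℝ).contDiff.comp_contDiffOn h1
  refine ⟨h.isOpen, fun i j => ?_, fun y hy => ?_⟩
  · refine ContDiffOn.congr ?_ (fun y hy => h.pull y hy i j)
    refine ContDiffOn.sum fun a _ => ContDiffOn.sum fun b _ => ?_
    refine (ContDiffOn.mul ?_ (hsm i a)).mul (hsm j b)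
    exact (h.riem.contDiffOn a b).comp h.smooth h.maps
  · have hsymm : ∀ i j, g' y i j = g' y j i := by
      intro i j
      rw [h.pull y hy i j, h.pull y hy j i, Finset.sum_comm]
      refine Finset.sum_congr rfl fun a _ => Finset.sum_congr rfl fun b _ => ?_
      rw [metric_symm h.riem (h.maps y hy) b a]; ring
    refine Matrix.PosDef.of_dotProduct_mulVec_pos ?_ ?_
    · ext i j
      simp only [Matrix.conjTranspose_apply, star_trivial]
      exact hsymm j i
    · intro v hv
      have hv' : (WithLp.toLp 2 v : EuclideanSpace ℝ (Fin n)) ≠ 0 := by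
        intro h0
        apply hv
        have := congrArg WithLp.ofLp h0
        simpa using this
      have e : star v ⬝ᵥ (g' y).mulVec v = bil (g' y) (WithLp.toLp 2 v) (WithLp.toLp 2 v) := by
        rw [bil_apply]
        simp only [dotProduct, Matrix.mulVec, Finset.mul_sum, star_trivial]
        refine Finset.sum_congr rfl fun i _ => Finset.sum_congr rfl fun j _ => by ring
      rw [e, h.bil_eq hy]
      refine bil_pos h.riem (h.maps y hy) ?_
      intro h0
      apply hv'
      apply h.inj y hy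
      rw [h0, map_zero]

lemma surj (h : Pull g' g Φ V W) (hy : y ∈ V) : Function.Surjective (fderiv ℝ Φ y) :=
  (LinearMap.injective_iff_surjective (f := (fderiv ℝ Φ y : EuclideanSpace ℝ (Fin n) →ₗ[ℝ]
    EuclideanSpace ℝ (Fin n)))).1 (h.inj y hy)

lemma contDiffAt (h : Pull g' g Φ V W) (hy : y ∈ V) : ContDiffAt ℝ ∞ Φ y :=
  h.smooth.contDiffAt (h.isOpen.mem_nhds hy)

/-- Transformation law of the Christoffel symbols. -/
theorem gam_eq (h : Pull g' g Φ V W) (hy : y ∈ V) (X Y : EuclideanSpace ℝ (Fin n)) :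
    fderiv ℝ Φ y (Gam g' y X Y) = Gam g (Φ y) (fderiv ℝ Φ y X) (fderiv ℝ Φ y Y)
      + fderiv ℝ (fderiv ℝ Φ) y X Y := by
  have hW := h.maps y hy
  refine lc_transform (G := Gf g) (G' := Gf g') ((h.contDiffAt hy).of_le ?_) ?_ ?_ ?_ ?_ ?_
    (h.surj hy) ?_ ?_ X Y
  · exact WithTop.coe_le_coe.2 le_top
  · exact (hasFDerivAt_Gf fun i j => differentiableAt_entry h.riem hW i j).differentiableAt
  · filter_upwards [h.isOpen.mem_nhds hy] with z hz X Y using h.bil_eq hz X Y
  · exact (hasFDerivAt_Gf fun i j => differentiableAt_entry h.riem' hy i j).differentiableAt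
  · exact fun U V => bil_symm h.riem hW U V
  · intro U hU
    by_contra hne
    exact (bil_pos h.riem hW hne).ne' (hU U)
  · exact isLC_Gam (fun i j => differentiableAt_entry h.riem' hy i j)
      (h.riem'.posDef y hy).det_pos.ne'.isUnit (fun i j => metric_symm h.riem' hy i j)
  · exact isLC_Gam (fun i j => differentiableAt_entry h.riem hW i j)
      (h.riem.posDef _ hW).det_pos.ne'.isUnit (fun i j => metric_symm h.riem hW i j)

/-- Transformation law of the curvature. -/
theorem curv_eq (h : Pull g' g Φ V W) (hy : y ∈ V) (A X Y : EuclideanSpace ℝ (Fin n)) :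
    fderiv ℝ Φ y (curv (Gam g') y A X Y) =
      curv (Gam g) (Φ y) (fderiv ℝ Φ y A) (fderiv ℝ Φ y X) (fderiv ℝ Φ y Y) := by
  have hW := h.maps y hy
  refine curv_transform ((h.contDiffAt hy).of_le ?_) ?_ ?_ ?_ A X Y
  · exact WithTop.coe_le_coe.2 le_top
  · exact (hasFDerivAt_Gam fun k i j => differentiableAt_christoffel h.riem hW k i j).differentiableAt
  · exact (hasFDerivAt_Gam fun k i j => differentiableAt_christoffel h.riem' hy k i j).differentiableAt
  · filter_upwards [h.isOpen.mem_nhds hy] with z hz X Y using h.gam_eq hz X Y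

end Pull

lemma trace_eq_sum (T : EuclideanSpace ℝ (Fin n) →ₗ[ℝ] EuclideanSpace ℝ (Fin n)) :
    LinearMap.trace ℝ _ T = ∑ k, T (EuclideanSpace.single k 1) k := by
  rw [LinearMap.trace_eq_matrix_trace ℝ (EuclideanSpace.basisFun (Fin n) ℝ).toBasis, Matrix.trace]
  refine Finset.sum_congr rfl fun k _ => ?_
  simp [LinearMap.toMatrix_apply, Matrix.diag]

lemma trace_conj_of_comm {T T' J : EuclideanSpace ℝ (Fin n) →ₗ[ℝ] EuclideanSpace ℝ (Fin n)}
    (hJ : Function.Bijective J) (h : ∀ v, J (T' v) = T (J v)) :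
    LinearMap.trace ℝ _ T' = LinearMap.trace ℝ _ T := by
  let e : EuclideanSpace ℝ (Fin n) ≃ₗ[ℝ] EuclideanSpace ℝ (Fin n) := LinearEquiv.ofBijective J hJ
  have h1 : T = e.conj T' := by
    ext v : 1
    obtain ⟨w, rfl⟩ := hJ.2 v
    have hw : e.symm (J w) = w := e.symm_apply_apply w
    rw [LinearEquiv.conj_apply_apply, hw]
    exact (h w).symm
  rw [h1, LinearMap.trace_conj']

namespace Pull

variable {g' g : MetricField n} {Φ : EuclideanSpace ℝ (Fin n) → EuclideanSpace ℝ (Fin n)}
  {V W : Set (EuclideanSpace ℝ (Fin n))} {y : EuclideanSpace ℝ (Fin n)}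

/-- Tensoriality of the Ricci form. -/
theorem ricci_pull (h : Pull g' g Φ V W) (hy : y ∈ V) (X Y : EuclideanSpace ℝ (Fin n)) :
    ∑ i, ∑ j, ricci g' y i j * X i * Y j =
      ∑ a, ∑ b, ricci g (Φ y) a b * (fderiv ℝ Φ y X) a * (fderiv ℝ Φ y Y) b := by
  rw [ricci_form h.riem' hy, ricci_form h.riem (h.maps y hy)]
  -- linear maps `W ↦ curv W Y X`
  let T' : EuclideanSpace ℝ (Fin n) →ₗ[ℝ] EuclideanSpace ℝ (Fin n) :=
    { toFun := fun A => curv (Gam g') y A Y X
      map_add' := fun A B => by
        simp only [curv, map_add, add_apply]; abel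
      map_smul' := fun c A => by
        simp only [curv, map_smul, smul_apply, RingHom.id_apply, smul_sub, smul_add] }
  let T : EuclideanSpace ℝ (Fin n) →ₗ[ℝ] EuclideanSpace ℝ (Fin n) :=
    { toFun := fun A => curv (Gam g) (Φ y) A (fderiv ℝ Φ y Y) (fderiv ℝ Φ y X)
      map_add' := fun A B => by
        simp only [curv, map_add, add_apply]; abel
      map_smul' := fun c A => by
        simp only [curv, map_smul, smul_apply, RingHom.id_apply, smul_sub, smul_add] }
  have h1 : LinearMap.trace ℝ _ T' = LinearMap.trace ℝ _ T := by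
    apply trace_conj_of_comm (J := (fderiv ℝ Φ y : EuclideanSpace ℝ (Fin n) →ₗ[ℝ]
      EuclideanSpace ℝ (Fin n))) ⟨h.inj y hy, h.surj hy⟩
    intro v
    exact h.curv_eq hy v Y X
  rw [trace_eq_sum, trace_eq_sum] at h1
  exact h1

theorem quadForm_pull (h : Pull g' g Φ V W) (hy : y ∈ V) (X : EuclideanSpace ℝ (Fin n)) :
    quadForm g' y X = quadForm g (Φ y) (fderiv ℝ Φ y X) := by
  rw [quadForm_eq, quadForm_eq, h.bil_eq hy]

theorem gramDet_pull (h : Pull g' g Φ V W) (hy : y ∈ V) (u v : EuclideanSpace ℝ (Fin n)) :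
    gramDet g' y u v = gramDet g (Φ y) (fderiv ℝ Φ y u) (fderiv ℝ Φ y v) := by
  rw [gramDet_eq, gramDet_eq, h.bil_eq hy, h.bil_eq hy, h.bil_eq hy]

theorem secNumer_pull (h : Pull g' g Φ V W) (hy : y ∈ V) (u v : EuclideanSpace ℝ (Fin n)) :
    secNumer g' y u v = secNumer g (Φ y) (fderiv ℝ Φ y u) (fderiv ℝ Φ y v) := by
  rw [secNumer_eq h.riem' hy, secNumer_eq h.riem (h.maps y hy), h.bil_eq hy, h.curv_eq hy]

/-- The Ricci form at `Φ y`, in all directions, from the one at `y`. -/
theorem ricci_push (h : Pull g' g Φ V W) (hy : y ∈ V) {P : Prop}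
    (w : EuclideanSpace ℝ (Fin n))
    (hP : ∀ v, fderiv ℝ Φ y v = w →
      ∑ i, ∑ j, ricci g' y i j * v i * v j = ∑ a, ∑ b, ricci g (Φ y) a b * w a * w b → P) : P := by
  obtain ⟨v, rfl⟩ := h.surj hy w
  exact hP v rfl (h.ricci_pull hy v v)

/-- Determinant of the pulled back metric. -/
theorem det_pull (h : Pull g' g Φ V W) (hy : y ∈ V) :
    (g' y).det = (g (Φ y)).det * (fderiv ℝ Φ y).det ^ 2 := by
  let J : Matrix (Fin n) (Fin n) ℝ := fun a i => (fderiv ℝ Φ y (EuclideanSpace.single i 1)) a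
  have h1 : g' y = J.transpose * g (Φ y) * J := by
    ext i j
    rw [h.pull y hy i j, Matrix.mul_apply]
    have : ∀ b, (J.transpose * g (Φ y)) i b * J b j = ∑ a, g (Φ y) a b *
        (fderiv ℝ Φ y (EuclideanSpace.single i 1)) a *
        (fderiv ℝ Φ y (EuclideanSpace.single j 1)) b := by
      intro b
      rw [Matrix.mul_apply, Finset.sum_mul]
      refine Finset.sum_congr rfl fun a _ => ?_
      have ht : J.transpose i a = (fderiv ℝ Φ y (EuclideanSpace.single i 1)) a := rfl
      have hj : J b j = (fderiv ℝ Φ y (EuclideanSpace.single j 1)) b := rfl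
      rw [ht, hj]
      ring
    simp only [this]
    rw [Finset.sum_comm]
  have h2 : (fderiv ℝ Φ y).det = J.det := by
    rw [ContinuousLinearMap.det, ← LinearMap.det_toMatrix
      (EuclideanSpace.basisFun (Fin n) ℝ).toBasis]
    congr 1
  rw [h1, h2, Matrix.det_mul, Matrix.det_mul, Matrix.det_transpose]
  ring

end Pull

/-! ### Density -/

/-- The Ricci form is continuous on the domain of a Riemannian metric. -/
lemma continuousOn_ricci {g : MetricField n} {U : Set (EuclideanSpace ℝ (Fin n))}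
    (hg : IsRiemannianOn g U) (i j : Fin n) : ContinuousOn (fun x => ricci g x i j) U := by
  unfold ricci
  have hc : ∀ k i j, ContDiffOn ℝ ∞ (fun x => christoffel g x k i j) U := fun k i j =>
    contDiffOn_christoffel hg k i j
  have h1 : ContDiffOn ℝ ∞ (fun x => ∑ k, christoffel g x k k i) U :=
    ContDiffOn.sum fun k _ => hc k k i
  refine ContinuousOn.sub (ContinuousOn.add (ContinuousOn.sub ?_ ?_) ?_) ?_
  · exact continuousOn_finsetSum _ fun k _ =>
      (contDiffOn_pderiv hg.isOpen (hc k i j) k).continuousOn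
  · exact (contDiffOn_pderiv hg.isOpen h1 j).continuousOn
  · exact continuousOn_finsetSum _ fun k _ => continuousOn_finsetSum _ fun l _ =>
      (hc k k l).continuousOn.mul (hc l i j).continuousOn
  · exact continuousOn_finsetSum _ fun k _ => continuousOn_finsetSum _ fun l _ =>
      (hc k j l).continuousOn.mul (hc l k i).continuousOn

/-- A lower bound for the Ricci form on a dense subset extends to the closure:
`c x ‖w‖² ≤ Ric(w,w)` with `c` continuous. -/
theorem ricci_ge_of_dense {g : MetricField n} {U D : Set (EuclideanSpace ℝ (Fin n))}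
    (hg : IsRiemannianOn g U) (hDU : D ⊆ U) (hD : U ⊆ closure D)
    {c : EuclideanSpace ℝ (Fin n) → ℝ} (hc : ContinuousOn c U)
    (h : ∀ x ∈ D, ∀ w : EuclideanSpace ℝ (Fin n),
      c x * ‖w‖ ^ 2 ≤ ∑ i, ∑ j, ricci g x i j * w i * w j) :
    ∀ x ∈ U, ∀ w : EuclideanSpace ℝ (Fin n),
      c x * ‖w‖ ^ 2 ≤ ∑ i, ∑ j, ricci g x i j * w i * w j := by
  intro x hx w
  have hxD : x ∈ closure D := hD hx
  have hne : (𝓝[D] x).NeBot := mem_closure_iff_nhdsWithin_neBot.1 hxD
  have h1 : Tendsto (fun x => c x * ‖w‖ ^ 2) (𝓝[D] x) (𝓝 (c x * ‖w‖ ^ 2)) :=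
    ((hc x hx).mono hDU).mul_const _
  have h2 : Tendsto (fun x => ∑ i, ∑ j, ricci g x i j * w i * w j) (𝓝[D] x)
      (𝓝 (∑ i, ∑ j, ricci g x i j * w i * w j)) := by
    refine tendsto_finsetSum _ fun i _ => tendsto_finsetSum _ fun j _ => ?_
    exact (((continuousOn_ricci hg i j x hx).mono hDU).mul_const _).mul_const _
  refine le_of_tendsto_of_tendsto h1 h2 ?_
  filter_upwards [self_mem_nhdsWithin] with z hz using h z hz w

end Crest.Agent.R202.Tens
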