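import Crest.Agent.R202.GeoPolar
import Crest.Agent.R202.GeoTens

/-!
Row 202, Part D: `gpull ε s θ P` is the pull-back (in the sense of `Tens.Pull`) of `gfam s θ P`
under the polar coordinates `Psi ε`, and the images of the two charts `ε = ±1` cover
`{ρ ≠ 0, σ ≠ 0}`, which is dense.
-/

set_option autoImplicit false

open scoped ContDiff Topology
open Filter Set
open Crest.GeometryTopology.CoordMetric Crest.GeometryTopology.ChartCurvature

namespace Crest.Agent.R202.Geo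

noncomputable section

variable {m : ℕ}

theorem contDiff_coordP (i : Fin (m + 3)) :
    ContDiff ℝ ∞ fun q : EuclideanSpace ℝ (Fin (m + 3)) => q i :=
  (EuclideanSpace.proj i : EuclideanSpace ℝ (Fin (m + 3)) →L[ℝ] ℝ).contDiff

theorem contDiff_NN_pull : ContDiff ℝ ∞ (NN (m := m)) := by
  unfold NN
  exact ContDiff.sum fun k _ => (contDiff_coordP _).pow 2

theorem contDiffOn_Psi (ε : ℝ) : ContDiffOn ℝ ∞ (Psi (m := m) ε) (VV m) := by
  have h0 : ContDiffOn ℝ ∞ (fun q : EuclideanSpace ℝ (Fin (m + 3)) => Real.exp (q 0)) (VV m) :=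
    (contDiff_coordP 0).exp.contDiffOn
  have h1 : ContDiffOn ℝ ∞
      (fun q : EuclideanSpace ℝ (Fin (m + 3)) => Real.sqrt (1 - q 1 ^ 2)) (VV m) := by
    refine ContDiffOn.sqrt (contDiff_const.sub ((contDiff_coordP 1).pow 2)).contDiffOn ?_
    exact fun q hq => (one_sub_sq_pos hq).ne'
  have hN : ContDiffOn ℝ ∞ (fun q : EuclideanSpace ℝ (Fin (m + 3)) => (1 + NN q)⁻¹) (VV m) :=
    (contDiff_const.add contDiff_NN_pull).contDiffOn.inv fun q _ => (NN_pos' q).ne'
  rw [contDiffOn_euclidean]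
  apply forall_fin3
  · simp only [Psi_zero]
    exact h0.mul (h1.mul (contDiff_coordP 2).cos.contDiffOn)
  · simp only [Psi_one]
    exact h0.mul (h1.mul (contDiff_coordP 2).sin.contDiffOn)
  · simp only [Psi_two, div_eq_mul_inv]
    exact h0.mul ((contDiff_coordP 1).contDiffOn.mul
      (contDiffOn_const.mul ((contDiffOn_const.mul hN).sub contDiffOn_const)))
  · intro k
    simp only [Psi_succ, div_eq_mul_inv]
    exact h0.mul ((contDiff_coordP 1).contDiffOn.mul
      (contDiffOn_const.mul ((contDiffOn_const.mul (contDiff_coordP _).contDiffOn).mul hN)))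

theorem fderiv_Psi_apply (ε : ℝ) {q : EuclideanSpace ℝ (Fin (m + 3))} (hq : q ∈ VV m)
    (v : EuclideanSpace ℝ (Fin (m + 3))) (a : Fin (m + 3)) :
    fderiv ℝ (Psi ε) q v a = dPsi ε q v a := by
  have hd : DifferentiableAt ℝ (Psi ε) q :=
    ((contDiffOn_Psi ε).contDiffAt (isOpen_VV.mem_nhds hq)).differentiableAt (by norm_num)
  have h : HasFDerivAt (fun q => Psi ε q a)
      ((EuclideanSpace.proj a : EuclideanSpace ℝ (Fin (m + 3)) →L[ℝ] ℝ).comp (fderiv ℝ (Psi ε) q))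
      q :=
    (EuclideanSpace.proj a : EuclideanSpace ℝ (Fin (m + 3)) →L[ℝ] ℝ).hasFDerivAt.comp q
      hd.hasFDerivAt
  unfold dPsi
  rw [h.fderiv]
  rfl

theorem fderiv_Psi_inj {ε : ℝ} (hε : ε ^ 2 = 1) {q : EuclideanSpace ℝ (Fin (m + 3))}
    (hq : q ∈ VV m) : Function.Injective (fderiv ℝ (Psi ε) q) := by
  rw [injective_iff_map_eq_zero]
  intro v hv
  have h0 : ∀ a, dPsi ε q v a = 0 := fun a => by
    rw [← fderiv_Psi_apply ε hq, hv]; rfl
  have h := dPsi_inner hε hq v v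
  simp only [h0, mul_zero, Finset.sum_const_zero] at h
  have hX := one_sub_sq_pos hq
  have he : 0 < Real.exp (q 0) ^ 2 := by positivity
  have hN := NN_pos' q
  have hsum : 0 ≤ ∑ k : Fin m, v k.succ.succ.succ * v k.succ.succ.succ :=
    Finset.sum_nonneg fun k _ => mul_self_nonneg _
  have h2 : v 0 * v 0 + v 1 * v 1 / (1 - q 1 ^ 2) + (1 - q 1 ^ 2) * (v 2 * v 2)
        + q 1 ^ 2 * (4 / (1 + NN q) ^ 2 *
          ∑ k : Fin m, v k.succ.succ.succ * v k.succ.succ.succ) = 0 := by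
    rcases mul_eq_zero.1 h.symm with h' | h'
    · exact absurd h' he.ne'
    · exact h'
  have t0 : 0 ≤ v 0 * v 0 := mul_self_nonneg _
  have t1 : 0 ≤ v 1 * v 1 / (1 - q 1 ^ 2) := div_nonneg (mul_self_nonneg _) hX.le
  have t2 : 0 ≤ (1 - q 1 ^ 2) * (v 2 * v 2) := mul_nonneg hX.le (mul_self_nonneg _)
  have t3 : 0 ≤ q 1 ^ 2 * (4 / (1 + NN q) ^ 2 *
          ∑ k : Fin m, v k.succ.succ.succ * v k.succ.succ.succ) := by positivity
  have z0 : v 0 * v 0 = 0 := by linarith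
  have z1 : v 1 * v 1 / (1 - q 1 ^ 2) = 0 := by linarith
  have z2 : (1 - q 1 ^ 2) * (v 2 * v 2) = 0 := by linarith
  have z3 : q 1 ^ 2 * (4 / (1 + NN q) ^ 2 *
          ∑ k : Fin m, v k.succ.succ.succ * v k.succ.succ.succ) = 0 := by linarith
  have w0 : v 0 = 0 := mul_self_eq_zero.1 z0
  have w1 : v 1 = 0 := by
    rcases div_eq_zero_iff.1 z1 with h' | h'
    · exact mul_self_eq_zero.1 h'
    · exact absurd h' hX.ne'
  have w2 : v 2 = 0 := by
    rcases mul_eq_zero.1 z2 with h' | h'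
    · exact absurd h' hX.ne'
    · exact mul_self_eq_zero.1 h'
  have w3 : ∑ k : Fin m, v k.succ.succ.succ * v k.succ.succ.succ = 0 := by
    have hc : q 1 ^ 2 * (4 / (1 + NN q) ^ 2) ≠ 0 := by
      have := hq.1
      positivity
    rw [← mul_assoc] at z3
    exact (mul_eq_zero.1 z3).resolve_left hc
  have w4 : ∀ k : Fin m, v k.succ.succ.succ = 0 := by
    intro k
    have := (Finset.sum_eq_zero_iff_of_nonneg fun k _ => mul_self_nonneg _).1 w3 k
      (Finset.mem_univ k)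
    exact mul_self_eq_zero.1 this
  ext a
  revert a
  exact forall_fin3 w0 w1 w2 w4

/-- The polar pull-back in the sense of `Tens.Pull`. -/
theorem pull_gfam {ε : ℝ} (hε : ε ^ 2 = 1) {s θ : ℝ → ℝ} {P : ℝ → ℝ → ℂ → ℝ}
    (hR : IsRiemannianOn (gfam (m := m) s θ P) univ) :
    Tens.Pull (gpull ε s θ P) (gfam s θ P) (Psi ε) (VV m) univ where
  isOpen := isOpen_VV
  riem := hR
  maps := fun _ _ => mem_univ _
  smooth := contDiffOn_Psi ε
  pull := by
    intro q hq i j
    unfold gpull bil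
    refine Finset.sum_congr rfl fun a _ => Finset.sum_congr rfl fun b _ => ?_
    rw [fderiv_Psi_apply ε hq, fderiv_Psi_apply ε hq]
  inj := fun q hq => fderiv_Psi_inj hε hq

/-- The radial coordinate vector is mapped to the position vector. -/
theorem fderiv_Psi_bv_zero (ε : ℝ) {q : EuclideanSpace ℝ (Fin (m + 3))} (hq : q ∈ VV m) :
    fderiv ℝ (Psi ε) q (EuclideanSpace.single 0 1) = Psi ε q := by
  ext a
  rw [fderiv_Psi_apply ε hq]
  have b0 : (bv 0 : EuclideanSpace ℝ (Fin (m + 3))) 0 = 1 := by rw [bv_apply, if_pos rfl]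
  have b1 : (bv 0 : EuclideanSpace ℝ (Fin (m + 3))) 1 = 0 := by
    rw [bv_apply, if_neg one_ne_zero3]
  have b2 : (bv 0 : EuclideanSpace ℝ (Fin (m + 3))) 2 = 0 := by
    rw [bv_apply, if_neg two_ne_zero3]
  have bk : ∀ k : Fin m, (bv 0 : EuclideanSpace ℝ (Fin (m + 3))) k.succ.succ.succ = 0 := by
    intro k; rw [bv_apply, if_neg (succ3_ne_zero k)]
  revert a
  apply forall_fin3
  · rw [dPsi_zero ε hq, Psi_zero, b0, b1, b2]; ring
  · rw [dPsi_one ε hq, Psi_one, b0, b1, b2]; ring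
  · rw [dPsi_two, Psi_two, b0, b1, ev_bv_zero]; ring
  · intro k
    rw [dPsi_succ, Psi_succ, b0, b1, bk, ev_bv_zero]; ring

/-- The two charts `ε = ±1` cover `{ρ ≠ 0, σ ≠ 0}`. -/
theorem exists_Psi_eq {x : EuclideanSpace ℝ (Fin (m + 3))} (hr : rho x ≠ 0) (hs : sig x ≠ 0) :
    ∃ ε : ℝ, ε ^ 2 = 1 ∧ ∃ q ∈ VV m, Psi ε q = x := by
  have hr' : 0 < rho x := lt_of_le_of_ne (Real.sqrt_nonneg _) (Ne.symm hr)
  have hs' : 0 < sig x := lt_of_le_of_ne (Real.sqrt_nonneg _) (Ne.symm hs)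
  have hn2 := norm_sq_eq x
  have hnpos : 0 < ‖x‖ := by
    rcases (norm_nonneg x).lt_or_eq with h | h
    · exact h
    · rw [← h] at hn2
      nlinarith
  -- sign
  obtain ⟨ε, hε, hεpos⟩ : ∃ ε : ℝ, ε ^ 2 = 1 ∧ 0 ≤ ε * x 2 := by
    rcases le_total 0 (x 2) with h | h
    · exact ⟨1, by norm_num, by linarith⟩
    · exact ⟨-1, by norm_num, by linarith⟩
  refine ⟨ε, hε, ?_⟩
  set c : ℝ := 1 + ε * x 2 / sig x with hc
  have hcpos : 0 < c := by
    have : 0 ≤ ε * x 2 / sig x := div_nonneg hεpos hs'.le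
    linarith
  set z : ℂ := (x 0 : ℂ) + (x 1 : ℂ) * Complex.I with hz
  have hzabs : ‖z‖ = rho x := by
    unfold rho
    rw [hz, Complex.norm_add_mul_I]
  -- the point
  set q : EuclideanSpace ℝ (Fin (m + 3)) := WithLp.toLp 2
    (Fin.cons (Real.log ‖x‖) (Fin.cons (sig x / ‖x‖) (Fin.cons (Complex.arg z)
      fun k : Fin m => ε * x k.succ.succ.succ / sig x / c))) with hq
  have q0 : q 0 = Real.log ‖x‖ := rfl
  have q1 : q 1 = sig x / ‖x‖ := rfl
  have q2 : q 2 = Complex.arg z := rfl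
  have qk : ∀ k : Fin m, q k.succ.succ.succ = ε * x k.succ.succ.succ / sig x / c := fun k => rfl
  have hsn : sig x < ‖x‖ := by
    have : sig x ^ 2 < ‖x‖ ^ 2 := by rw [hn2]; nlinarith
    exact lt_of_pow_lt_pow_left₀ 2 hnpos.le this
  have hqV : q ∈ VV m := by
    refine ⟨?_, ?_⟩
    · rw [q1]; positivity
    · rw [q1, div_lt_one hnpos]; exact hsn
  have hexp : Real.exp (q 0) = ‖x‖ := by rw [q0, Real.exp_log hnpos]
  have hsq : Real.sqrt (1 - q 1 ^ 2) = rho x / ‖x‖ := by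
    have : 1 - q 1 ^ 2 = (rho x / ‖x‖) ^ 2 := by
      rw [q1, div_pow, div_pow]
      field_simp
      linarith
    rw [this, Real.sqrt_sq (by positivity)]
  -- |y|^2
  have hsig2 : sig x ^ 2 = x 2 ^ 2 + ∑ k : Fin m, x k.succ.succ.succ ^ 2 := by
    unfold sig
    rw [Real.sq_sqrt (Finset.sum_nonneg fun _ _ => sq_nonneg _), Fin.sum_univ_succ]
    rfl
  have hN : 1 + NN q = 2 / c := by
    have e : NN q = (∑ k : Fin m, x k.succ.succ.succ ^ 2) / sig x ^ 2 / c ^ 2 := by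
      unfold NN
      rw [Finset.sum_div, Finset.sum_div]
      refine Finset.sum_congr rfl fun k _ => ?_
      rw [qk]
      have : (ε * x k.succ.succ.succ / sig x / c) ^ 2
          = ε ^ 2 * (x k.succ.succ.succ ^ 2 / sig x ^ 2 / c ^ 2) := by ring
      rw [this, hε, one_mul]
    have e2 : ∑ k : Fin m, x k.succ.succ.succ ^ 2 = sig x ^ 2 - x 2 ^ 2 := by linarith
    rw [e, e2]
    have e3 : (sig x ^ 2 - x 2 ^ 2) / sig x ^ 2 = (2 - c) * c := by
      rw [hc]
      field_simp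
      ring_nf
      rw [hε]
      ring
    rw [e3]
    field_simp
    ring
  refine ⟨q, hqV, ?_⟩
  have hre : x 0 = rho x * Real.cos (Complex.arg z) := by
    have h := Complex.norm_mul_cos_arg z
    rw [hzabs] at h
    rw [h]; simp [hz]
  have him : x 1 = rho x * Real.sin (Complex.arg z) := by
    have h := Complex.norm_mul_sin_arg z
    rw [hzabs] at h
    rw [h]; simp [hz]
  have h2c : 2 / (1 + NN q) = c := by
    rw [hN]; field_simp
  ext a
  revert a
  apply forall_fin3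
  · rw [Psi_zero, hexp, hsq, q2]
    have e : ‖x‖ * (rho x / ‖x‖ * Real.cos z.arg) = rho x * Real.cos z.arg := by
      field_simp
    rw [e, ← hre]
  · rw [Psi_one, hexp, hsq, q2]
    have e : ‖x‖ * (rho x / ‖x‖ * Real.sin z.arg) = rho x * Real.sin z.arg := by
      field_simp
    rw [e, ← him]
  · rw [Psi_two, hexp, q1, h2c, hc]
    field_simp
    ring_nf
    rw [hε]
    ring
  · intro k
    rw [Psi_succ, hexp, q1]
    have : 2 * q k.succ.succ.succ / (1 + NN q) = q k.succ.succ.succ * c := by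
      rw [← h2c]; ring
    rw [this, qk]
    field_simp
    rw [hε]
    ring

/-- `{ρ ≠ 0, σ ≠ 0}` is dense. -/
theorem dense_rho_sig : Dense {x : EuclideanSpace ℝ (Fin (m + 3)) | rho x ≠ 0 ∧ sig x ≠ 0} := by
  have hopen : ∀ i : Fin (m + 3), IsOpenMap
      (EuclideanSpace.proj i : EuclideanSpace ℝ (Fin (m + 3)) →L[ℝ] ℝ) := by
    intro i
    refine (EuclideanSpace.proj i : EuclideanSpace ℝ (Fin (m + 3)) →L[ℝ] ℝ).isOpenMap ?_
    intro c
    exact ⟨EuclideanSpace.single i c, by rw [Tens.prj_apply]; simp⟩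
  have hd : ∀ i : Fin (m + 3), Dense {x : EuclideanSpace ℝ (Fin (m + 3)) | x i ≠ 0} := fun i =>
    (dense_compl_singleton (0:ℝ)).preimage (hopen i)
  have ho : IsOpen {x : EuclideanSpace ℝ (Fin (m + 3)) | x 0 ≠ 0} := by
    have : Continuous fun x : EuclideanSpace ℝ (Fin (m + 3)) => x 0 := by fun_prop
    exact isOpen_ne_fun this continuous_const
  refine ((hd 0).inter_of_isOpen_left (hd 2) ho).mono ?_
  rintro x ⟨hx0, hx2⟩
  refine ⟨?_, ?_⟩
  · unfold rho
    have : 0 < x 0 ^ 2 + x 1 ^ 2 := by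
      have : x 0 ≠ 0 := hx0
      positivity
    exact (Real.sqrt_pos.2 this).ne'
  · unfold sig
    have h2 : (0:ℝ) < x 2 ^ 2 := by
      have : x 2 ≠ 0 := hx2
      positivity
    have : 0 < ∑ j : Fin (m + 1), x j.succ.succ ^ 2 := by
      rw [Fin.sum_univ_succ]
      have e : x (Fin.succ (Fin.succ (0 : Fin (m + 1)))) = x 2 := rfl
      rw [e]
      have : 0 ≤ ∑ i : Fin m, x (Fin.succ i).succ.succ ^ 2 :=
        Finset.sum_nonneg fun _ _ => sq_nonneg _
      linarith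
    exact (Real.sqrt_pos.2 this).ne'

end

end Crest.Agent.R202.Geo
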