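import Mathlib
import Crest.Agent.R202.GeoJetA

/-!
Row 202, Part D: closed form of the Ricci quadratic form in polar coordinates, and the
elementary inequality behind the positivity of the Ricci curvature.
-/

set_option autoImplicit false

open scoped ContDiff Topology
open Crest.GeometryTopology.CoordMetric Crest.GeometryTopology.ChartCurvature

namespace Crest.Agent.R202.Geo

noncomputable section

variable {m : ℕ}

theorem Jet.form {a : Fin (m + 3) → EuclideanSpace ℝ (Fin (m + 3)) → ℝ}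
    {w : EuclideanSpace ℝ (Fin (m + 3)) → ℝ}
    {q : EuclideanSpace ℝ (Fin (m + 3))}
    {X d f d01 d02 d0w h001 h002 h00w h012 h021 h11 h22 c : ℝ} {η : Fin m → ℝ}
    (J : Jet a w q X d f d01 d02 d0w h001 h002 h00w h012 h021 h11 h22 c η)
    (v : EuclideanSpace ℝ (Fin (m + 3))) :
    ∑ i, ∑ j, ricci (diagMetric a) q i j * v i * v j =
      ricci (diagMetric a) q 0 0 * v 0 ^ 2
      + 2 * ricci (diagMetric a) q 0 1 * (v 0 * v 1)
      + 2 * ricci (diagMetric a) q 0 2 * (v 0 * v 2)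
      + ricci (diagMetric a) q 1 1 * v 1 ^ 2
      + 2 * ricci (diagMetric a) q 1 2 * (v 1 * v 2)
      + ricci (diagMetric a) q 2 2 * v 2 ^ 2
      + ((m - 1) * (4 / c ^ 2)
          - Real.exp (2 * (w q - a 1 q)) * (-(1 / X ^ 2) + (m / X - 2 * d) * (1 / X))
          - Real.exp (2 * (w q - a 0 q)) *
            (h00w + ((1 + (d01 + (d02 + m * d0w))) - 2) * d0w))
        * ∑ k : Fin m, v k.succ.succ.succ ^ 2 := by
  have hk0 : ∀ k : Fin m, ricci (diagMetric a) q k.succ.succ.succ 0 = 0 := fun k => by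
    rw [ricci_diagMetric_symm J.c2, J.R0k]
  have hk1 : ∀ k : Fin m, ricci (diagMetric a) q k.succ.succ.succ 1 = 0 := fun k => by
    rw [ricci_diagMetric_symm J.c2, J.R1k]
  have hk2 : ∀ k : Fin m, ricci (diagMetric a) q k.succ.succ.succ 2 = 0 := fun k => by
    rw [ricci_diagMetric_symm J.c2, J.R2k]
  rw [sum3]
  simp_rw [sum3]
  simp_rw [J.R0k, J.R1k, J.R2k, hk0, hk1, hk2, J.Rkl]
  rw [ricci_diagMetric_symm J.c2 1 0, ricci_diagMetric_symm J.c2 2 0,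
    ricci_diagMetric_symm J.c2 2 1]
  simp only [zero_mul, Finset.sum_const_zero, add_zero, ite_mul, zero_add, Finset.sum_ite_eq,
    Finset.mem_univ, if_true]
  rw [Finset.mul_sum]
  have : ∀ A : ℝ, ∑ k : Fin m, A * v k.succ.succ.succ * v k.succ.succ.succ =
      ∑ k : Fin m, A * v k.succ.succ.succ ^ 2 := fun A =>
    Finset.sum_congr rfl fun k _ => by ring
  rw [this]
  ring

/-! ### Algebraic identities -/

theorem id_G11 {m : ℕ} {X p θ P1 P2 F1 F2 : ℝ} (hX : 0 < X) (hX1 : X < 1) (hp : 0 < p)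
    (hθ : 0 < θ) :
    ((1 + X ^ 2) / (1 - X ^ 2) ^ 2 - 1 / 2 * (P2 / p - (P1 / p) ^ 2))
      + m / X * (X / (1 - X ^ 2) - 1 / 2 * (P1 / p))
      - 2 * (X / (1 - X ^ 2) - 1 / 2 * (P1 / p)) ^ 2
      - 1 / (θ ^ 2 * p ^ 2 * (1 - X ^ 2) ^ 2) *
        (-(1 / 2 * (F2 / p - (F1 / p) ^ 2)) + 2 * (-(1 / 2 * (F1 / p))) ^ 2)
      = 1 / (p * (1 - X ^ 2)) * q11 m θ X p P1 P2 F1 F2 := by
  have h1 : 1 - X ^ 2 ≠ 0 := (one_sub_sq_pos' hX hX1).ne'
  unfold q11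
  field_simp
  ring

theorem id_Gw {m : ℕ} {X p P1 c : ℝ} (hX : 0 < X) (hp : 0 < p) (hc : c ≠ 0)
    (hX1 : X < 1) :
    (m - 1) * (4 / c ^ 2)
      - X ^ 2 * (4 / c ^ 2) * (p * (1 - X ^ 2)) *
        (-(1 / X ^ 2) + (m / X - 2 * (X / (1 - X ^ 2) - 1 / 2 * (P1 / p))) * (1 / X))
      = X ^ 2 * (4 / c ^ 2) * qw m X p P1 := by
  have h1 : 1 - X ^ 2 ≠ 0 := (one_sub_sq_pos' hX hX1).ne'
  unfold qw
  field_simp
  ring

/-! ### Logarithmic derivatives -/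

section logs

variable {s θ : ℝ → ℝ} {P : ℝ → ℝ → ℂ → ℝ} {t0 X0 X1 : ℝ}

theorem Fam.PP_pos (h : Fam s θ P t0 X0 X1) (t X φ : ℝ) : 0 < PP P t X φ := h.P_pos _ _ _

theorem Fam.dT_LL (h : Fam s θ P t0 X0 X1) (t X φ : ℝ) :
    dT (LL P) t X φ = dT (PP P) t X φ / PP P t X φ :=
  ((h.sm_PP.hT t X φ).log (h.PP_pos t X φ).ne').deriv

theorem Fam.dX_LL (h : Fam s θ P t0 X0 X1) (t X φ : ℝ) :
    dX (LL P) t X φ = dX (PP P) t X φ / PP P t X φ :=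
  ((h.sm_PP.hX t X φ).log (h.PP_pos t X φ).ne').deriv

theorem Fam.dF_LL (h : Fam s θ P t0 X0 X1) (t X φ : ℝ) :
    dF (LL P) t X φ = dF (PP P) t X φ / PP P t X φ :=
  ((h.sm_PP.hF t X φ).log (h.PP_pos t X φ).ne').deriv

theorem Fam.dTT_LL (h : Fam s θ P t0 X0 X1) (t X φ : ℝ) :
    dT (dT (LL P)) t X φ = dT (dT (PP P)) t X φ / PP P t X φ
      - (dT (PP P) t X φ / PP P t X φ) ^ 2 := by
  have e : (fun τ => dT (LL P) τ X φ) = fun τ => dT (PP P) τ X φ / PP P τ X φ :=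
    funext fun τ => h.dT_LL τ X φ
  have hp := (h.PP_pos t X φ).ne'
  have h1 := (h.sm_PP.dT.hT t X φ).div (h.sm_PP.hT t X φ) hp
  show deriv (fun τ => dT (LL P) τ X φ) t = _
  rw [e]
  refine Eq.trans h1.deriv ?_
  field_simp

theorem Fam.dXX_LL (h : Fam s θ P t0 X0 X1) (t X φ : ℝ) :
    dX (dX (LL P)) t X φ = dX (dX (PP P)) t X φ / PP P t X φ
      - (dX (PP P) t X φ / PP P t X φ) ^ 2 := by
  have e : (fun τ => dX (LL P) t τ φ) = fun τ => dX (PP P) t τ φ / PP P t τ φ :=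
    funext fun τ => h.dX_LL t τ φ
  have hp := (h.PP_pos t X φ).ne'
  have h1 := (h.sm_PP.dX.hX t X φ).div (h.sm_PP.hX t X φ) hp
  show deriv (fun τ => dX (LL P) t τ φ) X = _
  rw [e]
  refine Eq.trans h1.deriv ?_
  field_simp

theorem Fam.dFF_LL (h : Fam s θ P t0 X0 X1) (t X φ : ℝ) :
    dF (dF (LL P)) t X φ = dF (dF (PP P)) t X φ / PP P t X φ
      - (dF (PP P) t X φ / PP P t X φ) ^ 2 := by
  have e : (fun τ => dF (LL P) t X τ) = fun τ => dF (PP P) t X τ / PP P t X τ :=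
    funext fun τ => h.dF_LL t X τ
  have hp := (h.PP_pos t X φ).ne'
  have h1 := (h.sm_PP.dF.hF t X φ).div (h.sm_PP.hF t X φ) hp
  show deriv (fun τ => dF (LL P) t X τ) φ = _
  rw [e]
  refine Eq.trans h1.deriv ?_
  field_simp

theorem Fam.dXT_LL (h : Fam s θ P t0 X0 X1) (t X φ : ℝ) :
    dX (dT (LL P)) t X φ = dX (dT (PP P)) t X φ / PP P t X φ
      - dT (PP P) t X φ / PP P t X φ * (dX (PP P) t X φ / PP P t X φ) := by
  have e : (fun τ => dT (LL P) t τ φ) = fun τ => dT (PP P) t τ φ / PP P t τ φ :=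
    funext fun τ => h.dT_LL t τ φ
  have hp := (h.PP_pos t X φ).ne'
  have h1 := (h.sm_PP.dT.hX t X φ).div (h.sm_PP.hX t X φ) hp
  show deriv (fun τ => dT (LL P) t τ φ) X = _
  rw [e]
  refine Eq.trans h1.deriv ?_
  field_simp

theorem Fam.dFT_LL (h : Fam s θ P t0 X0 X1) (t X φ : ℝ) :
    dF (dT (LL P)) t X φ = dF (dT (PP P)) t X φ / PP P t X φ
      - dT (PP P) t X φ / PP P t X φ * (dF (PP P) t X φ / PP P t X φ) := by
  have e : (fun τ => dT (LL P) t X τ) = fun τ => dT (PP P) t X τ / PP P t X τ :=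
    funext fun τ => h.dT_LL t X τ
  have hp := (h.PP_pos t X φ).ne'
  have h1 := (h.sm_PP.dT.hF t X φ).div (h.sm_PP.hF t X φ) hp
  show deriv (fun τ => dT (LL P) t X τ) φ = _
  rw [e]
  refine Eq.trans h1.deriv ?_
  field_simp

theorem Fam.d_klog (h : Fam s θ P t0 X0 X1) (t : ℝ) : deriv (klog θ) t = deriv θ t / θ t :=
  ((hd h.smooth_θ t).log (h.θ_pos t).ne').deriv

theorem Fam.dd_klog (h : Fam s θ P t0 X0 X1) (t : ℝ) :
    deriv (deriv (klog θ)) t = deriv (deriv θ) t / θ t - (deriv θ t / θ t) ^ 2 := by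
  have e : deriv (klog θ) = fun τ => deriv θ τ / θ τ := funext fun τ => h.d_klog τ
  rw [e]
  have hp := (h.θ_pos t).ne'
  refine Eq.trans ((hd2 h.smooth_θ t).div (hd h.smooth_θ t) hp).deriv ?_
  field_simp

end logs

/-! ### The exponentials -/

theorem exp_aX {s θ : ℝ → ℝ} {P : ℝ → ℝ → ℂ → ℝ} {q : EuclideanSpace ℝ (Fin (m + 3))}
    (hq : q ∈ VV m) (hP : 0 < pp P q) (hθ : 0 < θ (q 0)) :
    Real.exp (2 * (aX s θ P q - q 0)) = lamSq m s θ (q 0) / (pp P q * (1 - q 1 ^ 2)) := by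
  have hX := one_sub_sq_pos hq
  have hm : (m : ℝ) + 2 ≠ 0 := by positivity
  have e : 2 * (aX s θ P q - q 0) = (-2 * s (q 0)
      + Real.log (θ (q 0)) * (-(2 : ℝ) / ((m : ℝ) + 2)))
      + -Real.log (pp P q) + -Real.log (1 - q 1 ^ 2) := by
    unfold aX; ring
  rw [e, Real.exp_add, Real.exp_add, Real.exp_neg, Real.exp_neg, Real.exp_log hP,
    Real.exp_log hX, Real.exp_add, lamSq, Real.rpow_def_of_pos hθ]
  field_simp

theorem exp_aphi {s θ : ℝ → ℝ} {P : ℝ → ℝ → ℂ → ℝ} {q : EuclideanSpace ℝ (Fin (m + 3))}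
    (hq : q ∈ VV m) (hP : 0 < pp P q) (hθ : 0 < θ (q 0)) :
    Real.exp (2 * (aphi s θ P q - q 0)) =
      lamSq m s θ (q 0) * θ (q 0) ^ 2 * (pp P q * (1 - q 1 ^ 2)) := by
  have hX := one_sub_sq_pos hq
  have hm : (m : ℝ) + 2 ≠ 0 := by positivity
  have e : 2 * (aphi s θ P q - q 0) = (-2 * s (q 0)
      + Real.log (θ (q 0)) * (-(2 : ℝ) / ((m : ℝ) + 2))) + (2 : ℕ) * Real.log (θ (q 0))
      + Real.log (pp P q) + Real.log (1 - q 1 ^ 2) := by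
    unfold aphi; push_cast; ring
  rw [e, Real.exp_add, Real.exp_add, Real.exp_add, Real.exp_nat_mul, Real.exp_log hP,
    Real.exp_log hX, Real.exp_log hθ, Real.exp_add, lamSq, Real.rpow_def_of_pos hθ]
  ring

theorem exp_aeta {s θ : ℝ → ℝ} {q : EuclideanSpace ℝ (Fin (m + 3))}
    (hq : q ∈ VV m) (hθ : 0 < θ (q 0)) :
    Real.exp (2 * (aeta s θ q - q 0)) =
      lamSq m s θ (q 0) * (q 1 ^ 2 * (4 / (1 + NN q) ^ 2)) := by
  have hN := NN_pos' q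
  have hm : (m : ℝ) + 2 ≠ 0 := by positivity
  have e : 2 * (aeta s θ q - q 0) = (-2 * s (q 0)
      + Real.log (θ (q 0)) * (-(2 : ℝ) / ((m : ℝ) + 2))) + (2 : ℕ) * Real.log (q 1)
      + (2 : ℕ) * Real.log 2 + -((2 : ℕ) * Real.log (1 + NN q)) := by
    unfold aeta; push_cast; ring
  rw [e, Real.exp_add, Real.exp_add, Real.exp_add, Real.exp_neg,
    Real.exp_nat_mul, Real.exp_nat_mul, Real.exp_nat_mul, Real.exp_add,
    Real.exp_log hN, Real.exp_log hq.1, Real.exp_log two_pos, lamSq, Real.rpow_def_of_pos hθ]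
  field_simp
  ring

theorem lamSq_pos {s θ : ℝ → ℝ} {t : ℝ} (hθ : 0 < θ t) : 0 < lamSq m s θ t :=
  mul_pos (Real.exp_pos _) (Real.rpow_pos_of_pos hθ _)

/-- **Closed form** of the Ricci quadratic form in the chart. -/
theorem Fam.ric_closed {s θ : ℝ → ℝ} {P : ℝ → ℝ → ℂ → ℝ} {t0 X0 X1 : ℝ}
    (h : Fam s θ P t0 X0 X1) {q : EuclideanSpace ℝ (Fin (m + 3))} (hq : q ∈ VV m)
    (v : EuclideanSpace ℝ (Fin (m + 3)))
    {t X φ p th lam s1 s2 k1 k2 Lt Ltt LtX Ltf LX Lf : ℝ}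
    (ht : t = q 0) (hX : X = q 1) (hφ : φ = q 2)
    (hp : p = PP P t X φ) (hth : th = θ t) (hlam : lam = lamSq m s θ t)
    (hs1 : s1 = deriv s t) (hs2 : s2 = deriv (deriv s) t)
    (hk1 : k1 = deriv (klog θ) t) (hk2 : k2 = deriv (deriv (klog θ)) t)
    (hLt : Lt = dT (LL P) t X φ) (hLtt : Ltt = dT (dT (LL P)) t X φ)
    (hLtX : LtX = dX (dT (LL P)) t X φ) (hLtf : Ltf = dF (dT (LL P)) t X φ)
    (hLX : LX = dX (LL P) t X φ) (hLf : Lf = dF (LL P) t X φ) :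
    ∑ i, ∑ j, ricci (diagMetric (aa s θ P)) q i j * v i * v j =
      ((m + 2) * (s2 + s1 - s1 ^ 2)
          - ((-k1 / (m + 2) - 1 / 2 * Lt) ^ 2 + ((1 - 1 / (m + 2)) * k1 + 1 / 2 * Lt) ^ 2
            + m * (-k1 / (m + 2)) ^ 2)) * v 0 ^ 2
      + 2 * (-(1 / 2 * LtX) - m / X * (1 / 2 * Lt) + (k1 + Lt) * (X / (1 - X ^ 2) - 1 / 2 * LX))
          * (v 0 * v 1)
      + 2 * (1 / 2 * Ltf - (k1 + Lt) * (1 / 2 * Lf)) * (v 0 * v 2)
      + (lam / (p * (1 - X ^ 2))) * (q11 m th X p (dX (PP P) t X φ) (dX (dX (PP P)) t X φ)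
          (dF (PP P) t X φ) (dF (dF (PP P)) t X φ) / lam
          - ((-s2 - k2 / (m + 2) - 1 / 2 * Ltt)
            + ((m + 1) - (m + 2) * s1) * (1 - s1 - k1 / (m + 2) - 1 / 2 * Lt))) * v 1 ^ 2
      + 2 * (th * q12 m th X p (dF (PP P) t X φ)) * (v 1 * v 2)
      + (lam * th ^ 2 * (p * (1 - X ^ 2))) * (q11 m th X p (dX (PP P) t X φ)
          (dX (dX (PP P)) t X φ) (dF (PP P) t X φ) (dF (dF (PP P)) t X φ) / lam
          - ((-s2 + (1 - 1 / (m + 2)) * k2 + 1 / 2 * Ltt)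
            + ((m + 1) - (m + 2) * s1) * (1 - s1 + (1 - 1 / (m + 2)) * k1 + 1 / 2 * Lt)))
          * v 2 ^ 2
      + (lam * (X ^ 2 * (4 / (1 + NN q) ^ 2))) * (qw m X p (dX (PP P) t X φ) / lam
          - ((-s2 - k2 / (m + 2))
            + ((m + 1) - (m + 2) * s1) * (1 - s1 - k1 / (m + 2))))
          * ∑ k : Fin m, v k.succ.succ.succ ^ 2 := by
  subst ht hX hφ
  have J := h.jet (m := m) hq
  rw [J.form v]
  have hppos : 0 < pp P q := h.P_pos _ _ _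
  have hθpos : 0 < θ (q 0) := h.θ_pos _
  have hpp : pp P q = p := by rw [hp]; rfl
  have hX1 := one_sub_sq_pos hq
  have hm : (m : ℝ) + 2 ≠ 0 := by positivity
  have hq1 : q 1 ≠ 0 := hq.1.ne'
  have hppos' : 0 < p := hpp ▸ hppos
  have hth' : 0 < th := hth ▸ hθpos
  have hlam' : 0 < lam := by rw [hlam]; exact lamSq_pos hθpos
  have hc0 : 1 + NN q ≠ 0 := (NN_pos' q).ne'
  rw [J.R00, J.R01, J.R02, J.R11, J.R12, J.R22, aa_one, aa_two, aa_zero]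
  have E1 := exp_aX (s := s) hq hppos hθpos
  have E2 := exp_aphi (s := s) hq hppos hθpos
  have Ew := exp_aeta (m := m) (s := s) hq hθpos
  have E12 : Real.exp (2 * (aX s θ P q - aphi s θ P q)) =
      1 / (th ^ 2 * p ^ 2 * (1 - q 1 ^ 2) ^ 2) := by
    have : 2 * (aX s θ P q - aphi s θ P q) =
      2 * (aX s θ P q - q 0) - 2 * (aphi s θ P q - q 0) := by ring
    rw [this, Real.exp_sub, E1, E2, hpp, ← hth, ← hlam]
    field_simp
  have E21 : Real.exp (2 * (aphi s θ P q - aX s θ P q)) =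
      th ^ 2 * p ^ 2 * (1 - q 1 ^ 2) ^ 2 := by
    have : 2 * (aphi s θ P q - aX s θ P q) =
      2 * (aphi s θ P q - q 0) - 2 * (aX s θ P q - q 0) := by ring
    rw [this, Real.exp_sub, E1, E2, hpp, ← hth, ← hlam]
    field_simp
  have Ew1 : Real.exp (2 * (aeta s θ q - aX s θ P q)) =
      q 1 ^ 2 * (4 / (1 + NN q) ^ 2) * (p * (1 - q 1 ^ 2)) := by
    have : 2 * (aeta s θ q - aX s θ P q) =
      2 * (aeta s θ q - q 0) - 2 * (aX s θ P q - q 0) := by ring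
    rw [this, Real.exp_sub, E1, Ew, hpp, ← hlam]
    field_simp
  rw [E1, E2, E12, E21, Ew, Ew1, hpp, ← hth, ← hlam, ← hs1, ← hs2, ← hk1, ← hk2, ← hLt, ← hLtt,
    ← hLtX, ← hLtf]
  have hLXX := h.dXX_LL (q 0) (q 1) (q 2)
  have hLff := h.dFF_LL (q 0) (q 1) (q 2)
  have hLX' := h.dX_LL (q 0) (q 1) (q 2)
  have hLf' := h.dF_LL (q 0) (q 1) (q 2)
  rw [← hp] at hLXX hLff hLX' hLf'
  rw [← hLX] at hLX'
  rw [← hLf] at hLf'
  rw [← hLX'] at hLXX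
  rw [← hLf'] at hLff
  rw [hLXX, hLff, ← hLX, ← hLf]
  have G11 := id_G11 (m := m) (X := q 1) (p := p) (θ := th) (P1 := dX (PP P) (q 0) (q 1) (q 2))
    (P2 := dX (dX (PP P)) (q 0) (q 1) (q 2)) (F1 := dF (PP P) (q 0) (q 1) (q 2))
    (F2 := dF (dF (PP P)) (q 0) (q 1) (q 2)) hq.1 hq.2 hppos' hth'
  have Gw := id_Gw (m := m) (X := q 1) (p := p) (P1 := dX (PP P) (q 0) (q 1) (q 2))
    (c := 1 + NN q) hq.1 hppos' hc0 hq.2
  have G12 : m / q 1 * (-(1 / 2 * Lf)) =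
      th * q12 m th (q 1) p (dF (PP P) (q 0) (q 1) (q 2)) := by
    rw [hLf']; unfold q12; field_simp
  rw [G12]
  rw [← hLX', ← hLf'] at G11
  rw [← hLX'] at Gw
  generalize q11 m th (q 1) p (dX (PP P) (q 0) (q 1) (q 2)) (dX (dX (PP P)) (q 0) (q 1) (q 2))
    (dF (PP P) (q 0) (q 1) (q 2)) (dF (dF (PP P)) (q 0) (q 1) (q 2)) = Q11 at *
  generalize qw m (q 1) p (dX (PP P) (q 0) (q 1) (q 2)) = Qw at *
  generalize q12 m th (q 1) p (dF (PP P) (q 0) (q 1) (q 2)) = Q12 at *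
  generalize (∑ k : Fin m, v k.succ.succ.succ ^ 2) = V at *
  clear J E1 E2 Ew E12 E21 Ew1 hLXX hLff hLX' hLf' hp hth hlam hs1 hs2 hk1 hk2 hLt hLtt hLtX hLtf
    hLX hLf
  generalize dX (PP P) (q 0) (q 1) (q 2) = P1 at *
  generalize dX (dX (PP P)) (q 0) (q 1) (q 2) = P2 at *
  generalize dF (PP P) (q 0) (q 1) (q 2) = F1 at *
  generalize dF (dF (PP P)) (q 0) (q 1) (q 2) = F2 at *
  generalize (1 + NN q) = cc at *
  have hu : 1 - q 1 ^ 2 ≠ 0 := hX1.ne'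
  generalize q 1 = X at *
  have hA : ∀ A B : ℝ, A - 1 / (th ^ 2 * p ^ 2 * (1 - X ^ 2) ^ 2) * B =
      1 / (p * (1 - X ^ 2)) * Q11 →
      th ^ 2 * p ^ 2 * (1 - X ^ 2) ^ 2 * A - B = lam * th ^ 2 * (p * (1 - X ^ 2)) * (Q11 / lam) := by
    intro A B hAB
    have : A = 1 / (p * (1 - X ^ 2)) * Q11 + 1 / (th ^ 2 * p ^ 2 * (1 - X ^ 2) ^ 2) * B := by
      linarith
    rw [this]; field_simp; ring
  have G22 := hA _ _ G11
  have F1' : 1 / (p * (1 - X ^ 2)) * Q11 = lam / (p * (1 - X ^ 2)) * (Q11 / lam) := by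
    field_simp
  have Fw : X ^ 2 * (4 / cc ^ 2) * Qw = lam * (X ^ 2 * (4 / cc ^ 2)) * (Qw / lam) := by
    field_simp
  rw [F1'] at G11
  rw [Fw] at Gw
  have H00 : (-((-s2 - k2 / ((m:ℝ) + 2) - 1 / 2 * Ltt)
        + (-s2 + (1 - 1 / ((m:ℝ) + 2)) * k2 + 1 / 2 * Ltt) + m * (-s2 - k2 / ((m:ℝ) + 2)))
      + (1 + ((1 - s1 - k1 / ((m:ℝ) + 2) - 1 / 2 * Lt)
        + ((1 - s1 + (1 - 1 / ((m:ℝ) + 2)) * k1 + 1 / 2 * Lt) + m * (1 - s1 - k1 / ((m:ℝ) + 2)))))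
      - (1 + (1 - s1 - k1 / ((m:ℝ) + 2) - 1 / 2 * Lt) ^ 2
        + (1 - s1 + (1 - 1 / ((m:ℝ) + 2)) * k1 + 1 / 2 * Lt) ^ 2
        + m * (1 - s1 - k1 / ((m:ℝ) + 2)) ^ 2))
      = ((m + 2) * (s2 + s1 - s1 ^ 2)
          - ((-k1 / (m + 2) - 1 / 2 * Lt) ^ 2 + ((1 - 1 / (m + 2)) * k1 + 1 / 2 * Lt) ^ 2
            + m * (-k1 / (m + 2)) ^ 2)) := by
    field_simp
    ring
  have HS : (1 + ((1 - s1 - k1 / ((m:ℝ) + 2) - 1 / 2 * Lt)
        + ((1 - s1 + (1 - 1 / ((m:ℝ) + 2)) * k1 + 1 / 2 * Lt) + m * (1 - s1 - k1 / ((m:ℝ) + 2))))) - 2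
      = (m + 1) - (m + 2) * s1 := by
    field_simp
    ring
  rw [H00, HS]
  linear_combination (v 1 ^ 2) * G11 + (v 2 ^ 2) * G22 + V * Gw

end

end Crest.Agent.R202.Geo
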