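import Mathlib
import Crest.Agent.R202.GeoRicA

/-!
Row 202, Part D: positivity of the Ricci quadratic form in the chart.
-/

set_option autoImplicit false

open scoped ContDiff Topology
open Crest.GeometryTopology.CoordMetric Crest.GeometryTopology.ChartCurvature

namespace Crest.Agent.R202.Geo

noncomputable section

variable {m : ℕ}

theorem two_mul_le_D {D : ℝ} (hD : 0 < D) (a b : ℝ) : 2 * a * b ≤ 4 / D * a ^ 2 + D / 4 * b ^ 2 := by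
  have h : 0 ≤ (2 * a - D * b / 2) ^ 2 / D := by positivity
  have e : (2 * a - D * b / 2) ^ 2 / D = 4 / D * a ^ 2 + D / 4 * b ^ 2 - 2 * a * b := by
    field_simp; ring
  linarith

theorem core_ineq {m : ℕ} {D B c s1 ρ R00 R01 R02 A C Aw T1 T2 Tw v0 v1 v2 V α1 α2 Ew N : ℝ}
    (hD : 0 < D) (hB : 0 ≤ B) (hc0 : 0 < c) (hc1 : c ≤ 1 / 8) (hc2 : B * c ≤ 1 / 4)
    (hc3 : 8 * B ^ 2 * c ≤ D / 4) (hc4 : 2 * B * c ≤ D / 4) (hc5 : c ≤ D / 2)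
    (hs1 : 0 ≤ s1) (hs1c : s1 ≤ c) (hρ : 0 ≤ ρ) (hρ2 : ρ ^ 2 ≤ c * s1)
    (hR00 : ((m : ℝ) + 2) * (s1 * (1 - 2 * c)) - B * ρ ^ 2 ≤ R00)
    (hR01 : |R01| ≤ B * ρ * α1) (hR02 : |R02| ≤ B * ρ * α2)
    (hA : N + D ≤ A - |C|) (hAw : N + D ≤ Aw ∨ V = 0)
    (hT1 : T1 ≤ N + B * (ρ + s1)) (hT2 : T2 ≤ N + B * (ρ + s1)) (hTw : Tw ≤ N + B * (ρ + s1))
    (hα1 : 0 ≤ α1) (hα2 : 0 ≤ α2) (hEw : 0 ≤ Ew) (hV : 0 ≤ V) :
    c * s1 * (v0 ^ 2 + α1 ^ 2 * v1 ^ 2 + α2 ^ 2 * v2 ^ 2 + Ew * V) ≤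
      R00 * v0 ^ 2 + 2 * R01 * (v0 * v1) + 2 * R02 * (v0 * v2)
        + α1 ^ 2 * (A - T1) * v1 ^ 2 + 2 * (C * (α1 * α2)) * (v1 * v2)
        + α2 ^ 2 * (A - T2) * v2 ^ 2 + Ew * (Aw - Tw) * V := by
  have hρc : ρ ≤ c := by
    by_contra hcon
    push Not at hcon
    have : c * c < ρ ^ 2 := by nlinarith
    nlinarith [mul_le_mul_of_nonneg_left hs1c hc0.le]
  have hs1' : s1 ≤ 1 := by linarith
  -- cross terms
  have x1 : ∀ (R w al : ℝ), 0 ≤ al → |R| ≤ B * ρ * al →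
      -(4 / D * (B * ρ) ^ 2 * v0 ^ 2 + D / 4 * (al ^ 2 * w ^ 2)) ≤ 2 * R * (v0 * w) := by
    intro R w al hal hR
    have h1 : |2 * R * (v0 * w)| ≤ 2 * (B * ρ * |v0|) * (al * |w|) := by
      rw [abs_mul, abs_mul, abs_mul, abs_two]
      calc 2 * |R| * (|v0| * |w|) ≤ 2 * (B * ρ * al) * (|v0| * |w|) := by gcongr
        _ = 2 * (B * ρ * |v0|) * (al * |w|) := by ring
    have h2 := two_mul_le_D hD (B * ρ * |v0|) (al * |w|)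
    have h3 := (abs_le.1 (h1.trans h2)).1
    have e : 4 / D * (B * ρ * |v0|) ^ 2 + D / 4 * (al * |w|) ^ 2 =
        4 / D * (B * ρ) ^ 2 * v0 ^ 2 + D / 4 * (al ^ 2 * w ^ 2) := by
      rw [mul_pow (B * ρ), mul_pow al, sq_abs, sq_abs]; ring
    rw [e] at h3; exact h3
  have c1 := x1 R01 v1 α1 hα1 hR01
  have c2 := x1 R02 v2 α2 hα2 hR02
  -- the `C` term
  have c3 : -(|C| * (α1 ^ 2 * v1 ^ 2 + α2 ^ 2 * v2 ^ 2)) ≤ 2 * (C * (α1 * α2)) * (v1 * v2) := by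
    have h1 : |2 * (C * (α1 * α2)) * (v1 * v2)| = |C| * (2 * (|α1 * v1| * |α2 * v2|)) := by
      rw [show 2 * (C * (α1 * α2)) * (v1 * v2) = C * (2 * ((α1 * v1) * (α2 * v2))) by ring,
        abs_mul, abs_mul, abs_mul, abs_two]
    have h2 : 2 * (|α1 * v1| * |α2 * v2|) ≤ α1 ^ 2 * v1 ^ 2 + α2 ^ 2 * v2 ^ 2 := by
      have := two_mul_le_add_sq (|α1 * v1|) (|α2 * v2|)
      rw [sq_abs, sq_abs, mul_pow, mul_pow] at this
      linarith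
    have h3 : |2 * (C * (α1 * α2)) * (v1 * v2)| ≤ |C| * (α1 ^ 2 * v1 ^ 2 + α2 ^ 2 * v2 ^ 2) := by
      rw [h1]; exact mul_le_mul_of_nonneg_left h2 (abs_nonneg _)
    exact (abs_le.1 h3).1
  -- coefficient of `v0²`
  have hBρ : B * ρ ^ 2 ≤ s1 / 4 := by
    calc B * ρ ^ 2 ≤ B * (c * s1) := mul_le_mul_of_nonneg_left hρ2 hB
      _ = B * c * s1 := by ring
      _ ≤ 1 / 4 * s1 := mul_le_mul_of_nonneg_right hc2 hs1
      _ = s1 / 4 := by ring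
  have hBρ2 : 2 * (4 / D * (B * ρ) ^ 2) ≤ s1 / 4 := by
    have : 2 * (4 / D * (B * ρ) ^ 2) = 8 * B ^ 2 * ρ ^ 2 / D := by ring
    rw [this, div_le_iff₀ hD]
    calc 8 * B ^ 2 * ρ ^ 2 ≤ 8 * B ^ 2 * (c * s1) := by gcongr
      _ = (8 * B ^ 2 * c) * s1 := by ring
      _ ≤ D / 4 * s1 := mul_le_mul_of_nonneg_right hc3 hs1
      _ = s1 / 4 * D := by ring
  have hm2 : (2 : ℝ) ≤ (m : ℝ) + 2 := by
    have : (0 : ℝ) ≤ m := Nat.cast_nonneg m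
    linarith
  have hv0 : c * s1 ≤ R00 - 2 * (4 / D * (B * ρ) ^ 2) := by
    have h1 : 2 * (s1 * (1 - 2 * c)) ≤ ((m : ℝ) + 2) * (s1 * (1 - 2 * c)) :=
      mul_le_mul_of_nonneg_right hm2 (mul_nonneg hs1 (by linarith))
    have h2 : s1 * (3 / 4) ≤ s1 * (1 - 2 * c) := mul_le_mul_of_nonneg_left (by linarith) hs1
    have h3 : c * s1 ≤ 1 * s1 := mul_le_mul_of_nonneg_right (by linarith) hs1
    linarith
  -- tangential coefficients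
  have hBs : B * (ρ + s1) ≤ D / 4 := by
    calc B * (ρ + s1) ≤ B * (c + c) := mul_le_mul_of_nonneg_left (by linarith) hB
      _ = 2 * B * c := by ring
      _ ≤ D / 4 := hc4
  have hcs : c * s1 ≤ D / 2 := by
    calc c * s1 ≤ c * 1 := mul_le_mul_of_nonneg_left hs1' hc0.le
      _ ≤ D / 2 := by linarith
  have t1 : c * s1 ≤ A - |C| - T1 - D / 4 := by linarith
  have t2 : c * s1 ≤ A - |C| - T2 - D / 4 := by linarith
  have tw : c * s1 * (Ew * V) ≤ Ew * (Aw - Tw) * V := by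
    rcases hAw with h | h
    · have : c * s1 ≤ Aw - Tw := by linarith
      calc c * s1 * (Ew * V) ≤ (Aw - Tw) * (Ew * V) :=
            mul_le_mul_of_nonneg_right this (mul_nonneg hEw hV)
        _ = Ew * (Aw - Tw) * V := by ring
    · rw [h]; simp
  have m0 := mul_le_mul_of_nonneg_right hv0 (sq_nonneg v0)
  have m1 := mul_le_mul_of_nonneg_right t1 (mul_nonneg (sq_nonneg α1) (sq_nonneg v1))
  have m2 := mul_le_mul_of_nonneg_right t2 (mul_nonneg (sq_nonneg α2) (sq_nonneg v2))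
  linarith

/-! ### Estimates of the coefficients -/

theorem est_T {m : ℕ} {K ρ s1 s2 k2 L2 k β c : ℝ} (hK : 1 ≤ K) (hρ : 0 ≤ ρ)
    (hs1 : 0 ≤ s1) (hs1' : s1 ≤ 1) (hs2 : |s2| ≤ s1) (hk2 : |k2| ≤ 2 * K ^ 2 * ρ)
    (hL2 : |L2| ≤ 2 * K ^ 2 * ρ) (hk : |k| ≤ 1) (hc : |c| ≤ 1) (hβ : |β| ≤ 2 * K * ρ) :
    (-s2 + k * k2 + c * L2) + (((m : ℝ) + 1) - (m + 2) * s1) * (1 - s1 + β) ≤
      ((m : ℝ) + 1) + (1 + 4 * K ^ 2 + 2 * (m + 1) * K) * (ρ + s1) := by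
  have hm : (0 : ℝ) ≤ m := Nat.cast_nonneg m
  have h1 : -s2 ≤ s1 := by linarith [(abs_le.1 hs2).1]
  have h2 : k * k2 ≤ 2 * K ^ 2 * ρ := by
    calc k * k2 ≤ |k * k2| := le_abs_self _
      _ = |k| * |k2| := abs_mul _ _
      _ ≤ 1 * (2 * K ^ 2 * ρ) := mul_le_mul hk hk2 (abs_nonneg _) zero_le_one
      _ = 2 * K ^ 2 * ρ := one_mul _
  have h3 : c * L2 ≤ 2 * K ^ 2 * ρ := by
    calc c * L2 ≤ |c * L2| := le_abs_self _
      _ = |c| * |L2| := abs_mul _ _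
      _ ≤ 1 * (2 * K ^ 2 * ρ) := mul_le_mul hc hL2 (abs_nonneg _) zero_le_one
      _ = 2 * K ^ 2 * ρ := one_mul _
  have hms : 0 ≤ ((m : ℝ) + 2) * s1 := mul_nonneg (by linarith) hs1
  have hms' : ((m : ℝ) + 2) * s1 ≤ (m + 2) * 1 := mul_le_mul_of_nonneg_left hs1' (by linarith)
  have hu1 : ((m : ℝ) + 1) - (m + 2) * s1 ≤ m + 1 := by linarith
  have hu2 : -((m : ℝ) + 1) ≤ ((m : ℝ) + 1) - (m + 2) * s1 := by linarith
  have hu : |((m : ℝ) + 1) - (m + 2) * s1| ≤ m + 1 := abs_le.2 ⟨hu2, hu1⟩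
  have h4 : (((m : ℝ) + 1) - (m + 2) * s1) * (1 - s1) ≤ m + 1 := by
    calc (((m : ℝ) + 1) - (m + 2) * s1) * (1 - s1) ≤ (m + 1) * (1 - s1) :=
          mul_le_mul_of_nonneg_right hu1 (by linarith)
      _ ≤ (m + 1) * 1 := mul_le_mul_of_nonneg_left (by linarith) (by linarith)
      _ = m + 1 := mul_one _
  have h5 : (((m : ℝ) + 1) - (m + 2) * s1) * β ≤ (m + 1) * (2 * K * ρ) := by
    calc (((m : ℝ) + 1) - (m + 2) * s1) * β ≤ |(((m : ℝ) + 1) - (m + 2) * s1) * β| := le_abs_self _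
      _ = |((m : ℝ) + 1) - (m + 2) * s1| * |β| := abs_mul _ _
      _ ≤ (m + 1) * (2 * K * ρ) := mul_le_mul hu hβ (abs_nonneg _) (by linarith)
  have e : (((m : ℝ) + 1) - (m + 2) * s1) * (1 - s1 + β) =
    (((m : ℝ) + 1) - (m + 2) * s1) * (1 - s1) + (((m : ℝ) + 1) - (m + 2) * s1) * β := by ring
  rw [e]
  have h6 : 0 ≤ (4 * K ^ 2 + 2 * (m + 1) * K) * s1 := by positivity
  linarith

theorem est_div {K p a b : ℝ} (hK0 : 0 < K) (hp : K⁻¹ ≤ p) (hab : |a| ≤ b) (hb : 0 ≤ b) :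
    |a / p| ≤ b * K := by
  have hKi : 0 < K⁻¹ := inv_pos.2 hK0
  have hp0 : 0 < p := hKi.trans_le hp
  have hpi : 1 / p ≤ K := by
    rw [div_le_iff₀ hp0]
    calc (1 : ℝ) = K * K⁻¹ := (mul_inv_cancel₀ hK0.ne').symm
      _ ≤ K * p := mul_le_mul_of_nonneg_left hp hK0.le
  rw [abs_div, abs_of_pos hp0, div_eq_mul_one_div]
  exact mul_le_mul hab hpi (by positivity) hb

theorem est_sq {K ρ a : ℝ} (hρ : 0 ≤ ρ) (hρ1 : ρ ≤ 1) (ha : |a| ≤ ρ * K) :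
    |a ^ 2| ≤ K ^ 2 * ρ := by
  rw [abs_pow]
  calc |a| ^ 2 ≤ (ρ * K) ^ 2 := pow_le_pow_left₀ (abs_nonneg _) ha 2
    _ = K ^ 2 * (ρ * ρ) := by ring
    _ ≤ K ^ 2 * (ρ * 1) := by gcongr
    _ = K ^ 2 * ρ := by ring

theorem est_second {K ρ p a b : ℝ} (hK : 1 ≤ K) (hp : K⁻¹ ≤ p) (hρ : 0 ≤ ρ) (hρ1 : ρ ≤ 1)
    (ha : |a| ≤ ρ) (hb : |b| ≤ ρ) : |a / p - (b / p) ^ 2| ≤ 2 * K ^ 2 * ρ := by
  have hK0 : 0 < K := by linarith
  have hKK : K ≤ K ^ 2 := by nlinarith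
  calc |a / p - (b / p) ^ 2| ≤ |a / p| + |(b / p) ^ 2| := abs_sub _ _
    _ ≤ ρ * K + K ^ 2 * ρ := add_le_add (est_div hK0 hp ha hρ) (est_sq hρ hρ1 (est_div hK0 hp hb hρ))
    _ ≤ ρ * K ^ 2 + K ^ 2 * ρ := by gcongr
    _ = 2 * K ^ 2 * ρ := by ring

theorem est_mixed {K ρ p a b c : ℝ} (hK : 1 ≤ K) (hp : K⁻¹ ≤ p) (hρ : 0 ≤ ρ)
    (ha : |a| ≤ ρ) (hb : |b| ≤ ρ) (hc : |c| ≤ K) :
    |a / p - b / p * (c / p)| ≤ 2 * K ^ 3 * ρ := by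
  have hK0 : 0 < K := by linarith
  have hK1 : 1 ≤ K ^ 2 := by nlinarith
  have hK23 : K ≤ K ^ 3 := by
    calc K = K * 1 := (mul_one K).symm
      _ ≤ K * K ^ 2 := mul_le_mul_of_nonneg_left hK1 hK0.le
      _ = K ^ 3 := by ring
  have h1 := est_div hK0 hp ha hρ
  have h2 := est_div hK0 hp hb hρ
  have h3 := est_div hK0 hp hc hK0.le
  calc |a / p - b / p * (c / p)| ≤ |a / p| + |b / p * (c / p)| := abs_sub _ _
    _ = |a / p| + |b / p| * |c / p| := by rw [abs_mul (b / p)]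
    _ ≤ ρ * K + (ρ * K) * (K * K) :=
        add_le_add h1 (mul_le_mul h2 h3 (abs_nonneg _) (mul_nonneg hρ hK0.le))
    _ ≤ ρ * K ^ 3 + (ρ * K) * (K * K) := by
        have := mul_le_mul_of_nonneg_left hK23 hρ
        linarith
    _ = 2 * K ^ 3 * ρ := by ring

/-- The three `β`. -/
theorem est_beta (m : ℕ) {K ρ k1 Lt : ℝ} (hK0 : 0 < K) (hρ : 0 ≤ ρ)
    (q1 : |k1| ≤ ρ * K) (q2 : |Lt| ≤ ρ * K) :
    |-k1 / ((m : ℝ) + 2) - 1 / 2 * Lt| ≤ 3 / 2 * K * ρ ∧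
    |(1 - 1 / ((m : ℝ) + 2)) * k1 + 1 / 2 * Lt| ≤ 3 / 2 * K * ρ ∧
    |-k1 / ((m : ℝ) + 2)| ≤ K * ρ := by
  have hm : (0 : ℝ) ≤ m := Nat.cast_nonneg m
  have hm2 : 0 < (m : ℝ) + 2 := by linarith
  have hmi : 1 / ((m : ℝ) + 2) ≤ 1 := by rw [div_le_one hm2]; linarith
  have hmi0 : 0 ≤ 1 / ((m : ℝ) + 2) := by positivity
  have hKρ : 0 ≤ ρ * K := mul_nonneg hρ hK0.le
  have hw : |-k1 / ((m : ℝ) + 2)| ≤ ρ * K := by
    calc |-k1 / ((m : ℝ) + 2)| = |k1| * (1 / ((m : ℝ) + 2)) := by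
          rw [abs_div, abs_neg, abs_of_pos hm2]; ring
      _ ≤ (ρ * K) * 1 := mul_le_mul q1 hmi hmi0 hKρ
      _ = ρ * K := mul_one _
  have hL : |1 / 2 * Lt| ≤ 1 / 2 * (ρ * K) := by
    rw [abs_mul, abs_of_pos (by norm_num : (0:ℝ) < 1 / 2)]
    linarith
  refine ⟨?_, ?_, by linarith⟩
  · have := abs_sub (-k1 / ((m : ℝ) + 2)) (1 / 2 * Lt)
    linarith
  · have h0 : |1 - 1 / ((m : ℝ) + 2)| ≤ 1 := by rw [abs_le]; constructor <;> linarith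
    have h1 : |(1 - 1 / ((m : ℝ) + 2)) * k1| ≤ ρ * K := by
      rw [abs_mul]
      calc _ ≤ 1 * (ρ * K) := mul_le_mul h0 q1 (abs_nonneg _) zero_le_one
        _ = ρ * K := one_mul _
    have := abs_add_le ((1 - 1 / ((m : ℝ) + 2)) * k1) (1 / 2 * Lt)
    linarith

theorem est_R00 (m : ℕ) {K ρ k1 Lt : ℝ} (hK0 : 0 < K) (hρ : 0 ≤ ρ)
    (q1 : |k1| ≤ ρ * K) (q2 : |Lt| ≤ ρ * K) :
    (-k1 / ((m : ℝ) + 2) - 1 / 2 * Lt) ^ 2 + ((1 - 1 / ((m : ℝ) + 2)) * k1 + 1 / 2 * Lt) ^ 2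
            + m * (-k1 / ((m : ℝ) + 2)) ^ 2 ≤ ((5 + m) * K ^ 2) * ρ ^ 2 := by
  obtain ⟨b1, b2, bw⟩ := est_beta m hK0 hρ q1 q2
  have hm : (0 : ℝ) ≤ m := Nat.cast_nonneg m
  have s1' : (-k1 / ((m : ℝ) + 2) - 1 / 2 * Lt) ^ 2 ≤ (3 / 2 * K * ρ) ^ 2 := by
    rw [← sq_abs]; exact pow_le_pow_left₀ (abs_nonneg _) b1 2
  have s2' : ((1 - 1 / ((m : ℝ) + 2)) * k1 + 1 / 2 * Lt) ^ 2 ≤ (3 / 2 * K * ρ) ^ 2 := by
    rw [← sq_abs]; exact pow_le_pow_left₀ (abs_nonneg _) b2 2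
  have s3' : (m : ℝ) * (-k1 / ((m : ℝ) + 2)) ^ 2 ≤ m * (K * ρ) ^ 2 := by
    refine mul_le_mul_of_nonneg_left ?_ hm
    rw [← sq_abs]; exact pow_le_pow_left₀ (abs_nonneg _) bw 2
  have e : (3 / 2 * K * ρ) ^ 2 + (3 / 2 * K * ρ) ^ 2 + m * (K * ρ) ^ 2 =
    ((9 / 2 + m) * K ^ 2) * ρ ^ 2 := by ring
  have e2 : 0 ≤ K ^ 2 * ρ ^ 2 := by positivity
  nlinarith

theorem est_R01 (m : ℕ) {K X0 X1 X p lam ρ α1 k1 Lt LtX LX : ℝ} (hK : 1 ≤ K) (hX0 : 0 < X0)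
    (hX1' : 0 < 1 - X1 ^ 2) (hX : 0 < X) (hX' : X < 1)
    (hp0 : 0 < p) (hp' : p ≤ K) (hlam : Real.exp (-K) ^ 2 ≤ lam)
    (hρ : 0 ≤ ρ) (q2 : |Lt| ≤ ρ * K) (kL : |k1 + Lt| ≤ 2 * K * ρ) (q5 : |LX| ≤ K ^ 2)
    (q7 : |LtX| ≤ 2 * K ^ 3 * ρ)
    (hlow : X ≤ X0 → Lt = 0) (hhigh : X1 ≤ X → k1 + Lt = 0)
    (hα1 : 0 < α1) (hα1' : α1 ^ 2 = lam / (p * (1 - X ^ 2))) :
    |-(1 / 2 * LtX) - m / X * (1 / 2 * Lt) + (k1 + Lt) * (X / (1 - X ^ 2) - 1 / 2 * LX)|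
        ≤ ((K ^ 3 + m / X0 * K + 2 * K * (1 / (1 - X1 ^ 2) + K ^ 2)) * (K * Real.exp K)) * ρ * α1 := by
  have hm : (0 : ℝ) ≤ m := Nat.cast_nonneg m
  have hK0 : 0 < K := by linarith
  have hXX := one_sub_sq_pos' hX hX'
  have r1 : |-(1 / 2 * LtX)| ≤ K ^ 3 * ρ := by
    rw [abs_neg, abs_mul, abs_of_pos (by norm_num : (0:ℝ) < 1 / 2)]; linarith
  have r2 : |m / X * (1 / 2 * Lt)| ≤ m / X0 * K * ρ := by
    rcases le_or_gt X X0 with hx | hx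
    · rw [hlow hx]; simp; positivity
    · have g1 : (m : ℝ) / X ≤ m / X0 := div_le_div_of_nonneg_left hm hX0 hx.le
      have g2 : |1 / 2 * Lt| ≤ ρ * K := by
        rw [abs_mul, abs_of_pos (by norm_num : (0:ℝ) < 1 / 2)]
        have := abs_nonneg Lt
        linarith
      rw [abs_mul, abs_of_nonneg (by positivity : 0 ≤ (m:ℝ) / X)]
      calc (m : ℝ) / X * |1 / 2 * Lt| ≤ (m : ℝ) / X0 * (ρ * K) :=
            mul_le_mul g1 g2 (abs_nonneg _) (by positivity)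
        _ = m / X0 * K * ρ := by ring
  have r3 : |(k1 + Lt) * (X / (1 - X ^ 2) - 1 / 2 * LX)| ≤
      2 * K * (1 / (1 - X1 ^ 2) + K ^ 2) * ρ := by
    rcases le_or_gt X1 X with hx | hx
    · rw [hhigh hx]; simp; positivity
    · rcases le_or_gt 0 X1 with h0 | h0
      · have hxx : 1 - X1 ^ 2 ≤ 1 - X ^ 2 := by nlinarith
        have g1 : |X / (1 - X ^ 2)| ≤ 1 / (1 - X1 ^ 2) := by
          rw [abs_of_nonneg (by positivity)]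
          exact div_le_div₀ zero_le_one hX'.le hX1' hxx
        have g2 : |X / (1 - X ^ 2) - 1 / 2 * LX| ≤ 1 / (1 - X1 ^ 2) + K ^ 2 := by
          have g3 : |1 / 2 * LX| ≤ K ^ 2 := by
            rw [abs_mul, abs_of_pos (by norm_num : (0:ℝ) < 1 / 2)]
            have := abs_nonneg LX
            linarith
          have := abs_sub (X / (1 - X ^ 2)) (1 / 2 * LX)
          linarith
        rw [abs_mul]
        calc |k1 + Lt| * |X / (1 - X ^ 2) - 1 / 2 * LX|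
            ≤ (2 * K * ρ) * (1 / (1 - X1 ^ 2) + K ^ 2) :=
              mul_le_mul kL g2 (abs_nonneg _) (by positivity)
          _ = 2 * K * (1 / (1 - X1 ^ 2) + K ^ 2) * ρ := by ring
      · exact absurd (hX.trans hx) (not_lt.2 h0.le)
  have ha : 1 ≤ (K * Real.exp K) * α1 := by
    have h1 : (Real.exp (-K) / K) ^ 2 ≤ α1 ^ 2 := by
      rw [hα1', div_pow, div_le_div_iff₀ (by positivity) (by positivity)]
      have hpx : p * (1 - X ^ 2) ≤ K := by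
        calc p * (1 - X ^ 2) ≤ p * 1 :=
              mul_le_mul_of_nonneg_left (by nlinarith [sq_nonneg X]) hp0.le
          _ ≤ K := by linarith
      have hlam0 : 0 ≤ lam := (sq_nonneg _).trans hlam
      have hKK : K ≤ K ^ 2 := by nlinarith
      calc Real.exp (-K) ^ 2 * (p * (1 - X ^ 2)) ≤ lam * K :=
            mul_le_mul hlam hpx (by positivity) hlam0
        _ ≤ lam * K ^ 2 := mul_le_mul_of_nonneg_left hKK hlam0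
    have h2 : Real.exp (-K) / K ≤ α1 :=
      (pow_le_pow_iff_left₀ (by positivity) hα1.le two_ne_zero).1 h1
    calc (1 : ℝ) = (K * Real.exp K) * (Real.exp (-K) / K) := by
          rw [Real.exp_neg]; field_simp
      _ ≤ (K * Real.exp K) * α1 := mul_le_mul_of_nonneg_left h2 (by positivity)
  have hsum : |-(1 / 2 * LtX) - m / X * (1 / 2 * Lt) + (k1 + Lt) * (X / (1 - X ^ 2) - 1 / 2 * LX)|
      ≤ (K ^ 3 + m / X0 * K + 2 * K * (1 / (1 - X1 ^ 2) + K ^ 2)) * ρ := by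
    have z1 := abs_add_le (-(1 / 2 * LtX) - m / X * (1 / 2 * Lt))
      ((k1 + Lt) * (X / (1 - X ^ 2) - 1 / 2 * LX))
    have z2 := abs_sub (-(1 / 2 * LtX)) (m / X * (1 / 2 * Lt))
    have z3 : (K ^ 3 + m / X0 * K + 2 * K * (1 / (1 - X1 ^ 2) + K ^ 2)) * ρ =
      K ^ 3 * ρ + m / X0 * K * ρ + 2 * K * (1 / (1 - X1 ^ 2) + K ^ 2) * ρ := by ring
    rw [z3]; linarith
  have hQ0 : 0 ≤ (K ^ 3 + m / X0 * K + 2 * K * (1 / (1 - X1 ^ 2) + K ^ 2)) * ρ := by positivity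
  calc _ ≤ (K ^ 3 + m / X0 * K + 2 * K * (1 / (1 - X1 ^ 2) + K ^ 2)) * ρ := hsum
    _ = (K ^ 3 + m / X0 * K + 2 * K * (1 / (1 - X1 ^ 2) + K ^ 2)) * ρ * 1 := (mul_one _).symm
    _ ≤ (K ^ 3 + m / X0 * K + 2 * K * (1 / (1 - X1 ^ 2) + K ^ 2)) * ρ * ((K * Real.exp K) * α1) :=
        mul_le_mul_of_nonneg_left ha hQ0
    _ = _ := by ring

theorem est_R02 {K X0 X1 X p th lam ρ α2 k1 Lt Ltf Lf : ℝ} (hK : 1 ≤ K) (hX0 : 0 < X0)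
    (hX01 : X0 < X1)
    (hX1' : 0 < 1 - X1 ^ 2) (hX : 0 < X) (hX' : X < 1) (hth : K⁻¹ ≤ th) (hp : K⁻¹ ≤ p)
    (hlam : Real.exp (-K) ^ 2 ≤ lam)
    (hρ : 0 ≤ ρ) (kL : |k1 + Lt| ≤ 2 * K * ρ) (q6 : |Lf| ≤ K ^ 2)
    (q8 : |Ltf| ≤ 2 * K ^ 3 * ρ)
    (hhigh1 : X1 ≤ X → Ltf = 0) (hhigh2 : X1 ≤ X → Lf = 0)
    (hα2 : 0 < α2) (hα2' : α2 ^ 2 = lam * th ^ 2 * (p * (1 - X ^ 2))) :
    |1 / 2 * Ltf - (k1 + Lt) * (1 / 2 * Lf)|
      ≤ (2 * K ^ 3 * (K ^ 2 * Real.exp K / (1 - X1 ^ 2))) * ρ * α2 := by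
  have hK0 : 0 < K := by linarith
  have hKi : 0 < K⁻¹ := inv_pos.2 hK0
  have hth0 : 0 < th := hKi.trans_le hth
  have hp0 : 0 < p := hKi.trans_le hp
  have hXX := one_sub_sq_pos' hX hX'
  rcases le_or_gt X1 X with hx | hx
  · rw [hhigh1 hx, hhigh2 hx]; simp; positivity
  · have hxx : 1 - X1 ^ 2 ≤ 1 - X ^ 2 := by nlinarith
    have ha : 1 ≤ (K ^ 2 * Real.exp K / (1 - X1 ^ 2)) * α2 := by
      have h1 : (Real.exp (-K) * (1 - X1 ^ 2) / K ^ 2) ^ 2 ≤ α2 ^ 2 := by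
        rw [hα2']
        have hthK : (K⁻¹) ^ 2 ≤ th ^ 2 := pow_le_pow_left₀ hKi.le hth 2
        have hy : (1 - X1 ^ 2) ^ 2 ≤ 1 - X ^ 2 := by
          have h1 : 1 - X1 ^ 2 ≤ 1 := by nlinarith [sq_nonneg X1]
          nlinarith
        have hKK' : (K⁻¹) ^ 2 ≤ p := by
          calc (K⁻¹) ^ 2 = K⁻¹ * K⁻¹ := sq _
            _ ≤ K⁻¹ * 1 := mul_le_mul_of_nonneg_left (inv_le_one_of_one_le₀ hK) hKi.le
            _ ≤ p := by linarith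
        have hlam0 : 0 ≤ lam := (sq_nonneg _).trans hlam
        calc (Real.exp (-K) * (1 - X1 ^ 2) / K ^ 2) ^ 2
            = Real.exp (-K) ^ 2 * (K⁻¹) ^ 2 * ((K⁻¹) ^ 2 * (1 - X1 ^ 2) ^ 2) := by
              field_simp
          _ ≤ (lam * th ^ 2) * (p * (1 - X ^ 2)) := by
              refine mul_le_mul (mul_le_mul hlam hthK (by positivity) hlam0)
                (mul_le_mul hKK' hy (by positivity) hp0.le) (by positivity) (by positivity)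
      have h2 : Real.exp (-K) * (1 - X1 ^ 2) / K ^ 2 ≤ α2 :=
        (pow_le_pow_iff_left₀ (by positivity) hα2.le two_ne_zero).1 h1
      calc (1 : ℝ) = (K ^ 2 * Real.exp K / (1 - X1 ^ 2)) *
            (Real.exp (-K) * (1 - X1 ^ 2) / K ^ 2) := by
            rw [Real.exp_neg]; field_simp
        _ ≤ (K ^ 2 * Real.exp K / (1 - X1 ^ 2)) * α2 := mul_le_mul_of_nonneg_left h2 (by positivity)
    have hsum : |1 / 2 * Ltf - (k1 + Lt) * (1 / 2 * Lf)| ≤ 2 * K ^ 3 * ρ := by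
      have g1 : |1 / 2 * Ltf| ≤ K ^ 3 * ρ := by
        rw [abs_mul, abs_of_pos (by norm_num : (0:ℝ) < 1 / 2)]; linarith
      have g2 : |(k1 + Lt) * (1 / 2 * Lf)| ≤ K ^ 3 * ρ := by
        rw [abs_mul, abs_mul (1 / 2), abs_of_pos (by norm_num : (0:ℝ) < 1 / 2)]
        calc |k1 + Lt| * (1 / 2 * |Lf|) ≤ (2 * K * ρ) * (1 / 2 * K ^ 2) :=
              mul_le_mul kL (by linarith) (by positivity) (by positivity)
          _ = K ^ 3 * ρ := by ring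
      have := abs_sub (1 / 2 * Ltf) ((k1 + Lt) * (1 / 2 * Lf))
      linarith
    calc _ ≤ 2 * K ^ 3 * ρ := hsum
      _ = 2 * K ^ 3 * ρ * 1 := (mul_one _).symm
      _ ≤ 2 * K ^ 3 * ρ * ((K ^ 2 * Real.exp K / (1 - X1 ^ 2)) * α2) :=
          mul_le_mul_of_nonneg_left ha (by positivity)
      _ = _ := by ring

/-- The constant. -/
def BB (m : ℕ) (K X0 X1 : ℝ) : ℝ :=
  (1 + 4 * K ^ 2 + 2 * (m + 1) * K) + (5 + m) * K ^ 2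
    + (K ^ 3 + m / X0 * K + 2 * K * (1 / (1 - X1 ^ 2) + K ^ 2)) * (K * Real.exp K)
    + 2 * K ^ 3 * (K ^ 2 * Real.exp K / (1 - X1 ^ 2))

theorem BB_parts (m : ℕ) {K X0 X1 : ℝ} (hK : 1 ≤ K) (hX0 : 0 < X0) (hX1' : 0 < 1 - X1 ^ 2) :
    (1 + 4 * K ^ 2 + 2 * (m + 1) * K) ≤ BB m K X0 X1 ∧ (5 + m) * K ^ 2 ≤ BB m K X0 X1 ∧
    (K ^ 3 + m / X0 * K + 2 * K * (1 / (1 - X1 ^ 2) + K ^ 2)) * (K * Real.exp K) ≤ BB m K X0 X1 ∧
    2 * K ^ 3 * (K ^ 2 * Real.exp K / (1 - X1 ^ 2)) ≤ BB m K X0 X1 ∧ 0 ≤ BB m K X0 X1 := by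
  have hm : (0 : ℝ) ≤ m := Nat.cast_nonneg m
  have hK0 : 0 < K := by linarith
  have h1 : 0 ≤ (1 + 4 * K ^ 2 + 2 * (m + 1) * K) := by positivity
  have h2 : 0 ≤ (5 + m) * K ^ 2 := by positivity
  have h3 : 0 ≤ (K ^ 3 + m / X0 * K + 2 * K * (1 / (1 - X1 ^ 2) + K ^ 2)) * (K * Real.exp K) := by
    positivity
  have h4 : 0 ≤ 2 * K ^ 3 * (K ^ 2 * Real.exp K / (1 - X1 ^ 2)) := by positivity
  unfold BB
  refine ⟨by linarith, by linarith, by linarith, by linarith, by linarith⟩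

end

end Crest.Agent.R202.Geo
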