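import Mathlib
import Crest.Agent.R202.GeoRicB
import Crest.Agent.R202.GeoPolEst

/-!
Row 202, Part D: the polar estimate `PolEst`.
-/

set_option autoImplicit false

open scoped ContDiff Topology
open Crest.GeometryTopology.CoordMetric Crest.GeometryTopology.ChartCurvature

namespace Crest.Agent.R202.Geo

noncomputable section

variable {m : ℕ}

section facts

variable {s θ : ℝ → ℝ} {P : ℝ → ℝ → ℂ → ℝ} {t0 X0 X1 : ℝ}

theorem Fam.PP_low (h : Fam s θ P t0 X0 X1) (t : ℝ) {X : ℝ} (φ : ℝ) (hX : X ≤ X0) :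
    PP P t X φ = 1 := h.P_low _ _ _ hX

theorem Fam.PP_high (h : Fam s θ P t0 X0 X1) (t : ℝ) {X : ℝ} (φ : ℝ) (hX : X1 ≤ X) :
    PP P t X φ = (θ t)⁻¹ := h.P_high _ _ _ hX

theorem Fam.dT_low (h : Fam s θ P t0 X0 X1) (t : ℝ) {X : ℝ} (φ : ℝ) (hX : X ≤ X0) :
    dT (PP P) t X φ = 0 := by
  have e : (fun τ => PP P τ X φ) = fun _ => (1:ℝ) := funext fun τ => h.PP_low τ φ hX
  unfold dT; rw [e]; simp

theorem Fam.dT_high (h : Fam s θ P t0 X0 X1) (t : ℝ) {X : ℝ} (φ : ℝ) (hX : X1 ≤ X) :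
    dT (PP P) t X φ = -(deriv θ t) / (θ t) ^ 2 := by
  have e : (fun τ => PP P τ X φ) = fun τ => (θ τ)⁻¹ := funext fun τ => h.PP_high τ φ hX
  unfold dT; rw [e]
  exact ((hd h.smooth_θ t).inv (h.θ_pos t).ne').deriv

theorem Fam.dF_high (h : Fam s θ P t0 X0 X1) (t : ℝ) {X : ℝ} (φ : ℝ) (hX : X1 ≤ X) :
    dF (PP P) t X φ = 0 := by
  have e : (fun ψ => PP P t X ψ) = fun _ => (θ t)⁻¹ := funext fun ψ => h.PP_high t ψ hX
  unfold dF; rw [e]; simp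

theorem Fam.dFT_high (h : Fam s θ P t0 X0 X1) (t : ℝ) {X : ℝ} (φ : ℝ) (hX : X1 ≤ X) :
    dF (dT (PP P)) t X φ = 0 := by
  have e : (fun ψ => dT (PP P) t X ψ) = fun _ => -(deriv θ t) / (θ t) ^ 2 :=
    funext fun ψ => h.dT_high t ψ hX
  show deriv (fun ψ => dT (PP P) t X ψ) φ = 0
  rw [e]; simp

end facts

theorem quadForm_diag {n : ℕ} (a : Fin n → EuclideanSpace ℝ (Fin n) → ℝ)
    (q v : EuclideanSpace ℝ (Fin n)) :
    quadForm (diagMetric a) q v = ∑ i, Real.exp (2 * a i q) * v i ^ 2 := by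
  unfold quadForm
  refine Finset.sum_congr rfl fun i _ => ?_
  simp only [diagMetric_apply, ite_mul, zero_mul, Finset.sum_ite_eq, Finset.mem_univ, if_true]
  ring

theorem quadForm_aa (s θ : ℝ → ℝ) (P : ℝ → ℝ → ℂ → ℝ) (q v : EuclideanSpace ℝ (Fin (m + 3))) :
    quadForm (diagMetric (aa s θ P)) q v =
      Real.exp (q 0) ^ 2 * (v 0 ^ 2 + Real.exp (2 * (aX s θ P q - q 0)) * v 1 ^ 2
        + Real.exp (2 * (aphi s θ P q - q 0)) * v 2 ^ 2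
        + Real.exp (2 * (aeta s θ q - q 0)) * ∑ k : Fin m, v k.succ.succ.succ ^ 2) := by
  rw [quadForm_diag, sum3, aa_zero, aa_one, aa_two]
  simp_rw [aa_succ]
  have e : ∀ a : ℝ, Real.exp (2 * a) = Real.exp (q 0) ^ 2 * Real.exp (2 * (a - q 0)) := by
    intro a
    rw [← Real.exp_nat_mul, ← Real.exp_add]
    congr 1; push_cast; ring
  rw [e (q 0), e (aX s θ P q), e (aphi s θ P q), e (aeta s θ q), sub_self, mul_zero, Real.exp_zero,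
    ← Finset.mul_sum]
  ring

/-- Choice of the constant. -/
theorem exists_c {B D : ℝ} (hB : 0 ≤ B) (hD : 0 < D) :
    ∃ c : ℝ, 0 < c ∧ c ≤ 1 / 8 ∧ B * c ≤ 1 / 4 ∧ 8 * B ^ 2 * c ≤ D / 4 ∧ 2 * B * c ≤ D / 4 ∧
      c ≤ D / 2 := by
  have hB1 : 0 < B + 1 := by linarith
  refine ⟨min (1 / 8) (min (1 / (4 * (B + 1))) (min (D / (32 * (B + 1) ^ 2))
    (min (D / (8 * (B + 1))) (D / 2)))), ?_, ?_, ?_, ?_, ?_, ?_⟩
  · refine lt_min (by norm_num) (lt_min (by positivity) (lt_min (by positivity)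
      (lt_min (by positivity) (by positivity))))
  · exact min_le_left _ _
  · set c := min (1 / 8 : ℝ) (min (1 / (4 * (B + 1))) (min (D / (32 * (B + 1) ^ 2))
      (min (D / (8 * (B + 1))) (D / 2)))) with hc
    have h : c ≤ 1 / (4 * (B + 1)) := (min_le_right _ _).trans (min_le_left _ _)
    calc B * c ≤ B * (1 / (4 * (B + 1))) := mul_le_mul_of_nonneg_left h hB
      _ ≤ (B + 1) * (1 / (4 * (B + 1))) := mul_le_mul_of_nonneg_right (by linarith) (by positivity)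
      _ = 1 / 4 := by field_simp
  · set c := min (1 / 8 : ℝ) (min (1 / (4 * (B + 1))) (min (D / (32 * (B + 1) ^ 2))
      (min (D / (8 * (B + 1))) (D / 2)))) with hc
    have h : c ≤ D / (32 * (B + 1) ^ 2) :=
      (min_le_right _ _).trans ((min_le_right _ _).trans (min_le_left _ _))
    calc 8 * B ^ 2 * c ≤ 8 * B ^ 2 * (D / (32 * (B + 1) ^ 2)) :=
          mul_le_mul_of_nonneg_left h (by positivity)
      _ ≤ 8 * (B + 1) ^ 2 * (D / (32 * (B + 1) ^ 2)) :=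
          mul_le_mul_of_nonneg_right (by nlinarith) (by positivity)
      _ = D / 4 := by field_simp; ring
  · set c := min (1 / 8 : ℝ) (min (1 / (4 * (B + 1))) (min (D / (32 * (B + 1) ^ 2))
      (min (D / (8 * (B + 1))) (D / 2)))) with hc
    have h : c ≤ D / (8 * (B + 1)) :=
      (min_le_right _ _).trans ((min_le_right _ _).trans ((min_le_right _ _).trans (min_le_left _ _)))
    calc 2 * B * c ≤ 2 * B * (D / (8 * (B + 1))) := mul_le_mul_of_nonneg_left h (by positivity)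
      _ ≤ 2 * (B + 1) * (D / (8 * (B + 1))) :=
          mul_le_mul_of_nonneg_right (by linarith) (by positivity)
      _ = D / 4 := by field_simp; ring
  · exact (min_le_right _ _).trans ((min_le_right _ _).trans ((min_le_right _ _).trans
      (min_le_right _ _)))

theorem lamSq_lower {K : ℝ} {s θ : ℝ → ℝ} {t : ℝ} (hs : |s t| ≤ K) (h0 : 0 < θ t) (h1 : θ t ≤ 1) :
    Real.exp (-K) ^ 2 ≤ lamSq m s θ t := by
  unfold lamSq
  have e1 : Real.exp (-K) ^ 2 ≤ Real.exp (-2 * s t) := by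
    rw [← Real.exp_nat_mul]
    apply Real.exp_le_exp.2
    have := (abs_le.1 hs).2
    push_cast; linarith
  have e2 : 1 ≤ (θ t) ^ (-(2 : ℝ) / ((m : ℝ) + 2)) := by
    apply Real.one_le_rpow_of_pos_of_le_one_of_nonpos h0 h1
    have : (0 : ℝ) < (m : ℝ) + 2 := by positivity
    exact div_nonpos_of_nonpos_of_nonneg (by norm_num) this.le
  calc Real.exp (-K) ^ 2 = Real.exp (-K) ^ 2 * 1 := (mul_one _).symm
    _ ≤ Real.exp (-2 * s t) * (θ t) ^ (-(2 : ℝ) / ((m : ℝ) + 2)) :=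
        mul_le_mul e1 e2 zero_le_one (Real.exp_pos _).le

theorem rho_le_one {c s1 ρ : ℝ} (hc0 : 0 < c) (hc1 : c ≤ 1 / 8) (hs1c : s1 ≤ c)
    (hρ2 : ρ ^ 2 ≤ c * s1) : ρ ≤ 1 := by
  by_contra hcon
  push Not at hcon
  have h1 : c * s1 ≤ c * c := mul_le_mul_of_nonneg_left hs1c hc0.le
  have h2 : c * c ≤ 1 / 8 * (1 / 8) := mul_le_mul hc1 hc1 hc0.le (by norm_num)
  nlinarith

theorem s2_le {c s1 s2 : ℝ} (hc1 : c ≤ 1 / 8) (hs1 : 0 ≤ s1) (hs2 : |s2| ≤ c * s1) :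
    |s2| ≤ s1 := by
  have h : c * s1 ≤ 1 / 8 * s1 := mul_le_mul_of_nonneg_right hc1 hs1
  linarith

theorem g2_le {c s1 s2 : ℝ} (hs1 : 0 ≤ s1) (hs1c : s1 ≤ c)
    (hs2 : |s2| ≤ c * s1) : s1 * (1 - 2 * c) ≤ s2 + s1 - s1 ^ 2 := by
  have h1 := (abs_le.1 hs2).1
  have h2 : s1 * s1 ≤ s1 * c := mul_le_mul_of_nonneg_left hs1c hs1
  nlinarith

/-- The inequality of the deformation phase, for real numbers. -/
theorem alg_def {m : ℕ} {K μ X0 X1 c ρ X p th lam s1 s2 k1 k2 Lt Ltt LtX Ltf LX Lf Q11 Q12 Qw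
    α1 α2 Ew V v0 v1 v2 : ℝ} (hK : 1 ≤ K) (hμ : 0 < μ) (hX0 : 0 < X0) (hX01 : X0 < X1)
    (hX1' : 0 < 1 - X1 ^ 2) (hX : 0 < X) (hX' : X < 1)
    (hc0 : 0 < c) (hc1 : c ≤ 1 / 8) (hc2 : BB m K X0 X1 * c ≤ 1 / 4)
    (hc3 : 8 * BB m K X0 X1 ^ 2 * c ≤ ((m : ℝ) + 1) * μ / 4)
    (hc4 : 2 * BB m K X0 X1 * c ≤ ((m : ℝ) + 1) * μ / 4) (hc5 : c ≤ ((m : ℝ) + 1) * μ / 2)
    (hs1 : 0 ≤ s1) (hs1c : s1 ≤ c) (hs2 : |s2| ≤ c * s1) (hρ : 0 ≤ ρ) (hρ2 : ρ ^ 2 ≤ c * s1)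
    (hp : K⁻¹ ≤ p) (hp' : p ≤ K) (hth : K⁻¹ ≤ th) (hlam : Real.exp (-K) ^ 2 ≤ lam)
    (q1 : |k1| ≤ ρ * K) (q2 : |Lt| ≤ ρ * K) (q3 : |k2| ≤ 2 * K ^ 2 * ρ)
    (q4 : |Ltt| ≤ 2 * K ^ 2 * ρ) (q5 : |LX| ≤ K ^ 2) (q6 : |Lf| ≤ K ^ 2)
    (q7 : |LtX| ≤ 2 * K ^ 3 * ρ) (q8 : |Ltf| ≤ 2 * K ^ 3 * ρ)
    (hlow : X ≤ X0 → Lt = 0) (hhigh : X1 ≤ X → k1 + Lt = 0)
    (hhF : X1 ≤ X → Lf = 0) (hhTF : X1 ≤ X → Ltf = 0)
    (hα1 : 0 < α1) (hα2 : 0 < α2) (hα1E : α1 ^ 2 = lam / (p * (1 - X ^ 2)))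
    (hα2E : α2 ^ 2 = lam * th ^ 2 * (p * (1 - X ^ 2)))
    (hcone : (m + 1) * (1 + μ) * lam ≤ Q11 - |Q12|)
    (hfib : (m + 1) * (1 + μ) * lam ≤ Qw ∨ V = 0) (hEw : 0 ≤ Ew) (hV : 0 ≤ V) :
    c * s1 * (v0 ^ 2 + α1 ^ 2 * v1 ^ 2 + α2 ^ 2 * v2 ^ 2 + Ew * V) ≤
      (((m : ℝ) + 2) * (s2 + s1 - s1 ^ 2)
          - ((-k1 / ((m : ℝ) + 2) - 1 / 2 * Lt) ^ 2
            + ((1 - 1 / ((m : ℝ) + 2)) * k1 + 1 / 2 * Lt) ^ 2
            + m * (-k1 / ((m : ℝ) + 2)) ^ 2)) * v0 ^ 2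
      + 2 * (-(1 / 2 * LtX) - m / X * (1 / 2 * Lt) + (k1 + Lt) * (X / (1 - X ^ 2) - 1 / 2 * LX))
          * (v0 * v1)
      + 2 * (1 / 2 * Ltf - (k1 + Lt) * (1 / 2 * Lf)) * (v0 * v2)
      + α1 ^ 2 * (Q11 / lam
          - ((-s2 + -(1 / ((m : ℝ) + 2)) * k2 + -(1 / 2) * Ltt)
            + (((m : ℝ) + 1) - (m + 2) * s1) * (1 - s1 + (-k1 / ((m : ℝ) + 2) - 1 / 2 * Lt))))
          * v1 ^ 2
      + 2 * (Q12 / lam * (α1 * α2)) * (v1 * v2)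
      + α2 ^ 2 * (Q11 / lam
          - ((-s2 + (1 - 1 / ((m : ℝ) + 2)) * k2 + 1 / 2 * Ltt)
            + (((m : ℝ) + 1) - (m + 2) * s1)
              * (1 - s1 + ((1 - 1 / ((m : ℝ) + 2)) * k1 + 1 / 2 * Lt))))
          * v2 ^ 2
      + Ew * (Qw / lam
          - ((-s2 + -(1 / ((m : ℝ) + 2)) * k2 + 0 * 0)
            + (((m : ℝ) + 1) - (m + 2) * s1) * (1 - s1 + -k1 / ((m : ℝ) + 2)))) * V := by
  obtain ⟨p1, p2, p3, p4, hB⟩ := BB_parts m hK hX0 hX1'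
  have hm : (0 : ℝ) ≤ m := Nat.cast_nonneg m
  have hK0 : 0 < K := by linarith
  have hKi : 0 < K⁻¹ := inv_pos.2 hK0
  have hp0 : 0 < p := hKi.trans_le hp
  have hlam0 : 0 < lam := lt_of_lt_of_le (pow_pos (Real.exp_pos _) 2) hlam
  have hD : 0 < ((m : ℝ) + 1) * μ := by positivity
  have hρ1 : ρ ≤ 1 := rho_le_one hc0 hc1 hs1c hρ2
  have kL : |k1 + Lt| ≤ 2 * K * ρ := by
    have := abs_add_le k1 Lt
    linarith
  have r00 := est_R00 m hK0 hρ q1 q2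
  have r01 := est_R01 m hK hX0 hX1' hX hX' hp0 hp' hlam hρ q2 kL q5 q7 hlow hhigh hα1 hα1E
  have r02 := est_R02 hK hX0 hX01 hX1' hX hX' hth hp hlam hρ kL q6 q8 hhTF hhF hα2 hα2E
  obtain ⟨b1, b2, bw⟩ := est_beta m hK0 hρ q1 q2
  have hs1' : s1 ≤ 1 := by linarith
  have hs2' : |s2| ≤ s1 := s2_le hc1 hs1 hs2
  have hmi : 1 / ((m : ℝ) + 2) ≤ 1 := by
    rw [div_le_one (by linarith)]; linarith
  have hmi0 : 0 ≤ 1 / ((m : ℝ) + 2) := by positivity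
  have hKρ : 0 ≤ K * ρ := mul_nonneg hK0.le hρ
  have hhalf : |(1 : ℝ) / 2| ≤ 1 := by rw [abs_of_pos (by norm_num)]; norm_num
  have hhalf' : |-((1 : ℝ) / 2)| ≤ 1 := by rw [abs_neg]; exact hhalf
  have hmi1 : |-(1 / ((m:ℝ) + 2))| ≤ 1 := by rw [abs_neg, abs_of_nonneg hmi0]; exact hmi
  have hmi2 : |1 - 1 / ((m:ℝ) + 2)| ≤ 1 := by rw [abs_le]; constructor <;> linarith
  have z0 : |(0 : ℝ)| ≤ 2 * K ^ 2 * ρ := by rw [abs_zero]; positivity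
  have z1 : |(0 : ℝ)| ≤ 1 := by rw [abs_zero]; norm_num
  have t1 := est_T (m := m) hK hρ hs1 hs1' hs2' q3 q4 hmi1 hhalf' (b1.trans (by linarith))
  have t2 := est_T (m := m) hK hρ hs1 hs1' hs2' q3 q4 hmi2 hhalf (b2.trans (by linarith))
  have tw := est_T (m := m) hK hρ hs1 hs1' hs2' q3 z0 hmi1 z1 (bw.trans (by linarith))
  have hρs : 0 ≤ ρ + s1 := by linarith
  have hBT : (1 + 4 * K ^ 2 + 2 * ((m:ℝ) + 1) * K) * (ρ + s1) ≤
      BB m K X0 X1 * (ρ + s1) := mul_le_mul_of_nonneg_right p1 hρs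
  have hA : ((m : ℝ) + 1) + ((m : ℝ) + 1) * μ ≤ Q11 / lam - |Q12 / lam| := by
    rw [abs_div, abs_of_pos hlam0, ← sub_div, le_div_iff₀ hlam0]
    linarith
  have hAw : ((m : ℝ) + 1) + ((m : ℝ) + 1) * μ ≤ Qw / lam ∨ V = 0 := by
    rcases hfib with h | h
    · left
      rw [le_div_iff₀ hlam0]
      linarith
    · exact Or.inr h
  have hR00 : ((m : ℝ) + 2) * (s1 * (1 - 2 * c)) - BB m K X0 X1 * ρ ^ 2 ≤
      ((m : ℝ) + 2) * (s2 + s1 - s1 ^ 2)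
          - ((-k1 / ((m : ℝ) + 2) - 1 / 2 * Lt) ^ 2
            + ((1 - 1 / ((m : ℝ) + 2)) * k1 + 1 / 2 * Lt) ^ 2
            + m * (-k1 / ((m : ℝ) + 2)) ^ 2) := by
    have g1 : ((5 + m) * K ^ 2) * ρ ^ 2 ≤ BB m K X0 X1 * ρ ^ 2 :=
      mul_le_mul_of_nonneg_right p2 (sq_nonneg ρ)
    have g3 := mul_le_mul_of_nonneg_left (g2_le hs1 hs1c hs2) (by linarith : (0:ℝ) ≤ (m : ℝ) + 2)
    linarith
  exact core_ineq (m := m) hD hB hc0 hc1 hc2 hc3 hc4 hc5 hs1 hs1c hρ hρ2 hR00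
    (r01.trans (mul_le_mul_of_nonneg_right (mul_le_mul_of_nonneg_right p3 hρ) hα1.le))
    (r02.trans (mul_le_mul_of_nonneg_right (mul_le_mul_of_nonneg_right p4 hρ) hα2.le))
    hA hAw (t1.trans (by linarith)) (t2.trans (by linarith)) (tw.trans (by linarith))
    hα1.le hα2.le hEw hV

/-- The deformation phase. -/
theorem polEst_def {K μ X0 X1 c : ℝ} (hK : 1 ≤ K) (hμ : 0 < μ)
    (hc0 : 0 < c) (hc1 : c ≤ 1 / 8) (hc2 : BB m K X0 X1 * c ≤ 1 / 4)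
    (hc3 : 8 * BB m K X0 X1 ^ 2 * c ≤ ((m : ℝ) + 1) * μ / 4)
    (hc4 : 2 * BB m K X0 X1 * c ≤ ((m : ℝ) + 1) * μ / 4) (hc5 : c ≤ ((m : ℝ) + 1) * μ / 2)
    {s θ : ℝ → ℝ} {P : ℝ → ℝ → ℂ → ℝ} {t0 : ℝ} (h : Fam s θ P t0 X0 X1)
    {q : EuclideanSpace ℝ (Fin (m + 3))} (hq : q ∈ VV m)
    (hph : DefPhase m s θ P K μ c (q 0)) (v : EuclideanSpace ℝ (Fin (m + 3))) :
    c * deriv s (q 0) / Real.exp (q 0) ^ 2 * quadForm (diagMetric (aa s θ P)) q v ≤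
      ∑ i, ∑ j, ricci (diagMetric (aa s θ P)) q i j * v i * v j := by
  obtain ⟨ρ, hρ, hρ2, hR⟩ := hph.rate
  have hX1' : 0 < 1 - X1 ^ 2 := one_sub_sq_pos' (h.hX0.trans h.hX01) h.hX1
  have hK0 : 0 < K := by linarith
  have hρ1 : ρ ≤ 1 := rho_le_one hc0 hc1 hph.s1_le hρ2
  have hpos : 0 < PP P (q 0) (q 1) (q 2) := h.P_pos _ _ _
  have hth : 0 < θ (q 0) := h.θ_pos _
  have hXX := one_sub_sq_pos hq
  have hX := hq.1
  have hX' := hq.2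
  have hlam0 : 0 < lamSq m s θ (q 0) := lamSq_pos hth
  have hlamK := lamSq_lower (m := m) hR.s_abs hth (h.θ_le (q 0))
  have hp := hR.P_low (q 1) (q 2) hX hX'
  have hp' := hR.P_up (q 1) (q 2) hX hX'
  -- the square roots
  have E1 : Real.exp (aX s θ P q - q 0) ^ 2 =
      lamSq m s θ (q 0) / (PP P (q 0) (q 1) (q 2) * (1 - q 1 ^ 2)) := by
    have := exp_aX (s := s) hq (show 0 < pp P q from hpos) hth
    rw [← Real.exp_nat_mul]; push_cast; exact this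
  have E2 : Real.exp (aphi s θ P q - q 0) ^ 2 =
      lamSq m s θ (q 0) * θ (q 0) ^ 2 * (PP P (q 0) (q 1) (q 2) * (1 - q 1 ^ 2)) := by
    have := exp_aphi (s := s) hq (show 0 < pp P q from hpos) hth
    rw [← Real.exp_nat_mul]; push_cast; exact this
  have E1' : Real.exp (2 * (aX s θ P q - q 0)) = Real.exp (aX s θ P q - q 0) ^ 2 := by
    rw [← Real.exp_nat_mul]; push_cast; rfl
  have E2' : Real.exp (2 * (aphi s θ P q - q 0)) = Real.exp (aphi s θ P q - q 0) ^ 2 := by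
    rw [← Real.exp_nat_mul]; push_cast; rfl
  have Ew := exp_aeta (m := m) (s := s) hq hth
  have hα1p : 0 < Real.exp (aX s θ P q - q 0) := Real.exp_pos _
  have hα2p : 0 < Real.exp (aphi s θ P q - q 0) := Real.exp_pos _
  rw [h.ric_closed (m := m) hq v rfl rfl rfl rfl rfl rfl rfl rfl rfl rfl rfl rfl rfl rfl rfl rfl,
    quadForm_aa, E1', E2', Ew]
  generalize Real.exp (aX s θ P q - q 0) = α1 at *
  generalize Real.exp (aphi s θ P q - q 0) = α2 at *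
  have hα12 : α1 * α2 = lamSq m s θ (q 0) * θ (q 0) := by
    have h1 : (α1 * α2) ^ 2 = (lamSq m s θ (q 0) * θ (q 0)) ^ 2 := by
      rw [mul_pow, E1, E2]
      field_simp
    exact (pow_left_inj₀ (mul_pos hα1p hα2p).le (mul_pos hlam0 hth).le two_ne_zero).1 h1
  -- the data bounds
  have hk1 := h.d_klog (q 0)
  have hk2 := h.dd_klog (q 0)
  have eLt := h.dT_LL (q 0) (q 1) (q 2)
  have eLtt := h.dTT_LL (q 0) (q 1) (q 2)
  have eLtX := h.dXT_LL (q 0) (q 1) (q 2)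
  have eLtf := h.dFT_LL (q 0) (q 1) (q 2)
  have eLX := h.dX_LL (q 0) (q 1) (q 2)
  have eLf := h.dF_LL (q 0) (q 1) (q 2)
  have q1 : |deriv (klog θ) (q 0)| ≤ ρ * K := by rw [hk1]; exact est_div hK0 hR.θ_low hR.θ_t hρ
  have q2 : |dT (LL P) (q 0) (q 1) (q 2)| ≤ ρ * K := by
    rw [eLt]; exact est_div hK0 hp (hR.P_t _ _ hX hX') hρ
  have q3 : |deriv (deriv (klog θ)) (q 0)| ≤ 2 * K ^ 2 * ρ := by
    rw [hk2]; exact est_second hK hR.θ_low hρ hρ1 hR.θ_tt hR.θ_t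
  have q4 : |dT (dT (LL P)) (q 0) (q 1) (q 2)| ≤ 2 * K ^ 2 * ρ := by
    rw [eLtt]; exact est_second hK hp hρ hρ1 (hR.P_tt _ _ hX hX') (hR.P_t _ _ hX hX')
  have q5 : |dX (LL P) (q 0) (q 1) (q 2)| ≤ K ^ 2 := by
    rw [eLX, sq]; exact est_div hK0 hp (hR.P_X _ _ hX hX') hK0.le
  have q6 : |dF (LL P) (q 0) (q 1) (q 2)| ≤ K ^ 2 := by
    rw [eLf, sq]; exact est_div hK0 hp (hR.P_φ _ _ hX hX') hK0.le
  have q7 : |dX (dT (LL P)) (q 0) (q 1) (q 2)| ≤ 2 * K ^ 3 * ρ := by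
    rw [eLtX]; exact est_mixed hK hp hρ (hR.P_tX _ _ hX hX') (hR.P_t _ _ hX hX') (hR.P_X _ _ hX hX')
  have q8 : |dF (dT (LL P)) (q 0) (q 1) (q 2)| ≤ 2 * K ^ 3 * ρ := by
    rw [eLtf]; exact est_mixed hK hp hρ (hR.P_tφ _ _ hX hX') (hR.P_t _ _ hX hX') (hR.P_φ _ _ hX hX')
  have hlow : q 1 ≤ X0 → dT (LL P) (q 0) (q 1) (q 2) = 0 := fun hx => by
    rw [eLt, h.dT_low _ _ hx, zero_div]
  have hhigh : X1 ≤ q 1 → deriv (klog θ) (q 0) + dT (LL P) (q 0) (q 1) (q 2) = 0 := fun hx => by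
    rw [eLt, hk1, h.dT_high _ _ hx, h.PP_high _ _ hx]
    field_simp
    ring
  have hhF : X1 ≤ q 1 → dF (LL P) (q 0) (q 1) (q 2) = 0 := fun hx => by
    rw [eLf, h.dF_high _ _ hx, zero_div]
  have hhTF : X1 ≤ q 1 → dF (dT (LL P)) (q 0) (q 1) (q 2) = 0 := fun hx => by
    rw [eLtf, h.dFT_high _ _ hx, h.dF_high _ _ hx]; simp
  clear hk1 hk2 eLt eLtt eLtX eLtf eLX eLf E1' E2' Ew
  have hcone := hph.cone.base (q 1) (q 2) hX hX'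
  have hfib : (m + 1) * (1 + μ) * lamSq m s θ (q 0) ≤
      qw m (q 1) (PP P (q 0) (q 1) (q 2)) (dX (PP P) (q 0) (q 1) (q 2)) ∨
      ∑ k : Fin m, v k.succ.succ.succ ^ 2 = 0 := by
    rcases Nat.eq_zero_or_pos m with h0 | h0
    · right; subst h0; simp
    · exact Or.inl (hph.cone.fiber h0 (q 1) (q 2) hX hX')
  have hV0 : 0 ≤ ∑ k : Fin m, v k.succ.succ.succ ^ 2 := Finset.sum_nonneg fun _ _ => sq_nonneg _
  have hEw0 : 0 ≤ lamSq m s θ (q 0) * (q 1 ^ 2 * (4 / (1 + NN q) ^ 2)) :=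
    mul_nonneg hlam0.le (by positivity)
  have key := alg_def (v0 := v 0) (v1 := v 1) (v2 := v 2) hK hμ h.hX0 h.hX01 hX1' hX hX'
    hc0 hc1 hc2 hc3 hc4 hc5 hph.s1_nonneg hph.s1_le hph.s2 hρ hρ2 hp hp' hR.θ_low hlamK
    q1 q2 q3 q4 q5 q6 q7 q8 hlow hhigh hhF hhTF hα1p hα2p E1 E2 hcone hfib hEw0 hV0
  clear q1 q2 q3 q4 q5 q6 q7 q8 hlow hhigh hhF hhTF hcone hfib hph hR
  generalize q11 m (θ (q 0)) (q 1) (PP P (q 0) (q 1) (q 2)) (dX (PP P) (q 0) (q 1) (q 2))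
    (dX (dX (PP P)) (q 0) (q 1) (q 2)) (dF (PP P) (q 0) (q 1) (q 2))
    (dF (dF (PP P)) (q 0) (q 1) (q 2)) = Q11 at *
  generalize q12 m (θ (q 0)) (q 1) (PP P (q 0) (q 1) (q 2)) (dF (PP P) (q 0) (q 1) (q 2)) = Q12 at *
  generalize qw m (q 1) (PP P (q 0) (q 1) (q 2)) (dX (PP P) (q 0) (q 1) (q 2)) = Qw at *
  generalize lamSq m s θ (q 0) = lam at *
  generalize θ (q 0) = th at *
  generalize PP P (q 0) (q 1) (q 2) = p at *
  generalize deriv (klog θ) (q 0) = k1 at *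
  generalize deriv (deriv (klog θ)) (q 0) = k2 at *
  generalize dT (LL P) (q 0) (q 1) (q 2) = Lt at *
  generalize dT (dT (LL P)) (q 0) (q 1) (q 2) = Ltt at *
  generalize dX (LL P) (q 0) (q 1) (q 2) = LX at *
  generalize dF (LL P) (q 0) (q 1) (q 2) = Lf at *
  generalize dX (dT (LL P)) (q 0) (q 1) (q 2) = LtX at *
  generalize dF (dT (LL P)) (q 0) (q 1) (q 2) = Ltf at *
  generalize deriv s (q 0) = s1 at *
  generalize deriv (deriv s) (q 0) = s2 at *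
  generalize (∑ k : Fin m, v k.succ.succ.succ ^ 2) = V at *
  generalize lam * (q 1 ^ 2 * (4 / (1 + NN q) ^ 2)) = Ew at *
  have hE : Real.exp (q 0) ^ 2 ≠ 0 := (pow_pos (Real.exp_pos _) 2).ne'
  have e0 : ∀ A : ℝ, c * s1 / Real.exp (q 0) ^ 2 * (Real.exp (q 0) ^ 2 * A) = c * s1 * A := by
    intro A; field_simp
  rw [e0]
  refine key.trans (le_of_eq ?_)
  have c12 : Q12 / lam * (α1 * α2) = th * Q12 := by
    rw [hα12]; field_simp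
  rw [c12, ← E1, ← E2]
  ring

/-- The inequality of the round phase, for real numbers. -/
theorem alg_round {m : ℕ} {c lam s1 s2 a1 a2 a3 V v0 v1 v2 : ℝ} (hc1 : c ≤ 1)
    (hs1 : 0 ≤ s1) (hs1' : s1 ≤ 1 / 4) (hs2 : -s1 / 4 ≤ s2) (hlam0 : 0 < lam) (hlam1 : lam ≤ 1)
    (h1 : 0 ≤ a1) (h2 : 0 ≤ a2) (h3 : 0 ≤ a3) (hV : 0 ≤ V) :
    c * s1 * (v0 ^ 2 + a1 * v1 ^ 2 + a2 * v2 ^ 2 + a3 * V) ≤
      ((m : ℝ) + 2) * (s2 + s1 - s1 ^ 2) * v0 ^ 2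
      + a1 * (((m : ℝ) + 1) / lam - (-s2 + (((m : ℝ) + 1) - (m + 2) * s1) * (1 - s1))) * v1 ^ 2
      + a2 * (((m : ℝ) + 1) / lam - (-s2 + (((m : ℝ) + 1) - (m + 2) * s1) * (1 - s1))) * v2 ^ 2
      + a3 * (((m : ℝ) + 1) / lam - (-s2 + (((m : ℝ) + 1) - (m + 2) * s1) * (1 - s1))) * V := by
  have hm : (0 : ℝ) ≤ m := Nat.cast_nonneg m
  have hs1q : s1 ^ 2 ≤ 1 / 4 * s1 := by
    rw [sq]; exact mul_le_mul_of_nonneg_right hs1' hs1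
  have hcs : c * s1 ≤ 1 * s1 := mul_le_mul_of_nonneg_right hc1 hs1
  have hR0 : c * s1 ≤ ((m : ℝ) + 2) * (s2 + s1 - s1 ^ 2) := by
    have g1 : s1 / 2 ≤ s2 + s1 - s1 ^ 2 := by linarith
    have g2 : 2 * (s1 / 2) ≤ ((m : ℝ) + 2) * (s2 + s1 - s1 ^ 2) :=
      mul_le_mul (by linarith) g1 (by linarith) (by linarith)
    linarith
  have hT : c * s1 ≤ ((m : ℝ) + 1) / lam - (-s2 + (((m : ℝ) + 1) - (m + 2) * s1) * (1 - s1)) := by
    have g1 : (m : ℝ) + 1 ≤ ((m : ℝ) + 1) / lam := by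
      rw [le_div_iff₀ hlam0]
      calc ((m : ℝ) + 1) * lam ≤ ((m : ℝ) + 1) * 1 := mul_le_mul_of_nonneg_left hlam1 (by linarith)
        _ = (m : ℝ) + 1 := mul_one _
    have g4 : ((m : ℝ) + 2) * s1 ^ 2 ≤ ((m : ℝ) + 2) * (1 / 4 * s1) :=
      mul_le_mul_of_nonneg_left hs1q (by linarith)
    have g5 : 0 ≤ (m : ℝ) * s1 := mul_nonneg hm hs1
    have e : (((m : ℝ) + 1) - (m + 2) * s1) * (1 - s1) =
      (m + 1) - (2 * (m * s1) + 3 * s1) + (m + 2) * s1 ^ 2 := by ring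
    rw [e]
    linarith
  generalize ((m : ℝ) + 1) / lam - (-s2 + (((m : ℝ) + 1) - (m + 2) * s1) * (1 - s1)) = T at *
  have y0 := mul_le_mul_of_nonneg_right hR0 (sq_nonneg v0)
  have y1 := mul_le_mul_of_nonneg_left hT (mul_nonneg h1 (sq_nonneg v1))
  have y2 := mul_le_mul_of_nonneg_left hT (mul_nonneg h2 (sq_nonneg v2))
  have y3 := mul_le_mul_of_nonneg_left hT (mul_nonneg h3 hV)
  linarith

section round

variable {θ : ℝ → ℝ} {P : ℝ → ℝ → ℂ → ℝ} {t t1 : ℝ}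

theorem rp_PP (hP : ∀ τ ≤ t1, ∀ X u, P τ X u = 1) : ∀ τ ≤ t1, ∀ X φ, PP P τ X φ = 1 :=
  fun τ hτ X φ => hP τ hτ X _

theorem rp_LL (hP : ∀ τ ≤ t1, ∀ X u, P τ X u = 1) : ∀ τ ≤ t1, ∀ X φ, LL P τ X φ = 0 :=
  fun τ hτ X φ => by unfold LL; rw [rp_PP hP τ hτ, Real.log_one]

theorem rp_dT (hP : ∀ τ ≤ t1, ∀ X u, P τ X u = 1) : ∀ τ < t1, ∀ X φ, dT (LL P) τ X φ = 0 :=
  fun τ hτ X φ => by
    have e : (fun τ => LL P τ X φ) =ᶠ[𝓝 τ] fun _ => 0 := by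
      filter_upwards [Iio_mem_nhds hτ] with τ' hτ' using rp_LL hP τ' (le_of_lt hτ') X φ
    unfold dT; rw [e.deriv_eq]; simp

theorem rp_klog (hθ : ∀ τ ≤ t1, θ τ = 1) : ∀ τ < t1, deriv (klog θ) τ = 0 := fun τ hτ => by
  have e : klog θ =ᶠ[𝓝 τ] fun _ => 0 := by
    filter_upwards [Iio_mem_nhds hτ] with τ' hτ'
    unfold klog; rw [hθ τ' (le_of_lt hτ'), Real.log_one]
  rw [e.deriv_eq]; simp

theorem rp_klog2 (hθ : ∀ τ ≤ t1, θ τ = 1) (ht : t < t1) : deriv (deriv (klog θ)) t = 0 := by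
  have e : deriv (klog θ) =ᶠ[𝓝 t] fun _ => 0 := by
    filter_upwards [Iio_mem_nhds ht] with τ' hτ' using rp_klog hθ τ' hτ'
  rw [e.deriv_eq]; simp

theorem rp_dTT (hP : ∀ τ ≤ t1, ∀ X u, P τ X u = 1) (ht : t < t1) (X φ : ℝ) :
    dT (dT (LL P)) t X φ = 0 := by
  have e : (fun τ => dT (LL P) τ X φ) =ᶠ[𝓝 t] fun _ => 0 := by
    filter_upwards [Iio_mem_nhds ht] with τ' hτ' using rp_dT hP τ' hτ' _ _
  show deriv (fun τ => dT (LL P) τ X φ) t = 0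
  rw [e.deriv_eq]; simp

theorem rp_dX {F : ℝ → ℝ → ℝ → ℝ} {a : ℝ} (hF : ∀ X φ, F t X φ = a) (X φ : ℝ) :
    dX F t X φ = 0 := by
  have e : (fun Y => F t Y φ) = fun _ => a := funext fun Y => hF Y φ
  unfold dX; rw [e]; simp

theorem rp_dF {F : ℝ → ℝ → ℝ → ℝ} {a : ℝ} (hF : ∀ X φ, F t X φ = a) (X φ : ℝ) :
    dF F t X φ = 0 := by
  have e : (fun Y => F t X Y) = fun _ => a := funext fun Y => hF X Y
  unfold dF; rw [e]; simp

end round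

theorem q11_one (m : ℕ) (X : ℝ) : q11 m 1 X 1 0 0 0 0 = (m : ℝ) + 1 := by unfold q11; ring

theorem q12_one (m : ℕ) (X : ℝ) : q12 m 1 X 1 0 = 0 := by unfold q12; ring

theorem qw_one (m : ℕ) {X : ℝ} (hX : X ≠ 0) : qw m X 1 0 = (m : ℝ) + 1 := by
  unfold qw; field_simp; ring

/-- The round phase. -/
theorem polEst_round {X0 X1 c : ℝ} (hc1 : c ≤ 1)
    {s θ : ℝ → ℝ} {P : ℝ → ℝ → ℂ → ℝ} {t0 : ℝ} (h : Fam s θ P t0 X0 X1)
    {q : EuclideanSpace ℝ (Fin (m + 3))} (hq : q ∈ VV m)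
    (hph : RoundPhase s θ P (q 0)) (v : EuclideanSpace ℝ (Fin (m + 3))) :
    c * deriv s (q 0) / Real.exp (q 0) ^ 2 * quadForm (diagMetric (aa s θ P)) q v ≤
      ∑ i, ∑ j, ricci (diagMetric (aa s θ P)) q i j * v i * v j := by
  obtain ⟨t1, ht1, hθ1, hP1⟩ := hph.t1
  have hXX := one_sub_sq_pos hq
  have hX := hq.1
  have hth : θ (q 0) = 1 := hθ1 _ ht1.le
  have hthp : 0 < θ (q 0) := h.θ_pos _
  have hpos : 0 < pp P q := h.P_pos _ _ _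
  have ePP : ∀ X φ, PP P (q 0) X φ = 1 := rp_PP hP1 _ ht1.le
  have eLL : ∀ X φ, LL P (q 0) X φ = 0 := rp_LL hP1 _ ht1.le
  have edT : ∀ X φ, dT (LL P) (q 0) X φ = 0 := rp_dT hP1 _ ht1
  have ePX : ∀ X φ, dX (PP P) (q 0) X φ = 0 := rp_dX ePP
  have ePF : ∀ X φ, dF (PP P) (q 0) X φ = 0 := rp_dF ePP
  have ePXX : ∀ X φ, dX (dX (PP P)) (q 0) X φ = 0 := rp_dX ePX
  have ePFF : ∀ X φ, dF (dF (PP P)) (q 0) X φ = 0 := rp_dF ePF
  have eLX : ∀ X φ, dX (LL P) (q 0) X φ = 0 := rp_dX eLL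
  have eLF : ∀ X φ, dF (LL P) (q 0) X φ = 0 := rp_dF eLL
  have eLTX : ∀ X φ, dX (dT (LL P)) (q 0) X φ = 0 := rp_dX edT
  have eLTF : ∀ X φ, dF (dT (LL P)) (q 0) X φ = 0 := rp_dF edT
  have eLTT := rp_dTT hP1 ht1 (q 1) (q 2)
  have ek := rp_klog hθ1 _ ht1
  have ek2 := rp_klog2 hθ1 ht1
  have hlam1 : lamSq m s θ (q 0) ≤ 1 := by
    unfold lamSq
    rw [hth, Real.one_rpow, mul_one]
    exact Real.exp_le_one_iff.2 (by linarith [hph.s_nonneg])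
  have hlam0 : 0 < lamSq m s θ (q 0) := lamSq_pos hthp
  have E1 : Real.exp (2 * (aX s θ P q - q 0)) = lamSq m s θ (q 0) / (1 * (1 - q 1 ^ 2)) := by
    rw [exp_aX (s := s) hq hpos hthp, show pp P q = 1 from ePP _ _]
  have E2 : Real.exp (2 * (aphi s θ P q - q 0)) =
      lamSq m s θ (q 0) * 1 ^ 2 * (1 * (1 - q 1 ^ 2)) := by
    rw [exp_aphi (s := s) hq hpos hthp, show pp P q = 1 from ePP _ _, hth]
  have Ew := exp_aeta (m := m) (s := s) hq hthp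
  rw [h.ric_closed (m := m) hq v rfl rfl rfl rfl rfl rfl rfl rfl rfl rfl rfl rfl rfl rfl rfl rfl,
    quadForm_aa, E1, E2, Ew, ePP, ePX, ePF, ePXX, ePFF, eLX, eLF, eLTX, eLTF, eLTT, edT, ek, ek2,
    hth, q11_one, q12_one, qw_one m hX.ne']
  have key := alg_round (m := m) (v0 := v 0) (v1 := v 1) (v2 := v 2) hc1 hph.s1_nonneg hph.s1_le
    hph.s2 hlam0 hlam1 (a1 := lamSq m s θ (q 0) / (1 * (1 - q 1 ^ 2)))
    (a2 := lamSq m s θ (q 0) * 1 ^ 2 * (1 * (1 - q 1 ^ 2)))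
    (a3 := lamSq m s θ (q 0) * (q 1 ^ 2 * (4 / (1 + NN q) ^ 2)))
    (V := ∑ k : Fin m, v k.succ.succ.succ ^ 2)
    (div_nonneg hlam0.le (by rw [one_mul]; exact hXX.le))
    (mul_nonneg (by rw [one_pow, mul_one]; exact hlam0.le) (by rw [one_mul]; exact hXX.le))
    (mul_nonneg hlam0.le (by positivity)) (Finset.sum_nonneg fun _ _ => sq_nonneg _)
  clear E1 E2 Ew ePP eLL edT ePX ePF ePXX ePFF eLX eLF eLTX eLTF eLTT ek ek2
  generalize lamSq m s θ (q 0) = lam at *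
  generalize deriv s (q 0) = s1 at *
  generalize deriv (deriv s) (q 0) = s2 at *
  generalize (∑ k : Fin m, v k.succ.succ.succ ^ 2) = V at *
  generalize lam * (q 1 ^ 2 * (4 / (1 + NN q) ^ 2)) = a3 at *
  generalize lam / (1 * (1 - q 1 ^ 2)) = a1 at *
  generalize lam * 1 ^ 2 * (1 * (1 - q 1 ^ 2)) = a2 at *
  have hE : Real.exp (q 0) ^ 2 ≠ 0 := (pow_pos (Real.exp_pos _) 2).ne'
  have e0 : ∀ A : ℝ, c * s1 / Real.exp (q 0) ^ 2 * (Real.exp (q 0) ^ 2 * A) = c * s1 * A := by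
    intro A; field_simp
  rw [e0]
  refine key.trans (le_of_eq ?_)
  ring

/-- **Polar estimate.** -/
theorem polEst (m : ℕ) : PolEst m := by
  intro K μ X0 X1 hK hμ hX0 hX1
  by_cases h01 : X0 < X1
  · have hX1' : 0 < 1 - X1 ^ 2 := one_sub_sq_pos' (hX0.trans h01) hX1
    obtain ⟨-, -, -, -, hB⟩ := BB_parts m hK hX0 hX1'
    have hD : 0 < ((m : ℝ) + 1) * μ := by positivity
    obtain ⟨c, hc0, hc1, hc2, hc3, hc4, hc5⟩ := exists_c hB hD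
    refine ⟨c, hc0, by linarith, fun s θ P t0 h q hq hph v => ?_⟩
    rcases hph with hph | hph
    · exact polEst_def hK hμ hc0 hc1 hc2 hc3 hc4 hc5 h hq hph v
    · exact polEst_round (by linarith) h hq hph v
  · exact ⟨1, one_pos, le_refl _, fun s θ P t0 h => absurd h.hX01 h01⟩

end

end Crest.Agent.R202.Geo
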