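import Mathlib
import Crest.Agent.R202.GeoFinal
import Crest.Agent.R202.GeoPolEst
import Crest.Agent.R202.GeoPull
import Crest.Agent.R202.GeoCongr

/-!
Row 202, part D (helper248): `RicThm m` from the polar estimate `PolEst m`.
-/

set_option autoImplicit false

open scoped ContDiff Topology
open Set Filter
open Crest.GeometryTopology.CoordMetric Crest.GeometryTopology.ChartCurvature

namespace Crest.Agent.R202.Geo

noncomputable section

variable {m : ℕ}

theorem rho_smul (c : ℝ) (x : EuclideanSpace ℝ (Fin (m + 3))) : rho (c • x) = |c| * rho x := by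
  unfold rho
  rw [← Real.sqrt_sq_eq_abs, ← Real.sqrt_mul (sq_nonneg c)]
  congr 1
  simp only [PiLp.smul_apply, smul_eq_mul]
  ring

theorem sig_smul (c : ℝ) (x : EuclideanSpace ℝ (Fin (m + 3))) : sig (c • x) = |c| * sig x := by
  unfold sig
  rw [← Real.sqrt_sq_eq_abs, ← Real.sqrt_mul (sq_nonneg c), Finset.mul_sum]
  congr 1
  refine Finset.sum_congr rfl fun j _ => ?_
  simp only [PiLp.smul_apply, smul_eq_mul]
  ring

/-- points off the axes of the same norm are dense on each sphere -/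
theorem mem_closure_sphere {x : EuclideanSpace ℝ (Fin (m + 3))} (hx : x ≠ 0) :
    x ∈ closure {y : EuclideanSpace ℝ (Fin (m + 3)) | ‖y‖ = ‖x‖ ∧ rho y ≠ 0 ∧ sig y ≠ 0} := by
  have hx' : 0 < ‖x‖ := norm_pos_iff.2 hx
  have h0 : x ∈ closure {y : EuclideanSpace ℝ (Fin (m + 3)) | rho y ≠ 0 ∧ sig y ≠ 0} :=
    dense_rho_sig x
  have hc : ContinuousWithinAt (fun y : EuclideanSpace ℝ (Fin (m + 3)) => (‖x‖ / ‖y‖) • y)
      {y | rho y ≠ 0 ∧ sig y ≠ 0} x := by
    refine ContinuousAt.continuousWithinAt ?_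
    exact (continuousAt_const.div continuous_norm.continuousAt hx'.ne').smul continuousAt_id
  have h1 := hc.mem_closure h0 (t := {y : EuclideanSpace ℝ (Fin (m + 3)) |
    ‖y‖ = ‖x‖ ∧ rho y ≠ 0 ∧ sig y ≠ 0}) ?_
  · rwa [div_self hx'.ne', one_smul] at h1
  · rintro y ⟨hr, hs⟩
    have hy : y ≠ 0 := by
      rintro rfl
      apply hr; simp [rho]
    have hy' : 0 < ‖y‖ := norm_pos_iff.2 hy
    have hq : 0 < ‖x‖ / ‖y‖ := by positivity
    refine ⟨?_, ?_, ?_⟩
    · rw [norm_smul, Real.norm_of_nonneg hq.le]; field_simp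
    · show rho ((‖x‖ / ‖y‖) • y) ≠ 0
      rw [rho_smul]
      exact mul_ne_zero (abs_pos.2 hq.ne').ne' hr
    · show sig ((‖x‖ / ‖y‖) • y) ≠ 0
      rw [sig_smul]
      exact mul_ne_zero (abs_pos.2 hq.ne').ne' hs

/-- off the axes -/
theorem ric_offaxes {c : ℝ} {s θ : ℝ → ℝ} {P : ℝ → ℝ → ℂ → ℝ} {t0 X0 X1 : ℝ}
    (hF : Fam s θ P t0 X0 X1) {Ph : ℝ → Prop}
    (hpol : ∀ q ∈ VV m, Ph (q 0) → ∀ v : EuclideanSpace ℝ (Fin (m + 3)),
      c * deriv s (q 0) / Real.exp (q 0) ^ 2 * quadForm (diagMetric (aa s θ P)) q v ≤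
        ∑ i, ∑ j, ricci (diagMetric (aa s θ P)) q i j * v i * v j)
    {x : EuclideanSpace ℝ (Fin (m + 3))} (hr : rho x ≠ 0) (hs : sig x ≠ 0)
    (hP : Ph (Real.log ‖x‖)) (v : EuclideanSpace ℝ (Fin (m + 3))) :
    c * deriv s (Real.log ‖x‖) / ‖x‖ ^ 2 * quadForm (gfam s θ P) x v ≤
      ∑ i, ∑ j, ricci (gfam s θ P) x i j * v i * v j := by
  obtain ⟨ε, hε, q, hq, rfl⟩ := exists_Psi_eq hr hs
  have hR : IsRiemannianOn (gfam (m := m) s θ P) univ := hF.radialMetric.riem
  have hpull := pull_gfam hε hR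
  rw [log_norm_Psi hε hq] at hP ⊢
  have hn : ‖Psi ε q‖ = Real.exp (q 0) := norm_Psi hε hq
  rw [hn]
  -- the two metrics agree near `q`
  have hgg : gpull (m := m) ε s θ P =ᶠ[𝓝 q] diagMetric (aa s θ P) := by
    filter_upwards [isOpen_VV.mem_nhds hq] with y hy
    exact gpull_eq hε hy (hF.P_pos _ _ _) (hF.θ_pos _)
  obtain ⟨w, rfl⟩ := hpull.surj hq v
  have h1 := hpull.ricci_pull hq w w
  have h2 := hpull.quadForm_pull hq w
  have h3 := hpol q hq hP w
  have h4 : quadForm (gpull ε s θ P) q w = quadForm (diagMetric (aa s θ P)) q w :=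
    Tens.quadForm_congr hgg.self_of_nhds w
  have h5 : ∑ i, ∑ j, ricci (gpull ε s θ P) q i j * w i * w j
      = ∑ i, ∑ j, ricci (diagMetric (aa s θ P)) q i j * w i * w j :=
    Finset.sum_congr rfl fun i _ => Finset.sum_congr rfl fun j _ => by
      rw [Tens.ricci_congr hgg i j]
  rw [← h2, ← h1, h4, h5]
  exact h3

/-- **`RicThm` from the polar estimate** -/
theorem ricThm_of_polEst (h : PolEst m) : RicThm m := by
  intro K μ X0 X1 hK hμ hX0 hX1
  obtain ⟨c, hc0, hc1, hpol⟩ := h K μ X0 X1 hK hμ hX0 hX1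
  refine ⟨c, hc0, hc1, fun s θ P t0 hF x hx hph v => ?_⟩
  have hR : IsRiemannianOn (gfam (m := m) s θ P) univ := hF.radialMetric.riem
  have hx' : 0 < ‖x‖ := norm_pos_iff.2 hx
  have hcl := mem_closure_sphere hx
  have hgc : ∀ i j, Continuous fun y => gfam (m := m) s θ P y i j := by
    intro i j
    rw [← continuousOn_univ]
    exact (hR.contDiffOn i j).continuousOn
  have hq : Continuous fun y => quadForm (gfam (m := m) s θ P) y v := by
    unfold quadForm
    refine continuous_finsetSum _ fun i _ => continuous_finsetSum _ fun j _ => ?_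
    exact ((hgc i j).mul continuous_const).mul continuous_const
  have hric : Continuous fun y => ∑ i, ∑ j, ricci (gfam (m := m) s θ P) y i j * v i * v j := by
    refine continuous_finsetSum _ fun i _ => continuous_finsetSum _ fun j _ => ?_
    have := Tens.continuousOn_ricci hR i j
    rw [continuousOn_univ] at this
    exact (this.mul continuous_const).mul continuous_const
  have key : ∀ y ∈ {y : EuclideanSpace ℝ (Fin (m + 3)) | ‖y‖ = ‖x‖ ∧ rho y ≠ 0 ∧ sig y ≠ 0},
      c * deriv s (Real.log ‖x‖) / ‖x‖ ^ 2 * quadForm (gfam s θ P) y v ≤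
        ∑ i, ∑ j, ricci (gfam s θ P) y i j * v i * v j := by
    rintro y ⟨hy, hr, hs⟩
    have := ric_offaxes hF (Ph := fun t => DefPhase m s θ P K μ c t ∨ RoundPhase s θ P t)
      (fun q hq hph v => hpol s θ P t0 hF q hq hph v) hr hs (by rw [hy]; exact hph) v
    rwa [hy] at this
  exact ContinuousWithinAt.closure_le hcl
    (continuous_const.mul hq).continuousAt.continuousWithinAt
    hric.continuousAt.continuousWithinAt key

end

end Crest.Agent.R202.Geo
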