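import Mathlib
import Crest.Agent.R202.GeoRicGlue
import Crest.Agent.R202.GeoRic

/-!
Row 202, part D (helper248): `RicThm m`.
-/

set_option autoImplicit false

namespace Crest.Agent.R202.Geo

theorem ricThm (m : ℕ) : RicThm m := ricThm_of_polEst (polEst m)

end Crest.Agent.R202.Geo
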