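import Mathlib

/-!
Row 202, part D1 (abstract part): transformation laws of Levi-Civita connections and of their
curvature under a local diffeomorphism, index free.
-/

set_option autoImplicit false

open scoped ContDiff Topology
open Filter

namespace Crest.Agent.R202.Tens

variable {E : Type*} [NormedAddCommGroup E] [NormedSpace ℝ E]

/-- Curvature of a connection given by its Christoffel map `Γ`. -/
noncomputable def curv (Γ : E → E →L[ℝ] E →L[ℝ] E) (x W X Y : E) : E :=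
  fderiv ℝ Γ x W X Y - fderiv ℝ Γ x X W Y + Γ x W (Γ x X Y) - Γ x X (Γ x W Y)

/-- `Γx` is the Levi-Civita Christoffel map at `x` of the metric `G`. -/
def IsLC (G : E → E →L[ℝ] E →L[ℝ] ℝ) (x : E) (Γx : E →L[ℝ] E →L[ℝ] E) : Prop :=
  ∀ X Y Z, G x (Γx X Y) Z =
    (1 / 2) * (fderiv ℝ G x X Y Z + fderiv ℝ G x Y X Z - fderiv ℝ G x Z X Y)

lemma fderiv_apply2 {F : Type*} [NormedAddCommGroup F] [NormedSpace ℝ F]
    {G : E → E →L[ℝ] E →L[ℝ] F} {Φ : E → E} {u v : E → E} {y : E}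
    (hG : DifferentiableAt ℝ G (Φ y)) (hΦ : DifferentiableAt ℝ Φ y)
    (hu : DifferentiableAt ℝ u y) (hv : DifferentiableAt ℝ v y) (W : E) :
    fderiv ℝ (fun z => G (Φ z) (u z) (v z)) y W =
      fderiv ℝ G (Φ y) (fderiv ℝ Φ y W) (u y) (v y) + G (Φ y) (fderiv ℝ u y W) (v y)
        + G (Φ y) (u y) (fderiv ℝ v y W) := by
  have h1 : DifferentiableAt ℝ (fun z => G (Φ z)) y :=
    DifferentiableAt.comp (G := E →L[ℝ] E →L[ℝ] F) (g := G) y hG hΦ
  have h2 : DifferentiableAt ℝ (fun z => G (Φ z) (u z)) y := h1.clm_apply hu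
  rw [fderiv_clm_apply h2 hv]
  simp only [add_apply, ContinuousLinearMap.comp_apply,
    ContinuousLinearMap.flip_apply]
  rw [fderiv_clm_apply h1 hu]
  simp only [add_apply, ContinuousLinearMap.comp_apply,
    ContinuousLinearMap.flip_apply]
  have h3 : fderiv ℝ (fun z => G (Φ z)) y = (fderiv ℝ G (Φ y)).comp (fderiv ℝ Φ y) :=
    fderiv_fun_comp (G := E →L[ℝ] E →L[ℝ] F) (g := G) y hG hΦ
  rw [h3]
  simp only [ContinuousLinearMap.comp_apply]
  abel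

/-- Transformation law of the Levi-Civita connection. -/
theorem lc_transform {G G' : E → E →L[ℝ] E →L[ℝ] ℝ} {Φ : E → E} {y : E}
    (hΦ : ContDiffAt ℝ 2 Φ y) (hG : DifferentiableAt ℝ G (Φ y))
    (hpull : ∀ᶠ z in 𝓝 y, ∀ X Y, G' z X Y = G (Φ z) (fderiv ℝ Φ z X) (fderiv ℝ Φ z Y))
    (hG' : DifferentiableAt ℝ G' y)
    (hsymm : ∀ U V, G (Φ y) U V = G (Φ y) V U)
    (hnd : ∀ U, (∀ Z, G (Φ y) U Z = 0) → U = 0)
    (hsurj : Function.Surjective (fderiv ℝ Φ y))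
    {Γ' Γ : E →L[ℝ] E →L[ℝ] E} (hΓ' : IsLC G' y Γ') (hΓ : IsLC G (Φ y) Γ) (X Y : E) :
    fderiv ℝ Φ y (Γ' X Y) = Γ (fderiv ℝ Φ y X) (fderiv ℝ Φ y Y)
      + fderiv ℝ (fderiv ℝ Φ) y X Y := by
  have hdΦ : DifferentiableAt ℝ Φ y := hΦ.differentiableAt (by norm_num)
  have hddΦ : DifferentiableAt ℝ (fderiv ℝ Φ) y :=
    (hΦ.fderiv_right (m := 1) (by norm_num)).differentiableAt (by norm_num)
  have hsymΦ : ∀ U V, fderiv ℝ (fderiv ℝ Φ) y U V = fderiv ℝ (fderiv ℝ Φ) y V U := by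
    have h := hΦ.isSymmSndFDerivAt (by simp)
    exact fun U V => h.eq U V
  -- derivative of the pulled back metric
  have hD : ∀ W U V, fderiv ℝ G' y W U V =
      fderiv ℝ G (Φ y) (fderiv ℝ Φ y W) (fderiv ℝ Φ y U) (fderiv ℝ Φ y V)
      + G (Φ y) (fderiv ℝ (fderiv ℝ Φ) y W U) (fderiv ℝ Φ y V)
      + G (Φ y) (fderiv ℝ Φ y U) (fderiv ℝ (fderiv ℝ Φ) y W V) := by
    intro W U V
    have e1 : (fun z => G' z U V) =ᶠ[𝓝 y]
        fun z => G (Φ z) (fderiv ℝ Φ z U) (fderiv ℝ Φ z V) := by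
      filter_upwards [hpull] with z hz using hz U V
    have e2 : fderiv ℝ (fun z => G' z U V) y W = fderiv ℝ G' y W U V := by
      have := fderiv_apply2 (G := G') (Φ := fun z => z) (u := fun _ => U) (v := fun _ => V)
        (y := y) hG' differentiableAt_id (differentiableAt_const _) (differentiableAt_const _) W
      simpa using this
    rw [← e2, e1.fderiv_eq]
    have hu : DifferentiableAt ℝ (fun z => fderiv ℝ Φ z U) y :=
      hddΦ.clm_apply (differentiableAt_const _)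
    have hv : DifferentiableAt ℝ (fun z => fderiv ℝ Φ z V) y :=
      hddΦ.clm_apply (differentiableAt_const _)
    rw [fderiv_apply2 hG hdΦ hu hv]
    have hU : ∀ U : E, fderiv ℝ (fun z => fderiv ℝ Φ z U) y W = fderiv ℝ (fderiv ℝ Φ) y W U := by
      intro U
      rw [fderiv_clm_apply hddΦ (differentiableAt_const _)]
      simp
    rw [hU, hU]
  have hpy : ∀ X Y, G' y X Y = G (Φ y) (fderiv ℝ Φ y X) (fderiv ℝ Φ y Y) := hpull.self_of_nhds
  rw [← sub_eq_zero]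
  apply hnd
  intro Z'
  obtain ⟨Z, rfl⟩ := hsurj Z'
  have k1 := hΓ' X Y Z
  have k2 := hΓ (fderiv ℝ Φ y X) (fderiv ℝ Φ y Y) (fderiv ℝ Φ y Z)
  rw [hpy, hD, hD, hD] at k1
  rw [map_sub, map_add, sub_apply, add_apply, k1, k2]
  rw [hsymΦ Y X, hsymΦ Z X, hsymΦ Z Y]
  rw [hsymm (fderiv ℝ Φ y Y) (fderiv ℝ (fderiv ℝ Φ) y X Z)]
  rw [hsymm (fderiv ℝ (fderiv ℝ Φ) y X Z) (fderiv ℝ Φ y Y)]
  rw [hsymm (fderiv ℝ Φ y X) (fderiv ℝ (fderiv ℝ Φ) y Y Z)]
  rw [hsymm (fderiv ℝ Φ y Y) (fderiv ℝ (fderiv ℝ Φ) y X Z)]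
  ring

/-- Transformation law of the curvature. -/
theorem curv_transform {Γ Γ' : E → E →L[ℝ] E →L[ℝ] E} {Φ : E → E} {y : E}
    (hΦ : ContDiffAt ℝ 3 Φ y)
    (hΓ : DifferentiableAt ℝ Γ (Φ y)) (hΓ' : DifferentiableAt ℝ Γ' y)
    (h : ∀ᶠ z in 𝓝 y, ∀ X Y, fderiv ℝ Φ z (Γ' z X Y) =
      Γ (Φ z) (fderiv ℝ Φ z X) (fderiv ℝ Φ z Y) + fderiv ℝ (fderiv ℝ Φ) z X Y)
    (W X Y : E) :
    fderiv ℝ Φ y (curv Γ' y W X Y) =
      curv Γ (Φ y) (fderiv ℝ Φ y W) (fderiv ℝ Φ y X) (fderiv ℝ Φ y Y) := by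
  have hdΦ : DifferentiableAt ℝ Φ y := hΦ.differentiableAt (by norm_num)
  have hC2 : ContDiffAt ℝ 2 (fderiv ℝ Φ) y := hΦ.fderiv_right (m := 2) (by norm_num)
  have hddΦ : DifferentiableAt ℝ (fderiv ℝ Φ) y := hC2.differentiableAt (by norm_num)
  have hdddΦ : DifferentiableAt ℝ (fderiv ℝ (fderiv ℝ Φ)) y :=
    (hC2.fderiv_right (m := 1) (by norm_num)).differentiableAt (by norm_num)
  have hsymΦ : ∀ U V, fderiv ℝ (fderiv ℝ Φ) y U V = fderiv ℝ (fderiv ℝ Φ) y V U := by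
    have h := (hΦ.of_le (m := 2) (by norm_num)).isSymmSndFDerivAt (by simp)
    exact fun U V => h.eq U V
  have hsym3 : ∀ U V, fderiv ℝ (fderiv ℝ (fderiv ℝ Φ)) y U V
      = fderiv ℝ (fderiv ℝ (fderiv ℝ Φ)) y V U := by
    have h := hC2.isSymmSndFDerivAt (by simp)
    exact fun U V => h.eq U V
  have hy := h.self_of_nhds
  -- differentiated identity
  have hI : ∀ W X : E, fderiv ℝ (fderiv ℝ Φ) y W (Γ' y X Y) + fderiv ℝ Φ y (fderiv ℝ Γ' y W X Y)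
      = fderiv ℝ Γ (Φ y) (fderiv ℝ Φ y W) (fderiv ℝ Φ y X) (fderiv ℝ Φ y Y)
        + Γ (Φ y) (fderiv ℝ (fderiv ℝ Φ) y W X) (fderiv ℝ Φ y Y)
        + Γ (Φ y) (fderiv ℝ Φ y X) (fderiv ℝ (fderiv ℝ Φ) y W Y)
        + fderiv ℝ (fderiv ℝ (fderiv ℝ Φ)) y W X Y := by
    intro W X
    have e1 : (fun z => fderiv ℝ Φ z (Γ' z X Y)) =ᶠ[𝓝 y]
        fun z => Γ (Φ z) (fderiv ℝ Φ z X) (fderiv ℝ Φ z Y) + fderiv ℝ (fderiv ℝ Φ) z X Y := by
      filter_upwards [h] with z hz using hz X Y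
    have hΓXY : DifferentiableAt ℝ (fun z => Γ' z X Y) y :=
      (hΓ'.clm_apply (differentiableAt_const _)).clm_apply (differentiableAt_const _)
    have e2 : fderiv ℝ (fun z => fderiv ℝ Φ z (Γ' z X Y)) y W
        = fderiv ℝ (fderiv ℝ Φ) y W (Γ' y X Y) + fderiv ℝ Φ y (fderiv ℝ Γ' y W X Y) := by
      rw [fderiv_clm_apply hddΦ hΓXY]
      simp only [add_apply, ContinuousLinearMap.comp_apply,
        ContinuousLinearMap.flip_apply]
      have := fderiv_apply2 (G := Γ') (Φ := fun z => z) (u := fun _ => X) (v := fun _ => Y)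
        (y := y) hΓ' differentiableAt_id (differentiableAt_const _) (differentiableAt_const _) W
      simp only [fderiv_fun_id, ContinuousLinearMap.coe_id', id_eq, fderiv_fun_const, Pi.zero_apply,
        zero_apply, map_zero, add_zero] at this
      rw [this, add_comm]
    rw [← e2, e1.fderiv_eq]
    have hu : DifferentiableAt ℝ (fun z => fderiv ℝ Φ z X) y :=
      hddΦ.clm_apply (differentiableAt_const _)
    have hv : DifferentiableAt ℝ (fun z => fderiv ℝ Φ z Y) y :=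
      hddΦ.clm_apply (differentiableAt_const _)
    have hG3 : DifferentiableAt ℝ
        (fun z => Γ (Φ z) (fderiv ℝ Φ z X) (fderiv ℝ Φ z Y)) y :=
      ((hΓ.comp y hdΦ).clm_apply hu).clm_apply hv
    have hH : DifferentiableAt ℝ (fun z => fderiv ℝ (fderiv ℝ Φ) z X Y) y :=
      (hdddΦ.clm_apply (differentiableAt_const _)).clm_apply (differentiableAt_const _)
    rw [fderiv_fun_add hG3 hH, add_apply, fderiv_apply2 hΓ hdΦ hu hv]
    have hU : ∀ U : E, fderiv ℝ (fun z => fderiv ℝ Φ z U) y W = fderiv ℝ (fderiv ℝ Φ) y W U := by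
      intro U
      rw [fderiv_clm_apply hddΦ (differentiableAt_const _)]
      simp
    have hHU : fderiv ℝ (fun z => fderiv ℝ (fderiv ℝ Φ) z X Y) y W
        = fderiv ℝ (fderiv ℝ (fderiv ℝ Φ)) y W X Y := by
      have := fderiv_apply2 (G := fderiv ℝ (fderiv ℝ Φ)) (Φ := fun z => z) (u := fun _ => X)
        (v := fun _ => Y) (y := y) hdddΦ differentiableAt_id (differentiableAt_const _)
        (differentiableAt_const _) W
      simpa using this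
    rw [hU, hU, hHU]
  have h1 := hI W X
  have h2 := hI X W
  rw [hsymΦ X W, hsym3 X W] at h2
  -- the connection identity applied to `W, Γ' X Y` etc.
  have a1 := hy W (Γ' y X Y)
  have a2 := hy X (Γ' y W Y)
  rw [hy X Y, map_add] at a1
  rw [hy W Y, map_add] at a2
  unfold curv
  rw [map_sub, map_add, map_sub, a1, a2]
  have h3 : fderiv ℝ Φ y (fderiv ℝ Γ' y W X Y) =
      fderiv ℝ Γ (Φ y) (fderiv ℝ Φ y W) (fderiv ℝ Φ y X) (fderiv ℝ Φ y Y)
        + Γ (Φ y) (fderiv ℝ (fderiv ℝ Φ) y W X) (fderiv ℝ Φ y Y)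
        + Γ (Φ y) (fderiv ℝ Φ y X) (fderiv ℝ (fderiv ℝ Φ) y W Y)
        + fderiv ℝ (fderiv ℝ (fderiv ℝ Φ)) y W X Y - fderiv ℝ (fderiv ℝ Φ) y W (Γ' y X Y) :=
    eq_sub_of_add_eq' h1
  have h4 : fderiv ℝ Φ y (fderiv ℝ Γ' y X W Y) =
      fderiv ℝ Γ (Φ y) (fderiv ℝ Φ y X) (fderiv ℝ Φ y W) (fderiv ℝ Φ y Y)
        + Γ (Φ y) (fderiv ℝ (fderiv ℝ Φ) y W X) (fderiv ℝ Φ y Y)
        + Γ (Φ y) (fderiv ℝ Φ y W) (fderiv ℝ (fderiv ℝ Φ) y X Y)
        + fderiv ℝ (fderiv ℝ (fderiv ℝ Φ)) y W X Y - fderiv ℝ (fderiv ℝ Φ) y X (Γ' y W Y) :=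
    eq_sub_of_add_eq' h2
  rw [h3, h4]
  abel

end Crest.Agent.R202.Tens
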