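import Crest.Agent.R202.GateBlow

/-!
# Row 202, PART C: the clause `home` (levels and cuts at home), abstract part (helper816)

At a parameter `b0` without ties (sorted enumeration `e` of the labels) the perturbed spindle
`(b0, G = 0)` with a sharp tip (`k` large) is separated by the first `l` ideal eigenfunctions with
levels close to the ideal ones.
-/

set_option autoImplicit false

noncomputable section

open Filter Topology Set Module
open Crest.Agent.R202.Lab Crest.Agent.R202.Cut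

namespace Crest.Agent.R202.SF

variable {d : ℕ} {b0 b1 : ℝ} {OK : ℕ × ℕ → Prop} {T : Type*} [AddCommGroup T] [Module ℝ T]
  {V : ℕ × ℕ → Type*} [∀ σ, AddCommGroup (V σ)] [∀ σ, Module ℝ (V σ)]
  (F : SpindleFamily d b0 b1 OK T V)

theorem SpindleFamily.sz_zero_home : F.sz 0 = 0 := by
  have h := F.sz_smul 0 0
  simpa using h

/-- **(HOME), abstract** -/
theorem SpindleFamily.home_sep (hb0 : 0 < b0) (h01 : b0 ≤ b1) {σ : ℕ × ℕ} (hσ : OK σ)
    {e : ℕ → ℕ × ℕ} (he : ∀ i, e i ∈ lab σ.2) (hm : StrictMono fun i => mu b0 (e i))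
    (hs : ∀ p ∈ lab σ.2, ∃ i, e i = p) {l : ℕ} (hl : 1 ≤ l) {ε : ℝ} (hε : 0 < ε)
    (hε2 : 2 * ε < lev d σ.1 b0 (e l) - lev d σ.1 b0 (e (l - 1))) :
    ∃ K : ℕ, ∀ k, K ≤ k →
      Sep (F.g σ) (F.a σ b0 0 k)
        (Submodule.span ℝ (Set.range fun i : Fin l => F.ψ σ b0 ⟨e i, he i⟩))
        (lev d σ.1 b0 (e (l - 1)) + ε) (lev d σ.1 b0 (e l) - ε) := by
  classical
  have hbI : b0 ∈ Icc b0 b1 := ⟨le_rfl, h01⟩
  have h := F.eig σ hσ b0 hbI
  set E : ℕ → Lbl σ.2 := fun i => ⟨e i, he i⟩ with hE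
  set S : Finset (Lbl σ.2) := (Finset.range l).image E with hS
  set Cl : Finset (Lbl σ.2) := {E l} with hCl
  set J : ℝ := mu b0 (e l) with hJ
  have hJ0 : 0 ≤ J := mu_nonneg hb0.le _
  have memS : ∀ p ∈ S, ∃ i < l, p = E i := fun p hp => by
    obtain ⟨i, hi, rfl⟩ := Finset.mem_image.1 hp
    exact ⟨i, Finset.mem_range.1 hi, rfl⟩
  obtain ⟨γ, hγ, h1, h2, h3⟩ := exists_gap (d := d) (q := σ.1) hb0 (S := S) (Cl := Cl) hJ0
    (fun p hp => by
      obtain ⟨i, hi, rfl⟩ := memS p hp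
      exact hm hi)
    (fun p hp => by rw [Finset.mem_singleton.1 hp])
    (fun p hp hp' => by
      obtain ⟨i, hi⟩ := hs p p.2
      have hpE : p = E i := Subtype.ext hi.symm
      rw [hpE] at hp hp' ⊢
      have hil : l < i := by
        rcases lt_trichotomy i l with h4 | h4 | h4
        · exact absurd (Finset.mem_image.2 ⟨i, Finset.mem_range.2 h4, rfl⟩) hp
        · exact absurd (by rw [h4]; exact Finset.mem_singleton_self _) hp'
        · exact h4
      exact hm hil)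
  have hlev : lev d σ.1 b0 (e l) = (J + σ.1) * (J + σ.1 + d + 1) := rfl
  rw [← hlev] at h1 h2 h3
  set lam : ℝ := lev d σ.1 b0 (e l) with hlam
  have hlam0 : 0 ≤ lam := lev_nonneg hb0 _
  obtain ⟨N0, hN0, K1, hK1, C, hC, o, ho0, ho, hblk⟩ := F.blkFam hσ hbI (S := S) (Cl := Cl)
    hlam0 hγ h1 h2 h3
  obtain ⟨C', hC', o', ho0', ho', hcons⟩ := F.consT hσ hbI (S ∪ Cl)
  set ε' : ℝ := min ε (γ / 2) with hε'
  have hε'0 : 0 < ε' := lt_min hε (by positivity)
  have hε'1 : ε' ≤ ε := min_le_left _ _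
  have hε'2 : ε' ≤ γ / 2 := min_le_right _ _
  obtain ⟨k1, hk1⟩ := (eventually_atTop.1 ((tendsto_order.1 ho).2
    (min N0 (min 1 (ε' / (8 * (K1 + 1))))) (by positivity)))
  obtain ⟨k2, hk2⟩ := (eventually_atTop.1 ((tendsto_order.1 ho').2
    (ε' / (2 * (lam + 1))) (by positivity)))
  refine ⟨max k1 k2, fun k hk => ?_⟩
  have hok := (hk1 k ((le_max_left _ _).trans hk)).le
  have hok' := (hk2 k ((le_max_right _ _).trans hk)).le
  have ho1 : o k ≤ N0 := hok.trans (min_le_left _ _)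
  have ho2 : o k ≤ 1 := hok.trans ((min_le_right _ _).trans (min_le_left _ _))
  have ho3 : o k ≤ ε' / (8 * (K1 + 1)) := hok.trans ((min_le_right _ _).trans (min_le_right _ _))
  have hKo : K1 * (o k) ^ 2 ≤ ε' / 8 := by
    have h5 : (o k) ^ 2 ≤ o k := by nlinarith [ho0 k]
    have h6 : K1 * (o k) ^ 2 ≤ (K1 + 1) * o k := by nlinarith [ho0 k]
    have h7 := mul_le_mul_of_nonneg_left ho3 (by positivity : (0:ℝ) ≤ K1 + 1)
    have h8 : (K1 + 1) * (ε' / (8 * (K1 + 1))) = ε' / 8 := by field_simp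
    linarith
  have hlo : o' k * (lam + 1) ≤ ε' / 2 := by
    have h7 := mul_le_mul_of_nonneg_right hok' (by positivity : (0:ℝ) ≤ lam + 1)
    have h8 : ε' / (2 * (lam + 1)) * (lam + 1) = ε' / 2 := by field_simp
    linarith
  have hsz : F.sz 0 ≤ 1 / 2 := by rw [F.sz_zero_home]; norm_num
  have hdist : |b0 - b0| + F.sz 0 = 0 := by rw [F.sz_zero_home, sub_self, abs_zero, add_zero]
  -- the quadratic form on the span of the low modes
  have hclose : ∀ w ∈ Submodule.span ℝ (F.ψ σ b0 '' ((S ∪ Cl : Finset (Lbl σ.2)) : Set (Lbl σ.2))),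
      |F.a σ b0 0 k w w - F.a0 σ b0 w w| ≤ ε' / 2 * F.g σ w w := by
    intro w hw
    have h5 := hcons b0 hbI 0 rfl hsz k w hw w
    rw [hdist, mul_zero, zero_add] at h5
    have h6 : F.a0 σ b0 w w ≤ lam * F.g σ w w := h.a_le_of_mem hw fun p hp => by
      rcases Finset.mem_union.1 hp with hp | hp
      · have := h1 p hp; linarith
      · exact (h2 p hp).le
    have hg := h.gnn w
    have h7 : (F.a σ b0 0 k w w - F.a0 σ b0 w w) ^ 2 ≤ (o' k * (lam + 1) * F.g σ w w) ^ 2 := by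
      refine h5.trans ?_
      have h8 : F.a0 σ b0 w w + F.g σ w w ≤ (lam + 1) ^ 2 * F.g σ w w := by
        have : lam + 1 ≤ (lam + 1) ^ 2 := by nlinarith
        have := mul_le_mul_of_nonneg_right this hg
        linarith
      have h9 := mul_le_mul_of_nonneg_left h8
        (by positivity : (0:ℝ) ≤ (o' k) ^ 2 * F.g σ w w)
      nlinarith
    have h10 := abs_le_of_sq_le_sq h7 (mul_nonneg (mul_nonneg (ho0' k) (by positivity)) hg)
    exact h10.trans (mul_le_mul_of_nonneg_right hlo hg)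
  -- spans
  have hspan : Submodule.span ℝ (Set.range fun i : Fin l => F.ψ σ b0 ⟨e i, he i⟩) =
      Submodule.span ℝ (F.ψ σ b0 '' (S : Set (Lbl σ.2))) := by
    congr 1
    ext v
    constructor
    · rintro ⟨i, rfl⟩
      exact ⟨E i, by rw [hS]; simp only [Finset.coe_image, Set.mem_image]; exact
        ⟨i, by simp, rfl⟩, rfl⟩
    · rintro ⟨p, hp, rfl⟩
      obtain ⟨i, hi, rfl⟩ := memS p hp
      exact ⟨⟨i, hi⟩, rfl⟩
  rw [hspan]
  have hSle : Submodule.span ℝ (F.ψ σ b0 '' (S : Set (Lbl σ.2))) ≤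
      Submodule.span ℝ (F.ψ σ b0 '' ((S ∪ Cl : Finset (Lbl σ.2)) : Set (Lbl σ.2))) :=
    Submodule.span_mono (Set.image_mono (by
      rw [Finset.coe_union]; exact Set.subset_union_left))
  have hCle : Submodule.span ℝ (F.ψ σ b0 '' (Cl : Set (Lbl σ.2))) ≤
      Submodule.span ℝ (F.ψ σ b0 '' ((S ∪ Cl : Finset (Lbl σ.2)) : Set (Lbl σ.2))) :=
    Submodule.span_mono (Set.image_mono (by
      rw [Finset.coe_union]; exact Set.subset_union_right))
  have hsep := hblk b0 hbI 0 rfl hsz k (o k) (by rw [hdist, mul_zero, zero_add]) ho1 ⊥ bot_le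
    (lam - γ / 2) (lam - ε' / 2) le_rfl (by linarith)
    (fun w hw => by rw [(Submodule.mem_bot ℝ).1 hw]; simp)
    (fun z hz _ => by
      have h5 := (abs_le.1 (hclose z (hCle hz))).1
      have h6 : lam * F.g σ z z ≤ F.a0 σ b0 z z := h.le_a_of_mem hz fun p hp => (h2 p hp).ge
      linarith)
    (by linarith)
  rw [sup_bot_eq] at hsep
  refine ⟨by linarith, fun w hw => ?_, fun v hv => ?_⟩
  · have h5 := (abs_le.1 (hclose w (hSle hw))).2
    have h6 : F.a0 σ b0 w w ≤ lev d σ.1 b0 (e (l - 1)) * F.g σ w w :=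
      h.a_le_of_mem hw fun p hp => by
        obtain ⟨i, hi, rfl⟩ := memS p hp
        exact lev_le hb0 (hm.monotone (by omega : i ≤ l - 1))
    have hg := h.gnn w
    have h7 : ε' / 2 * F.g σ w w ≤ ε * F.g σ w w := mul_le_mul_of_nonneg_right (by linarith) hg
    linarith
  · have h5 := hsep.ge v hv
    have h6 := mul_le_mul_of_nonneg_right
      (by linarith : lam - ε ≤ lam - ε' / 2 - K1 * (o k) ^ 2) (h.gnn v)
    linarith

end Crest.Agent.R202.SF
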