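import Crest.Agent.R202.HomeLem

/-! # Row 202, PART B: moving barriers and growth in a home (helper384)

The levels `a t` (upper bound of `L` on the low modes) and `c t` (lower bound on the complement)
may depend on time, with `c t - a t ≥ g`. -/

set_option autoImplicit false
open Set Filter Topology
open scoped RealInnerProductSpace

namespace Crest.Agent.R202.HomeL

/-! ## Scalar part -/

lemma sqrt_mul_le {X Y θ : ℝ} (hX : 0 ≤ X) (hY : 0 ≤ Y) :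
    2 * θ * (√X * √Y) ≤ Y + θ ^ 2 * X := by
  have h1 := Real.sq_sqrt hX
  have h2 := Real.sq_sqrt hY
  nlinarith [sq_nonneg (√Y - θ * √X)]

/-- a differentiable function which is positive at `s` and nondecreasing where it is nonnegative
stays positive -/
lemma pos_of_deriv_nonneg {Q Q' : ℝ → ℝ} {s e : ℝ} (hse : s ≤ e)
    (hQ : ∀ t ∈ Icc s e, HasDerivAt Q (Q' t) t) (h : ∀ t ∈ Icc s e, 0 ≤ Q t → 0 ≤ Q' t)
    (hs : 0 < Q s) : 0 < Q e := by
  by_contra hcon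
  push Not at hcon
  set S : Set ℝ := {t ∈ Icc s e | Q t ≤ 0} with hS
  have hcont : ContinuousOn Q (Icc s e) := fun t ht => (hQ t ht).continuousAt.continuousWithinAt
  have hSc : IsClosed S := by
    have := hcont.preimage_isClosed_of_isClosed isClosed_Icc (isClosed_Iic (a := (0:ℝ)))
    exact this
  have hSn : S.Nonempty := ⟨e, right_mem_Icc.2 hse, hcon⟩
  have hSb : BddBelow S := ⟨s, fun t ht => ht.1.1⟩
  have hmem : sInf S ∈ S := hSc.csInf_mem hSn hSb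
  set t₀ := sInf S with ht₀
  have hst : s ≤ t₀ := hmem.1.1
  have hmono : MonotoneOn Q (Icc s t₀) := by
    apply monotoneOn_of_deriv_nonneg (convex_Icc s t₀)
    · exact hcont.mono (Icc_subset_Icc le_rfl hmem.1.2)
    · intro t ht
      rw [interior_Icc] at ht
      exact (hQ t ⟨ht.1.le, ht.2.le.trans hmem.1.2⟩).differentiableAt.differentiableWithinAt
    · intro t ht
      rw [interior_Icc] at ht
      have ht' : t ∈ Icc s e := ⟨ht.1.le, ht.2.le.trans hmem.1.2⟩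
      rw [(hQ t ht').deriv]
      apply h t ht'
      by_contra hneg
      push Not at hneg
      have : t ∈ S := ⟨ht', hneg.le⟩
      exact absurd (csInf_le hSb this) (not_le.2 ht.2)
  have := hmono (left_mem_Icc.2 hst) (right_mem_Icc.2 hst) hst
  have h2 := hmem.2
  linarith

/-- moving barrier -/
theorem barrier {X Y X' Y' a c : ℝ → ℝ} {s e g ζ κ θ₀ : ℝ} (hse : s ≤ e)
    (ha0 : ∀ t ∈ Icc s e, 0 ≤ a t) (hac : ∀ t ∈ Icc s e, a t + g ≤ c t) (hg : 0 ≤ g)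
    (hX : ∀ t ∈ Icc s e, HasDerivAt X (X' t) t) (hY : ∀ t ∈ Icc s e, HasDerivAt Y (Y' t) t)
    (hX0 : ∀ t ∈ Icc s e, 0 ≤ X t) (hY0 : ∀ t ∈ Icc s e, 0 ≤ Y t)
    (hX' : ∀ t ∈ Icc s e, X' t ≤ 2 * a t * X t + 2 * ζ * (√(X t) * √(Y t)))
    (hY' : ∀ t ∈ Icc s e, 2 * c t * Y t - 2 * ζ * (√(X t) * √(Y t)) ≤ Y' t)
    (hκ : κ ≤ g / 2) (hθ₀ : 0 < θ₀)
    (hθ : ∀ t ∈ Icc s e, 2 * ζ * (1 + (θ₀ * Real.exp (κ * (t - s))) ^ 2)
      ≤ θ₀ * Real.exp (κ * (t - s)) * g)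
    (hs : θ₀ ^ 2 * X s < Y s) : (θ₀ * Real.exp (κ * (e - s))) ^ 2 * X e < Y e := by
  set F : ℝ → ℝ := fun t => Y t - (θ₀ * Real.exp (κ * (t - s))) ^ 2 * X t with hF
  have hder : ∀ t ∈ Icc s e, HasDerivAt F
      (Y' t - (θ₀ * Real.exp (κ * (t - s))) ^ 2 * X' t
        - 2 * κ * (θ₀ * Real.exp (κ * (t - s))) ^ 2 * X t) t := by
    intro t ht
    have h2 : HasDerivAt (fun t => θ₀ * Real.exp (κ * (t - s)))
        (θ₀ * (Real.exp (κ * (t - s)) * κ)) t := by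
      have h0 : HasDerivAt (fun t : ℝ => κ * (t - s)) κ t := by
        have := ((hasDerivAt_id t).sub_const s).const_mul κ
        simp only [id, mul_one] at this
        exact this
      exact h0.exp.const_mul θ₀
    have h3 := (hY t ht).sub ((h2.pow 2).mul (hX t ht))
    refine h3.congr_deriv ?_
    simp only [Pi.pow_apply]
    ring
  have hnn : ∀ t ∈ Icc s e, 0 ≤ F t → 0 ≤ Y' t - (θ₀ * Real.exp (κ * (t - s))) ^ 2 * X' t
        - 2 * κ * (θ₀ * Real.exp (κ * (t - s))) ^ 2 * X t := by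
    intro t ht hFt
    simp only [hF] at hFt
    have h3 := hθ t ht
    set θ := θ₀ * Real.exp (κ * (t - s)) with hθd
    have hθpos : 0 < θ := mul_pos hθ₀ (Real.exp_pos _)
    have h1 := hX' t ht
    have h2 := hY' t ht
    have h4 := hX0 t ht
    have h5 := hY0 t ht
    set m := √(X t) * √(Y t) with hm
    have hm0 : 0 ≤ m := mul_nonneg (Real.sqrt_nonneg _) (Real.sqrt_nonneg _)
    have h6 := sqrt_mul_le (θ := θ) h4 h5
    rw [← hm] at h6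
    have h7 : θ ^ 2 * X' t ≤ θ ^ 2 * (2 * a t * X t + 2 * ζ * m) :=
      mul_le_mul_of_nonneg_left h1 (sq_nonneg θ)
    have h8 : 2 * ζ * (1 + θ ^ 2) * m ≤ θ * g * m := mul_le_mul_of_nonneg_right h3 hm0
    have h9 : g / 4 * (2 * θ * m) ≤ g / 4 * (Y t + θ ^ 2 * X t) :=
      mul_le_mul_of_nonneg_left h6 (by linarith)
    have h10 : 0 ≤ θ ^ 2 * X t := mul_nonneg (sq_nonneg _) h4
    have h11 : κ * (θ ^ 2 * X t) ≤ g / 2 * (θ ^ 2 * X t) :=
      mul_le_mul_of_nonneg_right hκ h10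
    have ha := ha0 t ht
    have hc := hac t ht
    have h12 : (a t + g) * Y t ≤ c t * Y t := mul_le_mul_of_nonneg_right hc h5
    -- at a point with `θ² X ≤ Y`
    have h13 : (a t + 3 * g / 4) * (θ ^ 2 * X t) ≤ (a t + 3 * g / 4) * Y t := by
      apply mul_le_mul_of_nonneg_left (by linarith)
      positivity
    nlinarith
  have := pos_of_deriv_nonneg hse hder hnn (by simp only [hF]; simpa using hs)
  simp only [hF] at this
  linarith

/-- growth in the cone -/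
theorem growth_scalar {X Y X' : ℝ → ℝ} {s e a ζ θ : ℝ} (hse : s ≤ e) (hζ : 0 ≤ ζ) (hθ : 0 ≤ θ)
    (hX : ∀ t ∈ Icc s e, HasDerivAt X (X' t) t)
    (hX0 : ∀ t ∈ Icc s e, 0 ≤ X t)
    (hX' : ∀ t ∈ Icc s e, X' t ≤ 2 * a * X t + 2 * ζ * (√(X t) * √(Y t)))
    (hcone : ∀ t ∈ Icc s e, Y t ≤ θ ^ 2 * X t) :
    X e ≤ Real.exp (2 * (a + ζ * θ) * (e - s)) * X s := by
  set μ : ℝ := a + ζ * θ with hμ
  set F : ℝ → ℝ := fun t => Real.exp (-(2 * μ * (t - s))) * X t with hF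
  have hder : ∀ t ∈ Icc s e, HasDerivAt F
      (Real.exp (-(2 * μ * (t - s))) * (X' t - 2 * μ * X t)) t := by
    intro t ht
    have h1 : HasDerivAt (fun t => Real.exp (-(2 * μ * (t - s))))
        (Real.exp (-(2 * μ * (t - s))) * (-(2 * μ))) t := by
      have h0 : HasDerivAt (fun t : ℝ => -(2 * μ * (t - s))) (-(2 * μ)) t := by
        have := ((hasDerivAt_id t).sub_const s).const_mul (-(2 * μ))
        simp only [id, mul_one] at this
        refine this.congr_of_eventuallyEq (Eventually.of_forall fun x => ?_)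
        simp only; ring
      exact h0.exp
    refine (h1.mul (hX t ht)).congr_deriv ?_
    ring
  have hanti : AntitoneOn F (Icc s e) := by
    apply antitoneOn_of_deriv_nonpos (convex_Icc s e)
    · exact fun t ht => (hder t ht).continuousAt.continuousWithinAt
    · intro t ht
      rw [interior_Icc] at ht
      exact (hder t (Ioo_subset_Icc_self ht)).differentiableAt.differentiableWithinAt
    · intro t ht
      rw [interior_Icc] at ht
      have ht' := Ioo_subset_Icc_self ht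
      rw [(hder t ht').deriv]
      have h1 : √(X t) * √(Y t) ≤ θ * X t := by
        have h2 : √(Y t) ≤ θ * √(X t) := by
          rw [← Real.sqrt_sq hθ, ← Real.sqrt_mul (sq_nonneg θ)]
          exact Real.sqrt_le_sqrt (hcone t ht')
        calc √(X t) * √(Y t) ≤ √(X t) * (θ * √(X t)) := by gcongr
          _ = θ * (√(X t) * √(X t)) := by ring
          _ = θ * X t := by rw [Real.mul_self_sqrt (hX0 t ht')]
      have h3 : X' t - 2 * μ * X t ≤ 0 := by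
        have := hX' t ht'
        have h4 : ζ * (√(X t) * √(Y t)) ≤ ζ * (θ * X t) := mul_le_mul_of_nonneg_left h1 hζ
        rw [hμ]; nlinarith
      exact mul_nonpos_of_nonneg_of_nonpos (Real.exp_pos _).le h3
  have h := hanti (left_mem_Icc.2 hse) (right_mem_Icc.2 hse) hse
  have h0 : F s = X s := by simp [hF]
  rw [h0] at h
  have h1 : X e = Real.exp (2 * μ * (e - s)) * F e := by
    simp only [hF]
    rw [← mul_assoc, ← Real.exp_add]
    simp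
  rw [h1]
  exact mul_le_mul_of_nonneg_left h (Real.exp_pos _).le

/-! ## Curves -/

variable {G : Type*} [NormedAddCommGroup G] [InnerProductSpace ℝ G]

/-- block bounds on `[s, e]` -/
structure HomeB (L : ℝ → G →L[ℝ] G) (P : G →L[ℝ] G) (a c : ℝ → ℝ) (g ζ s e : ℝ) : Prop where
  Psym : ∀ x y, ⟪P x, y⟫ = ⟪x, P y⟫
  Pidem : ∀ x, P (P x) = P x
  Lsym : ∀ t ∈ Icc s e, ∀ x y, ⟪L t x, y⟫ = ⟪x, L t y⟫
  up : ∀ t ∈ Icc s e, ∀ x, P x = x → ⟪L t x, x⟫ ≤ a t * ‖x‖ ^ 2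
  low : ∀ t ∈ Icc s e, ∀ y, P y = 0 → c t * ‖y‖ ^ 2 ≤ ⟪L t y, y⟫
  off : ∀ t ∈ Icc s e, ∀ x y, P x = x → P y = 0 → |⟪L t x, y⟫| ≤ ζ * (‖x‖ * ‖y‖)
  a_nonneg : ∀ t ∈ Icc s e, 0 ≤ a t
  ac : ∀ t ∈ Icc s e, a t + g ≤ c t
  g_pos : 0 < g
  ζ_nonneg : 0 ≤ ζ

/-- `u' = L u` on `[s, e]` -/
def Sol (L : ℝ → G →L[ℝ] G) (u : ℝ → G) (s e : ℝ) : Prop :=
  ∀ t ∈ Icc s e, HasDerivAt u (L t (u t)) t

variable {L : ℝ → G →L[ℝ] G} {P : G →L[ℝ] G} {a c : ℝ → ℝ} {g ζ s e : ℝ} {u : ℝ → G}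

lemma HomeB.mono (h : HomeB L P a c g ζ s e) {s' e' : ℝ} (hs : s ≤ s') (he : e' ≤ e) :
    HomeB L P a c g ζ s' e' :=
  { h with
    Lsym := fun t ht => h.Lsym t ⟨hs.trans ht.1, ht.2.trans he⟩
    up := fun t ht => h.up t ⟨hs.trans ht.1, ht.2.trans he⟩
    low := fun t ht => h.low t ⟨hs.trans ht.1, ht.2.trans he⟩
    off := fun t ht => h.off t ⟨hs.trans ht.1, ht.2.trans he⟩
    a_nonneg := fun t ht => h.a_nonneg t ⟨hs.trans ht.1, ht.2.trans he⟩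
    ac := fun t ht => h.ac t ⟨hs.trans ht.1, ht.2.trans he⟩ }

lemma Sol.mono (hu : Sol L u s e) {s' e' : ℝ} (hs : s ≤ s') (he : e' ≤ e) : Sol L u s' e' :=
  fun t ht => hu t ⟨hs.trans ht.1, ht.2.trans he⟩

lemma HomeB.orth (h : HomeB L P a c g ζ s e) (z : G) : P (z - P z) = 0 := by
  rw [map_sub, h.Pidem, sub_self]

lemma HomeB.pyth (h : HomeB L P a c g ζ s e) (z : G) : ‖z‖ ^ 2 = ‖P z‖ ^ 2 + ‖z - P z‖ ^ 2 := by
  have h1 : ⟪P z, z - P z⟫ = 0 := by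
    rw [h.Psym, h.orth, inner_zero_right]
  have h2 : z = P z + (z - P z) := by abel
  have h3 := norm_add_sq_real (P z) (z - P z)
  rw [← h2, h1] at h3
  linarith

lemma HomeB.derX (h : HomeB L P a c g ζ s e) (hu : Sol L u s e) {t : ℝ} (ht : t ∈ Icc s e) :
    HasDerivAt (fun τ => ‖P (u τ)‖ ^ 2) (2 * ⟪P (u t), L t (u t)⟫) t := by
  have h1 : HasDerivAt (fun τ => P (u τ)) (P (L t (u t))) t := P.hasFDerivAt.comp_hasDerivAt t (hu t ht)
  have h2 := h1.norm_sq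
  refine h2.congr_deriv ?_
  rw [← h.Psym, h.Pidem]

lemma HomeB.derY (h : HomeB L P a c g ζ s e) (hu : Sol L u s e) {t : ℝ} (ht : t ∈ Icc s e) :
    HasDerivAt (fun τ => ‖u τ - P (u τ)‖ ^ 2) (2 * ⟪u t - P (u t), L t (u t)⟫) t := by
  have h1 : HasDerivAt (fun τ => P (u τ)) (P (L t (u t))) t := P.hasFDerivAt.comp_hasDerivAt t (hu t ht)
  have h2 : HasDerivAt (fun τ => u τ - P (u τ)) (L t (u t) - P (L t (u t))) t := (hu t ht).sub h1
  refine h2.norm_sq.congr_deriv ?_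
  rw [inner_sub_right, ← h.Psym, h.orth, inner_zero_left, sub_zero]

lemma HomeB.X'_le (h : HomeB L P a c g ζ s e) {t : ℝ} (ht : t ∈ Icc s e) {A : ℝ}
    (hA : ∀ x, P x = x → ⟪L t x, x⟫ ≤ A * ‖x‖ ^ 2) (z : G) :
    2 * ⟪P z, L t z⟫ ≤ 2 * A * ‖P z‖ ^ 2 + 2 * ζ * (√(‖P z‖ ^ 2) * √(‖z - P z‖ ^ 2)) := by
  rw [Real.sqrt_sq (norm_nonneg _), Real.sqrt_sq (norm_nonneg _)]
  have e1 : ⟪P z, L t z⟫ = ⟪L t (P z), P z⟫ + ⟪L t (P z), z - P z⟫ := by
    rw [← inner_add_right, ← h.Lsym t ht]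
    congr 1
    abel
  have h1 := hA (P z) (h.Pidem z)
  have h2 := (abs_le.1 (h.off t ht (P z) (z - P z) (h.Pidem z) (h.orth z))).2
  rw [e1]
  linarith

lemma HomeB.Y'_ge (h : HomeB L P a c g ζ s e) {t : ℝ} (ht : t ∈ Icc s e) (z : G) :
    2 * c t * ‖z - P z‖ ^ 2 - 2 * ζ * (√(‖P z‖ ^ 2) * √(‖z - P z‖ ^ 2))
      ≤ 2 * ⟪z - P z, L t z⟫ := by
  rw [Real.sqrt_sq (norm_nonneg _), Real.sqrt_sq (norm_nonneg _)]
  have e1 : ⟪z - P z, L t z⟫ = ⟪L t (z - P z), z - P z⟫ + ⟪L t (P z), z - P z⟫ := by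
    rw [← inner_add_left, ← map_add]
    have : z - P z + P z = z := by abel
    rw [this, real_inner_comm]
  have h1 := h.low t ht (z - P z) (h.orth z)
  have h2 := (abs_le.1 (h.off t ht (P z) (z - P z) (h.Pidem z) (h.orth z))).1
  rw [e1]
  linarith

/-- moving barrier for curves -/
theorem HomeB.barrier (h : HomeB L P a c g ζ s e) (hu : Sol L u s e) (hse : s ≤ e)
    {κ θ₀ : ℝ} (hκ : κ ≤ g / 2) (hθ₀ : 0 < θ₀)
    (hθ : ∀ t ∈ Icc s e, 2 * ζ * (1 + (θ₀ * Real.exp (κ * (t - s))) ^ 2)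
      ≤ θ₀ * Real.exp (κ * (t - s)) * g)
    (hs : θ₀ * ‖P (u s)‖ < ‖u s - P (u s)‖) :
    θ₀ * Real.exp (κ * (e - s)) * ‖P (u e)‖ < ‖u e - P (u e)‖ := by
  have hmain := HomeL.barrier (X := fun τ => ‖P (u τ)‖ ^ 2) (Y := fun τ => ‖u τ - P (u τ)‖ ^ 2)
    (X' := fun t => 2 * ⟪P (u t), L t (u t)⟫) (Y' := fun t => 2 * ⟪u t - P (u t), L t (u t)⟫)
    hse h.a_nonneg h.ac h.g_pos.le
    (fun t ht => h.derX hu ht) (fun t ht => h.derY hu ht) (fun t _ => sq_nonneg _)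
    (fun t _ => sq_nonneg _) (fun t ht => h.X'_le ht (h.up t ht) (u t))
    (fun t ht => h.Y'_ge ht (u t))
    hκ hθ₀ hθ (by
      rw [← mul_pow]
      exact pow_lt_pow_left₀ hs (by positivity) (by norm_num))
  rw [← mul_pow] at hmain
  exact lt_of_pow_lt_pow_left₀ 2 (norm_nonneg _) hmain

/-- cones are invariant inward -/
theorem HomeB.cone_inward (h : HomeB L P a c g ζ s e) (hu : Sol L u s e) (hse : s ≤ e)
    {θ : ℝ} (hθ₀ : 0 < θ) (hθ : 2 * ζ * (1 + θ ^ 2) ≤ θ * g)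
    (he : ‖u e - P (u e)‖ ≤ θ * ‖P (u e)‖) : ‖u s - P (u s)‖ ≤ θ * ‖P (u s)‖ := by
  by_contra hcon
  push Not at hcon
  have := h.barrier hu hse (κ := 0) (by linarith [h.g_pos]) hθ₀ (by
    intro t _; simpa using hθ) hcon
  simp only [zero_mul, Real.exp_zero, mul_one] at this
  linarith

/-- narrowing of the cones inward -/
theorem HomeB.narrow (h : HomeB L P a c g ζ s e) (hu : Sol L u s e)
    {θ₁ θ₂ : ℝ} (hθ₁ : 0 < θ₁) (hθ₁₂ : θ₁ ≤ θ₂)
    (hθ : 2 * ζ * (1 + θ₂ ^ 2) ≤ θ₁ * g)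
    (hlen : 2 / g * Real.log (θ₂ / θ₁) ≤ e - s)
    (he : ‖u e - P (u e)‖ ≤ θ₂ * ‖P (u e)‖) : ‖u s - P (u s)‖ ≤ θ₁ * ‖P (u s)‖ := by
  by_contra hcon
  push Not at hcon
  have hg : 0 < g := h.g_pos
  have hθ₂ : 0 < θ₂ := hθ₁.trans_le hθ₁₂
  set m := s + 2 / g * Real.log (θ₂ / θ₁) with hm
  have hlog : 0 ≤ Real.log (θ₂ / θ₁) := Real.log_nonneg ((one_le_div hθ₁).2 hθ₁₂)
  have hsm : s ≤ m := by
    have : 0 ≤ 2 / g * Real.log (θ₂ / θ₁) := by positivity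
    linarith
  have hme : m ≤ e := by linarith
  have hexp : θ₁ * Real.exp (g / 2 * (m - s)) = θ₂ := by
    have : g / 2 * (m - s) = Real.log (θ₂ / θ₁) := by
      rw [hm]; field_simp; ring
    rw [this, Real.exp_log (by positivity)]
    field_simp
  have hb := (h.mono le_rfl hme).barrier (hu.mono le_rfl hme) hsm (κ := g / 2) le_rfl hθ₁
    (by
      intro t ht
      have h1 : 1 ≤ Real.exp (g / 2 * (t - s)) :=
        Real.one_le_exp (by have := ht.1; apply mul_nonneg <;> linarith)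
      have h2 : θ₁ * Real.exp (g / 2 * (t - s)) ≤ θ₂ := by
        rw [← hexp]
        have := ht.2
        gcongr
      have h3 : θ₁ ≤ θ₁ * Real.exp (g / 2 * (t - s)) := by nlinarith
      have h4 : 0 < θ₁ * Real.exp (g / 2 * (t - s)) := by positivity
      calc 2 * ζ * (1 + (θ₁ * Real.exp (g / 2 * (t - s))) ^ 2)
          ≤ 2 * ζ * (1 + θ₂ ^ 2) := by
            have := h.ζ_nonneg
            gcongr
        _ ≤ θ₁ * g := hθ
        _ ≤ _ := by gcongr) hcon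
  rw [hexp] at hb
  have hc := (h.mono hsm le_rfl).cone_inward (hu.mono hsm le_rfl) hme hθ₂ (by
    calc 2 * ζ * (1 + θ₂ ^ 2) ≤ θ₁ * g := hθ
      _ ≤ θ₂ * g := by gcongr) he
  linarith

/-- growth in the cone, outward, for a constant upper bound `A` of `L` on the low modes -/
theorem HomeB.growth (h : HomeB L P a c g ζ s e) (hu : Sol L u s e) (hse : s ≤ e)
    {θ A : ℝ} (hθ₀ : 0 < θ) (hθ : 2 * ζ * (1 + θ ^ 2) ≤ θ * g)
    (hA : ∀ t ∈ Icc s e, ∀ x, P x = x → ⟪L t x, x⟫ ≤ A * ‖x‖ ^ 2)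
    (he : ‖u e - P (u e)‖ ≤ θ * ‖P (u e)‖) :
    ‖u e‖ ≤ (1 + θ) * Real.exp ((A + ζ * θ) * (e - s)) * ‖u s‖ := by
  have hcone : ∀ t ∈ Icc s e, ‖u t - P (u t)‖ ^ 2 ≤ θ ^ 2 * ‖P (u t)‖ ^ 2 := by
    intro t ht
    have := (h.mono ht.1 le_rfl).cone_inward (hu.mono ht.1 le_rfl) ht.2 hθ₀ hθ he
    rw [← mul_pow]
    exact pow_le_pow_left₀ (norm_nonneg _) this 2
  have h1 := growth_scalar (X := fun τ => ‖P (u τ)‖ ^ 2) (Y := fun τ => ‖u τ - P (u τ)‖ ^ 2)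
    (X' := fun t => 2 * ⟪P (u t), L t (u t)⟫) hse h.ζ_nonneg hθ₀.le (fun t ht => h.derX hu ht)
    (fun t _ => sq_nonneg _) (fun t ht => h.X'_le ht (hA t ht) (u t)) hcone
  have h0 : ‖P (u s)‖ ^ 2 ≤ ‖u s‖ ^ 2 := by
    rw [h.pyth (u s)]; nlinarith [sq_nonneg ‖u s - P (u s)‖]
  have h2 : ‖u e‖ ^ 2 ≤ ((1 + θ) * Real.exp ((A + ζ * θ) * (e - s)) * ‖u s‖) ^ 2 := by
    rw [mul_pow, mul_pow, ← Real.exp_nat_mul, h.pyth (u e)]
    have h3 := hcone e (right_mem_Icc.2 hse)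
    have e1 : ((2:ℕ):ℝ) * ((A + ζ * θ) * (e - s)) = 2 * (A + ζ * θ) * (e - s) := by
      push_cast; ring
    rw [e1]
    calc ‖P (u e)‖ ^ 2 + ‖u e - P (u e)‖ ^ 2 ≤ (1 + θ ^ 2) * ‖P (u e)‖ ^ 2 := by linarith
      _ ≤ (1 + θ ^ 2) * (Real.exp (2 * (A + ζ * θ) * (e - s)) * ‖P (u s)‖ ^ 2) := by gcongr
      _ ≤ (1 + θ) ^ 2 * (Real.exp (2 * (A + ζ * θ) * (e - s)) * ‖u s‖ ^ 2) := by
          gcongr
          nlinarith
      _ = _ := by ring
  exact le_of_sq_le_sq h2 (by positivity)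

/-- **the frequency level is reached**: if `u` stays in a cone at time `e` and `e - s` is long,
there is a time with `⟪L u, u⟫ ≤ (a + g/2) |u|²` -/
theorem HomeB.exists_freq (h : HomeB L P a c g ζ s e) (hu : Sol L u s e) (hse : s ≤ e)
    {θ : ℝ} (hθ₀ : 0 < θ) (hθ : 2 * ζ * (1 + θ ^ 2) ≤ θ * g)
    (hζθ : ζ * θ ≤ g / 4) (hlen : (1 + θ ^ 2) < Real.exp (g / 2 * (e - s)))
    (he : ‖u e - P (u e)‖ ≤ θ * ‖P (u e)‖) (hne : u e ≠ 0) (hns : u s ≠ 0) :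
    ∃ t ∈ Icc s e, ⟪L t (u t), u t⟫ ≤ (a t + g / 2) * ‖u t‖ ^ 2 := by
  by_contra hcon
  push Not at hcon
  have hcone : ∀ t ∈ Icc s e, ‖u t - P (u t)‖ ≤ θ * ‖P (u t)‖ := by
    intro t ht
    exact (h.mono ht.1 le_rfl).cone_inward (hu.mono ht.1 le_rfl) ht.2 hθ₀ hθ he
  have hn : ∀ t ∈ Icc s e, HasDerivAt (fun τ => ‖u τ‖ ^ 2) (2 * ⟪L t (u t), u t⟫) t := by
    intro t ht
    refine ((hu t ht).norm_sq).congr_deriv ?_
    rw [real_inner_comm]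
  have hXe : ‖u e‖ ^ 2 ≤ (1 + θ ^ 2) * ‖P (u e)‖ ^ 2 := by
    rw [h.pyth (u e)]
    have := pow_le_pow_left₀ (norm_nonneg _) (hcone e (right_mem_Icc.2 hse)) 2
    rw [mul_pow] at this
    linarith
  have hPe : 0 < ‖P (u e)‖ ^ 2 := by
    by_contra h0
    push Not at h0
    have h3 : ‖u e‖ ^ 2 ≤ 0 := hXe.trans (by
      have : ‖P (u e)‖ ^ 2 = 0 := le_antisymm h0 (sq_nonneg _)
      rw [this, mul_zero])
    have h4 : 0 < ‖u e‖ := norm_pos_iff.2 hne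
    nlinarith
  -- choose `η` with `(1 + η) (1 + θ²) < exp`
  obtain ⟨η, hη0, hη⟩ : ∃ η > 0, (1 + η) * (1 + θ ^ 2) < Real.exp (g / 2 * (e - s)) := by
    refine ⟨(Real.exp (g / 2 * (e - s)) - (1 + θ ^ 2)) / (2 * (1 + θ ^ 2)), ?_, ?_⟩
    · apply div_pos (by linarith) (by positivity)
    · have : (1 + (Real.exp (g / 2 * (e - s)) - (1 + θ ^ 2)) / (2 * (1 + θ ^ 2))) * (1 + θ ^ 2)
          = (1 + θ ^ 2) + (Real.exp (g / 2 * (e - s)) - (1 + θ ^ 2)) / 2 := by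
        have : (1 + θ ^ 2) ≠ 0 := by positivity
        field_simp
      rw [this]; linarith
  set Q : ℝ → ℝ := fun t => (1 + η) * ‖u t‖ ^ 2 - Real.exp (g / 2 * (t - s)) * ‖P (u t)‖ ^ 2 with hQ
  have hder : ∀ t ∈ Icc s e, HasDerivAt Q ((1 + η) * (2 * ⟪L t (u t), u t⟫)
      - (Real.exp (g / 2 * (t - s)) * (g / 2) * ‖P (u t)‖ ^ 2
        + Real.exp (g / 2 * (t - s)) * (2 * ⟪P (u t), L t (u t)⟫))) t := by
    intro t ht
    have h0 : HasDerivAt (fun t : ℝ => g / 2 * (t - s)) (g / 2) t := by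
      have := ((hasDerivAt_id t).sub_const s).const_mul (g / 2)
      simp only [id, mul_one] at this
      exact this
    exact ((hn t ht).const_mul (1 + η)).sub (h0.exp.mul (h.derX hu ht))
  have hnn : ∀ t ∈ Icc s e, 0 ≤ Q t → 0 ≤ (1 + η) * (2 * ⟪L t (u t), u t⟫)
      - (Real.exp (g / 2 * (t - s)) * (g / 2) * ‖P (u t)‖ ^ 2
        + Real.exp (g / 2 * (t - s)) * (2 * ⟪P (u t), L t (u t)⟫)) := by
    intro t ht hQt
    simp only [hQ] at hQt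
    have h1 := hcon t ht
    have h2 := h.X'_le ht (h.up t ht) (u t)
    rw [Real.sqrt_sq (norm_nonneg _), Real.sqrt_sq (norm_nonneg _)] at h2
    have h3 := hcone t ht
    have h4 : ‖P (u t)‖ * ‖u t - P (u t)‖ ≤ θ * ‖P (u t)‖ ^ 2 := by
      calc ‖P (u t)‖ * ‖u t - P (u t)‖ ≤ ‖P (u t)‖ * (θ * ‖P (u t)‖) := by gcongr
        _ = _ := by ring
    have h5 : ζ * (‖P (u t)‖ * ‖u t - P (u t)‖) ≤ g / 4 * ‖P (u t)‖ ^ 2 := by
      calc ζ * (‖P (u t)‖ * ‖u t - P (u t)‖) ≤ ζ * (θ * ‖P (u t)‖ ^ 2) :=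
            mul_le_mul_of_nonneg_left h4 h.ζ_nonneg
        _ = (ζ * θ) * ‖P (u t)‖ ^ 2 := by ring
        _ ≤ _ := by gcongr
    set E := Real.exp (g / 2 * (t - s)) with hE
    have hE0 : 0 < E := Real.exp_pos _
    have h6 : 2 * ⟪P (u t), L t (u t)⟫ ≤ (2 * a t + g / 2) * ‖P (u t)‖ ^ 2 := by linarith
    have h7 : E * (2 * ⟪P (u t), L t (u t)⟫) ≤ E * ((2 * a t + g / 2) * ‖P (u t)‖ ^ 2) :=
      mul_le_mul_of_nonneg_left h6 hE0.le
    have h8 := h.a_nonneg t ht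
    have h9 := h.g_pos
    have h10 : (2 * a t + g) * (E * ‖P (u t)‖ ^ 2) ≤ (2 * a t + g) * ((1 + η) * ‖u t‖ ^ 2) :=
      mul_le_mul_of_nonneg_left (by linarith) (by linarith)
    have h11 : (1 + η) * ((a t + g / 2) * ‖u t‖ ^ 2) ≤ (1 + η) * ⟪L t (u t), u t⟫ :=
      mul_le_mul_of_nonneg_left h1.le (by linarith)
    nlinarith
  have hQs : 0 < Q s := by
    simp only [hQ, sub_self, mul_zero, Real.exp_zero, one_mul]
    have h1 := h.pyth (u s)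
    have h2 : 0 < ‖u s‖ ^ 2 := by have := norm_pos_iff.2 hns; positivity
    nlinarith [sq_nonneg ‖u s - P (u s)‖]
  have hQe := pos_of_deriv_nonneg hse hder hnn hQs
  simp only [hQ] at hQe
  nlinarith

end Crest.Agent.R202.HomeL
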