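import Mathlib

/-! # Row 202, PART B: home lemmas (helper384)

Blocks of the frequency operator `L = Λ(t)` in a home (where `K` commutes with the projection `P`
on the lowest modes), moving barriers for the cones `|(1-P)u| ≤ θ |P u|`, growth in the cones. -/

set_option autoImplicit false
open Set Filter Topology
open scoped RealInnerProductSpace

namespace Crest.Agent.R202.HomeL

variable {G : Type*} [NormedAddCommGroup G] [InnerProductSpace ℝ G]

/-! ## Algebra at a fixed time -/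

/-- data at a fixed time: `K = D + b L + L²`, `D = Λ'` small -/
structure Blk (K L D P : G →L[ℝ] G) (b ρ lo hi : ℝ) : Prop where
  Lsym : ∀ x y, ⟪L x, y⟫ = ⟪x, L y⟫
  Lpos : ∀ x, 0 ≤ ⟪L x, x⟫
  Dsym : ∀ x y, ⟪D x, y⟫ = ⟪x, D y⟫
  eq : ∀ x, K x = D x + b • L x + L (L x)
  Dle : ∀ x, |⟪D x, x⟫| ≤ ρ * (⟪L x, x⟫ + ‖x‖ ^ 2)
  Psym : ∀ x y, ⟪P x, y⟫ = ⟪x, P y⟫
  Pidem : ∀ x, P (P x) = P x
  KP : ∀ x, K (P x) = P (K x)
  lo_le : ∀ x, P x = x → ⟪K x, x⟫ ≤ lo * ‖x‖ ^ 2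
  hi_le : ∀ x, P x = 0 → hi * ‖x‖ ^ 2 ≤ ⟪K x, x⟫
  b_ge : 1 / 2 ≤ b
  ρ_nonneg : 0 ≤ ρ
  ρ_le : ρ ≤ b

variable {K L D P : G →L[ℝ] G} {b ρ lo hi : ℝ}

/-- the positive form `q` -/
noncomputable def qf (L : G →L[ℝ] G) (x : G) : ℝ := ⟪L x, x⟫ + ‖x‖ ^ 2

lemma Blk.qf_nonneg (h : Blk K L D P b ρ lo hi) (x : G) : 0 ≤ qf L x := by
  unfold qf; have := h.Lpos x; positivity

/-- Cauchy–Schwarz for a form dominated by a positive one -/
lemma Blk.cs (h : Blk K L D P b ρ lo hi) (x z : G) :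
    ⟪D x, z⟫ ^ 2 ≤ ρ ^ 2 * qf L x * qf L z := by
  have key : ∀ t : ℝ, 0 ≤ (ρ * qf L x) * (t * t) + (-2 * ⟪D x, z⟫) * t + ρ * qf L z := by
    intro t
    have h1 := h.Dle (t • x + z)
    have h2 := h.Dle (t • x - z)
    have e1 : ⟪D (t • x + z), t • x + z⟫ - ⟪D (t • x - z), t • x - z⟫ = 4 * t * ⟪D x, z⟫ := by
      have hs : ⟪D z, x⟫ = ⟪D x, z⟫ := by rw [h.Dsym, real_inner_comm]
      simp only [map_add, map_sub, map_smul, inner_add_left, inner_add_right, inner_sub_left,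
        inner_sub_right, real_inner_smul_left, real_inner_smul_right, hs]
      ring
    have e2 : (⟪L (t • x + z), t • x + z⟫ + ‖t • x + z‖ ^ 2)
        + (⟪L (t • x - z), t • x - z⟫ + ‖t • x - z‖ ^ 2) = 2 * (t * t * qf L x + qf L z) := by
      have hs : ⟪L z, x⟫ = ⟪L x, z⟫ := by rw [h.Lsym, real_inner_comm]
      have hs' : ⟪z, x⟫ = ⟪x, z⟫ := real_inner_comm _ _
      unfold qf
      simp only [← real_inner_self_eq_norm_sq, map_add, map_sub, map_smul, inner_add_left,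
        inner_add_right, inner_sub_left,
        inner_sub_right, real_inner_smul_left, real_inner_smul_right, hs, hs']
      ring
    have h3 := abs_le.1 h1
    have h4 := abs_le.1 h2
    have e3 := congrArg (fun r => ρ * r) e2
    have e4 : ρ * (2 * (t * t * qf L x + qf L z))
        = 2 * (ρ * qf L x * (t * t)) + 2 * (ρ * qf L z) := by ring
    rw [e4, mul_add] at e3
    linarith [h3.1, h3.2, h4.1, h4.2, e1, e3]
  have hd := discrim_le_zero key
  unfold discrim at hd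
  nlinarith [hd]

lemma Blk.qf_smul (c : ℝ) (x : G) : qf L (c • x) = c ^ 2 * qf L x := by
  unfold qf
  rw [map_smul, real_inner_smul_left, real_inner_smul_right, norm_smul, mul_pow,
    Real.norm_eq_abs, sq_abs]
  ring

/-- eigenvector of the compression of `L` to `range P` -/
lemma Blk.eig (h : Blk K L D P b ρ lo hi) {x z : G} {p : ℝ} (hPx : P x = x) (hPz : P z = 0)
    (hL : L x = p • x + z) (hx : ‖x‖ = 1) :
    0 ≤ p ∧ ‖z‖ ^ 2 + ⟪L z, z⟫ ≤ 4 * ρ ^ 2 * (p + 1) ∧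
      p ^ 2 + b * p + ‖z‖ ^ 2 = ⟪K x, x⟫ - ⟪D x, x⟫ := by
  have hxz : ⟪x, z⟫ = 0 := by
    have := h.Psym x z
    rw [hPx, hPz, inner_zero_right] at this
    exact this
  have hzx : ⟪z, x⟫ = 0 := by rw [real_inner_comm]; exact hxz
  have hxx : ⟪x, x⟫ = (1:ℝ) := by rw [real_inner_self_eq_norm_sq, hx]; norm_num
  have hp : ⟪L x, x⟫ = p := by
    rw [hL, inner_add_left, real_inner_smul_left, hxx, hzx]; ring
  have hp0 : 0 ≤ p := hp ▸ h.Lpos x
  have hLxz : ⟪L x, z⟫ = ‖z‖ ^ 2 := by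
    rw [hL, inner_add_left, real_inner_smul_left, hxz, real_inner_self_eq_norm_sq]; ring
  have hLLxz : ⟪L (L x), z⟫ = p * ‖z‖ ^ 2 + ⟪L z, z⟫ := by
    have e : L (L x) = p • L x + L z := by
      conv_lhs => rw [hL]
      rw [map_add, map_smul]
    rw [e, inner_add_left, real_inner_smul_left, hLxz]
  have hKxz : ⟪K x, z⟫ = 0 := by
    have e : P (K x) = K x := by rw [← h.KP, hPx]
    have := h.Psym (K x) z
    rw [e, hPz, inner_zero_right] at this
    exact this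
  have hDxz : ⟪D x, z⟫ = -((p + b) * ‖z‖ ^ 2 + ⟪L z, z⟫) := by
    have := h.eq x
    have e : D x = K x - b • L x - L (L x) := by rw [this]; abel
    rw [e, inner_sub_left, inner_sub_left, real_inner_smul_left, hKxz, hLxz, hLLxz]
    ring
  have hcs := h.cs x z
  have hqx : qf L x = p + 1 := by unfold qf; rw [hp, hx]; norm_num
  have hqz : qf L z = ⟪L z, z⟫ + ‖z‖ ^ 2 := rfl
  have hLz := h.Lpos z
  have hb := h.b_ge
  refine ⟨hp0, ?_, ?_⟩
  · set Q := qf L z with hQ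
    have hQ0 : 0 ≤ Q := h.qf_nonneg z
    have hge : Q / 2 ≤ (p + b) * ‖z‖ ^ 2 + ⟪L z, z⟫ := by
      rw [hqz]
      nlinarith [sq_nonneg ‖z‖, mul_nonneg hp0 (sq_nonneg ‖z‖),
        mul_nonneg (sub_nonneg.2 hb) (sq_nonneg ‖z‖)]
    have h1 : (Q / 2) ^ 2 ≤ ρ ^ 2 * (p + 1) * Q := by
      calc (Q / 2) ^ 2 ≤ ((p + b) * ‖z‖ ^ 2 + ⟪L z, z⟫) ^ 2 :=
            pow_le_pow_left₀ (by positivity) hge 2
        _ = ⟪D x, z⟫ ^ 2 := by rw [hDxz]; ring
        _ ≤ _ := by rw [hqx] at hcs; exact hcs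
    have h2 : Q ≤ 4 * ρ ^ 2 * (p + 1) := by
      rcases hQ0.eq_or_lt with h0 | h0
      · rw [← h0]; positivity
      · have : Q * Q ≤ (4 * ρ ^ 2 * (p + 1)) * Q := by nlinarith
        exact le_of_mul_le_mul_right this h0
    rw [hqz] at h2
    linarith
  · have := h.eq x
    have e : ⟪K x, x⟫ = ⟪D x, x⟫ + b * ⟪L x, x⟫ + ⟪L (L x), x⟫ := by
      rw [this, inner_add_left, inner_add_left, real_inner_smul_left]
    have e2 : ⟪L (L x), x⟫ = p ^ 2 + ‖z‖ ^ 2 := by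
      rw [h.Lsym, hL, inner_add_left, inner_add_right, inner_add_right, real_inner_smul_left,
        real_inner_smul_left, real_inner_smul_right, real_inner_smul_right, hxx, hxz, hzx,
        real_inner_self_eq_norm_sq]
      ring
    rw [e, e2, hp]
    ring

/-- complementary projection data (`P ↦ 1 - P`, signs of the bounds are not exchanged): used for
the lower bound on the complement. -/
lemma Blk.eig' (h : Blk K L D P b ρ lo hi) {y z : G} {p : ℝ} (hPy : P y = 0) (hPz : P z = z)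
    (hL : L y = p • y + z) (hy : ‖y‖ = 1) :
    0 ≤ p ∧ ‖z‖ ^ 2 + ⟪L z, z⟫ ≤ 4 * ρ ^ 2 * (p + 1) ∧
      p ^ 2 + b * p + ‖z‖ ^ 2 = ⟪K y, y⟫ - ⟪D y, y⟫ := by
  set M : ℝ := max lo (‖K‖) with hM
  have h' : Blk K L D (ContinuousLinearMap.id ℝ G - P) b ρ (‖K‖) (-‖K‖) :=
    { Lsym := h.Lsym
      Lpos := h.Lpos
      Dsym := h.Dsym
      eq := h.eq
      Dle := h.Dle
      Psym := fun x y => by
        simp only [sub_apply, ContinuousLinearMap.id_apply, inner_sub_left,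
          inner_sub_right, h.Psym]
      Pidem := fun x => by
        simp only [sub_apply, ContinuousLinearMap.id_apply, map_sub, h.Pidem]
        abel
      KP := fun x => by
        simp only [sub_apply, ContinuousLinearMap.id_apply, map_sub, h.KP]
      lo_le := fun x _ => by
        calc ⟪K x, x⟫ ≤ ‖K x‖ * ‖x‖ := real_inner_le_norm _ _
          _ ≤ (‖K‖ * ‖x‖) * ‖x‖ := by gcongr; exact K.le_opNorm x
          _ = ‖K‖ * ‖x‖ ^ 2 := by ring
      hi_le := fun x _ => by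
        have h1 : |⟪K x, x⟫| ≤ ‖K‖ * ‖x‖ ^ 2 := by
          calc |⟪K x, x⟫| ≤ ‖K x‖ * ‖x‖ := abs_real_inner_le_norm _ _
            _ ≤ (‖K‖ * ‖x‖) * ‖x‖ := by gcongr; exact K.le_opNorm x
            _ = ‖K‖ * ‖x‖ ^ 2 := by ring
        have := (abs_le.1 h1).1
        linarith
      b_ge := h.b_ge
      ρ_nonneg := h.ρ_nonneg
      ρ_le := h.ρ_le }
  exact h'.eig (by simp [hPy]) (by simp [hPz]) hL hy

/-! ## Eigenbasis of a compression -/

lemma exists_eig [FiniteDimensional ℝ G] (P L : G →L[ℝ] G) (Psym : ∀ x y, ⟪P x, y⟫ = ⟪x, P y⟫)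
    (Pidem : ∀ x, P (P x) = P x) (Lsym : ∀ x y, ⟪L x, y⟫ = ⟪x, L y⟫) :
    ∃ (v : Fin (Module.finrank ℝ (LinearMap.range (P : G →ₗ[ℝ] G))) → G)
      (p : Fin (Module.finrank ℝ (LinearMap.range (P : G →ₗ[ℝ] G))) → ℝ),
      Orthonormal ℝ v ∧ (∀ i, P (v i) = v i) ∧ (∀ i, P (L (v i)) = p i • v i) ∧
      ∀ x, P x = x → ∑ i, ⟪v i, x⟫ • v i = x := by
  classical
  set S : Submodule ℝ G := LinearMap.range (P : G →ₗ[ℝ] G) with hS
  have hfix : ∀ x ∈ S, P x = x := by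
    rintro x ⟨w, rfl⟩
    exact Pidem w
  let T : S →ₗ[ℝ] S := LinearMap.codRestrict S
    (((P : G →ₗ[ℝ] G) ∘ₗ (L : G →ₗ[ℝ] G)) ∘ₗ S.subtype) (fun x => ⟨L x, rfl⟩)
  have hTc : ∀ x : S, ((T x : S) : G) = P (L (x : G)) := fun x => rfl
  have hT : T.IsSymmetric := by
    intro x y
    change ⟪((T x : S) : G), (y : G)⟫ = ⟪(x : G), ((T y : S) : G)⟫
    rw [hTc, hTc, Psym, hfix y y.2, Lsym, ← Psym, hfix x x.2]
  set B := hT.eigenvectorBasis rfl with hB
  refine ⟨fun i => (B i : G), fun i => hT.eigenvalues rfl i, ?_, ?_, ?_, ?_⟩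
  · have := B.orthonormal
    exact this.comp_linearIsometry S.subtypeₗᵢ
  · intro i; exact hfix _ (B i).2
  · intro i
    have h1 := hT.apply_eigenvectorBasis rfl i
    calc P (L (B i : G)) = ((T (B i) : S) : G) := rfl
      _ = (((hT.eigenvalues rfl i : ℝ) • B i : S) : G) := by
          rw [hB, h1]; rfl
      _ = _ := rfl
  · intro x hx
    have hxS : x ∈ S := ⟨x, hx⟩
    have := B.sum_repr' ⟨x, hxS⟩
    have h2 := congrArg (fun y : S => (y : G)) this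
    simp only [Submodule.coe_sum, Submodule.coe_smul, Submodule.coe_inner] at h2
    exact h2

section
variable [FiniteDimensional ℝ G]

/-- expansion in the eigenbasis of a compression -/
lemma sum_facts {n : ℕ} {P L : G →L[ℝ] G} (Psym : ∀ x y, ⟪P x, y⟫ = ⟪x, P y⟫)
    {v : Fin n → G} {p : Fin n → ℝ} (hPL : ∀ i, P (L (v i)) = p i • v i)
    {x : G} (hx : P x = x) (hsum : ∑ i, ⟪v i, x⟫ • v i = x) :
    ⟪L x, x⟫ = ∑ i, p i * ⟪v i, x⟫ ^ 2 ∧ ‖x‖ ^ 2 = ∑ i, ⟪v i, x⟫ ^ 2 := by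
  constructor
  · have e1 : ⟪L x, x⟫ = ⟪P (L x), x⟫ := by rw [Psym, hx]
    have e2 : P (L x) = ∑ i, ⟪v i, x⟫ • (p i • v i) := by
      conv_lhs => rw [← hsum]
      simp only [map_sum, map_smul, hPL]
    rw [e1, e2, sum_inner]
    refine Finset.sum_congr rfl fun i _ => ?_
    rw [real_inner_smul_left, real_inner_smul_left]
    ring
  · rw [← real_inner_self_eq_norm_sq]
    have e : ⟪x, x⟫ = ⟪∑ i, ⟪v i, x⟫ • v i, x⟫ := by rw [hsum]
    rw [e, sum_inner]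
    refine Finset.sum_congr rfl fun i _ => ?_
    rw [real_inner_smul_left]
    ring

/-- upper bound of `L` on the low modes -/
theorem Blk.upper (h : Blk K L D P b ρ lo hi) {a : ℝ} (ha0 : 0 ≤ a)
    (ha : lo ≤ a ^ 2 + b * a - ρ * (a + 1)) {x : G} (hx : P x = x) :
    ⟪L x, x⟫ ≤ a * ‖x‖ ^ 2 := by
  obtain ⟨v, p, hv, hPv, hPL, hsum⟩ := exists_eig P L h.Psym h.Pidem h.Lsym
  obtain ⟨e1, e2⟩ := sum_facts h.Psym hPL hx (hsum x hx)
  rw [e1, e2, Finset.mul_sum]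
  refine Finset.sum_le_sum fun i _ => ?_
  have hz : P (L (v i) - p i • v i) = 0 := by
    rw [map_sub, map_smul, hPL, hPv, sub_self]
  obtain ⟨hp0, hz1, hpe⟩ := h.eig (hPv i) hz (by abel) (hv.1 i)
  have hD := h.Dle (v i)
  have hlo := h.lo_le _ (hPv i)
  have hLv : ⟪L (v i), v i⟫ = p i := by
    have : ⟪L (v i), v i⟫ = ⟪P (L (v i)), v i⟫ := by rw [h.Psym, hPv]
    rw [this, hPL, real_inner_smul_left, real_inner_self_eq_norm_sq, hv.1 i]; ring
  rw [hLv, hv.1 i] at hD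
  rw [hv.1 i] at hlo
  have hD1 := (abs_le.1 hD).1
  have hρb := h.ρ_le
  have hρ0 := h.ρ_nonneg
  have hle : p i ≤ a := by
    by_contra hcon
    push Not at hcon
    have h1 : p i ^ 2 + b * p i - ρ * (p i + 1) ≤ a ^ 2 + b * a - ρ * (a + 1) := by
      nlinarith [sq_nonneg ‖L (v i) - p i • v i‖]
    have h2 : 0 < (p i - a) * (p i + a + (b - ρ)) := by
      apply mul_pos (by linarith)
      linarith
    nlinarith
  exact mul_le_mul_of_nonneg_right hle (sq_nonneg _)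

/-- lower bound of `L` on the complement -/
theorem Blk.lower (h : Blk K L D P b ρ lo hi) {c : ℝ} (_hc0 : 0 ≤ c)
    (hc : c ^ 2 + b * c + (4 * ρ ^ 2 + ρ) * (c + 1) ≤ hi) {y : G} (hy : P y = 0) :
    c * ‖y‖ ^ 2 ≤ ⟪L y, y⟫ := by
  set R : G →L[ℝ] G := ContinuousLinearMap.id ℝ G - P with hR
  have hRa : ∀ x, R x = x - P x := fun x => rfl
  have Rsym : ∀ x y, ⟪R x, y⟫ = ⟪x, R y⟫ := fun x y => by
    simp only [hRa, inner_sub_left, inner_sub_right, h.Psym]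
  have Ridem : ∀ x, R (R x) = R x := fun x => by
    simp only [hRa, map_sub, h.Pidem]; abel
  obtain ⟨v, p, hv, hPv, hPL, hsum⟩ := exists_eig R L Rsym Ridem h.Lsym
  have hyR : R y = y := by rw [hRa, hy, sub_zero]
  obtain ⟨e1, e2⟩ := sum_facts Rsym hPL hyR (hsum y hyR)
  rw [e1, e2, Finset.mul_sum]
  refine Finset.sum_le_sum fun i _ => ?_
  have hPv0 : P (v i) = 0 := by
    have := hPv i
    rw [hRa] at this
    exact sub_eq_self.1 this
  have hz : P (L (v i) - p i • v i) = L (v i) - p i • v i := by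
    have h1 : R (L (v i) - p i • v i) = 0 := by
      rw [map_sub, map_smul, hPL, hPv, sub_self]
    rw [hRa, sub_eq_zero] at h1
    exact h1.symm
  obtain ⟨hp0, hz1, hpe⟩ := h.eig' hPv0 hz (by abel) (hv.1 i)
  have hD := h.Dle (v i)
  have hhi := h.hi_le _ hPv0
  have hLv : ⟪L (v i), v i⟫ = p i := by
    have : ⟪L (v i), v i⟫ = ⟪R (L (v i)), v i⟫ := by rw [Rsym, hPv]
    rw [this, hPL, real_inner_smul_left, real_inner_self_eq_norm_sq, hv.1 i]; ring
  rw [hLv, hv.1 i] at hD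
  rw [hv.1 i] at hhi
  have hD1 := (abs_le.1 hD).2
  have hLz := h.Lpos (L (v i) - p i • v i)
  have hρ0 := h.ρ_nonneg
  have hb := h.b_ge
  have hle : c ≤ p i := by
    by_contra hcon
    push Not at hcon
    have h1 : c ^ 2 + b * c + (4 * ρ ^ 2 + ρ) * (c + 1)
        ≤ p i ^ 2 + b * p i + (4 * ρ ^ 2 + ρ) * (p i + 1) := by
      nlinarith
    have h2 : 0 < (c - p i) * (c + p i + (b + (4 * ρ ^ 2 + ρ))) := by
      apply mul_pos (by linarith)
      positivity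
    nlinarith
  exact mul_le_mul_of_nonneg_right hle (sq_nonneg _)

/-- the off-diagonal block of `L` is small -/
theorem Blk.offdiag (h : Blk K L D P b ρ lo hi) {a : ℝ} (ha0 : 0 ≤ a)
    (ha : lo ≤ a ^ 2 + b * a - ρ * (a + 1)) {x y : G} (hx : P x = x) (hy : P y = 0) :
    ⟪L x, y⟫ ^ 2 ≤ 4 * ρ ^ 2 * (a + 1) *
      (Module.finrank ℝ (LinearMap.range (P : G →ₗ[ℝ] G)) : ℝ) * (‖x‖ ^ 2 * ‖y‖ ^ 2) := by
  obtain ⟨v, p, hv, hPv, hPL, hsum⟩ := exists_eig P L h.Psym h.Pidem h.Lsym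
  obtain ⟨-, e2⟩ := sum_facts h.Psym hPL hx (hsum x hx)
  have hvy : ∀ i, ⟪v i, y⟫ = 0 := fun i => by
    have := h.Psym (v i) y
    rw [hPv, hy, inner_zero_right] at this
    exact this
  have e3 : ⟪L x, y⟫ = ∑ i, ⟪v i, x⟫ * ⟪L (v i) - p i • v i, y⟫ := by
    have : L x = ∑ i, ⟪v i, x⟫ • L (v i) := by
      conv_lhs => rw [← hsum x hx]
      simp only [map_sum, map_smul]
    rw [this, sum_inner]
    refine Finset.sum_congr rfl fun i _ => ?_
    rw [real_inner_smul_left, inner_sub_left, real_inner_smul_left, hvy i]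
    ring
  have e4 : ∀ i, ⟪L (v i) - p i • v i, y⟫ ^ 2 ≤ 4 * ρ ^ 2 * (a + 1) * ‖y‖ ^ 2 := by
    intro i
    have hz : P (L (v i) - p i • v i) = 0 := by
      rw [map_sub, map_smul, hPL, hPv, sub_self]
    obtain ⟨hp0, hz1, hpe⟩ := h.eig (hPv i) hz (by abel) (hv.1 i)
    have hLv : ⟪L (v i), v i⟫ = p i := by
      have : ⟪L (v i), v i⟫ = ⟪P (L (v i)), v i⟫ := by rw [h.Psym, hPv]
      rw [this, hPL, real_inner_smul_left, real_inner_self_eq_norm_sq, hv.1 i]; ring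
    have hle : p i ≤ a := by
      have := h.upper ha0 ha (hPv i)
      rw [hLv, hv.1 i] at this
      linarith
    have hLz := h.Lpos (L (v i) - p i • v i)
    have hz2 : ‖L (v i) - p i • v i‖ ^ 2 ≤ 4 * ρ ^ 2 * (a + 1) := by
      calc ‖L (v i) - p i • v i‖ ^ 2 ≤ 4 * ρ ^ 2 * (p i + 1) := by linarith
        _ ≤ _ := by gcongr
    calc ⟪L (v i) - p i • v i, y⟫ ^ 2 ≤ (‖L (v i) - p i • v i‖ * ‖y‖) ^ 2 := by
          rw [← sq_abs]
          exact pow_le_pow_left₀ (abs_nonneg _) (abs_real_inner_le_norm _ _) 2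
      _ = ‖L (v i) - p i • v i‖ ^ 2 * ‖y‖ ^ 2 := by ring
      _ ≤ _ := by gcongr
  rw [e3]
  calc (∑ i, ⟪v i, x⟫ * ⟪L (v i) - p i • v i, y⟫) ^ 2
      ≤ (∑ i, ⟪v i, x⟫ ^ 2) * ∑ i, ⟪L (v i) - p i • v i, y⟫ ^ 2 :=
        Finset.sum_mul_sq_le_sq_mul_sq _ _ _
    _ ≤ ‖x‖ ^ 2 * ∑ _i : Fin (Module.finrank ℝ (LinearMap.range (P : G →ₗ[ℝ] G))),
          4 * ρ ^ 2 * (a + 1) * ‖y‖ ^ 2 := by
        rw [e2]
        gcongr with i _
        exact e4 i
    _ = _ := by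
        rw [Finset.sum_const, Finset.card_univ, Fintype.card_fin, nsmul_eq_mul]
        ring

end

end Crest.Agent.R202.HomeL
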