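import Crest.Agent.R202.InstForm

/-!
# Row 202: instantiation of the abstract spindle family, part 2: consistency (P3) (helper98)
-/

set_option autoImplicit false

open MeasureTheory Set Filter
open scoped Topology ContDiff
open Crest.Agent.R202.Mod Crest.Agent.R202.Cut Crest.Agent.R202.PL Crest.Agent.R202.Clu

noncomputable section

namespace Crest.Agent.R202.Inst

theorem sqrt_add_le {a b : ℝ} (ha : 0 ≤ a) (hb : 0 ≤ b) : √(a + b) ≤ √a + √b := by
  rw [Real.sqrt_le_left (by positivity), add_sq, Real.sq_sqrt ha, Real.sq_sqrt hb]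
  nlinarith [mul_nonneg (Real.sqrt_nonneg a) (Real.sqrt_nonneg b)]

/-- `L²` size of the tip -/
def tipN (d : ℕ) (h : ℝ → ℝ) : ℝ := √(∫ z, h z.1 ^ 2 ∂(mu d))

theorem tipN_nonneg (d : ℕ) (h : ℝ → ℝ) : 0 ≤ tipN d h := Real.sqrt_nonneg _

theorem tendsto_tipN (d : ℕ) {hs : ℕ → ℝ → ℝ} (hm : ∀ k, Measurable (hs k))
    (h0 : ∀ k x, 0 ≤ hs k x) (h1 : ∀ k x, hs k x ≤ 1) {ε : ℕ → ℝ} (hε : Tendsto ε atTop (𝓝 0))
    (hsm : ∀ k, ∀ x ∈ Icc (0 : ℝ) 1, hs k x * (1 - x ^ 2) ≤ ε k) :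
    Tendsto (fun k => tipN d (hs k)) atTop (𝓝 0) := by
  have key : Tendsto (fun k => ∫ z, hs k z.1 ^ 2 ∂(mu d)) atTop (𝓝 (∫ _, (0 : ℝ) ∂(mu d))) := by
    refine tendsto_integral_of_dominated_convergence (fun _ => (1 : ℝ))
      (fun k => ((hm k).comp measurable_fst).pow_const 2 |>.aestronglyMeasurable)
      (integrable_const _) (fun k => Filter.Eventually.of_forall fun z => ?_) ?_
    · rw [Real.norm_eq_abs, abs_of_nonneg (sq_nonneg _)]
      have := h0 k z.1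
      have := h1 k z.1
      nlinarith
    · filter_upwards [ae_mem_Om d] with z hz
      have hx : 0 < 1 - z.1 ^ 2 := by have := sq_lt_one_of_mem hz.1; linarith
      have hlim : Tendsto (fun k => ε k / (1 - z.1 ^ 2)) atTop (𝓝 0) := by
        simpa using hε.div_const (1 - z.1 ^ 2)
      refine squeeze_zero (fun k => sq_nonneg _) (fun k => ?_) hlim
      rw [le_div_iff₀ hx]
      have e1 := hsm k z.1 ⟨hz.1.1.le, hz.1.2.le⟩
      have e2 := h0 k z.1
      have e3 := h1 k z.1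
      calc hs k z.1 ^ 2 * (1 - z.1 ^ 2) = hs k z.1 * (hs k z.1 * (1 - z.1 ^ 2)) := by ring
        _ ≤ 1 * (hs k z.1 * (1 - z.1 ^ 2)) := by
            have : 0 ≤ hs k z.1 * (1 - z.1 ^ 2) := by positivity
            gcongr
        _ ≤ ε k := by linarith
  rw [integral_zero] at key
  have := (Real.continuous_sqrt.tendsto 0).comp key
  rw [Real.sqrt_zero] at this
  exact this

variable {Xa Xb : ℝ}

theorem dev_prof_le (d : ℕ) {h : ℝ → ℝ} (hm : Measurable h) (h0 : ∀ x, 0 ≤ h x) (h1 : ∀ x, h x ≤ 1) {b β : ℝ}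
    (hb : 1 ≤ b) (hbβ : b ≤ β) (G : ℕ →₀ TF Xa Xb) :
    dev d (prof h b G) ≤ √2 * (β - 1) * tipN d h + √2 * √((mu d).real univ) * jetN G := by
  have hβ : 0 ≤ β - 1 := by linarith
  have hsz := jetN_nonneg G
  have i1 : Integrable (fun z : ℝ × ℝ => h z.1 ^ 2) (mu d) := by
    refine Integrable.mono' (integrable_const (1 : ℝ))
      ((hm.comp measurable_fst).pow_const 2).aestronglyMeasurable ?_
    refine Filter.Eventually.of_forall fun z => ?_
    rw [Real.norm_eq_abs, abs_of_nonneg (sq_nonneg _)]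
    have := h0 z.1
    have := h1 z.1
    nlinarith
  have hle : ∫ z, (prof h b G z - 1) ^ 2 ∂(mu d) ≤
      2 * (β - 1) ^ 2 * (∫ z, h z.1 ^ 2 ∂(mu d)) + 2 * (mu d).real univ * jetN G ^ 2 := by
    have e1 : ∫ z, (prof h b G z - 1) ^ 2 ∂(mu d) ≤
        ∫ z : ℝ × ℝ, (2 * (β - 1) ^ 2 * h z.1 ^ 2 + 2 * jetN G ^ 2) ∂(mu d) := by
      refine integral_mono_of_nonneg (Filter.Eventually.of_forall fun z => sq_nonneg _)
        ((i1.const_mul _).add (integrable_const _)) (Filter.Eventually.of_forall fun z => ?_)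
      have e2 := abs_Gf_le G z
      have e3 : Gf G z ^ 2 ≤ jetN G ^ 2 := by
        rw [← sq_abs]; exact pow_le_pow_left₀ (abs_nonneg _) e2 2
      have e4 : ((b - 1) * h z.1) ^ 2 ≤ (β - 1) ^ 2 * h z.1 ^ 2 := by
        rw [mul_pow]
        have : (b - 1) ^ 2 ≤ (β - 1) ^ 2 := pow_le_pow_left₀ (by linarith) (by linarith) 2
        gcongr
      show (1 + (b - 1) * h z.1 + Gf G z - 1) ^ 2 ≤ _
      nlinarith [sq_nonneg ((b - 1) * h z.1 - Gf G z)]
    refine e1.trans (le_of_eq ?_)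
    rw [integral_add (i1.const_mul _) (integrable_const _), integral_const_mul, integral_const,
      smul_eq_mul]
    ring
  unfold dev
  refine (Real.sqrt_le_sqrt hle).trans ?_
  have i0 : 0 ≤ ∫ z, h z.1 ^ 2 ∂(mu d) := integral_nonneg fun z => sq_nonneg _
  refine (sqrt_add_le (by positivity) (by positivity)).trans (le_of_eq ?_)
  unfold tipN
  rw [Real.sqrt_mul (by positivity), Real.sqrt_mul (by norm_num), Real.sqrt_sq hβ,
    Real.sqrt_mul (by positivity), Real.sqrt_mul (by norm_num), Real.sqrt_sq hsz]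

/-- **(P3)**, consistency, for every `u` in the core space -/
theorem aform_cons (d : ℕ) (σ : ℕ × ℕ) {b0 b1 : ℝ} (hb0 : 1 ≤ b0) {hs : ℕ → ℝ → ℝ}
    (hm : ∀ k, Measurable (hs k)) (h0 : ∀ k x, 0 ≤ hs k x) (h1 : ∀ k x, hs k x ≤ 1) {ε : ℕ → ℝ}
    (hε : Tendsto ε atTop (𝓝 0)) (hsm : ∀ k, ∀ x ∈ Icc (0 : ℝ) 1, hs k x * (1 - x ^ 2) ≤ ε k)
    {b' : ℝ} (hb' : b' ∈ Icc b0 b1) (u : CT.VV σ) :
    ∃ C : ℝ, 0 ≤ C ∧ ∃ o : ℕ → ℝ, (∀ k, 0 ≤ o k) ∧ Tendsto o atTop (𝓝 0) ∧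
    ∀ b ∈ Icc b0 b1, ∀ G : ℕ →₀ TF Xa Xb, jetN G ≤ 1 / 2 → ∀ k v,
      (aform d σ b (prof (hs k) b G) u v - a0form d σ b' u v) ^ 2 ≤
        (C * (|b - b'| + jetN G) + o k) ^ 2 * (a0form d σ b' v v + g d σ.1 σ.2 v v) := by
  obtain ⟨C0, hC0, hC⟩ := Q_sub_le (q := σ.1) (par := σ.2) d u (b1 + 2) b1
  have hb1 : 1 ≤ b1 := hb0.trans (hb'.1.trans hb'.2)
  have hM : 0 ≤ √((mu d).real univ) := Real.sqrt_nonneg _
  refine ⟨C0 * (1 + √2 * √((mu d).real univ)), by positivity,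
    fun k => C0 * (√2 * (b1 - 1) * tipN d (hs k)), fun k => ?_, ?_, fun b hb G hG k v => ?_⟩
  · have := tipN_nonneg d (hs k)
    have : 0 ≤ b1 - 1 := by linarith
    positivity
  · have := (tendsto_tipN d hm h0 h1 hε hsm).const_mul (C0 * (√2 * (b1 - 1)))
    simpa [mul_assoc] using this
  · have hP := adm_prof d (hm k) (h0 k) (h1 k) (hb0.trans hb.1) hb.2 hG
    have hdev := dev_prof_le d (hm k) (h0 k) (h1 k) (hb0.trans hb.1) hb.2 G
    have h2 := hC (prof (hs k) b G) hP b b' (by linarith [hb.1]) hb.2 (by linarith [hb'.1]) hb'.2 v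
    rw [Clu.aform_eq σ b hP]
    have hQ1 : Q σ.1 σ.2 (adm_one d) 1 v v ≤ a0form d σ b' v v + g d σ.1 σ.2 v v := by
      have e1 := Q_le (adm_one d) (b := 1) (b1 := b') (β := 1) (by norm_num) le_rfl
        (hb0.trans hb'.1) le_rfl v
      have e2 := g_nonneg (d := d) v
      unfold a0form
      linarith
    have hS := Q_nonneg (adm_one d) 1 v
    have hszG := jetN_nonneg G
    have htip := tipN_nonneg d (hs k)
    have h3 : |Q σ.1 σ.2 hP b u v - Q σ.1 σ.2 (adm_one d) b' u v| ≤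
        (C0 * (1 + √2 * √((mu d).real univ)) * (|b - b'| + jetN G) +
          C0 * (√2 * (b1 - 1) * tipN d (hs k))) * √(Q σ.1 σ.2 (adm_one d) 1 v v) := by
      refine h2.trans ?_
      refine mul_le_mul_of_nonneg_right ?_ (Real.sqrt_nonneg _)
      have e1 : C0 * (|b - b'| + dev d (prof (hs k) b G)) ≤ C0 * (|b - b'| +
          (√2 * (b1 - 1) * tipN d (hs k) + √2 * √((mu d).real univ) * jetN G)) := by gcongr
      refine e1.trans ?_
      have e2 : 0 ≤ C0 * (√2 * √((mu d).real univ)) * |b - b'| := by positivity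
      have e3 : 0 ≤ C0 * jetN G := by positivity
      nlinarith
    calc (Q σ.1 σ.2 hP b u v - a0form d σ b' u v) ^ 2
        = |Q σ.1 σ.2 hP b u v - Q σ.1 σ.2 (adm_one d) b' u v| ^ 2 := (sq_abs _).symm
      _ ≤ ((C0 * (1 + √2 * √((mu d).real univ)) * (|b - b'| + jetN G) +
          C0 * (√2 * (b1 - 1) * tipN d (hs k))) * √(Q σ.1 σ.2 (adm_one d) 1 v v)) ^ 2 :=
          pow_le_pow_left₀ (abs_nonneg _) h3 2
      _ = (C0 * (1 + √2 * √((mu d).real univ)) * (|b - b'| + jetN G) +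
          C0 * (√2 * (b1 - 1) * tipN d (hs k))) ^ 2 * Q σ.1 σ.2 (adm_one d) 1 v v := by
          rw [mul_pow, Real.sq_sqrt hS]
      _ ≤ _ := by gcongr

end Crest.Agent.R202.Inst
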