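import Crest.Agent.R202.PolyLoop
import Crest.Agent.R202.SchY
import Crest.Agent.R202.CluDefs

/-! # Row 202, node LB / PolyLoop, part 2 (helper557): test functions, `GF`, polygons → `YLoop`

`TestFn Xa Xb` = smooth functions on `ℝ` with support in `[Xa, Xb]` (the `T` of `SpindleFamily`),
`GF G X u = ∑ f, G_f(X) Re (u ^ f)` for `G : ℕ →₀ TestFn Xa Xb`, `jetN G` = seminorm which bounds all
jets of order `≤ 2` of `GF G`. -/

set_option autoImplicit false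

open Set
open scoped ContDiff

namespace Crest.Agent.R202.PL

noncomputable section

/-- smooth functions with support in `[Xa, Xb]` (58's `Clu.TF`) -/
abbrev TestFn (Xa Xb : ℝ) : Submodule ℝ (ℝ → ℝ) := Clu.TF Xa Xb

variable {Xa Xb : ℝ}

theorem TF.smooth (η : TestFn Xa Xb) : ContDiff ℝ ∞ (η : ℝ → ℝ) := η.2.1

theorem TF.supp (η : TestFn Xa Xb) {X : ℝ} (hX : X ∉ Icc Xa Xb) : (η : ℝ → ℝ) X = 0 :=
  η.2.2 X hX

/-- the bound of all derivatives of order `≤ 2` -/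
def jet (η : TestFn Xa Xb) : ℝ :=
  (⨆ X, |(η : ℝ → ℝ) X|) + (⨆ X, |deriv (η : ℝ → ℝ) X|)
    + ⨆ X, |deriv (deriv (η : ℝ → ℝ)) X|

theorem TF.smooth1 (η : TestFn Xa Xb) : ContDiff ℝ ∞ (deriv (η : ℝ → ℝ)) :=
  (contDiff_infty_iff_deriv.1 (TF.smooth η)).2

theorem TF.smooth2 (η : TestFn Xa Xb) : ContDiff ℝ ∞ (deriv (deriv (η : ℝ → ℝ))) :=
  (contDiff_infty_iff_deriv.1 (TF.smooth1 η)).2

theorem TF.diff (η : TestFn Xa Xb) : Differentiable ℝ (η : ℝ → ℝ) :=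
  (TF.smooth η).differentiable (by simp)

theorem TF.diff1 (η : TestFn Xa Xb) : Differentiable ℝ (deriv (η : ℝ → ℝ)) :=
  (TF.smooth1 η).differentiable (by simp)

theorem TF.bdd (η : TestFn Xa Xb) : ∃ C, 0 ≤ C ∧ ∀ X, |(η : ℝ → ℝ) X| ≤ C ∧
    |deriv (η : ℝ → ℝ) X| ≤ C ∧ |deriv (deriv (η : ℝ → ℝ)) X| ≤ C :=
  exists_bound_iteratedDeriv (TF.smooth η) fun _ hX => (TF.supp η) hX

theorem TF.bdd0 (η : TestFn Xa Xb) : BddAbove (range fun X => |(η : ℝ → ℝ) X|) := by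
  obtain ⟨C, _, hC⟩ := (TF.bdd η)
  exact ⟨C, by rintro _ ⟨X, rfl⟩; exact (hC X).1⟩

theorem TF.bdd1 (η : TestFn Xa Xb) : BddAbove (range fun X => |deriv (η : ℝ → ℝ) X|) := by
  obtain ⟨C, _, hC⟩ := (TF.bdd η)
  exact ⟨C, by rintro _ ⟨X, rfl⟩; exact (hC X).2.1⟩

theorem TF.bdd2 (η : TestFn Xa Xb) :
    BddAbove (range fun X => |deriv (deriv (η : ℝ → ℝ)) X|) := by
  obtain ⟨C, _, hC⟩ := (TF.bdd η)
  exact ⟨C, by rintro _ ⟨X, rfl⟩; exact (hC X).2.2⟩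

theorem sup_nonneg {f : ℝ → ℝ} (hf : BddAbove (range fun X => |f X|)) : 0 ≤ ⨆ X, |f X| :=
  (abs_nonneg _).trans (le_ciSup hf 0)

theorem sup_add_le {f g : ℝ → ℝ} (hf : BddAbove (range fun X => |f X|))
    (hg : BddAbove (range fun X => |g X|)) :
    ⨆ X, |f X + g X| ≤ (⨆ X, |f X|) + ⨆ X, |g X| :=
  ciSup_le fun X => (abs_add_le _ _).trans (add_le_add (le_ciSup hf X) (le_ciSup hg X))

theorem sup_smul {f : ℝ → ℝ} (c : ℝ) : ⨆ X, |c * f X| = |c| * ⨆ X, |f X| := by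
  rw [Real.mul_iSup_of_nonneg (abs_nonneg c)]
  congr 1
  funext X
  rw [abs_mul]

theorem abs_le_jet (η : TestFn Xa Xb) (X : ℝ) : |(η : ℝ → ℝ) X| ≤ jet η := by
  have h0 := le_ciSup (TF.bdd0 η) X
  have h1 := sup_nonneg (TF.bdd1 η)
  have h2 := sup_nonneg (TF.bdd2 η)
  unfold jet
  linarith

theorem abs_deriv_le_jet (η : TestFn Xa Xb) (X : ℝ) : |deriv (η : ℝ → ℝ) X| ≤ jet η := by
  have h0 := sup_nonneg (TF.bdd0 η)
  have h1 := le_ciSup (TF.bdd1 η) X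
  have h2 := sup_nonneg (TF.bdd2 η)
  unfold jet
  linarith

theorem abs_deriv2_le_jet (η : TestFn Xa Xb) (X : ℝ) :
    |deriv (deriv (η : ℝ → ℝ)) X| ≤ jet η := by
  have h0 := sup_nonneg (TF.bdd0 η)
  have h1 := sup_nonneg (TF.bdd1 η)
  have h2 := le_ciSup (TF.bdd2 η) X
  unfold jet
  linarith

theorem jet_nonneg (η : TestFn Xa Xb) : 0 ≤ jet η := (abs_nonneg _).trans (abs_le_jet η 0)

theorem deriv_add' (η ζ : TestFn Xa Xb) :
    deriv ((η + ζ : TestFn Xa Xb) : ℝ → ℝ) = fun X => deriv (η : ℝ → ℝ) X + deriv (ζ : ℝ → ℝ) X := by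
  funext X
  exact (((TF.diff η) X).hasDerivAt.add ((TF.diff ζ) X).hasDerivAt).deriv

theorem deriv2_add' (η ζ : TestFn Xa Xb) :
    deriv (deriv ((η + ζ : TestFn Xa Xb) : ℝ → ℝ)) =
      fun X => deriv (deriv (η : ℝ → ℝ)) X + deriv (deriv (ζ : ℝ → ℝ)) X := by
  rw [deriv_add']
  funext X
  exact (((TF.diff1 η) X).hasDerivAt.add ((TF.diff1 ζ) X).hasDerivAt).deriv

theorem deriv_smul' (c : ℝ) (η : TestFn Xa Xb) :
    deriv ((c • η : TestFn Xa Xb) : ℝ → ℝ) = fun X => c * deriv (η : ℝ → ℝ) X := by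
  funext X
  exact (((TF.diff η) X).hasDerivAt.const_mul c).deriv

theorem deriv2_smul' (c : ℝ) (η : TestFn Xa Xb) :
    deriv (deriv ((c • η : TestFn Xa Xb) : ℝ → ℝ)) =
      fun X => c * deriv (deriv (η : ℝ → ℝ)) X := by
  rw [deriv_smul']
  funext X
  exact (((TF.diff1 η) X).hasDerivAt.const_mul c).deriv

theorem jet_add_le (η ζ : TestFn Xa Xb) : jet (η + ζ) ≤ jet η + jet ζ := by
  unfold jet
  rw [deriv2_add', deriv_add']
  have h0 : (⨆ X, |((η + ζ : TestFn Xa Xb) : ℝ → ℝ) X|) ≤ _ := sup_add_le (TF.bdd0 η) (TF.bdd0 ζ)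
  have h1 := sup_add_le (TF.bdd1 η) (TF.bdd1 ζ)
  have h2 := sup_add_le (TF.bdd2 η) (TF.bdd2 ζ)
  linarith

theorem jet_smul (c : ℝ) (η : TestFn Xa Xb) : jet (c • η) = |c| * jet η := by
  unfold jet
  rw [deriv2_smul', deriv_smul']
  have h0 : (⨆ X, |((c • η : TestFn Xa Xb) : ℝ → ℝ) X|) = |c| * ⨆ X, |(η : ℝ → ℝ) X| :=
    sup_smul c
  rw [h0, sup_smul, sup_smul]
  ring

theorem jet_zero : jet (0 : TestFn Xa Xb) = 0 := by
  have := jet_smul (0 : ℝ) (0 : TestFn Xa Xb)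
  simpa using this

/-! ### finite Fourier families -/

/-- `GF G X u = ∑ f, G_f(X) Re (u^f)`, linear in `G` -/
def GF (X : ℝ) (u : ℂ) : (ℕ →₀ TestFn Xa Xb) →ₗ[ℝ] ℝ where
  toFun G := G.sum fun f η => (η : ℝ → ℝ) X * (u ^ f).re
  map_add' G G' := by
    refine Finsupp.sum_add_index' (fun f => by simp) fun f a b => ?_
    rw [Submodule.coe_add, Pi.add_apply]; ring
  map_smul' c G := by
    rw [Finsupp.sum_smul_index' (fun f => by simp), RingHom.id_apply, Finsupp.smul_sum]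
    refine Finsupp.sum_congr fun f _ => ?_
    rw [Submodule.coe_smul, Pi.smul_apply, smul_eq_mul, smul_eq_mul]; ring

theorem GF_apply (X : ℝ) (u : ℂ) (G : ℕ →₀ TestFn Xa Xb) :
    GF X u G = ∑ f ∈ G.support, (G f : ℝ → ℝ) X * (u ^ f).re := rfl

theorem GF_supp (G : ℕ →₀ TestFn Xa Xb) {X : ℝ} (hX : X ∉ Icc Xa Xb) (u : ℂ) : GF X u G = 0 := by
  rw [GF_apply]
  refine Finset.sum_eq_zero fun f _ => ?_
  rw [(TF.supp (G f)) hX, zero_mul]

theorem GF_ee (G : ℕ →₀ TestFn Xa Xb) (X φ : ℝ) :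
    GF X (Complex.exp ((φ : ℂ) * Complex.I)) G =
      ∑ f ∈ G.support, (G f : ℝ → ℝ) X * Real.cos (f * φ) := by
  rw [GF_apply]
  refine Finset.sum_congr rfl fun f _ => ?_
  rw [re_exp_pow]

theorem contDiff_GF {W : Type*} [NormedAddCommGroup W] [NormedSpace ℝ W]
    (G : ℕ →₀ TestFn Xa Xb) {X : W → ℝ} (hX : ContDiff ℝ ∞ X) {u : W → ℂ}
    (hu : ContDiff ℝ ∞ u) : ContDiff ℝ ∞ (fun p => GF (X p) (u p) G) := by
  simp only [GF_apply]
  refine ContDiff.sum fun f _ => ?_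
  exact ((TF.smooth (G f)).comp hX).mul ((contDiff_re_pow f).comp hu)

/-- the jet seminorm of a finite Fourier family -/
def jetN (G : ℕ →₀ TestFn Xa Xb) : ℝ := G.sum fun f η => (1 + (f : ℝ)) ^ 2 * jet η

theorem jetN_eq {G : ℕ →₀ TestFn Xa Xb} {F : Finset ℕ} (hF : G.support ⊆ F) :
    jetN G = ∑ f ∈ F, (1 + (f : ℝ)) ^ 2 * jet (G f) := by
  unfold jetN
  exact Finsupp.sum_of_support_subset _ hF _ fun f _ => by rw [jet_zero, mul_zero]

theorem jetN_nonneg (G : ℕ →₀ TestFn Xa Xb) : 0 ≤ jetN G :=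
  Finset.sum_nonneg fun f _ => mul_nonneg (by positivity) (jet_nonneg _)

theorem jetN_smul (c : ℝ) (G : ℕ →₀ TestFn Xa Xb) : jetN (c • G) = |c| * jetN G := by
  rw [jetN_eq (G := c • G) (F := G.support) Finsupp.support_smul, jetN_eq (subset_refl G.support),
    Finset.mul_sum]
  refine Finset.sum_congr rfl fun f _ => ?_
  rw [Finsupp.smul_apply, jet_smul]; ring

theorem jetN_add (G G' : ℕ →₀ TestFn Xa Xb) : jetN (G + G') ≤ jetN G + jetN G' := by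
  classical
  rw [jetN_eq (G := G + G') (F := G.support ∪ G'.support) Finsupp.support_add,
    jetN_eq (G := G) (F := G.support ∪ G'.support) Finset.subset_union_left,
    jetN_eq (G := G') (F := G.support ∪ G'.support) Finset.subset_union_right,
    ← Finset.sum_add_distrib]
  refine Finset.sum_le_sum fun f _ => ?_
  rw [Finsupp.add_apply, ← mul_add]
  exact mul_le_mul_of_nonneg_left (jet_add_le _ _) (by positivity)

/-- the general term bound -/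
theorem sum_le_jetN (G : ℕ →₀ TestFn Xa Xb) {y : ℕ → ℝ}
    (hy : ∀ f, |y f| ≤ (1 + (f : ℝ)) ^ 2 * jet (G f)) :
    |∑ f ∈ G.support, y f| ≤ jetN G :=
  (Finset.abs_sum_le_sum_abs _ _).trans (Finset.sum_le_sum fun f _ => hy f)

theorem one_le_sq (f : ℕ) : (1 : ℝ) ≤ (1 + (f : ℝ)) ^ 2 := by
  have : (0 : ℝ) ≤ f := Nat.cast_nonneg f
  nlinarith

theorem abs_mul_re_le {a b : ℝ} {u : ℂ} (hu : ‖u‖ ≤ 1) (f : ℕ) (h : |a| ≤ b) :
    |a * (u ^ f).re| ≤ (1 + (f : ℝ)) ^ 2 * b := by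
  have hb : 0 ≤ b := (abs_nonneg _).trans h
  rw [abs_mul]
  calc |a| * |(u ^ f).re| ≤ b * 1 := mul_le_mul h (abs_re_pow_le hu f) (abs_nonneg _) hb
    _ ≤ (1 + (f : ℝ)) ^ 2 * b := by nlinarith [one_le_sq f]

theorem abs_GF_le (G : ℕ →₀ TestFn Xa Xb) (X : ℝ) {u : ℂ} (hu : ‖u‖ ≤ 1) :
    |GF X u G| ≤ jetN G :=
  sum_le_jetN G fun f => abs_mul_re_le hu f (abs_le_jet (G f) X)

theorem hasDerivAt_GF_X (G : ℕ →₀ TestFn Xa Xb) (u : ℂ) (X : ℝ) :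
    HasDerivAt (fun Y => GF Y u G) (∑ f ∈ G.support, deriv (G f : ℝ → ℝ) X * (u ^ f).re) X := by
  simp only [GF_apply]
  refine HasDerivAt.fun_sum fun f _ => ?_
  exact ((TF.diff (G f)) X).hasDerivAt.mul_const _

theorem deriv_GF_X (G : ℕ →₀ TestFn Xa Xb) (u : ℂ) :
    deriv (fun Y => GF Y u G) = fun X => ∑ f ∈ G.support, deriv (G f : ℝ → ℝ) X * (u ^ f).re := by
  funext X
  exact (hasDerivAt_GF_X G u X).deriv

theorem deriv2_GF_X (G : ℕ →₀ TestFn Xa Xb) (u : ℂ) :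
    deriv (deriv (fun Y => GF Y u G)) =
      fun X => ∑ f ∈ G.support, deriv (deriv (G f : ℝ → ℝ)) X * (u ^ f).re := by
  rw [deriv_GF_X]
  funext X
  refine (HasDerivAt.fun_sum fun f _ => ?_).deriv
  exact ((TF.diff1 (G f)) X).hasDerivAt.mul_const _

theorem abs_GF_X_le (G : ℕ →₀ TestFn Xa Xb) (X : ℝ) {u : ℂ} (hu : ‖u‖ ≤ 1) :
    |deriv (fun Y => GF Y u G) X| ≤ jetN G := by
  rw [deriv_GF_X]
  exact sum_le_jetN G fun f => abs_mul_re_le hu f (abs_deriv_le_jet (G f) X)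

theorem abs_GF_XX_le (G : ℕ →₀ TestFn Xa Xb) (X : ℝ) {u : ℂ} (hu : ‖u‖ ≤ 1) :
    |deriv (deriv (fun Y => GF Y u G)) X| ≤ jetN G := by
  rw [deriv2_GF_X]
  exact sum_le_jetN G fun f => abs_mul_re_le hu f (abs_deriv2_le_jet (G f) X)

theorem hasDerivAt_mulφ (f : ℕ) (φ : ℝ) : HasDerivAt (fun ψ : ℝ => (f : ℝ) * ψ) (f : ℝ) φ := by
  simpa using (hasDerivAt_id φ).const_mul (f : ℝ)

theorem deriv_GF_φ (G : ℕ →₀ TestFn Xa Xb) (X : ℝ) :
    deriv (fun φ : ℝ => GF X (Complex.exp ((φ : ℂ) * Complex.I)) G) =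
      fun φ => ∑ f ∈ G.support, (G f : ℝ → ℝ) X * (-Real.sin (f * φ) * f) := by
  simp only [GF_ee]
  funext φ
  refine (HasDerivAt.fun_sum fun f _ => ?_).deriv
  exact (hasDerivAt_mulφ f φ).cos.const_mul _

theorem deriv2_GF_φ (G : ℕ →₀ TestFn Xa Xb) (X : ℝ) :
    deriv (deriv (fun φ : ℝ => GF X (Complex.exp ((φ : ℂ) * Complex.I)) G)) =
      fun φ => ∑ f ∈ G.support, (G f : ℝ → ℝ) X * (-(Real.cos (f * φ) * f) * f) := by
  rw [deriv_GF_φ]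
  funext φ
  refine (HasDerivAt.fun_sum fun f _ => ?_).deriv
  exact ((hasDerivAt_mulφ f φ).sin.neg.mul_const _).const_mul _

theorem abs_GF_φ_le (G : ℕ →₀ TestFn Xa Xb) (X φ : ℝ) :
    |deriv (fun ψ : ℝ => GF X (Complex.exp ((ψ : ℂ) * Complex.I)) G) φ| ≤ jetN G := by
  rw [deriv_GF_φ]
  refine sum_le_jetN G fun f => ?_
  have h1 : (0 : ℝ) ≤ f := Nat.cast_nonneg _
  have hj := jet_nonneg (G f)
  rw [abs_mul, abs_mul, abs_neg, abs_of_nonneg h1]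
  calc |(G f : ℝ → ℝ) X| * (|Real.sin (f * φ)| * f) ≤ jet (G f) * (1 * f) :=
        mul_le_mul (abs_le_jet _ X) (mul_le_mul_of_nonneg_right (Real.abs_sin_le_one _) h1)
          (by positivity) hj
    _ ≤ (1 + (f : ℝ)) ^ 2 * jet (G f) := by
        rw [mul_comm]
        apply mul_le_mul_of_nonneg_right _ hj
        nlinarith

theorem abs_GF_φφ_le (G : ℕ →₀ TestFn Xa Xb) (X φ : ℝ) :
    |deriv (deriv (fun ψ : ℝ => GF X (Complex.exp ((ψ : ℂ) * Complex.I)) G)) φ| ≤ jetN G := by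
  rw [deriv2_GF_φ]
  refine sum_le_jetN G fun f => ?_
  have h1 : (0 : ℝ) ≤ f := Nat.cast_nonneg _
  have hj := jet_nonneg (G f)
  rw [abs_mul, abs_mul, abs_neg, abs_mul, abs_of_nonneg h1]
  calc |(G f : ℝ → ℝ) X| * (|Real.cos (f * φ)| * f * f) ≤ jet (G f) * (1 * f * f) :=
        mul_le_mul (abs_le_jet _ X) (mul_le_mul_of_nonneg_right
          (mul_le_mul_of_nonneg_right (Real.abs_cos_le_one _) h1) h1)
          (by positivity) hj
    _ ≤ (1 + (f : ℝ)) ^ 2 * jet (G f) := by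
        rw [mul_comm]
        apply mul_le_mul_of_nonneg_right _ hj
        nlinarith

/-! ### polygons -/

/-- A closed polygon in the parameter space `(b, G)`, vertices affine in `κ`. -/
structure Polygon (Xa Xb y0 y1 : ℝ) where
  r : ℕ
  r_pos : 0 < r
  vb : ℕ → ℝ
  G0 : ℕ → (ℕ →₀ TestFn Xa Xb)
  G1 : ℕ → (ℕ →₀ TestFn Xa Xb)
  vb_mem : ∀ i ≤ r, vb i ∈ Icc y0 y1
  vb_zero : vb 0 = y0
  vb_r : vb r = y0
  G0_zero : G0 0 = 0
  G0_r : G0 r = 0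
  G1_zero : G1 0 = 0
  G1_r : G1 r = 0

namespace Polygon

variable {y0 y1 : ℝ} (p : Polygon Xa Xb y0 y1)

/-- the vertex `i` at the parameter `κ` -/
def V (κ : ℝ) (i : ℕ) : ℕ →₀ TestFn Xa Xb := p.G0 i + κ • p.G1 i

/-- the `b`-coordinate of the path -/
def y (τ : ℝ) : ℝ := tele p.r p.vb τ

/-- the `G`-coordinate of the path -/
def G (τ κ : ℝ) : ℕ →₀ TestFn Xa Xb := tele p.r (p.V κ) τ

/-- the perturbation along the path -/
def Gh (τ κ X : ℝ) (u : ℂ) : ℝ := GF X u (p.G τ κ)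

/-- every point of the path lies on an edge -/
theorem exists_edge (τ : ℝ) : ∃ i < p.r, ∃ s ∈ Icc (0 : ℝ) 1,
    p.y τ = (1 - s) * p.vb i + s * p.vb (i + 1) ∧
    ∀ κ, p.G τ κ = (1 - s) • p.V κ i + s • p.V κ (i + 1) := by
  rcases le_or_gt τ 0 with h0 | h0
  · refine ⟨0, p.r_pos, 0, ⟨le_rfl, zero_le_one⟩, ?_, fun κ => ?_⟩
    · unfold y; rw [tele_left _ _ h0]; ring
    · unfold G; rw [tele_left _ _ h0]; simp
  rcases le_or_gt 1 τ with h1 | h1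
  · have h3 : p.r - 1 + 1 = p.r := Nat.succ_pred_eq_of_pos p.r_pos
    refine ⟨p.r - 1, by have := p.r_pos; omega, 1, ⟨zero_le_one, le_rfl⟩, ?_, fun κ => ?_⟩
    · unfold y; rw [tele_right _ _ h1, h3]; ring
    · unfold G; rw [tele_right _ _ h1, h3]; simp
  refine ⟨eidx p.r τ, eidx_lt p.r_pos τ, epos p.r τ, epos_mem p.r τ, ?_, fun κ => ?_⟩
  · unfold y; rw [tele_eq p.r_pos _ h0.le h1.le]; simp [smul_eq_mul]
  · unfold G; exact tele_eq p.r_pos _ h0.le h1.le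

/-- TRANSFER: a property of parameter points `(b, G)` which holds on all edges for the
parameter `κ` holds along the path -/
theorem forall_path (Q : ℝ → (ℕ →₀ TestFn Xa Xb) → Prop) (κ : ℝ)
    (hQ : ∀ i < p.r, ∀ s ∈ Icc (0 : ℝ) 1,
      Q ((1 - s) * p.vb i + s * p.vb (i + 1)) ((1 - s) • p.V κ i + s • p.V κ (i + 1))) (τ : ℝ) :
    Q (p.y τ) (p.G τ κ) := by
  obtain ⟨i, hi, s, hs, h1, h2⟩ := p.exists_edge τ
  rw [h1, h2 κ]
  exact hQ i hi s hs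

theorem y_smooth : ContDiff ℝ ∞ p.y :=
  contDiff_tele p.r (V := fun i (_ : ℝ) => p.vb i) (fun _ => contDiff_const) contDiff_id

theorem Gh_eq (τ κ X : ℝ) (u : ℂ) :
    p.Gh τ κ X u = tele p.r (fun i => GF X u (p.G0 i) + κ * GF X u (p.G1 i)) τ := by
  unfold Gh G
  have h := map_tele (GF (Xa := Xa) (Xb := Xb) X u) p.r (p.V κ) τ
  rw [h]
  congr 1
  funext i
  unfold V
  rw [map_add, map_smul, smul_eq_mul]

theorem Gh_smooth :
    ContDiff ℝ ∞ (fun q : ℝ × ℝ × ℝ × ℂ => p.Gh q.1 q.2.1 q.2.2.1 q.2.2.2) := by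
  simp only [Gh_eq]
  have h1 : ContDiff ℝ ∞ (fun q : ℝ × ℝ × ℝ × ℂ => q.2.2.1) := by fun_prop
  have h2 : ContDiff ℝ ∞ (fun q : ℝ × ℝ × ℝ × ℂ => q.2.2.2) := by fun_prop
  have h3 : ContDiff ℝ ∞ (fun q : ℝ × ℝ × ℝ × ℂ => q.2.1) := by fun_prop
  exact contDiff_tele p.r
    (V := fun i (q : ℝ × ℝ × ℝ × ℂ) => GF q.2.2.1 q.2.2.2 (p.G0 i)
      + q.2.1 * GF q.2.2.1 q.2.2.2 (p.G1 i))
    (fun i => (contDiff_GF (p.G0 i) h1 h2).add (h3.mul (contDiff_GF (p.G1 i) h1 h2)))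
    (g := fun q : ℝ × ℝ × ℝ × ℂ => q.1) contDiff_fst

theorem V_zero (κ : ℝ) : p.V κ 0 = 0 := by
  unfold V; rw [p.G0_zero, p.G1_zero]; simp

theorem V_r (κ : ℝ) : p.V κ p.r = 0 := by
  unfold V; rw [p.G0_r, p.G1_r]; simp

theorem G_left {τ : ℝ} (κ : ℝ) (h : τ ≤ 0) : p.G τ κ = 0 := by
  unfold G; rw [tele_left _ _ h, p.V_zero]

theorem G_right {τ : ℝ} (κ : ℝ) (h : 1 ≤ τ) : p.G τ κ = 0 := by
  unfold G; rw [tele_right _ _ h, p.V_r]

theorem y_mem (τ : ℝ) : p.y τ ∈ Icc y0 y1 := tele_mem_Icc p.r_pos p.vb p.vb_mem τ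

/-- seminorm bounds at the vertices are bounds along the path -/
theorem jetN_le {B κ : ℝ} (hB : ∀ i ≤ p.r, jetN (p.V κ i) ≤ B) (τ : ℝ) :
    jetN (p.G τ κ) ≤ B := by
  refine p.forall_path (fun _ G => jetN G ≤ B) κ (fun i hi s hs => ?_) τ
  have h1 := hB i hi.le
  have h2 := hB (i + 1) hi
  have h3 : 0 ≤ 1 - s := by linarith [hs.2]
  calc jetN ((1 - s) • p.V κ i + s • p.V κ (i + 1))
      ≤ jetN ((1 - s) • p.V κ i) + jetN (s • p.V κ (i + 1)) := jetN_add _ _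
    _ = (1 - s) * jetN (p.V κ i) + s * jetN (p.V κ (i + 1)) := by
        rw [jetN_smul, jetN_smul, abs_of_nonneg h3, abs_of_nonneg hs.1]
    _ ≤ (1 - s) * B + s * B :=
        add_le_add (mul_le_mul_of_nonneg_left h1 h3) (mul_le_mul_of_nonneg_left h2 hs.1)
    _ = B := by ring

/-- vertices affine in `κ`: it is enough to know the bounds of `G0`, `G1` -/
theorem jetN_V_le {B : ℝ} (hB : ∀ i ≤ p.r, jetN (p.G0 i) + jetN (p.G1 i) ≤ B) {κ : ℝ}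
    (hκ : κ ∈ Icc (-1 : ℝ) 1) (i : ℕ) (hi : i ≤ p.r) : jetN (p.V κ i) ≤ B := by
  have h1 : |κ| ≤ 1 := abs_le.2 ⟨hκ.1, hκ.2⟩
  calc jetN (p.V κ i) ≤ jetN (p.G0 i) + jetN (κ • p.G1 i) := jetN_add _ _
    _ = jetN (p.G0 i) + |κ| * jetN (p.G1 i) := by rw [jetN_smul]
    _ ≤ jetN (p.G0 i) + 1 * jetN (p.G1 i) := by
        linarith [mul_le_mul_of_nonneg_right h1 (jetN_nonneg (p.G1 i))]
    _ ≤ B := by rw [one_mul]; exact hB i hi

/-- **the loop of a polygon** -/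
def toYLoop (hsm : ∀ κ ∈ Icc (-1 : ℝ) 1, ∀ i ≤ p.r, jetN (p.V κ i) ≤ 1 / 2) :
    Sch.YLoop y0 y1 Xa Xb where
  y := p.y
  Gh := p.Gh
  y_smooth := p.y_smooth
  y_left τ h := by unfold y; rw [tele_left _ _ h, p.vb_zero]
  y_right τ h := by unfold y; rw [tele_right _ _ h, p.vb_r]
  y_mem := p.y_mem
  Gh_smooth := p.Gh_smooth
  Gh_left τ κ X u h := by unfold Gh; rw [p.G_left κ h, map_zero]
  Gh_right τ κ X u h := by unfold Gh; rw [p.G_right κ h, map_zero]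
  Gh_supp τ κ X u h := GF_supp _ h u
  Gh_small τ κ hκ X u hu := (abs_GF_le _ X hu).trans (p.jetN_le (hsm κ hκ) τ)

end Polygon

end

end Crest.Agent.R202.PL
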