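import Crest.Agent.R202.Model3
import Crest.Agent.R202.CThmDef
import Crest.Agent.R202.SpFam
import Crest.Agent.R202.CluDefs
import Crest.Agent.R202.PolyTest

/-!
# Row 202: instantiation of the abstract spindle family, part 1 (helper98)

Test functions, size, the perturbed profile and the forms.
-/

set_option autoImplicit false

open MeasureTheory Set Filter
open scoped Topology ContDiff
open Crest.Agent.R202.Mod Crest.Agent.R202.Cut Crest.Agent.R202.PL Crest.Agent.R202.Clu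

noncomputable section

namespace Crest.Agent.R202.Inst

variable {Xa Xb : ℝ}

theorem Gf_eq (G : ℕ →₀ TF Xa Xb) (z : ℝ × ℝ) :
    Gf G z = GF z.1 (Complex.exp ((z.2 : ℂ) * Complex.I)) G := (GF_ee G z.1 z.2).symm

theorem abs_Gf_le (G : ℕ →₀ TF Xa Xb) (z : ℝ × ℝ) : |Gf G z| ≤ jetN G := by
  rw [Gf_eq]
  exact abs_GF_le G z.1 (by rw [Complex.norm_exp_ofReal_mul_I])

theorem measurable_Gf (G : ℕ →₀ TF Xa Xb) : Measurable (Gf G) := by
  unfold Gf Finsupp.sum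
  refine Finset.measurable_fun_sum _ fun f _ => ?_
  have := (TF.smooth (G f)).continuous.measurable
  fun_prop

theorem adm_prof (d : ℕ) {h : ℝ → ℝ} (hm : Measurable h) (h0 : ∀ x, 0 ≤ h x) (h1 : ∀ x, h x ≤ 1)
    {b β : ℝ} (hb : 1 ≤ b) (hbβ : b ≤ β) {G : ℕ →₀ TF Xa Xb} (hG : jetN G ≤ 1 / 2) :
    Adm d (β + 2) (prof h b G) := by
  refine ⟨?_, by linarith, fun z _ => ?_, fun z _ => ?_⟩
  · refine Measurable.aestronglyMeasurable ?_
    have := measurable_Gf G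
    unfold prof
    fun_prop
  · have h2 := (abs_le.1 ((abs_Gf_le G z).trans hG)).1
    have h3 := mul_nonneg (sub_nonneg.2 hb) (h0 z.1)
    have h4 : (β + 2)⁻¹ ≤ 1 / 2 := by
      rw [inv_le_comm₀ (by linarith) (by norm_num)]; linarith
    unfold prof; linarith
  · have h2 := (abs_le.1 ((abs_Gf_le G z).trans hG)).2
    have h3 := mul_le_mul_of_nonneg_left (h1 z.1) (sub_nonneg.2 hb)
    unfold prof; linarith

/-- the ideal spindle form -/
def a0form (d : ℕ) (σ : ℕ × ℕ) (b : ℝ) : Bil (CT.VV σ) := Q σ.1 σ.2 (adm_one d) b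

theorem aform_QF {d : ℕ} (σ : ℕ × ℕ) (b : ℝ) {P : ℝ × ℝ → ℝ} {K : ℝ} (hP : Adm d K P)
    (u v : CT.VV σ) : aform d σ b P u v = CT.QF d σ b P u v := by
  rw [Clu.aform_eq σ b hP]; rfl

/-- (P1) -/
theorem aform_comp (d : ℕ) (σ : ℕ × ℕ) {b0 b1 : ℝ} (hb0 : 1 ≤ b0) (hb01 : b0 ≤ b1)
    {hs : ℕ → ℝ → ℝ}
    (hm : ∀ k, Measurable (hs k)) (h0 : ∀ k x, 0 ≤ hs k x) (h1 : ∀ k x, hs k x ≤ 1) :
    ∃ c : ℝ, 0 < c ∧ c ≤ 1 ∧ ∀ b ∈ Icc b0 b1, ∀ b' ∈ Icc b0 b1, ∀ G : ℕ →₀ TF Xa Xb,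
      jetN G ≤ 1 / 2 → ∀ k v, c * a0form d σ b' v v ≤ aform d σ b (prof (hs k) b G) v v := by
  have hb1 : 1 ≤ b1 := hb0.trans hb01
  have hpos : 0 < (b1 + 2) * b1 ^ 2 := by positivity
  refine ⟨((b1 + 2) * b1 ^ 2)⁻¹, inv_pos.2 hpos, inv_le_one_of_one_le₀ ?_,
    fun b hb b' hb' G hG k v => ?_⟩
  · nlinarith [sq_nonneg b1, mul_le_mul hb1 hb1 zero_le_one (by linarith)]
  · have hP := adm_prof d (hm k) (h0 k) (h1 k) (hb0.trans hb.1) hb.2 hG
    rw [Clu.aform_eq σ b hP]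
    exact Q_ge hP (hb0.trans hb.1) (by linarith [hb'.1]) hb'.2 hb1 v

end Crest.Agent.R202.Inst
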