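import Crest.Agent.R202.PolyTest
import Crest.Agent.R202.CThmDef

/-! # Row 202, node LB / PolyLoop, part 3 (helper557): `JetSmall`, evenness and motion of polygon
loops (the side conditions of `CThm`). -/

set_option autoImplicit false

open Set
open scoped ContDiff

namespace Crest.Agent.R202.PL

noncomputable section

theorem tele_vertex {E : Type*} [AddCommGroup E] [Module ℝ E] {r : ℕ} (hr : 0 < r) (V : ℕ → E)
    {i : ℕ} (hi : i ≤ r) : tele r V ((i : ℝ) / r) = V i := by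
  have hr' : (0 : ℝ) < r := by exact_mod_cast hr
  have e1 : (r : ℝ) * ((i : ℝ) / r) = i := by field_simp
  rcases hi.lt_or_eq with h | h
  · rw [tele_edge r V _ h (by rw [e1]) (by rw [e1]; linarith), e1, sub_self,
      Real.smoothTransition.zero, zero_smul, add_zero]
  · subst h
    rw [div_self hr'.ne', tele_right _ _ le_rfl]

theorem GF_star {Xa Xb : ℝ} (X : ℝ) (u : ℂ) (G : ℕ →₀ TestFn Xa Xb) :
    GF X (star u) G = GF X u G := by
  rw [GF_apply, GF_apply]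
  refine Finset.sum_congr rfl fun f _ => ?_
  rw [← star_pow]
  congr 1

theorem GF_eq_Gf {Xa Xb : ℝ} (G : ℕ →₀ TestFn Xa Xb) (z : ℝ × ℝ) :
    GF z.1 (Sch.ee z.2) G = Clu.Gf G z := by
  have h := GF_ee G z.1 z.2
  unfold Sch.ee
  rw [h]
  rfl

/-- the profile of 98 (`CT.PF`) and the profile of 58 (`Clu.prof`) -/
theorem PF_eq_prof {Xa Xb : ℝ} (h : ℝ → ℝ) (b : ℝ) (G : ℕ →₀ TestFn Xa Xb) :
    CT.PF h b (fun X u => GF X u G) = Clu.prof h b G := by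
  funext z
  unfold CT.PF Clu.prof
  have h1 := GF_eq_Gf G z
  simp only [h1]

theorem abs_Gf_le {Xa Xb : ℝ} (G : ℕ →₀ TestFn Xa Xb) (z : ℝ × ℝ) : |Clu.Gf G z| ≤ jetN G := by
  rw [← GF_eq_Gf]
  refine abs_GF_le G z.1 ?_
  unfold Sch.ee
  rw [Complex.norm_exp_ofReal_mul_I]

namespace Polygon

variable {Xa Xb y0 y1 : ℝ} (p : Polygon Xa Xb y0 y1)
  (hsm : ∀ κ ∈ Icc (-1 : ℝ) 1, ∀ i ≤ p.r, jetN (p.V κ i) ≤ 1 / 2)

theorem jetSmall {η : ℝ} (h : ∀ κ ∈ Icc (-1 : ℝ) 1, ∀ i ≤ p.r, jetN (p.V κ i) ≤ η) :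
    CT.JetSmall (p.toYLoop hsm) η := by
  intro τ κ hκ X φ
  have hG : jetN (p.G τ κ) ≤ η := p.jetN_le (h κ hκ) τ
  have hu : ‖Complex.exp ((φ : ℂ) * Complex.I)‖ ≤ 1 := by
    rw [Complex.norm_exp_ofReal_mul_I]
  exact ⟨(abs_GF_le (p.G τ κ) X hu).trans hG, (abs_GF_X_le (p.G τ κ) X hu).trans hG,
    (abs_GF_XX_le (p.G τ κ) X hu).trans hG, (abs_GF_φ_le (p.G τ κ) X φ).trans hG,
    (abs_GF_φφ_le (p.G τ κ) X φ).trans hG⟩

/-- along the loop the profile is 58's profile at the parameter point `(y τ, G τ κ)` -/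
theorem PF_loop (h : ℝ → ℝ) (τ κ : ℝ) :
    CT.PF h ((p.toYLoop hsm).y τ) ((p.toYLoop hsm).Gh τ κ) = Clu.prof h (p.y τ) (p.G τ κ) :=
  PF_eq_prof h (p.y τ) (p.G τ κ)

theorem even (τ κ X : ℝ) (u : ℂ) :
    (p.toYLoop hsm).Gh τ κ X (star u) = (p.toYLoop hsm).Gh τ κ X u :=
  GF_star X u (p.G τ κ)

theorem moves {i : ℕ} (hi : i ≤ p.r) (h : y0 < p.vb i) :
    ∃ τ ∈ Ioo (0 : ℝ) 1, y0 < (p.toYLoop hsm).y τ := by
  have hr : (0 : ℝ) < p.r := by exact_mod_cast p.r_pos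
  have h0 : i ≠ 0 := by
    rintro rfl
    rw [p.vb_zero] at h
    exact lt_irrefl _ h
  have h1 : i ≠ p.r := by
    intro h1
    rw [h1, p.vb_r] at h
    exact lt_irrefl _ h
  have hi' : i < p.r := lt_of_le_of_ne hi h1
  refine ⟨(i : ℝ) / p.r, ⟨?_, ?_⟩, ?_⟩
  · have : (0 : ℝ) < i := by exact_mod_cast Nat.pos_of_ne_zero h0
    positivity
  · rw [div_lt_one hr]
    exact_mod_cast hi'
  · change y0 < tele p.r p.vb ((i : ℝ) / p.r)
    rw [tele_vertex p.r_pos p.vb hi]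
    exact h

end Polygon

end

end Crest.Agent.R202.PL
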