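import Crest.Agent.R202.InstFam
import Crest.Agent.R202.GateDefs
import Crest.Agent.R202.PolyJet

/-!
# Row 202: from the abstract gate output to the polygon and the loop (helper98)
-/

set_option autoImplicit false

open MeasureTheory Set Filter
open scoped Topology ContDiff
open Crest.Agent.R202.Mod Crest.Agent.R202.Cut Crest.Agent.R202.PL Crest.Agent.R202.Clu

noncomputable section

namespace Crest.Agent.R202.Inst

variable {Xa Xb : ℝ} {d : ℕ} {b0 b1 : ℝ} {hb0 : 1 ≤ b0} {hb01 : b0 ≤ b1} {hs : ℕ → ℝ → ℝ}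
  {ε : ℕ → ℝ} {H : Tips Xb hs ε} {ha : 0 < Xa} {hab : Xa < Xb} {hb : Xb < 1}
  {S : Finset (ℕ × ℕ)} {N : ℕ × ℕ → ℕ} {σs : ℕ × ℕ} {ls : ℕ} {δ : ℝ}

/-- the polygon of a gate -/
def poly (O : SF.GateOut (fam d hb0 hb01 H ha hab hb) S N σs ls δ) : Polygon Xa Xb b0 b1 where
  r := 2 * O.n + 4
  r_pos := by omega
  vb := O.vb
  G0 := O.G0
  G1 := O.G1
  vb_mem i _ := O.mem i
  vb_zero := O.start_b
  vb_r := by
    have h := (O.pal O.n le_rfl).1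
    have e : 2 * O.n + 4 = O.n + 4 + O.n := by ring
    rw [e, h, Nat.sub_self, O.start_b]
  G0_zero := O.start_G0
  G0_r := by
    have h := (O.pal O.n le_rfl).2.1
    have e : 2 * O.n + 4 = O.n + 4 + O.n := by ring
    rw [e, h, Nat.sub_self, O.start_G0]
  G1_zero := O.start_G1
  G1_r := by
    have h := (O.pal O.n le_rfl).2.2
    have e : 2 * O.n + 4 = O.n + 4 + O.n := by ring
    rw [e, h]

theorem poly_small (O : SF.GateOut (fam d hb0 hb01 H ha hab hb) S N σs ls δ) {c : ℝ} (hδ : δ ≤ c) :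
    ∀ κ ∈ Icc (-1 : ℝ) 1, ∀ i ≤ (poly O).r, jetN ((poly O).V κ i) ≤ c :=
  fun κ hκ i _ => (O.sz_le i κ hκ).trans hδ

/-- the form of the sector `σ` along the loop -/
def aPath (O : SF.GateOut (fam d hb0 hb01 H ha hab hb) S N σs ls δ) (k : ℕ) (σ : ℕ × ℕ)
    (τ κ : ℝ) : Bil (CT.VV σ) :=
  aform d σ ((poly O).y τ) (prof (hs k) ((poly O).y τ) ((poly O).G τ κ))

/-- admissibility along the loop -/
theorem aPath_adm (O : SF.GateOut (fam d hb0 hb01 H ha hab hb) S N σs ls δ) (hδ : δ ≤ 1 / 2)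
    (k : ℕ) (τ : ℝ) {κ : ℝ} (hκ : κ ∈ Icc (-1 : ℝ) 1) :
    Adm d (b1 + 2) (prof (hs k) ((poly O).y τ) ((poly O).G τ κ)) :=
  adm_prof d (H.meas k) (H.nonneg k) (H.le_one k) (hb0.trans ((poly O).y_mem τ).1)
    ((poly O).y_mem τ).2 ((poly O).jetN_le (poly_small O hδ κ hκ) τ)

/-- the span of the spindle functions -/
def spanPsi (d : ℕ) (σ : ℕ × ℕ) (b : ℝ) : Submodule ℝ (CT.VV σ) :=
  Submodule.span ℝ (range fun p : SF.Lbl σ.2 => psiN d σ.1 σ.2 b p)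

/-- openness of the cuts along the loop -/
theorem aPath_open (O : SF.GateOut (fam d hb0 hb01 H ha hab hb) S N σs ls δ) {k : ℕ}
    (hk : O.K ≤ k) {σ : ℕ × ℕ} (hσ : σ ∈ S) {l : ℕ} (hl : l ≤ N σ) {κ : ℝ}
    (hκ : κ ∈ Icc (-1 : ℝ) 1) (hg : (σ, l) ≠ (σs, ls + 1) ∨ κ = 1 ∨ κ = -1) (τ : ℝ) :
    ∃ b' ∈ Icc b0 b1, IsOpenIn (g d σ.1 σ.2) (aPath O k σ τ κ) (spanPsi d σ b') l := by
  obtain ⟨i, hi, s, hs', h1, h2⟩ := (poly O).exists_edge τ
  obtain ⟨b', hb', h⟩ := O.isOpen k hk σ hσ l hl κ hκ hg i hi s hs'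
  refine ⟨b', hb', ?_⟩
  unfold aPath
  rw [h1, h2 κ]
  exact h

end Crest.Agent.R202.Inst
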