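import Crest.Agent.R202.JacTri

/-!
# Row 202, matrix part: block lemma
-/

set_option autoImplicit false

open Filter Topology Module Matrix
open scoped InnerProductSpace

noncomputable section

namespace Crest.Agent.R202.Jac

variable {E : Type*} [NormedAddCommGroup E] [InnerProductSpace ℝ E]

theorem abs_inner_N_le (N : E →L[ℝ] E) {ν : ℝ} (hN : ‖N‖ ≤ ν) (v w : E) :
    |⟪N v, w⟫_ℝ| ≤ ν * (‖v‖ * ‖w‖) := by
  calc |⟪N v, w⟫_ℝ| ≤ ‖N v‖ * ‖w‖ := abs_real_inner_le_norm _ _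
    _ ≤ (‖N‖ * ‖v‖) * ‖w‖ := by gcongr; exact N.le_opNorm v
    _ ≤ (ν * ‖v‖) * ‖w‖ := by gcongr
    _ = ν * (‖v‖ * ‖w‖) := by ring

/-- block lemma, upper half: `v1` is a low vector, `v2` a vector of the cluster at level `lam` -/
theorem block_le {T0 N : E →L[ℝ] E} (hNs : ∀ v w, ⟪N v, w⟫_ℝ = ⟪v, N w⟫_ℝ)
    {lam g ν A : ℝ} (hg : 0 < g) (hν : 0 ≤ ν) (h4 : 4 * ν ≤ g) (hA : |A| ≤ ν) (hN : ‖N‖ ≤ ν)
    {v1 v2 : E} (h12 : ⟪v1, v2⟫_ℝ = 0)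
    (h0 : ⟪T0 (v1 + v2), v1 + v2⟫_ℝ ≤ (lam - g) * ‖v1‖ ^ 2 + lam * ‖v2‖ ^ 2)
    (h2 : ⟪N v2, v2⟫_ℝ ≤ A * ‖v2‖ ^ 2) :
    ⟪(T0 + N) (v1 + v2), v1 + v2⟫_ℝ ≤ (lam + (A + 2 * ν ^ 2 / g)) * ‖v1 + v2‖ ^ 2 := by
  have hn : ‖v1 + v2‖ ^ 2 = ‖v1‖ ^ 2 + ‖v2‖ ^ 2 := by
    have := norm_add_sq_real v1 v2
    rw [h12] at this
    linarith
  have e1 : ⟪N (v1 + v2), v1 + v2⟫_ℝ = ⟪N v1, v1⟫_ℝ + 2 * ⟪N v1, v2⟫_ℝ + ⟪N v2, v2⟫_ℝ := by
    rw [map_add, inner_add_left, inner_add_right, inner_add_right]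
    have : ⟪N v2, v1⟫_ℝ = ⟪N v1, v2⟫_ℝ := by rw [hNs v2 v1, real_inner_comm]
    rw [this]
    ring
  have h11 := (abs_le.1 (abs_inner_N_le N hN v1 v1)).2
  have h12' := (abs_le.1 (abs_inner_N_le N hN v1 v2)).2
  have hs := block_scalar (a := ‖v1‖) (b := ‖v2‖) hg hν h4 hA
  rw [abs_of_nonneg (norm_nonneg v1), abs_of_nonneg (norm_nonneg v2)] at hs
  rw [_root_.add_apply, inner_add_left, hn, e1]
  nlinarith

/-- block lemma, lower half -/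
theorem block_ge {T0 N : E →L[ℝ] E} (hNs : ∀ v w, ⟪N v, w⟫_ℝ = ⟪v, N w⟫_ℝ)
    {lam g ν B : ℝ} (hg : 0 < g) (hν : 0 ≤ ν) (h4 : 4 * ν ≤ g) (hB : |B| ≤ ν) (hN : ‖N‖ ≤ ν)
    {v3 v2 : E} (h12 : ⟪v3, v2⟫_ℝ = 0)
    (h0 : (lam + g) * ‖v3‖ ^ 2 + lam * ‖v2‖ ^ 2 ≤ ⟪T0 (v3 + v2), v3 + v2⟫_ℝ)
    (h2 : B * ‖v2‖ ^ 2 ≤ ⟪N v2, v2⟫_ℝ) :
    (lam + (B - 2 * ν ^ 2 / g)) * ‖v3 + v2‖ ^ 2 ≤ ⟪(T0 + N) (v3 + v2), v3 + v2⟫_ℝ := by
  have hneg := block_le (T0 := -T0) (N := -N) (lam := -lam) (A := -B)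
    (fun v w => by simp [hNs v w]) hg hν h4 (by rwa [abs_neg]) (by rwa [norm_neg]) h12
    (by
      have : ⟪(-T0) (v3 + v2), v3 + v2⟫_ℝ = -⟪T0 (v3 + v2), v3 + v2⟫_ℝ :=
        inner_neg_left _ _
      rw [this]
      nlinarith)
    (by
      have : ⟪(-N) v2, v2⟫_ℝ = -⟪N v2, v2⟫_ℝ := inner_neg_left _ _
      rw [this]
      nlinarith)
  have e : ⟪(-T0 + -N) (v3 + v2), v3 + v2⟫_ℝ = -⟪(T0 + N) (v3 + v2), v3 + v2⟫_ℝ := by
    rw [← inner_neg_left]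
    congr 1
    show -T0 (v3 + v2) + -N (v3 + v2) = -(T0 (v3 + v2) + N (v3 + v2))
    abel
  rw [e] at hneg
  nlinarith

theorem SepF.weaken {l : ℕ} {T : E →L[ℝ] E} {F : Fin l → E} {A B A' B' : ℝ}
    (h : SepF T F A B) (hA : A ≤ A') (hB : B' ≤ B) (hAB : A' < B') : SepF T F A' B' where
  li := h.li
  lt := hAB
  le := fun w hw => by
    have h1 := h.le w hw
    have : A * ‖w‖ ^ 2 ≤ A' * ‖w‖ ^ 2 := by gcongr
    linarith
  ge := fun v hv => by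
    have h1 := h.ge v hv
    have : B' * ‖v‖ ^ 2 ≤ B * ‖v‖ ^ 2 := by gcongr
    linarith

theorem exists_perp [FiniteDimensional ℝ E] {n : ℕ} (hn : finrank ℝ E = n)
    {k : Fin n} (φ : Fin n → E) : ∃ v : E, v ≠ 0 ∧ ∀ i, i ≠ k → ⟪φ i, v⟫_ℝ = 0 := by
  classical
  let f : E →ₗ[ℝ] ({i : Fin n // i ≠ k} → ℝ) :=
    LinearMap.pi fun i => (innerSL ℝ (φ i.1) : E →ₗ[ℝ] ℝ)
  have hk : LinearMap.ker f ≠ ⊥ := by
    apply LinearMap.ker_ne_bot_of_finrank_lt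
    rw [hn, Module.finrank_fintype_fun_eq_card]
    have : Fintype.card {i : Fin n // i ≠ k} = n - 1 := by
      rw [Fintype.card_subtype_compl]
      simp
    rw [this]
    have := k.2
    omega
  obtain ⟨v, hv, hv0⟩ := (Submodule.ne_bot_iff _).1 hk
  refine ⟨v, hv0, fun i hi => ?_⟩
  have := congrFun (LinearMap.mem_ker.1 hv) ⟨i, hi⟩
  simpa [f] using this

/-- comparison of sorted spectra through a sign form: `Φ` has the sign pattern of the sorted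
numbers `τ - τ k` in the (non orthonormal) dual family `g`. -/
theorem eig_eq_of_signs [FiniteDimensional ℝ E] {n : ℕ} (hn : finrank ℝ E = n)
    (b : OrthonormalBasis (Fin n) ℝ E) {T : E →L[ℝ] E} {μ : Fin n → ℝ} (hμ : Monotone μ)
    (hb : ∀ i, T (b i) = μ i • b i) {τ : Fin n → ℝ} (hτ : Monotone τ) (g : Fin n → E)
    {a : ℝ} (k : Fin n)
    (hΦ : ∀ v, ⟪T v, v⟫_ℝ - a * ‖v‖ ^ 2 = ∑ m, (τ m - τ k) * ⟪g m, v⟫_ℝ ^ 2) : μ k = a := by
  have hT : ∀ v, ⟪T v, v⟫_ℝ = ∑ i, μ i * ⟪b i, v⟫_ℝ ^ 2 := fun v =>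
    inner_T_self_eq_sum b (T := (T : E →ₗ[ℝ] E)) hb v
  have hpos : ∀ v : E, v ≠ 0 → 0 < ‖v‖ ^ 2 := fun v hv => by
    have := norm_pos_iff.2 hv
    positivity
  apply le_antisymm
  · -- μ k ≤ a
    by_contra hcon
    push Not at hcon
    obtain ⟨v, hv0, hv⟩ := exists_perp (k := k) hn (fun i => if i < k then b i else g i)
    have h1 : a * ‖v‖ ^ 2 < ⟪T v, v⟫_ℝ := by
      have : μ k * ‖v‖ ^ 2 ≤ ⟪T v, v⟫_ℝ := by
        rw [hT, norm_sq_eq_sum b v, Finset.mul_sum]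
        refine Finset.sum_le_sum fun i _ => ?_
        by_cases hi : i < k
        · have := hv i hi.ne
          simp only [hi, if_true] at this
          rw [this]
          simp
        · exact mul_le_mul_of_nonneg_right (hμ (not_lt.1 hi)) (sq_nonneg _)
      nlinarith [hpos v hv0]
    have h2 : ⟪T v, v⟫_ℝ - a * ‖v‖ ^ 2 ≤ 0 := by
      rw [hΦ]
      refine Finset.sum_nonpos fun m _ => ?_
      by_cases hm : m ≤ k
      · exact mul_nonpos_of_nonpos_of_nonneg (by linarith [hτ hm]) (sq_nonneg _)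
      · push Not at hm
        have := hv m hm.ne'
        simp only [not_lt.2 hm.le, if_false] at this
        rw [this]
        simp
    linarith
  · by_contra hcon
    push Not at hcon
    obtain ⟨v, hv0, hv⟩ := exists_perp (k := k) hn (fun i => if k < i then b i else g i)
    have h1 : ⟪T v, v⟫_ℝ < a * ‖v‖ ^ 2 := by
      have : ⟪T v, v⟫_ℝ ≤ μ k * ‖v‖ ^ 2 := by
        rw [hT, norm_sq_eq_sum b v, Finset.mul_sum]
        refine Finset.sum_le_sum fun i _ => ?_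
        by_cases hi : k < i
        · have := hv i hi.ne'
          simp only [hi, if_true] at this
          rw [this]
          simp
        · exact mul_le_mul_of_nonneg_right (hμ (not_lt.1 hi)) (sq_nonneg _)
      nlinarith [hpos v hv0]
    have h2 : 0 ≤ ⟪T v, v⟫_ℝ - a * ‖v‖ ^ 2 := by
      rw [hΦ]
      refine Finset.sum_nonneg fun m _ => ?_
      by_cases hm : k ≤ m
      · exact mul_nonneg (by linarith [hτ hm]) (sq_nonneg _)
      · push Not at hm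
        have := hv m hm.ne
        simp only [not_lt.2 hm.le, if_false] at this
        rw [this]
        simp
    linarith

end Crest.Agent.R202.Jac
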