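import Crest.Agent.R202.JacTop
import Crest.Agent.R202.CutSep

/-!
# Row 202: conversion of matrix separation (`SepF (op M) F A B`) to forms on `span ψ`
-/

set_option autoImplicit false

open Module Matrix
open scoped InnerProductSpace

noncomputable section

namespace Crest.Agent.R202.Jac

open Crest.Agent.R202.Cut

variable {V : Type*} [AddCommGroup V] [Module ℝ V]

/-- coordinates to vectors -/
def emb {n : ℕ} (ψp : Fin n → V) : ES n →ₗ[ℝ] V where
  toFun x := ∑ i, x i • ψp i
  map_add' x y := by simp [add_smul, Finset.sum_add_distrib]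
  map_smul' c x := by simp [smul_smul, Finset.smul_sum]

theorem emb_apply {n : ℕ} (ψp : Fin n → V) (x : ES n) : emb ψp x = ∑ i, x i • ψp i := rfl

theorem bil_emb {n : ℕ} (a : Bil V) (ψp : Fin n → V) (x y : ES n) :
    a (emb ψp x) (emb ψp y) = ∑ i, ∑ j, x i * y j * a (ψp i) (ψp j) := by
  simp only [emb_apply, map_sum, map_smul, LinearMap.sum_apply, LinearMap.smul_apply, smul_eq_mul,
    Finset.mul_sum]
  rw [Finset.sum_comm]
  refine Finset.sum_congr rfl fun i _ => Finset.sum_congr rfl fun j _ => ?_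
  ring

theorem g_emb {n : ℕ} {g : Bil V} {ψp : Fin n → V}
    (horth : ∀ i j, g (ψp i) (ψp j) = if i = j then 1 else 0) (x y : ES n) :
    g (emb ψp x) (emb ψp y) = ⟪x, y⟫_ℝ := by
  rw [bil_emb, inner_eq]
  refine Finset.sum_congr rfl fun i _ => ?_
  simp [horth]

theorem g_emb_self {n : ℕ} {g : Bil V} {ψp : Fin n → V}
    (horth : ∀ i j, g (ψp i) (ψp j) = if i = j then 1 else 0) (x : ES n) :
    g (emb ψp x) (emb ψp x) = ‖x‖ ^ 2 := by
  rw [g_emb horth, real_inner_self_eq_norm_sq]

theorem emb_injective {n : ℕ} {g : Bil V} {ψp : Fin n → V}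
    (horth : ∀ i j, g (ψp i) (ψp j) = if i = j then 1 else 0) : Function.Injective (emb ψp) := by
  rw [← LinearMap.ker_eq_bot, LinearMap.ker_eq_bot']
  intro x hx
  have h1 := g_emb_self horth x
  rw [hx] at h1
  simp only [map_zero, LinearMap.zero_apply] at h1
  exact norm_eq_zero.1 (pow_eq_zero_iff (two_ne_zero) |>.1 h1.symm)

theorem mem_span_emb {n : ℕ} (ψp : Fin n → V) (v : V) :
    v ∈ Submodule.span ℝ (Set.range ψp) ↔ ∃ x : ES n, v = emb ψp x := by
  constructor
  · intro hv
    obtain ⟨c, hc⟩ := (Submodule.mem_span_range_iff_exists_fun ℝ).1 hv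
    exact ⟨WithLp.toLp 2 c, by rw [emb_apply, ← hc]⟩
  · rintro ⟨x, rfl⟩
    rw [emb_apply]
    exact Submodule.sum_mem _ fun i _ => Submodule.smul_mem _ _ (Submodule.subset_span ⟨i, rfl⟩)

theorem abs_err_le {n : ℕ} (R : Fin n → Fin n → ℝ) {e : ℝ} (he : ∀ i j, |R i j| ≤ e) (x : ES n) :
    |∑ i, ∑ j, x i * x j * R i j| ≤ n * e * ‖x‖ ^ 2 := by
  rcases Nat.eq_zero_or_pos n with rfl | hn
  · simp
  have he0 : 0 ≤ e := (abs_nonneg _).trans (he ⟨0, hn⟩ ⟨0, hn⟩)
  calc |∑ i, ∑ j, x i * x j * R i j| ≤ ∑ i, |∑ j, x i * x j * R i j| :=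
        Finset.abs_sum_le_sum_abs _ _
    _ ≤ ∑ i, ∑ j, |x i| * |x j| * e := by
        refine Finset.sum_le_sum fun i _ => (Finset.abs_sum_le_sum_abs _ _).trans ?_
        refine Finset.sum_le_sum fun j _ => ?_
        rw [abs_mul, abs_mul]
        gcongr
        exact he i j
    _ = e * (∑ i, |x i|) ^ 2 := by
        rw [sq, Finset.sum_mul_sum, Finset.mul_sum]
        refine Finset.sum_congr rfl fun i _ => ?_
        rw [Finset.mul_sum]
        exact Finset.sum_congr rfl fun j _ => by ring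
    _ ≤ e * (n * ∑ i, |x i| ^ 2) := by
        have := sq_sum_le_card_mul_sum_sq (s := (Finset.univ : Finset (Fin n))) (f := fun i => |x i|)
        simp only [Finset.card_univ, Fintype.card_fin] at this
        gcongr
    _ = n * e * ‖x‖ ^ 2 := by
        rw [EuclideanSpace.norm_sq_eq]
        simp only [Real.norm_eq_abs]
        ring

/-- **conversion**: the form `a'` has matrix `lam + ε M + O(e)` on an orthonormal cluster `ψp`;
the coordinate frame `F` separates `M`. -/
theorem conv {n l : ℕ} {g a' : Bil V} {ψp : Fin n → V}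
    (horth : ∀ i j, g (ψp i) (ψp j) = if i = j then 1 else 0)
    {M : Matrix (Fin n) (Fin n) ℝ} {lam ε e A B : ℝ} (hε : 0 ≤ ε)
    (herr : ∀ i j, |a' (ψp i) (ψp j) - ((if i = j then lam else 0) + ε * M i j)| ≤ e)
    {F : Fin l → ES n} (h : SepF (op M) F A B) :
    Submodule.span ℝ (Set.range fun j => emb ψp (F j)) ≤ Submodule.span ℝ (Set.range ψp) ∧
    Module.finrank ℝ (Submodule.span ℝ (Set.range fun j => emb ψp (F j))) = l ∧
    LinearIndependent ℝ (fun j => emb ψp (F j)) ∧
    (∀ w ∈ Submodule.span ℝ (Set.range fun j => emb ψp (F j)),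
      a' w w ≤ (lam + ε * A + n * e) * g w w) ∧
    (∀ z ∈ Submodule.span ℝ (Set.range ψp),
      (∀ w ∈ Submodule.span ℝ (Set.range fun j => emb ψp (F j)), g z w = 0) →
      (lam + ε * B - n * e) * g z z ≤ a' z z) := by
  have hinj := emb_injective horth
  have hli : LinearIndependent ℝ (fun j => emb ψp (F j)) :=
    h.li.map' (emb ψp) (LinearMap.ker_eq_bot.2 hinj)
  have hspan : Submodule.span ℝ (Set.range fun j => emb ψp (F j))
      = (Submodule.span ℝ (Set.range F)).map (emb ψp) := by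
    rw [Submodule.map_span, ← Set.range_comp]
    rfl
  -- the quadratic form of `a'`
  have hquad : ∀ x : ES n, |a' (emb ψp x) (emb ψp x) - (lam * ‖x‖ ^ 2 + ε * ⟪op M x, x⟫_ℝ)|
      ≤ n * e * ‖x‖ ^ 2 := by
    intro x
    have h1 := abs_err_le
      (fun i j => a' (ψp i) (ψp j) - ((if i = j then lam else 0) + ε * M i j)) herr x
    have h2 : ∑ i, ∑ j, x i * x j * (a' (ψp i) (ψp j) - ((if i = j then lam else 0) + ε * M i j))
        = a' (emb ψp x) (emb ψp x) - (lam * ‖x‖ ^ 2 + ε * ⟪op M x, x⟫_ℝ) := by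
      rw [bil_emb, inner_op]
      have h3 : lam * ‖x‖ ^ 2 = ∑ i, ∑ j, x i * x j * (if i = j then lam else 0) := by
        rw [EuclideanSpace.norm_sq_eq, Finset.mul_sum]
        refine Finset.sum_congr rfl fun i _ => ?_
        simp [Real.norm_eq_abs, sq_abs]
        ring
      have h4 : ε * ∑ i, ∑ j, M i j * x j * x i = ∑ i, ∑ j, x i * x j * (ε * M i j) := by
        rw [Finset.mul_sum]
        refine Finset.sum_congr rfl fun i _ => ?_
        rw [Finset.mul_sum]
        exact Finset.sum_congr rfl fun j _ => by ring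
      rw [h3, h4, ← Finset.sum_add_distrib, ← Finset.sum_sub_distrib]
      refine Finset.sum_congr rfl fun i _ => ?_
      rw [← Finset.sum_add_distrib, ← Finset.sum_sub_distrib]
      exact Finset.sum_congr rfl fun j _ => by ring
    rwa [h2] at h1
  refine ⟨?_, ?_, hli, ?_, ?_⟩
  · rw [Submodule.span_le]
    rintro _ ⟨j, rfl⟩
    exact (mem_span_emb ψp _).2 ⟨_, rfl⟩
  · rw [finrank_span_eq_card hli, Fintype.card_fin]
  · intro w hw
    rw [hspan] at hw
    obtain ⟨x, hx, rfl⟩ := hw
    have h1 := h.le x hx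
    have h2 := (abs_le.1 (hquad x)).2
    rw [g_emb_self horth]
    have h3 := mul_le_mul_of_nonneg_left h1 hε
    nlinarith
  · intro z hz hzw
    obtain ⟨x, rfl⟩ := (mem_span_emb ψp z).1 hz
    have h1 := h.ge x (fun i => by
      have := hzw _ (Submodule.subset_span ⟨i, rfl⟩)
      rw [g_emb horth, real_inner_comm] at this
      exact this)
    have h2 := (abs_le.1 (hquad x)).1
    rw [g_emb_self horth]
    have h3 := mul_le_mul_of_nonneg_left h1 hε
    nlinarith

end Crest.Agent.R202.Jac
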