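import Crest.Agent.R202.SpFam
import Crest.Agent.R202.JacConv

/-!
# Row 202: the first-order pencil of a chain (tie class) at a resonance `b = 2c/a`
-/

set_option autoImplicit false

open Module Matrix Finset
open scoped InnerProductSpace

noncomputable section

namespace Crest.Agent.R202.Jac

open Crest.Agent.R202.Lab Crest.Agent.R202.SF

variable {T : Type*} [AddCommGroup T] [Module ℝ T]

section fv

variable (A B : ℕ → ℝ → ℕ × ℕ → ℕ × ℕ → T →ₗ[ℝ] ℝ) (σ : ℕ × ℕ) (b : ℝ) (p p' : ℕ × ℕ)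

theorem firstVar_zero : firstVar A B σ b p p' 0 = 0 := by
  simp [firstVar]

theorem firstVar_add (G G' : ℕ →₀ T) :
    firstVar A B σ b p p' (G + G') = firstVar A B σ b p p' G + firstVar A B σ b p p' G' := by
  classical
  unfold firstVar
  rw [Finsupp.sum_add_index']
  · intro f; simp
  · intro f η η'
    split_ifs <;> simp <;> ring

theorem firstVar_smul (r : ℝ) (G : ℕ →₀ T) :
    firstVar A B σ b p p' (r • G) = r * firstVar A B σ b p p' G := by
  classical
  unfold firstVar
  rw [Finsupp.sum_smul_index' (by intro f; simp), Finsupp.sum, Finsupp.sum, Finset.mul_sum]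
  refine Finset.sum_congr rfl fun f _ => ?_
  simp only [map_smul, smul_eq_mul]
  split_ifs <;> ring

theorem firstVar_neg (G : ℕ →₀ T) :
    firstVar A B σ b p p' (-G) = -firstVar A B σ b p p' G := by
  have := firstVar_smul A B σ b p p' (-1) G
  rw [neg_one_smul, neg_one_mul] at this
  exact this

theorem firstVar_sub (G G' : ℕ →₀ T) :
    firstVar A B σ b p p' (G - G') = firstVar A B σ b p p' G - firstVar A B σ b p p' G' := by
  rw [sub_eq_add_neg, firstVar_add, firstVar_neg, sub_eq_add_neg]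

theorem firstVar_single (f : ℕ) (η : T) :
    firstVar A B σ b p p' (Finsupp.single f η)
      = (if p.1 + f = p'.1 ∨ p'.1 + f = p.1 then A σ.1 b p p' η else 0) +
        sg σ.2 * (if p.1 + p'.1 = f then B σ.1 b p p' η else 0) := by
  unfold firstVar
  rw [Finsupp.sum_single_index]
  simp

theorem firstVar_symm (hA : ∀ q b p p' η, A q b p p' η = A q b p' p η)
    (hB : ∀ q b p p' η, B q b p p' η = B q b p' p η) (G : ℕ →₀ T) :
    firstVar A B σ b p p' G = firstVar A B σ b p' p G := by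
  unfold firstVar
  refine Finsupp.sum_congr fun f _ => ?_
  rw [hA σ.1 b p p', hB σ.1 b p p', add_comm p.1 p'.1]
  have h : (p.1 + f = p'.1 ∨ p'.1 + f = p.1) ↔ (p'.1 + f = p.1 ∨ p.1 + f = p'.1) := or_comm
  simp only [h]

end fv

section chain

variable {a c : ℕ} {p : ℕ × ℕ}

theorem chainLab_fst (a c : ℕ) (p : ℕ × ℕ) (i : ℕ) : (chainLab a c p i).1 = p.1 + i * a := rfl
theorem chainLab_snd (a c : ℕ) (p : ℕ × ℕ) (i : ℕ) : (chainLab a c p i).2 = p.2 - i * c := rfl

theorem chainLab_succ (a c : ℕ) (p : ℕ × ℕ) (i : ℕ) :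
    chainLab a c p (i + 1) = ((chainLab a c p i).1 + a, (chainLab a c p i).2 - c) := by
  unfold chainLab
  refine Prod.ext ?_ ?_
  · simp only; ring
  · simp only [Nat.add_mul, one_mul]; omega

theorem chainLab_inj (ha : 0 < a) {i j : ℕ} (h : chainLab a c p i = chainLab a c p j) : i = j := by
  have h3 : p.1 + i * a = p.1 + j * a := congrArg Prod.fst h
  exact Nat.eq_of_mul_eq_mul_right ha (Nat.add_left_cancel h3)

/-- difference type couplings of the frequency `a` -/
theorem diff_iff (ha : 0 < a) (i j : ℕ) :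
    (chainLab a c p i).1 + a = (chainLab a c p j).1 ↔ i + 1 = j := by
  simp only [chainLab_fst]
  constructor
  · intro h
    have h1 : (i + 1) * a = j * a := by rw [Nat.add_mul, one_mul]; omega
    exact Nat.eq_of_mul_eq_mul_right ha h1
  · rintro rfl; ring

/-- sum type couplings of the frequency `a` -/
theorem sum_iff (ha : 0 < a) (i j : ℕ) :
    (chainLab a c p i).1 + (chainLab a c p j).1 = a ↔
      (i = 0 ∧ j = 0 ∧ 2 * p.1 = a) ∨ (i + j = 1 ∧ p.1 = 0) := by
  simp only [chainLab_fst]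
  constructor
  · intro h
    have h1 : 2 * p.1 + (i + j) * a = a := by rw [Nat.add_mul]; omega
    rcases Nat.lt_or_ge (i + j) 2 with h2 | h2
    · rcases Nat.lt_or_ge (i + j) 1 with h3 | h3
      · left
        have : i + j = 0 := by omega
        rw [this] at h1
        refine ⟨by omega, by omega, by omega⟩
      · right
        have : i + j = 1 := by omega
        rw [this] at h1
        exact ⟨this, by omega⟩
    · exfalso
      have : 2 * a ≤ (i + j) * a := Nat.mul_le_mul_right a h2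
      omega
  · rintro (⟨rfl, rfl, h⟩ | ⟨h, h0⟩)
    · simp; omega
    · rw [h0]
      have : (i + j) * a = a := by rw [h, one_mul]
      rw [Nat.add_mul] at this
      omega

/-- couplings of the frequency `f = M + m'` (sum of the two top labels `n`, `n+1`), `m' > 0` -/
theorem top_sum_iff (ha : 0 < a) {n i j : ℕ} (hi : i ≤ n + 1) (hj : j ≤ n + 1) :
    (chainLab a c p i).1 + (chainLab a c p j).1
        = (chainLab a c p (n + 1)).1 + (chainLab a c p n).1 ↔
      (i = n ∧ j = n + 1) ∨ (i = n + 1 ∧ j = n) := by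
  simp only [chainLab_fst]
  constructor
  · intro h
    have h1 : (i + j) * a = (n + 1 + n) * a := by rw [Nat.add_mul, Nat.add_mul]; omega
    have := Nat.eq_of_mul_eq_mul_right ha h1
    omega
  · rintro (⟨rfl, rfl⟩ | ⟨rfl, rfl⟩)
    · ring
    · ring

theorem top_diff_ne {n i j : ℕ} (hj : j ≤ n + 1)
    (h0 : 0 < (chainLab a c p n).1) :
    ¬ (chainLab a c p i).1 + ((chainLab a c p (n + 1)).1 + (chainLab a c p n).1)
      = (chainLab a c p j).1 := by
  simp only [chainLab_fst] at h0 ⊢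
  intro h
  have h2 : j * a ≤ (n + 1) * a := Nat.mul_le_mul_right a hj
  have : 0 < p.1 + n * a := h0
  omega

end chain

/-- the slopes of a chain -/
def cD (d : ℕ) (σ : ℕ × ℕ) (a c : ℕ) (p : ℕ × ℕ) (n : ℕ) : Fin n → ℝ := fun i =>
  SF.slope d σ.1 (2 * (c : ℝ) / a) (chainLab a c p i)

/-- first variation matrix of a chain -/
def cL (A B : ℕ → ℝ → ℕ × ℕ → ℕ × ℕ → T →ₗ[ℝ] ℝ) (σ : ℕ × ℕ) (a c : ℕ) (p : ℕ × ℕ) (n : ℕ)
    (G : ℕ →₀ T) : Matrix (Fin n) (Fin n) ℝ :=
  Matrix.of fun i j => firstVar A B σ (2 * (c : ℝ) / a) (chainLab a c p i) (chainLab a c p j) G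

/-- the pencil of a chain with `n` labels -/
def pen (A B : ℕ → ℝ → ℕ × ℕ → ℕ × ℕ → T →ₗ[ℝ] ℝ) (d : ℕ) (σ : ℕ × ℕ) (a c : ℕ) (p : ℕ × ℕ)
    (n : ℕ) (x : ℝ) (G : ℕ →₀ T) : Matrix (Fin n) (Fin n) ℝ :=
  x • Matrix.diagonal (cD d σ a c p n) + cL A B σ a c p n G

section mat

variable {A B : ℕ → ℝ → ℕ × ℕ → ℕ × ℕ → T →ₗ[ℝ] ℝ} {d : ℕ} {σ : ℕ × ℕ} {a c : ℕ} {p : ℕ × ℕ}
  {n : ℕ}

theorem cL_apply (G : ℕ →₀ T) (i j : Fin n) : cL A B σ a c p n G i j
    = firstVar A B σ (2 * (c : ℝ) / a) (chainLab a c p i) (chainLab a c p j) G := rfl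

theorem pen_apply (x : ℝ) (G : ℕ →₀ T) (i j : Fin n) : pen A B d σ a c p n x G i j
    = (if i = j then x * SF.slope d σ.1 (2 * (c : ℝ) / a) (chainLab a c p i) else 0) +
      firstVar A B σ (2 * (c : ℝ) / a) (chainLab a c p i) (chainLab a c p j) G := by
  simp only [pen, Matrix.add_apply, Matrix.smul_apply, Matrix.diagonal_apply, cL_apply, cD,
    smul_eq_mul]
  split_ifs <;> simp

theorem cL_zero : cL A B σ a c p n (0 : ℕ →₀ T) = 0 := by
  ext i j; simp [cL_apply, firstVar_zero]

theorem cL_add (G G' : ℕ →₀ T) :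
    cL A B σ a c p n (G + G') = cL A B σ a c p n G + cL A B σ a c p n G' := by
  ext i j; simp [cL_apply, firstVar_add]

theorem cL_smul (r : ℝ) (G : ℕ →₀ T) :
    cL A B σ a c p n (r • G) = r • cL A B σ a c p n G := by
  ext i j; simp [cL_apply, firstVar_smul]

theorem cL_sub (G G' : ℕ →₀ T) :
    cL A B σ a c p n (G - G') = cL A B σ a c p n G - cL A B σ a c p n G' := by
  ext i j; simp [cL_apply, firstVar_sub]

theorem cL_symm (hA : ∀ q b p p' η, A q b p p' η = A q b p' p η)
    (hB : ∀ q b p p' η, B q b p p' η = B q b p' p η) (G : ℕ →₀ T) (i j : Fin n) :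
    cL A B σ a c p n G i j = cL A B σ a c p n G j i := by
  rw [cL_apply, cL_apply, firstVar_symm A B σ _ _ _ hA hB]

/-- the slopes increase strictly along the chain -/
theorem cD_strictMono (ha : 0 < a) (hn : n ≤ p.2 / c + 1) (hc : 0 < c) :
    StrictMono (cD d σ a c p n) := by
  intro i j hij
  have key : ∀ i : Fin n, cD d σ a c p n i
      = ((p.1 : ℝ) + i.1 * a) * (2 * (mu (2 * (c : ℝ) / a) p + σ.1) + d + 1) := by
    intro i
    unfold cD SF.slope
    have hi : i.1 * c ≤ p.2 := by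
      have h1 : i.1 ≤ p.2 / c := by have := i.2; omega
      exact (Nat.le_div_iff_mul_le hc).1 h1
    rw [mu_chainLab ha hi, chainLab_fst]
    push_cast
    ring
  rw [key, key]
  have hpos : (0 : ℝ) < 2 * (mu (2 * (c : ℝ) / a) p + σ.1) + d + 1 := by
    have h1 : 0 ≤ mu (2 * (c : ℝ) / a) p := mu_nonneg (by positivity) p
    positivity
  have h2 : (i.1 : ℝ) < j.1 := by exact_mod_cast hij
  have h3 : (0 : ℝ) < a := by exact_mod_cast ha
  have h4 : (p.1 : ℝ) + i.1 * a < (p.1 : ℝ) + j.1 * a := by nlinarith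
  exact mul_lt_mul_of_pos_right h4 hpos

/-- weight of a link: `2` if it starts at the axisymmetric label -/
def wt (p : ℕ × ℕ) : ℝ := if p.1 = 0 then 2 else 1

theorem wt_ne (p : ℕ × ℕ) : wt p ≠ 0 := by unfold wt; split_ifs <;> norm_num

theorem cL_single_far (ha : 0 < a) (η : T) (i j : Fin n) (hij : i.1 + 2 ≤ j.1) :
    cL A B σ a c p n (Finsupp.single a η) i j = 0 := by
  rw [cL_apply, firstVar_single]
  have h1 : ¬ ((chainLab a c p i).1 + a = (chainLab a c p j).1 ∨
      (chainLab a c p j).1 + a = (chainLab a c p i).1) := by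
    rw [diff_iff ha, diff_iff ha]; omega
  have h2 : ¬ (chainLab a c p i).1 + (chainLab a c p j).1 = a := by
    rw [sum_iff ha]; omega
  rw [if_neg h1, if_neg h2]; simp

theorem cL_single_link (hBA : ∀ q b (p p' : ℕ × ℕ), p.1 = 0 → ∀ η, B q b p p' η = A q b p p' η)
    (ha : 0 < a) (hs : σ.2 ≤ p.1) (η : T) (i j : Fin n) (hij : i.1 + 1 = j.1) :
    cL A B σ a c p n (Finsupp.single a η) i j
      = wt (chainLab a c p i) * A σ.1 (2 * (c : ℝ) / a) (chainLab a c p i) (chainLab a c p j) η := by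
  rw [cL_apply, firstVar_single]
  have h1 : ((chainLab a c p i).1 + a = (chainLab a c p j).1 ∨
      (chainLab a c p j).1 + a = (chainLab a c p i).1) := by
    rw [diff_iff ha, diff_iff ha]; omega
  rw [if_pos h1]
  by_cases h0 : (chainLab a c p i).1 = 0
  · have h00 := h0
    rw [chainLab_fst] at h00
    have hp0 : p.1 = 0 := by omega
    have hi0 : i.1 * a = 0 := by omega
    have hi : i.1 = 0 := by
      rcases Nat.mul_eq_zero.1 hi0 with h | h
      · exact h
      · omega
    have h2 : (chainLab a c p i).1 + (chainLab a c p j).1 = a := by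
      rw [sum_iff ha]; right; exact ⟨by omega, hp0⟩
    have hs0 : σ.2 = 0 := by omega
    rw [if_pos h2, hBA _ _ _ _ h0, hs0]
    unfold sg wt
    rw [if_pos rfl, if_pos h0]; ring
  · have h2 : ¬ (chainLab a c p i).1 + (chainLab a c p j).1 = a := by
      rw [sum_iff ha]
      rintro (⟨h3, h4, -⟩ | ⟨h3, h4⟩)
      · omega
      · apply h0
        rw [chainLab_fst]
        have : i.1 = 0 := by omega
        rw [this, h4]; simp
    rw [if_neg h2]
    unfold wt
    rw [if_neg h0]; ring

/-- the diagonal -/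
theorem cL_single_diag (ha : 0 < a) (η : T) (i : Fin n)
    (h : 2 * p.1 = a → B σ.1 (2 * (c : ℝ) / a) p p η = 0) :
    cL A B σ a c p n (Finsupp.single a η) i i = 0 := by
  rw [cL_apply, firstVar_single]
  have h1 : ¬ ((chainLab a c p i).1 + a = (chainLab a c p i).1 ∨
      (chainLab a c p i).1 + a = (chainLab a c p i).1) := by
    omega
  rw [if_neg h1, zero_add]
  by_cases h2 : (chainLab a c p i).1 + (chainLab a c p i).1 = a
  · rw [if_pos h2]
    rcases (sum_iff ha i.1 i.1).1 h2 with ⟨h3, -, h4⟩ | ⟨h3, -⟩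
    · rw [h3, chainLab_zero, h h4, mul_zero]
    · omega
  · rw [if_neg h2, mul_zero]

/-- a nonzero `a`-perturbation gives a Jacobi matrix -/
theorem tri_single (hA : ∀ q b p p' η, A q b p p' η = A q b p' p η)
    (hB : ∀ q b p p' η, B q b p p' η = B q b p' p η)
    (hBA : ∀ q b (p p' : ℕ × ℕ), p.1 = 0 → ∀ η, B q b p p' η = A q b p p' η)
    (ha : 0 < a) (hs : σ.2 ≤ p.1) (η : T)
    (hne : ∀ i, i + 1 < n →
      A σ.1 (2 * (c : ℝ) / a) (chainLab a c p i) (chainLab a c p (i + 1)) η ≠ 0)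
    (x s : ℝ) (hs0 : s ≠ 0) : Tri (pen A B d σ a c p n x (s • Finsupp.single a η)) := by
  have hoff : ∀ i j : Fin n, i ≠ j → pen A B d σ a c p n x (s • Finsupp.single a η) i j
      = s * cL A B σ a c p n (Finsupp.single a η) i j := by
    intro i j hij
    rw [pen_apply, if_neg hij, zero_add, firstVar_smul, ← cL_apply]
  refine ⟨fun i j => ?_, fun i j hij => ?_, fun i j hij => ?_⟩
  · by_cases h : i = j
    · rw [h]
    · rw [hoff i j h, hoff j i (Ne.symm h), cL_symm hA hB]
  · rw [hoff i j (by intro h; rw [h] at hij; omega), cL_single_far ha η i j hij, mul_zero]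
  · rw [hoff i j (by intro h; rw [h] at hij; omega), cL_single_link hBA ha hs η i j hij]
    have := hne i.1 (by have := j.2; omega)
    rw [hij] at this
    exact mul_ne_zero hs0 (mul_ne_zero (wt_ne _) this)

theorem pen_zero (x : ℝ) : pen A B d σ a c p n x (0 : ℕ →₀ T)
    = Matrix.diagonal fun i => x * cD d σ a c p n i := by
  rw [pen, cL_zero, add_zero]
  ext i j
  simp only [Matrix.smul_apply, Matrix.diagonal_apply, smul_eq_mul]
  split_ifs <;> simp

end mat

end Crest.Agent.R202.Jac
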