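import Crest.Agent.R202.JacRect

/-!
# Row 202, matrix part: existence and simplicity of the crossings
-/

set_option autoImplicit false

open Filter Topology Module Matrix
open scoped InnerProductSpace

noncomputable section

namespace Crest.Agent.R202.Jac

/-- the weight of the generalised eigenvalue problem -/
def rr {q : ℕ} (D : Fin (q + 2) → ℝ) (i : Fin (q + 1)) : ℝ := √(D i.succ - D 0)

theorem rr_pos {q : ℕ} {D : Fin (q + 2) → ℝ} {J : Matrix (Fin (q + 2)) (Fin (q + 2)) ℝ}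
    (h : Iso D J) (i : Fin (q + 1)) : 0 < rr D i :=
  Real.sqrt_pos.2 (sub_pos.2 (h.lt i))

theorem rr_sq {q : ℕ} {D : Fin (q + 2) → ℝ} {J : Matrix (Fin (q + 2)) (Fin (q + 2)) ℝ}
    (h : Iso D J) (i : Fin (q + 1)) : rr D i ^ 2 = D i.succ - D 0 :=
  Real.sq_sqrt (sub_pos.2 (h.lt i)).le

/-- the Jacobi matrix of the crossings -/
def KK {q : ℕ} (D : Fin (q + 2) → ℝ) (J : Matrix (Fin (q + 2)) (Fin (q + 2)) ℝ) :
    Matrix (Fin (q + 1)) (Fin (q + 1)) ℝ :=
  fun i j => (rr D i)⁻¹ * (J i.succ j.succ - if i = j then J 0 0 else 0) * (rr D j)⁻¹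

theorem tri_KK {q : ℕ} {D : Fin (q + 2) → ℝ} {J : Matrix (Fin (q + 2)) (Fin (q + 2)) ℝ}
    (h : Iso D J) : Tri (KK D J) where
  symm := fun i j => by
    simp only [KK]
    rw [h.symm i.succ j.succ]
    by_cases hij : i = j
    · subst hij; ring
    · rw [if_neg hij, if_neg (fun hh => hij hh.symm)]; ring
  far := fun i j hij => by
    have h0 := h.tri.far i j hij
    have hne : i ≠ j := fun hh => by subst hh; omega
    simp only [rest] at h0
    simp [KK, h0, hne]
  link := fun i j hij => by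
    have h0 := h.tri.link i j hij
    have hne : i ≠ j := fun hh => by subst hh; omega
    simp only [rest] at h0
    simp only [KK, hne, if_false, sub_zero]
    exact mul_ne_zero (mul_ne_zero (inv_ne_zero (rr_pos h i).ne') h0)
      (inv_ne_zero (rr_pos h j).ne')

theorem exists_cross {q : ℕ} {D : Fin (q + 2) → ℝ} {J : Matrix (Fin (q + 2)) (Fin (q + 2)) ℝ}
    (h : Iso D J) (k : Fin (q + 1)) :
    ∃ (xc : ℝ) (b : OrthonormalBasis (Fin (q + 1)) ℝ (ES (q + 1))) (μ : Fin (q + 1) → ℝ),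
      StrictMono μ ∧ (∀ i, op (rest (Mxy D J xc 0)) (b i) = μ i • b i) ∧ (∀ i, 0 < b i 0) ∧
      μ k = xc * D 0 + J 0 0 := by
  obtain ⟨κb, τ, hτ, hκb, -⟩ := (tri_KK h).exists_basis
  obtain ⟨b, μ, hμ, hb, hb0⟩ := (tri_rest h (-τ k)).exists_basis
  refine ⟨-τ k, b, μ, hμ, hb, hb0, ?_⟩
  refine eig_eq_of_signs (n := q + 1) (by simp) b hμ.monotone hb hτ.monotone
    (fun m => WithLp.toLp 2 (fun i => rr D i * κb m i)) k (fun v => ?_)
  set z : ES (q + 1) := WithLp.toLp 2 (fun i => rr D i * v i) with hz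
  have hgz : ∀ m, ⟪(WithLp.toLp 2 (fun i => rr D i * κb m i) : ES (q + 1)), v⟫_ℝ
      = ⟪κb m, z⟫_ℝ := by
    intro m
    rw [inner_eq, inner_eq]
    refine Finset.sum_congr rfl fun i _ => ?_
    simp [hz]
    ring
  have hR : ∑ m, (τ m - τ k) * ⟪(WithLp.toLp 2 (fun i => rr D i * κb m i) : ES (q + 1)), v⟫_ℝ ^ 2
      = ⟪op (KK D J) z, z⟫_ℝ - τ k * ‖z‖ ^ 2 := by
    have h1 := inner_T_self_eq_sum κb (T := (op (KK D J) : ES (q + 1) →ₗ[ℝ] ES (q + 1))) hκb z
    have h1' : ⟪op (KK D J) z, z⟫_ℝ = ∑ m, τ m * ⟪κb m, z⟫_ℝ ^ 2 := h1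
    rw [h1', norm_sq_eq_sum κb z, Finset.mul_sum, ← Finset.sum_sub_distrib]
    refine Finset.sum_congr rfl fun m _ => ?_
    rw [hgz]
    ring
  rw [hR, inner_op, inner_op]
  have hnv : ‖v‖ ^ 2 = ∑ i, v i ^ 2 := by
    rw [EuclideanSpace.norm_sq_eq]
    refine Finset.sum_congr rfl fun i _ => by rw [Real.norm_eq_abs, sq_abs]
  have hnz : ‖z‖ ^ 2 = ∑ i, (D i.succ - D 0) * v i ^ 2 := by
    rw [EuclideanSpace.norm_sq_eq]
    refine Finset.sum_congr rfl fun i _ => ?_
    rw [Real.norm_eq_abs, sq_abs]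
    simp only [hz]
    rw [← rr_sq h i]
    ring
  have hK : ∑ i, ∑ j, KK D J i j * z j * z i
      = ∑ i, ∑ j, J i.succ j.succ * v j * v i - J 0 0 * ∑ i, v i ^ 2 := by
    have : ∀ i j, KK D J i j * z j * z i
        = J i.succ j.succ * v j * v i - (if i = j then J 0 0 * v i ^ 2 else 0) := by
      intro i j
      have hi := (rr_pos h i).ne'
      have hj := (rr_pos h j).ne'
      simp only [KK, hz]
      by_cases hij : i = j
      · subst hij
        simp only [if_true]
        field_simp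
      · simp only [hij, if_false]
        field_simp
        ring
    simp only [this, Finset.sum_sub_distrib, Finset.sum_ite_eq, Finset.mem_univ, if_true]
    rw [Finset.mul_sum]
  have hM : ∑ i, ∑ j, rest (Mxy D J (-τ k) 0) i j * v j * v i
      = ∑ i, ∑ j, J i.succ j.succ * v j * v i - τ k * ∑ i, D i.succ * v i ^ 2 := by
    have : ∀ i j, rest (Mxy D J (-τ k) 0) i j * v j * v i
        = J i.succ j.succ * v j * v i - (if i = j then τ k * (D i.succ * v i ^ 2) else 0) := by
      intro i j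
      simp only [rest, Mxy, Matrix.add_apply, Matrix.smul_apply, zero_smul, Matrix.diagonal_apply,
        add_zero, smul_eq_mul]
      by_cases hij : i = j
      · subst hij
        simp
        ring
      · have : i.succ ≠ j.succ := fun hh => hij (Fin.succ_injective _ hh)
        simp [this, hij]
    simp only [this, Finset.sum_sub_distrib, Finset.sum_ite_eq, Finset.mem_univ, if_true]
    rw [Finset.mul_sum]
  rw [hnv, hnz, hK, hM]
  have : ∑ i : Fin (q + 1), (D i.succ - D 0) * v i ^ 2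
      = ∑ i : Fin (q + 1), D i.succ * v i ^ 2 - D 0 * ∑ i, v i ^ 2 := by
    rw [Finset.mul_sum, ← Finset.sum_sub_distrib]
    refine Finset.sum_congr rfl fun i _ => by ring
  rw [this]
  ring

end Crest.Agent.R202.Jac
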