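import Crest.Agent.R202.JacCross

/-!
# Row 202, matrix part: separation by the rotating trial frame
-/

set_option autoImplicit false

open Filter Topology Module Matrix
open scoped InnerProductSpace

noncomputable section

namespace Crest.Agent.R202.Jac

/-- tail of a vector -/
def tl {q : ℕ} (w : ES (q + 2)) : ES (q + 1) := WithLp.toLp 2 (fun i => w i.succ)

theorem decomp {q : ℕ} (w : ES (q + 2)) : w = (w 0) • e0 + inc (tl w) := by
  ext i
  refine Fin.cases ?_ (fun i => ?_) i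
  · simp
  · simp [tl]

theorem inner_e0 {q : ℕ} (w : ES (q + 2)) : ⟪e0, w⟫_ℝ = w 0 := by
  rw [inner_eq, Fin.sum_univ_succ]
  simp

theorem inner_inc_right {q : ℕ} (v : ES (q + 1)) (w : ES (q + 2)) : ⟪inc v, w⟫_ℝ = ⟪v, tl w⟫_ℝ := by
  rw [inner_eq, inner_eq, Fin.sum_univ_succ]
  simp [tl]

theorem norm_sq_decomp {q : ℕ} (w : ES (q + 2)) : ‖w‖ ^ 2 = ⟪e0, w⟫_ℝ ^ 2 + ‖tl w‖ ^ 2 := by
  rw [EuclideanSpace.norm_sq_eq, EuclideanSpace.norm_sq_eq, Fin.sum_univ_succ, inner_e0]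
  simp [tl]

theorem T0_decomp {q : ℕ} {D : Fin (q + 2) → ℝ} {J : Matrix (Fin (q + 2)) (Fin (q + 2)) ℝ}
    (h : Iso D J) (x : ℝ) (w : ES (q + 2)) :
    ⟪op (Mxy D J x 0) w, w⟫_ℝ = (x * D 0 + J 0 0) * ⟪e0, w⟫_ℝ ^ 2
      + ⟪op (rest (Mxy D J x 0)) (tl w), tl w⟫_ℝ := by
  conv_lhs => rw [decomp w]
  rw [map_add, map_smul, op_e0 h, op_inc h]
  simp only [inner_add_left, inner_add_right, inner_smul_left, inner_smul_right, inner_e0_e0,
    inner_e0_inc, inner_inc, inner_e0]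
  have : ⟪inc (op (rest (Mxy D J x 0)) (tl w)), (e0 : ES (q + 2))⟫_ℝ = 0 := by
    rw [real_inner_comm]; exact inner_e0_inc _
  rw [this]
  simp
  ring

/-- lower vector of the two dimensional cluster -/
def ff {q : ℕ} (bk : ES (q + 1)) (α κ : ℝ) : ES (q + 2) :=
  Real.cos α • inc bk - (κ * Real.sin α) • e0

/-- upper vector of the two dimensional cluster -/
def fp {q : ℕ} (bk : ES (q + 1)) (α κ : ℝ) : ES (q + 2) :=
  (κ * Real.sin α) • inc bk + Real.cos α • e0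

/-- the trial frame -/
def frm {q : ℕ} (b : Fin (q + 1) → ES (q + 1)) (k : Fin (q + 1)) (α κ : ℝ) :
    Fin (k.1 + 1) → ES (q + 2) :=
  fun i => if h : i.1 < k.1 then inc (b ⟨i.1, by have := k.2; omega⟩) else ff (b k) α κ

section

variable {q : ℕ} (b : OrthonormalBasis (Fin (q + 1)) ℝ (ES (q + 1))) (k : Fin (q + 1)) {α κ : ℝ}

theorem kap_sq (hκ : κ = 1 ∨ κ = -1) : κ ^ 2 = 1 := by
  rcases hκ with h | h <;> rw [h] <;> norm_num

theorem inner_bk_bk : ⟪b k, b k⟫_ℝ = 1 := by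
  rw [real_inner_self_eq_norm_sq, b.orthonormal.1 k]; norm_num

theorem inner_ff_ff (hκ : κ = 1 ∨ κ = -1) : ⟪ff (b k) α κ, ff (b k) α κ⟫_ℝ = 1 := by
  have h1 := kap_sq hκ
  have h2 : ⟪inc (b k), (e0 : ES (q + 2))⟫_ℝ = 0 := by rw [real_inner_comm]; exact inner_e0_inc _
  simp only [ff, inner_sub_left, inner_sub_right, inner_smul_left, inner_smul_right, inner_inc,
    inner_bk_bk, inner_e0_e0, inner_e0_inc, h2]
  simp
  nlinarith [Real.sin_sq_add_cos_sq α]

theorem inner_fp_fp (hκ : κ = 1 ∨ κ = -1) : ⟪fp (b k) α κ, fp (b k) α κ⟫_ℝ = 1 := by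
  have h1 := kap_sq hκ
  have h2 : ⟪inc (b k), (e0 : ES (q + 2))⟫_ℝ = 0 := by rw [real_inner_comm]; exact inner_e0_inc _
  simp only [fp, inner_add_left, inner_add_right, inner_smul_left, inner_smul_right, inner_inc,
    inner_bk_bk, inner_e0_e0, inner_e0_inc, h2]
  simp
  nlinarith [Real.sin_sq_add_cos_sq α]

theorem inner_ff_fp : ⟪ff (b k) α κ, fp (b k) α κ⟫_ℝ = 0 := by
  have h2 : ⟪inc (b k), (e0 : ES (q + 2))⟫_ℝ = 0 := by rw [real_inner_comm]; exact inner_e0_inc _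
  simp only [ff, fp, inner_sub_left, inner_add_right, inner_smul_left, inner_smul_right, inner_inc,
    inner_bk_bk, inner_e0_e0, inner_e0_inc, h2]
  simp
  ring

/-- the rotation identity -/
theorem rot (hκ : κ = 1 ∨ κ = -1) (w : ES (q + 2)) :
    ⟪e0, w⟫_ℝ ^ 2 + ⟪inc (b k), w⟫_ℝ ^ 2
      = ⟪ff (b k) α κ, w⟫_ℝ ^ 2 + ⟪fp (b k) α κ, w⟫_ℝ ^ 2 := by
  have h1 := kap_sq hκ
  simp only [ff, fp, inner_sub_left, inner_add_left, inner_smul_left]
  simp
  have h3 := Real.sin_sq_add_cos_sq α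
  set s := Real.sin α
  set c := Real.cos α
  set A := ⟪e0, w⟫_ℝ
  set B := ⟪inc (b k), w⟫_ℝ
  have : (c * B - κ * s * A) ^ 2 + (κ * s * B + c * A) ^ 2
      = (κ ^ 2 * s ^ 2 + c ^ 2) * (A ^ 2 + B ^ 2) := by ring
  rw [this, h1]
  rw [one_mul, h3, one_mul]

theorem inner_ff_inc (i : Fin (q + 1)) (hi : i ≠ k) : ⟪ff (b k) α κ, inc (b i)⟫_ℝ = 0 := by
  simp only [ff, inner_sub_left, inner_smul_left, inner_inc, inner_e0_inc]
  rw [b.orthonormal.2 hi.symm]
  simp

theorem inner_fp_inc (i : Fin (q + 1)) (hi : i ≠ k) : ⟪fp (b k) α κ, inc (b i)⟫_ℝ = 0 := by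
  simp only [fp, inner_add_left, inner_smul_left, inner_inc, inner_e0_inc]
  rw [b.orthonormal.2 hi.symm]
  simp

theorem frm_orthonormal (hκ : κ = 1 ∨ κ = -1) : Orthonormal ℝ (frm (fun i => b i) k α κ) := by
  rw [orthonormal_iff_ite]
  intro i j
  by_cases hij : i = j
  · subst hij
    rw [if_pos rfl]
    unfold frm
    split
    · rw [inner_inc, inner_bk_bk]
    · exact inner_ff_ff b k hκ
  · rw [if_neg hij]
    have hne : i.1 ≠ j.1 := fun h => hij (Fin.ext h)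
    unfold frm
    split
    · rename_i hi
      split
      · rename_i hj
        rw [inner_inc]
        apply b.orthonormal.2
        intro h
        exact hne (by simpa using congrArg Fin.val h)
      · rw [real_inner_comm]
        apply inner_ff_inc
        intro h
        have : i.1 = k.1 := by simpa using congrArg Fin.val h
        omega
    · rename_i hi
      split
      · rename_i hj
        apply inner_ff_inc
        intro h
        have : j.1 = k.1 := by simpa using congrArg Fin.val h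
        omega
      · rename_i hj
        have h1 := i.2
        have h2 := j.2
        omega

theorem sum_split (μ : Fin (q + 1) → ℝ) (w : ES (q + 2)) :
    ∑ i, μ i * ⟪b i, tl w⟫_ℝ ^ 2 = μ k * ⟪inc (b k), w⟫_ℝ ^ 2
      + ∑ i ∈ Finset.univ.erase k, μ i * ⟪inc (b i), w⟫_ℝ ^ 2 := by
  simp only [inner_inc_right]
  rw [← Finset.add_sum_erase _ _ (Finset.mem_univ k)]

end

/-- the slope of the crossing -/
def mm {q : ℕ} (D : Fin (q + 2) → ℝ) (bk : ES (q + 1)) : ℝ :=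
  ∑ i : Fin (q + 1), D i.succ * bk i * bk i - D 0

theorem mm_pos {q : ℕ} {D : Fin (q + 2) → ℝ} {J : Matrix (Fin (q + 2)) (Fin (q + 2)) ℝ}
    (h : Iso D J) {bk : ES (q + 1)} (hb : ⟪bk, bk⟫_ℝ = 1) (hb0 : 0 < bk 0) : 0 < mm D bk := by
  have h1 : mm D bk = ∑ i : Fin (q + 1), (D i.succ - D 0) * bk i ^ 2 := by
    unfold mm
    rw [inner_eq] at hb
    calc ∑ i : Fin (q + 1), D i.succ * bk i * bk i - D 0
        = ∑ i : Fin (q + 1), D i.succ * bk i * bk i - D 0 * ∑ i : Fin (q + 1), bk i * bk i := by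
          rw [hb, mul_one]
      _ = ∑ i : Fin (q + 1), (D i.succ - D 0) * bk i ^ 2 := by
          rw [Finset.mul_sum, ← Finset.sum_sub_distrib]
          exact Finset.sum_congr rfl fun i _ => by ring
  rw [h1]
  apply Finset.sum_pos'
  · intro i _
    exact mul_nonneg (sub_pos.2 (h.lt i)).le (sq_nonneg _)
  · exact ⟨0, Finset.mem_univ _, mul_pos (sub_pos.2 (h.lt 0)) (by positivity)⟩

/-- the perturbation operator -/
def NN {q : ℕ} (D : Fin (q + 2) → ℝ) (δ y : ℝ) : ES (q + 2) →L[ℝ] ES (q + 2) :=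
  δ • op (Matrix.diagonal D) + y • op (Y01 q)

theorem NN_symm {q : ℕ} (D : Fin (q + 2) → ℝ) (δ y : ℝ) (v w : ES (q + 2)) :
    ⟪NN D δ y v, w⟫_ℝ = ⟪v, NN D δ y w⟫_ℝ := by
  have h1 : ∀ i j : Fin (q + 2), Matrix.diagonal D i j = Matrix.diagonal D j i := by
    intro i j
    rw [Matrix.diagonal_apply, Matrix.diagonal_apply]
    by_cases hij : i = j
    · subst hij; rfl
    · rw [if_neg hij, if_neg (fun hh => hij hh.symm)]
  simp only [NN, _root_.add_apply, _root_.smul_apply, inner_add_left, inner_add_right,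
    inner_smul_left, inner_smul_right, op_symm h1, op_symm (Y01_symm q)]
  simp

theorem NN_norm {q : ℕ} (D : Fin (q + 2) → ℝ) (δ y : ℝ) :
    ‖NN D δ y‖ ≤ |δ| * ‖op (Matrix.diagonal D)‖ + |y| * ‖op (Y01 q)‖ := by
  refine (norm_add_le _ _).trans ?_
  rw [norm_smul, norm_smul, Real.norm_eq_abs, Real.norm_eq_abs]

theorem op_Mxy {q : ℕ} (D : Fin (q + 2) → ℝ) (J : Matrix (Fin (q + 2)) (Fin (q + 2)) ℝ)
    (x xc y : ℝ) : op (Mxy D J x y) = op (Mxy D J xc 0) + NN D (x - xc) y := by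
  simp only [Mxy, NN, op_add, op_smul]
  ext v i
  simp only [_root_.add_apply, _root_.smul_apply, PiLp.add_apply, PiLp.smul_apply, smul_eq_mul]
  ring

theorem diff_formula {q : ℕ} (D : Fin (q + 2) → ℝ)
    (b : OrthonormalBasis (Fin (q + 1)) ℝ (ES (q + 1))) (k : Fin (q + 1)) {α κ δ y : ℝ}
    (hκ : κ = 1 ∨ κ = -1) :
    ⟪NN D δ y (fp (b k) α κ), fp (b k) α κ⟫_ℝ - ⟪NN D δ y (ff (b k) α κ), ff (b k) α κ⟫_ℝ
      = -(δ * mm D (b k) * Real.cos (2 * α)) + 2 * κ * y * (b k 0) * Real.sin (2 * α) := by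
  have h1 := kap_sq hκ
  have a1 : ⟪op (Matrix.diagonal D) (inc (b k)), inc (b k)⟫_ℝ
      = ∑ i, D i.succ * b k i * b k i := inner_diag_inc D _ _
  have a2 : ⟪op (Matrix.diagonal D) e0, inc (b k)⟫_ℝ = 0 := inner_diag_e0_inc D _
  have hsd : ∀ i j : Fin (q + 2), Matrix.diagonal D i j = Matrix.diagonal D j i := by
    intro i j
    rw [Matrix.diagonal_apply, Matrix.diagonal_apply]
    by_cases hij : i = j
    · subst hij; rfl
    · rw [if_neg hij, if_neg (fun hh => hij hh.symm)]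
  have a3 : ⟪op (Matrix.diagonal D) (inc (b k)), (e0 : ES (q + 2))⟫_ℝ = 0 := by
    rw [op_symm hsd, real_inner_comm]; exact a2
  have a4 := inner_diag_e0_e0 (q := q) D
  have c1 : ⟪op (Y01 q) (inc (b k)), inc (b k)⟫_ℝ = 0 := by
    rw [op_Y_inc, inner_smul_left, inner_e0_inc, mul_zero]
  have c2 : ⟪op (Y01 q) e0, inc (b k)⟫_ℝ = b k 0 := op_Y_e0_inner _
  have c3 : ⟪op (Y01 q) (inc (b k)), (e0 : ES (q + 2))⟫_ℝ = b k 0 := by
    rw [op_symm (Y01_symm q), real_inner_comm]; exact c2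
  have c4 := op_Y_e0_e0 (q := q)
  simp only [NN, ff, fp, _root_.add_apply, _root_.smul_apply, map_add, map_sub, map_smul,
    inner_add_left, inner_add_right, inner_sub_left, inner_sub_right, inner_smul_left,
    inner_smul_right, a1, a2, a3, a4, c1, c2, c3, c4]
  simp only [conj_trivial]
  rw [Real.cos_two_mul, Real.sin_two_mul]
  have h3 := Real.sin_sq_add_cos_sq α
  have h4 : Real.sin α ^ 2 = 1 - Real.cos α ^ 2 := by linarith
  unfold mm
  set S := ∑ i : Fin (q + 1), D i.succ * b k i * b k i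
  set s := Real.sin α
  set c := Real.cos α
  have e : κ ^ 2 * s ^ 2 = 1 - c ^ 2 := by rw [h1, h4, one_mul]
  linear_combination (δ * S - δ * D 0) * e

end Crest.Agent.R202.Jac
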