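import Crest.Agent.R202.JacFrame

/-!
# Row 202, matrix part: separation by the rotating trial frame, continued
-/

set_option autoImplicit false

open Filter Topology Module Matrix
open scoped InnerProductSpace

noncomputable section

namespace Crest.Agent.R202.Jac

theorem unit_of_inner {E : Type*} [NormedAddCommGroup E] [InnerProductSpace ℝ E] {f : E}
    (h : ⟪f, f⟫_ℝ = 1) : ‖f‖ = 1 := by
  rw [real_inner_self_eq_norm_sq] at h
  nlinarith [norm_nonneg f]

variable {q : ℕ} {D : Fin (q + 2) → ℝ} {J : Matrix (Fin (q + 2)) (Fin (q + 2)) ℝ}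
  {b : OrthonormalBasis (Fin (q + 1)) ℝ (ES (q + 1))} {k : Fin (q + 1)} {α κ : ℝ}

/-- splitting off the component along a unit vector `f` of the cluster plane -/
theorem split_vec (hκ : κ = 1 ∨ κ = -1) (w : ES (q + 2)) {f : ES (q + 2)}
    (hf : ⟪f, f⟫_ℝ = 1) :
    ⟪w - ⟪f, w⟫_ℝ • f, ⟪f, w⟫_ℝ • f⟫_ℝ = 0 ∧ ‖⟪f, w⟫_ℝ • f‖ ^ 2 = ⟪f, w⟫_ℝ ^ 2 ∧
      ‖w - ⟪f, w⟫_ℝ • f‖ ^ 2 = ‖w‖ ^ 2 - ⟪f, w⟫_ℝ ^ 2 := by
  have h1 : ‖f‖ = 1 := unit_of_inner hf
  have h2 : ⟪w - ⟪f, w⟫_ℝ • f, ⟪f, w⟫_ℝ • f⟫_ℝ = 0 := by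
    rw [inner_sub_left, inner_smul_right, inner_smul_right, inner_smul_left, hf,
      real_inner_comm f w]
    simp
  have h3 : ‖⟪f, w⟫_ℝ • f‖ ^ 2 = ⟪f, w⟫_ℝ ^ 2 := by
    rw [norm_smul, h1, mul_one, Real.norm_eq_abs, sq_abs]
  refine ⟨h2, h3, ?_⟩
  have h4 := norm_add_sq_real (w - ⟪f, w⟫_ℝ • f) (⟪f, w⟫_ℝ • f)
  rw [h2, sub_add_cancel, h3] at h4
  linarith

theorem sep_frm (h : Iso D J) {xc : ℝ} {μ : Fin (q + 1) → ℝ} (hμ : Monotone μ)
    (hb : ∀ i, op (rest (Mxy D J xc 0)) (b i) = μ i • b i) (hk : μ k = xc * D 0 + J 0 0)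
    {g : ℝ} (hg : 0 < g) (hgap : ∀ i, i ≠ k → g ≤ |μ i - μ k|) (hκ : κ = 1 ∨ κ = -1)
    {x y ν : ℝ} (hν : |x - xc| * ‖op (Matrix.diagonal D)‖ + |y| * ‖op (Y01 q)‖ ≤ ν)
    (h4 : 4 * ν ≤ g)
    (hdiff : 4 * ν ^ 2 / g < -((x - xc) * mm D (b k) * Real.cos (2 * α))
      + 2 * κ * y * (b k 0) * Real.sin (2 * α)) :
    SepF (op (Mxy D J x y)) (frm (fun i => b i) k α κ)
      (μ k + (⟪NN D (x - xc) y (ff (b k) α κ), ff (b k) α κ⟫_ℝ + 2 * ν ^ 2 / g))
      (μ k + (⟪NN D (x - xc) y (fp (b k) α κ), fp (b k) α κ⟫_ℝ - 2 * ν ^ 2 / g)) := by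
  have hN : ‖NN D (x - xc) y‖ ≤ ν := (NN_norm D _ _).trans hν
  have hν0 : 0 ≤ ν := (norm_nonneg _).trans hN
  have hff := inner_ff_ff b k (α := α) hκ
  have hfp := inner_fp_fp b k (α := α) hκ
  have hA : |⟪NN D (x - xc) y (ff (b k) α κ), ff (b k) α κ⟫_ℝ| ≤ ν := by
    have := abs_inner_N_le _ hN (ff (b k) α κ) (ff (b k) α κ)
    rw [unit_of_inner hff] at this
    simpa using this
  have hB : |⟪NN D (x - xc) y (fp (b k) α κ), fp (b k) α κ⟫_ℝ| ≤ ν := by
    have := abs_inner_N_le _ hN (fp (b k) α κ) (fp (b k) α κ)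
    rw [unit_of_inner hfp] at this
    simpa using this
  have hT0 : ∀ w : ES (q + 2), ⟪op (Mxy D J xc 0) w, w⟫_ℝ
      = μ k * (⟪ff (b k) α κ, w⟫_ℝ ^ 2 + ⟪fp (b k) α κ, w⟫_ℝ ^ 2)
        + ∑ i ∈ Finset.univ.erase k, μ i * ⟪inc (b i), w⟫_ℝ ^ 2 := by
    intro w
    rw [T0_decomp h]
    have e1 := inner_T_self_eq_sum b (T := (op (rest (Mxy D J xc 0)) : ES (q + 1) →ₗ[ℝ] ES (q + 1)))
      hb (tl w)
    have e1' : ⟪op (rest (Mxy D J xc 0)) (tl w), tl w⟫_ℝ = ∑ i, μ i * ⟪b i, tl w⟫_ℝ ^ 2 := e1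
    rw [e1', sum_split b k μ w, ← hk, ← rot b k hκ w]
    ring
  have hnorm : ∀ w : ES (q + 2), ‖w‖ ^ 2
      = (⟪ff (b k) α κ, w⟫_ℝ ^ 2 + ⟪fp (b k) α κ, w⟫_ℝ ^ 2)
        + ∑ i ∈ Finset.univ.erase k, ⟪inc (b i), w⟫_ℝ ^ 2 := by
    intro w
    rw [norm_sq_decomp, norm_sq_eq_sum b (tl w), ← rot b k hκ w]
    have := sum_split b k (fun _ => 1) w
    simp only [one_mul] at this
    rw [this]
    ring
  rw [op_Mxy D J x xc y]
  have hdf := diff_formula D b k (α := α) (δ := x - xc) (y := y) hκ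
  have hon := frm_orthonormal b k (α := α) hκ
  refine ⟨hon.linearIndependent, ?_, ?_, ?_⟩
  · have e : 4 * ν ^ 2 / g = 2 * ν ^ 2 / g + 2 * ν ^ 2 / g := by ring
    rw [e] at hdiff
    linarith
  · -- upper bound on the span
    intro w hw
    have hperp : ∀ z : ES (q + 2), (∀ i, ⟪frm (fun i => b i) k α κ i, z⟫_ℝ = 0) →
        ⟪z, w⟫_ℝ = 0 := by
      intro z hz
      induction hw using Submodule.span_induction with
      | mem x hx =>
        obtain ⟨j, rfl⟩ := hx
        rw [real_inner_comm]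
        exact hz j
      | zero => simp
      | add x y _ _ hx hy => rw [inner_add_right, hx, hy, add_zero]
      | smul a x _ hx => rw [inner_smul_right, hx, mul_zero]
    have hfpw : ⟪fp (b k) α κ, w⟫_ℝ = 0 := by
      apply hperp
      intro i
      unfold frm
      split
      · rename_i hi
        rw [real_inner_comm]
        apply inner_fp_inc
        intro hh
        have : i.1 = k.1 := by simpa using congrArg Fin.val hh
        omega
      · exact inner_ff_fp b k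
    have hhigh : ∀ i, k < i → ⟪inc (b i), w⟫_ℝ = 0 := by
      intro i hi
      apply hperp
      intro j
      unfold frm
      split
      · rename_i hj
        rw [inner_inc]
        apply b.orthonormal.2
        intro hh
        have h1 : j.1 = i.1 := by simpa using congrArg Fin.val hh
        have h2 : k.1 < i.1 := hi
        omega
      · exact inner_ff_inc b k i hi.ne'
    obtain ⟨s1, s2, s3⟩ := split_vec (q := q) hκ w hff
    have hwe : w = (w - ⟪ff (b k) α κ, w⟫_ℝ • ff (b k) α κ)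
        + ⟪ff (b k) α κ, w⟫_ℝ • ff (b k) α κ := by abel
    have := block_le (T0 := op (Mxy D J xc 0)) (N := NN D (x - xc) y) (lam := μ k)
      (A := ⟪NN D (x - xc) y (ff (b k) α κ), ff (b k) α κ⟫_ℝ)
      (NN_symm D _ _) hg hν0 h4 hA hN s1 (by
        rw [← hwe, hT0, s3, s2, hnorm w, hfpw]
        have hle : ∑ i ∈ Finset.univ.erase k, μ i * ⟪inc (b i), w⟫_ℝ ^ 2
            ≤ ∑ i ∈ Finset.univ.erase k, (μ k - g) * ⟪inc (b i), w⟫_ℝ ^ 2 := by
          refine Finset.sum_le_sum fun i hi => ?_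
          rcases lt_or_ge k i with hki | hki
          · rw [hhigh i hki]; simp
          · have hik : i ≠ k := Finset.ne_of_mem_erase hi
            have hg' := hgap i hik
            have hmono := hμ hki
            rw [abs_of_nonpos (by linarith)] at hg'
            exact mul_le_mul_of_nonneg_right (by linarith) (sq_nonneg _)
        rw [← Finset.mul_sum] at hle
        linarith) (by
        rw [map_smul, inner_smul_left, inner_smul_right, s2]
        simp only [conj_trivial]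
        ring_nf
        exact le_refl _)
    rw [← hwe] at this
    exact this
  · intro w hw
    have hfw : ⟪ff (b k) α κ, w⟫_ℝ = 0 := by
      have := hw ⟨k.1, by omega⟩
      unfold frm at this
      simpa using this
    have hlow : ∀ i, i < k → ⟪inc (b i), w⟫_ℝ = 0 := by
      intro i hi
      have hi' : i.1 < k.1 := hi
      have := hw ⟨i.1, by omega⟩
      unfold frm at this
      simpa [hi'] using this
    obtain ⟨s1, s2, s3⟩ := split_vec (q := q) hκ w hfp
    have hwe : w = (w - ⟪fp (b k) α κ, w⟫_ℝ • fp (b k) α κ)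
        + ⟪fp (b k) α κ, w⟫_ℝ • fp (b k) α κ := by abel
    have := block_ge (T0 := op (Mxy D J xc 0)) (N := NN D (x - xc) y) (lam := μ k)
      (B := ⟪NN D (x - xc) y (fp (b k) α κ), fp (b k) α κ⟫_ℝ)
      (NN_symm D _ _) hg hν0 h4 hB hN s1 (by
        rw [← hwe, hT0, s3, s2, hnorm w, hfw]
        have hle : ∑ i ∈ Finset.univ.erase k, (μ k + g) * ⟪inc (b i), w⟫_ℝ ^ 2
            ≤ ∑ i ∈ Finset.univ.erase k, μ i * ⟪inc (b i), w⟫_ℝ ^ 2 := by
          refine Finset.sum_le_sum fun i hi => ?_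
          rcases lt_or_ge i k with hki | hki
          · rw [hlow i hki]; simp
          · have hik : i ≠ k := Finset.ne_of_mem_erase hi
            have hg' := hgap i hik
            have hmono := hμ hki
            rw [abs_of_nonneg (by linarith)] at hg'
            exact mul_le_mul_of_nonneg_right (by linarith) (sq_nonneg _)
        rw [← Finset.mul_sum] at hle
        linarith) (by
        rw [map_smul, inner_smul_left, inner_smul_right, s2]
        simp only [conj_trivial]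
        ring_nf
        exact le_refl _)
    rw [← hwe] at this
    exact this

end Crest.Agent.R202.Jac
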