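import Crest.Agent.R202.JacChain

/-!
# Row 202: the designated chain, its twin, and the other chains under the gate perturbation
-/

set_option autoImplicit false

open Module Matrix Finset Filter Topology
open scoped InnerProductSpace

noncomputable section

namespace Crest.Agent.R202.Jac

open Crest.Agent.R202.Lab Crest.Agent.R202.SF

variable {T : Type*} [AddCommGroup T] [Module ℝ T]

/-- the gate perturbation, `f = M + m'` -/
def gG (a f : ℕ) (s : ℕ) (ηA ηB ξ : T) (k0 y : ℝ) : ℕ →₀ T :=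
  Finsupp.single a (ηA + k0 • ηB) - (sg s * k0 * (1 - y)) • Finsupp.single f ξ

theorem gG_one (a f : ℕ) (s : ℕ) (ηA ηB ξ : T) (k0 : ℝ) :
    gG a f s ηA ηB ξ k0 1 = Finsupp.single a (ηA + k0 • ηB) := by
  simp [gG]

theorem gG_affine (a f : ℕ) (s : ℕ) (ηA ηB ξ : T) (k0 y : ℝ) :
    gG a f s ηA ηB ξ k0 y = gG a f s ηA ηB ξ k0 0 + y • ((sg s * k0) • Finsupp.single f ξ) := by
  simp only [gG, sub_zero, mul_one, smul_smul, mul_sub, sub_smul]
  rw [show y * (sg s * k0) = sg s * k0 * y by ring]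
  abel

theorem gG_zero_eq {a f : ℕ} (ha : 0 < a) (hf : 0 < f) (s : ℕ) (ηA ηB ξ : T) (k0 y : ℝ) :
    gG a f s ηA ηB ξ k0 y 0 = 0 := by
  simp [gG, ha.ne, hf.ne]

theorem sg_mul_self (s : ℕ) : sg s * sg s = 1 := by
  unfold sg; split_ifs <;> norm_num

theorem sg_mul_ne {s s' : ℕ} (hs : s ≤ 1) (hs' : s' ≤ 1) (h : s' ≠ s) : sg s * sg s' = -1 := by
  unfold sg
  have : (s = 0 ∧ s' = 1) ∨ (s = 1 ∧ s' = 0) := by omega
  rcases this with ⟨rfl, rfl⟩ | ⟨rfl, rfl⟩ <;> norm_num

theorem Ytop_apply (q : ℕ) (i j : Fin (q + 2)) :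
    Ytop q i j = if (i.1 = q ∧ j.1 = q + 1) ∨ (i.1 = q + 1 ∧ j.1 = q) then 1 else 0 := by
  have h : Ytop q i j = Y01 q (Fin.rev i) (Fin.rev j) := rfl
  rw [h]
  unfold Y01
  have h0 : ∀ i : Fin (q + 2), Fin.rev i = 0 ↔ i.1 = q + 1 := by
    intro i
    rw [Fin.ext_iff, Fin.val_rev]
    have := i.2
    simp only [Fin.val_zero]
    omega
  have h1 : ∀ i : Fin (q + 2), Fin.rev i = 1 ↔ i.1 = q := by
    intro i
    rw [Fin.ext_iff, Fin.val_rev]
    have := i.2
    simp only [Fin.val_one]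
    omega
  simp only [h0, h1]
  have h2 : ((i.1 = q + 1 ∧ j.1 = q) ∨ (i.1 = q ∧ j.1 = q + 1)) ↔
      ((i.1 = q ∧ j.1 = q + 1) ∨ (i.1 = q + 1 ∧ j.1 = q)) := or_comm
  simp only [h2]

theorem Ytop_symm (q : ℕ) (i j : Fin (q + 2)) : Ytop q i j = Ytop q j i := by
  rw [Ytop_apply, Ytop_apply]
  have h2 : ((i.1 = q ∧ j.1 = q + 1) ∨ (i.1 = q + 1 ∧ j.1 = q)) ↔
      ((j.1 = q ∧ i.1 = q + 1) ∨ (j.1 = q + 1 ∧ i.1 = q)) := by
    constructor <;> (intro h; omega)
  simp only [h2]

section des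

variable {A B : ℕ → ℝ → ℕ × ℕ → ℕ × ℕ → T →ₗ[ℝ] ℝ} {d : ℕ} {σ : ℕ × ℕ} {a c : ℕ} {p : ℕ × ℕ}
  {q : ℕ}

/-- the matrix of the sum type perturbation with the frequency `M + m'` is exactly the top link -/
theorem cL_top (hB : ∀ q b p p' η, B q b p p' η = B q b p' p η) (ha : 0 < a) (ξ : T)
    (h0 : 0 < (chainLab a c p q).1)
    (hξ : B σ.1 (2 * (c : ℝ) / a) (chainLab a c p q) (chainLab a c p (q + 1)) ξ = 1) :
    cL A B σ a c p (q + 2)
      (Finsupp.single ((chainLab a c p (q + 1)).1 + (chainLab a c p q).1) ξ)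
      = sg σ.2 • Ytop q := by
  ext i j
  rw [cL_apply, firstVar_single]
  have hi : i.1 ≤ q + 1 := by have := i.2; omega
  have hj : j.1 ≤ q + 1 := by have := j.2; omega
  have h1 : ¬ ((chainLab a c p i).1 + ((chainLab a c p (q + 1)).1 + (chainLab a c p q).1)
      = (chainLab a c p j).1 ∨
      (chainLab a c p j).1 + ((chainLab a c p (q + 1)).1 + (chainLab a c p q).1)
      = (chainLab a c p i).1) := by
    rintro (h | h)
    · exact top_diff_ne hj h0 h
    · exact top_diff_ne hi h0 h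
  rw [if_neg h1, zero_add, Matrix.smul_apply, smul_eq_mul, Ytop_apply]
  congr 1
  by_cases h2 : (i.1 = q ∧ j.1 = q + 1) ∨ (i.1 = q + 1 ∧ j.1 = q)
  · rw [if_pos h2, if_pos ((top_sum_iff ha hi hj).2 h2)]
    rcases h2 with ⟨h3, h4⟩ | ⟨h3, h4⟩
    · rw [h3, h4, hξ]
    · rw [h3, h4, hB, hξ]
  · rw [if_neg h2, if_neg (fun h => h2 ((top_sum_iff ha hi hj).1 h))]

/-- the matrix of an `a`-perturbation whose only nonzero link is the top one -/
theorem cL_topLink (hA : ∀ q b p p' η, A q b p p' η = A q b p' p η)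
    (hB : ∀ q b p p' η, B q b p p' η = B q b p' p η)
    (hBA : ∀ q b (p p' : ℕ × ℕ), p.1 = 0 → ∀ η, B q b p p' η = A q b p p' η)
    (ha : 0 < a) (hs : σ.2 ≤ p.1) (η : T)
    (hlow : ∀ i, i < q →
      A σ.1 (2 * (c : ℝ) / a) (chainLab a c p i) (chainLab a c p (i + 1)) η = 0)
    (hdiag : 2 * p.1 = a → B σ.1 (2 * (c : ℝ) / a) p p η = 0) :
    cL A B σ a c p (q + 2) (Finsupp.single a η)
      = (wt (chainLab a c p q) *
        A σ.1 (2 * (c : ℝ) / a) (chainLab a c p q) (chainLab a c p (q + 1)) η) • Ytop q := by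
  have hlt : ∀ i j : Fin (q + 2), i.1 < j.1 → cL A B σ a c p (q + 2) (Finsupp.single a η) i j
      = ((wt (chainLab a c p q) *
        A σ.1 (2 * (c : ℝ) / a) (chainLab a c p q) (chainLab a c p (q + 1)) η) • Ytop q) i j := by
    intro i j hij
    rw [Matrix.smul_apply, smul_eq_mul, Ytop_apply]
    by_cases h : i.1 + 1 = j.1
    · rw [cL_single_link hBA ha hs η i j h]
      by_cases hq : i.1 = q
      · rw [if_pos (Or.inl ⟨hq, by omega⟩), mul_one, ← h, hq]
      · have hi : i.1 < q := by have := j.2; omega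
        rw [if_neg (by omega), ← h, hlow i.1 hi]; ring
    · rw [cL_single_far ha η i j (by omega), if_neg (by omega), mul_zero]
  ext i j
  rcases lt_trichotomy i.1 j.1 with h | h | h
  · exact hlt i j h
  · have : i = j := Fin.ext h
    subst this
    rw [cL_single_diag ha η i hdiag, Matrix.smul_apply, smul_eq_mul, Ytop_apply,
      if_neg (by omega), mul_zero]
  · rw [cL_symm hA hB, hlt j i h, Matrix.smul_apply, Matrix.smul_apply, Ytop_symm]

/-- the designated chain -/
theorem designated (hA : ∀ q b p p' η, A q b p p' η = A q b p' p η)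
    (hB : ∀ q b p p' η, B q b p p' η = B q b p' p η)
    (hBA : ∀ q b (p p' : ℕ × ℕ), p.1 = 0 → ∀ η, B q b p p' η = A q b p p' η)
    (ha : 0 < a) (hc : 0 < c) (hs : σ.2 ≤ p.1) (hq : q + 2 ≤ p.2 / c + 1) {ηA ηB ξ : T}
    (h1 : A σ.1 (2 * (c : ℝ) / a) (chainLab a c p q) (chainLab a c p (q + 1)) ηA = 0)
    (h2 : ∀ i, i < q →
      A σ.1 (2 * (c : ℝ) / a) (chainLab a c p i) (chainLab a c p (i + 1)) ηA ≠ 0)
    (h3 : A σ.1 (2 * (c : ℝ) / a) (chainLab a c p q) (chainLab a c p (q + 1)) ηB = 1)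
    (h4 : ∀ i, i < q →
      A σ.1 (2 * (c : ℝ) / a) (chainLab a c p i) (chainLab a c p (i + 1)) ηB = 0)
    (h5 : 2 * p.1 = a → B σ.1 (2 * (c : ℝ) / a) p p ηB = 0)
    (h6 : B σ.1 (2 * (c : ℝ) / a) (chainLab a c p q) (chainLab a c p (q + 1)) ξ = 1) :
    IsoT (cD d σ a c p (q + 2)) (cL A B σ a c p (q + 2) (Finsupp.single a ηA)) ∧
    ∀ k0 x y, pen A B d σ a c p (q + 2) x
      (gG a ((chainLab a c p (q + 1)).1 + (chainLab a c p q).1) σ.2 ηA ηB ξ k0 y)
      = MT (cD d σ a c p (q + 2)) (cL A B σ a c p (q + 2) (Finsupp.single a ηA)) x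
        (wt (chainLab a c p q) * k0 * y) := by
  refine ⟨⟨fun i => ?_, fun i j => cL_symm hA hB _ i j, fun i => ?_, fun i j hij => ?_,
    fun i j hij => ?_⟩, fun k0 x y => ?_⟩
  · exact cD_strictMono ha hq hc (Fin.castSucc_lt_last i)
  · rw [cL_symm hA hB]
    by_cases h : i.1 = q
    · rw [cL_single_link hBA ha hs ηA i.castSucc (Fin.last _) (by simp [h])]
      simp only [Fin.val_castSucc, Fin.val_last, h, h1, mul_zero]
    · exact cL_single_far ha ηA _ _ (by simp only [Fin.val_castSucc, Fin.val_last]; omega)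
  · exact cL_single_far ha ηA _ _ (by simpa using hij)
  · rw [cL_single_link hBA ha hs ηA i.castSucc j.castSucc (by simpa using hij)]
    have := h2 i.1 (by have := j.2; omega)
    simp only [Fin.val_castSucc]
    rw [← hij]
    exact mul_ne_zero (wt_ne _) this
  · have e1 : cL A B σ a c p (q + 2) (Finsupp.single a ηB)
        = wt (chainLab a c p q) • Ytop q := by
      rw [cL_topLink hA hB hBA ha hs ηB h4 h5, h3, mul_one]
    have e2 : cL A B σ a c p (q + 2)
        (Finsupp.single ((chainLab a c p (q + 1)).1 + (chainLab a c p q).1) ξ)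
        = (sg σ.2 * wt (chainLab a c p q)) • Ytop q := by
      by_cases h0 : (chainLab a c p q).1 = 0
      · have h00 := h0
        rw [chainLab_fst] at h00
        have hp0 : p.1 = 0 := by omega
        have hqa : q * a = 0 := by omega
        have hq0 : q = 0 := by
          rcases Nat.mul_eq_zero.1 hqa with h | h
          · exact h
          · omega
        subst hq0
        have hf : (chainLab a c p (0 + 1)).1 + (chainLab a c p 0).1 = a := by
          simp [chainLab_fst, hp0]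
        rw [hf, cL_topLink hA hB hBA ha hs ξ (fun i hi => absurd hi (Nat.not_lt_zero i))
          (fun h => by omega), ← hBA _ _ _ _ h0, h6]
        have hs0 : σ.2 = 0 := by omega
        rw [hs0]
        unfold sg
        rw [if_pos rfl, mul_one, one_mul]
      · rw [cL_top hB ha ξ (Nat.pos_of_ne_zero h0) h6]
        unfold wt
        rw [if_neg h0, mul_one]
    unfold pen gG MT
    rw [cL_sub, cL_smul, Finsupp.single_add, ← Finsupp.smul_single, cL_add, cL_smul, e1, e2,
      smul_smul, smul_smul]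
    have e3 : sg σ.2 * k0 * (1 - y) * (sg σ.2 * wt (chainLab a c p q))
        = (k0 * wt (chainLab a c p q)) - wt (chainLab a c p q) * k0 * y := by
      have := sg_mul_self σ.2
      linear_combination (k0 * (1 - y) * wt (chainLab a c p q)) * this
    rw [e3, sub_smul]
    abel

/-- the twin chain: all cuts stay open for `k0 > 0`, `y < 2` -/
theorem twin (hA : ∀ q b p p' η, A q b p p' η = A q b p' p η)
    (hB : ∀ q b p p' η, B q b p p' η = B q b p' p η)
    (hBA : ∀ q b (p p' : ℕ × ℕ), p.1 = 0 → ∀ η, B q b p p' η = A q b p p' η)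
    (ha : 0 < a) (hs : σ.2 ≤ p.1) {s : ℕ} (hσ1 : σ.2 ≤ 1) (hs1 : s ≤ 1) (hne : σ.2 ≠ s)
    (hsp : s ≤ (chainLab a c p q).1) {ηA ηB ξ : T}
    (h1 : A σ.1 (2 * (c : ℝ) / a) (chainLab a c p q) (chainLab a c p (q + 1)) ηA = 0)
    (h2 : ∀ i, i < q →
      A σ.1 (2 * (c : ℝ) / a) (chainLab a c p i) (chainLab a c p (i + 1)) ηA ≠ 0)
    (h3 : A σ.1 (2 * (c : ℝ) / a) (chainLab a c p q) (chainLab a c p (q + 1)) ηB = 1)
    (h4 : ∀ i, i < q →
      A σ.1 (2 * (c : ℝ) / a) (chainLab a c p i) (chainLab a c p (i + 1)) ηB = 0)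
    (h5 : 2 * p.1 = a → B σ.1 (2 * (c : ℝ) / a) p p ηB = 0)
    (h6 : B σ.1 (2 * (c : ℝ) / a) (chainLab a c p q) (chainLab a c p (q + 1)) ξ = 1)
    (k0 x y : ℝ) (hk0 : 0 < k0) (hy : y < 2) :
    Tri (pen A B d σ a c p (q + 2) x
      (gG a ((chainLab a c p (q + 1)).1 + (chainLab a c p q).1) s ηA ηB ξ k0 y)) := by
  have h0 : 0 < (chainLab a c p q).1 := by
    have : σ.2 ≤ (chainLab a c p q).1 := by rw [chainLab_fst]; omega
    omega
  have e1 : cL A B σ a c p (q + 2) (Finsupp.single a ηB) = (1 : ℝ) • Ytop q := by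
    rw [cL_topLink hA hB hBA ha hs ηB h4 h5, h3, mul_one]
    unfold wt
    rw [if_neg h0.ne']
  have e2 := cL_top (σ := σ) (A := A) hB ha ξ h0 h6
  have key : pen A B d σ a c p (q + 2) x
      (gG a ((chainLab a c p (q + 1)).1 + (chainLab a c p q).1) s ηA ηB ξ k0 y)
      = x • Matrix.diagonal (cD d σ a c p (q + 2))
        + (cL A B σ a c p (q + 2) (Finsupp.single a ηA) + (k0 * (2 - y)) • Ytop q) := by
    unfold pen gG
    rw [cL_sub, cL_smul, Finsupp.single_add, ← Finsupp.smul_single, cL_add, cL_smul, e1, e2,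
      smul_smul, smul_smul]
    have e3 : sg s * k0 * (1 - y) * sg σ.2 = k0 * 1 - k0 * (2 - y) := by
      have := sg_mul_ne hs1 hσ1 hne
      linear_combination (k0 * (1 - y)) * this
    rw [e3, sub_smul]
    abel
  rw [key]
  have hpos : k0 * (2 - y) ≠ 0 := by
    have : 0 < 2 - y := by linarith
    positivity
  refine ⟨fun i j => ?_, fun i j hij => ?_, fun i j hij => ?_⟩
  · simp only [Matrix.add_apply, Matrix.smul_apply, smul_eq_mul, Matrix.diagonal_apply]
    rw [cL_symm hA hB, Ytop_symm]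
    by_cases hij : i = j
    · rw [hij]
    · rw [if_neg hij, if_neg (Ne.symm hij)]
  · simp only [Matrix.add_apply, Matrix.smul_apply, smul_eq_mul, Matrix.diagonal_apply, Ytop_apply]
    rw [cL_single_far ha ηA i j hij, if_neg (by intro h; rw [h] at hij; omega),
      if_neg (by omega)]
    ring
  · simp only [Matrix.add_apply, Matrix.smul_apply, smul_eq_mul, Matrix.diagonal_apply, Ytop_apply]
    rw [cL_single_link hBA ha hs ηA i j hij, if_neg (by intro h; rw [h] at hij; omega)]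
    by_cases h : i.1 = q
    · rw [if_pos (Or.inl ⟨h, by omega⟩), ← hij, h, h1]
      simpa using hpos
    · have hi : i.1 < q := by have := j.2; omega
      rw [if_neg (by omega), ← hij]
      simpa using ⟨wt_ne _, h2 i.1 hi⟩

end des

end Crest.Agent.R202.Jac
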