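import Crest.Agent.R202.JacGate

/-!
# Row 202: open cuts of the first-order pencils along the polygon of a gate

* `passWin` : non-designated crossing; `G₁ = η cos (a φ)`; all cuts of all chains are open for
  `(x, s • G₁)`, `(x, s) ≠ 0`, with a uniform gap on every annulus.
* `gateWin` : designated crossing; window rectangle with explicit trial frames for the designated
  cut, all other cuts of all chains open on the whole rectangle, and the approach at `y = 1`.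
-/

set_option autoImplicit false

open Module Matrix Finset Filter Topology
open scoped InnerProductSpace

noncomputable section

namespace Crest.Agent.R202.Jac

open Crest.Agent.R202.Lab Crest.Agent.R202.SF

/-- the cut `l` of the matrix `M` is open with gap `δ` -/
def OpG {n : ℕ} (l : ℕ) (M : Matrix (Fin n) (Fin n) ℝ) (δ : ℝ) : Prop :=
  ∃ (F : Fin l → ES n) (Λ : ℝ), SepF (op M) F Λ (Λ + δ)

theorem OpG.mono {n l : ℕ} {M : Matrix (Fin n) (Fin n) ℝ} {δ δ' : ℝ} (h : OpG l M δ)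
    (h0 : 0 < δ') (hle : δ' ≤ δ) : OpG l M δ' := by
  obtain ⟨F, Λ, hF⟩ := h
  exact ⟨F, Λ, hF.weaken le_rfl (by linarith) (by linarith)⟩

theorem opG_of_sep {n l : ℕ} {M : Matrix (Fin n) (Fin n) ℝ}
    (h : ∃ (F : Fin l → ES n) (A B : ℝ), SepF (op M) F A B) : ∃ δ > 0, OpG l M δ := by
  obtain ⟨F, A, B, hF⟩ := h
  have := hF.lt
  exact ⟨B - A, by linarith, F, A, by simpa using hF⟩

/-- common lower bound over a finite set -/
theorem exists_min_pos {ι : Type*} (s : Finset ι) (P : ι → ℝ → Prop)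
    (hmono : ∀ i δ δ', 0 < δ' → δ' ≤ δ → P i δ → P i δ') (h : ∀ i ∈ s, ∃ δ > 0, P i δ) :
    ∃ δ > 0, ∀ i ∈ s, P i δ := by
  classical
  induction s using Finset.induction_on with
  | empty => exact ⟨1, one_pos, by simp⟩
  | insert i s hi ih =>
    obtain ⟨δ, hδ, H⟩ := ih (fun j hj => h j (Finset.mem_insert_of_mem hj))
    obtain ⟨δ', hδ', H'⟩ := h i (Finset.mem_insert_self i s)
    refine ⟨min δ δ', lt_min hδ hδ', fun j hj => ?_⟩
    rcases Finset.mem_insert.1 hj with rfl | hj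
    · exact hmono _ _ _ (lt_min hδ hδ') (min_le_right _ _) H'
    · exact hmono _ _ _ (lt_min hδ hδ') (min_le_left _ _) (H j hj)

/-- decreasing diagonal -/
theorem diag_sep_anti {p : ℕ} {D : Fin (p + 1) → ℝ} (hD : StrictAnti D) {l : ℕ}
    (hl : 1 ≤ l) (hl' : l ≤ p) :
    ∃ (F : Fin l → ES (p + 1)) (A B : ℝ), SepF (op (Matrix.diagonal D)) F A B := by
  have hD' : StrictMono (fun i => D (Fin.rev i)) := fun i j hij => hD (Fin.rev_lt_rev.2 hij)
  obtain ⟨F, A, B, hF⟩ := diag_sep hD' hl hl'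
  refine ⟨fun i => rv (p + 1) (F i), A, B, hF.map (rv (p + 1)) (fun v => ?_)⟩
  have e : (Matrix.diagonal D).submatrix Fin.rev Fin.rev
      = Matrix.diagonal (fun i => D (Fin.rev i)) := by
    ext i j
    simp [Matrix.submatrix_apply, Matrix.diagonal_apply]
  rw [op_rev', e]

theorem op_pen_cont {X : Type*} [TopologicalSpace X] {n : ℕ} {N1 N2 N3 : Matrix (Fin n) (Fin n) ℝ}
    {f g h : X → ℝ} (hf : Continuous f) (hg : Continuous g) (hh : Continuous h) :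
    Continuous fun x => op (f x • N1 + g x • N2 + h x • N3) := by
  simp only [op_add, op_smul]
  fun_prop

variable {T : Type*} [AddCommGroup T] [Module ℝ T]

section

variable {A B : ℕ → ℝ → ℕ × ℕ → ℕ × ℕ → T →ₗ[ℝ] ℝ} {d : ℕ} {σ : ℕ × ℕ} {a c : ℕ} {p : ℕ × ℕ}

/-- all cuts open for `(x, s • G₁) ≠ 0` -/
theorem open_ne (hA : ∀ q b p p' η, A q b p p' η = A q b p' p η)
    (hB : ∀ q b p p' η, B q b p p' η = B q b p' p η)
    (hBA : ∀ q b (p p' : ℕ × ℕ), p.1 = 0 → ∀ η, B q b p p' η = A q b p p' η)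
    (ha : 0 < a) (hc : 0 < c) (hs : σ.2 ≤ p.1) (η : T) {n : ℕ} (hn : n ≤ p.2 / c)
    (hne : ∀ i, i < n →
      A σ.1 (2 * (c : ℝ) / a) (chainLab a c p i) (chainLab a c p (i + 1)) η ≠ 0)
    {l : ℕ} (hl : 1 ≤ l) (hl' : l ≤ n) (x s : ℝ) (hxs : x ≠ 0 ∨ s ≠ 0) :
    ∃ (F : Fin l → ES (n + 1)) (Λ Λ' : ℝ),
      SepF (op (pen A B d σ a c p (n + 1) x (s • Finsupp.single a η))) F Λ Λ' := by
  by_cases h0 : s = 0
  · have hx : x ≠ 0 := hxs.resolve_right (fun h => h h0)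
    rw [h0, zero_smul, pen_zero]
    have hD : StrictMono (cD d σ a c p (n + 1)) := cD_strictMono ha (by omega) hc
    rcases lt_or_gt_of_ne hx with h | h
    · exact diag_sep_anti (fun i j hij => mul_lt_mul_of_neg_left (hD hij) h) hl hl'
    · exact diag_sep (fun i j hij => mul_lt_mul_of_pos_left (hD hij) h) hl hl'
  · exact (tri_single hA hB hBA ha hs η (fun i hi => hne i (by omega)) x s h0).sep hl hl'

theorem open_annulus (hA : ∀ q b p p' η, A q b p p' η = A q b p' p η)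
    (hB : ∀ q b p p' η, B q b p p' η = B q b p' p η)
    (hBA : ∀ q b (p p' : ℕ × ℕ), p.1 = 0 → ∀ η, B q b p p' η = A q b p p' η)
    (ha : 0 < a) (hc : 0 < c) (hs : σ.2 ≤ p.1) (η : T) {n : ℕ} (hn : n ≤ p.2 / c)
    (hne : ∀ i, i < n →
      A σ.1 (2 * (c : ℝ) / a) (chainLab a c p i) (chainLab a c p (i + 1)) η ≠ 0)
    {l : ℕ} (hl : 1 ≤ l) (hl' : l ≤ n) {ρ R : ℝ} (hρ : 0 < ρ) :
    ∃ δ > 0, ∀ x s : ℝ, ρ ≤ max |x| |s| → max |x| |s| ≤ R →
      OpG l (pen A B d σ a c p (n + 1) x (s • Finsupp.single a η)) δ := by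
  have hK : IsCompact (Metric.closedBall (0 : ℝ × ℝ) R \ Metric.ball 0 ρ) :=
    (isCompact_closedBall _ _).diff Metric.isOpen_ball
  have hcont : Continuous fun z : ℝ × ℝ =>
      op (pen A B d σ a c p (n + 1) z.1 (z.2 • Finsupp.single a η)) := by
    have := op_pen_cont (X := ℝ × ℝ) (N1 := Matrix.diagonal (cD d σ a c p (n + 1)))
      (N2 := cL A B σ a c p (n + 1) (Finsupp.single a η)) (N3 := 0)
      (f := fun z => z.1) (g := fun z => z.2) (h := fun _ => 0) continuous_fst continuous_snd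
      continuous_const
    refine this.congr fun z => ?_
    rw [pen, cL_smul, smul_zero, add_zero]
  obtain ⟨δ, hδ, H⟩ := uniform_gap (l := l) hK hcont.continuousOn (fun z hz => by
    refine open_ne hA hB hBA ha hc hs η hn hne hl hl' z.1 z.2 ?_
    by_contra hcon
    push Not at hcon
    apply hz.2
    have : z = 0 := Prod.ext hcon.1 hcon.2
    rw [this]
    exact Metric.mem_ball_self hρ)
  refine ⟨δ, hδ, fun x s h1 h2 => H (x, s) ⟨?_, ?_⟩⟩
  · rw [mem_closedBall_zero_iff, Prod.norm_def]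
    exact h2
  · rw [mem_ball_zero_iff, Prod.norm_def, not_lt]
    exact h1

end

/-- conditions on a chain: admissible sector, first label -/
structure IsCh (OK : ℕ × ℕ → Prop) (a : ℕ) (z : (ℕ × ℕ) × (ℕ × ℕ)) : Prop where
  ok : OK z.1
  le_one : z.1.2 ≤ 1
  ge : z.1.2 ≤ z.2.1
  lt : z.2.1 < a + z.1.2

/-- the links of a chain -/
def links (a c : ℕ) (z : (ℕ × ℕ) × (ℕ × ℕ)) : Finset (ℕ × (ℕ × ℕ)) :=
  (Finset.range (z.2.2 / c)).image fun i => (z.1.1, chainLab a c z.2 i)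

theorem mem_links {a c : ℕ} {z : (ℕ × ℕ) × (ℕ × ℕ)} {y : ℕ × (ℕ × ℕ)} :
    y ∈ links a c z ↔ ∃ i < z.2.2 / c, (z.1.1, chainLab a c z.2 i) = y := by
  simp [links]

theorem link_snd {a c : ℕ} (hc : 0 < c) {p : ℕ × ℕ} {i : ℕ} (hi : i < p.2 / c) :
    c ≤ (chainLab a c p i).2 := by
  have h1 : (i + 1) * c ≤ p.2 := (Nat.le_div_iff_mul_le hc).1 hi
  rw [chainLab_snd]
  rw [Nat.add_mul, one_mul] at h1
  omega

/-- **non-designated crossing** -/
theorem passWin {A B : ℕ → ℝ → ℕ × ℕ → ℕ × ℕ → T →ₗ[ℝ] ℝ} {OK : ℕ × ℕ → Prop} (d : ℕ)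
    (hA : ∀ q b p p' η, A q b p p' η = A q b p' p η)
    (hB : ∀ q b p p' η, B q b p p' η = B q b p' p η)
    (hBA : ∀ q b (p p' : ℕ × ℕ), p.1 = 0 → ∀ η, B q b p p' η = A q b p p' η)
    {a c : ℕ} (ha : 0 < a) (hc : 0 < c)
    (hlink : ∀ F : Finset (ℕ × (ℕ × ℕ)), (∀ z ∈ F, (∃ s, OK (z.1, s)) ∧ c ≤ z.2.2) →
      ∃ η : T, ∀ z ∈ F, A z.1 (2 * (c : ℝ) / a) z.2 (z.2.1 + a, z.2.2 - c) η ≠ 0)
    (CC : Finset ((ℕ × ℕ) × (ℕ × ℕ))) (hCC : ∀ z ∈ CC, IsCh OK a z) :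
    ∃ η : T, ∀ ρ R : ℝ, 0 < ρ → ∃ δ > 0, ∀ z ∈ CC, ∀ n, n = z.2.2 / c → ∀ l, 1 ≤ l → l ≤ n →
      ∀ x s : ℝ, ρ ≤ max |x| |s| → max |x| |s| ≤ R →
        OpG l (pen A B d z.1 a c z.2 (n + 1) x (s • Finsupp.single a η)) δ := by
  classical
  obtain ⟨η, hη⟩ := hlink (CC.biUnion (links a c)) (fun y hy => by
    obtain ⟨z, hz, hy⟩ := Finset.mem_biUnion.1 hy
    obtain ⟨i, hi, rfl⟩ := mem_links.1 hy
    exact ⟨⟨z.1.2, (hCC z hz).ok⟩, link_snd hc hi⟩)
  refine ⟨η, fun ρ R hρ => ?_⟩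
  refine exists_min_pos CC _ ?_ (fun z hz => ?_)
  · intro z δ δ' h0 hle H n hn l hl hl' x s h1 h2
    exact (H n hn l hl hl' x s h1 h2).mono h0 hle
  · have h1 : ∃ δ > 0, ∀ l ∈ Finset.range (z.2.2 / c + 1), 1 ≤ l →
        ∀ x s : ℝ, ρ ≤ max |x| |s| → max |x| |s| ≤ R →
        OpG l (pen A B d z.1 a c z.2 (z.2.2 / c + 1) x (s • Finsupp.single a η)) δ := by
      refine exists_min_pos _ _ ?_ (fun l hl => ?_)
      · intro l δ δ' h0 hle H hl x s h1 h2
        exact (H hl x s h1 h2).mono h0 hle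
      · by_cases hl1 : 1 ≤ l
        · obtain ⟨δ, hδ, H⟩ := open_annulus (d := d) (σ := z.1) (p := z.2) hA hB hBA ha hc
            (hCC z hz).ge η (n := z.2.2 / c) le_rfl (fun i hi => by
              rw [chainLab_succ]
              exact hη _ (Finset.mem_biUnion.2 ⟨z, hz, mem_links.2 ⟨i, hi, rfl⟩⟩))
            hl1 (by have := Finset.mem_range.1 hl; omega) (R := R) hρ
          exact ⟨δ, hδ, fun _ => H⟩
        · exact ⟨1, one_pos, fun h => absurd h hl1⟩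
    obtain ⟨δ, hδ, H⟩ := h1
    refine ⟨δ, hδ, ?_⟩
    rintro n rfl l hl hl'
    exact H l (Finset.mem_range.2 (by omega)) hl

end Crest.Agent.R202.Jac
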