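import Crest.Agent.R202.JacBlock

/-!
# Row 202, matrix part: the conical crossing rectangle (isolated first label)
-/

set_option autoImplicit false

open Filter Topology Module Matrix
open scoped InnerProductSpace

noncomputable section

namespace Crest.Agent.R202.Jac

/-- the link matrix between labels `0` and `1` -/
def Y01 (q : ℕ) : Matrix (Fin (q + 2)) (Fin (q + 2)) ℝ :=
  fun i j => if (i = 0 ∧ j = 1) ∨ (i = 1 ∧ j = 0) then 1 else 0

/-- the pencil `x D + J + y Y` -/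
def Mxy {q : ℕ} (D : Fin (q + 2) → ℝ) (J : Matrix (Fin (q + 2)) (Fin (q + 2)) ℝ) (x y : ℝ) :
    Matrix (Fin (q + 2)) (Fin (q + 2)) ℝ := x • Matrix.diagonal D + J + y • Y01 q

/-- the restriction to the labels `≥ 1` -/
def rest {q : ℕ} (J : Matrix (Fin (q + 2)) (Fin (q + 2)) ℝ) : Matrix (Fin (q + 1)) (Fin (q + 1)) ℝ :=
  fun i j => J i.succ j.succ

/-- hypotheses on the cluster matrices: label `0` isolated -/
structure Iso {q : ℕ} (D : Fin (q + 2) → ℝ) (J : Matrix (Fin (q + 2)) (Fin (q + 2)) ℝ) : Prop where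
  lt : ∀ i : Fin (q + 1), D 0 < D i.succ
  symm : ∀ i j, J i j = J j i
  iso : ∀ i : Fin (q + 1), J 0 i.succ = 0
  tri : Tri (rest J)

abbrev ES (n : ℕ) := EuclideanSpace ℝ (Fin n)

/-- embedding of the rest -/
def inc {q : ℕ} (v : ES (q + 1)) : ES (q + 2) := WithLp.toLp 2 (Fin.cons 0 v.ofLp)

/-- the isolated label -/
def e0 {q : ℕ} : ES (q + 2) := EuclideanSpace.single 0 1

@[simp] theorem inc_zero {q : ℕ} (v : ES (q + 1)) : inc v 0 = 0 := by simp [inc]
@[simp] theorem inc_succ {q : ℕ} (v : ES (q + 1)) (i : Fin (q + 1)) : inc v i.succ = v i := by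
  simp [inc]
@[simp] theorem e0_zero {q : ℕ} : (e0 : ES (q + 2)) 0 = 1 := by simp [e0]
@[simp] theorem e0_succ {q : ℕ} (i : Fin (q + 1)) : (e0 : ES (q + 2)) i.succ = 0 := by
  simp [e0, Fin.succ_ne_zero]

theorem inner_eq {n : ℕ} (v w : ES n) : ⟪v, w⟫_ℝ = ∑ i, v i * w i := by
  rw [PiLp.inner_apply]
  refine Finset.sum_congr rfl fun i _ => ?_
  simp [mul_comm]

theorem inner_inc {q : ℕ} (v w : ES (q + 1)) : ⟪inc v, inc w⟫_ℝ = ⟪v, w⟫_ℝ := by
  rw [inner_eq, inner_eq, Fin.sum_univ_succ]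
  simp

theorem inner_e0_inc {q : ℕ} (v : ES (q + 1)) : ⟪(e0 : ES (q + 2)), inc v⟫_ℝ = 0 := by
  rw [inner_eq, Fin.sum_univ_succ]
  simp

theorem inner_e0_e0 {q : ℕ} : ⟪(e0 : ES (q + 2)), e0⟫_ℝ = 1 := by
  rw [inner_eq, Fin.sum_univ_succ]
  simp

theorem norm_e0 {q : ℕ} : ‖(e0 : ES (q + 2))‖ = 1 := by
  have h : ‖(e0 : ES (q + 2))‖ ^ 2 = 1 := by
    rw [← real_inner_self_eq_norm_sq]; exact inner_e0_e0
  nlinarith [norm_nonneg (e0 : ES (q + 2))]

theorem op_inc {q : ℕ} {D : Fin (q + 2) → ℝ} {J : Matrix (Fin (q + 2)) (Fin (q + 2)) ℝ}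
    (h : Iso D J) (x : ℝ) (v : ES (q + 1)) :
    op (Mxy D J x 0) (inc v) = inc (op (rest (Mxy D J x 0)) v) := by
  ext i
  rw [op_apply, Fin.sum_univ_succ]
  refine Fin.cases ?_ (fun i => ?_) i
  · simp only [inc_zero, mul_zero, zero_add, inc_succ]
    refine Finset.sum_eq_zero fun j _ => ?_
    have : Mxy D J x 0 0 j.succ = 0 := by
      simp [Mxy, h.iso j, Matrix.diagonal_apply, (Fin.succ_ne_zero j).symm]
    rw [this, zero_mul]
  · simp only [inc_zero, mul_zero, zero_add, inc_succ, op_apply]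
    rfl

theorem op_e0 {q : ℕ} {D : Fin (q + 2) → ℝ} {J : Matrix (Fin (q + 2)) (Fin (q + 2)) ℝ}
    (h : Iso D J) (x : ℝ) :
    op (Mxy D J x 0) e0 = (x * D 0 + J 0 0) • (e0 : ES (q + 2)) := by
  ext i
  rw [op_apply, Fin.sum_univ_succ]
  simp only [e0_zero, mul_one, e0_succ, mul_zero, Finset.sum_const_zero, add_zero]
  refine Fin.cases ?_ (fun i => ?_) i
  · simp [Mxy]
  · have : J i.succ 0 = 0 := by rw [h.symm]; exact h.iso i
    simp [Mxy, this, Matrix.diagonal_apply]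

theorem tri_rest {q : ℕ} {D : Fin (q + 2) → ℝ} {J : Matrix (Fin (q + 2)) (Fin (q + 2)) ℝ}
    (h : Iso D J) (x : ℝ) : Tri (rest (Mxy D J x 0)) where
  symm := fun i j => by
    have := h.symm i.succ j.succ
    simp only [rest, Mxy, Matrix.add_apply, Matrix.smul_apply, this, zero_smul]
    rw [Matrix.diagonal_apply, Matrix.diagonal_apply]
    by_cases hij : i = j
    · subst hij; rfl
    · have h1 : i.succ ≠ j.succ := fun hh => hij (Fin.succ_injective _ hh)
      simp [h1, h1.symm]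
  far := fun i j hij => by
    have h0 := h.tri.far i j hij
    have h1 : i.succ ≠ j.succ := fun hh => by
      have := Fin.succ_injective _ hh
      subst this
      omega
    simp only [rest] at h0
    simp [rest, Mxy, h0, Matrix.diagonal_apply, h1]
  link := fun i j hij => by
    have h0 := h.tri.link i j hij
    have h1 : i.succ ≠ j.succ := fun hh => by
      have := Fin.succ_injective _ hh
      subst this
      omega
    simp only [rest] at h0
    simpa [rest, Mxy, Matrix.diagonal_apply, h1] using h0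

theorem inner_diag_inc {q : ℕ} (D : Fin (q + 2) → ℝ) (v w : ES (q + 1)) :
    ⟪op (Matrix.diagonal D) (inc v), inc w⟫_ℝ = ∑ i, D i.succ * v i * w i := by
  rw [inner_eq, Fin.sum_univ_succ]
  simp [op_apply, Matrix.diagonal_apply]

theorem inner_diag_e0_inc {q : ℕ} (D : Fin (q + 2) → ℝ) (v : ES (q + 1)) :
    ⟪op (Matrix.diagonal D) e0, inc v⟫_ℝ = 0 := by
  rw [inner_eq, Fin.sum_univ_succ]
  simp [op_apply, Matrix.diagonal_apply]

theorem inner_diag_e0_e0 {q : ℕ} (D : Fin (q + 2) → ℝ) :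
    ⟪op (Matrix.diagonal D) (e0 : ES (q + 2)), e0⟫_ℝ = D 0 := by
  rw [inner_eq, Fin.sum_univ_succ]
  simp [op_apply, Matrix.diagonal_apply]

theorem op_Y_inc {q : ℕ} (v : ES (q + 1)) : op (Y01 q) (inc v) = (v 0) • e0 := by
  ext i
  rw [op_apply, Fin.sum_univ_succ, Fin.sum_univ_succ]
  have h1 : (Fin.succ (0 : Fin (q + 1))) = (1 : Fin (q + 2)) := rfl
  simp only [inc_zero, mul_zero, zero_add, inc_succ]
  refine Fin.cases ?_ (fun i => ?_) i
  · have : ∑ j : Fin q, Y01 q 0 j.succ.succ * v j.succ = 0 := by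
      refine Finset.sum_eq_zero fun j _ => ?_
      have : Y01 q 0 j.succ.succ = 0 := by
        unfold Y01
        rw [if_neg]
        rintro (⟨_, h⟩ | ⟨h, _⟩)
        · rw [← h1] at h
          exact Fin.succ_ne_zero _ (Fin.succ_injective _ h)
        · rw [← h1] at h
          exact Fin.succ_ne_zero _ h.symm
      rw [this, zero_mul]
    rw [this, h1]
    simp [Y01]
  · have hz : ∀ j : Fin (q + 1), Y01 q i.succ j.succ = 0 := by
      intro j
      unfold Y01
      rw [if_neg]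
      rintro (⟨h, _⟩ | ⟨_, h⟩)
      · exact Fin.succ_ne_zero _ h
      · exact Fin.succ_ne_zero _ h
    rw [hz 0]
    simp only [hz]
    simp

theorem Y01_symm (q : ℕ) (i j : Fin (q + 2)) : Y01 q i j = Y01 q j i := by
  unfold Y01
  by_cases h : (i = 0 ∧ j = 1) ∨ (i = 1 ∧ j = 0)
  · rw [if_pos h, if_pos (by tauto)]
  · rw [if_neg h, if_neg (by tauto)]

theorem op_Y_e0_inner {q : ℕ} (v : ES (q + 1)) : ⟪op (Y01 q) e0, inc v⟫_ℝ = v 0 := by
  rw [op_symm (Y01_symm q), op_Y_inc, inner_smul_right, inner_e0_e0, mul_one]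

theorem e0_one {q : ℕ} : (e0 : ES (q + 2)) 1 = 0 := e0_succ 0

theorem op_Y_e0_e0 {q : ℕ} : ⟪op (Y01 q) e0, (e0 : ES (q + 2))⟫_ℝ = 0 := by
  rw [inner_eq, Fin.sum_univ_succ]
  simp [op_apply, Y01, Fin.sum_univ_succ, e0_one]

end Crest.Agent.R202.Jac
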