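import Crest.Agent.R202.JacWin

/-!
# Row 202, matrix part: the window theorem with isolated LAST label, and openness lemmas
-/

set_option autoImplicit false

open Filter Topology Module Matrix
open scoped InnerProductSpace

noncomputable section

namespace Crest.Agent.R202.Jac

theorem SepF.map {E E' : Type*} [NormedAddCommGroup E] [InnerProductSpace ℝ E]
    [NormedAddCommGroup E'] [InnerProductSpace ℝ E'] (R : E ≃ₗᵢ[ℝ] E') {T : E →L[ℝ] E}
    {T' : E' →L[ℝ] E'} (hT : ∀ v, T' (R v) = R (T v)) {l : ℕ} {F : Fin l → E} {A B : ℝ}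
    (h : SepF T F A B) : SepF T' (fun i => R (F i)) A B := by
  have hq : ∀ v', ⟪T' v', v'⟫_ℝ = ⟪T (R.symm v'), R.symm v'⟫_ℝ := by
    intro v'
    have : T' v' = R (T (R.symm v')) := by rw [← hT, R.apply_symm_apply]
    rw [this]
    conv_lhs => rw [← R.apply_symm_apply v']
    rw [R.inner_map_map, R.symm_apply_apply]
  refine ⟨?_, h.lt, ?_, ?_⟩
  · exact h.li.map' R.toLinearEquiv.toLinearMap (LinearEquiv.ker _)
  · intro w hw
    rw [hq]
    have h1 : R.symm w ∈ Submodule.span ℝ (Set.range F) := by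
      have : Set.range (fun i => R (F i)) = R.toLinearEquiv.toLinearMap '' Set.range F := by
        rw [← Set.range_comp]; rfl
      rw [this, ← Submodule.map_span] at hw
      obtain ⟨u, hu, rfl⟩ := hw
      have : R.symm (R.toLinearEquiv.toLinearMap u) = u := R.symm_apply_apply u
      rw [this]
      exact hu
    have := h.le _ h1
    rwa [R.symm.norm_map] at this
  · intro v hv
    rw [hq]
    have := h.ge (R.symm v) (fun i => by
      rw [← R.inner_map_map, R.apply_symm_apply]; exact hv i)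
    rwa [R.symm.norm_map] at this

/-- reversal of coordinates -/
def rv (n : ℕ) : ES n ≃ₗᵢ[ℝ] ES n := LinearIsometryEquiv.piLpCongrLeft 2 ℝ ℝ Fin.revPerm

theorem rv_apply {n : ℕ} (v : ES n) (i : Fin n) : rv n v i = v (Fin.rev i) := by
  simp [rv, LinearIsometryEquiv.piLpCongrLeft_apply, Equiv.piCongrLeft']

theorem op_rev {n : ℕ} (J : Matrix (Fin n) (Fin n) ℝ) (v : ES n) :
    op (J.submatrix Fin.rev Fin.rev) (rv n v) = rv n (op J v) := by
  ext i
  rw [op_apply, rv_apply, op_apply]
  simp only [rv_apply, Matrix.submatrix_apply]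
  exact Fintype.sum_equiv Fin.revPerm _ _ (fun j => by simp)

theorem op_rev' {n : ℕ} (J : Matrix (Fin n) (Fin n) ℝ) (v : ES n) :
    op J (rv n v) = rv n (op (J.submatrix Fin.rev Fin.rev) v) := by
  have := op_rev (J.submatrix Fin.rev Fin.rev) v
  rw [Matrix.submatrix_submatrix] at this
  have e : (Fin.rev ∘ Fin.rev : Fin n → Fin n) = id := by
    funext i; simp
  rw [e, Matrix.submatrix_id_id] at this
  exact this

/-- link matrix of the two last labels -/
def Ytop (q : ℕ) : Matrix (Fin (q + 2)) (Fin (q + 2)) ℝ := (Y01 q).submatrix Fin.rev Fin.rev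

/-- the pencil with the last link `y` -/
def MT {q : ℕ} (D : Fin (q + 2) → ℝ) (J : Matrix (Fin (q + 2)) (Fin (q + 2)) ℝ) (x y : ℝ) :
    Matrix (Fin (q + 2)) (Fin (q + 2)) ℝ := x • Matrix.diagonal D + J + y • Ytop q

/-- hypotheses: last label isolated, all other links nonzero, `D` maximal at the last label -/
structure IsoT {q : ℕ} (D : Fin (q + 2) → ℝ) (J : Matrix (Fin (q + 2)) (Fin (q + 2)) ℝ) : Prop where
  lt : ∀ i : Fin (q + 1), D i.castSucc < D (Fin.last _)
  symm : ∀ i j, J i j = J j i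
  iso : ∀ i : Fin (q + 1), J (Fin.last _) i.castSucc = 0
  far : ∀ i j : Fin (q + 1), i.1 + 2 ≤ j.1 → J i.castSucc j.castSucc = 0
  link : ∀ i j : Fin (q + 1), i.1 + 1 = j.1 → J i.castSucc j.castSucc ≠ 0

theorem IsoT.iso' {q : ℕ} {D : Fin (q + 2) → ℝ} {J : Matrix (Fin (q + 2)) (Fin (q + 2)) ℝ}
    (h : IsoT D J) : Iso (fun i => -D (Fin.rev i)) (J.submatrix Fin.rev Fin.rev) where
  lt := fun i => by
    simp only [Fin.rev_zero]
    rw [Fin.rev_succ]
    exact neg_lt_neg (h.lt _)
  symm := fun i j => h.symm _ _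
  iso := fun i => by
    simp only [Matrix.submatrix_apply, Fin.rev_zero]
    rw [Fin.rev_succ]
    exact h.iso _
  tri := by
    refine ⟨fun i j => h.symm _ _, fun i j hij => ?_, fun i j hij => ?_⟩
    · simp only [rest, Matrix.submatrix_apply, Fin.rev_succ]
      rw [h.symm]
      apply h.far
      simp only [Fin.val_rev]
      have := i.2; have := j.2
      omega
    · simp only [rest, Matrix.submatrix_apply, Fin.rev_succ]
      rw [h.symm]
      apply h.link
      simp only [Fin.val_rev]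
      have := i.2; have := j.2
      omega

theorem MT_eq {q : ℕ} (D : Fin (q + 2) → ℝ) (J : Matrix (Fin (q + 2)) (Fin (q + 2)) ℝ) (x y : ℝ) :
    (MT D J x y).submatrix Fin.rev Fin.rev
      = Mxy (fun i => -D (Fin.rev i)) (J.submatrix Fin.rev Fin.rev) (-x) y := by
  ext i j
  simp only [MT, Mxy, Ytop, Matrix.submatrix_apply, Matrix.add_apply, Matrix.smul_apply,
    Fin.rev_rev, Matrix.diagonal_apply, Fin.rev_inj, smul_eq_mul]
  by_cases hij : i = j
  · simp [hij]
  · simp [hij]

/-- last coordinate vector -/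
def eL {q : ℕ} : ES (q + 2) := EuclideanSpace.single (Fin.last _) 1

theorem rv_e0 {q : ℕ} : rv (q + 2) e0 = eL := by
  ext i
  rw [rv_apply]
  simp only [e0, eL]
  by_cases h : i = Fin.last _
  · subst h; simp
  · have : Fin.rev i ≠ 0 := fun hh => h (by rw [← Fin.rev_rev i, hh, Fin.rev_zero])
    simp [h, this]

/-- rotating trial frame: `u_1, …, u_k, cos α • B - κ sin α • E` -/
def rotF {E : Type*} [NormedAddCommGroup E] [InnerProductSpace ℝ E] {k : ℕ} (u : Fin k → E)
    (B e : E) (α κ : ℝ) : Fin (k + 1) → E :=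
  Fin.snoc u (Real.cos α • B - (κ * Real.sin α) • e)

theorem rv_frm {q : ℕ} (b : Fin (q + 1) → ES (q + 1)) (k : Fin (q + 1)) (α κ : ℝ) :
    (fun i => rv (q + 2) (frm b k α κ i))
      = rotF (fun i : Fin k.1 => rv (q + 2) (inc (b ⟨i.1, by have := k.2; have := i.2; omega⟩)))
        (rv (q + 2) (inc (b k))) eL α κ := by
  funext i
  unfold rotF frm
  refine Fin.lastCases ?_ (fun i => ?_) i
  · rw [Fin.snoc_last]
    simp only [Fin.val_last, lt_irrefl, dite_false, ff, map_sub, map_smul, rv_e0]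
  · rw [Fin.snoc_castSucc]
    have : i.castSucc.1 < k.1 := i.2
    simp only [this, dite_true]
    rfl

/-- **window theorem**, last label isolated; the cut is `k + 1`, `0 ≤ k ≤ q` -/
theorem windowT {q : ℕ} {D : Fin (q + 2) → ℝ} {J : Matrix (Fin (q + 2)) (Fin (q + 2)) ℝ}
    (h : IsoT D J) (k : ℕ) (hk : k ≤ q) :
    ∃ (xc : ℝ) (u : Fin k → ES (q + 2)) (B : ES (q + 2)) (η₀ : ℝ),
      Orthonormal ℝ (Fin.snoc (Fin.snoc u B) eL : Fin (k + 2) → ES (q + 2)) ∧ 0 < η₀ ∧
      ∀ η, 0 < η → η ≤ η₀ → ∃ y₀ : ℝ, 0 < y₀ ∧ ∀ ybar, 0 < ybar → ybar ≤ y₀ → ∃ δ : ℝ, 0 < δ ∧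
        (∀ y κ : ℝ, |y| ≤ ybar → (κ = 1 ∨ κ = -1) →
          ∃ A, SepF (op (MT D J (xc + η) y)) (rotF u B eL 0 κ) A (A + δ)) ∧
        (∀ y κ : ℝ, |y| ≤ ybar → (κ = 1 ∨ κ = -1) →
          ∃ A, SepF (op (MT D J (xc - η) y)) (rotF u B eL (Real.pi / 2) κ) A (A + δ)) ∧
        (∀ t κ : ℝ, |t| ≤ 1 → (κ = 1 ∨ κ = -1) →
          ∃ A, SepF (op (MT D J (xc - t * η) (κ * ybar)))
            (rotF u B eL (Real.pi / 4 * (1 + t)) κ) A (A + δ)) ∧
        (∀ l : ℕ, 1 ≤ l → l ≤ q + 1 → l ≠ k + 1 → ∀ x y, |x - xc| ≤ η → |y| ≤ ybar →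
          ∃ (F : Fin l → ES (q + 2)) (A : ℝ), SepF (op (MT D J x y)) F A (A + δ)) := by
  have hkq : k < q + 1 := by omega
  obtain ⟨xc, b, η₀, hη₀, H⟩ := window h.iso' ⟨k, hkq⟩
  have hmap : ∀ x y v, op (MT D J x y) (rv (q + 2) v)
      = rv (q + 2) (op (Mxy (fun i => -D (Fin.rev i)) (J.submatrix Fin.rev Fin.rev) (-x) y) v) := by
    intro x y v
    rw [op_rev', MT_eq]
  refine ⟨-xc, fun i => rv (q + 2) (inc (b ⟨i.1, by have := i.2; omega⟩)),
    rv (q + 2) (inc (b ⟨k, hkq⟩)), η₀, ?_, hη₀, ?_⟩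
  · rw [orthonormal_iff_ite]
    have hbb : ∀ i j : Fin (q + 1), ⟪rv (q + 2) (inc (b i)), rv (q + 2) (inc (b j))⟫_ℝ
        = if i = j then 1 else 0 := by
      intro i j
      rw [LinearIsometryEquiv.inner_map_map, inner_inc]
      exact orthonormal_iff_ite.1 b.orthonormal i j
    have hbe : ∀ i : Fin (q + 1), ⟪rv (q + 2) (inc (b i)), eL⟫_ℝ = 0 := by
      intro i
      rw [← rv_e0, LinearIsometryEquiv.inner_map_map, real_inner_comm]
      exact inner_e0_inc _
    have hee : ⟪(eL : ES (q + 2)), eL⟫_ℝ = 1 := by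
      rw [← rv_e0, LinearIsometryEquiv.inner_map_map]
      exact inner_e0_e0
    intro i j
    refine Fin.lastCases ?_ (fun i => ?_) i
    · refine Fin.lastCases ?_ (fun j => ?_) j
      · simp only [Fin.snoc_last, hee, if_true]
      · rw [Fin.snoc_last, Fin.snoc_castSucc]
        have hne : (Fin.last (k + 1)) ≠ j.castSucc := (Fin.castSucc_lt_last j).ne'
        rw [if_neg hne, real_inner_comm]
        refine Fin.lastCases ?_ (fun j => ?_) j
        · rw [Fin.snoc_last]; exact hbe _
        · rw [Fin.snoc_castSucc]; exact hbe _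
    · refine Fin.lastCases ?_ (fun j => ?_) j
      · rw [Fin.snoc_last, Fin.snoc_castSucc]
        have hne : i.castSucc ≠ (Fin.last (k + 1)) := (Fin.castSucc_lt_last i).ne
        rw [if_neg hne]
        refine Fin.lastCases ?_ (fun i => ?_) i
        · rw [Fin.snoc_last]; exact hbe _
        · rw [Fin.snoc_castSucc]; exact hbe _
      · rw [Fin.snoc_castSucc, Fin.snoc_castSucc]
        refine Fin.lastCases ?_ (fun i => ?_) i
        · refine Fin.lastCases ?_ (fun j => ?_) j
          · simp only [Fin.snoc_last, if_true]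
            rw [hbb]; simp
          · rw [Fin.snoc_last, Fin.snoc_castSucc, hbb]
            have h1 : (⟨k, hkq⟩ : Fin (q + 1)) ≠ ⟨j.1, by have := j.2; omega⟩ := by
              intro hh
              have := congrArg Fin.val hh
              have := j.2
              simp at *
              omega
            rw [if_neg h1, if_neg]
            intro hh
            have := congrArg Fin.val hh
            simp at this
            have := j.2
            omega
        · refine Fin.lastCases ?_ (fun j => ?_) j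
          · rw [Fin.snoc_last, Fin.snoc_castSucc, hbb]
            have h1 : (⟨i.1, by have := i.2; omega⟩ : Fin (q + 1)) ≠ ⟨k, hkq⟩ := by
              intro hh
              have := congrArg Fin.val hh
              have := i.2
              simp at *
              omega
            rw [if_neg h1, if_neg]
            intro hh
            have := congrArg Fin.val hh
            simp at this
            have := i.2
            omega
          · rw [Fin.snoc_castSucc, Fin.snoc_castSucc, hbb]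
            by_cases hij : i = j
            · subst hij; simp
            · have h1 : (⟨i.1, by have := i.2; omega⟩ : Fin (q + 1))
                  ≠ ⟨j.1, by have := j.2; omega⟩ := by
                intro hh
                exact hij (Fin.ext (by simpa using congrArg Fin.val hh))
              rw [if_neg h1, if_neg]
              intro hh
              apply hij
              have := congrArg Fin.val hh
              exact Fin.ext (by simpa using this)
  · intro η hη hηη
    obtain ⟨y₀, hy₀, H1⟩ := H η hη hηη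
    refine ⟨y₀, hy₀, fun ybar hy hyy => ?_⟩
    obtain ⟨δ, hδ, hL, hR, hT, hO⟩ := H1 ybar hy hyy
    refine ⟨δ, hδ, ?_, ?_, ?_, ?_⟩
    · intro y κ hyb hκ
      obtain ⟨A, hA⟩ := hL y κ hyb hκ
      refine ⟨A, ?_⟩
      have := hA.map (rv (q + 2)) (T' := op (MT D J (-xc + η) y)) (fun v => by
        rw [hmap, show -(-xc + η) = xc - η by ring])
      rw [rv_frm] at this
      exact this
    · intro y κ hyb hκ
      obtain ⟨A, hA⟩ := hR y κ hyb hκ
      refine ⟨A, ?_⟩
      have := hA.map (rv (q + 2)) (T' := op (MT D J (-xc - η) y)) (fun v => by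
        rw [hmap, show -(-xc - η) = xc + η by ring])
      rw [rv_frm] at this
      exact this
    · intro t κ ht hκ
      obtain ⟨A, hA⟩ := hT t κ ht hκ
      refine ⟨A, ?_⟩
      have := hA.map (rv (q + 2)) (T' := op (MT D J (-xc - t * η) (κ * ybar))) (fun v => by
        rw [hmap, show -(-xc - t * η) = xc + t * η by ring])
      rw [rv_frm] at this
      exact this
    · intro l hl hl' hlk x y hx hyb
      obtain ⟨F, A, hA⟩ := hO l hl hl' hlk (-x) y (by
        rw [show -x - xc = -(x - -xc) by ring, abs_neg]; exact hx) hyb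
      refine ⟨fun i => rv (q + 2) (F i), A, ?_⟩
      exact hA.map (rv (q + 2)) (fun v => hmap x y v)

/-- all cuts of a Jacobi matrix with nonzero links are open -/
theorem Tri.sep {p : ℕ} {J : Matrix (Fin (p + 1)) (Fin (p + 1)) ℝ} (hJ : Tri J) {l : ℕ}
    (hl : 1 ≤ l) (hl' : l ≤ p) : ∃ (F : Fin l → ES (p + 1)) (A B : ℝ), SepF (op J) F A B := by
  obtain ⟨b, μ, hμ, hb, -⟩ := hJ.exists_basis
  have h1 : l - 1 < p + 1 := by omega
  have h2 : l < p + 1 := by omega
  refine ⟨_, μ ⟨l - 1, h1⟩, μ ⟨l, h2⟩, sepF_of_basis (l := l) (by omega) b hb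
    (hμ (by rw [Fin.lt_def]; simp; omega)) ?_ ?_⟩
  · intro i hi
    exact hμ.monotone (by rw [Fin.le_def]; simp; omega)
  · intro i hi
    exact hμ.monotone (by rw [Fin.le_def]; simpa using hi)

/-- all cuts of a diagonal matrix with strictly increasing entries are open -/
theorem diag_sep {p : ℕ} {D : Fin (p + 1) → ℝ} (hD : StrictMono D) {l : ℕ}
    (hl : 1 ≤ l) (hl' : l ≤ p) :
    ∃ (F : Fin l → ES (p + 1)) (A B : ℝ), SepF (op (Matrix.diagonal D)) F A B := by
  have h1 : l - 1 < p + 1 := by omega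
  have h2 : l < p + 1 := by omega
  refine ⟨_, D ⟨l - 1, h1⟩, D ⟨l, h2⟩, sepF_of_basis (l := l) (by omega)
    (EuclideanSpace.basisFun (Fin (p + 1)) ℝ) (μ := D) ?_
    (hD (by rw [Fin.lt_def]; simp; omega)) ?_ ?_⟩
  · intro i
    ext j
    rw [op_apply]
    simp [Matrix.diagonal_apply, EuclideanSpace.basisFun_apply, Pi.single_apply, eq_comm]
    by_cases hij : i = j
    · subst hij; simp
    · simp [hij]
  · intro i hi
    exact hD.monotone (by rw [Fin.le_def]; simp; omega)
  · intro i hi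
    exact hD.monotone (by rw [Fin.le_def]; simpa using hi)

/-- compactness: uniform gap -/
theorem uniform_gap {X : Type*} [TopologicalSpace X] {E : Type*} [NormedAddCommGroup E]
    [InnerProductSpace ℝ E] {K : Set X} (hK : IsCompact K) {T : X → E →L[ℝ] E}
    (hT : ContinuousOn T K) {l : ℕ} (h : ∀ x ∈ K, ∃ (F : Fin l → E) (A B : ℝ), SepF (T x) F A B) :
    ∃ δ : ℝ, 0 < δ ∧ ∀ x ∈ K, ∃ (F : Fin l → E) (A : ℝ), SepF (T x) F A (A + δ) := by
  refine hK.induction_on (p := fun s => ∃ δ : ℝ, 0 < δ ∧ ∀ x ∈ s ∩ K,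
    ∃ (F : Fin l → E) (A : ℝ), SepF (T x) F A (A + δ)) ?_ ?_ ?_ ?_ |>.imp
    (fun δ hδ => ⟨hδ.1, fun x hx => hδ.2 x ⟨hx, hx⟩⟩)
  · exact ⟨1, one_pos, fun x hx => absurd hx.1 (Set.notMem_empty x)⟩
  · rintro s t hst ⟨δ, hδ, H⟩
    exact ⟨δ, hδ, fun x hx => H x ⟨hst hx.1, hx.2⟩⟩
  · rintro s t ⟨δ, hδ, H⟩ ⟨δ', hδ', H'⟩
    refine ⟨min δ δ', lt_min hδ hδ', fun x hx => ?_⟩
    rcases hx.1 with h1 | h1
    · obtain ⟨F, A, hF⟩ := H x ⟨h1, hx.2⟩
      exact ⟨F, A, hF.weaken le_rfl (by linarith [min_le_left δ δ'])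
        (by linarith [lt_min hδ hδ'])⟩
    · obtain ⟨F, A, hF⟩ := H' x ⟨h1, hx.2⟩
      exact ⟨F, A, hF.weaken le_rfl (by linarith [min_le_right δ δ'])
        (by linarith [lt_min hδ hδ'])⟩
  · intro x hx
    obtain ⟨F, A, B, hF⟩ := h x hx
    have hAB := hF.lt
    set ε := (B - A) / 4 with hε
    have hε0 : 0 < ε := by rw [hε]; linarith
    have hc : ∀ᶠ z in 𝓝[K] x, ‖T z - T x‖ < ε := by
      have h2 : Tendsto (fun z => ‖T z - T x‖) (𝓝[K] x) (𝓝 ‖T x - T x‖) :=
        ((hT x hx).sub tendsto_const_nhds).norm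
      rw [sub_self, norm_zero] at h2
      exact h2.eventually (gt_mem_nhds hε0)
    refine ⟨{z | ‖T z - T x‖ < ε}, hc, 2 * ε, by positivity, ?_⟩
    rintro z ⟨hz, _⟩
    have h3 := hF.perturb_norm (T' := T z) (ε := ε) (le_of_lt hz) (by rw [hε]; linarith)
    exact ⟨F, A + ε, h3.weaken le_rfl (by rw [hε]; linarith) (by linarith)⟩

end Crest.Agent.R202.Jac
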