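import Crest.Agent.R202.JacFrame2

/-!
# Row 202, matrix part: the window theorem (isolated first label)
-/

set_option autoImplicit false

open Filter Topology Module Matrix
open scoped InnerProductSpace

noncomputable section

namespace Crest.Agent.R202.Jac

theorem sepF_of_inj {E : Type*} [NormedAddCommGroup E] [InnerProductSpace ℝ E]
    {ι : Type*} [Fintype ι] (b : OrthonormalBasis ι ℝ E)
    {T : E →L[ℝ] E} {μ : ι → ℝ} (hb : ∀ i, T (b i) = μ i • b i) {l : ℕ} (σ : Fin l → ι)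
    (hσ : Function.Injective σ) {A B : ℝ} (hAB : A < B)
    (hA : ∀ i, μ (σ i) ≤ A) (hB : ∀ j, j ∉ Set.range σ → B ≤ μ j) :
    SepF T (fun i => b (σ i)) A B := by
  have hT : ∀ v, ⟪T v, v⟫_ℝ = ∑ i, μ i * ⟪b i, v⟫_ℝ ^ 2 := by
    intro v
    have h1 : T v = ∑ i, (μ i * ⟪b i, v⟫_ℝ) • b i := by
      conv_lhs => rw [← b.sum_repr' v]
      rw [map_sum]
      refine Finset.sum_congr rfl fun i _ => ?_
      rw [map_smul, hb i, smul_smul, mul_comm]
    rw [h1, sum_inner]
    refine Finset.sum_congr rfl fun i _ => ?_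
    rw [inner_smul_left]
    simp
    ring
  have hn : ∀ v, ‖v‖ ^ 2 = ∑ i, ⟪b i, v⟫_ℝ ^ 2 := by
    intro v
    have := b.sum_sq_norm_inner_right v
    rw [← this]
    refine Finset.sum_congr rfl fun i _ => ?_
    rw [Real.norm_eq_abs, sq_abs]
  refine ⟨b.orthonormal.linearIndependent.comp _ hσ, hAB, ?_, ?_⟩
  · intro w hw
    have h0 : ∀ j, j ∉ Set.range σ → ⟪b j, w⟫_ℝ = 0 := by
      intro j hj
      induction hw using Submodule.span_induction with
      | mem x hx =>
        obtain ⟨i, rfl⟩ := hx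
        exact b.orthonormal.2 (fun h => hj ⟨i, h.symm⟩)
      | zero => simp
      | add x y _ _ hx hy => rw [inner_add_right, hx, hy, add_zero]
      | smul a x _ hx => rw [inner_smul_right, hx, mul_zero]
    rw [hT, hn, Finset.mul_sum]
    refine Finset.sum_le_sum fun i _ => ?_
    by_cases hi : i ∈ Set.range σ
    · obtain ⟨j, rfl⟩ := hi
      exact mul_le_mul_of_nonneg_right (hA j) (sq_nonneg _)
    · rw [h0 i hi]; simp
  · intro v hv
    rw [hT, hn, Finset.mul_sum]
    refine Finset.sum_le_sum fun i _ => ?_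
    by_cases hi : i ∈ Set.range σ
    · obtain ⟨j, rfl⟩ := hi
      have : ⟪b (σ j), v⟫_ℝ = 0 := hv j
      rw [this]; simp
    · exact mul_le_mul_of_nonneg_right (hB i hi) (sq_nonneg _)

section

variable {q : ℕ}

/-- orthonormal basis `e0, inc b_i` -/
theorem exists_full_basis (b : OrthonormalBasis (Fin (q + 1)) ℝ (ES (q + 1))) :
    ∃ u : OrthonormalBasis (Fin (q + 2)) ℝ (ES (q + 2)), u 0 = e0 ∧ ∀ i, u i.succ = inc (b i) := by
  have hon : Orthonormal ℝ (Fin.cons e0 (fun i => inc (b i)) : Fin (q + 2) → ES (q + 2)) := by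
    rw [orthonormal_iff_ite]
    intro i j
    refine Fin.cases ?_ (fun i => ?_) i
    · refine Fin.cases ?_ (fun j => ?_) j
      · simp [norm_e0]
      · simp [inner_e0_inc, (Fin.succ_ne_zero j).symm]
    · refine Fin.cases ?_ (fun j => ?_) j
      · simp only [Fin.cons_succ, Fin.cons_zero]
        rw [real_inner_comm, inner_e0_inc]
        simp
      · simp only [Fin.cons_succ, inner_inc]
        rw [orthonormal_iff_ite.1 b.orthonormal i j]
        simp
  have hsp : ⊤ ≤ Submodule.span ℝ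
      (Set.range (Fin.cons e0 (fun i => inc (b i)) : Fin (q + 2) → ES (q + 2))) := by
    rw [hon.linearIndependent.span_eq_top_of_card_eq_finrank (by simp)]
  refine ⟨OrthonormalBasis.mk hon hsp, ?_, fun i => ?_⟩
  · rw [OrthonormalBasis.coe_mk]; rfl
  · rw [OrthonormalBasis.coe_mk]; rfl

variable {D : Fin (q + 2) → ℝ} {J : Matrix (Fin (q + 2)) (Fin (q + 2)) ℝ}
  {b : OrthonormalBasis (Fin (q + 1)) ℝ (ES (q + 1))} {k : Fin (q + 1)}

/-- at the crossing point every other cut is open -/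
theorem sep_others (h : Iso D J) {xc : ℝ} {μ : Fin (q + 1) → ℝ} (hμ : StrictMono μ)
    (hb : ∀ i, op (rest (Mxy D J xc 0)) (b i) = μ i • b i) (hk : μ k = xc * D 0 + J 0 0)
    {g : ℝ} (hg : 0 < g) (hgap : ∀ i j, i ≠ j → g ≤ |μ i - μ j|) {l : ℕ} (hl : 1 ≤ l)
    (hl' : l ≤ q + 1) (hlk : l ≠ k.1 + 1) :
    ∃ (F : Fin l → ES (q + 2)) (A : ℝ), SepF (op (Mxy D J xc 0)) F A (A + g) := by
  obtain ⟨u, hu0, hus⟩ := exists_full_basis b
  have hu : ∀ i, op (Mxy D J xc 0) (u i) = (Fin.cons (μ k) μ : Fin (q + 2) → ℝ) i • u i := by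
    intro i
    refine Fin.cases ?_ (fun i => ?_) i
    · rw [hu0, op_e0 h, Fin.cons_zero, hk]
    · rw [hus, op_inc h, hb, Fin.cons_succ]
      ext j
      refine Fin.cases ?_ (fun j => ?_) j
      · simp
      · simp
  rcases Nat.lt_or_ge l (k.1 + 1) with hlt | hge
  · -- l ≤ k : frame b_0 .. b_{l-1}
    have hlq : l - 1 < q + 1 := by omega
    have hlq' : l < q + 1 := by have := k.2; omega
    refine ⟨fun i => u (Fin.succ ⟨i.1, by have := i.2; omega⟩), μ ⟨l - 1, hlq⟩, ?_⟩
    have hg1 : μ ⟨l - 1, hlq⟩ + g ≤ μ ⟨l, hlq'⟩ := by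
      have h1 : (⟨l - 1, hlq⟩ : Fin (q + 1)) < ⟨l, hlq'⟩ := by
        rw [Fin.lt_def]; simp; omega
      have h2 := hgap _ _ h1.ne'
      rw [abs_of_pos (sub_pos.2 (hμ h1))] at h2
      linarith
    refine sepF_of_inj u hu (fun i : Fin l => Fin.succ ⟨i.1, by have := i.2; omega⟩) ?_
      (by linarith) ?_ ?_
    · intro i j hij
      have := Fin.succ_injective _ hij
      exact Fin.ext (by simpa using congrArg Fin.val this)
    · intro i
      rw [Fin.cons_succ]
      apply hμ.monotone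
      rw [Fin.le_def]
      have := i.2
      simp
      omega
    · intro j hj
      refine le_trans hg1 ?_
      revert hj
      refine Fin.cases ?_ (fun j => ?_) j
      · intro _
        rw [Fin.cons_zero]
        apply hμ.monotone
        rw [Fin.le_def]
        simp
        omega
      · intro hj
        rw [Fin.cons_succ]
        apply hμ.monotone
        rw [Fin.le_def]
        by_contra hcon
        simp only [not_le] at hcon
        exact hj ⟨⟨j.1, hcon⟩, rfl⟩
  · -- l ≥ k + 2 : frame e0, b_0 .. b_{l-2}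
    have hl2 : k.1 + 2 ≤ l := by omega
    have hlq : l - 2 < q + 1 := by omega
    have hlq' : l - 1 < q + 1 := by omega
    have hg1 : μ ⟨l - 2, hlq⟩ + g ≤ μ ⟨l - 1, hlq'⟩ := by
      have h1 : (⟨l - 2, hlq⟩ : Fin (q + 1)) < ⟨l - 1, hlq'⟩ := by
        rw [Fin.lt_def]; simp; omega
      have h2 := hgap _ _ h1.ne'
      rw [abs_of_pos (sub_pos.2 (hμ h1))] at h2
      linarith
    refine ⟨fun i => u (Fin.castLE (by omega) i), μ ⟨l - 2, hlq⟩, ?_⟩
    refine sepF_of_inj u hu (Fin.castLE (by omega)) (Fin.castLE_injective _) (by linarith) ?_ ?_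
    · intro i
      have hi := i.2
      obtain ⟨iv, hiv⟩ := i
      cases iv with
      | zero =>
        have : (Fin.castLE (by omega : l ≤ q + 2) ⟨0, hiv⟩) = 0 := by ext; simp
        rw [this, Fin.cons_zero]
        apply hμ.monotone
        rw [Fin.le_def]
        simp
        omega
      | succ iv =>
        have : (Fin.castLE (by omega : l ≤ q + 2) ⟨iv + 1, hiv⟩)
            = Fin.succ ⟨iv, by omega⟩ := by ext; simp
        rw [this, Fin.cons_succ]
        apply hμ.monotone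
        rw [Fin.le_def]
        simp
        omega
    · intro j hj
      refine le_trans hg1 ?_
      revert hj
      refine Fin.cases ?_ (fun j => ?_) j
      · intro hj
        exact absurd ⟨⟨0, by omega⟩, by ext; simp⟩ hj
      · intro hj
        rw [Fin.cons_succ]
        apply hμ.monotone
        rw [Fin.le_def]
        by_contra hcon
        simp only [not_le] at hcon
        exact hj ⟨⟨j.1 + 1, by omega⟩, by ext; simp⟩

end

set_option maxHeartbeats 1000000 in
/-- the window theorem -/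
theorem window {q : ℕ} {D : Fin (q + 2) → ℝ} {J : Matrix (Fin (q + 2)) (Fin (q + 2)) ℝ}
    (h : Iso D J) (k : Fin (q + 1)) :
    ∃ (xc : ℝ) (b : OrthonormalBasis (Fin (q + 1)) ℝ (ES (q + 1))) (η₀ : ℝ), 0 < η₀ ∧
      ∀ η, 0 < η → η ≤ η₀ → ∃ y₀ : ℝ, 0 < y₀ ∧ ∀ ybar, 0 < ybar → ybar ≤ y₀ → ∃ δ : ℝ, 0 < δ ∧
        (∀ y κ : ℝ, |y| ≤ ybar → (κ = 1 ∨ κ = -1) →
          ∃ A, SepF (op (Mxy D J (xc - η) y)) (frm (fun i => b i) k 0 κ) A (A + δ)) ∧
        (∀ y κ : ℝ, |y| ≤ ybar → (κ = 1 ∨ κ = -1) →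
          ∃ A, SepF (op (Mxy D J (xc + η) y)) (frm (fun i => b i) k (Real.pi / 2) κ) A (A + δ)) ∧
        (∀ t κ : ℝ, |t| ≤ 1 → (κ = 1 ∨ κ = -1) →
          ∃ A, SepF (op (Mxy D J (xc + t * η) (κ * ybar)))
            (frm (fun i => b i) k (Real.pi / 4 * (1 + t)) κ) A (A + δ)) ∧
        (∀ l : ℕ, 1 ≤ l → l ≤ q + 1 → l ≠ k.1 + 1 → ∀ x y, |x - xc| ≤ η → |y| ≤ ybar →
          ∃ (F : Fin l → ES (q + 2)) (A : ℝ), SepF (op (Mxy D J x y)) F A (A + δ)) := by
  obtain ⟨xc, b, μ, hμ, hb, hb0, hk⟩ := exists_cross h k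
  obtain ⟨g, hg, hgap⟩ : ∃ g : ℝ, 0 < g ∧ ∀ i j, i ≠ j → g ≤ |μ i - μ j| := by
    classical
    by_cases hne : (Finset.univ.filter fun p : Fin (q + 1) × Fin (q + 1) => p.1 ≠ p.2).Nonempty
    · obtain ⟨p, hp, hmin⟩ := Finset.exists_min_image _
        (fun p : Fin (q + 1) × Fin (q + 1) => |μ p.1 - μ p.2|) hne
      refine ⟨|μ p.1 - μ p.2|, ?_, fun i j hij => ?_⟩
      · have h1 := (Finset.mem_filter.1 hp).2
        exact abs_pos.2 (sub_ne_zero.2 (fun hh => h1 (hμ.injective hh)))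
      · exact hmin (i, j) (Finset.mem_filter.2 ⟨Finset.mem_univ _, hij⟩)
    · refine ⟨1, one_pos, fun i j hij => ?_⟩
      exact absurd ⟨(i, j), Finset.mem_filter.2 ⟨Finset.mem_univ _, hij⟩⟩ hne
  have hm := mm_pos h (inner_bk_bk b k) (hb0 k)
  have hβ := hb0 k
  have hdD0 : 0 ≤ ‖op (Matrix.diagonal D)‖ := norm_nonneg _
  have hdY0 : 0 ≤ ‖op (Y01 q)‖ := norm_nonneg _
  obtain ⟨m, hmdef⟩ : ∃ m, mm D (b k) = m := ⟨_, rfl⟩
  obtain ⟨β, hβdef⟩ : ∃ β, b k 0 = β := ⟨_, rfl⟩
  obtain ⟨dD, hdD⟩ : ∃ dD, ‖op (Matrix.diagonal D)‖ = dD := ⟨_, rfl⟩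
  obtain ⟨dY, hdY⟩ : ∃ dY, ‖op (Y01 q)‖ = dY := ⟨_, rfl⟩
  rw [hmdef] at hm
  rw [hβdef] at hβ
  rw [hdD] at hdD0
  rw [hdY] at hdY0
  refine ⟨xc, b, min (g / (8 * (dD + 1))) (g * m / (16 * (dD ^ 2 + 1))), by positivity, ?_⟩
  intro η hη hη₀
  have hη1 : 8 * (η * dD) ≤ g := by
    have h1 : η ≤ g / (8 * (dD + 1)) := hη₀.trans (min_le_left _ _)
    rw [le_div_iff₀ (by positivity)] at h1
    nlinarith
  have hη2 : 16 * (η * dD ^ 2) ≤ g * m := by
    have h1 : η ≤ g * m / (16 * (dD ^ 2 + 1)) := hη₀.trans (min_le_right _ _)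
    rw [le_div_iff₀ (by positivity)] at h1
    nlinarith
  refine ⟨min (min (g / (8 * (dY + 1))) (m * η / (2 * β))) (g * β / (16 * (dY ^ 2 + 1))),
    by positivity, ?_⟩
  intro ybar hy hy₀
  have hy1 : 8 * (ybar * dY) ≤ g := by
    have h1 : ybar ≤ g / (8 * (dY + 1)) := hy₀.trans ((min_le_left _ _).trans (min_le_left _ _))
    rw [le_div_iff₀ (by positivity)] at h1
    nlinarith
  have hy2 : 2 * (ybar * β) ≤ m * η := by
    have h1 : ybar ≤ m * η / (2 * β) := hy₀.trans ((min_le_left _ _).trans (min_le_right _ _))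
    rw [le_div_iff₀ (by positivity)] at h1
    nlinarith
  have hy3 : 16 * (ybar * dY ^ 2) ≤ g * β := by
    have h1 : ybar ≤ g * β / (16 * (dY ^ 2 + 1)) := hy₀.trans (min_le_right _ _)
    rw [le_div_iff₀ (by positivity)] at h1
    nlinarith
  set δ := min (min (ybar * β / 2) (m * η / 4)) (g / 2) with hδ
  have hδ0 : 0 < δ := by positivity
  have hδ1 : δ ≤ ybar * β / 2 := (min_le_left _ _).trans (min_le_left _ _)
  have hδ2 : δ ≤ m * η / 4 := (min_le_left _ _).trans (min_le_right _ _)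
  have hδ3 : δ ≤ g / 2 := min_le_right _ _
  -- generic bound for the quadratic error
  have hquad : ∀ τ Y : ℝ, 0 ≤ τ → τ ≤ 1 → 0 ≤ Y → Y ≤ ybar →
      4 * (τ * η * dD + Y * dY) ^ 2 / g ≤ m * η / 2 * τ ^ 2 + ybar * β / 2 := by
    intro τ Y hτ0 hτ1 hY0 hY1
    rw [div_le_iff₀ hg]
    have e1 : (τ * η * dD + Y * dY) ^ 2 ≤ 2 * (τ * η * dD) ^ 2 + 2 * (Y * dY) ^ 2 := by
      nlinarith [sq_nonneg (τ * η * dD - Y * dY)]
    have e2 : 8 * (τ * η * dD) ^ 2 ≤ (m * η / 2 * τ ^ 2) * g := by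
      have : 8 * (τ * η * dD) ^ 2 = (16 * (η * dD ^ 2)) * (η / 2 * τ ^ 2) := by ring
      rw [this]
      have h1 := mul_le_mul_of_nonneg_right hη2 (show 0 ≤ η / 2 * τ ^ 2 by positivity)
      nlinarith
    have e3 : 8 * (Y * dY) ^ 2 ≤ (ybar * β / 2) * g := by
      have h0 : (Y * dY) ^ 2 ≤ (ybar * dY) ^ 2 := by gcongr
      have : 8 * (ybar * dY) ^ 2 = (16 * (ybar * dY ^ 2)) * (ybar / 2) := by ring
      have h1 := mul_le_mul_of_nonneg_right hy3 (show 0 ≤ ybar / 2 by positivity)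
      nlinarith
    nlinarith
  have hν4 : ∀ τ Y : ℝ, 0 ≤ τ → τ ≤ 1 → 0 ≤ Y → Y ≤ ybar →
      4 * (τ * η * dD + Y * dY) ≤ g := by
    intro τ Y hτ0 hτ1 hY0 hY1
    have e1 : τ * η * dD ≤ η * dD := by
      have := mul_le_mul_of_nonneg_right hτ1 (show 0 ≤ η * dD by positivity)
      nlinarith
    have e2 : Y * dY ≤ ybar * dY := by gcongr
    nlinarith
  have hgapk : ∀ i, i ≠ k → g ≤ |μ i - μ k| := fun i hi => hgap i k hi
  refine ⟨δ, hδ0, ?_, ?_, ?_, ?_⟩
  · intro y κ hyb hκ
    have hs := sep_frm (b := b) (k := k) (α := 0) (κ := κ) h hμ.monotone hb hk hg hgapk hκ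
      (x := xc - η) (y := y) (ν := 1 * η * dD + |y| * dY)
      (by
        have : |xc - η - xc| = η := by
          rw [show xc - η - xc = -η by ring, abs_neg, abs_of_pos hη]
        rw [this, hdD, hdY]
        linarith)
      (hν4 1 |y| zero_le_one le_rfl (abs_nonneg _) hyb)
      (by
        have h1 := hquad 1 |y| zero_le_one le_rfl (abs_nonneg _) hyb
        rw [show xc - η - xc = -η by ring, hmdef, hβdef]
        simp only [mul_zero, Real.cos_zero, Real.sin_zero]
        nlinarith)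
    refine ⟨_, hs.weaken le_rfl ?_ (by linarith)⟩
    have hdf := diff_formula D b k (α := 0) (δ := xc - η - xc) (y := y) hκ
    have h1 := hquad 1 |y| zero_le_one le_rfl (abs_nonneg _) hyb
    rw [show (xc - η - xc : ℝ) = -η by ring] at hdf ⊢
    rw [hmdef, hβdef] at hdf
    simp only [mul_zero, Real.cos_zero, Real.sin_zero] at hdf
    have e : 4 * (1 * η * dD + |y| * dY) ^ 2 / g
        = 2 * (1 * η * dD + |y| * dY) ^ 2 / g + 2 * (1 * η * dD + |y| * dY) ^ 2 / g := by ring
    nlinarith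
  · intro y κ hyb hκ
    have h2pi : 2 * (Real.pi / 2) = Real.pi := by ring
    have hs := sep_frm (b := b) (k := k) (α := Real.pi / 2) (κ := κ) h hμ.monotone hb hk hg hgapk hκ
      (x := xc + η) (y := y) (ν := 1 * η * dD + |y| * dY)
      (by
        have : |xc + η - xc| = η := by
          rw [show xc + η - xc = η by ring, abs_of_pos hη]
        rw [this, hdD, hdY]
        linarith)
      (hν4 1 |y| zero_le_one le_rfl (abs_nonneg _) hyb)
      (by
        have h1 := hquad 1 |y| zero_le_one le_rfl (abs_nonneg _) hyb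
        rw [show xc + η - xc = η by ring, h2pi, Real.cos_pi, Real.sin_pi, hmdef, hβdef]
        nlinarith)
    refine ⟨_, hs.weaken le_rfl ?_ (by linarith)⟩
    have hdf := diff_formula D b k (α := Real.pi / 2) (δ := xc + η - xc) (y := y) hκ
    have h1 := hquad 1 |y| zero_le_one le_rfl (abs_nonneg _) hyb
    rw [show (xc + η - xc : ℝ) = η by ring] at hdf ⊢
    rw [h2pi, Real.cos_pi, Real.sin_pi, hmdef, hβdef] at hdf
    have e : 4 * (1 * η * dD + |y| * dY) ^ 2 / g
        = 2 * (1 * η * dD + |y| * dY) ^ 2 / g + 2 * (1 * η * dD + |y| * dY) ^ 2 / g := by ring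
    nlinarith
  · intro t κ ht hκ
    have hκ2 := kap_sq hκ
    have hα : 2 * (Real.pi / 4 * (1 + t)) = Real.pi / 2 * t + Real.pi / 2 := by ring
    have hcos : Real.cos (2 * (Real.pi / 4 * (1 + t))) = -Real.sin (Real.pi / 2 * t) := by
      rw [hα, Real.cos_add_pi_div_two]
    have hsin : Real.sin (2 * (Real.pi / 4 * (1 + t))) = Real.cos (Real.pi / 2 * t) := by
      rw [hα, Real.sin_add_pi_div_two]
    have hts : t ^ 2 ≤ t * Real.sin (Real.pi / 2 * t) := by
      rcases le_total 0 t with h0 | h0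
      · have h1 : t ≤ 1 := (abs_le.1 ht).2
        have h2 := Real.mul_le_sin (x := Real.pi / 2 * t) (by positivity)
          (by nlinarith [Real.pi_pos])
        have h3 : 2 / Real.pi * (Real.pi / 2 * t) = t := by field_simp
        rw [h3] at h2
        nlinarith
      · have h1 : -1 ≤ t := (abs_le.1 ht).1
        have h2 := Real.mul_le_sin (x := Real.pi / 2 * (-t)) (by
          apply mul_nonneg (by positivity); linarith)
          (by nlinarith [Real.pi_pos])
        have h3 : 2 / Real.pi * (Real.pi / 2 * (-t)) = -t := by field_simp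
        rw [h3, show Real.pi / 2 * (-t) = -(Real.pi / 2 * t) by ring, Real.sin_neg] at h2
        nlinarith
    have htc : 1 - |t| ≤ Real.cos (Real.pi / 2 * t) := by
      have h1 := Real.one_sub_mul_le_cos (x := Real.pi / 2 * |t|) (by positivity)
        (by nlinarith [Real.pi_pos, abs_nonneg t])
      have h3 : 2 / Real.pi * (Real.pi / 2 * |t|) = |t| := by field_simp
      rw [h3] at h1
      have h4 : Real.cos (Real.pi / 2 * |t|) = Real.cos (Real.pi / 2 * t) := by
        rcases le_total 0 t with h0 | h0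
        · rw [abs_of_nonneg h0]
        · rw [abs_of_nonpos h0, show Real.pi / 2 * (-t) = -(Real.pi / 2 * t) by ring, Real.cos_neg]
      rwa [h4] at h1
    have habs : |κ * ybar| = ybar := by
      rw [abs_mul]
      rcases hκ with hh | hh <;> rw [hh] <;> simp [abs_of_pos hy]
    have habs' : |xc + t * η - xc| = |t| * η := by
      rw [show xc + t * η - xc = t * η by ring, abs_mul, abs_of_pos hη]
    have hmain : 4 * (|t| * η * dD + ybar * dY) ^ 2 / g + ybar * β / 2
        ≤ -((xc + t * η - xc) * m * Real.cos (2 * (Real.pi / 4 * (1 + t))))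
          + 2 * κ * (κ * ybar) * β * Real.sin (2 * (Real.pi / 4 * (1 + t))) := by
      rw [hcos, hsin, show xc + t * η - xc = t * η by ring]
      have h1 := hquad |t| ybar (abs_nonneg _) ht hy.le le_rfl
      have e1 : 2 * κ * (κ * ybar) * β * Real.cos (Real.pi / 2 * t)
          = 2 * (ybar * β) * Real.cos (Real.pi / 2 * t) := by
        have : 2 * κ * (κ * ybar) * β * Real.cos (Real.pi / 2 * t)
          = κ ^ 2 * (2 * (ybar * β) * Real.cos (Real.pi / 2 * t)) := by ring
        rw [this, hκ2, one_mul]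
      rw [e1]
      have e2 := mul_le_mul_of_nonneg_left hts (show 0 ≤ m * η by positivity)
      have e3 := mul_le_mul_of_nonneg_left htc (show 0 ≤ 2 * (ybar * β) by positivity)
      have e4 : |t| ^ 2 = t ^ 2 := sq_abs t
      have e5 : ybar * β * t ^ 2 ≤ m * η / 2 * t ^ 2 := by
        have := mul_le_mul_of_nonneg_right hy2 (sq_nonneg t)
        nlinarith
      have e6 : 0 ≤ ybar * β * (1 - |t|) ^ 2 := by positivity
      have e7 : ybar * β * (1 - |t|) ^ 2 = ybar * β - 2 * (ybar * β) * |t| + ybar * β * t ^ 2 := by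
        rw [← e4]; ring
      rw [e4] at h1
      nlinarith
    have hs := sep_frm (b := b) (k := k) (α := Real.pi / 4 * (1 + t)) (κ := κ) h hμ.monotone hb hk
      hg hgapk hκ (x := xc + t * η) (y := κ * ybar) (ν := |t| * η * dD + ybar * dY)
      (by rw [habs, habs', hdD, hdY])
      (hν4 |t| ybar (abs_nonneg _) ht hy.le le_rfl)
      (by
        have : 0 < ybar * β / 2 := by positivity
        rw [hmdef, hβdef]
        linarith)
    refine ⟨_, hs.weaken le_rfl ?_ (by linarith)⟩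
    have hdf := diff_formula D b k (α := Real.pi / 4 * (1 + t)) (δ := xc + t * η - xc)
      (y := κ * ybar) hκ
    rw [hmdef, hβdef] at hdf
    have e : 4 * (|t| * η * dD + ybar * dY) ^ 2 / g
        = 2 * (|t| * η * dD + ybar * dY) ^ 2 / g + 2 * (|t| * η * dD + ybar * dY) ^ 2 / g := by ring
    rw [e] at hmain
    linarith
  · intro l hl hl' hlk x y hx hyb
    obtain ⟨F, A, hF⟩ := sep_others h hμ hb hk hg hgap hl hl' hlk
    have hN : ‖op (Mxy D J x y) - op (Mxy D J xc 0)‖ ≤ η * dD + ybar * dY := by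
      rw [op_Mxy D J x xc y, add_sub_cancel_left]
      refine (NN_norm D _ _).trans ?_
      rw [hdD, hdY]
      gcongr
    have hsmall : η * dD + ybar * dY ≤ g / 4 := by linarith
    have := hF.perturb_norm hN (by linarith)
    exact ⟨F, _, this.weaken le_rfl (by linarith) (by linarith)⟩

end Crest.Agent.R202.Jac
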