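import Crest.Agent.R202.Lim2

/-!
# Row 202, part F: weak equations pass to the limit (3)
-/

set_option autoImplicit false
open MeasureTheory Metric Set Filter Topology
open scoped ContDiff
open Crest.GeometryTopology.CoordMetric
open Crest.Agent.R202.Ell (divA)

namespace Crest.Agent.R202.Lim

noncomputable section

variable {n : ℕ}

lemma pderiv_add' {i : Fin n} {f g : EuclideanSpace ℝ (Fin n) → ℝ} {x : EuclideanSpace ℝ (Fin n)}
    (hf : DifferentiableAt ℝ f x) (hg : DifferentiableAt ℝ g x) :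
    pderiv i (fun y => f y + g y) x = pderiv i f x + pderiv i g x := by
  unfold pderiv
  rw [fderiv_fun_add hf hg]; rfl

lemma Q_add {A : EuclideanSpace ℝ (Fin n) → Matrix (Fin n) (Fin n) ℝ}
    {u φ ψ : EuclideanSpace ℝ (Fin n) → ℝ} (hφ : ContDiff ℝ 1 φ) (hψ : ContDiff ℝ 1 ψ)
    (x : EuclideanSpace ℝ (Fin n)) :
    Q A u (fun y => φ y + ψ y) x = Q A u φ x + Q A u ψ x := by
  unfold Q
  rw [← Finset.sum_add_distrib]
  refine Finset.sum_congr rfl fun i _ => ?_
  rw [← Finset.sum_add_distrib]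
  refine Finset.sum_congr rfl fun l _ => ?_
  rw [pderiv_add' (hφ.differentiable (by norm_num) x) (hψ.differentiable (by norm_num) x)]
  ring

/-- **The weak equations pass to the limit.** -/
theorem tendsto_integral_Q {κ : Type*} {F : Filter κ}
    (A : κ → EuclideanSpace ℝ (Fin n) → Matrix (Fin n) (Fin n) ℝ)
    (u : κ → EuclideanSpace ℝ (Fin n) → ℝ)
    (hA : ∀ᶠ k in F, ∀ i l, Continuous fun x => A k x i l)
    (hAb : ∀ R, ∃ M, ∀ᶠ k in F, ∀ x ∈ closedBall (0 : EuclideanSpace ℝ (Fin n)) R,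
      ∀ i l, |A k x i l| ≤ M)
    (hu : ∀ᶠ k in F, ContDiff ℝ 1 (u k))
    (hen : ∀ R, ∃ C, ∀ᶠ k in F,
      ∫ x in closedBall (0 : EuclideanSpace ℝ (Fin n)) R, ‖fderiv ℝ (u k) x‖ ^ 2 ≤ C)
    {r0 : ℝ} (hr0 : 0 < r0)
    (hw0 : ∀ φ : EuclideanSpace ℝ (Fin n) → ℝ, ContDiff ℝ ∞ φ → HasCompactSupport φ →
      tsupport φ ⊆ ball 0 r0 → ∀ᶠ k in F, ∫ x, Q (A k) (u k) φ x = 0)
    (hw1 : ∀ χ : ℝ → ℝ, ContDiff ℝ ∞ χ → HasCompactSupport χ → tsupport χ ⊆ Ioi 0 →
      ∀ p : MvPolynomial (Fin n) ℝ, ∀ᶠ k in F,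
        ∫ x, Q (A k) (u k) (fun x => χ ‖x‖ * pe p x) x = 0)
    {φ : EuclideanSpace ℝ (Fin n) → ℝ} (hφ : ContDiff ℝ ∞ φ) (hφc : HasCompactSupport φ) :
    Tendsto (fun k => ∫ x, Q (A k) (u k) φ x) F (𝓝 0) := by
  -- a big ball
  obtain ⟨R1, hR1⟩ := hφc.isCompact.isBounded.subset_closedBall 0
  set R : ℝ := max R1 r0 with hR
  have hRr : r0 ≤ R := le_max_right _ _
  have hsφ : tsupport φ ⊆ closedBall 0 R := hR1.trans (closedBall_subset_closedBall (le_max_left _ _))
  set R' : ℝ := R + r0 with hR'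
  obtain ⟨M0, hM0⟩ := hAb R'
  obtain ⟨C0, hC0⟩ := hen R'
  set M : ℝ := max M0 0
  set C : ℝ := max C0 0
  -- the splitting
  let θ : ContDiffBump (0 : EuclideanSpace ℝ (Fin n)) :=
    { rIn := r0 / 3, rOut := r0 / 2, rIn_pos := by positivity, rIn_lt_rOut := by linarith }
  have hθs : tsupport θ = closedBall 0 (r0 / 2) := θ.tsupport_eq
  have hθc : ContDiff ℝ ∞ θ := θ.contDiff
  set φ1 : EuclideanSpace ℝ (Fin n) → ℝ := fun x => θ x * φ x with hφ1
  set φ2 : EuclideanSpace ℝ (Fin n) → ℝ := fun x => (1 - θ x) * φ x with hφ2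
  have hφ1c : ContDiff ℝ ∞ φ1 := hθc.mul hφ
  have hφ2c : ContDiff ℝ ∞ φ2 := (contDiff_const.sub hθc).mul hφ
  have hφ1s : HasCompactSupport φ1 := hφc.mul_left
  have hφ2s : HasCompactSupport φ2 := hφc.mul_left
  have hφ1t : tsupport φ1 ⊆ ball 0 r0 := by
    refine (tsupport_mul_subset_left (f := fun x => θ x) (g := φ)).trans ?_
    rw [show tsupport (fun x => θ x) = closedBall 0 (r0 / 2) from hθs]
    exact closedBall_subset_ball (by linarith)
  -- radial cutoff
  obtain ⟨χ, hχ, hχc, hχs, hχ1, hχ01, hχ0⟩ := exists_cutoff (a := r0 / 3) (b := R)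
    (by positivity) (by linarith)
  set X : EuclideanSpace ℝ (Fin n) → ℝ := fun x => χ ‖x‖ with hX
  have hXc : ContDiff ℝ ∞ X := contDiff_radial hχ hχs
  have hXs : HasCompactSupport X := hasCompactSupport_radial hχc
  obtain ⟨L0, hL0⟩ : ∃ L, ∀ x, ‖fderiv ℝ X x‖ ≤ L := by
    have hc : Continuous (fderiv ℝ X) := hXc.continuous_fderiv (by norm_num)
    exact (hXs.fderiv (𝕜 := ℝ)).exists_bound_of_continuous hc
  set L : ℝ := max L0 0
  have hL : ∀ x, ‖fderiv ℝ X x‖ ≤ L := fun x => (hL0 x).trans (le_max_left _ _)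
  have hLn : 0 ≤ L := le_max_right _ _
  have hXφ : ∀ x, X x * φ2 x = φ2 x := by
    intro x
    by_cases h1 : ‖x‖ < r0 / 3
    · have : θ x = 1 := θ.one_of_mem_closedBall (by
        rw [mem_closedBall, dist_zero_right]; exact h1.le)
      simp [hφ2, this]
    by_cases h2 : R < ‖x‖
    · have : φ x = 0 := by
        apply image_eq_zero_of_notMem_tsupport
        intro h
        have := hsφ h
        rw [mem_closedBall, dist_zero_right] at this
        linarith
      simp [hφ2, this]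
    · have : X x = 1 := hχ1 _ ⟨not_lt.mp h1, not_lt.mp h2⟩
      rw [this, one_mul]
  rw [Metric.tendsto_nhds]
  intro ε hε
  -- choose the accuracy
  set V : ℝ := (volume (closedBall (0 : EuclideanSpace ℝ (Fin n)) R')).toReal with hV
  have hVn : 0 ≤ V := ENNReal.toReal_nonneg
  set K : ℝ := (n : ℝ) ^ 2 * M * (1 + L) * ((C + V) / 2) with hK
  have hMn : 0 ≤ M := le_max_right _ _
  have hCn : 0 ≤ C := le_max_right _ _
  have hKn : 0 ≤ K := by positivity
  set δ : ℝ := ε / (K + 1) with hδ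
  have hδ0 : 0 < δ := by positivity
  obtain ⟨P, hP⟩ := exists_poly_C1 (hφ2c.of_le (by norm_cast)) hφ2s R' hδ0
  have hPc : ContDiff ℝ ∞ (pe P) := contDiff_pe P
  set Θ : EuclideanSpace ℝ (Fin n) → ℝ := fun x => χ ‖x‖ * pe P x with hΘ
  set ψ : EuclideanSpace ℝ (Fin n) → ℝ := fun x => X x * (φ2 x - pe P x) with hψ
  have hΘc : ContDiff ℝ ∞ Θ := hXc.mul hPc
  have hψc : ContDiff ℝ ∞ ψ := hXc.mul (hφ2c.sub hPc)
  have hψs : HasCompactSupport ψ := hXs.mul_right
  have hsum : φ = fun x => φ1 x + (Θ x + ψ x) := by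
    funext x
    have h1 : Θ x + ψ x = φ2 x := by
      rw [← hXφ x]; simp only [hΘ, hψ, hX]; ring
    rw [h1]; simp only [hφ1, hφ2]; ring
  have hψt : tsupport ψ ⊆ closedBall 0 R' := by
    refine closure_minimal ?_ isClosed_closedBall
    intro x hx
    by_contra h
    apply hx
    have : χ ‖x‖ = 0 := hχ0 _ (by
      rw [mem_closedBall, dist_zero_right, not_le] at h
      rw [hR'] at h; linarith)
    simp [hψ, hX, this]
  have hψd : ∀ x ∈ closedBall (0 : EuclideanSpace ℝ (Fin n)) R', ‖fderiv ℝ ψ x‖ ≤ (1 + L) * δ := by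
    intro x hx
    have hd1 : DifferentiableAt ℝ X x := hXc.differentiable (by norm_num) x
    have hd2 : DifferentiableAt ℝ (fun y => φ2 y - pe P y) x :=
      (hφ2c.sub hPc).differentiable (by norm_num) x
    have hd3 : fderiv ℝ (fun y => φ2 y - pe P y) x = fderiv ℝ φ2 x - fderiv ℝ (pe P) x :=
      fderiv_fun_sub (hφ2c.differentiable (by norm_num) x) (hPc.differentiable (by norm_num) x)
    have e : fderiv ℝ ψ x = X x • (fderiv ℝ φ2 x - fderiv ℝ (pe P) x)
        + (φ2 x - pe P x) • fderiv ℝ X x := by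
      rw [hψ, fderiv_fun_mul hd1 hd2, hd3]
    have h1 := hP x hx
    have hX1 : |X x| ≤ 1 := by
      rw [abs_of_nonneg (hχ01 _).1]; exact (hχ01 _).2
    calc ‖fderiv ℝ ψ x‖ ≤ |X x| * ‖fderiv ℝ φ2 x - fderiv ℝ (pe P) x‖
          + |φ2 x - pe P x| * ‖fderiv ℝ X x‖ := by
          rw [e]
          refine (norm_add_le _ _).trans ?_
          rw [norm_smul, norm_smul, Real.norm_eq_abs, Real.norm_eq_abs]
      _ ≤ 1 * δ + δ * L := by
          refine add_le_add ?_ ?_
          · refine mul_le_mul hX1 ?_ (norm_nonneg _) zero_le_one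
            rw [norm_sub_rev]; exact h1.2
          · refine mul_le_mul ?_ (hL x) (norm_nonneg _) hδ0.le
            rw [abs_sub_comm]; exact h1.1
      _ = (1 + L) * δ := by ring
  filter_upwards [hA, hM0, hu, hC0, hw0 φ1 hφ1c hφ1s hφ1t, hw1 χ hχ hχc hχs P] with
    k hAk hMk huk hCk h0 h1
  have hφ1d : ContDiff ℝ 1 φ1 := hφ1c.of_le (by norm_cast)
  have hΘd : ContDiff ℝ 1 Θ := hΘc.of_le (by norm_cast)
  have hψ1 : ContDiff ℝ 1 ψ := hψc.of_le (by norm_cast)
  have hΘs : HasCompactSupport Θ := hXs.mul_right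
  have e2 : ∫ x, Q (A k) (u k) φ x = ∫ x, Q (A k) (u k) ψ x := by
    have e3 : ∀ x, Q (A k) (u k) φ x
        = Q (A k) (u k) φ1 x + (Q (A k) (u k) Θ x + Q (A k) (u k) ψ x) := by
      intro x
      rw [← Q_add hΘd hψ1, ← Q_add hφ1d (hΘd.add hψ1), ← hsum]
    simp_rw [e3]
    have i1 : Integrable (fun x => Q (A k) (u k) φ1 x) := integrable_Q hAk huk hφ1d hφ1s
    have i2 : Integrable (fun x => Q (A k) (u k) Θ x) := integrable_Q hAk huk hΘd hΘs
    have i3 : Integrable (fun x => Q (A k) (u k) ψ x) := integrable_Q hAk huk hψ1 hψs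
    have i4 : Integrable (fun x => Q (A k) (u k) Θ x + Q (A k) (u k) ψ x) := i2.add i3
    rw [integral_add i1 i4, integral_add i2 i3, h0, h1]
    simp
  rw [Real.dist_eq, sub_zero, e2]
  have hb := abs_integral_Q_le (A := A k) (u := u k) (φ := ψ) huk R' hψt (M := M)
    (S := (1 + L) * δ) (C := C) hMn (by positivity)
    (fun x hx i l => (hMk x hx i l).trans (le_max_left _ _)) hψd (hCk.trans (le_max_left _ _))
  calc |∫ x, Q (A k) (u k) ψ x| ≤ (n : ℝ) ^ 2 * M * ((1 + L) * δ) * ((C + V) / 2) := hb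
    _ = K * δ := by rw [hK]; ring
    _ < ε := by
        rw [hδ, mul_div_assoc', div_lt_iff₀ (by positivity)]
        nlinarith

end

end Crest.Agent.R202.Lim
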