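import Crest.Agent.R202.Lim3

/-!
# Row 202, part F: weak equations pass to the limit (4), the coefficients converge
-/

set_option autoImplicit false
open MeasureTheory Metric Set Filter Topology
open scoped ContDiff
open Crest.GeometryTopology.CoordMetric
open Crest.Agent.R202.Ell (divA)

namespace Crest.Agent.R202.Lim

noncomputable section

variable {n : ℕ}

lemma exists_bound_entries {A : EuclideanSpace ℝ (Fin n) → Matrix (Fin n) (Fin n) ℝ}
    (hA : ∀ i l, Continuous fun x => A x i l) (R : ℝ) :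
    ∃ M, 0 ≤ M ∧ ∀ x ∈ closedBall (0 : EuclideanSpace ℝ (Fin n)) R, ∀ i l, |A x i l| ≤ M := by
  have hc : Continuous fun x => ∑ i, ∑ l, |A x i l| :=
    continuous_finsetSum _ fun i _ => continuous_finsetSum _ fun l _ => (hA i l).abs
  obtain ⟨M, hM⟩ := (isCompact_closedBall (0 : EuclideanSpace ℝ (Fin n)) R).exists_bound_of_continuousOn
    hc.continuousOn
  refine ⟨max M 0, le_max_right _ _, fun x hx i l => ?_⟩
  have h1 : |A x i l| ≤ ∑ i, ∑ l, |A x i l| :=
    (Finset.single_le_sum (f := fun l => |A x i l|) (fun _ _ => abs_nonneg _)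
      (Finset.mem_univ l)).trans
      (Finset.single_le_sum (f := fun i => ∑ l, |A x i l|)
        (fun _ _ => Finset.sum_nonneg fun _ _ => abs_nonneg _) (Finset.mem_univ i))
  have h2 := (le_abs_self _).trans (hM x hx)
  exact (h1.trans h2).trans (le_max_left _ _)

lemma Q_sub_left {A B : EuclideanSpace ℝ (Fin n) → Matrix (Fin n) (Fin n) ℝ}
    {u φ : EuclideanSpace ℝ (Fin n) → ℝ} (x : EuclideanSpace ℝ (Fin n)) :
    Q (fun y => A y - B y) u φ x = Q A u φ x - Q B u φ x := by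
  unfold Q
  rw [← Finset.sum_sub_distrib]
  refine Finset.sum_congr rfl fun i _ => ?_
  rw [← Finset.sum_sub_distrib]
  refine Finset.sum_congr rfl fun l _ => ?_
  have h : (A x - B x) i l = A x i l - B x i l := Matrix.sub_apply _ _ _ _
  change (A x - B x) i l * pderiv l u x * pderiv i φ x = _
  rw [h]
  ring

theorem tendsto_integral_mul_divA {κ : Type*} {F : Filter κ}
    (A : κ → EuclideanSpace ℝ (Fin n) → Matrix (Fin n) (Fin n) ℝ)
    (Ai : EuclideanSpace ℝ (Fin n) → Matrix (Fin n) (Fin n) ℝ)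
    (u : κ → EuclideanSpace ℝ (Fin n) → ℝ)
    (hA : ∀ᶠ k in F, ∀ i l, Continuous fun x => A k x i l)
    (hAi : ∀ i l, ContDiff ℝ ∞ fun x => Ai x i l) (hsym : ∀ x i l, Ai x i l = Ai x l i)
    (hconv : ∀ R, ∀ ε > 0, ∀ᶠ k in F, ∀ x ∈ closedBall (0 : EuclideanSpace ℝ (Fin n)) R,
      ∀ i l, |A k x i l - Ai x i l| ≤ ε)
    (hu : ∀ᶠ k in F, ContDiff ℝ 1 (u k))
    (hen : ∀ R, ∃ C, ∀ᶠ k in F,
      ∫ x in closedBall (0 : EuclideanSpace ℝ (Fin n)) R, ‖fderiv ℝ (u k) x‖ ^ 2 ≤ C)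
    {r0 : ℝ} (hr0 : 0 < r0)
    (hw0 : ∀ φ : EuclideanSpace ℝ (Fin n) → ℝ, ContDiff ℝ ∞ φ → HasCompactSupport φ →
      tsupport φ ⊆ ball 0 r0 → ∀ᶠ k in F, ∫ x, Q (A k) (u k) φ x = 0)
    (hw1 : ∀ χ : ℝ → ℝ, ContDiff ℝ ∞ χ → HasCompactSupport χ → tsupport χ ⊆ Ioi 0 →
      ∀ p : MvPolynomial (Fin n) ℝ, ∀ᶠ k in F,
        ∫ x, Q (A k) (u k) (fun x => χ ‖x‖ * pe p x) x = 0)
    {φ : EuclideanSpace ℝ (Fin n) → ℝ} (hφ : ContDiff ℝ ∞ φ) (hφc : HasCompactSupport φ) :
    Tendsto (fun k => ∫ x, u k x * divA Ai φ x) F (𝓝 0) := by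
  have hAic : ∀ i l, Continuous fun x => Ai x i l := fun i l => (hAi i l).continuous
  have hAb : ∀ R, ∃ M, ∀ᶠ k in F, ∀ x ∈ closedBall (0 : EuclideanSpace ℝ (Fin n)) R,
      ∀ i l, |A k x i l| ≤ M := by
    intro R
    obtain ⟨M, hM0, hM⟩ := exists_bound_entries hAic R
    refine ⟨M + 1, ?_⟩
    filter_upwards [hconv R 1 zero_lt_one] with k hk x hx i l
    have h1 := hk x hx i l
    have h2 := hM x hx i l
    rw [abs_le] at h1 h2 ⊢
    constructor <;> linarith [h1.1, h1.2, h2.1, h2.2]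
  have hφ1 : ContDiff ℝ 1 φ := hφ.of_le (by norm_cast)
  have T1 := tendsto_integral_Q A u hA hAb hu hen hr0 hw0 hw1 hφ hφc
  -- the difference of the coefficients
  have T2 : Tendsto (fun k => ∫ x, Q (fun y => Ai y - A k y) (u k) φ x) F (𝓝 0) := by
    obtain ⟨R, hR⟩ := hφc.isCompact.isBounded.subset_closedBall 0
    obtain ⟨C0, hC0⟩ := hen R
    set C : ℝ := max C0 0
    have hCn : 0 ≤ C := le_max_right _ _
    obtain ⟨S0, hS0⟩ := (hφc.fderiv (𝕜 := ℝ)).exists_bound_of_continuous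
      (hφ.continuous_fderiv (by norm_num))
    set S : ℝ := max S0 0
    have hSn : 0 ≤ S := le_max_right _ _
    set V : ℝ := (volume (closedBall (0 : EuclideanSpace ℝ (Fin n)) R)).toReal with hV
    have hVn : 0 ≤ V := ENNReal.toReal_nonneg
    set K : ℝ := (n : ℝ) ^ 2 * S * ((C + V) / 2) with hK
    have hKn : 0 ≤ K := by positivity
    rw [Metric.tendsto_nhds]
    intro ε hε
    set δ : ℝ := ε / (K + 1) with hδ
    have hδ0 : 0 < δ := by positivity
    filter_upwards [hC0, hu, hconv R δ hδ0] with k hCk huk hk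
    rw [Real.dist_eq, sub_zero]
    have hb := abs_integral_Q_le (A := fun y => Ai y - A k y) (u := u k) (φ := φ) huk R hR
      (M := δ) (S := S) (C := C) hδ0.le hSn
      (fun x hx i l => by rw [Matrix.sub_apply, abs_sub_comm]; exact hk x hx i l)
      (fun x _ => (hS0 x).trans (le_max_left _ _)) (hCk.trans (le_max_left _ _))
    calc |∫ x, Q (fun y => Ai y - A k y) (u k) φ x| ≤ (n : ℝ) ^ 2 * δ * S * ((C + V) / 2) := hb
      _ = K * δ := by rw [hK]; ring
      _ < ε := by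
          rw [hδ, mul_div_assoc', div_lt_iff₀ (by positivity)]
          nlinarith
  have T3 := (T1.add T2).neg
  simp only [add_zero, neg_zero] at T3
  refine T3.congr' ?_
  filter_upwards [hA, hu] with k hAk huk
  rw [integral_mul_divA (fun i l => (hAi i l).of_le (by norm_cast)) hsym huk hφ hφc]
  have e : ∀ x, Q (fun y => Ai y - A k y) (u k) φ x = Q Ai (u k) φ x - Q (A k) (u k) φ x :=
    fun x => Q_sub_left x
  simp_rw [e]
  rw [integral_sub (integrable_Q hAic huk hφ1 hφc) (integrable_Q hAk huk hφ1 hφc)]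
  ring

end

end Crest.Agent.R202.Lim
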