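import Crest.Agent.R202.Lim4

/-!
# Row 202, part F: weak limits along an ultrafilter
-/

set_option autoImplicit false
open MeasureTheory Metric Set Filter Topology
open scoped ContDiff RealInnerProductSpace ENNReal

namespace Crest.Agent.R202.Lim

noncomputable section

variable {n : ℕ}

/-- weak compactness of balls in a Hilbert space, along an ultrafilter -/
lemma exists_weak_limit {H : Type*} [NormedAddCommGroup H] [InnerProductSpace ℝ H]
    [CompleteSpace H] {κ : Type*} (𝒰 : Ultrafilter κ) (v : κ → H) {B : ℝ} (hv : ∀ k, ‖v k‖ ≤ B) :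
    ∃ V : H, ∀ g : H, Tendsto (fun k => ⟪v k, g⟫) 𝒰 (𝓝 ⟪V, g⟫) := by
  have hb : ∀ g k, |⟪v k, g⟫| ≤ B * ‖g‖ := fun g k =>
    (abs_real_inner_le_norm _ _).trans (mul_le_mul_of_nonneg_right (hv k) (norm_nonneg _))
  have hex : ∀ g : H, ∃ a : ℝ, Tendsto (fun k => ⟪v k, g⟫) 𝒰 (𝓝 a) := by
    intro g
    have hc : IsCompact (Icc (-(B * ‖g‖)) (B * ‖g‖)) := isCompact_Icc
    obtain ⟨a, _, ha⟩ := hc.ultrafilter_le_nhds (𝒰.map fun k => ⟪v k, g⟫) (by
      rw [Filter.le_principal_iff, Ultrafilter.mem_coe, Ultrafilter.mem_map]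
      exact Filter.mem_of_superset Filter.univ_mem fun k _ => by
        simp only [mem_preimage, mem_Icc]
        exact abs_le.mp (hb g k))
    exact ⟨a, ha⟩
  choose ℓ hℓ using hex
  have hadd : ∀ g h, ℓ (g + h) = ℓ g + ℓ h := by
    intro g h
    refine tendsto_nhds_unique (hℓ (g + h)) ?_
    have := (hℓ g).add (hℓ h)
    refine this.congr fun k => ?_
    rw [inner_add_right]
  have hsmul : ∀ (c : ℝ) g, ℓ (c • g) = c * ℓ g := by
    intro c g
    refine tendsto_nhds_unique (hℓ (c • g)) ?_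
    have := (hℓ g).const_mul c
    refine this.congr fun k => ?_
    rw [real_inner_smul_right]
  have hbd : ∀ g, |ℓ g| ≤ B * ‖g‖ := by
    intro g
    have h1 := (hℓ g).abs
    exact le_of_tendsto h1 (Eventually.of_forall (hb g))
  let L : H →ₗ[ℝ] ℝ :=
    { toFun := ℓ, map_add' := hadd, map_smul' := fun c g => by simp [hsmul] }
  let L' : H →L[ℝ] ℝ := L.mkContinuous B (fun g => by
    rw [Real.norm_eq_abs]; exact hbd g)
  refine ⟨(InnerProductSpace.toDual ℝ H).symm L', fun g => ?_⟩
  have : ⟪(InnerProductSpace.toDual ℝ H).symm L', g⟫ = ℓ g := by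
    rw [InnerProductSpace.toDual_symm_apply]; rfl
  rw [this]
  exact hℓ g

/-- index of the shell containing `x` -/
def sh (x : EuclideanSpace ℝ (Fin n)) : ℕ := ⌊‖x‖⌋₊

lemma measurable_sh : Measurable (sh (n := n)) := Nat.measurable_floor.comp measurable_norm

lemma mem_ball_sh (x : EuclideanSpace ℝ (Fin n)) : x ∈ ball (0 : EuclideanSpace ℝ (Fin n)) ((sh x : ℝ) + 1) := by
  rw [mem_ball_zero_iff]; exact Nat.lt_floor_add_one _

lemma sh_le {x : EuclideanSpace ℝ (Fin n)} {R : ℝ} (hx : x ∈ ball (0 : EuclideanSpace ℝ (Fin n)) R) :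
    sh x ≤ ⌊R⌋₊ := by
  rw [mem_ball_zero_iff] at hx
  exact Nat.floor_le_floor hx.le

/-- shell decomposition of a weighted integral -/
lemma lintegral_shell (c : ℕ → ℝ≥0∞) {f : EuclideanSpace ℝ (Fin n) → ℝ≥0∞} (hf : Measurable f) :
    ∫⁻ x, c (sh x) * f x ≤ ∑' m, c m * ∫⁻ x in ball (0 : EuclideanSpace ℝ (Fin n)) ((m : ℝ) + 1), f x := by
  have hm : ∀ m : ℕ, MeasurableSet {x : EuclideanSpace ℝ (Fin n) | sh x = m} := fun m =>
    measurable_sh (measurableSet_singleton m)
  have hpt : ∀ x : EuclideanSpace ℝ (Fin n), c (sh x) * f x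
      ≤ ∑' m, c m * (ball (0 : EuclideanSpace ℝ (Fin n)) ((m : ℝ) + 1)).indicator f x := by
    intro x
    calc c (sh x) * f x = c (sh x) *
          (ball (0 : EuclideanSpace ℝ (Fin n)) (((sh x : ℕ) : ℝ) + 1)).indicator f x := by
          rw [indicator_of_mem (mem_ball_sh x)]
      _ ≤ _ := ENNReal.le_tsum (f := fun m : ℕ =>
          c m * (ball (0 : EuclideanSpace ℝ (Fin n)) ((m : ℝ) + 1)).indicator f x) (sh x)
  calc ∫⁻ x, c (sh x) * f x
      ≤ ∫⁻ x, ∑' m, c m * (ball (0 : EuclideanSpace ℝ (Fin n)) ((m : ℝ) + 1)).indicator f x :=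
        lintegral_mono hpt
    _ = ∑' m, ∫⁻ x, c m * (ball (0 : EuclideanSpace ℝ (Fin n)) ((m : ℝ) + 1)).indicator f x := by
        rw [lintegral_tsum]
        intro m
        exact ((hf.indicator measurableSet_ball).const_mul _).aemeasurable
    _ = ∑' m, c m * ∫⁻ x in ball (0 : EuclideanSpace ℝ (Fin n)) ((m : ℝ) + 1), f x := by
        refine tsum_congr fun m => ?_
        rw [lintegral_const_mul _ (hf.indicator measurableSet_ball),
          lintegral_indicator measurableSet_ball]

/-- **Weak limit in `L²_loc`.** -/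
theorem exists_weak_limit_loc {κ : Type*} (𝒰 : Ultrafilter κ)
    (u : κ → EuclideanSpace ℝ (Fin n) → ℝ) (hu : ∀ᶠ k in 𝒰, Continuous (u k))
    (hb : ∀ m : ℕ, ∃ C, ∀ᶠ k in 𝒰,
      ∫ x in ball (0 : EuclideanSpace ℝ (Fin n)) ((m : ℝ) + 1), u k x ^ 2 ≤ C) :
    ∃ U : EuclideanSpace ℝ (Fin n) → ℝ, Measurable U ∧
      (∀ R, MemLp ((ball (0 : EuclideanSpace ℝ (Fin n)) R).indicator U) 2) ∧
      ∀ (R : ℝ) (g : EuclideanSpace ℝ (Fin n) → ℝ), MemLp g 2 →
        (∀ x ∉ ball (0 : EuclideanSpace ℝ (Fin n)) R, g x = 0) →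
        Tendsto (fun k => ∫ x, u k x * g x) 𝒰 (𝓝 (∫ x, U x * g x)) := by
  classical
  choose C0 hC0 using hb
  set C : ℕ → ℝ := fun m => max (C0 m) 0 with hC
  have hCn : ∀ m, 0 ≤ C m := fun m => le_max_right _ _
  -- weights
  set b : ℕ → ℝ := fun m => (1 / 2) ^ m / (1 + C m) with hbdef
  have hbpos : ∀ m, 0 < b m := fun m => by
    have := hCn m; simp only [hbdef]; positivity
  have hb1 : ∀ m, b m ^ 2 * C m ≤ (1 / 2) ^ m := by
    intro m
    have h0 := hCn m
    have e1 : b m ^ 2 * C m = ((1 / 2) ^ m) * (((1 / 2) ^ m) * (C m / (1 + C m) ^ 2)) := by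
      simp only [hbdef]; field_simp
    rw [e1]
    have h2 : ((1 : ℝ) / 2) ^ m ≤ 1 := pow_le_one₀ (by norm_num) (by norm_num)
    have h3 : C m / (1 + C m) ^ 2 ≤ 1 := by
      rw [div_le_one (by positivity)]; nlinarith
    have h4 : ((1 : ℝ) / 2) ^ m * (C m / (1 + C m) ^ 2) ≤ 1 := by
      have h5 : 0 ≤ C m / (1 + C m) ^ 2 := by positivity
      have h6 : 0 ≤ ((1 : ℝ) / 2) ^ m := by positivity
      nlinarith
    have h6 : 0 ≤ ((1 : ℝ) / 2) ^ m := by positivity
    nlinarith
  let good : κ → ℕ → Prop := fun k m => Continuous (u k) ∧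
    ∫ x in ball (0 : EuclideanSpace ℝ (Fin n)) ((m : ℝ) + 1), u k x ^ 2 ≤ C m
  have hgood : ∀ m, ∀ᶠ k in (𝒰 : Filter κ), good k m := by
    intro m
    filter_upwards [hC0 m, hu] with k hk huk
    exact ⟨huk, hk.trans (le_max_left _ _)⟩
  let c : κ → ℕ → ℝ := fun k m => if good k m then b m else 0
  have hcn : ∀ k m, 0 ≤ c k m := fun k m => by
    simp only [c]; split_ifs
    · exact (hbpos m).le
    · exact le_rfl
  let v : κ → EuclideanSpace ℝ (Fin n) → ℝ := fun k x => if Continuous (u k) then c k (sh x) * u k x else 0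
  have hvm : ∀ k, Measurable (v k) := by
    intro k
    by_cases hk : Continuous (u k)
    · simp only [v, hk, if_true]
      exact ((measurable_from_nat (f := c k)).comp measurable_sh).mul hk.measurable
    · simp only [v, hk, if_false]; exact measurable_const
  have hl : ∀ k, ∫⁻ x, ENNReal.ofReal (v k x ^ 2) ≤ 2 := by
    intro k
    by_cases hk : Continuous (u k)
    swap
    · simp [v, hk]
    have e1 : ∀ x, ENNReal.ofReal (v k x ^ 2)
        = ENNReal.ofReal (c k (sh x) ^ 2) * ENNReal.ofReal (u k x ^ 2) := by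
      intro x
      rw [← ENNReal.ofReal_mul (sq_nonneg _)]
      simp only [v, hk, if_true]
      rw [mul_pow]
    simp_rw [e1]
    refine (lintegral_shell (fun m => ENNReal.ofReal (c k m ^ 2))
      (f := fun x => ENNReal.ofReal (u k x ^ 2))
      (ENNReal.measurable_ofReal.comp (hk.measurable.pow_const 2))).trans ?_
    have hterm : ∀ m : ℕ, ENNReal.ofReal (c k m ^ 2) *
        ∫⁻ x in ball (0 : EuclideanSpace ℝ (Fin n)) ((m : ℝ) + 1), ENNReal.ofReal (u k x ^ 2)
        ≤ ENNReal.ofReal ((1 / 2) ^ m) := by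
      intro m
      by_cases hg : good k m
      · have hint : IntegrableOn (fun x => u k x ^ 2)
            (ball (0 : EuclideanSpace ℝ (Fin n)) ((m : ℝ) + 1)) :=
          ((hk.pow 2).continuousOn.integrableOn_compact (isCompact_closedBall _ _)).mono_set
            ball_subset_closedBall
        have e2 : ∫⁻ x in ball (0 : EuclideanSpace ℝ (Fin n)) ((m : ℝ) + 1), ENNReal.ofReal (u k x ^ 2)
            = ENNReal.ofReal (∫ x in ball (0 : EuclideanSpace ℝ (Fin n)) ((m : ℝ) + 1), u k x ^ 2) := by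
          rw [ofReal_integral_eq_lintegral_ofReal hint]
          exact Eventually.of_forall fun x => sq_nonneg _
        rw [e2, ← ENNReal.ofReal_mul (sq_nonneg _)]
        apply ENNReal.ofReal_le_ofReal
        have : c k m = b m := by simp only [c, hg, if_true]
        rw [this]
        exact (mul_le_mul_of_nonneg_left hg.2 (sq_nonneg _)).trans (hb1 m)
      · have : c k m = 0 := by simp only [c, hg, if_false]
        rw [this]; simp
    refine (ENNReal.tsum_le_tsum hterm).trans ?_
    have e3 : ∑' m : ℕ, ENNReal.ofReal ((1 / 2) ^ m) = 2 := by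
      rw [← ENNReal.ofReal_tsum_of_nonneg (fun m => by positivity) summable_geometric_two,
        tsum_geometric_two]
      simp
    exact e3.le
  have hvi : ∀ k, Integrable (fun x => v k x ^ 2) := by
    intro k
    refine ⟨((hvm k).pow_const 2).aestronglyMeasurable, ?_⟩
    rw [hasFiniteIntegral_iff_ofReal (Eventually.of_forall fun x => sq_nonneg _)]
    exact (hl k).trans_lt (by norm_num)
  have hvL : ∀ k, MemLp (v k) 2 := fun k =>
    (memLp_two_iff_integrable_sq (hvm k).aestronglyMeasurable).mpr (hvi k)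
  have hnorm : ∀ k, ‖(hvL k).toLp (v k)‖ ≤ 2 := by
    intro k
    have h1 : ‖(hvL k).toLp (v k)‖ ^ 2 = ∫ x, v k x ^ 2 := by
      rw [← real_inner_self_eq_norm_sq, L2.inner_def]
      apply integral_congr_ae
      filter_upwards [(hvL k).coeFn_toLp] with x hx
      rw [hx]; simp [sq]
    have h2 : ∫ x, v k x ^ 2 ≤ 2 := by
      rw [integral_eq_lintegral_of_nonneg_ae (Eventually.of_forall fun x => sq_nonneg _)
        ((hvm k).pow_const 2).aestronglyMeasurable]
      exact ENNReal.toReal_le_of_le_ofReal (by norm_num) (by simpa using hl k)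
    nlinarith [norm_nonneg ((hvL k).toLp (v k))]
  obtain ⟨V, hV⟩ := exists_weak_limit 𝒰 (fun k => (hvL k).toLp (v k)) hnorm
  -- the limit function
  obtain ⟨V', hV'm, hV'e⟩ := (Lp.memLp V).1
  set U : EuclideanSpace ℝ (Fin n) → ℝ := fun x => V' x / b (sh x) with hU
  have hV'me : Measurable V' := hV'm.measurable
  have hUm : Measurable U := hV'me.div ((measurable_from_nat (f := b)).comp measurable_sh)
  have hV'L : MemLp V' 2 := (memLp_congr_ae hV'e).mp (Lp.memLp V)
  -- lower bound for the weights on balls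
  have hbl : ∀ R : ℝ, ∃ β : ℝ, 0 < β ∧ ∀ x ∈ ball (0 : EuclideanSpace ℝ (Fin n)) R, β ≤ b (sh x) := by
    intro R
    obtain ⟨m0, hm0, hmin⟩ := Finset.exists_min_image (Finset.range (⌊R⌋₊ + 1)) b
      ⟨0, by simp⟩
    refine ⟨b m0, hbpos m0, fun x hx => hmin _ ?_⟩
    rw [Finset.mem_range]
    exact Nat.lt_succ_of_le (sh_le hx)
  refine ⟨U, hUm, ?_, ?_⟩
  · intro R
    obtain ⟨β, hβ, hβ'⟩ := hbl R
    refine (hV'L.const_mul β⁻¹).of_le (hUm.indicator measurableSet_ball).aestronglyMeasurable ?_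
    refine Eventually.of_forall fun x => ?_
    by_cases hx : x ∈ ball (0 : EuclideanSpace ℝ (Fin n)) R
    · rw [indicator_of_mem hx, Real.norm_eq_abs, Real.norm_eq_abs, hU]
      simp only
      rw [abs_div, abs_mul, abs_of_pos (hbpos _), abs_of_pos (inv_pos.mpr hβ), div_eq_inv_mul]
      exact mul_le_mul_of_nonneg_right (inv_anti₀ hβ (hβ' x hx)) (abs_nonneg _)
    · rw [indicator_of_notMem hx]; simp; positivity
  · intro R g hg hgs
    obtain ⟨β, hβ, hβ'⟩ := hbl R
    set G : EuclideanSpace ℝ (Fin n) → ℝ := fun x => (b (sh x))⁻¹ * g x with hG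
    have hbm : Measurable fun x : EuclideanSpace ℝ (Fin n) => (b (sh x))⁻¹ :=
      ((measurable_from_nat (f := b)).comp measurable_sh).inv
    have hGL : MemLp G 2 := by
      refine (hg.const_mul β⁻¹).of_le (hbm.aestronglyMeasurable.mul hg.1) ?_
      refine Eventually.of_forall fun x => ?_
      by_cases hx : x ∈ ball (0 : EuclideanSpace ℝ (Fin n)) R
      · rw [Real.norm_eq_abs, Real.norm_eq_abs, hG]
        simp only
        rw [abs_mul, abs_mul, abs_of_pos (inv_pos.mpr (hbpos _)), abs_of_pos (inv_pos.mpr hβ)]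
        exact mul_le_mul_of_nonneg_right (inv_anti₀ hβ (hβ' x hx)) (abs_nonneg _)
      · simp [hG, hgs x hx]
    have h1 := hV (hGL.toLp G)
    have e1 : ⟪V, hGL.toLp G⟫ = ∫ x, U x * g x := by
      rw [L2.inner_def]
      apply integral_congr_ae
      filter_upwards [hGL.coeFn_toLp, hV'e] with x hx hx'
      rw [hx, hx']
      simp only [hG, hU, RCLike.inner_apply, conj_trivial]
      have := (hbpos (sh x)).ne'
      field_simp
    rw [e1] at h1
    refine h1.congr' ?_
    have hev : ∀ᶠ k in (𝒰 : Filter κ), ∀ m ∈ Finset.range (⌊R⌋₊ + 1), good k m := by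
      rw [Filter.eventually_all_finset]
      exact fun m _ => hgood m
    filter_upwards [hev, hu] with k hk huk
    rw [L2.inner_def]
    apply integral_congr_ae
    filter_upwards [hGL.coeFn_toLp, (hvL k).coeFn_toLp] with x hx hx'
    rw [hx, hx']
    simp only [hG, RCLike.inner_apply, conj_trivial]
    by_cases hxR : x ∈ ball (0 : EuclideanSpace ℝ (Fin n)) R
    · have hgx : good k (sh x) := hk _ (Finset.mem_range.mpr (Nat.lt_succ_of_le (sh_le hxR)))
      have : v k x = b (sh x) * u k x := by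
        simp only [v, huk, if_true, c, hgx]
      rw [this]
      have := (hbpos (sh x)).ne'
      field_simp
    · simp [hgs x hxR]

end

end Crest.Agent.R202.Lim
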