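import Crest.Agent.R202.Lim6
import Crest.Agent.R202.Moser

/-!
# Row 202, part F: pointwise growth of the limit (Moser), independence
-/

set_option autoImplicit false
open MeasureTheory Metric Set Filter Topology InnerProductSpace
open scoped ContDiff RealInnerProductSpace ENNReal Gradient
open Crest.GeometryTopology.CoordMetric
open Crest.Agent.R202.Ell (divA EllRegularity)

namespace Crest.Agent.R202.Lim

noncomputable section

variable {n : ℕ}

/-- the operator field of a matrix field -/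
def opA (A : EuclideanSpace ℝ (Fin n) → Matrix (Fin n) (Fin n) ℝ) (x : EuclideanSpace ℝ (Fin n)) :
    EuclideanSpace ℝ (Fin n) →L[ℝ] EuclideanSpace ℝ (Fin n) :=
  Matrix.toEuclideanCLM (n := Fin n) (𝕜 := ℝ) (A x)

lemma opA_apply (A : EuclideanSpace ℝ (Fin n) → Matrix (Fin n) (Fin n) ℝ)
    (x v : EuclideanSpace ℝ (Fin n)) (i : Fin n) : (opA A x v) i = ∑ j, A x i j * v j := rfl

lemma continuous_opA {A : EuclideanSpace ℝ (Fin n) → Matrix (Fin n) (Fin n) ℝ}
    (hA : ∀ i l, Continuous fun x => A x i l) : Continuous (opA A) := by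
  have h1 : Continuous A := continuous_matrix fun i l => hA i l
  have h2 : Continuous (fun M : Matrix (Fin n) (Fin n) ℝ =>
      (Matrix.toEuclideanCLM (n := Fin n) (𝕜 := ℝ) M)) :=
    LinearMap.continuous_of_finiteDimensional
      ((Matrix.toEuclideanCLM (n := Fin n) (𝕜 := ℝ)).toAlgEquiv.toLinearMap)
  exact h2.comp h1

lemma inner_opA (A : EuclideanSpace ℝ (Fin n) → Matrix (Fin n) (Fin n) ℝ)
    (x v w : EuclideanSpace ℝ (Fin n)) :
    ⟪opA A x v, w⟫ = ∑ i, ∑ l, A x i l * v l * w i := by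
  rw [PiLp.inner_apply]
  refine Finset.sum_congr rfl fun i _ => ?_
  rw [opA_apply]
  simp only [RCLike.inner_apply, conj_trivial]
  rw [mul_comm, Finset.sum_mul]

/-- symmetric forms: the norm is controlled by the quadratic form -/
lemma norm_opA_le {A : EuclideanSpace ℝ (Fin n) → Matrix (Fin n) (Fin n) ℝ}
    {x : EuclideanSpace ℝ (Fin n)} (hsym : ∀ i l, A x i l = A x l i) {Lam : ℝ}
    (h0 : ∀ v, 0 ≤ ⟪opA A x v, v⟫) (h1 : ∀ v, ⟪opA A x v, v⟫ ≤ Lam * ‖v‖ ^ 2)
    (v : EuclideanSpace ℝ (Fin n)) : ‖opA A x v‖ ≤ Lam * ‖v‖ := by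
  have hs : ∀ v w, ⟪opA A x v, w⟫ = ⟪opA A x w, v⟫ := by
    intro v w
    rw [inner_opA, inner_opA, Finset.sum_comm]
    refine Finset.sum_congr rfl fun i _ => Finset.sum_congr rfl fun l _ => ?_
    rw [hsym l i]; ring
  have h4 : ∀ v w, 4 * ⟪opA A x v, w⟫ ≤ Lam * ‖v + w‖ ^ 2 := by
    intro v w
    have e : 4 * ⟪opA A x v, w⟫ = ⟪opA A x (v + w), v + w⟫ - ⟪opA A x (v - w), v - w⟫ := by
      simp only [map_add, map_sub, inner_add_left, inner_add_right, inner_sub_left, inner_sub_right]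
      rw [hs w v]; ring
    rw [e]
    have := h1 (v + w)
    have := h0 (v - w)
    linarith
  by_cases hT : opA A x v = 0
  · rw [hT, norm_zero]
    by_cases hv : v = 0
    · simp [hv]
    · have := (h0 v).trans (h1 v)
      have hv2 : 0 < ‖v‖ := norm_pos_iff.mpr hv
      have : 0 ≤ Lam := by
        by_contra hneg
        push Not at hneg
        nlinarith [sq_pos_of_pos hv2]
      positivity
  have hv : v ≠ 0 := by
    intro h; apply hT; rw [h, map_zero]
  have hv2 : 0 < ‖v‖ := norm_pos_iff.mpr hv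
  have hT2 : 0 < ‖opA A x v‖ := norm_pos_iff.mpr hT
  set w : EuclideanSpace ℝ (Fin n) := (‖v‖ / ‖opA A x v‖) • opA A x v with hw
  have hwn : ‖w‖ = ‖v‖ := by
    rw [hw, norm_smul, Real.norm_eq_abs, abs_of_pos (by positivity)]
    field_simp
  have hin : ⟪opA A x v, w⟫ = ‖v‖ * ‖opA A x v‖ := by
    rw [hw, real_inner_smul_right, real_inner_self_eq_norm_sq]
    field_simp
  have h5 := h4 v w
  rw [hin] at h5
  have h6 : ‖v + w‖ ≤ 2 * ‖v‖ := by
    refine (norm_add_le _ _).trans ?_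
    rw [hwn]; linarith
  have hL : 0 ≤ Lam := by
    have := (h0 v).trans (h1 v)
    by_contra hneg
    push Not at hneg
    nlinarith [sq_pos_of_pos hv2]
  have h7 : Lam * ‖v + w‖ ^ 2 ≤ Lam * (2 * ‖v‖) ^ 2 :=
    mul_le_mul_of_nonneg_left (pow_le_pow_left₀ (norm_nonneg _) h6 2) hL
  have h8 : ‖v‖ * ‖opA A x v‖ ≤ ‖v‖ * (Lam * ‖v‖) := by nlinarith
  exact le_of_mul_le_mul_left h8 hv2

lemma gradient_apply' (f : EuclideanSpace ℝ (Fin n) → ℝ) (x : EuclideanSpace ℝ (Fin n)) (i : Fin n) :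
    (∇ f x) i = pderiv i f x := by
  have h1 : ⟪∇ f x, EuclideanSpace.single i (1 : ℝ)⟫ = fderiv ℝ f x (EuclideanSpace.single i 1) := by
    unfold gradient
    exact InnerProductSpace.toDual_symm_apply
  unfold pderiv
  rw [← h1, EuclideanSpace.inner_single_right]
  simp

/-- **Growth.** Entire solutions with `∫_{B_R} f² ≤ C (1+R)^{2k+n}` satisfy `|f x| ≤ C' (1+|x|)^k`. -/
theorem sup_growth (hn : 3 ≤ n) {A : EuclideanSpace ℝ (Fin n) → Matrix (Fin n) (Fin n) ℝ}
    (hA : ∀ i l, ContDiff ℝ ∞ fun x => A x i l) (hsym : ∀ x i l, A x i l = A x l i)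
    {lam Lam : ℝ} (hlam : 0 < lam)
    (hlow : ∀ x v : EuclideanSpace ℝ (Fin n), lam * ‖v‖ ^ 2 ≤ ∑ i, ∑ l, A x i l * v l * v i)
    (hup : ∀ x v : EuclideanSpace ℝ (Fin n), ∑ i, ∑ l, A x i l * v l * v i ≤ Lam * ‖v‖ ^ 2)
    {f : EuclideanSpace ℝ (Fin n) → ℝ} (hf : ContDiff ℝ ∞ f) (hdiv : ∀ x, divA A f x = 0)
    {C : ℝ} {k : ℕ}
    (hg : ∀ R, 0 ≤ R → ∫ x in ball (0 : EuclideanSpace ℝ (Fin n)) R, f x ^ 2
      ≤ C * (1 + R) ^ (2 * k + n)) :
    ∃ C', ∀ x, |f x| ≤ C' * (1 + ‖x‖) ^ k := by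
  obtain ⟨K, hK, hsup⟩ := Moser.sup_bound hn Lam hlam
  have hC : 0 ≤ C := by
    have h1 := hg 0 le_rfl
    have h0 : 0 ≤ ∫ x in ball (0 : EuclideanSpace ℝ (Fin n)) 0, f x ^ 2 :=
      integral_nonneg fun x => sq_nonneg _
    simpa using h0.trans h1
  refine ⟨Real.sqrt (K * C * 3 ^ (2 * k + n)), fun x => ?_⟩
  set r : ℝ := 1 + ‖x‖ with hr
  have hr1 : 1 ≤ r := by have := norm_nonneg x; linarith
  have hr0 : 0 < r := by linarith
  have hell : Moser.Ell lam Lam (opA A) 0 (2 * r) :=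
    ⟨fun y _ v => by rw [inner_opA]; exact hlow y v,
     fun y _ v => norm_opA_le (hsym y)
      (fun w => by
        rw [inner_opA]; exact le_trans (by positivity) (hlow y w))
      (fun w => by rw [inner_opA]; exact hup y w) v⟩
  have hpf : ∀ j, ContDiff ℝ ∞ (pderiv j f) := by
    intro j
    have : ContDiff ℝ ∞ (fderiv ℝ f) := hf.fderiv_right (m := ∞) (by norm_cast)
    exact this.clm_apply contDiff_const
  have hw : Moser.WeakSol (opA A) f 0 (2 * r) := by
    refine Moser.weakSol_of_div (X := fun i y => ∑ j, A y i j * pderiv j f y) ?_ ?_ ?_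
    · intro i
      have : ContDiff ℝ ∞ (fun y => ∑ j, A y i j * pderiv j f y) :=
        ContDiff.sum fun j _ => (hA i j).mul (hpf j)
      exact (this.of_le (by norm_cast)).contDiffOn
    · intro y _ i
      rw [opA_apply]
      refine Finset.sum_congr rfl fun j _ => ?_
      rw [gradient_apply']
    · intro y _
      have := hdiv y
      unfold divA pderiv at this
      exact this
  have h1 := hsup (opA A) f 0 r hr0 (continuous_opA fun i l => (hA i l).continuous)
    (hf.of_le (by norm_cast)) hell hw x (by rw [mem_ball_zero_iff]; linarith)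
  have h2 := hg (2 * r) (by positivity)
  have h3 : C * (1 + 2 * r) ^ (2 * k + n) ≤ C * (3 * r) ^ (2 * k + n) :=
    mul_le_mul_of_nonneg_left (pow_le_pow_left₀ (by positivity) (by linarith) _) hC
  have h4 : f x ^ 2 ≤ K * C * 3 ^ (2 * k + n) * (r ^ k) ^ 2 := by
    calc f x ^ 2 ≤ K * ((r ^ n)⁻¹ * (C * (3 * r) ^ (2 * k + n))) := by
          refine h1.trans (mul_le_mul_of_nonneg_left ?_ hK.le)
          exact mul_le_mul_of_nonneg_left (h2.trans h3) (by positivity)
      _ = K * C * 3 ^ (2 * k + n) * (r ^ k) ^ 2 := by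
          have e : (3 * r) ^ (2 * k + n) = 3 ^ (2 * k + n) * ((r ^ k) ^ 2 * r ^ n) := by
            rw [mul_pow]; ring
          rw [e]; field_simp
  have h5 : |f x| ≤ Real.sqrt (K * C * 3 ^ (2 * k + n) * (r ^ k) ^ 2) := by
    rw [← Real.sqrt_sq_eq_abs]
    exact Real.sqrt_le_sqrt h4
  rwa [Real.sqrt_mul (by positivity), Real.sqrt_sq (by positivity)] at h5

/-- Independence from an invertible pairing matrix. -/
lemma linearIndependent_of_pairing {J : Type*} [Fintype J] [DecidableEq J]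
    (f : J → EuclideanSpace ℝ (Fin n) → ℝ) (φ : J → EuclideanSpace ℝ (Fin n) → ℝ)
    (hint : ∀ i j, Integrable fun x => f j x * φ i x)
    (hdet : (Matrix.of fun i j => ∫ x, f j x * φ i x).det ≠ 0) :
    LinearIndependent ℝ f := by
  rw [Fintype.linearIndependent_iff]
  intro a ha
  have h1 : (Matrix.of fun i j => ∫ x, f j x * φ i x).mulVec a = 0 := by
    funext i
    simp only [Matrix.mulVec, dotProduct, Matrix.of_apply, Pi.zero_apply]
    have h2 : ∀ x, ∑ j, (f j x * φ i x) * a j = 0 := by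
      intro x
      have h3 : ∑ j, a j * f j x = 0 := by
        have := congrFun ha x
        simpa [Finset.sum_apply] using this
      have : ∑ j, (f j x * φ i x) * a j = (∑ j, a j * f j x) * φ i x := by
        rw [Finset.sum_mul]
        exact Finset.sum_congr rfl fun j _ => by ring
      rw [this, h3, zero_mul]
    have h4 : ∑ j, (∫ x, f j x * φ i x) * a j = ∫ x, ∑ j, (f j x * φ i x) * a j := by
      rw [integral_finsetSum _ fun j _ => (hint i j).mul_const _]
      exact Finset.sum_congr rfl fun j _ => (integral_mul_const _ _).symm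
    rw [h4]
    simp_rw [h2]
    simp
  have := Matrix.eq_zero_of_mulVec_eq_zero hdet h1
  exact fun i => congrFun this i

end

end Crest.Agent.R202.Lim
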