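import Crest.Agent.R202.Lim7
import Crest.Agent.R202.GeoTens

/-!
# Row 202, part F: metric-level facts (`√det g · g⁻¹`)
-/

set_option autoImplicit false
open MeasureTheory Metric Set Filter Topology InnerProductSpace
open scoped ContDiff RealInnerProductSpace ENNReal Gradient
open Crest.GeometryTopology.CoordMetric
open Crest.Agent.R202.Ell (divA EllRegularity)

namespace Crest.Agent.R202.Lim

noncomputable section

variable {n : ℕ}

/-- `√det g · g⁻¹` -/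
def AA (g : MetricField n) (x : EuclideanSpace ℝ (Fin n)) : Matrix (Fin n) (Fin n) ℝ :=
  Matrix.of fun i j => Real.sqrt (g x).det * inverseField g x i j

lemma AA_apply (g : MetricField n) (x : EuclideanSpace ℝ (Fin n)) (i j : Fin n) :
    AA g x i j = Real.sqrt (g x).det * inverseField g x i j := rfl

lemma AA_eq_smul (g : MetricField n) (x : EuclideanSpace ℝ (Fin n)) :
    AA g x = Real.sqrt (g x).det • (g x)⁻¹ := rfl

lemma laplaceBeltrami_eq (g : MetricField n) (f : EuclideanSpace ℝ (Fin n) → ℝ)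
    (x : EuclideanSpace ℝ (Fin n)) :
    laplaceBeltrami g f x = (1 / Real.sqrt (g x).det) * divA (AA g) f x := by
  unfold laplaceBeltrami divA
  congr 1
  refine Finset.sum_congr rfl fun i _ => ?_
  congr 1
  funext y
  rw [Finset.mul_sum]
  refine Finset.sum_congr rfl fun j _ => ?_
  rw [AA_apply]; ring

lemma isHarmonicOn_of_divA {g : MetricField n} {f : EuclideanSpace ℝ (Fin n) → ℝ}
    (hf : ContDiff ℝ ∞ f) (hd : ∀ x, divA (AA g) f x = 0) : IsHarmonicOn g univ f :=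
  ⟨hf.contDiffOn, fun x _ => by rw [laplaceBeltrami_eq, hd, mul_zero]⟩

lemma det_pos_of_riem {g : MetricField n} (hg : IsRiemannianOn g univ)
    (x : EuclideanSpace ℝ (Fin n)) : 0 < (g x).det := (hg.posDef x (mem_univ x)).det_pos

lemma contDiff_AA {g : MetricField n} (hg : IsRiemannianOn g univ) (i j : Fin n) :
    ContDiff ℝ ∞ fun x => AA g x i j := by
  have h1 : ContDiff ℝ ∞ fun x => inverseField g x i j :=
    contDiffOn_univ.mp (Tens.contDiffOn_inv_entry hg i j)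
  have hdet : ContDiff ℝ ∞ (fun x => (g x).det) := by
    simp only [Matrix.det_apply]
    refine ContDiff.sum fun σ _ => ?_
    have : ContDiff ℝ ∞ (fun x => ∏ i, g x (σ i) i) :=
      contDiff_prod fun i _ => contDiffOn_univ.mp (hg.contDiffOn _ _)
    exact this.const_smul _
  have hs : ContDiff ℝ ∞ (fun x => Real.sqrt (g x).det) := by
    rw [contDiff_iff_contDiffAt]
    intro x
    exact (Real.contDiffAt_sqrt (det_pos_of_riem hg x).ne').comp x hdet.contDiffAt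
  exact hs.mul h1

lemma posDef_AA {g : MetricField n} (hg : IsRiemannianOn g univ) (x : EuclideanSpace ℝ (Fin n)) :
    (AA g x).PosDef := by
  rw [AA_eq_smul]
  exact (hg.posDef x (mem_univ x)).inv.smul (Real.sqrt_pos.mpr (det_pos_of_riem hg x))

lemma AA_symm {g : MetricField n} (hg : IsRiemannianOn g univ) (x : EuclideanSpace ℝ (Fin n))
    (i l : Fin n) : AA g x i l = AA g x l i := by
  have := (posDef_AA hg x).isHermitian.apply l i
  simpa using this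

/-- joint continuity -/
lemma continuous_AA {P : Type*} [TopologicalSpace P] {g : P → MetricField n}
    (hg : ∀ i j, Continuous fun q : P × EuclideanSpace ℝ (Fin n) => g q.1 q.2 i j)
    (hR : ∀ p, IsRiemannianOn (g p) univ) (i j : Fin n) :
    Continuous fun q : P × EuclideanSpace ℝ (Fin n) => AA (g q.1) q.2 i j := by
  have hm : Continuous fun q : P × EuclideanSpace ℝ (Fin n) => g q.1 q.2 :=
    continuous_matrix fun i j => hg i j
  have hdet : Continuous fun q : P × EuclideanSpace ℝ (Fin n) => (g q.1 q.2).det := hm.matrix_det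
  have hadj : Continuous fun q : P × EuclideanSpace ℝ (Fin n) => (g q.1 q.2).adjugate i j :=
    hm.matrix_adjugate.matrix_elem i j
  have e : (fun q : P × EuclideanSpace ℝ (Fin n) => AA (g q.1) q.2 i j)
      = fun q => Real.sqrt (g q.1 q.2).det * ((g q.1 q.2).det⁻¹ * (g q.1 q.2).adjugate i j) := by
    funext q
    rw [AA_apply]
    unfold inverseField
    rw [Matrix.inv_def, Ring.inverse_eq_inv', Matrix.smul_apply, smul_eq_mul]
  rw [e]
  exact (Real.continuous_sqrt.comp hdet).mul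
    ((hdet.inv₀ fun q => (det_pos_of_riem (hR q.1) q.2).ne').mul hadj)

/-! ### Ellipticity -/

lemma quadForm_eq (g : MetricField n) (x v : EuclideanSpace ℝ (Fin n)) :
    quadForm g x v = dotProduct (v : Fin n → ℝ) ((g x).mulVec v) := by
  unfold quadForm
  simp only [dotProduct, Matrix.mulVec, Finset.mul_sum]
  refine Finset.sum_congr rfl fun i _ => Finset.sum_congr rfl fun j _ => by ring

lemma det_bounds {G : Matrix (Fin n) (Fin n) ℝ} (hG : G.PosDef) {lam Lam : ℝ} (hlam : 0 < lam)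
    (hlow : ∀ v : EuclideanSpace ℝ (Fin n), lam * ‖v‖ ^ 2 ≤ dotProduct (v : Fin n → ℝ) (G.mulVec v))
    (hup : ∀ v : EuclideanSpace ℝ (Fin n), dotProduct (v : Fin n → ℝ) (G.mulVec v) ≤ Lam * ‖v‖ ^ 2) :
    lam ^ n ≤ G.det ∧ G.det ≤ Lam ^ n := by
  have hH := hG.isHermitian
  have hev : ∀ i, lam ≤ hH.eigenvalues i ∧ hH.eigenvalues i ≤ Lam := by
    intro i
    have h1 : hH.eigenvalues i = dotProduct (hH.eigenvectorBasis i : Fin n → ℝ)
        (G.mulVec (hH.eigenvectorBasis i)) := by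
      rw [hH.eigenvalues_eq i]; simp
    have h2 : ‖hH.eigenvectorBasis i‖ = 1 := hH.eigenvectorBasis.orthonormal.1 i
    have h3 := hlow (hH.eigenvectorBasis i)
    have h4 := hup (hH.eigenvectorBasis i)
    rw [← h1, h2] at h3 h4
    constructor <;> linarith
  have hdet : G.det = ∏ i, hH.eigenvalues i := by
    rw [hH.det_eq_prod_eigenvalues]; simp
  constructor
  · calc lam ^ n = ∏ _i : Fin n, lam := by simp
      _ ≤ ∏ i, hH.eigenvalues i := Finset.prod_le_prod (fun _ _ => hlam.le) fun i _ => (hev i).1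
      _ = G.det := hdet.symm
  · calc G.det = ∏ i, hH.eigenvalues i := hdet
      _ ≤ ∏ _i : Fin n, Lam := Finset.prod_le_prod (fun i _ => hlam.le.trans (hev i).1)
          fun i _ => (hev i).2
      _ = Lam ^ n := by simp

lemma norm_sq_eq_dot (v : EuclideanSpace ℝ (Fin n)) : ‖v‖ ^ 2 = dotProduct (v : Fin n → ℝ) v := by
  rw [EuclideanSpace.real_norm_sq_eq]
  simp [dotProduct, sq]

lemma inv_bounds {G : Matrix (Fin n) (Fin n) ℝ} (hG : G.PosDef) {lam Lam : ℝ} (hlam : 0 < lam)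
    (hLam : 0 < Lam)
    (hlow : ∀ v : EuclideanSpace ℝ (Fin n), lam * ‖v‖ ^ 2 ≤ dotProduct (v : Fin n → ℝ) (G.mulVec v))
    (hup : ∀ v : EuclideanSpace ℝ (Fin n), dotProduct (v : Fin n → ℝ) (G.mulVec v) ≤ Lam * ‖v‖ ^ 2)
    (v : EuclideanSpace ℝ (Fin n)) :
    Lam⁻¹ * ‖v‖ ^ 2 ≤ dotProduct (v : Fin n → ℝ) (G⁻¹.mulVec v) ∧
      dotProduct (v : Fin n → ℝ) (G⁻¹.mulVec v) ≤ lam⁻¹ * ‖v‖ ^ 2 := by
  -- `v = G w`
  set w : EuclideanSpace ℝ (Fin n) := WithLp.toLp 2 (G⁻¹.mulVec v) with hw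
  have hunit : IsUnit G.det := isUnit_iff_ne_zero.mpr hG.det_pos.ne'
  have hGw : G.mulVec w = v := by
    have : (w : Fin n → ℝ) = G⁻¹.mulVec v := rfl
    rw [this, Matrix.mulVec_mulVec, Matrix.mul_nonsing_inv _ hunit, Matrix.one_mulVec]
  have hq : dotProduct (v : Fin n → ℝ) (G⁻¹.mulVec v) = dotProduct (w : Fin n → ℝ) (G.mulVec w) := by
    rw [hGw]
    rw [dotProduct_comm]
  set q := dotProduct (w : Fin n → ℝ) (G.mulVec w) with hqd
  have h1 := hlow w
  have h2 := hup w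
  -- `‖v‖² = ⟨G w, G w⟩`, `⟨G w, v⟩`
  have hCS : q ^ 2 ≤ ‖w‖ ^ 2 * ‖v‖ ^ 2 := by
    have h3 : q = ⟪v, w⟫ := by
      rw [hqd, hGw, PiLp.inner_apply]
      simp [dotProduct]
    have h4 := abs_real_inner_le_norm v w
    rw [h3, ← sq_abs]
    calc |⟪v, w⟫| ^ 2 ≤ (‖v‖ * ‖w‖) ^ 2 := pow_le_pow_left₀ (abs_nonneg _) h4 2
      _ = ‖w‖ ^ 2 * ‖v‖ ^ 2 := by ring
  have hq0 : 0 ≤ q := le_trans (by positivity) h1
  -- the operator bound `‖v‖² ≤ Lam q`
  have hv : ‖v‖ ^ 2 ≤ Lam * q := by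
    -- use the operator `opA` of the constant field
    have hs : ∀ i l, G i l = G l i := fun i l => by
      have := hG.isHermitian.apply l i
      simpa using this
    have hT : ∀ a b : EuclideanSpace ℝ (Fin n), ⟪opA (fun _ => G) 0 a, b⟫
        = dotProduct (b : Fin n → ℝ) (G.mulVec a) := by
      intro a b
      rw [PiLp.inner_apply]
      simp only [RCLike.inner_apply, conj_trivial, dotProduct]
      exact Finset.sum_congr rfl fun i _ => by rw [opA_apply]; rfl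
    have hpos : ∀ a : EuclideanSpace ℝ (Fin n), 0 ≤ ⟪opA (fun _ => G) 0 a, a⟫ := fun a => by
      rw [hT]; exact le_trans (by positivity) (hlow a)
    have hsymm : ∀ a b : EuclideanSpace ℝ (Fin n),
        ⟪opA (fun _ => G) 0 a, b⟫ = ⟪opA (fun _ => G) 0 b, a⟫ := by
      intro a b
      rw [inner_opA, inner_opA, Finset.sum_comm]
      refine Finset.sum_congr rfl fun i _ => Finset.sum_congr rfl fun l _ => ?_
      rw [hs l i]; ring
    -- `0 ≤ q(w - v/Lam)`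
    have h5 := hpos (w - Lam⁻¹ • v)
    have e1 : ⟪opA (fun _ => G) 0 w, v⟫ = ‖v‖ ^ 2 := by
      rw [hT, hGw, norm_sq_eq_dot]
    have e2 : ⟪opA (fun _ => G) 0 w, w⟫ = q := by rw [hT]
    have e3 : ⟪opA (fun _ => G) 0 v, v⟫ ≤ Lam * ‖v‖ ^ 2 := by rw [hT]; exact hup v
    have e4 : ⟪opA (fun _ => G) 0 (w - Lam⁻¹ • v), w - Lam⁻¹ • v⟫
        = q - 2 * Lam⁻¹ * ‖v‖ ^ 2 + Lam⁻¹ ^ 2 * ⟪opA (fun _ => G) 0 v, v⟫ := by
      simp only [map_sub, map_smul, inner_sub_left, inner_sub_right, real_inner_smul_left,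
        real_inner_smul_right]
      rw [hsymm v w, e1, e2]; ring
    rw [e4] at h5
    have h6 : Lam⁻¹ ^ 2 * ⟪opA (fun _ => G) 0 v, v⟫ ≤ Lam⁻¹ ^ 2 * (Lam * ‖v‖ ^ 2) :=
      mul_le_mul_of_nonneg_left e3 (by positivity)
    have h7 : Lam⁻¹ ^ 2 * (Lam * ‖v‖ ^ 2) = Lam⁻¹ * ‖v‖ ^ 2 := by field_simp
    have h8 : Lam⁻¹ * ‖v‖ ^ 2 ≤ q := by linarith
    calc ‖v‖ ^ 2 = Lam * (Lam⁻¹ * ‖v‖ ^ 2) := by field_simp
      _ ≤ Lam * q := mul_le_mul_of_nonneg_left h8 hLam.le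
  rw [hq]
  constructor
  · calc Lam⁻¹ * ‖v‖ ^ 2 ≤ Lam⁻¹ * (Lam * q) := mul_le_mul_of_nonneg_left hv (by positivity)
      _ = q := by field_simp
  · by_cases hq1 : q = 0
    · rw [hq1]; positivity
    have hqp : 0 < q := lt_of_le_of_ne hq0 (Ne.symm hq1)
    -- `q² ≤ |w|²|v|² ≤ (q/lam)|v|²`
    have h9 : ‖w‖ ^ 2 ≤ lam⁻¹ * q := by
      calc ‖w‖ ^ 2 = lam⁻¹ * (lam * ‖w‖ ^ 2) := by field_simp
        _ ≤ lam⁻¹ * q := mul_le_mul_of_nonneg_left h1 (by positivity)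
    have h10 : q * q ≤ q * (lam⁻¹ * ‖v‖ ^ 2) := by
      calc q * q = q ^ 2 := by ring
        _ ≤ ‖w‖ ^ 2 * ‖v‖ ^ 2 := hCS
        _ ≤ (lam⁻¹ * q) * ‖v‖ ^ 2 := mul_le_mul_of_nonneg_right h9 (sq_nonneg _)
        _ = q * (lam⁻¹ * ‖v‖ ^ 2) := by ring
    exact le_of_mul_le_mul_left h10 hqp

/-- uniform ellipticity of `√det g · g⁻¹` -/
lemma AA_bounds {g : MetricField n} (hg : IsRiemannianOn g univ) {lam Lam : ℝ} (hlam : 0 < lam)
    (hLam : 0 < Lam)
    (hlow : ∀ x v : EuclideanSpace ℝ (Fin n), lam * ‖v‖ ^ 2 ≤ quadForm g x v)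
    (hup : ∀ x v : EuclideanSpace ℝ (Fin n), quadForm g x v ≤ Lam * ‖v‖ ^ 2)
    (x v : EuclideanSpace ℝ (Fin n)) :
    Real.sqrt (lam ^ n) * Lam⁻¹ * ‖v‖ ^ 2 ≤ ∑ i, ∑ l, AA g x i l * v l * v i ∧
      ∑ i, ∑ l, AA g x i l * v l * v i ≤ Real.sqrt (Lam ^ n) * lam⁻¹ * ‖v‖ ^ 2 := by
  have hG := hg.posDef x (mem_univ x)
  have hl : ∀ v : EuclideanSpace ℝ (Fin n),
      lam * ‖v‖ ^ 2 ≤ dotProduct (v : Fin n → ℝ) ((g x).mulVec v) := fun v => by
    rw [← quadForm_eq]; exact hlow x v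
  have hu : ∀ v : EuclideanSpace ℝ (Fin n),
      dotProduct (v : Fin n → ℝ) ((g x).mulVec v) ≤ Lam * ‖v‖ ^ 2 := fun v => by
    rw [← quadForm_eq]; exact hup x v
  obtain ⟨d1, d2⟩ := det_bounds hG hlam hl hu
  obtain ⟨i1, i2⟩ := inv_bounds hG hlam hLam hl hu v
  have e : ∑ i, ∑ l, AA g x i l * v l * v i
      = Real.sqrt (g x).det * dotProduct (v : Fin n → ℝ) ((g x)⁻¹.mulVec v) := by
    simp only [dotProduct, Matrix.mulVec, Finset.mul_sum]
    refine Finset.sum_congr rfl fun i _ => Finset.sum_congr rfl fun l _ => ?_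
    rw [AA_apply]; unfold inverseField; ring
  have s1 : Real.sqrt (lam ^ n) ≤ Real.sqrt (g x).det := Real.sqrt_le_sqrt d1
  have s2 : Real.sqrt (g x).det ≤ Real.sqrt (Lam ^ n) := Real.sqrt_le_sqrt d2
  have hq0 : 0 ≤ dotProduct (v : Fin n → ℝ) ((g x)⁻¹.mulVec v) := le_trans (by positivity) i1
  rw [e]
  constructor
  · calc Real.sqrt (lam ^ n) * Lam⁻¹ * ‖v‖ ^ 2 = Real.sqrt (lam ^ n) * (Lam⁻¹ * ‖v‖ ^ 2) := by ring
      _ ≤ Real.sqrt (g x).det * dotProduct (v : Fin n → ℝ) ((g x)⁻¹.mulVec v) :=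
        mul_le_mul s1 i1 (by positivity) (Real.sqrt_nonneg _)
  · calc Real.sqrt (g x).det * dotProduct (v : Fin n → ℝ) ((g x)⁻¹.mulVec v)
        ≤ Real.sqrt (Lam ^ n) * (lam⁻¹ * ‖v‖ ^ 2) :=
          mul_le_mul s2 i2 hq0 (Real.sqrt_nonneg _)
      _ = Real.sqrt (Lam ^ n) * lam⁻¹ * ‖v‖ ^ 2 := by ring

end

end Crest.Agent.R202.Lim
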