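import Crest.Agent.R202.Lim7
import Crest.Agent.R202.GeoCoef
import Crest.Agent.R202.EllFinal

/-!
# Row 202, part F: the final export for the class `Fam`
-/

set_option autoImplicit false
open MeasureTheory Metric Set Filter Topology InnerProductSpace
open scoped ContDiff RealInnerProductSpace ENNReal Gradient
open Crest.GeometryTopology.CoordMetric
open Crest.Agent.R202.Ell (divA EllRegularity)
open Crest.Agent.R202.Geo

namespace Crest.Agent.R202.Lim

noncomputable section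

/-- **PART F.**  Galerkin solutions `u k j` for coefficients `A k → coefF s θ P`, with uniform
growth and energy bounds and a uniformly invertible pairing matrix, produce linearly independent
harmonic functions of polynomial growth for the metric `gfam s θ P`. -/
theorem harmonic_limit {m d : ℕ} {κ : Type*} (𝒰 : Ultrafilter κ) {J : Type*} [Fintype J]
    [DecidableEq J] {s θ : ℝ → ℝ} {P : ℝ → ℝ → ℂ → ℝ} {t0 X0 X1 K : ℝ}
    (hF : Fam s θ P t0 X0 X1) (hB : Fam.Bd s θ P K)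
    (A : κ → EuclideanSpace ℝ (Fin (m + 3)) → Matrix (Fin (m + 3)) (Fin (m + 3)) ℝ)
    (hA : ∀ᶠ k in 𝒰, ∀ i l, Continuous fun x => A k x i l)
    (hconv : ∀ R, ∀ ε > 0, ∀ᶠ k in 𝒰,
      ∀ x ∈ closedBall (0 : EuclideanSpace ℝ (Fin (m + 3))) R,
        ∀ i l, |A k x i l - coefF s θ P x i l| ≤ ε)
    (u : κ → J → EuclideanSpace ℝ (Fin (m + 3)) → ℝ)
    (hu : ∀ᶠ k in 𝒰, ∀ j, ContDiff ℝ 1 (u k j))
    (hen : ∀ R, ∃ C, ∀ᶠ k in 𝒰, ∀ j,
      ∫ x in closedBall (0 : EuclideanSpace ℝ (Fin (m + 3))) R, ‖fderiv ℝ (u k j) x‖ ^ 2 ≤ C)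
    {C : ℝ} (hgr : ∀ R, 0 ≤ R → ∀ᶠ k in 𝒰, ∀ j,
      ∫ x in ball (0 : EuclideanSpace ℝ (Fin (m + 3))) R, u k j x ^ 2
        ≤ C * (1 + R) ^ (2 * d + (m + 3)))
    {r0 : ℝ} (hr0 : 0 < r0)
    (hw0 : ∀ φ : EuclideanSpace ℝ (Fin (m + 3)) → ℝ, ContDiff ℝ ∞ φ → HasCompactSupport φ →
      tsupport φ ⊆ ball 0 r0 → ∀ᶠ k in 𝒰, ∀ j, ∫ x, Q (A k) (u k j) φ x = 0)
    (hw1 : ∀ χ : ℝ → ℝ, ContDiff ℝ ∞ χ → HasCompactSupport χ → tsupport χ ⊆ Ioi 0 →
      ∀ p : MvPolynomial (Fin (m + 3)) ℝ, ∀ᶠ k in 𝒰, ∀ j,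
        ∫ x, Q (A k) (u k j) (fun x => χ ‖x‖ * pe p x) x = 0)
    (φ : J → EuclideanSpace ℝ (Fin (m + 3)) → ℝ) (hφ : ∀ i, MemLp (φ i) 2)
    {R1 : ℝ} (hφs : ∀ i, ∀ x ∉ ball (0 : EuclideanSpace ℝ (Fin (m + 3))) R1, φ i x = 0)
    {c : ℝ} (hc : 0 < c)
    (hdet : ∀ᶠ k in 𝒰, c ≤ |(Matrix.of fun i j => ∫ x, u k j x * φ i x).det|) :
    ∃ f : J → EuclideanSpace ℝ (Fin (m + 3)) → ℝ, LinearIndependent ℝ f ∧
      ∀ j, IsHarmonicOn (gfam s θ P) univ (f j) ∧
        ∃ C' : ℝ, ∀ x, |f j x| ≤ C' * (1 + riemDist (gfam s θ P) univ 0 x) ^ d := by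
  have hex : ∀ j, ∃ f : EuclideanSpace ℝ (Fin (m + 3)) → ℝ, ContDiff ℝ ∞ f ∧
      (∀ x, divA (coefF s θ P) f x = 0) ∧
      (∀ R, 0 ≤ R → ∫ x in ball (0 : EuclideanSpace ℝ (Fin (m + 3))) R, f x ^ 2
        ≤ C * (1 + R) ^ (2 * d + (m + 3))) ∧
      ∀ (R : ℝ) (g : EuclideanSpace ℝ (Fin (m + 3)) → ℝ), MemLp g 2 →
        (∀ x ∉ ball (0 : EuclideanSpace ℝ (Fin (m + 3))) R, g x = 0) →
        Tendsto (fun k => ∫ x, u k j x * g x) 𝒰 (𝓝 (∫ x, f x * g x)) := by
    intro j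
    obtain ⟨f, hf1, hf2, hf3, hf4⟩ := exists_limit (Ell.ell_regularity (m + 3)) 𝒰 A
      (coefF s θ P) (fun k => u k j) hA (fun i l => hF.contDiff_coefF i l)
      (fun x => hF.coefF_posDef x) hconv (hu.mono fun k hk => hk j)
      (fun R => by
        obtain ⟨C, hC⟩ := hen R
        exact ⟨C, hC.mono fun k hk => hk j⟩)
      (fun R => if 0 ≤ R then C * (1 + R) ^ (2 * d + (m + 3)) else 0)
      (fun R => by
        by_cases hR : 0 ≤ R
        · simp only [hR, if_true]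
          exact (hgr R hR).mono fun k hk => hk j
        · simp only [hR, if_false]
          refine Eventually.of_forall fun k => ?_
          rw [ball_eq_empty.mpr (not_le.mp hR).le]; simp)
      hr0 (fun φ h1 h2 h3 => (hw0 φ h1 h2 h3).mono fun k hk => hk j)
      (fun χ h1 h2 h3 p => (hw1 χ h1 h2 h3 p).mono fun k hk => hk j)
    refine ⟨f, hf1, hf2, fun R hR => ?_, hf4⟩
    have := hf3 R
    simpa only [hR, if_true] using this
  choose f hf1 hf2 hf3 hf4 using hex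
  -- independence
  have hdet' : (Matrix.of fun i j => ∫ x, f j x * φ i x).det ≠ 0 := by
    have ht : Tendsto (fun k => (Matrix.of fun i j => ∫ x, u k j x * φ i x).det) 𝒰
        (𝓝 (Matrix.of fun i j => ∫ x, f j x * φ i x).det) := by
      have h1 : Tendsto (fun k => (Matrix.of fun i j => ∫ x, u k j x * φ i x)) 𝒰
          (𝓝 (Matrix.of fun i j => ∫ x, f j x * φ i x)) := by
        refine tendsto_pi_nhds.mpr fun i => tendsto_pi_nhds.mpr fun j => ?_
        exact hf4 j R1 (φ i) (hφ i) (hφs i)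
      exact (Continuous.matrix_det continuous_id).continuousAt.tendsto.comp h1
    have h2 : c ≤ |(Matrix.of fun i j => ∫ x, f j x * φ i x).det| :=
      ge_of_tendsto ht.abs hdet
    intro h0
    rw [h0, abs_zero] at h2
    linarith
  have hind : LinearIndependent ℝ f := by
    refine linearIndependent_of_pairing f φ (fun i j => ?_) hdet'
    -- integrability
    have hfB : MemLp ((ball (0 : EuclideanSpace ℝ (Fin (m + 3))) R1).indicator (f j)) 2 := by
      rw [memLp_indicator_iff_restrict measurableSet_ball]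
      have hcont : Continuous (f j) := (hf1 j).continuous
      obtain ⟨M, hM⟩ := (isCompact_closedBall (0 : EuclideanSpace ℝ (Fin (m + 3)))
        R1).exists_bound_of_continuousOn hcont.continuousOn
      have hfin : IsFiniteMeasure
          (volume.restrict (ball (0 : EuclideanSpace ℝ (Fin (m + 3))) R1)) :=
        ⟨by rw [Measure.restrict_apply_univ]; exact measure_ball_lt_top⟩
      refine MemLp.of_bound hcont.aestronglyMeasurable M ?_
      exact (ae_restrict_iff' measurableSet_ball).mpr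
        (Eventually.of_forall fun x hx => hM x (ball_subset_closedBall hx))
    have h3 : Integrable (fun x =>
        (ball (0 : EuclideanSpace ℝ (Fin (m + 3))) R1).indicator (f j) x * φ i x) :=
      hfB.integrable_mul (hφ i)
    refine h3.congr (Eventually.of_forall fun x => ?_)
    by_cases hx : x ∈ ball (0 : EuclideanSpace ℝ (Fin (m + 3))) R1
    · simp only [indicator_of_mem hx]
    · simp only [hφs i x hx, mul_zero]
  refine ⟨f, hind, fun j => ⟨(hF.isHarmonicOn_iff (f j)).mpr ⟨hf1 j, hf2 j⟩, ?_⟩⟩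
  obtain ⟨lam, Lam, hlam, hLam, hbd⟩ := Fam.coefF_bounds m K hB.one_le
  have hb := hbd s θ P t0 X0 X1 hF hB
  have hn2 : ∀ w : EuclideanSpace ℝ (Fin (m + 3)), ∑ i, w i * w i = ‖w‖ ^ 2 := by
    intro w
    rw [EuclideanSpace.real_norm_sq_eq]
    exact Finset.sum_congr rfl fun i _ => (sq _).symm
  have hcomm : ∀ x w : EuclideanSpace ℝ (Fin (m + 3)),
      ∑ i, ∑ l, coefF s θ P x i l * w l * w i = ∑ i, ∑ l, coefF s θ P x i l * w i * w l :=
    fun x w => Finset.sum_congr rfl fun i _ => Finset.sum_congr rfl fun l _ => by ring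
  obtain ⟨C', hC'⟩ := sup_growth (n := m + 3) (by omega) (A := coefF s θ P)
    (fun i l => hF.contDiff_coefF i l) (fun x i l => hF.coefF_symm x i l) (lam := lam)
    (Lam := Lam) hlam (fun x w => by rw [hcomm, ← hn2]; exact (hb x w).1)
    (fun x w => by rw [hcomm, ← hn2]; exact (hb x w).2) (hf1 j) (hf2 j) (hf3 j)
  refine ⟨C', fun x => ?_⟩
  rw [(hF.radialMetric (m := m)).riemDist_zero x]
  exact hC' x

end

end Crest.Agent.R202.Lim
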