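import Crest.Agent.R202.TopLim
import Crest.Agent.R202.Lim6
import Crest.Agent.R202.EllFinal

/-!
# Row 202, part F: the statement `Top.LimStmt` of the captain
-/

set_option autoImplicit false
open MeasureTheory Metric Set Filter Topology
open scoped ContDiff

namespace Crest.Agent.R202.Top

/-- The limit theorem in the form consumed by `Top`. -/
theorem limStmt (n : ℕ) : LimStmt n := by
  intro 𝒰 A Ai u r0 B hA hAi hpos hconv hu hen hr0 hw0 hw1 hg
  obtain ⟨f, hf1, hf2, hf3, hf4⟩ := Lim.exists_limit (Ell.ell_regularity n) 𝒰 A Ai u hA hAi hpos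
    hconv hu hen (fun R => if 0 ≤ R then B R else 0)
    (fun R => by
      by_cases hR : 0 ≤ R
      · simp only [hR, if_true]
        exact hg R hR
      · simp only [hR, if_false]
        refine Eventually.of_forall fun k => ?_
        rw [ball_eq_empty.mpr (not_le.mp hR).le]; simp)
    hr0 hw0 hw1
  refine ⟨f, hf1, hf2, fun R hR => ?_, fun φ hφ ⟨R, hR⟩ => hf4 R φ hφ hR⟩
  have := hf3 R
  simpa only [hR, if_true] using this

end Crest.Agent.R202.Top
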