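import Mathlib

/-!
# Row 202, part F: `C^1` Weierstrass approximation

`exists_poly_C1` : a smooth compactly supported function on `ℝ^n` is approximated, together with
its derivative, uniformly on a ball by a polynomial.
-/

set_option autoImplicit false
open MeasureTheory Metric Set Filter Topology
open scoped ContDiff Convolution

namespace Crest.Agent.R202.Lim

noncomputable section

variable {n : ℕ}

/-- evaluation of a polynomial at a point of Euclidean space -/
def pe (p : MvPolynomial (Fin n) ℝ) (x : EuclideanSpace ℝ (Fin n)) : ℝ :=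
  MvPolynomial.eval (fun i => x i) p

lemma pe_C (a : ℝ) (x : EuclideanSpace ℝ (Fin n)) : pe (MvPolynomial.C a) x = a := by
  simp [pe]

lemma pe_X (i : Fin n) (x : EuclideanSpace ℝ (Fin n)) : pe (MvPolynomial.X i) x = x i := by
  simp [pe]

lemma pe_add (p q : MvPolynomial (Fin n) ℝ) (x : EuclideanSpace ℝ (Fin n)) :
    pe (p + q) x = pe p x + pe q x := by
  simp [pe]

lemma pe_mul (p q : MvPolynomial (Fin n) ℝ) (x : EuclideanSpace ℝ (Fin n)) :
    pe (p * q) x = pe p x * pe q x := by
  simp [pe]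

lemma pe_sum {ι : Type*} (s : Finset ι) (p : ι → MvPolynomial (Fin n) ℝ)
    (x : EuclideanSpace ℝ (Fin n)) : pe (∑ i ∈ s, p i) x = ∑ i ∈ s, pe (p i) x := by
  simp [pe]

lemma contDiff_pe (p : MvPolynomial (Fin n) ℝ) : ContDiff ℝ ∞ (pe p) := by
  induction p using MvPolynomial.induction_on with
  | C a => simpa [funext fun x => pe_C (n := n) a x] using
      (contDiff_const : ContDiff ℝ ∞ fun _ : EuclideanSpace ℝ (Fin n) => a)
  | add p q hp hq =>
    have : pe (p + q) = fun x => pe p x + pe q x := funext fun x => pe_add p q x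
    rw [this]; exact hp.add hq
  | mul_X p i hp =>
    have : pe (p * MvPolynomial.X i) = fun x => pe p x * x i := by
      funext x; rw [pe_mul, pe_X]
    rw [this]
    have h1 : ContDiff ℝ ∞ (fun x : EuclideanSpace ℝ (Fin n) => x i) := by fun_prop
    exact hp.mul h1

lemma continuous_pe (p : MvPolynomial (Fin n) ℝ) : Continuous (pe p) :=
  (contDiff_pe p).continuous

/-- Weierstrass on a closed ball. -/
lemma exists_poly_near (R : ℝ) {f : EuclideanSpace ℝ (Fin n) → ℝ} (hf : Continuous f)
    {ε : ℝ} (hε : 0 < ε) :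
    ∃ p : MvPolynomial (Fin n) ℝ, ∀ x ∈ closedBall (0 : EuclideanSpace ℝ (Fin n)) R,
      |pe p x - f x| ≤ ε := by
  set K : Set (EuclideanSpace ℝ (Fin n)) := closedBall 0 R with hK
  have : CompactSpace K := isCompact_iff_compactSpace.mp (isCompact_closedBall _ _)
  let c : Fin n → C(K, ℝ) := fun i => ⟨fun x => (x : EuclideanSpace ℝ (Fin n)) i, by fun_prop⟩
  let A : Subalgebra ℝ C(K, ℝ) := (MvPolynomial.aeval c : MvPolynomial (Fin n) ℝ →ₐ[ℝ] C(K, ℝ)).range
  have hA : A.SeparatesPoints := by
    intro x y hxy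
    have : ∃ i, (x : EuclideanSpace ℝ (Fin n)) i ≠ (y : EuclideanSpace ℝ (Fin n)) i := by
      by_contra h
      push Not at h
      exact hxy (Subtype.ext (by ext i; exact h i))
    obtain ⟨i, hi⟩ := this
    refine ⟨fun z => (z : EuclideanSpace ℝ (Fin n)) i, ⟨c i, ?_, rfl⟩, hi⟩
    exact ⟨MvPolynomial.X i, by simp⟩
  have hd := ContinuousMap.subalgebra_topologicalClosure_eq_top_of_separatesPoints A hA
  let F : C(K, ℝ) := ⟨fun x => f x, by fun_prop⟩
  have hF : F ∈ A.topologicalClosure := by rw [hd]; trivial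
  have hF' : F ∈ closure (A : Set C(K, ℝ)) := hF
  obtain ⟨G, ⟨p, hp⟩, hG⟩ := Metric.mem_closure_iff.mp hF' ε hε
  refine ⟨p, fun x hx => ?_⟩
  have h1 : dist (F ⟨x, hx⟩) (G ⟨x, hx⟩) ≤ dist F G := ContinuousMap.dist_apply_le_dist _
  have h2 : G ⟨x, hx⟩ = pe p x := by
    rw [← hp]
    have h3 : ∀ q : MvPolynomial (Fin n) ℝ, (MvPolynomial.aeval c q : C(K, ℝ)) ⟨x, hx⟩ = pe q x := by
      intro q
      induction q using MvPolynomial.induction_on with
      | C a => simp [pe]
      | add q r hq hr => simp [pe_add, hq, hr]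
      | mul_X q i hq => simp [pe_mul, pe_X, hq, c]
    exact h3 p
  rw [h2, Real.dist_eq, abs_sub_comm] at h1
  have h4 : F ⟨x, hx⟩ = f x := rfl
  rw [h4] at h1
  linarith [hG.le]

/-- `K(x - y)` as a finite sum of products. -/
lemma split_sub (p : MvPolynomial (Fin n) ℝ) :
    ∃ (ι : Type) (_ : Fintype ι) (c : ι → EuclideanSpace ℝ (Fin n) → ℝ)
      (q : ι → MvPolynomial (Fin n) ℝ), (∀ k, Continuous (c k)) ∧
      ∀ x y, pe p (x - y) = ∑ k, c k y * pe (q k) x := by
  induction p using MvPolynomial.induction_on with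
  | C a => exact ⟨Unit, inferInstance, fun _ _ => a, fun _ => 1, fun _ => continuous_const,
      fun x y => by simp [pe]⟩
  | add p q hp hq =>
    obtain ⟨ι, _, c, u, hc, h⟩ := hp
    obtain ⟨κ, _, d, v, hd, h'⟩ := hq
    refine ⟨ι ⊕ κ, inferInstance, Sum.elim c d, Sum.elim u v, ?_, ?_⟩
    · rintro (k | k)
      · exact hc k
      · exact hd k
    · intro x y
      rw [pe_add, h, h', Fintype.sum_sum_type]
      simp
  | mul_X p i hp =>
    obtain ⟨ι, _, c, u, hc, h⟩ := hp
    refine ⟨ι ⊕ ι, inferInstance, Sum.elim c (fun k y => -(y i) * c k y),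
      Sum.elim (fun k => u k * MvPolynomial.X i) u, ?_, ?_⟩
    · rintro (k | k)
      · exact hc k
      · exact (by fun_prop : Continuous fun y : EuclideanSpace ℝ (Fin n) => -(y i)).mul (hc k)
    · intro x y
      rw [pe_mul, pe_X, h, Fintype.sum_sum_type]
      simp only [Sum.elim_inl, Sum.elim_inr, pe_mul, pe_X, PiLp.sub_apply]
      rw [Finset.sum_mul, ← Finset.sum_add_distrib]
      exact Finset.sum_congr rfl fun k _ => by ring

/-- `∫ f(y) K(x-y) dy` is a polynomial in `x`. -/
lemma exists_poly_conv (p : MvPolynomial (Fin n) ℝ) {f : EuclideanSpace ℝ (Fin n) → ℝ}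
    (hf : Continuous f) (hfc : HasCompactSupport f) :
    ∃ P : MvPolynomial (Fin n) ℝ, ∀ x, ∫ y, f y * pe p (x - y) = pe P x := by
  obtain ⟨ι, _, c, q, hc, h⟩ := split_sub p
  refine ⟨∑ k, MvPolynomial.C (∫ y, f y * c k y) * q k, fun x => ?_⟩
  simp_rw [h, Finset.mul_sum]
  rw [integral_finsetSum, pe_sum]
  · refine Finset.sum_congr rfl fun k _ => ?_
    rw [pe_mul, pe_C, ← integral_mul_const]
    exact integral_congr_ae (Eventually.of_forall fun y => by simp only; ring)
  · intro k _
    exact ((hf.mul (((hc k).mul continuous_const))).integrable_of_hasCompactSupport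
      (hfc.mul_right))

/-- approximation of a compactly supported continuous function by `K(x-·)`-averages. -/
lemma exists_kernel {G : Type*} [NormedAddCommGroup G] [NormedSpace ℝ G] [CompleteSpace G]
    {F : EuclideanSpace ℝ (Fin n) → G} (hF : Continuous F) {R R0 r ε : ℝ} (hε : 0 < ε) (hsupp : ∀ x, R0 < ‖x‖ → F x = 0)
    (hunif : ∀ x y, dist x y ≤ r → dist (F x) (F y) ≤ ε / 2)
    (φ : ContDiffBump (0 : EuclideanSpace ℝ (Fin n))) (hφ : φ.rOut = r)
    (K : MvPolynomial (Fin n) ℝ)
    (hK : ∀ z ∈ closedBall (0 : EuclideanSpace ℝ (Fin n)) (R + R0),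
      |pe K z - φ.normed volume z| * (∫ y, ‖F y‖) ≤ ε / 2) :
    ∀ x ∈ closedBall (0 : EuclideanSpace ℝ (Fin n)) R,
      ‖(∫ y, pe K (x - y) • F y) - F x‖ ≤ ε := by
  intro x hx
  have hFc : HasCompactSupport F :=
    HasCompactSupport.intro (isCompact_closedBall (0 : EuclideanSpace ℝ (Fin n)) R0)
      (fun y hy => hsupp y (by simpa using hy))
  have h1 : dist ((φ.normed volume ⋆[ContinuousLinearMap.lsmul ℝ ℝ, volume] F) x) (F x) ≤ ε / 2 := by
    refine ContDiffBump.dist_normed_convolution_le hF.aestronglyMeasurable ?_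
    intro y hy
    rw [hφ] at hy
    exact hunif _ _ (le_of_lt hy)
  have h2 : (φ.normed volume ⋆[ContinuousLinearMap.lsmul ℝ ℝ, volume] F) x
      = ∫ y, φ.normed volume (x - y) • F y := by
    rw [← integral_sub_left_eq_self (fun y => φ.normed volume (x - y) • F y) volume x]
    simp [convolution]
  have hn : Continuous (φ.normed (volume : Measure (EuclideanSpace ℝ (Fin n)))) :=
    φ.contDiff_normed (n := 0) |>.continuous
  have i1 : Integrable (fun y => pe K (x - y) • F y) :=
    (((continuous_pe K).comp (continuous_const.sub continuous_id)).smul hF).integrable_of_hasCompactSupport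
      hFc.smul_left
  have i2 : Integrable (fun y => φ.normed volume (x - y) • F y) :=
    ((hn.comp (continuous_const.sub continuous_id)).smul hF).integrable_of_hasCompactSupport
      hFc.smul_left
  have h3 : ‖(∫ y, pe K (x - y) • F y) - ∫ y, φ.normed volume (x - y) • F y‖ ≤ ε / 2 := by
    rw [← integral_sub i1 i2]
    have iF : Integrable F := hF.integrable_of_hasCompactSupport hFc
    by_cases hI : (∫ y, ‖F y‖) = 0
    · have h0 : F =ᵐ[volume] 0 := by
        have := (integral_eq_zero_iff_of_nonneg (fun y => norm_nonneg (F y)) iF.norm).mp hI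
        filter_upwards [this] with y hy
        simpa using hy
      have : (∫ y, (pe K (x - y) • F y - φ.normed volume (x - y) • F y)) = 0 := by
        apply integral_eq_zero_of_ae
        filter_upwards [h0] with y hy
        simp [hy]
      rw [this, norm_zero]; positivity
    · have hI' : 0 < ∫ y, ‖F y‖ :=
        lt_of_le_of_ne (integral_nonneg fun y => norm_nonneg _) (Ne.symm hI)
      calc ‖∫ y, (pe K (x - y) • F y - φ.normed volume (x - y) • F y)‖
          ≤ ∫ y, (ε / 2 / (∫ y, ‖F y‖)) * ‖F y‖ := by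
            refine norm_integral_le_of_norm_le (iF.norm.const_mul _) (Eventually.of_forall fun y => ?_)
            rw [← sub_smul, norm_smul, Real.norm_eq_abs]
            by_cases hy : ‖y‖ ≤ R0
            · refine mul_le_mul_of_nonneg_right ?_ (norm_nonneg _)
              rw [le_div_iff₀ hI']
              refine hK _ ?_
              rw [mem_closedBall_zero_iff] at hx ⊢
              calc ‖x - y‖ ≤ ‖x‖ + ‖y‖ := norm_sub_le _ _
                _ ≤ R + R0 := by linarith
            · rw [hsupp y (by linarith), norm_zero, mul_zero, mul_zero]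
        _ = ε / 2 := by
            rw [integral_const_mul]
            field_simp
  rw [h2] at h1
  rw [dist_eq_norm] at h1
  calc ‖(∫ y, pe K (x - y) • F y) - F x‖
      ≤ ‖(∫ y, pe K (x - y) • F y) - ∫ y, φ.normed volume (x - y) • F y‖
        + ‖(∫ y, φ.normed volume (x - y) • F y) - F x‖ := norm_sub_le_norm_sub_add_norm_sub _ _ _
    _ ≤ ε / 2 + ε / 2 := add_le_add h3 h1
    _ = ε := by ring

/-- **`C^1` Weierstrass theorem** for compactly supported functions. -/
theorem exists_poly_C1 {f : EuclideanSpace ℝ (Fin n) → ℝ} (hf : ContDiff ℝ 1 f)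
    (hfc : HasCompactSupport f) (R : ℝ) {ε : ℝ} (hε : 0 < ε) :
    ∃ P : MvPolynomial (Fin n) ℝ, ∀ x ∈ closedBall (0 : EuclideanSpace ℝ (Fin n)) R,
      |pe P x - f x| ≤ ε ∧ ‖fderiv ℝ (pe P) x - fderiv ℝ f x‖ ≤ ε := by
  have hFc' : HasCompactSupport (fderiv ℝ f) := hfc.fderiv ℝ
  have hFcont : Continuous (fderiv ℝ f) := hf.continuous_fderiv (by norm_num)
  -- a common support radius
  obtain ⟨R0, hR0⟩ : ∃ R0 : ℝ, tsupport f ⊆ closedBall (0 : EuclideanSpace ℝ (Fin n)) R0 :=
    hfc.isCompact.isBounded.subset_closedBall 0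
  have s1 : ∀ x : EuclideanSpace ℝ (Fin n), R0 < ‖x‖ → f x = 0 := fun x hx =>
    image_eq_zero_of_notMem_tsupport fun h => absurd (mem_closedBall_zero_iff.mp (hR0 h)) (not_le.mpr hx)
  have s2 : ∀ x : EuclideanSpace ℝ (Fin n), R0 < ‖x‖ → fderiv ℝ f x = 0 := fun x hx => by
    by_contra h
    exact absurd (mem_closedBall_zero_iff.mp (hR0 (support_fderiv_subset ℝ h))) (not_le.mpr hx)
  -- uniform continuity
  have u1 := hfc.uniformContinuous_of_continuous hf.continuous
  have u2 := hFc'.uniformContinuous_of_continuous hFcont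
  obtain ⟨r1, hr1, h1⟩ := Metric.uniformContinuous_iff_le.mp u1 (ε / 2) (by positivity)
  obtain ⟨r2, hr2, h2⟩ := Metric.uniformContinuous_iff_le.mp u2 (ε / 2) (by positivity)
  set r := min r1 r2 with hr
  have hr0 : 0 < r := lt_min hr1 hr2
  let φ : ContDiffBump (0 : EuclideanSpace ℝ (Fin n)) := ⟨r / 2, r, by positivity, by linarith⟩
  have hn : Continuous (φ.normed (volume : Measure (EuclideanSpace ℝ (Fin n)))) :=
    φ.contDiff_normed (n := 0) |>.continuous
  set M := (∫ y, ‖f y‖) + (∫ y, ‖fderiv ℝ f y‖) + 1 with hM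
  have hI1 : 0 ≤ ∫ y, ‖f y‖ := integral_nonneg fun y => norm_nonneg _
  have hI2 : 0 ≤ ∫ y, ‖fderiv ℝ f y‖ := integral_nonneg fun y => norm_nonneg _
  have hMpos : 0 < M := by rw [hM]; linarith
  obtain ⟨K, hK⟩ := exists_poly_near (R + R0) hn (ε := ε / 2 / M) (by positivity)
  have k1 : ∀ z ∈ closedBall (0 : EuclideanSpace ℝ (Fin n)) (R + R0),
      |pe K z - φ.normed volume z| * (∫ y, ‖f y‖) ≤ ε / 2 := fun z hz => by
    calc |pe K z - φ.normed volume z| * (∫ y, ‖f y‖) ≤ (ε / 2 / M) * M :=
          mul_le_mul (hK z hz) (by rw [hM]; linarith) hI1 (by positivity)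
      _ = ε / 2 := by field_simp
  have k2 : ∀ z ∈ closedBall (0 : EuclideanSpace ℝ (Fin n)) (R + R0),
      |pe K z - φ.normed volume z| * (∫ y, ‖fderiv ℝ f y‖) ≤ ε / 2 := fun z hz => by
    calc |pe K z - φ.normed volume z| * (∫ y, ‖fderiv ℝ f y‖) ≤ (ε / 2 / M) * M :=
          mul_le_mul (hK z hz) (by rw [hM]; linarith) hI2 (by positivity)
      _ = ε / 2 := by field_simp
  obtain ⟨P, hP⟩ := exists_poly_conv K hf.continuous hfc
  refine ⟨P, fun x hx => ⟨?_, ?_⟩⟩
  · have := exists_kernel hf.continuous hε s1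
      (fun x y hxy => h1 (hxy.trans (min_le_left _ _))) φ rfl K k1 x hx
    rw [Real.norm_eq_abs] at this
    rw [← hP x]
    convert this using 4
    simp [mul_comm]
  · have := exists_kernel hFcont hε s2
      (fun x y hxy => h2 (hxy.trans (min_le_right _ _))) φ rfl K k2 x hx
    have hconv : pe P = (f ⋆[ContinuousLinearMap.lsmul ℝ ℝ, volume] pe K) := by
      funext x
      rw [← hP x]
      simp [convolution]
    have hd := hfc.hasFDerivAt_convolution_left (μ := (volume : Measure (EuclideanSpace ℝ (Fin n))))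
      (ContinuousLinearMap.lsmul ℝ ℝ) hf (continuous_pe K).locallyIntegrable x
    have he : (fderiv ℝ f ⋆[ContinuousLinearMap.precompL (EuclideanSpace ℝ (Fin n))
        (ContinuousLinearMap.lsmul ℝ ℝ), volume] pe K) x
        = ∫ y, pe K (x - y) • fderiv ℝ f y := by
      simp only [convolution]
      refine integral_congr_ae (Eventually.of_forall fun y => ?_)
      ext v
      simp [ContinuousLinearMap.precompL_apply, mul_comm]
    rw [hconv, hd.fderiv, he]
    exact this

end

end Crest.Agent.R202.Lim
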