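import Mathlib

/-!
Row 202, Part C: choice of test functions for finitely many functionals `η ↦ ∫ η D`.
-/

set_option autoImplicit false

open MeasureTheory Set
open scoped ContDiff

noncomputable section
namespace Crest.Agent.R202.Link

/-- test functions: smooth with compact support in `(α, β)` -/
def TF (α β : ℝ) : Submodule ℝ (ℝ → ℝ) where
  carrier := {η | ContDiff ℝ ∞ η ∧ HasCompactSupport η ∧ tsupport η ⊆ Ioo α β}
  zero_mem' := ⟨contDiff_const, HasCompactSupport.zero, by
    have : tsupport (0 : ℝ → ℝ) = ∅ := tsupport_eq_empty_iff.2 rfl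
    rw [this]; exact empty_subset _⟩
  add_mem' := by
    rintro η ζ ⟨h1, h2, h3⟩ ⟨k1, k2, k3⟩
    exact ⟨h1.add k1, h2.add k2, (tsupport_add η ζ).trans (union_subset h3 k3)⟩
  smul_mem' := by
    rintro c η ⟨h1, h2, h3⟩
    refine ⟨contDiff_const.smul h1, h2.smul_left (f := fun _ => c), ?_⟩
    exact (tsupport_smul_subset_right (fun _ => c) η).trans h3

theorem mem_TF {α β : ℝ} {η : ℝ → ℝ} :
    η ∈ TF α β ↔ ContDiff ℝ ∞ η ∧ HasCompactSupport η ∧ tsupport η ⊆ Ioo α β := Iff.rfl

theorem TF.eq_zero {α β : ℝ} {η : ℝ → ℝ} (hη : η ∈ TF α β) {x : ℝ} (hx : x ∉ Ioo α β) :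
    η x = 0 := image_eq_zero_of_notMem_tsupport fun h => hx (hη.2.2 h)

theorem TF.integrable {α β : ℝ} {η D : ℝ → ℝ} (hη : η ∈ TF α β) (hD : ContinuousOn D (Ioo α β)) :
    Integrable fun x => η x * D x := by
  have h1 : ContinuousOn (fun x => η x * D x) (tsupport η) :=
    hη.1.continuous.continuousOn.mul (hD.mono hη.2.2)
  have h2 : IntegrableOn (fun x => η x * D x) (tsupport η) :=
    h1.integrableOn_compact hη.2.1.isCompact
  refine (integrableOn_iff_integrable_of_support_subset ?_).1 h2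
  intro x hx
  by_contra h
  exact hx (by simp [image_eq_zero_of_notMem_tsupport h])

/-- the functional `η ↦ ∫ η D` on the test functions -/
def fn (α β : ℝ) (D : ℝ → ℝ) (hD : ContinuousOn D (Ioo α β)) : TF α β →ₗ[ℝ] ℝ where
  toFun η := ∫ x, (η : ℝ → ℝ) x * D x
  map_add' η ζ := by
    rw [← integral_add (TF.integrable η.2 hD) (TF.integrable ζ.2 hD)]
    exact integral_congr_ae (Filter.Eventually.of_forall fun x => by
      simp [add_mul])
  map_smul' c η := by
    simp only [RingHom.id_apply, smul_eq_mul]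
    rw [← integral_const_mul]
    exact integral_congr_ae (Filter.Eventually.of_forall fun x => by
      simp [mul_assoc])

theorem fn_apply {α β : ℝ} {D : ℝ → ℝ} (hD : ContinuousOn D (Ioo α β)) (η : TF α β) :
    fn α β D hD η = ∫ x, (η : ℝ → ℝ) x * D x := rfl

/-- fundamental lemma of the calculus of variations -/
theorem eqOn_zero_of_fn {α β : ℝ} {D : ℝ → ℝ} (hD : ContinuousOn D (Ioo α β))
    (h : ∀ η ∈ TF α β, ∫ x, η x * D x = 0) : ∀ x ∈ Ioo α β, D x = 0 := by
  have hloc : LocallyIntegrableOn D (Ioo α β) := hD.locallyIntegrableOn measurableSet_Ioo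
  have h1 := isOpen_Ioo.ae_eq_zero_of_integral_contDiff_smul_eq_zero hloc
    (fun g hg hc hs => by
      have := h g ⟨hg, hc, hs⟩
      simpa [smul_eq_mul] using this)
  have h2 : D =ᵐ[volume.restrict (Ioo α β)] fun _ => (0 : ℝ) :=
    (ae_restrict_iff' measurableSet_Ioo).2 h1
  exact fun x hx => Measure.eqOn_open_of_ae_eq h2 isOpen_Ioo hD continuousOn_const hx

/-- finitely many non-zero functionals have a common non-zero -/
theorem exists_forall_ne {W ι : Type*} [AddCommGroup W] [Module ℝ W] [Finite ι]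
    (f : ι → W →ₗ[ℝ] ℝ) (h : ∀ i, f i ≠ 0) : ∃ w, ∀ i, f i w ≠ 0 := by
  by_contra hcon
  push Not at hcon
  have hcov : ⋃ i, ((LinearMap.ker (f i) : Submodule ℝ W) : Set W) = univ := by
    rw [eq_univ_iff_forall]
    intro w
    obtain ⟨i, hi⟩ := hcon w
    exact mem_iUnion.2 ⟨i, hi⟩
  obtain ⟨i, hi⟩ := Subspace.exists_eq_top_of_iUnion_eq_univ hcov
  exact h i (LinearMap.ker_eq_top.1 hi)

/-- a functional vanishing on the kernel of another one is a multiple of it -/
theorem exists_eq_smul_of_ker_le {W : Type*} [AddCommGroup W] [Module ℝ W]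
    (f g : W →ₗ[ℝ] ℝ) (h : LinearMap.ker f ≤ LinearMap.ker g) : ∃ c : ℝ, g = c • f := by
  by_cases hf : f = 0
  · refine ⟨0, ?_⟩
    ext w
    have : w ∈ LinearMap.ker f := by rw [hf]; simp
    have := h this
    rw [LinearMap.mem_ker] at this
    simp [this]
  · obtain ⟨w0, hw0⟩ : ∃ w0, f w0 ≠ 0 := by
      by_contra hcon
      push Not at hcon
      exact hf (LinearMap.ext hcon)
    refine ⟨g w0 / f w0, ?_⟩
    ext w
    have h1 : w - (f w / f w0) • w0 ∈ LinearMap.ker f := by
      rw [LinearMap.mem_ker, map_sub, map_smul, smul_eq_mul]; field_simp; ring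
    have h2 := h h1
    rw [LinearMap.mem_ker, map_sub, map_smul, smul_eq_mul] at h2
    simp only [LinearMap.smul_apply, smul_eq_mul]
    have h3 : g w = f w / f w0 * g w0 := by linarith
    rw [h3]; field_simp

/-- **(1)** one test function on which all functionals are non-zero -/
theorem exists_test_all_ne {α β : ℝ} {ι : Type*} [Finite ι] (D : ι → ℝ → ℝ)
    (hD : ∀ i, ContinuousOn (D i) (Ioo α β)) (hne : ∀ i, ∃ x ∈ Ioo α β, D i x ≠ 0) :
    ∃ η ∈ TF α β, ∀ i, ∫ x, η x * D i x ≠ 0 := by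
  obtain ⟨η, hη⟩ := exists_forall_ne (fun i => fn α β (D i) (hD i)) (fun i h0 => by
    obtain ⟨x, hx, hDx⟩ := hne i
    refine hDx (eqOn_zero_of_fn (hD i) (fun η hη => ?_) x hx)
    have := LinearMap.congr_fun h0 ⟨η, hη⟩
    simpa [fn_apply] using this)
  exact ⟨η, η.2, hη⟩

/-- a test function with prescribed value of one non-zero functional -/
theorem exists_test_eq_one {α β : ℝ} {D : ℝ → ℝ} (hD : ContinuousOn D (Ioo α β))
    (hne : ∃ x ∈ Ioo α β, D x ≠ 0) : ∃ η ∈ TF α β, ∫ x, η x * D x = 1 := by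
  obtain ⟨η, hη, h⟩ := exists_test_all_ne (ι := Unit) (fun _ => D) (fun _ => hD) (fun _ => hne)
  have h1 := h ()
  refine ⟨(∫ x, η x * D x)⁻¹ • η, Submodule.smul_mem _ _ hη, ?_⟩
  have : ∀ x, ((∫ x, η x * D x)⁻¹ • η) x * D x = (∫ x, η x * D x)⁻¹ * (η x * D x) := fun x => by
    simp [mul_assoc]
  simp only [this]
  rw [integral_const_mul, inv_mul_cancel₀ h1]

/-- **(2)** a test function in the kernel of one functional, on which all the others, which are not
proportional to it, are non-zero -/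
theorem exists_test_ker {α β : ℝ} {ι : Type*} [Finite ι] (D0 : ℝ → ℝ)
    (hD0 : ContinuousOn D0 (Ioo α β)) (D : ι → ℝ → ℝ)
    (hD : ∀ i, ContinuousOn (D i) (Ioo α β))
    (hne : ∀ i, ¬ ∃ c : ℝ, ∀ x ∈ Ioo α β, D i x = c * D0 x) :
    ∃ η ∈ TF α β, ∫ x, η x * D0 x = 0 ∧ ∀ i, ∫ x, η x * D i x ≠ 0 := by
  set f0 := fn α β D0 hD0 with hf0
  obtain ⟨η, hη⟩ := exists_forall_ne (W := LinearMap.ker f0)
    (fun i => (fn α β (D i) (hD i)).domRestrict (LinearMap.ker f0)) (fun i h0 => by
    have hle : LinearMap.ker f0 ≤ LinearMap.ker (fn α β (D i) (hD i)) := by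
      intro w hw
      have := LinearMap.congr_fun h0 ⟨w, hw⟩
      simpa using this
    obtain ⟨c, hc⟩ := exists_eq_smul_of_ker_le _ _ hle
    refine hne i ⟨c, fun x hx => ?_⟩
    have hcont : ContinuousOn (fun x => D i x - c * D0 x) (Ioo α β) :=
      (hD i).sub (continuousOn_const.mul hD0)
    have := eqOn_zero_of_fn hcont (fun η hη => ?_) x hx
    · linarith
    · have h1 := LinearMap.congr_fun hc ⟨η, hη⟩
      rw [LinearMap.smul_apply, hf0, fn_apply, fn_apply, smul_eq_mul] at h1
      have h2 : (fun x => η x * (D i x - c * D0 x)) =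
          fun x => η x * D i x - c * (η x * D0 x) := by funext x; ring
      rw [h2, integral_sub (TF.integrable hη (hD i)) ((TF.integrable hη hD0).const_mul c),
        integral_const_mul]
      simpa using sub_eq_zero.2 h1)
  refine ⟨η.1, η.1.2, ?_, fun i => ?_⟩
  · exact LinearMap.mem_ker.1 η.2
  · have := hη i
    simpa [fn_apply] using this

/-- integrals over larger intervals -/
theorem TF.setIntegral {α β a b : ℝ} {η D : ℝ → ℝ} (hη : η ∈ TF α β) (ha : a ≤ α) (hb : β ≤ b) :
    ∫ x in Ioo a b, η x * D x = ∫ x, η x * D x := by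
  rw [← integral_indicator measurableSet_Ioo]
  refine integral_congr_ae (Filter.Eventually.of_forall fun x => ?_)
  by_cases hx : x ∈ Ioo a b
  · simp only [indicator_of_mem hx]
  · rw [indicator_of_notMem hx]
    have : x ∉ Ioo α β := fun h => hx ⟨ha.trans_lt h.1, h.2.trans_le hb⟩
    simp only [TF.eq_zero hη this, zero_mul]

end Crest.Agent.R202.Link
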