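import Crest.Agent.R202.LinkAbs
import Crest.Agent.R202.SpinLink
import Crest.Agent.R202.SpFam

/-!
# Row 202, PART C: the fields `link` and `gate` of the spindle family (helper225)

* `indep_of_exponents` : densities `(1-x²)^{s_i} B_i(x)`, `B_i(1) ≠ 0`, with distinct exponents are
  linearly independent on every interval.
* `exists_test_dual` : a test function with `∫ η D₀ = 1`, `∫ η D_i = 0`.
* `link_field`, `gate_field` : exactly the fields (P5a), (P5b) of `SF.SpindleFamily` for coupling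
  functionals that are non-zero multiples of `η ↦ ∫ η linkDen`, `η ↦ ∫ η linkDenP`.
-/

set_option autoImplicit false

open MeasureTheory Set Filter Topology
open scoped ContDiff

noncomputable section
namespace Crest.Agent.R202.Link

open Crest.Agent.R202.Lab

open Polynomial in
/-- densities with distinct exponents at `x = 1` are linearly independent -/
theorem indep_of_exponents {ι : Type*} (I : Finset ι) (s : ι → ℝ) (B : ι → ℝ[X]) (κ : ι → ℝ)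
    (hs : Set.InjOn s I) (hB : ∀ i ∈ I, (B i).eval 1 ≠ 0) {α β : ℝ} (hαβ : α < β)
    (hα : -1 ≤ α) (hβ : β ≤ 1)
    (h : ∀ x ∈ Ioo α β, ∑ i ∈ I, κ i * ((1 - x ^ 2) ^ (s i) * (B i).eval x) = 0) :
    ∀ i ∈ I, κ i = 0 := by
  have hpos : ∀ x ∈ Ioo (-1 : ℝ) 1, 0 < 1 - x ^ 2 := by
    intro x hx
    have h1 := hx.1
    have h2 := hx.2
    nlinarith
  have han : AnalyticOnNhd ℝ (fun x : ℝ => ∑ i ∈ I, κ i * ((1 - x ^ 2) ^ (s i) * (B i).eval x))
      (Ioo (-1 : ℝ) 1) := by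
    intro x hx
    refine Finset.analyticAt_fun_sum _ fun i _ => ?_
    exact analyticAt_const.mul ((rpow_analytic (s i) (hpos x hx)).mul (poly_analytic (B i) x))
  set z := (α + β) / 2 with hz
  have hz1 : z ∈ Ioo α β := ⟨by rw [hz]; linarith, by rw [hz]; linarith⟩
  have hz2 : z ∈ Ioo (-1 : ℝ) 1 := ⟨lt_of_le_of_lt hα hz1.1, lt_of_lt_of_le hz1.2 hβ⟩
  have hev : (fun x : ℝ => ∑ i ∈ I, κ i * ((1 - x ^ 2) ^ (s i) * (B i).eval x)) =ᶠ[𝓝 z] 0 := by
    filter_upwards [isOpen_Ioo.mem_nhds hz1] with x hx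
    rw [h x hx]; simp
  have hall := han.eqOn_zero_of_preconnected_of_eventuallyEq_zero isPreconnected_Ioo hz2 hev
  by_contra hcon
  push Not at hcon
  classical
  set J := I.filter fun i => κ i ≠ 0 with hJ
  have hJne : J.Nonempty := by
    obtain ⟨i, hi, hk⟩ := hcon
    exact ⟨i, Finset.mem_filter.2 ⟨hi, hk⟩⟩
  obtain ⟨i0, hi0, hmin⟩ := Finset.exists_min_image J s hJne
  have hi0I : i0 ∈ I := (Finset.mem_filter.1 hi0).1
  have hk0 : κ i0 ≠ 0 := (Finset.mem_filter.1 hi0).2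
  -- the function divided by the lowest power
  have hzero : ∀ x ∈ Ioo (-1 : ℝ) 1,
      ∑ i ∈ J, κ i * ((1 - x ^ 2) ^ (s i - s i0) * (B i).eval x) = 0 := by
    intro x hx
    have hp := hpos x hx
    have h1 := hall hx
    simp only [Pi.zero_apply] at h1
    have h2 : ∑ i ∈ J, κ i * ((1 - x ^ 2) ^ (s i) * (B i).eval x) = 0 := by
      rw [← h1, hJ, Finset.sum_filter]
      refine Finset.sum_congr rfl fun i _ => ?_
      by_cases hk : κ i = 0
      · simp [hk]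
      · simp [hk]
    have h3 : ∑ i ∈ J, κ i * ((1 - x ^ 2) ^ (s i - s i0) * (B i).eval x) =
        ((1 - x ^ 2) ^ (s i0))⁻¹ * ∑ i ∈ J, κ i * ((1 - x ^ 2) ^ (s i) * (B i).eval x) := by
      rw [Finset.mul_sum]
      refine Finset.sum_congr rfl fun i _ => ?_
      rw [Real.rpow_sub hp]
      ring
    rw [h3, h2, mul_zero]
  have hcont : Continuous fun x : ℝ =>
      ∑ i ∈ J, κ i * ((1 - x ^ 2) ^ (s i - s i0) * (B i).eval x) := by
    refine continuous_finsetSum _ fun i hi => ?_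
    exact continuous_const.mul ((Continuous.rpow_const (by fun_prop)
      (fun _ => Or.inr (sub_nonneg.2 (hmin i hi)))).mul (B i).continuous)
  have c2 := (hcont.tendsto 1).mono_left (nhdsWithin_le_nhds (s := Iio (1 : ℝ)))
  have hev2 : (fun x : ℝ => ∑ i ∈ J, κ i * ((1 - x ^ 2) ^ (s i - s i0) * (B i).eval x))
      =ᶠ[𝓝[<] 1] fun _ => (0 : ℝ) := by
    have : Ioo (-1 : ℝ) 1 ∈ 𝓝[<] (1 : ℝ) := Ioo_mem_nhdsLT (by norm_num)
    filter_upwards [this] with x hx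
    exact hzero x hx
  have h4 := tendsto_nhds_unique (c2.congr' hev2) tendsto_const_nhds
  have h5 : ∑ i ∈ J, κ i * ((1 - (1 : ℝ) ^ 2) ^ (s i - s i0) * (B i).eval 1) =
      κ i0 * (B i0).eval 1 := by
    rw [Finset.sum_eq_single i0]
    · simp
    · intro i hi hne
      have hs1 : s i - s i0 ≠ 0 := by
        intro h0
        exact hne (hs (Finset.mem_filter.1 hi).1 hi0I (by linarith))
      rw [one_pow, sub_self, Real.zero_rpow hs1]
      ring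
    · intro h0; exact absurd hi0 h0
  rw [h5] at h4
  exact mul_ne_zero hk0 (hB i0 hi0I) h4

/-- a test function dual to one density and orthogonal to finitely many others -/
theorem exists_test_dual {α β : ℝ} {ι : Type*} (I : Finset ι) (D0 : ℝ → ℝ)
    (hD0 : ContinuousOn D0 (Ioo α β)) (D : ι → ℝ → ℝ)
    (hD : ∀ i ∈ I, ContinuousOn (D i) (Ioo α β))
    (hne : ∀ κ : ι → ℝ, ¬ ∀ x ∈ Ioo α β, D0 x = ∑ i ∈ I, κ i * D i x) :
    ∃ η ∈ TF α β, ∫ x, η x * D0 x = 1 ∧ ∀ i ∈ I, ∫ x, η x * D i x = 0 := by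
  classical
  set L : I → TF α β →ₗ[ℝ] ℝ := fun i => fn α β (D i) (hD i i.2) with hL
  set K : TF α β →ₗ[ℝ] ℝ := fn α β D0 hD0 with hK
  by_cases hker : ⨅ i, LinearMap.ker (L i) ≤ LinearMap.ker K
  · exfalso
    have hmem := mem_span_of_iInf_ker_le_ker hker
    obtain ⟨c, hc⟩ := (Submodule.mem_span_range_iff_exists_fun ℝ).1 hmem
    set κ : ι → ℝ := fun i => if h : i ∈ I then c ⟨i, h⟩ else 0 with hκ
    refine hne κ fun x hx => ?_
    have hcont : ContinuousOn (fun x => D0 x - ∑ i ∈ I, κ i * D i x) (Ioo α β) :=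
      hD0.sub (continuousOn_finsetSum _ fun i hi => continuousOn_const.mul (hD i hi))
    have := eqOn_zero_of_fn hcont (fun η hη => ?_) x hx
    · linarith
    · have h1 := LinearMap.congr_fun hc ⟨η, hη⟩
      rw [LinearMap.sum_apply] at h1
      simp only [LinearMap.smul_apply, smul_eq_mul, hL, hK, fn_apply] at h1
      have h2 : (fun x => η x * (D0 x - ∑ i ∈ I, κ i * D i x)) =
          fun x => η x * D0 x - ∑ i ∈ I, κ i * (η x * D i x) := by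
        funext x
        rw [mul_sub, Finset.mul_sum]
        congr 1
        exact Finset.sum_congr rfl fun i _ => by ring
      rw [h2, integral_sub (TF.integrable hη hD0)
        (integrable_finsetSum _ fun i hi => (TF.integrable hη (hD i hi)).const_mul _),
        integral_finsetSum _ fun i hi => (TF.integrable hη (hD i hi)).const_mul _]
      simp only [integral_const_mul]
      rw [← h1, sub_eq_zero]
      rw [← Finset.sum_coe_sort I (fun i => κ i * ∫ x, η x * D i x)]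
      refine Finset.sum_congr rfl fun i _ => ?_
      rw [hκ]
      simp
  · obtain ⟨w, hw1, hw2⟩ := SetLike.not_le_iff_exists.1 hker
    rw [LinearMap.mem_ker] at hw2
    refine ⟨((K w)⁻¹ • w : TF α β), ((K w)⁻¹ • w).2, ?_, fun i hi => ?_⟩
    · have : K ((K w)⁻¹ • w) = 1 := by
        rw [map_smul, smul_eq_mul, inv_mul_cancel₀ hw2]
      exact this
    · have h1 : L ⟨i, hi⟩ w = 0 := by
        have := (Submodule.mem_iInf _).1 hw1 ⟨i, hi⟩
        exact LinearMap.mem_ker.1 this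
      have : L ⟨i, hi⟩ ((K w)⁻¹ • w) = 0 := by
        rw [map_smul, h1, smul_zero]
      exact this

/-- what we need to know about the coupling functionals: on test functions with support in
`(α, β)` they are non-zero multiples of the integrals against the link densities -/
structure Cpl (d : ℕ) {α β : ℝ} {T : Submodule ℝ (ℝ → ℝ)} (hT : TF α β ≤ T)
    (A B : ℕ → ℝ → ℕ × ℕ → ℕ × ℕ → T →ₗ[ℝ] ℝ) : Prop where
  A_eq : ∀ q b, 0 < b → ∀ p p' : ℕ × ℕ, ∃ c : ℝ, c ≠ 0 ∧ ∀ η (hη : η ∈ TF α β),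
    A q b p p' ⟨η, hT hη⟩ = c * ∫ x, η x * linkDen d q (b * p.1) p.2 (b * p'.1) p'.2 x
  B_eq : ∀ q b, 0 < b → ∀ p p' : ℕ × ℕ, ∃ c : ℝ, c ≠ 0 ∧ ∀ η (hη : η ∈ TF α β),
    B q b p p' ⟨η, hT hη⟩ = c * ∫ x, η x * linkDenP d q (b * p.1) p.2 (b * p'.1) p'.2 x

theorem den_cont {d q : ℕ} {μ : ℝ} {j : ℕ} {μ' : ℝ} {j' : ℕ} {α β : ℝ} (hα : 0 ≤ α) (hβ : β ≤ 1) :
    ContinuousOn (linkDen d q μ j μ' j') (Ioo α β) :=
  (linkDen_continuousOn d q μ j μ' j').mono fun _ hx =>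
    ⟨by have := hx.1; linarith, by have := hx.2; linarith⟩

theorem denP_cont {d q : ℕ} {μ : ℝ} {j : ℕ} {μ' : ℝ} {j' : ℕ} {α β : ℝ} (hα : 0 ≤ α)
    (hβ : β ≤ 1) : ContinuousOn (linkDenP d q μ j μ' j') (Ioo α β) :=
  (linkDenP_continuousOn d q μ j μ' j').mono fun _ hx =>
    ⟨by have := hx.1; linarith, by have := hx.2; linarith⟩

variable {d : ℕ} {α β : ℝ} {T : Submodule ℝ (ℝ → ℝ)} {hT : TF α β ≤ T}
  {A B : ℕ → ℝ → ℕ × ℕ → ℕ × ℕ → T →ₗ[ℝ] ℝ}

/-- the density of the link `p → p + (a, -c)` -/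
def lden (d : ℕ) (b : ℝ) (a c : ℕ) (z : ℕ × (ℕ × ℕ)) : ℝ → ℝ :=
  linkDen d z.1 (b * z.2.1) z.2.2 (b * ((z.2.1 + a : ℕ) : ℝ)) (z.2.2 - c)

theorem lden_ne {b : ℝ} (hb : 0 < b) {a c : ℕ} (ha : 0 < a) (hc : 0 < c)
    (z : ℕ × (ℕ × ℕ)) (hz : c ≤ z.2.2) (hαβ : α < β) (hα : 0 ≤ α) (hβ : β ≤ 1) :
    ∃ x ∈ Ioo α β, lden d b a c z x ≠ 0 := by
  refine linkDen_ne_zero d z.1 (by positivity) ?_ (by omega) _ hαβ hα hβ
  have : (0 : ℝ) < ((z.2.1 + a : ℕ) : ℝ) := by exact_mod_cast (show 0 < z.2.1 + a by omega)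
  positivity

theorem lden_not_prop {b : ℝ} (hb : 0 < b) {a c : ℕ} (ha : 0 < a) (hc : 0 < c)
    {z z' : ℕ × (ℕ × ℕ)} (hz : c ≤ z.2.2) (hz' : c ≤ z'.2.2)
    (hq : (z.1 ≤ 1 ∧ z'.1 ≤ 1) ∨ (1 ≤ z.1 ∧ 1 ≤ z'.1)) (hne : z ≠ z')
    (hαβ : α < β) (hα : 0 ≤ α) (hβ : β ≤ 1) :
    ¬ ∃ κ : ℝ, ∀ x ∈ Ioo α β, lden d b a c z x = κ * lden d b a c z' x := by
  rintro ⟨κ, hκ⟩
  obtain ⟨q, m, j⟩ := z
  obtain ⟨q', m', j'⟩ := z'
  simp only at hz hz' hq
  obtain ⟨i, rfl⟩ := Nat.exists_eq_add_of_le' hz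
  obtain ⟨i', rfl⟩ := Nat.exists_eq_add_of_le' hz'
  unfold lden at hκ
  simp only [Nat.add_sub_cancel] at hκ
  obtain ⟨h1, h2, h3⟩ := link_not_prop hb ha hc hq hαβ hα hβ hκ
  exact hne (by rw [h1, h2, h3])

/-- **(P5a)** -/
theorem link_field (h : Cpl d hT A B) (hαβ : α < β) (hα : 0 ≤ α) (hβ : β ≤ 1)
    {b0 b1 : ℝ} {OK : ℕ × ℕ → Prop} (a c : ℕ) (ha : 0 < a) (hc : 0 < c)
    (_ : Nat.Coprime a c) (_ : 2 * (c : ℝ) / a ∈ Ioo b0 b1)
    (F : Finset (ℕ × (ℕ × ℕ))) (hF : ∀ z ∈ F, (∃ s, OK (z.1, s)) ∧ c ≤ z.2.2) :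
    ∃ η : T, ∀ z ∈ F, A z.1 (2 * (c : ℝ) / a) z.2 (z.2.1 + a, z.2.2 - c) η ≠ 0 := by
  have hb : 0 < 2 * (c : ℝ) / a := by
    have h1 : (0 : ℝ) < a := by exact_mod_cast ha
    have h2 : (0 : ℝ) < c := by exact_mod_cast hc
    positivity
  obtain ⟨η, hη, h1⟩ := exists_test_all_ne (α := α) (β := β) (ι := F)
    (fun z => lden d (2 * (c : ℝ) / a) a c z) (fun z => den_cont hα hβ)
    (fun z => lden_ne hb ha hc z (hF z z.2).2 hαβ hα hβ)
  refine ⟨⟨η, hT hη⟩, fun z hz => ?_⟩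
  obtain ⟨k, hk, h2⟩ := h.A_eq z.1 _ hb z.2 (z.2.1 + a, z.2.2 - c)
  rw [h2 η hη]
  exact mul_ne_zero hk (h1 ⟨z, hz⟩)

theorem finite_tie {b : ℝ} (hb : 0 < b) (p : ℕ × ℕ) :
    ∃ I : Finset (ℕ × ℕ), ∀ p₁, mu b p₁ = mu b p ↔ p₁ ∈ I := by
  classical
  obtain ⟨N, hN⟩ := exists_nat_gt (mu b p / b + mu b p)
  refine ⟨(Finset.range N ×ˢ Finset.range N).filter fun p₁ => mu b p₁ = mu b p, fun p₁ => ?_⟩
  rw [Finset.mem_filter, Finset.mem_product, Finset.mem_range, Finset.mem_range]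
  refine ⟨fun h => ⟨⟨?_, ?_⟩, h⟩, fun h => h.2⟩
  · have h1 : (p₁.1 : ℝ) ≤ mu b p / b := by
      rw [le_div_iff₀ hb, ← h]
      unfold mu
      have : (0 : ℝ) ≤ p₁.2 := Nat.cast_nonneg _
      nlinarith
    have h2 := mu_nonneg hb.le p
    have : (p₁.1 : ℝ) < N := by linarith
    exact_mod_cast this
  · have h1 : (p₁.2 : ℝ) ≤ mu b p := by
      rw [← h]
      unfold mu
      have : (0 : ℝ) ≤ p₁.2 := Nat.cast_nonneg _
      have h3 : (0 : ℝ) ≤ b * p₁.1 := by positivity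
      linarith
    have h2 : 0 ≤ mu b p / b := div_nonneg (mu_nonneg hb.le p) hb.le
    have : (p₁.2 : ℝ) < N := by linarith
    exact_mod_cast this

theorem tie_fst {b : ℝ} {p p' : ℕ × ℕ} (h : mu b p = mu b p') (h1 : p.1 = p'.1) : p = p' := by
  unfold mu at h
  rw [h1] at h
  have : (p.2 : ℝ) = p'.2 := by linarith
  exact Prod.ext h1 (by exact_mod_cast this)

/-- the densities of the second family -/
def gden (d q : ℕ) (b : ℝ) (a c : ℕ) (i : (ℕ × ℕ) × Bool) : ℝ → ℝ :=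
  if i.2 then linkDenP d q (b * i.1.1) i.1.2 (b * i.1.1) i.1.2
  else lden d b a c (q, i.1)

/-- **(P5b)** -/
theorem gate_field (h : Cpl d hT A B) (hαβ : α < β) (hα : 0 ≤ α) (hβ : β ≤ 1)
    {b0 b1 : ℝ} {OK : ℕ × ℕ → Prop}
    (hOK : (∀ σ, OK σ → σ.1 ≤ 1) ∨ (∀ σ, OK σ → 1 ≤ σ.1)) (a c : ℕ) (ha : 0 < a) (hc : 0 < c)
    (_ : Nat.Coprime a c) (_ : 2 * (c : ℝ) / a ∈ Ioo b0 b1) (q : ℕ) (p : ℕ × ℕ)
    (hp : ∃ s, OK (q, s) ∧ s ≤ p.1) (hcp : c ≤ p.2) (_ : p.2 - c < c)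
    (F : Finset (ℕ × (ℕ × ℕ))) (hF : ∀ z ∈ F, (∃ s, OK (z.1, s)) ∧ c ≤ z.2.2) :
    ∃ ηA ηB ξ : T,
      (A q (2 * (c : ℝ) / a) p (p.1 + a, p.2 - c) ηA = 0) ∧
      (∀ z ∈ F, z ≠ (q, p) → A z.1 (2 * (c : ℝ) / a) z.2 (z.2.1 + a, z.2.2 - c) ηA ≠ 0) ∧
      (A q (2 * (c : ℝ) / a) p (p.1 + a, p.2 - c) ηB = 1) ∧
      (∀ p₁ : ℕ × ℕ, c ≤ p₁.2 → mu (2 * (c : ℝ) / a) p₁ = mu (2 * (c : ℝ) / a) p → p₁ ≠ p →
        A q (2 * (c : ℝ) / a) p₁ (p₁.1 + a, p₁.2 - c) ηB = 0) ∧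
      (∀ p₁ : ℕ × ℕ, mu (2 * (c : ℝ) / a) p₁ = mu (2 * (c : ℝ) / a) p → 2 * p₁.1 = a →
        B q (2 * (c : ℝ) / a) p₁ p₁ ηB = 0) ∧
      (B q (2 * (c : ℝ) / a) p (p.1 + a, p.2 - c) ξ = 1) := by
  classical
  have har : (0 : ℝ) < a := by exact_mod_cast ha
  have hcr : (0 : ℝ) < c := by exact_mod_cast hc
  set b : ℝ := 2 * (c : ℝ) / a with hbdef
  have hba : b * a = 2 * c := by rw [hbdef]; field_simp
  have hb : 0 < b := by positivity
  have hpa : ∀ n : ℕ, (0 : ℝ) < b * ((n + a : ℕ) : ℝ) := fun n => by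
    have : (0 : ℝ) < ((n + a : ℕ) : ℝ) := by exact_mod_cast (show 0 < n + a by omega)
    positivity
  -- `ηA`
  obtain ⟨ηA, hηA, hA0, hA1⟩ := exists_test_ker (α := α) (β := β) (ι := F.erase (q, p))
    (lden d b a c (q, p)) (den_cont hα hβ) (fun z => lden d b a c z) (fun z => den_cont hα hβ)
    (fun z => by
      have hz := Finset.mem_erase.1 z.2
      refine lden_not_prop hb ha hc (hF z hz.2).2 hcp ?_ hz.1 hαβ hα hβ
      obtain ⟨s, hs⟩ := (hF z hz.2).1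
      obtain ⟨s', hs', -⟩ := hp
      rcases hOK with hO | hO
      · exact Or.inl ⟨hO _ hs, hO _ hs'⟩
      · exact Or.inr ⟨hO _ hs, hO _ hs'⟩)
  -- `ηB`
  obtain ⟨I0, hI0⟩ := finite_tie hb p
  set I1 : Finset ((ℕ × ℕ) × Bool) :=
    ((I0.filter fun p₁ => c ≤ p₁.2 ∧ p₁ ≠ p).image fun p₁ => (p₁, false)) ∪
      ((I0.filter fun p₁ => 2 * p₁.1 = a).image fun p₁ => (p₁, true)) with hI1
  have hmemI : ∀ i : (ℕ × ℕ) × Bool, i ∈ I1 ↔
      (i.2 = false ∧ mu b i.1 = mu b p ∧ c ≤ i.1.2 ∧ i.1 ≠ p) ∨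
        (i.2 = true ∧ mu b i.1 = mu b p ∧ 2 * i.1.1 = a) := by
    rintro ⟨p₁, t⟩
    rw [hI1, Finset.mem_union, Finset.mem_image, Finset.mem_image]
    constructor
    · rintro (⟨p₂, h1, h2⟩ | ⟨p₂, h1, h2⟩)
      · rw [Prod.mk.injEq] at h2
        obtain ⟨rfl, rfl⟩ := h2
        rw [Finset.mem_filter, ← hI0] at h1
        exact Or.inl ⟨rfl, h1⟩
      · rw [Prod.mk.injEq] at h2
        obtain ⟨rfl, rfl⟩ := h2
        rw [Finset.mem_filter, ← hI0] at h1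
        exact Or.inr ⟨rfl, h1⟩
    · rintro (⟨h1, h2⟩ | ⟨h1, h2⟩)
      · simp only at h1 h2
        subst h1
        exact Or.inl ⟨p₁, by rw [Finset.mem_filter, ← hI0]; exact h2, rfl⟩
      · simp only at h1 h2
        subst h1
        exact Or.inr ⟨p₁, by rw [Finset.mem_filter, ← hI0]; exact h2, rfl⟩
  have hcontG : ∀ i, ContinuousOn (gden d q b a c i) (Ioo α β) := by
    rintro ⟨p₁, t⟩
    cases t
    · simp only [gden]; exact den_cont hα hβ
    · simp only [gden]; exact denP_cont hα hβ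
  -- exponents and polynomials
  set sE : (ℕ × ℕ) × Bool → ℝ := fun i =>
    if i.2 then (b * i.1.1 + b * i.1.1) / 2 - 1
    else (b * i.1.1 + b * ((i.1.1 + a : ℕ) : ℝ)) / 2 with hsE
  set PB : (ℕ × ℕ) × Bool → Polynomial ℝ := fun i =>
    if i.2 then linkBP d q (b * i.1.1) i.1.2 (b * i.1.1) i.1.2
    else linkB d q (b * i.1.1) i.1.2 (b * ((i.1.1 + a : ℕ) : ℝ)) (i.1.2 - c) with hPB
  have hpos : ∀ x ∈ Ioo α β, 0 < 1 - x ^ 2 := by
    intro x hx
    have h1 := hx.1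
    have h2 := hx.2
    nlinarith
  have hden : ∀ i, ∀ x ∈ Ioo α β, gden d q b a c i x =
      x ^ d * ((1 - x ^ 2) ^ (sE i) * (PB i).eval x) := by
    rintro ⟨p₁, t⟩ x hx
    cases t
    · exact linkDen_eq _ _ _ _ _ _ (hpos x hx)
    · exact linkDenP_eq _ _ _ _ _ _ (hpos x hx)
  set i0 : (ℕ × ℕ) × Bool := (p, false) with hi0
  have hi0n : i0 ∉ I1 := by
    rw [hmemI]
    rintro (h1 | h1)
    · exact h1.2.2.2 rfl
    · exact absurd h1.1 (by simp [hi0])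
  have hmem' : ∀ i ∈ insert i0 I1,
      (i.2 = false ∧ mu b i.1 = mu b p ∧ c ≤ i.1.2) ∨
        (i.2 = true ∧ mu b i.1 = mu b p ∧ 2 * i.1.1 = a) := by
    intro i hi
    rcases Finset.mem_insert.1 hi with rfl | hi
    · exact Or.inl ⟨rfl, rfl, hcp⟩
    · rcases (hmemI i).1 hi with h1 | h1
      · exact Or.inl ⟨h1.1, h1.2.1, h1.2.2.1⟩
      · exact Or.inr h1
  have hinj : Set.InjOn sE (insert i0 I1 : Finset ((ℕ × ℕ) × Bool)) := by
    rintro ⟨p₁, t₁⟩ h1 ⟨p₂, t₂⟩ h2 he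
    have k1 := hmem' _ h1
    have k2 := hmem' _ h2
    simp only at k1 k2
    rcases k1 with ⟨rfl, k1, k1'⟩ | ⟨rfl, k1, k1'⟩ <;> rcases k2 with ⟨rfl, k2, k2'⟩ | ⟨rfl, k2, k2'⟩
    · simp only [hsE, Bool.false_eq_true, if_false] at he
      push_cast at he
      have e1 : b * (p₁.1 : ℝ) = b * p₂.1 := by linarith
      have e2 : (p₁.1 : ℝ) = p₂.1 := mul_left_cancel₀ hb.ne' e1
      rw [tie_fst (k1.trans k2.symm) (by exact_mod_cast e2)]
    · exfalso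
      simp only [hsE, Bool.false_eq_true, if_false, if_true] at he
      push_cast at he
      have e2 : (2 : ℝ) * p₂.1 = a := by exact_mod_cast k2'
      have e3 : b * (p₂.1 : ℝ) = c := by
        have : b * (2 * (p₂.1 : ℝ)) = 2 * c := by rw [e2, hba]
        linarith
      have e4 : (0 : ℝ) ≤ b * p₁.1 := by positivity
      linarith
    · exfalso
      simp only [hsE, Bool.false_eq_true, if_false, if_true] at he
      push_cast at he
      have e2 : (2 : ℝ) * p₁.1 = a := by exact_mod_cast k1'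
      have e3 : b * (p₁.1 : ℝ) = c := by
        have : b * (2 * (p₁.1 : ℝ)) = 2 * c := by rw [e2, hba]
        linarith
      have e4 : (0 : ℝ) ≤ b * p₂.1 := by positivity
      linarith
    · have e2 : p₁.1 = p₂.1 := by omega
      rw [tie_fst (k1.trans k2.symm) e2]
  have hPB1 : ∀ i ∈ insert i0 I1, (PB i).eval 1 ≠ 0 := by
    rintro ⟨p₁, t₁⟩ h1
    have k1 := hmem' _ h1
    simp only at k1
    rcases k1 with ⟨rfl, k1, k1'⟩ | ⟨rfl, k1, k1'⟩
    · exact linkB_one_ne_zero d q (by positivity) (hpa _) (by simp only; omega) _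
    · have e3 : 0 < b * (p₁.1 : ℝ) := by
        have : 0 < p₁.1 := by omega
        have : (0 : ℝ) < p₁.1 := by exact_mod_cast this
        positivity
      exact linkBP_one_ne_zero d q e3 e3 _ _
  obtain ⟨ηB, hηB, hB0, hB1⟩ := exists_test_dual (α := α) (β := β) I1
    (gden d q b a c i0) (hcontG i0) (gden d q b a c) (fun i _ => hcontG i) (by
      intro κ hκ
      have hz := indep_of_exponents (insert i0 I1) sE PB (fun i => if i = i0 then -1 else κ i)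
        hinj hPB1 hαβ (by linarith) hβ (by
          intro x hx
          rw [Finset.sum_insert hi0n, if_pos rfl]
          have e1 : ∑ i ∈ I1, (if i = i0 then -1 else κ i) *
              ((1 - x ^ 2) ^ (sE i) * (PB i).eval x) =
              ∑ i ∈ I1, κ i * ((1 - x ^ 2) ^ (sE i) * (PB i).eval x) := by
            refine Finset.sum_congr rfl fun i hi => ?_
            rw [if_neg (fun h : i = i0 => hi0n (h ▸ hi))]
          rw [e1]
          have hx0 : x ≠ 0 := (lt_of_le_of_lt hα hx.1).ne'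
          apply mul_left_cancel₀ (pow_ne_zero d hx0)
          have e2 := hκ x hx
          rw [hden i0 x hx, Finset.sum_congr rfl fun i _ => by rw [hden i x hx]] at e2
          have e3 : ∑ i ∈ I1, κ i * (x ^ d * ((1 - x ^ 2) ^ (sE i) * (PB i).eval x)) =
              x ^ d * ∑ i ∈ I1, κ i * ((1 - x ^ 2) ^ (sE i) * (PB i).eval x) := by
            rw [Finset.mul_sum]
            exact Finset.sum_congr rfl fun i _ => by ring
          rw [e3] at e2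
          linear_combination -e2)
      have := hz i0 (Finset.mem_insert_self _ _)
      simp at this)
  -- `ξ`
  obtain ⟨ξ, hξ, hξ1⟩ := exists_test_eq_one (α := α) (β := β)
    (D := linkDenP d q (b * p.1) p.2 (b * ((p.1 + a : ℕ) : ℝ)) (p.2 - c)) (denP_cont hα hβ) (by
      by_cases hp0 : p.1 = 0
      · have e : linkDenP d q (b * p.1) p.2 (b * ((p.1 + a : ℕ) : ℝ)) (p.2 - c) =
            linkDen d q (b * p.1) p.2 (b * ((p.1 + a : ℕ) : ℝ)) (p.2 - c) := by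
          funext x
          unfold linkDenP linkDen
          rw [hp0]
          simp
        rw [e]
        exact linkDen_ne_zero d q (by positivity) (hpa _) (by omega) _ hαβ hα hβ
      · have : (0 : ℝ) < p.1 := by exact_mod_cast Nat.pos_of_ne_zero hp0
        exact linkDenP_ne_zero d q (by positivity) (hpa _) _ _ hαβ hα hβ)
  obtain ⟨k, hk, hAe⟩ := h.A_eq q b hb p (p.1 + a, p.2 - c)
  obtain ⟨k', hk', hBe⟩ := h.B_eq q b hb p (p.1 + a, p.2 - c)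
  refine ⟨⟨ηA, hT hηA⟩, k⁻¹ • ⟨ηB, hT hηB⟩, k'⁻¹ • ⟨ξ, hT hξ⟩, ?_, ?_, ?_, ?_, ?_, ?_⟩
  · rw [hAe ηA hηA]
    have : ∫ x, ηA x * linkDen d q (b * p.1) p.2 (b * ((p.1 + a : ℕ) : ℝ)) (p.2 - c) x = 0 := hA0
    rw [this, mul_zero]
  · intro z hz hne
    obtain ⟨k1, hk1, h2⟩ := h.A_eq z.1 _ hb z.2 (z.2.1 + a, z.2.2 - c)
    rw [h2 ηA hηA]
    exact mul_ne_zero hk1 (hA1 ⟨z, Finset.mem_erase.2 ⟨hne, hz⟩⟩)
  · rw [map_smul, hAe ηB hηB]
    have : ∫ x, ηB x * linkDen d q (b * p.1) p.2 (b * ((p.1 + a : ℕ) : ℝ)) (p.2 - c) x = 1 := hB0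
    rw [this, mul_one, smul_eq_mul, inv_mul_cancel₀ hk]
  · intro p₁ h1 h2 h3
    obtain ⟨k1, hk1, h4⟩ := h.A_eq q _ hb p₁ (p₁.1 + a, p₁.2 - c)
    rw [map_smul, h4 ηB hηB]
    have : ∫ x, ηB x * linkDen d q (b * p₁.1) p₁.2 (b * ((p₁.1 + a : ℕ) : ℝ)) (p₁.2 - c) x = 0 :=
      hB1 (p₁, false) ((hmemI _).2 (Or.inl ⟨rfl, h2, h1, h3⟩))
    rw [this, mul_zero, smul_zero]
  · intro p₁ h1 h2
    obtain ⟨k1, hk1, h4⟩ := h.B_eq q _ hb p₁ p₁
    rw [map_smul, h4 ηB hηB]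
    have : ∫ x, ηB x * linkDenP d q (b * p₁.1) p₁.2 (b * p₁.1) p₁.2 x = 0 :=
      hB1 (p₁, true) ((hmemI _).2 (Or.inr ⟨rfl, h1, h2⟩))
    rw [this, mul_zero, smul_zero]
  · rw [map_smul, hBe ξ hξ]
    have : ∫ x, ξ x * linkDenP d q (b * p.1) p.2 (b * ((p.1 + a : ℕ) : ℝ)) (p.2 - c) x = 1 := hξ1
    rw [this, mul_one, smul_eq_mul, inv_mul_cancel₀ hk']

end Crest.Agent.R202.Link
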