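/-
R202 (helper14): local separation by sector polynomials, in the form of `Cut.Sep`, and the instance
for the forms `Q` of the model.
-/
import Mathlib
import Crest.Agent.R202.LocSep
import Crest.Agent.R202.Model4

set_option autoImplicit false

open Set Filter
open scoped Topology

namespace Crest.Agent.R202.LocS

open Crest.Agent.R202.Cut (Bil)

section Core

variable {V : Type*} [AddCommGroup V] [Module ℝ V] {l : ℕ}

/-- `h`-closure of a submodule -/
def clo {h : Bil V} (hh : SN h) (P0 : Submodule ℝ V) : Submodule ℝ V where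
  carrier := {v | ∀ ε > 0, ∃ p ∈ P0, h (v - p) (v - p) < ε}
  zero_mem' := fun ε hε => ⟨0, P0.zero_mem, by simpa using hε⟩
  add_mem' := by
    intro u v hu hv ε hε
    obtain ⟨p, hp, hpε⟩ := hu (ε / 4) (by positivity)
    obtain ⟨q, hq, hqε⟩ := hv (ε / 4) (by positivity)
    refine ⟨p + q, P0.add_mem hp hq, ?_⟩
    have e : u + v - (p + q) = (1 : ℝ) • (u - p) + (1 : ℝ) • (v - q) := by
      rw [one_smul, one_smul]; abel
    rw [e, hh.expand]
    have h1 := hh.nn ((1 : ℝ) • (u - p) + (-1 : ℝ) • (v - q))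
    rw [hh.expand] at h1
    linarith
  smul_mem' := by
    intro c v hv ε hε
    obtain ⟨p, hp, hpε⟩ := hv (ε / (c ^ 2 + 1)) (by positivity)
    refine ⟨c • p, P0.smul_mem c hp, ?_⟩
    rw [← smul_sub]
    have e : h (c • (v - p)) (c • (v - p)) = c ^ 2 * h (v - p) (v - p) := by
      simp only [map_smul, LinearMap.smul_apply, smul_eq_mul]; ring
    rw [e]
    have h1 : (c ^ 2 + 1) * h (v - p) (v - p) < ε := by
      rw [lt_div_iff₀ (by positivity)] at hpε
      linarith
    nlinarith [hh.nn (v - p)]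

theorem mem_clo {h : Bil V} (hh : SN h) {P0 : Submodule ℝ V} {v : V} :
    v ∈ clo hh P0 ↔ ∀ ε > 0, ∃ p ∈ P0, h (v - p) (v - p) < ε := Iff.rfl

theorem le_clo {h : Bil V} (hh : SN h) (P0 : Submodule ℝ V) : P0 ≤ clo hh P0 :=
  fun v hv ε hε => ⟨v, hv, by simpa using hε⟩

/-- **Core of LocSep** in the form of `Cut.Sep` -/
theorem core {g h a0 : Bil V} (hg : SN g) (hh : SN h) (ha : SN a0) (hgh : ∀ v, g v v ≤ h v v)
    {M : ℝ} (hM : 0 ≤ M) (hbd : ∀ v, a0 v v ≤ M ^ 2 * h v v) {c1 : ℝ} (hc1 : 0 < c1)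
    (hcoer : ∀ v, c1 * h v v ≤ a0 v v + g v v) (hdef : ∀ v, g v v = 0 → v = 0)
    {W : Submodule ℝ V} (hfd : Module.Finite ℝ W) (hW : Module.finrank ℝ W = l) {A B : ℝ}
    (hs : Cut.Sep g a0 W A B) {P0 : Submodule ℝ V} (hP : W ≤ clo hh P0)
    {A' B' : ℝ} (hA : A < A') (hAB : A' < B') (hB : B' < B) :
    ∃ p : Fin l → V, (∀ i, p i ∈ P0) ∧ LinearIndependent ℝ p ∧ ∃ ε > 0, ∀ a1 : Bil V,
      (∀ v, |a1 v v - a0 v v| ≤ ε * h v v) →
        Cut.Sep g a1 (Submodule.span ℝ (range p)) A' B' := by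
  set bs := Module.finBasisOfFinrankEq ℝ W hW with hbs
  set f : Fin l → V := fun i => (bs i : V) with hf
  have hfli : LinearIndependent ℝ f :=
    bs.linearIndependent.map' W.subtype (Submodule.ker_subtype W)
  have hspan : Submodule.span ℝ (range f) = W := by
    have h1 : Submodule.map W.subtype (Submodule.span ℝ (range bs)) =
        Submodule.span ℝ (range f) := by
      rw [Submodule.map_span, ← range_comp]; rfl
    rw [← h1, bs.span_eq, Submodule.map_top, Submodule.range_subtype]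
  have hs' : SepB (⊤ : Submodule ℝ V) g a0 f A B := by
    refine ⟨fun _ => Submodule.mem_top, hfli, hs.lt, ?_, ?_⟩
    · rw [hspan]; exact hs.le
    · intro v _ hv
      refine hs.ge v fun w hw => ?_
      rw [← hspan] at hw
      obtain ⟨x, rfl⟩ := mem_span_iff.1 hw
      rw [g_cmb]
      exact Finset.sum_eq_zero fun i _ => by rw [hv i, mul_zero]
  obtain ⟨ε, hε, hst⟩ := hs'.stable hg hh ha hgh hM hbd hc1 hcoer (fun w _ => hdef w) hA hAB hB
  have h1 : ∀ i, ∃ q ∈ P0, nrm h (q - f i) ≤ ε := fun i => by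
    obtain ⟨q, hq, hqn⟩ := hP (bs i).2 (ε ^ 2) (by positivity)
    refine ⟨q, hq, ?_⟩
    have h2 : h (q - f i) (q - f i) = h (f i - q) (f i - q) := by
      rw [← neg_sub (f i) q]
      simp only [map_neg, LinearMap.neg_apply, neg_neg]
    have h3 : nrm h (q - f i) ^ 2 < ε ^ 2 := by
      rw [hh.sq, h2]; exact hqn
    exact (lt_of_pow_lt_pow_left₀ 2 hε.le h3).le
  choose p hp hpn using h1
  have hsep : ∀ a1 : Bil V, (∀ v, |a1 v v - a0 v v| ≤ ε * h v v) →
      SepB (⊤ : Submodule ℝ V) g a1 p A' B' := fun a1 h1 =>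
    hst p (fun _ => Submodule.mem_top) hpn a1 h1
  have hself := hsep a0 fun v => by
    rw [sub_self, abs_zero]; exact mul_nonneg hε.le (hh.nn v)
  refine ⟨p, hp, hself.li, ε, hε, fun a1 h1 => ?_⟩
  have h2 := hsep a1 h1
  exact ⟨h2.lt, h2.le, fun v hv => h2.ge v Submodule.mem_top fun i =>
    hv _ (Submodule.subset_span (mem_range_self i))⟩

end Core

section Instance

open Crest.Agent.R202.Mod

variable {d q par l : ℕ}

theorem sn_g (d q par : ℕ) : SN (V := VS q par) (g d q par) := ⟨g_symm, g_nonneg⟩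

theorem sn_Q {K : ℝ} {P : ℝ × ℝ → ℝ} (hP : Adm d K P) (b : ℝ) :
    SN (V := VS q par) (Q q par hP b) :=
  ⟨Q_symm hP b, Q_nonneg hP b⟩

theorem href_apply (u v : VS q par) :
    href d q par u v = Q q par (adm_one d) 1 u v + g d q par u v := rfl

theorem sn_href (d q par : ℕ) : SN (V := VS q par) (href d q par) := by
  refine ⟨fun u v => ?_, fun v => ?_⟩
  · rw [href_apply, href_apply, Q_symm, g_symm]
  · rw [href_apply]; exact add_nonneg (Q_nonneg _ _ _) (g_nonneg _)

theorem g_le_href (v : VS q par) : g d q par v v ≤ href d q par v v := by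
  rw [href_apply]
  have := Q_nonneg (adm_one d) 1 v
  linarith

theorem Q_le_href {K : ℝ} {P : ℝ × ℝ → ℝ} (hP : Adm d K P) {b : ℝ} (hb : 1 ≤ b) (v : VS q par) :
    Q q par hP b v v ≤ (Real.sqrt K * b) ^ 2 * href d q par v v := by
  have hK : 0 ≤ K := zero_le_one.trans hP.K_ge
  have h1 := Q_le hP (b1 := 1) (by linarith : (0 : ℝ) ≤ b) le_rfl le_rfl hb v
  rw [mul_pow, Real.sq_sqrt hK, href_apply]
  have h2 := mul_nonneg (by positivity : 0 ≤ K * b ^ 2) (g_nonneg (d := d) v)
  linarith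

theorem coer_href {K : ℝ} {P : ℝ × ℝ → ℝ} (hP : Adm d K P) {b : ℝ} (hb : 1 ≤ b) (v : VS q par) :
    K⁻¹ * href d q par v v ≤ Q q par hP b v v + g d q par v v := by
  have hK : 0 < K := lt_of_lt_of_le one_pos hP.K_ge
  have h1 := Q_ge hP hb (b1 := 1) zero_le_one le_rfl le_rfl v
  rw [href_apply]
  have h2 : K⁻¹ ≤ 1 := inv_le_one_of_one_le₀ hP.K_ge
  have h3 := mul_le_mul_of_nonneg_right h2 (g_nonneg (d := d) v)
  simp only [one_pow, mul_one] at h1
  linarith

/-- all spindle functions are limits of sector polynomials -/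
theorem psi_mem_clo (b : ℝ) (m j : ℕ) :
    psi d q par b m j ∈ clo (sn_href d q par) (Pol q par) := by
  by_cases h : 1 ≤ b ∧ par ≤ m
  · intro ε hε
    exact exists_pol_near d q h.1 h.2 j hε
  · have h0 : psi d q par b m j = 0 := by
      unfold psi
      rw [dif_neg]
      simpa using h
    rw [h0]; exact Submodule.zero_mem _

/-- the space of all finite combinations of spindle functions (all values of `b`) -/
noncomputable def SpanPsi (d q par : ℕ) : Submodule ℝ (VS q par) :=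
  Submodule.span ℝ {v | ∃ b m j, v = psi d q par b m j}

theorem spanPsi_le_clo : SpanPsi d q par ≤ clo (sn_href d q par) (Pol q par) := by
  unfold SpanPsi
  rw [Submodule.span_le]
  rintro _ ⟨b, m, j, rfl⟩
  exact psi_mem_clo b m j

/-- **LocSep for the model** -/
theorem locSep_Q {K : ℝ} {P : ℝ × ℝ → ℝ} (hP : Adm d K P) {b : ℝ} (hb : 1 ≤ b)
    (hg0 : ∀ v : VS q par, g d q par v v = 0 → v = 0)
    {W : Submodule ℝ (VS q par)} (hfd : Module.Finite ℝ W) (hW : Module.finrank ℝ W = l) {A B : ℝ}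
    (hs : Cut.Sep (V := VS q par) (g d q par) (Q q par hP b) W A B)
    (hWD : W ≤ clo (sn_href d q par) (Pol q par))
    {A' B' : ℝ} (hA : A < A') (hAB : A' < B') (hB : B' < B) :
    ∃ p : Fin l → VS q par, (∀ i, p i ∈ Pol q par) ∧ LinearIndependent ℝ p ∧ ∃ ε > 0,
      ∀ a1 : Bil (VS q par),
        (∀ v, |a1 v v - Q q par hP b v v| ≤ ε * href d q par v v) →
        Cut.Sep (V := VS q par) (g d q par) a1 (Submodule.span ℝ (range p)) A' B' := by
  have hK : 0 < K := lt_of_lt_of_le one_pos hP.K_ge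
  exact core (V := VS q par) (W := W) (sn_g d q par) (sn_href d q par) (sn_Q hP b) g_le_href
    (mul_nonneg (Real.sqrt_nonneg K) (by linarith)) (Q_le_href hP hb) (inv_pos.2 hK)
    (coer_href hP hb) hg0 hfd hW hs hWD hA hAB hB

end Instance

end Crest.Agent.R202.LocS
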