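import Crest.Agent.R202.Model4

/-!
# Row 202 (DENS, helper58): the sector polynomials are dense in the core space `VS q par`
-/

set_option autoImplicit false
set_option linter.unusedSimpArgs false

open MeasureTheory Set Filter Topology Polynomial
open Crest.Agent.R202

noncomputable section

namespace Crest.Agent.R202.Mod

/-! ### even polynomials -/

/-- the even part of a polynomial is a polynomial in `x²` -/
theorem even_part (P : ℝ[X]) : ∃ p : ℝ[X], ∀ x : ℝ, P.eval x + P.eval (-x) = 2 * p.eval (x ^ 2) := by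
  induction P using Polynomial.induction_on' with
  | add P Q hP hQ =>
    obtain ⟨p, hp⟩ := hP
    obtain ⟨r, hr⟩ := hQ
    refine ⟨p + r, fun x => ?_⟩
    have h1 := hp x
    have h2 := hr x
    simp only [eval_add]
    linarith
  | monomial n a =>
    rcases Nat.even_or_odd n with h | h
    · obtain ⟨k, hk⟩ := h
      refine ⟨monomial k a, fun x => ?_⟩
      simp only [eval_monomial]
      rw [hk, ← two_mul, pow_mul, pow_mul, neg_sq]; ring
    · refine ⟨0, fun x => ?_⟩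
      simp only [eval_monomial, eval_zero, h.neg_pow]; ring

theorem hasDerivAt_eval_sq (p : ℝ[X]) (x : ℝ) :
    HasDerivAt (fun y : ℝ => p.eval (y ^ 2)) ((derivative p).eval (x ^ 2) * (2 * x)) x := by
  have h1 : HasDerivAt (fun x : ℝ => x ^ 2) (2 * x) x := by simpa using hasDerivAt_pow 2 x
  exact HasDerivAt.comp (h₂ := fun y => p.eval y) (h := fun x => x ^ 2) x (p.hasDerivAt (x ^ 2)) h1

theorem even_part_deriv {P p : ℝ[X]} (h : ∀ x : ℝ, P.eval x + P.eval (-x) = 2 * p.eval (x ^ 2))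
    (x : ℝ) : (derivative P).eval x - (derivative P).eval (-x)
      = 2 * ((derivative p).eval (x ^ 2) * (2 * x)) := by
  have h1 : HasDerivAt (fun y : ℝ => P.eval y + P.eval (-y))
      ((derivative P).eval x + (derivative P).eval (-x) * (-1)) x := by
    refine (P.hasDerivAt x).add ?_
    exact HasDerivAt.comp (h₂ := fun y => P.eval y) (h := fun x => -x) x (P.hasDerivAt (-x))
      (hasDerivAt_neg x)
  have h2 : HasDerivAt (fun y : ℝ => P.eval y + P.eval (-y))
      (2 * ((derivative p).eval (x ^ 2) * (2 * x))) x := by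
    have : (fun y : ℝ => P.eval y + P.eval (-y)) = fun y => 2 * p.eval (y ^ 2) := funext h
    rw [this]
    exact (hasDerivAt_eval_sq p x).const_mul 2
  have := h1.unique h2
  linarith

/-- `C¹` approximation of an even function on `[-1,1]` by polynomials in `x²` -/
theorem exists_even_poly_C1 {f f' : ℝ → ℝ} (hf : ∀ x ∈ Icc (-1:ℝ) 1, HasDerivAt f (f' x) x)
    (hf' : ContinuousOn f' (Icc (-1) 1)) (he : ∀ x, f (-x) = f x) {ε : ℝ} (hε : 0 < ε) :
    ∃ p : ℝ[X], ∀ x ∈ Ioo (0:ℝ) 1, |p.eval (x ^ 2) - f x| ≤ ε ∧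
      |(derivative p).eval (x ^ 2) * (2 * x) - f' x| ≤ ε := by
  obtain ⟨r, hr⟩ := exists_polynomial_near_of_continuousOn (-1) 1 f' hf' ε hε
  obtain ⟨P, hP, hP0⟩ := exists_antideriv r 0 (f 0)
  have hPf : ∀ x ∈ Icc (-1:ℝ) 1, |P.eval x - f x| ≤ ε ∧ |(derivative P).eval x - f' x| ≤ ε := by
    intro x hx
    refine ⟨?_, by rw [hP]; exact (hr x hx).le⟩
    have h1 : ∀ y ∈ Icc (-1:ℝ) 1, HasDerivWithinAt (fun y => P.eval y - f y)
        ((derivative P).eval y - f' y) (Icc (-1) 1) y := fun y hy =>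
      ((P.hasDerivAt y).sub (hf y hy)).hasDerivWithinAt
    have h2 := (convex_Icc (-1:ℝ) 1).norm_image_sub_le_of_norm_hasDerivWithin_le (C := ε) h1
      (fun y hy => by rw [hP]; exact (hr y hy).le)
      (show (0:ℝ) ∈ Icc (-1:ℝ) 1 from ⟨by norm_num, by norm_num⟩) hx
    simp only [hP0, sub_self, sub_zero, Real.norm_eq_abs] at h2
    have h3 : |x| ≤ 1 := abs_le.2 hx
    calc |P.eval x - f x| ≤ ε * |x| := h2
      _ ≤ ε * 1 := by gcongr
      _ = ε := mul_one ε
  obtain ⟨p, hp⟩ := even_part P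
  refine ⟨p, fun x hx => ?_⟩
  have hxI : x ∈ Icc (-1:ℝ) 1 := ⟨by linarith [hx.1], hx.2.le⟩
  have hxI' : -x ∈ Icc (-1:ℝ) 1 := ⟨by linarith [hx.2], by linarith [hx.1]⟩
  obtain ⟨a1, a2⟩ := hPf x hxI
  obtain ⟨b1, b2⟩ := hPf (-x) hxI'
  have hodd : f' (-x) = -f' x := by
    have h1 : HasDerivAt (fun y => f (-y)) (f' (-x) * (-1)) x :=
      HasDerivAt.comp (h₂ := f) (h := fun x => -x) x (hf (-x) hxI') (hasDerivAt_neg x)
    have h2 : (fun y => f (-y)) = f := funext he
    rw [h2] at h1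
    have := h1.unique (hf x hxI)
    linarith
  rw [he] at b1
  rw [hodd] at b2
  have e1 := hp x
  have e2 := even_part_deriv hp x
  rw [abs_le] at a1 a2 b1 b2 ⊢
  rw [abs_le]
  exact ⟨⟨by linarith [a1.1, b1.1], by linarith [a1.2, b1.2]⟩,
    ⟨by linarith [a2.1, b2.2], by linarith [a2.2, b2.1]⟩⟩

/-! ### the closing lemma -/

theorem rcomp_sub {q m : ℕ} (d : ℕ) {R S : ℝ → ℝ} (hR : IsRad q m R) (hS : IsRad q m S)
    (i : Fin 4) {x : ℝ} (hx : x ^ 2 < 1) :
    rcomp d q (R - S) i x = rcomp d q R i x - rcomp d q S i x := by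
  have hder : deriv (R - S) x = deriv R x - deriv S x :=
    ((hR.diff x hx).hasDerivAt.sub (hS.diff x hx).hasDerivAt).deriv
  fin_cases i <;> simp only [rcomp, Fin.zero_eta, Fin.mk_one, Fin.reduceFinMk]
  · rfl
  · rw [hder]; ring
  · simp only [Pi.sub_apply]; ring
  · simp only [Pi.sub_apply]; ring

/-- pointwise bound of the components of a single mode -/
theorem term_bdd (d q par m : ℕ) {R : ℝ → ℝ} {C x : ℝ} (hx : x ∈ Ioo (0:ℝ) 1)
    (h0 : |R x| ≤ C) (h1 : 1 ≤ m → |R x| ≤ C * rh x) (h2 : rh x * |deriv R x| ≤ C)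
    (h3 : 1 ≤ q → |R x| ≤ C * x) (i : Fin 4) (φ : ℝ) :
    |rcomp d q R i x * acomp par m i φ| ≤ (1 + Real.sqrt (E0 d q)) * C * (m + 1) := by
  have hC0 : 0 ≤ C := (abs_nonneg _).trans h0
  have hrh := rh_pos (sq_lt_one_of_mem hx)
  have hs := Real.sqrt_nonneg (E0 d q)
  have hbig : C ≤ (1 + Real.sqrt (E0 d q)) * C := by nlinarith
  rw [abs_mul]
  by_cases hi : i = 2 ∧ m = 0
  · obtain ⟨hi, hm⟩ := hi
    have : acomp par m i φ = 0 := by
      subst hm; subst hi; simp [acomp, trigD]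
    rw [this, abs_zero, mul_zero]
    positivity
  have ha : |acomp par m i φ| ≤ m + 1 := by
    unfold acomp; split_ifs
    · exact (abs_trigD_le _ _ _).trans (by linarith)
    · exact (abs_trig_le _ _ _).trans (by have : (0:ℝ) ≤ m := by positivity
                                          linarith)
  have hr : |rcomp d q R i x| ≤ (1 + Real.sqrt (E0 d q)) * C := by
    fin_cases i
    · exact h0.trans hbig
    · simp only [rcomp, Fin.mk_one]
      rw [abs_mul, abs_of_pos hrh]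
      exact h2.trans hbig
    · simp only [rcomp, Fin.reduceFinMk] at hi ⊢
      have hm : 1 ≤ m := by
        rcases Nat.eq_zero_or_pos m with h | h
        · exact absurd ⟨trivial, h⟩ hi
        · exact h
      rw [abs_div, abs_of_pos hrh, div_le_iff₀ hrh]
      exact (h1 hm).trans (by gcongr)
    · simp only [rcomp, Fin.reduceFinMk]
      rcases Nat.eq_zero_or_pos q with hq | hq
      · subst hq
        have : Real.sqrt (E0 d 0) = 0 := by
          simp only [E0, Nat.cast_zero, zero_mul, Real.sqrt_zero]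
        rw [this, zero_mul, abs_zero]; simpa using hC0
      · have h4 := h3 hq
        rw [abs_mul, abs_of_nonneg hs, abs_div, abs_of_pos hx.1]
        have h5 : |R x| / x ≤ C := by
          rw [div_le_iff₀ hx.1]; exact h4
        nlinarith
  gcongr

theorem href_self {d q par : ℕ} (v : VS q par) :
    href d q par v v = ∫ z, (comp d q par v 0 z ^ 2 + comp d q par v 1 z ^ 2
      + comp d q par v 2 z ^ 2 + comp d q par v 3 z ^ 2) ∂(mu d) := by
  have e0 : href d q par v v = formW q par (coef_WQ (adm_one d) 1) v v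
      + formW q par (coef_Wg d) v v := rfl
  rw [e0, formW_apply, formW_apply, ← integral_add (integrable_sum (coef_WQ (adm_one d) 1) v v)
    (integrable_sum (coef_Wg d) v v)]
  congr 1; funext z
  have w0 : Wg 0 z = 1 := rfl
  have w1 : Wg 1 z = 0 := rfl
  have w2 : Wg 2 z = 0 := rfl
  have w3 : Wg 3 z = 0 := rfl
  simp only [WQ, Fin.sum_univ_four, w0, w1, w2, w3]
  norm_num
  ring

theorem href_nonneg {d q par : ℕ} (v : VS q par) : 0 ≤ href d q par v v := by
  rw [href_self]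
  exact integral_nonneg fun z => by positivity

/-- **closing lemma**: pointwise convergence with uniform bounds gives convergence in the
reference form -/
theorem href_single_tendsto (d : ℕ) {q par m : ℕ} (hm : par ≤ m) {R : ℝ → ℝ} (hR : IsRad q m R)
    {T : ℕ → ℝ → ℝ} (hT : ∀ k, IsRad q m (T k)) {C : ℝ}
    (hb : ∀ k, ∀ x ∈ Ioo (0:ℝ) 1, |T k x| ≤ C ∧ (1 ≤ m → |T k x| ≤ C * rh x) ∧
      rh x * |deriv (T k) x| ≤ C ∧ (1 ≤ q → |T k x| ≤ C * x))
    (hlim : ∀ x ∈ Ioo (0:ℝ) 1, Tendsto (fun k => T k x) atTop (𝓝 (R x)))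
    (hlim' : ∀ x ∈ Ioo (0:ℝ) 1, Tendsto (fun k => deriv (T k) x) atTop (𝓝 (deriv R x))) :
    Tendsto (fun k => href d q par
      ((⟨Finsupp.single m R, single_mem_VS hm hR⟩ : VS q par)
        - ⟨Finsupp.single m (T k), single_mem_VS hm (hT k)⟩)
      ((⟨Finsupp.single m R, single_mem_VS hm hR⟩ : VS q par)
        - ⟨Finsupp.single m (T k), single_mem_VS hm (hT k)⟩)) atTop (𝓝 0) := by
  obtain ⟨CR, hCR⟩ := hR.bd
  have hC0 : 0 ≤ C := (abs_nonneg _).trans (hb 0 (1/2) ⟨by norm_num, by norm_num⟩).1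
  have hCR0 : 0 ≤ CR := (abs_nonneg _).trans (hCR 0 (by norm_num)).1
  set B : ℝ := (1 + Real.sqrt (E0 d q)) * CR * (m + 1) + (1 + Real.sqrt (E0 d q)) * C * (m + 1)
    with hB
  set u : ℕ → VS q par := fun k => (⟨Finsupp.single m R, single_mem_VS hm hR⟩ : VS q par)
        - ⟨Finsupp.single m (T k), single_mem_VS hm (hT k)⟩ with hu
  have hc : ∀ k i, ∀ z ∈ Om, comp d q par (u k) i z
      = rcomp d q R i z.1 * acomp par m i z.2 - rcomp d q (T k) i z.1 * acomp par m i z.2 := by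
    intro k i z hz
    have e1 : ((u k : VS q par) : ℕ →₀ (ℝ → ℝ)) = Finsupp.single m (R - T k) := by
      rw [hu]
      show Finsupp.single m R - Finsupp.single m (T k) = _
      rw [Finsupp.single_sub]
    rw [e1, comp_single, rcomp_sub d hR (hT k) i (sq_lt_one_of_mem hz.1)]
    ring
  have hcb : ∀ k i, ∀ z ∈ Om, |comp d q par (u k) i z| ≤ B := by
    intro k i z hz
    rw [hc k i z hz]
    obtain ⟨a1, a2, a3, a4⟩ := hCR z.1 (sq_lt_one_of_mem hz.1)
    obtain ⟨b1, b2, b3, b4⟩ := hb k z.1 hz.1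
    refine (abs_sub _ _).trans (add_le_add ?_ ?_)
    · exact term_bdd d q par m hz.1 a1 a2 a3 (fun h => by
        have := a4 h; rwa [abs_of_pos hz.1.1] at this) i z.2
    · exact term_bdd d q par m hz.1 b1 b2 b3 b4 i z.2
  have hcl : ∀ i, ∀ z ∈ Om, Tendsto (fun k => comp d q par (u k) i z) atTop (𝓝 0) := by
    intro i z hz
    have e1 : (fun k => comp d q par (u k) i z) = fun k =>
        rcomp d q R i z.1 * acomp par m i z.2 - rcomp d q (T k) i z.1 * acomp par m i z.2 :=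
      funext fun k => hc k i z hz
    rw [e1]
    have e2 : Tendsto (fun k => rcomp d q (T k) i z.1) atTop (𝓝 (rcomp d q R i z.1)) := by
      have l0 := hlim z.1 hz.1
      have l1 := hlim' z.1 hz.1
      fin_cases i
      · exact l0
      · exact l1.const_mul (rh z.1)
      · exact l0.div_const (rh z.1)
      · exact (l0.div_const z.1).const_mul _
    have := (e2.mul_const (acomp par m i z.2)).const_sub (rcomp d q R i z.1 * acomp par m i z.2)
    simpa using this
  have key : Tendsto (fun k => ∫ z, (comp d q par (u k) 0 z ^ 2 + comp d q par (u k) 1 z ^ 2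
      + comp d q par (u k) 2 z ^ 2 + comp d q par (u k) 3 z ^ 2) ∂(mu d)) atTop
      (𝓝 (∫ _, (0:ℝ) ∂(mu d))) := by
    refine tendsto_integral_of_dominated_convergence (fun _ => 4 * B ^ 2)
      (fun k => ?_) (integrable_const _) (fun k => ?_) ?_
    · exact ((((aesm_comp d (u k) 0).pow 2).add ((aesm_comp d (u k) 1).pow 2)).add
        ((aesm_comp d (u k) 2).pow 2)).add ((aesm_comp d (u k) 3).pow 2)
    · filter_upwards [ae_mem_Om d] with z hz
      have h3 : ∀ i, comp d q par (u k) i z ^ 2 ≤ B ^ 2 := fun i => by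
        have := hcb k i z hz
        have h4 := abs_nonneg (comp d q par (u k) i z)
        rw [← sq_abs]
        gcongr
      have h0 := h3 0; have h1 := h3 1; have h2 := h3 2; have h4 := h3 3
      rw [Real.norm_eq_abs, abs_of_nonneg (by positivity)]
      linarith
    · filter_upwards [ae_mem_Om d] with z hz
      have h := ((((hcl 0 z hz).pow 2).add ((hcl 1 z hz).pow 2)).add ((hcl 2 z hz).pow 2)).add
        ((hcl 3 z hz).pow 2)
      simpa using h
  rw [integral_zero] at key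
  refine key.congr fun k => ?_
  rw [← href_self]

/-! ### the regularised functions -/

theorem hasDerivAt_rh {x : ℝ} (hx : x ^ 2 < 1) : HasDerivAt rh (-(x / rh x)) x := by
  have h1 : HasDerivAt (fun x : ℝ => 1 - x ^ 2) (-(2 * x)) x := by
    simpa using (hasDerivAt_pow 2 x).const_sub 1
  have h2 := h1.sqrt (by linarith : (1:ℝ) - x ^ 2 ≠ 0)
  refine h2.congr_deriv ?_
  have := (rh_pos hx).ne'
  unfold rh at this ⊢
  field_simp

/-- the weight `ρ^m x^q` -/
def Aw (q m : ℕ) (x : ℝ) : ℝ := rh x ^ m * x ^ q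

/-- its derivative -/
def Ad (q m : ℕ) (x : ℝ) : ℝ :=
  m * rh x ^ (m - 1) * (-(x / rh x)) * x ^ q + rh x ^ m * (q * x ^ (q - 1))

theorem hasDerivAt_Aw (q m : ℕ) {x : ℝ} (hx : x ^ 2 < 1) : HasDerivAt (Aw q m) (Ad q m x) x :=
  ((hasDerivAt_rh hx).pow m).mul (hasDerivAt_pow q x)

/-- the regularised function -/
def Sf (q m : ℕ) (R : ℝ → ℝ) (l e x : ℝ) : ℝ :=
  R (l * x) * (rh x / rh (l * x)) ^ m * (x ^ 2 / (x ^ 2 + e)) ^ q

/-- its derivative -/
def Sd (q m : ℕ) (R : ℝ → ℝ) (l e x : ℝ) : ℝ :=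
  (l * deriv R (l * x) * (rh x / rh (l * x)) ^ m
      + R (l * x) * (m * (rh x / rh (l * x)) ^ (m - 1)
        * (-(x * (1 - l ^ 2) / (rh x * rh (l * x) ^ 3))))) * (x ^ 2 / (x ^ 2 + e)) ^ q
    + R (l * x) * (rh x / rh (l * x)) ^ m
      * (q * (x ^ 2 / (x ^ 2 + e)) ^ (q - 1) * (2 * x * e / (x ^ 2 + e) ^ 2))

/-- the quotient by the weight -/
def Ff (q m : ℕ) (R : ℝ → ℝ) (l e x : ℝ) : ℝ :=
  R (l * x) / rh (l * x) ^ m * (x ^ q / (x ^ 2 + e) ^ q)

theorem Aw_mul_Ff (q m : ℕ) (R : ℝ → ℝ) (l e x : ℝ) : Aw q m x * Ff q m R l e x = Sf q m R l e x := by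
  unfold Aw Ff Sf
  rw [div_pow, div_pow, sq x, mul_pow]
  ring

theorem lx_sq_lt {l x : ℝ} (hl0 : 0 < l) (hl1 : l < 1) (hx : x ^ 2 < 1) : (l * x) ^ 2 < 1 := by
  have h1 : l ^ 2 < 1 := by nlinarith
  have h2 : 0 ≤ x ^ 2 := sq_nonneg x
  have h3 : 0 ≤ l ^ 2 := sq_nonneg l
  rw [mul_pow]; nlinarith

theorem lx_sq_lt' {l x : ℝ} (hl0 : 0 < l) (hl1 : l < 1) (hx : x ^ 2 ≤ 1) : (l * x) ^ 2 < 1 := by
  have h1 : l ^ 2 < 1 := by nlinarith
  have h2 : 0 ≤ x ^ 2 := sq_nonneg x
  have h3 : 0 ≤ l ^ 2 := sq_nonneg l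
  rw [mul_pow]; nlinarith

theorem hasDerivAt_Sf {q m : ℕ} {R : ℝ → ℝ} (hR : IsRad q m R) {l e : ℝ} (hl0 : 0 < l) (hl1 : l < 1)
    (he : 0 < e) {x : ℝ} (hx : x ^ 2 < 1) :
    HasDerivAt (Sf q m R l e) (Sd q m R l e x) x := by
  have hlx := lx_sq_lt hl0 hl1 hx
  have hρ := rh_pos hx
  have hρl := rh_pos hlx
  have hlin : HasDerivAt (fun y : ℝ => l * y) l x := by
    simpa using (hasDerivAt_id x).const_mul l
  have h1 : HasDerivAt (fun y => R (l * y)) (deriv R (l * x) * l) x :=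
    HasDerivAt.comp (h₂ := R) (h := fun y => l * y) x (hR.diff _ hlx).hasDerivAt hlin
  have h2 : HasDerivAt (fun y => rh (l * y)) (-(l * x / rh (l * x)) * l) x :=
    HasDerivAt.comp (h₂ := rh) (h := fun y => l * y) x (hasDerivAt_rh hlx) hlin
  have h3 : HasDerivAt (fun y => rh y / rh (l * y)) (-(x * (1 - l ^ 2) / (rh x * rh (l * x) ^ 3))) x := by
    refine ((hasDerivAt_rh hx).div h2 hρl.ne').congr_deriv ?_
    have e1 := rh_sq hx
    have e2 := rh_sq hlx
    generalize rh x = a at hρ e1 ⊢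
    generalize rh (l * x) = b at hρl e2 ⊢
    have ha := hρ.ne'
    have hb := hρl.ne'
    field_simp
    linear_combination (x * l ^ 2) * e1 - x * e2
  have h4 : HasDerivAt (fun y : ℝ => y ^ 2) (2 * x) x := by simpa using hasDerivAt_pow 2 x
  have hpos : 0 < x ^ 2 + e := by positivity
  have h5 : HasDerivAt (fun y : ℝ => y ^ 2 / (y ^ 2 + e)) (2 * x * e / (x ^ 2 + e) ^ 2) x := by
    refine (h4.div (h4.add_const e) hpos.ne').congr_deriv ?_
    field_simp
    ring
  have h6 := (h1.mul (h3.pow m)).mul (h5.pow q)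
  refine h6.congr_deriv ?_
  unfold Sd
  simp only [Pi.pow_apply, Pi.mul_apply]
  ring

theorem contDiffOn_rh : ContDiffOn ℝ 1 rh (Ioo (-1) 1) := by
  unfold rh
  refine ContDiffOn.sqrt (by fun_prop) fun x hx => ?_
  have h1 := hx.1; have h2 := hx.2
  nlinarith

/-- `C¹` regularity of the quotient on `[-1,1]` -/
theorem Ff_C1 {q m : ℕ} {R : ℝ → ℝ} (hR : IsRad q m R) {l e : ℝ} (hl0 : 0 < l) (hl1 : l < 1)
    (he : 0 < e) : (∀ x ∈ Icc (-1:ℝ) 1, HasDerivAt (Ff q m R l e) (deriv (Ff q m R l e) x) x) ∧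
      ContinuousOn (deriv (Ff q m R l e)) (Icc (-1) 1) := by
  set U : Set ℝ := {x | (l * x) ^ 2 < 1} with hU
  have hUo : IsOpen U := isOpen_lt (by fun_prop) continuous_const
  have hmaps : MapsTo (fun x : ℝ => l * x) U (Ioo (-1) 1) := fun x hx => by
    have : |l * x| < 1 := (sq_lt_one_iff_abs_lt_one _).1 hx
    exact abs_lt.1 this
  have hsub : Icc (-1:ℝ) 1 ⊆ U := fun x hx => by
    have h1 : |x| ≤ 1 := abs_le.2 hx
    exact lx_sq_lt' hl0 hl1 ((sq_le_one_iff_abs_le_one x).2 h1)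
  have hRC : ContDiffOn ℝ 1 R (Ioo (-1) 1) := by
    have h := (contDiffOn_succ_iff_deriv_of_isOpen (n := 0) (𝕜 := ℝ) (f := R)
      (isOpen_Ioo : IsOpen (Ioo (-1:ℝ) 1))).2 ⟨fun x hx => ?_, fun h => ?_, ?_⟩
    · simpa using h
    · refine (hR.diff x ?_).differentiableWithinAt
      have h1 := hx.1; have h2 := hx.2; nlinarith
    · simp at h
    · exact contDiffOn_zero.2 hR.cont
  have hlin : ContDiffOn ℝ 1 (fun x : ℝ => l * x) U := by fun_prop
  have h1 : ContDiffOn ℝ 1 (fun x => R (l * x)) U := hRC.comp hlin hmaps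
  have h2 : ContDiffOn ℝ 1 (fun x => rh (l * x)) U := contDiffOn_rh.comp hlin hmaps
  have h3 : ContDiffOn ℝ 1 (fun x : ℝ => x ^ q / (x ^ 2 + e) ^ q) U := by
    refine ContDiffOn.div (by fun_prop) (by fun_prop) fun x _ => ?_
    have : 0 < x ^ 2 + e := by positivity
    positivity
  have h4 : ContDiffOn ℝ 1 (Ff q m R l e) U := by
    refine (h1.div (h2.pow m) fun x hx => ?_).mul h3
    exact pow_ne_zero _ (rh_pos hx).ne'
  constructor
  · intro x hx
    have h5 : ContDiffAt ℝ 1 (Ff q m R l e) x := h4.contDiffAt (hUo.mem_nhds (hsub hx))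
    exact (h5.differentiableAt (by norm_num)).hasDerivAt
  · exact (h4.continuousOn_deriv_of_isOpen hUo (by norm_num)).mono hsub

theorem Ff_even {q m : ℕ} {R : ℝ → ℝ} (hR : IsRad q m R) (l e x : ℝ) :
    Ff q m R l e (-x) = Ff q m R l e x := by
  unfold Ff
  have e1 : rh (l * -x) = rh (l * x) := by unfold rh; congr 2; ring
  have e2 : R (l * -x) = (-1) ^ q * R (l * x) := by rw [mul_neg, hR.par]
  rw [e1, e2, neg_sq, neg_pow x q]
  have e3 : ((-1:ℝ) ^ q) * (-1) ^ q = 1 := by rw [← mul_pow]; norm_num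
  calc (-1) ^ q * R (l * x) / rh (l * x) ^ m * ((-1) ^ q * x ^ q / (x ^ 2 + e) ^ q)
      = ((-1) ^ q * (-1) ^ q) * (R (l * x) / rh (l * x) ^ m * (x ^ q / (x ^ 2 + e) ^ q)) := by ring
    _ = _ := by rw [e3, one_mul]

theorem Ad_mul_Ff {q m : ℕ} {R : ℝ → ℝ} (hR : IsRad q m R) {l e : ℝ} (hl0 : 0 < l) (hl1 : l < 1)
    (he : 0 < e) {x : ℝ} (hx : x ∈ Ioo (0:ℝ) 1) :
    Ad q m x * Ff q m R l e x + Aw q m x * deriv (Ff q m R l e) x = Sd q m R l e x := by
  have hx2 := sq_lt_one_of_mem hx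
  have h1 := (hasDerivAt_Aw q m hx2).mul ((Ff_C1 hR hl0 hl1 he).1 x ⟨by linarith [hx.1], hx.2.le⟩)
  have h2 := hasDerivAt_Sf hR hl0 hl1 he hx2
  have h3 : (Aw q m * Ff q m R l e) = Sf q m R l e := funext fun y => Aw_mul_Ff q m R l e y
  rw [h3] at h1
  exact h1.unique h2

/-! ### bounds -/

theorem Aw_nonneg (q m : ℕ) {x : ℝ} (hx : x ∈ Ioo (0:ℝ) 1) : 0 ≤ Aw q m x :=
  mul_nonneg (pow_nonneg (rh_nonneg x) m) (pow_nonneg hx.1.le q)

theorem Aw_le_one (q m : ℕ) {x : ℝ} (hx : x ∈ Ioo (0:ℝ) 1) : Aw q m x ≤ 1 :=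
  mul_le_one₀ (pow_le_one₀ (rh_nonneg x) (rh_le_one x)) (pow_nonneg hx.1.le q)
    (pow_le_one₀ hx.1.le hx.2.le)

theorem Aw_le_rh (q : ℕ) {m : ℕ} (hm : 1 ≤ m) {x : ℝ} (hx : x ∈ Ioo (0:ℝ) 1) : Aw q m x ≤ rh x := by
  have h1 : rh x ^ m ≤ rh x := by
    calc rh x ^ m ≤ rh x ^ 1 := pow_le_pow_of_le_one (rh_nonneg x) (rh_le_one x) hm
      _ = rh x := pow_one _
  have h2 : x ^ q ≤ 1 := pow_le_one₀ hx.1.le hx.2.le
  have h3 := rh_nonneg x
  have h4 : 0 ≤ x ^ q := pow_nonneg hx.1.le q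
  calc Aw q m x = rh x ^ m * x ^ q := rfl
    _ ≤ rh x * 1 := by gcongr
    _ = rh x := mul_one _

theorem Aw_le_x {q : ℕ} (m : ℕ) (hq : 1 ≤ q) {x : ℝ} (hx : x ∈ Ioo (0:ℝ) 1) : Aw q m x ≤ x := by
  have h1 : rh x ^ m ≤ 1 := pow_le_one₀ (rh_nonneg x) (rh_le_one x)
  have h2 : x ^ q ≤ x := by
    calc x ^ q ≤ x ^ 1 := pow_le_pow_of_le_one hx.1.le hx.2.le hq
      _ = x := pow_one _
  have h3 : 0 ≤ rh x ^ m := pow_nonneg (rh_nonneg x) m
  have h4 : 0 ≤ x := hx.1.le
  calc Aw q m x = rh x ^ m * x ^ q := rfl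
    _ ≤ 1 * x := by gcongr
    _ = x := one_mul _

theorem Ad_bound (q m : ℕ) {x : ℝ} (hx : x ∈ Ioo (0:ℝ) 1) : rh x * |Ad q m x| ≤ m + q := by
  have hρ := rh_pos (sq_lt_one_of_mem hx)
  have hρ1 := rh_le_one x
  have h1 : rh x * |m * rh x ^ (m - 1) * (-(x / rh x)) * x ^ q| ≤ m := by
    rw [abs_mul, abs_mul, abs_mul, abs_neg, abs_div, Nat.abs_cast, abs_of_pos hρ, abs_of_pos hx.1,
      abs_of_nonneg (pow_nonneg hρ.le _), abs_of_nonneg (pow_nonneg hx.1.le _)]
    have e1 : rh x ^ (m - 1) ≤ 1 := pow_le_one₀ hρ.le hρ1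
    have e2 : x ^ q ≤ 1 := pow_le_one₀ hx.1.le hx.2.le
    have e3 : 0 ≤ x ^ q := pow_nonneg hx.1.le q
    have e4 := hx.1.le
    have e5 := hx.2.le
    calc rh x * (m * rh x ^ (m - 1) * (x / rh x) * x ^ q)
        = m * rh x ^ (m - 1) * x * x ^ q := by field_simp
      _ ≤ m * 1 * 1 * 1 := by gcongr
      _ = m := by ring
  have h2 : rh x * |rh x ^ m * (q * x ^ (q - 1))| ≤ q := by
    rw [abs_mul, abs_mul, Nat.abs_cast, abs_of_nonneg (pow_nonneg hρ.le _),
      abs_of_nonneg (pow_nonneg hx.1.le _)]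
    have e1 : rh x ^ m ≤ 1 := pow_le_one₀ hρ.le hρ1
    have e2 : x ^ (q - 1) ≤ 1 := pow_le_one₀ hx.1.le hx.2.le
    have e3 : 0 ≤ x ^ (q - 1) := pow_nonneg hx.1.le _
    calc rh x * (rh x ^ m * (q * x ^ (q - 1))) ≤ 1 * (1 * (q * 1)) := by gcongr
      _ = q := by ring
  unfold Ad
  calc rh x * |_ + _| ≤ rh x * (|m * rh x ^ (m - 1) * (-(x / rh x)) * x ^ q|
        + |rh x ^ m * (q * x ^ (q - 1))|) := by gcongr; exact abs_add_le _ _
    _ = _ := mul_add _ _ _
    _ ≤ m + q := add_le_add h1 h2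

/-- bounds of the regularised function and its derivative -/
theorem Sf_bounds {q m : ℕ} {R : ℝ → ℝ} {C : ℝ} (hC : ∀ x, x ^ 2 < 1 → |R x| ≤ C ∧
      (1 ≤ m → |R x| ≤ C * rh x) ∧ rh x * |deriv R x| ≤ C ∧ (1 ≤ q → |R x| ≤ C * |x|))
    {l e : ℝ} (hl0 : 0 < l) (hl1 : l < 1) (he : 0 < e) {x : ℝ} (hx : x ∈ Ioo (0:ℝ) 1) :
    |Sf q m R l e x| ≤ C ∧ (1 ≤ m → |Sf q m R l e x| ≤ C * rh x) ∧
      rh x * |Sd q m R l e x| ≤ C * (1 + m + q) ∧ (1 ≤ q → |Sf q m R l e x| ≤ C * x) := by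
  have hx2 := sq_lt_one_of_mem hx
  have hlx := lx_sq_lt hl0 hl1 hx2
  have hρ := rh_pos hx2
  have hρl := rh_pos hlx
  obtain ⟨a1, a2, a3, a4⟩ := hC _ hlx
  have hC0 : 0 ≤ C := (abs_nonneg _).trans a1
  have hmono : rh x ≤ rh (l * x) := by
    unfold rh
    apply Real.sqrt_le_sqrt
    have : l ^ 2 * x ^ 2 ≤ 1 * x ^ 2 := by
      gcongr
      nlinarith
    rw [mul_pow]; linarith
  set w : ℝ := rh x / rh (l * x) with hw
  have hw0 : 0 ≤ w := by positivity
  have hw1 : w ≤ 1 := (div_le_one hρl).2 hmono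
  set c : ℝ := x ^ 2 / (x ^ 2 + e) with hc
  have hpos : 0 < x ^ 2 + e := by positivity
  have hc0 : 0 ≤ c := by positivity
  have hc1 : c ≤ 1 := (div_le_one hpos).2 (by linarith)
  have hwm : w ^ m ≤ 1 := pow_le_one₀ hw0 hw1
  have hwm' : w ^ (m - 1) ≤ 1 := pow_le_one₀ hw0 hw1
  have hcq : c ^ q ≤ 1 := pow_le_one₀ hc0 hc1
  have hcq' : c ^ (q - 1) ≤ 1 := pow_le_one₀ hc0 hc1
  have hwm0 : 0 ≤ w ^ m := pow_nonneg hw0 _
  have hwm0' : 0 ≤ w ^ (m - 1) := pow_nonneg hw0 _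
  have hcq0 : 0 ≤ c ^ q := pow_nonneg hc0 _
  have hcq0' : 0 ≤ c ^ (q - 1) := pow_nonneg hc0 _
  have habs : |Sf q m R l e x| = |R (l * x)| * w ^ m * c ^ q := by
    unfold Sf
    rw [← hw, ← hc, abs_mul, abs_mul, abs_of_nonneg hwm0, abs_of_nonneg hcq0]
  have hx0 := hx.1.le
  have hwρ : w * rh (l * x) = rh x := by rw [hw]; field_simp
  refine ⟨?_, fun hm => ?_, ?_, fun hq => ?_⟩
  · rw [habs]
    calc |R (l * x)| * w ^ m * c ^ q ≤ C * 1 * 1 := by gcongr
      _ = C := by ring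
  · rw [habs]
    have e1 : w ^ m ≤ w := by
      calc w ^ m ≤ w ^ 1 := pow_le_pow_of_le_one hw0 hw1 hm
        _ = w := pow_one _
    calc |R (l * x)| * w ^ m * c ^ q ≤ (C * rh (l * x)) * w * 1 := by
          gcongr
          exact a2 hm
      _ = C * (w * rh (l * x)) := by ring
      _ = C * rh x := by rw [hwρ]
  · have t1 : rh x * |l * deriv R (l * x) * w ^ m * c ^ q| ≤ C := by
      rw [abs_mul, abs_mul, abs_mul, abs_of_pos hl0, abs_of_nonneg hwm0, abs_of_nonneg hcq0]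
      calc rh x * (l * |deriv R (l * x)| * w ^ m * c ^ q)
          ≤ rh (l * x) * (1 * |deriv R (l * x)| * 1 * 1) := by gcongr
        _ = rh (l * x) * |deriv R (l * x)| := by ring
        _ ≤ C := a3
    have t2 : rh x * |R (l * x) * (m * w ^ (m - 1)
        * (-(x * (1 - l ^ 2) / (rh x * rh (l * x) ^ 3)))) * c ^ q| ≤ C * m := by
      rcases Nat.eq_zero_or_pos m with hm | hm
      · subst hm; simp
      have hl2 : 0 ≤ 1 - l ^ 2 := by nlinarith
      have hl3 : 1 - l ^ 2 ≤ rh (l * x) ^ 2 := by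
        rw [rh_sq hlx, mul_pow]
        nlinarith [sq_nonneg l]
      rw [abs_mul, abs_mul, abs_mul, abs_mul, abs_neg, abs_div, abs_mul, abs_mul, Nat.abs_cast,
        abs_of_nonneg hwm0', abs_of_nonneg hcq0, abs_of_pos hx.1, abs_of_nonneg hl2,
        abs_of_pos hρ, abs_of_pos (by positivity : 0 < rh (l * x) ^ 3)]
      calc rh x * (|R (l * x)| * (m * w ^ (m - 1) * (x * (1 - l ^ 2) / (rh x * rh (l * x) ^ 3)))
            * c ^ q)
          = |R (l * x)| * (m * w ^ (m - 1) * (x * (1 - l ^ 2) / rh (l * x) ^ 3)) * c ^ q := by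
            field_simp
        _ ≤ (C * rh (l * x)) * (m * 1 * (1 * rh (l * x) ^ 2 / rh (l * x) ^ 3)) * 1 := by
            gcongr
            · exact a2 hm
            · exact hx.2.le
        _ = C * m := by field_simp
    have t3 : rh x * |R (l * x) * w ^ m * (q * c ^ (q - 1) * (2 * x * e / (x ^ 2 + e) ^ 2))|
        ≤ C * q := by
      rcases Nat.eq_zero_or_pos q with hq | hq
      · subst hq; simp
      have h4 := a4 hq
      rw [abs_mul, abs_of_pos hl0, abs_of_pos hx.1] at h4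
      rw [abs_mul, abs_mul, abs_mul, abs_mul, abs_of_nonneg hwm0, Nat.abs_cast,
        abs_of_nonneg hcq0', abs_of_nonneg (by positivity : 0 ≤ 2 * x * e / (x ^ 2 + e) ^ 2)]
      have e1 : x * (2 * x * e / (x ^ 2 + e) ^ 2) ≤ 1 := by
        rw [← mul_div_assoc, div_le_one (by positivity)]
        nlinarith [sq_nonneg (x ^ 2 - e), sq_nonneg (x ^ 2), mul_pos (pow_pos hx.1 2) he]
      calc rh x * (|R (l * x)| * w ^ m * (q * c ^ (q - 1) * (2 * x * e / (x ^ 2 + e) ^ 2)))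
          ≤ 1 * ((C * (1 * x)) * 1 * (q * 1 * (2 * x * e / (x ^ 2 + e) ^ 2))) := by
            gcongr
            · exact rh_le_one x
            · exact h4.trans (by gcongr)
        _ = C * q * (x * (2 * x * e / (x ^ 2 + e) ^ 2)) := by ring
        _ ≤ C * q * 1 := by gcongr
        _ = C * q := mul_one _
    have e0 : Sd q m R l e x = l * deriv R (l * x) * w ^ m * c ^ q
        + R (l * x) * (m * w ^ (m - 1) * (-(x * (1 - l ^ 2) / (rh x * rh (l * x) ^ 3)))) * c ^ q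
        + R (l * x) * w ^ m * (q * c ^ (q - 1) * (2 * x * e / (x ^ 2 + e) ^ 2)) := by
      unfold Sd; rw [← hw, ← hc]; ring
    rw [e0]
    calc _ ≤ rh x * (|l * deriv R (l * x) * w ^ m * c ^ q|
          + |R (l * x) * (m * w ^ (m - 1) * (-(x * (1 - l ^ 2) / (rh x * rh (l * x) ^ 3)))) * c ^ q|
          + |R (l * x) * w ^ m * (q * c ^ (q - 1) * (2 * x * e / (x ^ 2 + e) ^ 2))|) := by
          gcongr
          exact (abs_add_le _ _).trans (by gcongr; exact abs_add_le _ _)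
      _ ≤ C + C * m + C * q := by
          rw [mul_add, mul_add]
          exact add_le_add (add_le_add t1 t2) t3
      _ = _ := by ring
  · rw [habs]
    have h4 := a4 hq
    rw [abs_mul, abs_of_pos hl0, abs_of_pos hx.1] at h4
    calc |R (l * x)| * w ^ m * c ^ q ≤ (C * (1 * x)) * 1 * 1 := by
          gcongr
          exact h4.trans (by gcongr)
      _ = C * x := by ring

/-! ### limits -/

theorem tendsto_Sf {q m : ℕ} {R : ℝ → ℝ} (hR : IsRad q m R) {l e : ℕ → ℝ}
    (hl : Tendsto l atTop (𝓝 1)) (he : Tendsto e atTop (𝓝 0)) {x : ℝ} (hx : x ∈ Ioo (0:ℝ) 1) :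
    Tendsto (fun k => Sf q m R (l k) (e k) x) atTop (𝓝 (R x)) ∧
    Tendsto (fun k => Sd q m R (l k) (e k) x) atTop (𝓝 (deriv R x)) := by
  have hx2 := sq_lt_one_of_mem hx
  have hρ := rh_pos hx2
  have hlx : Tendsto (fun k => l k * x) atTop (𝓝 x) := by simpa using hl.mul_const x
  have h1 : Tendsto (fun k => R (l k * x)) atTop (𝓝 (R x)) :=
    (hR.diff x hx2).continuousAt.tendsto.comp hlx
  have h2 : Tendsto (fun k => deriv R (l k * x)) atTop (𝓝 (deriv R x)) := by
    have hc : ContinuousAt (deriv R) x := hR.cont.continuousAt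
      (Ioo_mem_nhds (by linarith [hx.1]) hx.2)
    exact hc.tendsto.comp hlx
  have h3 : Tendsto (fun k => rh (l k * x)) atTop (𝓝 (rh x)) :=
    (continuous_rh.tendsto x).comp hlx
  have h4 : Tendsto (fun k => rh x / rh (l k * x)) atTop (𝓝 1) := by
    have := (tendsto_const_nhds (x := rh x)).div h3 hρ.ne'
    rwa [div_self hρ.ne'] at this
  have hx0 : x ^ 2 ≠ 0 := pow_ne_zero 2 hx.1.ne'
  have h5 : Tendsto (fun k => x ^ 2 + e k) atTop (𝓝 (x ^ 2)) := by simpa using he.const_add (x ^ 2)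
  have h6 : Tendsto (fun k => x ^ 2 / (x ^ 2 + e k)) atTop (𝓝 1) := by
    have := (tendsto_const_nhds (x := x ^ 2)).div h5 hx0
    rwa [div_self hx0] at this
  have h7 : Tendsto (fun k => 1 - l k ^ 2) atTop (𝓝 0) := by
    simpa using (hl.pow 2).const_sub 1
  have h8 : Tendsto (fun k => -(x * (1 - l k ^ 2) / (rh x * rh (l k * x) ^ 3))) atTop (𝓝 0) := by
    have := ((h7.const_mul x).div ((h3.pow 3).const_mul (rh x)) (by positivity)).neg
    simpa using this
  have h9 : Tendsto (fun k => 2 * x * e k / (x ^ 2 + e k) ^ 2) atTop (𝓝 0) := by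
    have := (he.const_mul (2 * x)).div (h5.pow 2) (pow_ne_zero 2 hx0)
    rw [mul_zero, zero_div] at this
    exact this
  constructor
  · have := (h1.mul (h4.pow m)).mul (h6.pow q)
    simpa [Sf] using this
  · have := ((((hl.mul h2).mul (h4.pow m)).add (h1.mul (((h4.pow (m - 1)).const_mul (m:ℝ)).mul h8))).mul
      (h6.pow q)).add ((h1.mul (h4.pow m)).mul (((h6.pow (q - 1)).const_mul (q:ℝ)).mul h9))
    simpa [Sd] using this

/-! ### polynomial elements -/

/-- the polynomial radial function -/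
def Tp (q m : ℕ) (p : ℝ[X]) : ℝ → ℝ :=
  trunc fun x => (1 - x ^ 2) ^ ((m : ℝ) / 2) *
      (x ^ q * (∑ i ∈ Finset.range (0 + 1), (fun _ => (1:ℝ)) i * (x ^ 2) ^ i) * p.eval (x ^ 2))

theorem Tp_apply (q m : ℕ) (p : ℝ[X]) {x : ℝ} (hx : x ^ 2 < 1) :
    Tp q m p x = Aw q m x * p.eval (x ^ 2) := by
  have hpos : 0 < 1 - x ^ 2 := by linarith
  have hW : (1 - x ^ 2) ^ ((m : ℝ) / 2) = rh x ^ m := by
    have e1 : rh x = (1 - x ^ 2) ^ ((1:ℝ) / 2) := by rw [rh, Real.sqrt_eq_rpow]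
    rw [e1, ← Real.rpow_mul_natCast hpos.le]
    congr 1; ring
  unfold Tp
  rw [trunc_of_lt hx, hW]
  unfold Aw
  simp only [zero_add, Finset.range_one, Finset.sum_singleton, pow_zero, mul_one]
  ring

theorem isRad_Tp (q m : ℕ) (p : ℝ[X]) : IsRad q m (Tp q m p) := by
  have hm : (m:ℝ) = 0 ∨ 1 ≤ (m:ℝ) := by
    rcases Nat.eq_zero_or_pos m with h | h
    · left; rw [h]; simp
    · right; exact_mod_cast h
  have hpc : Continuous fun x : ℝ => p.eval (x ^ 2) := p.continuous.comp (by fun_prop)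
  have hpdc : Continuous fun x : ℝ => (derivative p).eval (x ^ 2) :=
    (derivative p).continuous.comp (by fun_prop)
  have h := isRad_of (q := q) (m := m) (s := m) (r := fun x => x ^ q * p.eval (x ^ 2))
    (r' := fun x => q * x ^ (q - 1) * p.eval (x ^ 2)
      + x ^ q * ((derivative p).eval (x ^ 2) * (2 * x)))
    (fun x => (hasDerivAt_pow q x).mul (hasDerivAt_eval_sq p x)) (by fun_prop)
    (fun x => by rw [neg_sq, neg_pow x q]; ring) (fun hq => ?_) hm (fun h => by exact_mod_cast h)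
  · have e1 : Tp q m p = trunc fun x => (1 - x ^ 2) ^ ((m : ℝ) / 2) * (x ^ q * p.eval (x ^ 2)) := by
      unfold Tp
      congr 1; funext x
      simp
    rw [e1]; exact h
  · obtain ⟨B, hB⟩ := (isCompact_Icc (a := (-1:ℝ)) (b := 1)).exists_bound_of_continuousOn
      (f := fun x : ℝ => p.eval (x ^ 2)) hpc.continuousOn
    refine ⟨|B|, fun x hx => ?_⟩
    have hxabs : |x| < 1 := (sq_lt_one_iff_abs_lt_one x).1 hx
    have h2 := (hB x (abs_le.1 hxabs.le)).trans (le_abs_self B)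
    rw [Real.norm_eq_abs] at h2
    rw [abs_mul, abs_pow]
    have h6 : |x| ^ q ≤ |x| := by
      calc |x| ^ q ≤ |x| ^ 1 := pow_le_pow_of_le_one (abs_nonneg _) hxabs.le hq
        _ = |x| := pow_one _
    calc |x| ^ q * |p.eval (x ^ 2)| ≤ |x| * |B| := by gcongr
      _ = |B| * |x| := mul_comm _ _

theorem deriv_Tp (q m : ℕ) (p : ℝ[X]) {x : ℝ} (hx : x ^ 2 < 1) :
    deriv (Tp q m p) x = Ad q m x * p.eval (x ^ 2)
      + Aw q m x * ((derivative p).eval (x ^ 2) * (2 * x)) := by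
  have h1 : HasDerivAt (fun y => Aw q m y * p.eval (y ^ 2)) (Ad q m x * p.eval (x ^ 2)
      + Aw q m x * ((derivative p).eval (x ^ 2) * (2 * x))) x :=
    (hasDerivAt_Aw q m hx).mul (hasDerivAt_eval_sq p x)
  have h2 : Tp q m p =ᶠ[𝓝 x] fun y => Aw q m y * p.eval (y ^ 2) := by
    have : {y : ℝ | y ^ 2 < 1} ∈ 𝓝 x :=
      (isOpen_lt (by fun_prop) continuous_const).mem_nhds hx
    filter_upwards [this] with y hy
    exact Tp_apply q m p hy
  exact (h1.congr_of_eventuallyEq h2).deriv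

theorem Tp_mem_Pol {q par m : ℕ} (hm : par ≤ m) (p : ℝ[X]) :
    (⟨Finsupp.single m (Tp q m p), single_mem_VS hm (isRad_Tp q m p)⟩ : VS q par) ∈ Pol q par :=
  single_poly_mem_Pol q hm 0 p.natDegree (fun _ => 1) p le_rfl _ rfl

/-! ### density -/

theorem exists_pol_single (d : ℕ) {q par m : ℕ} (hm : par ≤ m) {R : ℝ → ℝ} (hR : IsRad q m R)
    {ε : ℝ} (hε : 0 < ε) : ∃ p ∈ Pol q par, href d q par
      ((⟨Finsupp.single m R, single_mem_VS hm hR⟩ : VS q par) - p)
      ((⟨Finsupp.single m R, single_mem_VS hm hR⟩ : VS q par) - p) < ε := by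
  obtain ⟨C, hC⟩ := hR.bd
  have hC0 : 0 ≤ C := (abs_nonneg _).trans (hC 0 (by norm_num)).1
  set e : ℕ → ℝ := fun k => 1 / ((k:ℝ) + 1) with he
  set l : ℕ → ℝ := fun k => 1 - e k / 2 with hl
  have he0 : ∀ k, 0 < e k := fun k => by rw [he]; positivity
  have he1 : ∀ k, e k ≤ 1 := fun k => by
    rw [he]; simp only
    rw [div_le_one (by positivity)]
    have : (0:ℝ) ≤ k := by positivity
    linarith
  have hl0 : ∀ k, 0 < l k := fun k => by
    have := he1 k
    rw [hl]; simp only; linarith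
  have hl1 : ∀ k, l k < 1 := fun k => by
    have := he0 k
    rw [hl]; simp only; linarith
  have hel : Tendsto e atTop (𝓝 0) := tendsto_one_div_add_atTop_nhds_zero_nat
  have hll : Tendsto l atTop (𝓝 1) := by
    simpa using (hel.div_const 2).const_sub 1
  have hex : ∀ k, ∃ p : ℝ[X], ∀ x ∈ Ioo (0:ℝ) 1, |p.eval (x ^ 2) - Ff q m R (l k) (e k) x| ≤ e k ∧
      |(derivative p).eval (x ^ 2) * (2 * x) - deriv (Ff q m R (l k) (e k)) x| ≤ e k := fun k =>
    exists_even_poly_C1 (Ff_C1 hR (hl0 k) (hl1 k) (he0 k)).1 (Ff_C1 hR (hl0 k) (hl1 k) (he0 k)).2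
      (Ff_even hR (l k) (e k)) (he0 k)
  choose p hp using hex
  -- differences
  have d0 : ∀ k, ∀ x ∈ Ioo (0:ℝ) 1,
      |Tp q m (p k) x - Sf q m R (l k) (e k) x| ≤ Aw q m x * e k := by
    intro k x hx
    rw [Tp_apply q m (p k) (sq_lt_one_of_mem hx), ← Aw_mul_Ff, ← mul_sub, abs_mul,
      abs_of_nonneg (Aw_nonneg q m hx)]
    have h1 := (hp k x hx).1
    have h2 := Aw_nonneg q m hx
    gcongr
  have d1 : ∀ k, ∀ x ∈ Ioo (0:ℝ) 1,
      |deriv (Tp q m (p k)) x - Sd q m R (l k) (e k) x| ≤ (|Ad q m x| + Aw q m x) * e k := by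
    intro k x hx
    rw [deriv_Tp q m (p k) (sq_lt_one_of_mem hx), ← Ad_mul_Ff hR (hl0 k) (hl1 k) (he0 k) hx]
    obtain ⟨h1, h2⟩ := hp k x hx
    have e1 : Ad q m x * (p k).eval (x ^ 2)
        + Aw q m x * ((derivative (p k)).eval (x ^ 2) * (2 * x))
        - (Ad q m x * Ff q m R (l k) (e k) x + Aw q m x * deriv (Ff q m R (l k) (e k)) x)
        = Ad q m x * ((p k).eval (x ^ 2) - Ff q m R (l k) (e k) x)
          + Aw q m x * ((derivative (p k)).eval (x ^ 2) * (2 * x)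
            - deriv (Ff q m R (l k) (e k)) x) := by ring
    rw [e1]
    refine (abs_add_le _ _).trans ?_
    rw [abs_mul, abs_mul, abs_of_nonneg (Aw_nonneg q m hx)]
    have h3 := Aw_nonneg q m hx
    calc |Ad q m x| * |(p k).eval (x ^ 2) - Ff q m R (l k) (e k) x| + Aw q m x *
          |(derivative (p k)).eval (x ^ 2) * (2 * x) - deriv (Ff q m R (l k) (e k)) x|
        ≤ |Ad q m x| * e k + Aw q m x * e k := by gcongr
      _ = _ := by ring
  set C' : ℝ := C * (1 + m + q) + (m + q + 1) with hC'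
  have hm0 : (0:ℝ) ≤ m := by positivity
  have hq0 : (0:ℝ) ≤ q := by positivity
  have hCC : C + 1 ≤ C' := by rw [hC']; nlinarith [mul_nonneg hC0 hm0, mul_nonneg hC0 hq0]
  have hlim := href_single_tendsto d hm hR (T := fun k => Tp q m (p k))
    (fun k => isRad_Tp q m (p k)) (C := C') (fun k x hx => ?_) (fun x hx => ?_) (fun x hx => ?_)
  · obtain ⟨k, hk⟩ := (hlim.eventually (gt_mem_nhds hε)).exists
    exact ⟨_, Tp_mem_Pol hm (p k), hk⟩
  · obtain ⟨b1, b2, b3, b4⟩ := Sf_bounds hC (hl0 k) (hl1 k) (he0 k) hx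
    have hA := Aw_nonneg q m hx
    have hA1 := Aw_le_one q m hx
    have hek := he1 k
    have hek0 := (he0 k).le
    have hρ := rh_nonneg x
    have hρ1 := rh_le_one x
    have t0 : |Tp q m (p k) x| ≤ |Sf q m R (l k) (e k) x| + Aw q m x * e k := by
      have h1 := d0 k x hx
      have h2 := abs_sub_abs_le_abs_sub (Tp q m (p k) x) (Sf q m R (l k) (e k) x)
      linarith
    have t1 : |deriv (Tp q m (p k)) x| ≤ |Sd q m R (l k) (e k) x|
        + (|Ad q m x| + Aw q m x) * e k := by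
      have h1 := d1 k x hx
      have h2 := abs_sub_abs_le_abs_sub (deriv (Tp q m (p k)) x) (Sd q m R (l k) (e k) x)
      linarith
    refine ⟨?_, fun h => ?_, ?_, fun h => ?_⟩
    · have : Aw q m x * e k ≤ 1 * 1 := by gcongr
      linarith
    · have h1 := Aw_le_rh q h hx
      have : Aw q m x * e k ≤ rh x * 1 := by gcongr
      have h2 := b2 h
      calc |Tp q m (p k) x| ≤ C * rh x + rh x * 1 := by linarith
        _ = (C + 1) * rh x := by ring
        _ ≤ C' * rh x := by gcongr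
    · have h1 := Ad_bound q m hx
      calc rh x * |deriv (Tp q m (p k)) x|
          ≤ rh x * (|Sd q m R (l k) (e k) x| + (|Ad q m x| + Aw q m x) * e k) := by gcongr
        _ = rh x * |Sd q m R (l k) (e k) x| + (rh x * |Ad q m x| + rh x * Aw q m x) * e k := by ring
        _ ≤ C * (1 + m + q) + ((m + q) + 1 * 1) * 1 := by gcongr
        _ = C' := by rw [hC']; ring
    · have h1 := Aw_le_x m h hx
      have hx0 := hx.1.le
      have : Aw q m x * e k ≤ x * 1 := by gcongr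
      have h2 := b4 h
      calc |Tp q m (p k) x| ≤ C * x + x * 1 := by linarith
        _ = (C + 1) * x := by ring
        _ ≤ C' * x := by gcongr
  · have h1 := (tendsto_Sf hR hll hel hx).1
    have h2 : Tendsto (fun k => Tp q m (p k) x - Sf q m R (l k) (e k) x) atTop (𝓝 0) := by
      refine squeeze_zero_norm (fun k => ?_) (a := fun k => Aw q m x * e k) ?_
      · rw [Real.norm_eq_abs]; exact d0 k x hx
      · simpa using hel.const_mul (Aw q m x)
    have h3 := h2.add h1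
    simpa using h3
  · have h1 := (tendsto_Sf hR hll hel hx).2
    have h2 : Tendsto (fun k => deriv (Tp q m (p k)) x - Sd q m R (l k) (e k) x) atTop (𝓝 0) := by
      refine squeeze_zero_norm (fun k => ?_) (a := fun k => (|Ad q m x| + Aw q m x) * e k) ?_
      · rw [Real.norm_eq_abs]; exact d1 k x hx
      · simpa using hel.const_mul (|Ad q m x| + Aw q m x)
    have h3 := h2.add h1
    simpa using h3

theorem href_add_le {d q par : ℕ} (u v : VS q par) :
    href d q par (u + v) (u + v) ≤ 2 * href d q par u u + 2 * href d q par v v := by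
  have h1 := href_nonneg (d := d) (u - v)
  have h2 : href d q par (u - v) (u - v) + href d q par (u + v) (u + v)
      = 2 * href d q par u u + 2 * href d q par v v := by
    have e1 : u - v = u + (-1:ℝ) • v := by
      apply Subtype.ext
      rw [Submodule.coe_sub, Submodule.coe_add, Submodule.coe_smul, neg_smul, one_smul,
        sub_eq_add_neg]
    rw [e1]
    simp only [map_add, map_smul, LinearMap.add_apply, LinearMap.smul_apply, smul_eq_mul]
    ring
  linarith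

/-- **(DENS)** the sector polynomials are dense in the core space for the reference form -/
theorem exists_pol_dense (d q par : ℕ) (v : VS q par) {ε : ℝ} (hε : 0 < ε) :
    ∃ p ∈ Pol q par, href d q par (v - p) (v - p) < ε := by
  classical
  set P : VS q par → Prop := fun v => ∀ ε : ℝ, 0 < ε →
    ∃ p ∈ Pol q par, href d q par (v - p) (v - p) < ε with hP
  suffices h : P v from h ε hε
  have hadd : ∀ u v, P u → P v → P (u + v) := by
    intro u v hu hv ε hε
    obtain ⟨p, hp, hp'⟩ := hu (ε / 4) (by positivity)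
    obtain ⟨r, hr, hr'⟩ := hv (ε / 4) (by positivity)
    refine ⟨p + r, Submodule.add_mem _ hp hr, ?_⟩
    have e1 : u + v - (p + r) = (u - p) + (v - r) := by abel
    rw [e1]
    have := href_add_le (d := d) (u - p) (v - r)
    linarith
  have hzero : P 0 := fun ε hε => ⟨0, Submodule.zero_mem _, by
    have h0 : (0 : VS q par) - 0 = 0 := by
      apply Subtype.ext
      rw [Submodule.coe_sub, Submodule.coe_zero, sub_self]
    rw [h0]; simpa using hε⟩
  set s : ℕ → VS q par := fun m => if h : par ≤ m then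
    ⟨Finsupp.single m ((v : ℕ →₀ (ℝ → ℝ)) m), single_mem_VS h (isRad_coe v m)⟩ else 0 with hs
  have hsP : ∀ m, P (s m) := by
    intro m
    by_cases h : par ≤ m
    · have : s m = ⟨Finsupp.single m ((v : ℕ →₀ (ℝ → ℝ)) m), single_mem_VS h (isRad_coe v m)⟩ := by
        rw [hs]; exact dif_pos h
      rw [this]
      intro ε hε
      exact exists_pol_single d h (isRad_coe v m) hε
    · have : s m = 0 := by rw [hs]; exact dif_neg h
      rw [this]; exact hzero
  have hv : v = ∑ m ∈ (v : ℕ →₀ (ℝ → ℝ)).support, s m := by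
    apply Subtype.ext
    rw [Submodule.coe_sum]
    conv_lhs => rw [← Finsupp.sum_single (v : ℕ →₀ (ℝ → ℝ))]
    unfold Finsupp.sum
    refine Finset.sum_congr rfl fun m _ => ?_
    by_cases h : par ≤ m
    · rw [hs]; simp only [dif_pos h]
    · have h1 : (v : ℕ →₀ (ℝ → ℝ)) m = 0 := (v.2 m).2 (by omega)
      rw [hs]; simp only [dif_neg h, h1, Finsupp.single_zero]; rfl
  rw [hv]
  exact Finset.sum_induction _ P hadd hzero fun m _ => hsP m

end Crest.Agent.R202.Mod
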