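import Mathlib

/-!
# Row 202: Moser's sup bound, part 1 (pointwise algebra, powers, Caccioppoli)
-/

set_option autoImplicit false
open MeasureTheory Metric Set Filter Topology InnerProductSpace
open scoped NNReal ENNReal RealInnerProductSpace Gradient ContDiff

namespace Crest.Agent.R202.Moser

noncomputable section

/-! ### one-dimensional powers -/

/-- `sp a s = |s|^a * s`. -/
def sp (a s : ℝ) : ℝ := |s| ^ a * s

lemma hasDerivAt_sp {a : ℝ} (ha : 0 ≤ a) (s : ℝ) : HasDerivAt (sp a) ((a + 1) * |s| ^ a) s := by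
  rcases eq_or_lt_of_le ha with h0 | h0
  · subst h0
    have : sp 0 = fun s => s := by
      funext s; simp [sp]
    rw [this]
    simpa using hasDerivAt_id' s
  · rcases eq_or_ne s 0 with rfl | hs
    · have h1 : (a + 1) * |(0 : ℝ)| ^ a = 0 := by
        rw [abs_zero, Real.zero_rpow h0.ne']; ring
      rw [h1, hasDerivAt_iff_tendsto_slope_zero]
      have h2 : Tendsto (fun t : ℝ => |t| ^ a) (𝓝[≠] 0) (𝓝 0) := by
        have hc : Continuous (fun t : ℝ => |t| ^ a) := by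
          exact (continuous_abs).rpow_const (fun _ => Or.inr h0.le)
        have := (hc.tendsto 0).mono_left (nhdsWithin_le_nhds (s := {(0:ℝ)}ᶜ))
        simpa [Real.zero_rpow h0.ne'] using this
      refine h2.congr' ?_
      filter_upwards [self_mem_nhdsWithin] with t ht
      have ht' : t ≠ 0 := ht
      simp only [sp, zero_add, smul_eq_mul, abs_zero, mul_zero, sub_zero]
      field_simp
    · have h1 : HasDerivAt (fun s : ℝ => |s| ^ a) (SignType.sign s * a * |s| ^ (a - 1)) s := by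
        have := (hasDerivAt_abs hs).rpow_const (p := a) (Or.inl (abs_ne_zero.mpr hs))
        simpa using this
      have h2 := h1.mul (hasDerivAt_id s)
      have h3 : (SignType.sign s : ℝ) * s = |s| := by
        rcases lt_or_gt_of_ne hs with h | h
        · simp [sign_neg h, abs_of_neg h]
        · simp [sign_pos h, abs_of_pos h]
      have h4 : |s| ^ a = |s| ^ (a - 1) * |s| := by
        rw [← Real.rpow_add_one (abs_ne_zero.mpr hs)]; ring_nf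
      refine h2.congr_deriv ?_
      simp only [id_eq, mul_one]
      calc (SignType.sign s : ℝ) * a * |s| ^ (a - 1) * s + |s| ^ a
          = a * (|s| ^ (a - 1) * ((SignType.sign s : ℝ) * s)) + |s| ^ a := by ring
        _ = (a + 1) * |s| ^ a := by rw [h3, ← h4]; ring

lemma continuous_abs_rpow {a : ℝ} (ha : 0 ≤ a) : Continuous (fun s : ℝ => |s| ^ a) :=
  continuous_abs.rpow_const (fun _ => Or.inr ha)

lemma contDiff_sp {a : ℝ} (ha : 0 ≤ a) : ContDiff ℝ 1 (sp a) := by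
  rw [contDiff_one_iff_deriv]
  refine ⟨fun s => (hasDerivAt_sp ha s).differentiableAt, ?_⟩
  have : deriv (sp a) = fun s => (a + 1) * |s| ^ a := by
    funext s; exact (hasDerivAt_sp ha s).deriv
  rw [this]
  exact continuous_const.mul (continuous_abs_rpow ha)

lemma sp_sq (a s : ℝ) (ha : 0 ≤ a) : (sp a s) ^ 2 = |s| ^ (2 * (a + 1)) := by
  have h1 : |s| ^ (2 * (a + 1)) = (|s| ^ (a + 1)) ^ 2 := by
    rw [mul_comm, Real.rpow_mul (abs_nonneg s)]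
    norm_cast
  rw [h1, sp, mul_pow, ← sq_abs s, ← mul_pow]
  congr 1
  rcases eq_or_ne s 0 with rfl | hs
  · simp [Real.zero_rpow (by linarith : a + 1 ≠ 0)]
  · rw [Real.rpow_add_one (abs_ne_zero.mpr hs)]

lemma abs_sp (a s : ℝ) (ha : 0 ≤ a) : |sp a s| = |s| ^ (a + 1) := by
  rw [sp, abs_mul, abs_of_nonneg (Real.rpow_nonneg (abs_nonneg s) a)]
  rcases eq_or_ne s 0 with rfl | hs
  · simp [Real.zero_rpow (by linarith : a + 1 ≠ 0)]
  · rw [Real.rpow_add_one (abs_ne_zero.mpr hs)]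

/-! ### the pointwise inequality -/

variable {E : Type*} [NormedAddCommGroup E] [InnerProductSpace ℝ E]

lemma pointwise {lam Lam : ℝ} (hlam : 0 < lam) {A : E →L[ℝ] E}
    (h1 : ∀ ξ, lam * ‖ξ‖ ^ 2 ≤ ⟪A ξ, ξ⟫) (h2 : ∀ ξ, ‖A ξ‖ ≤ Lam * ‖ξ‖)
    (g e : E) (η F F' H H' : ℝ) (hH : |H| ≤ |F * F'|) (hH' : F' ^ 2 ≤ H') :
    ‖(η * F') • g + F • e‖ ^ 2 ≤ 4 / lam * ⟪A g, (2 * η * H) • e + (η ^ 2 * H') • g⟫
      + (8 * Lam ^ 2 / lam ^ 2 + 2) * (F ^ 2 * ‖e‖ ^ 2) := by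
  have e1 : ‖(η * F') • g + F • e‖ ^ 2 ≤ 2 * ((η * F') ^ 2 * ‖g‖ ^ 2) + 2 * (F ^ 2 * ‖e‖ ^ 2) := by
    have := norm_add_le ((η * F') • g) (F • e)
    have h3 : ‖(η * F') • g + F • e‖ ^ 2 ≤ (‖(η * F') • g‖ + ‖F • e‖) ^ 2 := by
      gcongr
    have h4 : (‖(η * F') • g‖ + ‖F • e‖) ^ 2 ≤ 2 * ‖(η * F') • g‖ ^ 2 + 2 * ‖F • e‖ ^ 2 := by
      nlinarith [sq_nonneg (‖(η * F') • g‖ - ‖F • e‖)]
    have h5 : ‖(η * F') • g‖ ^ 2 = (η * F') ^ 2 * ‖g‖ ^ 2 := by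
      rw [norm_smul, mul_pow, Real.norm_eq_abs, sq_abs]
    have h6 : ‖F • e‖ ^ 2 = F ^ 2 * ‖e‖ ^ 2 := by
      rw [norm_smul, mul_pow, Real.norm_eq_abs, sq_abs]
    rw [h5, h6] at h4
    linarith
  have e2 : ⟪A g, (2 * η * H) • e + (η ^ 2 * H') • g⟫
      = 2 * η * H * ⟪A g, e⟫ + η ^ 2 * H' * ⟪A g, g⟫ := by
    rw [inner_add_right, inner_smul_right, inner_smul_right]
  have hAg : 0 ≤ ⟪A g, g⟫ := le_trans (by positivity) (h1 g)
  have e3 : η ^ 2 * F' ^ 2 * (lam * ‖g‖ ^ 2) ≤ η ^ 2 * H' * ⟪A g, g⟫ := by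
    have := h1 g
    have hH0 : 0 ≤ H' := le_trans (sq_nonneg _) hH'
    gcongr
  have e4 : |2 * η * H * ⟪A g, e⟫| ≤ 2 * (|η * F'| * ‖g‖) * (Lam * (|F| * ‖e‖)) := by
    rw [abs_mul, abs_mul, abs_mul]
    have i1 : |⟪A g, e⟫| ≤ Lam * ‖g‖ * ‖e‖ :=
      (abs_real_inner_le_norm _ _).trans (mul_le_mul_of_nonneg_right (h2 g) (norm_nonneg _))
    have i2 : |H| ≤ |F| * |F'| := by rw [← abs_mul]; exact hH
    calc |(2 : ℝ)| * |η| * |H| * |⟪A g, e⟫|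
        ≤ |(2 : ℝ)| * |η| * (|F| * |F'|) * (Lam * ‖g‖ * ‖e‖) := by gcongr
      _ = 2 * (|η * F'| * ‖g‖) * (Lam * (|F| * ‖e‖)) := by
          rw [abs_two, abs_mul η F']; ring
  have e5 : 2 * (|η * F'| * ‖g‖) * (Lam * (|F| * ‖e‖))
      ≤ lam / 2 * ((η * F') ^ 2 * ‖g‖ ^ 2) + 2 * Lam ^ 2 / lam * (F ^ 2 * ‖e‖ ^ 2) := by
    set X := |η * F'| * ‖g‖ with hX
    set Y := |F| * ‖e‖ with hY
    have hX2 : (η * F') ^ 2 * ‖g‖ ^ 2 = X ^ 2 := by
      rw [hX, mul_pow |η * F'|, sq_abs]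
    have hY2 : F ^ 2 * ‖e‖ ^ 2 = Y ^ 2 := by rw [hY, mul_pow, sq_abs]
    rw [hX2, hY2]
    have h7 : lam / 2 * X ^ 2 + 2 * Lam ^ 2 / lam * Y ^ 2 - 2 * X * (Lam * Y)
        = (lam * X - 2 * Lam * Y) ^ 2 / (2 * lam) := by
      field_simp
      ring
    have h8 : 0 ≤ (lam * X - 2 * Lam * Y) ^ 2 / (2 * lam) := by positivity
    linarith
  have e6 : lam / 2 * ((η * F') ^ 2 * ‖g‖ ^ 2)
      ≤ ⟪A g, (2 * η * H) • e + (η ^ 2 * H') • g⟫ + 2 * Lam ^ 2 / lam * (F ^ 2 * ‖e‖ ^ 2) := by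
    rw [e2]
    have := neg_abs_le (2 * η * H * ⟪A g, e⟫)
    have h9 : η ^ 2 * F' ^ 2 * (lam * ‖g‖ ^ 2) = lam * ((η * F') ^ 2 * ‖g‖ ^ 2) := by ring
    rw [h9] at e3
    linarith
  have e7 : 2 * ((η * F') ^ 2 * ‖g‖ ^ 2)
      ≤ 4 / lam * ⟪A g, (2 * η * H) • e + (η ^ 2 * H') • g⟫
        + 8 * Lam ^ 2 / lam ^ 2 * (F ^ 2 * ‖e‖ ^ 2) := by
    have h10 := mul_le_mul_of_nonneg_left e6 (by positivity : (0:ℝ) ≤ 4 / lam)
    have h11 : 4 / lam * (lam / 2 * ((η * F') ^ 2 * ‖g‖ ^ 2)) = 2 * ((η * F') ^ 2 * ‖g‖ ^ 2) := by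
      field_simp; ring
    have h12 : 4 / lam * (⟪A g, (2 * η * H) • e + (η ^ 2 * H') • g⟫
        + 2 * Lam ^ 2 / lam * (F ^ 2 * ‖e‖ ^ 2))
        = 4 / lam * ⟪A g, (2 * η * H) • e + (η ^ 2 * H') • g⟫
        + 8 * Lam ^ 2 / lam ^ 2 * (F ^ 2 * ‖e‖ ^ 2) := by
      field_simp; ring
    rw [h11, h12] at h10
    exact h10
  calc _ ≤ 2 * ((η * F') ^ 2 * ‖g‖ ^ 2) + 2 * (F ^ 2 * ‖e‖ ^ 2) := e1
    _ ≤ _ := by linarith [e7]

/-! ### gradients -/

variable [CompleteSpace E]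

lemma norm_gradient (f : E → ℝ) (x : E) : ‖∇ f x‖ = ‖fderiv ℝ f x‖ := by
  simp [gradient]

lemma gradient_mul_comp {η v : E → ℝ} {F : ℝ → ℝ} {F' : ℝ} {x : E}
    (hη : DifferentiableAt ℝ η x) (hv : DifferentiableAt ℝ v x)
    (hF : HasDerivAt F F' (v x)) :
    ∇ (fun y => η y * F (v y)) x = (η x * F') • ∇ v x + F (v x) • ∇ η x := by
  have h1 : HasFDerivAt (fun y => F (v y)) (F' • fderiv ℝ v x) x :=
    hF.comp_hasFDerivAt x hv.hasFDerivAt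
  have h2 := hη.hasFDerivAt.mul h1
  have h3 : fderiv ℝ (fun y => η y * F (v y)) x
      = η x • (F' • fderiv ℝ v x) + F (v x) • fderiv ℝ η x := h2.fderiv
  unfold gradient
  rw [h3, map_add]
  simp only [map_smulₛₗ, smul_smul]
  simp

lemma gradient_sq_mul_comp {η v : E → ℝ} {H : ℝ → ℝ} {H' : ℝ} {x : E}
    (hη : DifferentiableAt ℝ η x) (hv : DifferentiableAt ℝ v x)
    (hH : HasDerivAt H H' (v x)) :
    ∇ (fun y => η y ^ 2 * H (v y)) x
      = (2 * η x * H (v x)) • ∇ η x + (η x ^ 2 * H') • ∇ v x := by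
  have h1 : HasFDerivAt (fun y => H (v y)) (H' • fderiv ℝ v x) x :=
    hH.comp_hasFDerivAt x hv.hasFDerivAt
  have h0 : HasFDerivAt (fun y => η y ^ 2) ((2 * η x) • fderiv ℝ η x) x := by
    have := hη.hasFDerivAt.pow 2
    simpa using this
  have h2 := h0.mul h1
  have h3 : fderiv ℝ (fun y => η y ^ 2 * H (v y)) x
      = η x ^ 2 • (H' • fderiv ℝ v x) + H (v x) • ((2 * η x) • fderiv ℝ η x) := h2.fderiv
  unfold gradient
  rw [h3, map_add]
  simp only [map_smulₛₗ, smul_smul]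
  simp only [conj_trivial]
  rw [add_comm]
  congr 2
  ring

lemma continuous_gradient {f : E → ℝ} (hf : ContDiff ℝ 1 f) : Continuous (∇ f) := by
  unfold gradient
  exact (LinearIsometryEquiv.continuous _).comp (hf.continuous_fderiv (by norm_num))

end

end Crest.Agent.R202.Moser
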