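import Crest.Agent.R202.Moser1

/-!
# Row 202: Moser's sup bound, part 2 (Caccioppoli inequality, cut-off functions, Sobolev step)
-/

set_option autoImplicit false
open MeasureTheory Metric Set Filter Topology InnerProductSpace
open scoped NNReal ENNReal RealInnerProductSpace Gradient ContDiff

namespace Crest.Agent.R202.Moser

noncomputable section

/-- weak solution on the ball `ball x0 R` -/
def WeakSol {n : ℕ} (A : EuclideanSpace ℝ (Fin n) → EuclideanSpace ℝ (Fin n) →L[ℝ] EuclideanSpace ℝ (Fin n))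
    (v : EuclideanSpace ℝ (Fin n) → ℝ) (x0 : EuclideanSpace ℝ (Fin n)) (R : ℝ) : Prop :=
  ∀ φ : EuclideanSpace ℝ (Fin n) → ℝ, ContDiff ℝ 1 φ → HasCompactSupport φ →
    tsupport φ ⊆ ball x0 R → ∫ x, ⟪A x (∇ v x), ∇ φ x⟫ = 0

/-- ellipticity on the ball `ball x0 R` -/
structure Ell {n : ℕ} (lam Lam : ℝ)
    (A : EuclideanSpace ℝ (Fin n) → EuclideanSpace ℝ (Fin n) →L[ℝ] EuclideanSpace ℝ (Fin n))
    (x0 : EuclideanSpace ℝ (Fin n)) (R : ℝ) : Prop where
  low : ∀ x ∈ ball x0 R, ∀ ξ, lam * ‖ξ‖ ^ 2 ≤ ⟪A x ξ, ξ⟫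
  up : ∀ x ∈ ball x0 R, ∀ ξ, ‖A x ξ‖ ≤ Lam * ‖ξ‖

variable {n : ℕ}

local notation "E" n => EuclideanSpace ℝ (Fin n)

lemma caccioppoli {lam Lam : ℝ} (hlam : 0 < lam) {A : (E n) → (E n) →L[ℝ] (E n)}
    (hA : Continuous A) {v : (E n) → ℝ} (hv : ContDiff ℝ 1 v) {x0 : E n} {R : ℝ}
    (hell : Ell lam Lam A x0 R) (hw : WeakSol A v x0 R)
    {F F' H H' : ℝ → ℝ} (hF : ∀ s, HasDerivAt F (F' s) s) (hF'c : Continuous F')
    (hH : ∀ s, HasDerivAt H (H' s) s) (hH'c : Continuous H')
    (hHF : ∀ s, |H s| ≤ |F s * F' s|) (hHF' : ∀ s, F' s ^ 2 ≤ H' s)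
    {η : (E n) → ℝ} (hη : ContDiff ℝ 1 η) (hηc : HasCompactSupport η) (hηs : tsupport η ⊆ ball x0 R) :
    ∫ x, ‖∇ (fun y => η y * F (v y)) x‖ ^ 2
      ≤ (8 * Lam ^ 2 / lam ^ 2 + 2) * ∫ x, F (v x) ^ 2 * ‖∇ η x‖ ^ 2 := by
  have hHc : ContDiff ℝ 1 H := by
    rw [contDiff_one_iff_deriv]
    refine ⟨fun s => (hH s).differentiableAt, ?_⟩
    have : deriv H = H' := by funext s; exact (hH s).deriv
    rw [this]; exact hH'c
  have hFc : ContDiff ℝ 1 F := by
    rw [contDiff_one_iff_deriv]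
    refine ⟨fun s => (hF s).differentiableAt, ?_⟩
    have : deriv F = F' := by funext s; exact (hF s).deriv
    rw [this]; exact hF'c
  set φ : (E n) → ℝ := fun y => η y ^ 2 * H (v y) with hφ
  have hφ1 : ContDiff ℝ 1 φ := (hη.pow 2).mul (hHc.comp hv)
  have hφsupp : Function.support φ ⊆ Function.support η := by
    intro x hx
    simp only [hφ, Function.mem_support, ne_eq, mul_eq_zero, not_or] at hx
    simp only [Function.mem_support]
    intro h0
    exact hx.1 (by rw [h0]; ring)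
  have hφc : HasCompactSupport φ := hηc.mono hφsupp
  have hφs : tsupport φ ⊆ ball x0 R := (closure_mono hφsupp).trans hηs
  have hzero := hw φ hφ1 hφc hφs
  have hgφ : ∀ x, ∇ φ x = (2 * η x * H (v x)) • ∇ η x + (η x ^ 2 * H' (v x)) • ∇ v x := fun x =>
    gradient_sq_mul_comp (hη.differentiable (by norm_num) x) (hv.differentiable (by norm_num) x)
      (hH (v x))
  have hgF : ∀ x, ∇ (fun y => η y * F (v y)) x = (η x * F' (v x)) • ∇ v x + F (v x) • ∇ η x :=
    fun x => gradient_mul_comp (hη.differentiable (by norm_num) x)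
      (hv.differentiable (by norm_num) x) (hF (v x))
  have hgη : ∀ x, x ∉ tsupport η → ∇ η x = 0 := by
    intro x hx
    have : fderiv ℝ η x = 0 := by
      by_contra h
      exact hx (support_fderiv_subset ℝ h)
    simp [gradient, this]
  -- continuity
  have cv := continuous_gradient hv
  have cη := continuous_gradient hη
  have cT : Continuous (fun x => ⟪A x (∇ v x), ∇ φ x⟫) := by
    have : Continuous (∇ φ) := continuous_gradient hφ1
    exact (hA.clm_apply cv).inner this
  have cR : Continuous (fun x => F (v x) ^ 2 * ‖∇ η x‖ ^ 2) :=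
    ((hFc.continuous.comp hv.continuous).pow 2).mul (cη.norm.pow 2)
  have cL : Continuous (fun x => ‖∇ (fun y => η y * F (v y)) x‖ ^ 2) := by
    have h1 : ContDiff ℝ 1 (fun y => η y * F (v y)) := hη.mul (hFc.comp hv)
    exact (continuous_gradient h1).norm.pow 2
  -- compact supports
  have hη0 : ∀ x, x ∉ tsupport η → η x = 0 := fun x hx => image_eq_zero_of_notMem_tsupport hx
  have sT : HasCompactSupport (fun x => ⟪A x (∇ v x), ∇ φ x⟫) := by
    refine HasCompactSupport.intro hηc.isCompact fun x hx => ?_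
    simp only [hgφ x, hη0 x hx, hgη x hx]
    simp
  have sR : HasCompactSupport (fun x => F (v x) ^ 2 * ‖∇ η x‖ ^ 2) := by
    refine HasCompactSupport.intro hηc.isCompact fun x hx => ?_
    simp only [hgη x hx]
    simp
  have sL : HasCompactSupport (fun x => ‖∇ (fun y => η y * F (v y)) x‖ ^ 2) := by
    refine HasCompactSupport.intro hηc.isCompact fun x hx => ?_
    simp only [hgF x, hη0 x hx, hgη x hx]
    simp
  have iT : Integrable (fun x => ⟪A x (∇ v x), ∇ φ x⟫) := cT.integrable_of_hasCompactSupport sT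
  have iR : Integrable (fun x => F (v x) ^ 2 * ‖∇ η x‖ ^ 2) := cR.integrable_of_hasCompactSupport sR
  have iL : Integrable (fun x => ‖∇ (fun y => η y * F (v y)) x‖ ^ 2) :=
    cL.integrable_of_hasCompactSupport sL
  have key : ∀ x, ‖∇ (fun y => η y * F (v y)) x‖ ^ 2
      ≤ 4 / lam * ⟪A x (∇ v x), ∇ φ x⟫
        + (8 * Lam ^ 2 / lam ^ 2 + 2) * (F (v x) ^ 2 * ‖∇ η x‖ ^ 2) := by
    intro x
    by_cases hx : x ∈ tsupport η
    · rw [hgF x, hgφ x]
      exact pointwise hlam (hell.low x (hηs hx)) (hell.up x (hηs hx)) _ _ _ _ _ _ _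
        (hHF (v x)) (hHF' (v x))
    · rw [hgF x, hgφ x, hη0 x hx, hgη x hx]
      simp
  calc ∫ x, ‖∇ (fun y => η y * F (v y)) x‖ ^ 2
      ≤ ∫ x, (4 / lam * ⟪A x (∇ v x), ∇ φ x⟫
        + (8 * Lam ^ 2 / lam ^ 2 + 2) * (F (v x) ^ 2 * ‖∇ η x‖ ^ 2)) :=
        integral_mono iL ((iT.const_mul _).add (iR.const_mul _)) key
    _ = 4 / lam * (∫ x, ⟪A x (∇ v x), ∇ φ x⟫)
        + (8 * Lam ^ 2 / lam ^ 2 + 2) * ∫ x, F (v x) ^ 2 * ‖∇ η x‖ ^ 2 := by
        rw [integral_add (iT.const_mul _) (iR.const_mul _), integral_const_mul, integral_const_mul]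
    _ = _ := by rw [hzero]; ring

/-! ### cut-off functions -/

lemma exists_cutoff_const : ∃ C : ℝ, 0 < C ∧ ∀ t : ℝ, |deriv Real.smoothTransition t| ≤ C := by
  have hc : Continuous (deriv Real.smoothTransition) :=
    (Real.smoothTransition.contDiff (n := 1)).continuous_deriv (by norm_num)
  obtain ⟨C, hC⟩ := (isCompact_Icc (a := (0:ℝ)) (b := 1)).exists_bound_of_continuousOn hc.continuousOn
  refine ⟨|C| + 1, by positivity, fun t => ?_⟩
  by_cases ht : t ∈ Icc (0:ℝ) 1
  · have := hC t ht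
    rw [Real.norm_eq_abs] at this
    exact this.trans (by have := le_abs_self C; linarith)
  · have : deriv Real.smoothTransition t = 0 := by
      rw [mem_Icc, not_and_or, not_le, not_le] at ht
      rcases ht with ht | ht
      · have : Real.smoothTransition =ᶠ[𝓝 t] fun _ => 0 := by
          filter_upwards [Iio_mem_nhds ht] with s hs
          exact Real.smoothTransition.zero_of_nonpos hs.le
        rw [this.deriv_eq]; simp
      · have : Real.smoothTransition =ᶠ[𝓝 t] fun _ => 1 := by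
          filter_upwards [Ioi_mem_nhds ht] with s hs
          exact Real.smoothTransition.one_of_one_le hs.le
        rw [this.deriv_eq]; simp
    rw [this]; simp; positivity

/-- a cut-off between `closedBall 0 s'` and `closedBall 0 s` with gradient `≤ C/(s-s')` -/
lemma exists_cutoff : ∃ C : ℝ, 0 < C ∧ ∀ s' s : ℝ, 0 < s' → s' < s →
    ∃ η : (E n) → ℝ, ContDiff ℝ 1 η ∧ HasCompactSupport η ∧ tsupport η ⊆ closedBall 0 s ∧
      (∀ x ∈ closedBall (0 : E n) s', η x = 1) ∧ (∀ x, 0 ≤ η x) ∧ (∀ x, η x ≤ 1) ∧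
      (∀ x, ‖∇ η x‖ ≤ C / (s - s')) := by
  obtain ⟨C, hC0, hC⟩ := exists_cutoff_const
  refine ⟨2 * C, by positivity, fun s' s hs' hss => ?_⟩
  have hd : 0 < s ^ 2 - s' ^ 2 := by nlinarith
  set q : (E n) → ℝ := fun x => (s ^ 2 - ‖x‖ ^ 2) / (s ^ 2 - s' ^ 2) with hq
  set η : (E n) → ℝ := fun x => Real.smoothTransition (q x) with hη
  have hq1 : ContDiff ℝ 1 q := (contDiff_const.sub (contDiff_norm_sq ℝ)).div_const _
  have hη1 : ContDiff ℝ 1 η := (Real.smoothTransition.contDiff (n := 1)).comp hq1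
  have hsupp : Function.support η ⊆ closedBall 0 s := by
    intro x hx
    rw [mem_closedBall_zero_iff]
    by_contra h
    rw [not_le] at h
    apply hx
    apply Real.smoothTransition.zero_of_nonpos
    apply div_nonpos_of_nonpos_of_nonneg _ hd.le
    nlinarith
  have hts : tsupport η ⊆ closedBall 0 s := closure_minimal hsupp isClosed_closedBall
  have hqd : ∀ x, HasFDerivAt q ((-(2 / (s ^ 2 - s' ^ 2))) • innerSL ℝ x) x := by
    intro x
    have h1 := (hasStrictFDerivAt_norm_sq x).hasFDerivAt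
    have h2 := (h1.const_sub (s ^ 2)).mul_const ((s ^ 2 - s' ^ 2)⁻¹)
    refine (h2.congr_fderiv ?_)
    ext y
    simp
    ring
  have hgrad : ∀ x, ‖∇ η x‖ = |deriv Real.smoothTransition (q x)| * (2 / (s ^ 2 - s' ^ 2) * ‖x‖) := by
    intro x
    have h1 : HasFDerivAt η (deriv Real.smoothTransition (q x) •
        ((-(2 / (s ^ 2 - s' ^ 2))) • innerSL ℝ x)) x := by
      have h3 : HasDerivAt Real.smoothTransition (deriv Real.smoothTransition (q x)) (q x) :=
        ((Real.smoothTransition.contDiff (n := 1)).differentiable (by norm_num) _).hasDerivAt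
      exact h3.comp_hasFDerivAt x (hqd x)
    rw [norm_gradient, h1.fderiv, norm_smul, norm_smul, Real.norm_eq_abs, norm_neg,
      Real.norm_eq_abs, abs_of_pos (by positivity : 0 < 2 / (s ^ 2 - s' ^ 2))]
    simp
  refine ⟨η, hη1, ?_, hts, ?_, ?_, ?_, ?_⟩
  · exact HasCompactSupport.intro (isCompact_closedBall (0 : E n) s) fun x hx => by
      by_contra h; exact hx (hsupp h)
  · intro x hx
    apply Real.smoothTransition.one_of_one_le
    rw [mem_closedBall_zero_iff] at hx
    rw [hq]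
    simp only
    rw [le_div_iff₀ hd]
    nlinarith [norm_nonneg x]
  · intro x; exact Real.smoothTransition.nonneg _
  · intro x; exact Real.smoothTransition.le_one _
  · intro x
    by_cases hx : x ∈ closedBall (0 : E n) s
    · rw [hgrad x]
      rw [mem_closedBall_zero_iff] at hx
      have h1 : 2 / (s ^ 2 - s' ^ 2) * ‖x‖ ≤ 2 / (s - s') := by
        rw [div_mul_eq_mul_div, div_le_div_iff₀ hd (by linarith)]
        have h5 : ‖x‖ * (s - s') ≤ s ^ 2 - s' ^ 2 := by nlinarith [norm_nonneg x]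
        nlinarith
      calc |deriv Real.smoothTransition (q x)| * (2 / (s ^ 2 - s' ^ 2) * ‖x‖)
          ≤ C * (2 / (s - s')) := by
            apply mul_le_mul (hC _) h1 (by positivity) hC0.le
        _ = 2 * C / (s - s') := by ring
    · have : x ∉ tsupport η := fun h => hx (hts h)
      have h0 : ∇ η x = 0 := by
        have : fderiv ℝ η x = 0 := by
          by_contra h
          exact this (support_fderiv_subset ℝ h)
        simp [gradient, this]
      rw [h0, norm_zero]
      apply div_nonneg (by positivity) (by linarith)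

end

end Crest.Agent.R202.Moser
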