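import Crest.Agent.R202.Moser2

/-!
# Row 202: Moser's sup bound, part 3 (Sobolev step and iteration on the unit scale)
-/

set_option autoImplicit false
open MeasureTheory Metric Set Filter Topology InnerProductSpace
open scoped NNReal ENNReal RealInnerProductSpace Gradient ContDiff

namespace Crest.Agent.R202.Moser

noncomputable section

variable {n : ℕ}

local notation "E" n => EuclideanSpace ℝ (Fin n)

/-- the Sobolev gain `n/(n-2)` -/
def chi (n : ℕ) : ℝ := (n : ℝ) / ((n : ℝ) - 2)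

lemma one_lt_chi (hn : 3 ≤ n) : 1 < chi n := by
  have h : (3 : ℝ) ≤ n := by exact_mod_cast hn
  rw [chi, lt_div_iff₀ (by linarith)]
  linarith

/-- real form of the Sobolev inequality -/
lemma sobolev (hn : 3 ≤ n) : ∃ C : ℝ, 0 < C ∧ ∀ f : (E n) → ℝ, ContDiff ℝ 1 f → HasCompactSupport f →
    (∫ x, |f x| ^ (2 * chi n)) ^ (1 / chi n) ≤ C * ∫ x, ‖∇ f x‖ ^ 2 := by
  have hχ := one_lt_chi hn
  have h3 : (3 : ℝ) ≤ n := by exact_mod_cast hn
  set S := eLpNormLESNormFDerivOfEqInnerConst (volume : Measure (E n)) ((2 : ℝ≥0) : ℝ) with hS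
  refine ⟨(S : ℝ) ^ 2 + 1, by positivity, fun f hf hfc => ?_⟩
  set p' : ℝ≥0 := ⟨2 * chi n, by linarith⟩ with hp'
  have hp'c : (p' : ℝ) = 2 * chi n := rfl
  have hp'1 : (1 : ℝ≥0) ≤ p' := by
    rw [← NNReal.coe_le_coe, hp'c]; simp; linarith
  have hp0 : p' ≠ 0 := by
    intro h; rw [h] at hp'1; simp at hp'1
  have hfr : Module.finrank ℝ (E n) = n := by simp
  have key := eLpNorm_le_eLpNorm_fderiv_of_eq_inner (μ := (volume : Measure (E n))) hf hfc
    (p := 2) (p' := p') (by norm_num) (by rw [hfr]; omega) (by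
      rw [hfr, hp'c, chi]
      have : (n : ℝ) - 2 ≠ 0 := by linarith
      have : (n : ℝ) ≠ 0 := by linarith
      field_simp
      push_cast
      ring)
  have hcf : Continuous f := hf.continuous
  have hcd : Continuous (fderiv ℝ f) := hf.continuous_fderiv (by norm_num)
  have hm1 : MemLp f p' volume := hcf.memLp_of_hasCompactSupport hfc
  have hm2 : MemLp (fderiv ℝ f) ((2 : ℝ≥0) : ℝ≥0∞) volume :=
    hcd.memLp_of_hasCompactSupport (hfc.fderiv ℝ)
  rw [hm1.eLpNorm_eq_integral_rpow_norm (by simpa using hp0) (by simp),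
    hm2.eLpNorm_eq_integral_rpow_norm (by norm_num) (by simp)] at key
  have hI2 : 0 ≤ ∫ x, ‖fderiv ℝ f x‖ ^ (2 : ℝ) := by positivity
  have key2 : (∫ x, ‖f x‖ ^ (p' : ℝ)) ^ ((p' : ℝ)⁻¹)
      ≤ (S : ℝ) * (∫ x, ‖fderiv ℝ f x‖ ^ (2 : ℝ)) ^ ((2 : ℝ)⁻¹) := by
    have h1 : ENNReal.ofReal ((∫ x, ‖f x‖ ^ (p' : ℝ)) ^ ((p' : ℝ)⁻¹))
        ≤ ENNReal.ofReal ((S : ℝ) * (∫ x, ‖fderiv ℝ f x‖ ^ (2 : ℝ)) ^ ((2 : ℝ)⁻¹)) := by
      rw [ENNReal.ofReal_mul (NNReal.coe_nonneg _), ENNReal.ofReal_coe_nnreal]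
      simpa [hS] using key
    exact (ENNReal.ofReal_le_ofReal_iff (by positivity)).mp h1
  have hA0 : 0 ≤ ∫ x, ‖f x‖ ^ (p' : ℝ) := integral_nonneg fun x => by positivity
  have e1 : (∫ x, |f x| ^ (2 * chi n)) ^ (1 / chi n)
      = ((∫ x, ‖f x‖ ^ (p' : ℝ)) ^ ((p' : ℝ)⁻¹)) ^ 2 := by
    rw [← Real.rpow_natCast, ← Real.rpow_mul hA0]
    simp only [Real.norm_eq_abs, hp'c]
    congr 1
    push_cast
    field_simp
  have e2 : ((S : ℝ) * (∫ x, ‖fderiv ℝ f x‖ ^ (2 : ℝ)) ^ ((2 : ℝ)⁻¹)) ^ 2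
      = (S : ℝ) ^ 2 * ∫ x, ‖∇ f x‖ ^ 2 := by
    rw [mul_pow, ← Real.rpow_natCast ((∫ x, ‖fderiv ℝ f x‖ ^ (2 : ℝ)) ^ ((2 : ℝ)⁻¹)),
      ← Real.rpow_mul hI2]
    simp [norm_gradient]
  rw [e1]
  calc ((∫ x, ‖f x‖ ^ (p' : ℝ)) ^ ((p' : ℝ)⁻¹)) ^ 2
      ≤ ((S : ℝ) * (∫ x, ‖fderiv ℝ f x‖ ^ (2 : ℝ)) ^ ((2 : ℝ)⁻¹)) ^ 2 := by gcongr
    _ = (S : ℝ) ^ 2 * ∫ x, ‖∇ f x‖ ^ 2 := e2
    _ ≤ ((S : ℝ) ^ 2 + 1) * ∫ x, ‖∇ f x‖ ^ 2 := by
        have : 0 ≤ ∫ x, ‖∇ f x‖ ^ 2 := by positivity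
        nlinarith

/-- one step of the iteration -/
lemma step (hn : 3 ≤ n) {lam : ℝ} (Lam : ℝ) (hlam : 0 < lam) :
    ∃ K : ℝ, 0 < K ∧ ∀ (A : (E n) → (E n) →L[ℝ] (E n)) (v : (E n) → ℝ),
      Continuous A → ContDiff ℝ 1 v → Ell lam Lam A 0 2 → WeakSol A v 0 2 →
      ∀ s' s : ℝ, 0 < s' → s' < s → s < 2 → ∀ q : ℝ, 1 ≤ q →
      (∫ x in closedBall (0 : E n) s', |v x| ^ (2 * (chi n * q))) ^ (1 / chi n)
        ≤ K / (s - s') ^ 2 * ∫ x in closedBall (0 : E n) s, |v x| ^ (2 * q) := by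
  obtain ⟨C1, hC1, hsob⟩ := sobolev hn
  obtain ⟨C2, hC2, hcut⟩ := exists_cutoff (n := n)
  have hχ := one_lt_chi hn
  refine ⟨C1 * ((8 * Lam ^ 2 / lam ^ 2 + 2) * C2 ^ 2), by positivity, ?_⟩
  intro A v hA hv hell hw s' s hs' hss hs2 q hq
  obtain ⟨η, hη1, hηc, hηs, hη1', hη0, hηle, hηg⟩ := hcut s' s hs' hss
  have hηs' : tsupport η ⊆ ball 0 2 := hηs.trans (closedBall_subset_ball hs2)
  set a : ℝ := q - 1 with ha
  have ha0 : 0 ≤ a := by linarith
  have haq : a + 1 = q := by ring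
  set F := sp a with hF
  set F' : ℝ → ℝ := fun s => q * |s| ^ a with hF'
  set H : ℝ → ℝ := fun s => q * sp (2 * a) s with hH
  set H' : ℝ → ℝ := fun s => q * ((2 * a + 1) * |s| ^ (2 * a)) with hH'
  have dF : ∀ s, HasDerivAt F (F' s) s := fun s => by
    have := hasDerivAt_sp ha0 s
    rw [haq] at this
    exact this
  have dH : ∀ s, HasDerivAt H (H' s) s := fun s =>
    (hasDerivAt_sp (a := 2 * a) (by linarith) s).const_mul q
  have pw : ∀ s : ℝ, |s| ^ (2 * a) = |s| ^ a * |s| ^ a := fun s => by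
    rw [two_mul, Real.rpow_add_of_nonneg (abs_nonneg s) ha0 ha0]
  have cF' : Continuous F' := continuous_const.mul (continuous_abs_rpow ha0)
  have cH' : Continuous H' :=
    continuous_const.mul (continuous_const.mul (continuous_abs_rpow (by linarith)))
  have h1 : ∀ s, |H s| ≤ |F s * F' s| := by
    intro s
    have hr := Real.rpow_nonneg (abs_nonneg s) a
    simp only [hH, hF, hF', sp, pw s, abs_mul, abs_of_nonneg hr]
    apply le_of_eq; ring
  have h2 : ∀ s, F' s ^ 2 ≤ H' s := by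
    intro s
    have hr := Real.rpow_nonneg (abs_nonneg s) a
    simp only [hF', hH', pw s]
    have h5 : 0 ≤ |s| ^ a * |s| ^ a := by positivity
    have h6 : (q * |s| ^ a) ^ 2 = q * q * (|s| ^ a * |s| ^ a) := by ring
    rw [h6, show q * ((2 * a + 1) * (|s| ^ a * |s| ^ a)) = q * (2 * a + 1) * (|s| ^ a * |s| ^ a) by ring]
    apply mul_le_mul_of_nonneg_right _ h5
    have : q ≤ 2 * a + 1 := by linarith
    nlinarith
  have cac := caccioppoli hlam hA hv hell hw dF cF' dH cH' h1 h2 hη1 hηc hηs'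
  have hFc : ContDiff ℝ 1 F := contDiff_sp ha0
  set f : (E n) → ℝ := fun y => η y * F (v y) with hf
  have hf1 : ContDiff ℝ 1 f := hη1.mul (hFc.comp hv)
  have hfc : HasCompactSupport f := hηc.mul_right
  have sob := hsob f hf1 hfc
  have hvc := hv.continuous
  have absF : ∀ x, |F (v x)| = |v x| ^ q := fun x => by rw [hF, abs_sp a _ ha0, haq]
  have cvq : ∀ b : ℝ, 0 ≤ b → Continuous (fun x => |v x| ^ b) := fun b hb =>
    (continuous_abs_rpow hb).comp hvc
  -- lower bound of the left side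
  have lowb : (∫ x in closedBall (0 : E n) s', |v x| ^ (2 * (chi n * q)))
      ≤ ∫ x, |f x| ^ (2 * chi n) := by
    have i1 : Integrable (fun x => |f x| ^ (2 * chi n)) := by
      have hc : Continuous (fun x => |f x| ^ (2 * chi n)) :=
        (continuous_abs_rpow (by linarith)).comp hf1.continuous
      apply hc.integrable_of_hasCompactSupport
      refine HasCompactSupport.intro hfc.isCompact fun x hx => ?_
      rw [image_eq_zero_of_notMem_tsupport hx, abs_zero, Real.zero_rpow (by linarith)]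
    calc (∫ x in closedBall (0 : E n) s', |v x| ^ (2 * (chi n * q)))
        = ∫ x in closedBall (0 : E n) s', |f x| ^ (2 * chi n) := by
          apply setIntegral_congr_fun measurableSet_closedBall
          intro x hx
          simp only [hf]
          rw [hη1' x hx, one_mul, absF x, ← Real.rpow_mul (abs_nonneg _)]
          congr 1; ring
      _ ≤ ∫ x, |f x| ^ (2 * chi n) := by
          apply setIntegral_le_integral i1
          filter_upwards with x
          positivity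
  have upb : ∫ x, F (v x) ^ 2 * ‖∇ η x‖ ^ 2
      ≤ (C2 / (s - s')) ^ 2 * ∫ x in closedBall (0 : E n) s, |v x| ^ (2 * q) := by
    have hgη : ∀ x, x ∉ closedBall (0 : E n) s → ∇ η x = 0 := by
      intro x hx
      have : fderiv ℝ η x = 0 := by
        by_contra h
        exact hx (hηs (support_fderiv_subset ℝ h))
      simp [gradient, this]
    have e1 : ∫ x, F (v x) ^ 2 * ‖∇ η x‖ ^ 2
        = ∫ x in closedBall (0 : E n) s, F (v x) ^ 2 * ‖∇ η x‖ ^ 2 := by
      rw [setIntegral_eq_integral_of_forall_compl_eq_zero]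
      intro x hx
      rw [hgη x hx]; simp
    rw [e1, ← integral_const_mul]
    have cFv : Continuous (fun x => F (v x) ^ 2 * ‖∇ η x‖ ^ 2) :=
      ((hFc.continuous.comp hvc).pow 2).mul ((continuous_gradient hη1).norm.pow 2)
    apply setIntegral_mono_on
    · exact cFv.continuousOn.integrableOn_compact (isCompact_closedBall _ _)
    · exact (continuous_const.mul (cvq _ (by linarith))).continuousOn.integrableOn_compact
        (isCompact_closedBall _ _)
    · exact measurableSet_closedBall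
    · intro x hx
      have h3 : F (v x) ^ 2 = |v x| ^ (2 * q) := by rw [hF, sp_sq a _ ha0, haq]
      rw [h3, mul_comm]
      have h4 : ‖∇ η x‖ ^ 2 ≤ (C2 / (s - s')) ^ 2 := by
        have := hηg x
        gcongr
      gcongr
  have hpos : 0 ≤ ∫ x in closedBall (0 : E n) s', |v x| ^ (2 * (chi n * q)) := by positivity
  calc (∫ x in closedBall (0 : E n) s', |v x| ^ (2 * (chi n * q))) ^ (1 / chi n)
      ≤ (∫ x, |f x| ^ (2 * chi n)) ^ (1 / chi n) := by
        apply Real.rpow_le_rpow hpos lowb (by positivity)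
    _ ≤ C1 * ∫ x, ‖∇ f x‖ ^ 2 := sob
    _ ≤ C1 * ((8 * Lam ^ 2 / lam ^ 2 + 2) * ∫ x, F (v x) ^ 2 * ‖∇ η x‖ ^ 2) := by gcongr
    _ ≤ C1 * ((8 * Lam ^ 2 / lam ^ 2 + 2) * ((C2 / (s - s')) ^ 2
          * ∫ x in closedBall (0 : E n) s, |v x| ^ (2 * q))) := by gcongr
    _ = _ := by rw [div_pow]; ring

end

end Crest.Agent.R202.Moser
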