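import Crest.Agent.R202.Moser3

/-!
# Row 202: Moser's sup bound, part 4 (iteration)
-/

set_option autoImplicit false
open MeasureTheory Metric Set Filter Topology InnerProductSpace
open scoped NNReal ENNReal RealInnerProductSpace Gradient ContDiff

namespace Crest.Agent.R202.Moser

noncomputable section

variable {n : ℕ}

local notation "E" n => EuclideanSpace ℝ (Fin n)

/-- product bound for the iteration: exponents `χ^{-k}` -/
lemma iter_bound {χ b : ℝ} (hχ : 1 < χ) (hb : 1 ≤ b) :
    ∃ B : ℝ, 0 < B ∧ ∀ M : ℕ → ℝ, (∀ k, 0 ≤ M k) →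
      (∀ k, M (k + 1) ≤ (b * 4 ^ k) ^ ((χ⁻¹) ^ k) * M k) → ∀ k, M k ≤ B * M 0 := by
  set r := χ⁻¹ with hr
  have hr0 : 0 < r := by positivity
  have hr1 : r < 1 := inv_lt_one_of_one_lt₀ hχ
  have hs1 : Summable (fun j : ℕ => r ^ j) := summable_geometric_of_lt_one hr0.le hr1
  have hs2 : Summable (fun j : ℕ => (j : ℝ) * r ^ j) := by
    have := summable_pow_mul_geometric_of_norm_lt_one (R := ℝ) 1 (r := r)
      (by rw [Real.norm_eq_abs, abs_of_pos hr0]; exact hr1)
    simpa using this
  set S : ℕ → ℝ := fun k => ∑ j ∈ Finset.range k, (r ^ j * Real.log b + (j * r ^ j) * Real.log 4)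
    with hS
  have hlb : 0 ≤ Real.log b := Real.log_nonneg hb
  have hl4 : 0 ≤ Real.log 4 := Real.log_nonneg (by norm_num)
  have hsum : Summable (fun j : ℕ => r ^ j * Real.log b + (j * r ^ j) * Real.log 4) :=
    (hs1.mul_right _).add (hs2.mul_right _)
  set T := ∑' j : ℕ, (r ^ j * Real.log b + (j * r ^ j) * Real.log 4) with hT
  have hST : ∀ k, S k ≤ T := fun k => hsum.sum_le_tsum _ fun j _ => by positivity
  refine ⟨Real.exp T, Real.exp_pos _, fun M hM0 hM k => ?_⟩
  have key : ∀ k, M k ≤ Real.exp (S k) * M 0 := by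
    intro k
    induction k with
    | zero => simp [hS]
    | succ k ih =>
      have h1 : (b * 4 ^ k) ^ (r ^ k) = Real.exp (r ^ k * Real.log b + (k * r ^ k) * Real.log 4) := by
        rw [Real.rpow_def_of_pos (by positivity), Real.log_mul (by positivity) (by positivity),
          Real.log_pow]
        congr 1; ring
      have h2 : S (k + 1) = S k + (r ^ k * Real.log b + (k * r ^ k) * Real.log 4) := by
        simp only [hS, Finset.sum_range_succ]
      calc M (k + 1) ≤ (b * 4 ^ k) ^ (r ^ k) * M k := hM k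
        _ ≤ (b * 4 ^ k) ^ (r ^ k) * (Real.exp (S k) * M 0) := by gcongr
        _ = Real.exp (S (k + 1)) * M 0 := by rw [h1, h2, Real.exp_add (S k)]; ring
  calc M k ≤ Real.exp (S k) * M 0 := key k
    _ ≤ Real.exp T * M 0 := by
      have := hM0 0
      have := hST k
      gcongr

/-- the sup bound on the unit scale -/
theorem unit_scale (hn : 3 ≤ n) {lam : ℝ} (Lam : ℝ) (hlam : 0 < lam) :
    ∃ C : ℝ, 0 < C ∧ ∀ (A : (E n) → (E n) →L[ℝ] (E n)) (v : (E n) → ℝ),
      Continuous A → ContDiff ℝ 1 v → Ell lam Lam A 0 2 → WeakSol A v 0 2 →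
      ∀ x ∈ ball (0 : E n) 1, v x ^ 2 ≤ C * ∫ y in ball (0 : E n) 2, v y ^ 2 := by
  obtain ⟨K, hK, hstep⟩ := step hn Lam hlam
  have hχ := one_lt_chi hn
  have hχ0 : 0 < chi n := by linarith
  obtain ⟨B, hB, hiter⟩ := iter_bound (χ := chi n) (b := 16 * K + 1) hχ (by linarith)
  refine ⟨B, hB, ?_⟩
  intro A v hA hv hell hw x hx
  have hvc := hv.continuous
  have cvq : ∀ b : ℝ, 0 ≤ b → Continuous (fun x => |v x| ^ b) := fun b hb =>
    (continuous_abs_rpow hb).comp hvc
  set s : ℕ → ℝ := fun k => 1 + (1 / 2) ^ (k + 1) with hs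
  set W : ℕ → ℝ := fun k => ∫ y in closedBall (0 : E n) (s k), |v y| ^ (2 * chi n ^ k) with hW
  set M : ℕ → ℝ := fun k => W k ^ ((chi n)⁻¹ ^ k) with hM
  have hW0 : ∀ k, 0 ≤ W k := fun k => by
    simp only [hW]; positivity
  have hM0 : ∀ k, 0 ≤ M k := fun k => Real.rpow_nonneg (hW0 k) _
  have hrec : ∀ k, M (k + 1) ≤ ((16 * K + 1) * 4 ^ k) ^ ((chi n)⁻¹ ^ k) * M k := by
    intro k
    have hsk : s (k + 1) < s k := by
      simp only [hs]
      have : (1 / 2 : ℝ) ^ (k + 1 + 1) < (1 / 2) ^ (k + 1) := by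
        apply pow_lt_pow_right_of_lt_one₀ (by norm_num) (by norm_num) (by omega)
      linarith
    have hs2 : s k < 2 := by
      simp only [hs]
      have : (1 / 2 : ℝ) ^ (k + 1) < 1 := pow_lt_one₀ (by norm_num) (by norm_num) (by omega)
      linarith
    have hs0 : 0 < s (k + 1) := by simp only [hs]; positivity
    have h1 := hstep A v hA hv hell hw (s (k + 1)) (s k) hs0 hsk hs2 (chi n ^ k)
      (one_le_pow₀ hχ.le)
    have h2 : chi n * chi n ^ k = chi n ^ (k + 1) := by ring
    rw [h2] at h1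
    have h3 : K / (s k - s (k + 1)) ^ 2 ≤ (16 * K + 1) * 4 ^ k := by
      have h4 : s k - s (k + 1) = (1 / 2) ^ (k + 2) := by
        simp only [hs]; ring
      rw [h4, div_le_iff₀ (by positivity)]
      have h5 : ((1 / 2 : ℝ) ^ (k + 2)) ^ 2 = (1 / 16) * (1 / 4) ^ k := by
        rw [← pow_mul, mul_comm, pow_mul, pow_add]; norm_num; ring
      rw [h5]
      have h6 : (16 * K + 1) * (4 : ℝ) ^ k * ((1 / 16) * (1 / 4) ^ k) = (16 * K + 1) / 16 := by
        have : (4 : ℝ) ^ k * (1 / 4) ^ k = 1 := by rw [← mul_pow]; norm_num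
        calc (16 * K + 1) * (4 : ℝ) ^ k * ((1 / 16) * (1 / 4) ^ k)
            = (16 * K + 1) / 16 * ((4 : ℝ) ^ k * (1 / 4) ^ k) := by ring
          _ = _ := by rw [this, mul_one]
      rw [h6]
      linarith
    have h7 : W (k + 1) ^ (1 / chi n) ≤ (16 * K + 1) * 4 ^ k * W k := by
      calc W (k + 1) ^ (1 / chi n) ≤ K / (s k - s (k + 1)) ^ 2 * W k := h1
        _ ≤ _ := mul_le_mul_of_nonneg_right h3 (hW0 k)
    calc M (k + 1) = (W (k + 1) ^ (1 / chi n)) ^ ((chi n)⁻¹ ^ k) := by
          simp only [hM]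
          rw [← Real.rpow_mul (hW0 _)]
          congr 1
          rw [one_div]; ring
      _ ≤ ((16 * K + 1) * 4 ^ k * W k) ^ ((chi n)⁻¹ ^ k) := by
          apply Real.rpow_le_rpow (Real.rpow_nonneg (hW0 _) _) h7 (by positivity)
      _ = _ := by
          rw [Real.mul_rpow (by positivity) (hW0 k)]
  have hall := hiter M hM0 hrec
  have hM00 : M 0 ≤ ∫ y in ball (0 : E n) 2, v y ^ 2 := by
    simp only [hM, hW, pow_zero, Real.rpow_one, mul_one]
    have h1 : ∀ y, |v y| ^ (2 : ℝ) = v y ^ 2 := fun y => by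
      rw [Real.rpow_two, sq_abs]
    simp only [h1]
    apply setIntegral_mono_set
    · exact (hvc.pow 2).continuousOn.integrableOn_compact (isCompact_closedBall (0 : E n) 2)
        |>.mono_set ball_subset_closedBall
    · filter_upwards with y; positivity
    · apply LE.le.eventuallyLE
      apply closedBall_subset_ball
      simp only [hs]; norm_num
  -- lower bound for `M k`
  by_contra hcon
  rw [not_le] at hcon
  set t0 := B * ∫ y in ball (0 : E n) 2, v y ^ 2 with ht0
  obtain ⟨t, ht1, ht2⟩ := exists_between hcon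
  have ht00 : 0 ≤ t0 := by
    have : 0 ≤ ∫ y in ball (0 : E n) 2, v y ^ 2 := by positivity
    positivity
  have ht : 0 < t := lt_of_le_of_lt ht00 ht1
  -- a neighbourhood on which v^2 > t
  set U : Set (E n) := ball 0 1 ∩ {y | t < v y ^ 2} with hU
  have hUo : IsOpen U := isOpen_ball.inter (isOpen_lt continuous_const (hvc.pow 2))
  have hUx : x ∈ U := ⟨hx, ht2⟩
  have hUm : 0 < (volume U).toReal := by
    rw [ENNReal.toReal_pos_iff]
    exact ⟨hUo.measure_pos volume ⟨x, hUx⟩,
      lt_of_le_of_lt (measure_mono inter_subset_left) measure_ball_lt_top⟩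
  set m := (volume U).toReal with hm
  have hlow : ∀ k, m ^ ((chi n)⁻¹ ^ k) * t ≤ M k := by
    intro k
    have h1 : m * t ^ (chi n ^ k) ≤ W k := by
      have hsub : U ⊆ closedBall (0 : E n) (s k) := by
        refine inter_subset_left.trans ((ball_subset_ball ?_).trans ball_subset_closedBall)
        simp only [hs]
        have : (0 : ℝ) < (1 / 2) ^ (k + 1) := by positivity
        linarith
      have hcq := cvq (2 * chi n ^ k) (by positivity)
      have hint : IntegrableOn (fun y => |v y| ^ (2 * chi n ^ k)) (closedBall (0 : E n) (s k)) :=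
        hcq.continuousOn.integrableOn_compact (isCompact_closedBall _ _)
      calc m * t ^ (chi n ^ k) = ∫ _y in U, t ^ (chi n ^ k) := by
            rw [setIntegral_const, smul_eq_mul, measureReal_def]
        _ ≤ ∫ y in U, |v y| ^ (2 * chi n ^ k) := by
            apply setIntegral_mono_on
            · exact integrableOn_const (ne_of_lt (lt_of_le_of_lt (measure_mono inter_subset_left)
                measure_ball_lt_top))
            · exact hint.mono_set hsub
            · exact hUo.measurableSet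
            · intro y hy
              have h2 : |v y| ^ (2 * chi n ^ k) = (v y ^ 2) ^ (chi n ^ k) := by
                rw [Real.rpow_mul (abs_nonneg _), Real.rpow_two, sq_abs]
              rw [h2]
              exact Real.rpow_le_rpow ht.le (le_of_lt hy.2) (by positivity)
        _ ≤ W k := by
            apply setIntegral_mono_set hint
            · filter_upwards with y; positivity
            · exact LE.le.eventuallyLE hsub
    calc m ^ ((chi n)⁻¹ ^ k) * t = (m * t ^ (chi n ^ k)) ^ ((chi n)⁻¹ ^ k) := by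
          rw [Real.mul_rpow hUm.le (by positivity), ← Real.rpow_mul ht.le]
          have : chi n ^ k * (chi n)⁻¹ ^ k = 1 := by
            rw [← mul_pow, mul_inv_cancel₀ hχ0.ne', one_pow]
          rw [this, Real.rpow_one]
      _ ≤ M k := by
          simp only [hM]
          apply Real.rpow_le_rpow (by positivity) h1 (by positivity)
  have hlim : Tendsto (fun k : ℕ => m ^ ((chi n)⁻¹ ^ k) * t) atTop (𝓝 (1 * t)) := by
    apply Tendsto.mul_const
    have h1 : Tendsto (fun k : ℕ => (chi n)⁻¹ ^ k) atTop (𝓝 0) :=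
      tendsto_pow_atTop_nhds_zero_of_lt_one (by positivity) (inv_lt_one_of_one_lt₀ hχ)
    have h2 := (Real.continuousAt_const_rpow hUm.ne' (b := 0)).tendsto.comp h1
    simpa [Function.comp_def] using h2
  have hle : 1 * t ≤ t0 := by
    refine le_of_tendsto hlim (Eventually.of_forall fun k => ?_)
    calc m ^ ((chi n)⁻¹ ^ k) * t ≤ M k := hlow k
      _ ≤ B * M 0 := hall k
      _ ≤ t0 := by rw [ht0]; gcongr
  linarith

end

end Crest.Agent.R202.Moser
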