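import Crest.Agent.R202.CThmDef
import Crest.Agent.R202.MixAsym

/-!
# Row 202: the numerics of `BExport` (helper225)

Growth exponents of the cuts at home: `aH`, the form levels `LamH`, the inequality needed by
`BFin.exists_mixData` (`lam_le`), the sector data `secD` and the bound of the means (`exists_c`).
-/

set_option autoImplicit false

open Finset Set

noncomputable section

namespace Crest.Agent.R202.Num

open Crest.Agent.R202.Main Crest.Agent.R202.Lab Crest.Agent.R202.CT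
open Crest.Agent.R202.Mix (SecData)

theorem expo_nonneg {D ρ x : ℝ} (hD : 0 ≤ D) (hx : 0 ≤ x) : 0 ≤ expo D ρ x := by
  unfold expo
  have h1 : D / 2 ≤ Real.sqrt (D ^ 2 / 4 + x * (x + D) / ρ ^ 2) := by
    apply Real.le_sqrt_of_sq_le
    have : 0 ≤ x * (x + D) / ρ ^ 2 := by positivity
    nlinarith
  linarith

/-- the quadratic equation of the exponent -/
theorem expo_eq {D ρ x : ℝ} (hD : 0 ≤ D) (hx : 0 ≤ x) :
    expo D ρ x ^ 2 + D * expo D ρ x = x * (x + D) / ρ ^ 2 := by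
  unfold expo
  have h0 : 0 ≤ D ^ 2 / 4 + x * (x + D) / ρ ^ 2 := by positivity
  have h1 := Real.sq_sqrt h0
  linear_combination h1

theorem expo_mono {D ρ x y : ℝ} (hD : 0 ≤ D) (hx : 0 ≤ x) (hxy : x ≤ y) :
    expo D ρ x ≤ expo D ρ y := by
  unfold expo
  have h1 : x * (x + D) ≤ y * (y + D) := by nlinarith
  have h2 : x * (x + D) / ρ ^ 2 ≤ y * (y + D) / ρ ^ 2 :=
    div_le_div_of_nonneg_right h1 (sq_nonneg _)
  have h3 := Real.sqrt_le_sqrt (add_le_add_right h2 (D ^ 2 / 4))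
  linarith

variable {m : ℕ} {v : ℝ} {k : ℕ}

/-- exponent of the cut `l` (`1 ≤ l`) of the sector `σ` at home -/
def aH (D : CountData m v k) (σ : ℕ × ℕ) (l : ℕ) : ℝ := homeExp m v D.b0 D.e σ (l - 1)

/-- level of the form `θ^{2/(m+2)} Q` of the cut `l` at home -/
def LamH (D : CountData m v k) (σ : ℕ × ℕ) (εh : ℝ) (l : ℕ) : ℝ :=
  (D.b0⁻¹) ^ ((2 : ℝ) / ((m : ℝ) + 2)) * (homeLev D σ (l - 1) + εh)

/-- the form margin belonging to the margin `ε` of the exponents -/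
def epsH (D : CountData m v k) (ε : ℝ) : ℝ :=
  ε * ((m : ℝ) + 1) * (v * D.b0) ^ ((2 : ℝ) / ((m : ℝ) + 2))

theorem epsH_pos (D : CountData m v k) {ε : ℝ} (hε : 0 < ε) : 0 < epsH D ε := by
  have h1 := D.v_pos
  have h2 : 0 < D.b0 := by linarith [D.b0_gt]
  unfold epsH
  have : 0 < (v * D.b0) ^ ((2 : ℝ) / ((m : ℝ) + 2)) := Real.rpow_pos_of_pos (by positivity) _
  positivity

theorem lab_nonneg (D : CountData m v k) (σ : ℕ × ℕ) (c : ℕ) :
    0 ≤ mu D.b0 (D.e σ.2 (c + sh σ)) + (σ.1 : ℝ) := by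
  have h2 : 0 ≤ D.b0 := by linarith [D.b0_gt]
  have := mu_nonneg h2 (D.e σ.2 (c + sh σ))
  positivity

theorem aH_nonneg (D : CountData m v k) (σ : ℕ × ℕ) (l : ℕ) : 0 ≤ aH D σ l :=
  expo_nonneg (by positivity) (lab_nonneg D σ _)

theorem aH_mono (D : CountData m v k) {σ : ℕ × ℕ} (hσ : σ ∈ D.S) {l l' : ℕ} (h : l ≤ l') :
    aH D σ l ≤ aH D σ l' := by
  refine expo_mono (by positivity) (lab_nonneg D σ _) ?_
  have h1 := (D.enum σ.2 (D.secOK σ hσ).1).2.1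
  have h2 := h1.monotone (show l - 1 + sh σ ≤ l' - 1 + sh σ by omega)
  linarith

/-- `exp (2 s_∞) θ₀^{2/(m+2)} = (v b₀)^{-2/(m+2)}` -/
theorem exp_mul (D : CountData m v k) :
    Real.exp (2 * (-Real.log v / ((m : ℝ) + 2))) * (D.b0⁻¹) ^ ((2 : ℝ) / ((m : ℝ) + 2)) =
      ((v * D.b0) ^ ((2 : ℝ) / ((m : ℝ) + 2)))⁻¹ := by
  have hv := D.v_pos
  have hb : 0 < D.b0 := by linarith [D.b0_gt]
  have h1 : Real.exp (2 * (-Real.log v / ((m : ℝ) + 2))) = (v ^ ((2 : ℝ) / ((m : ℝ) + 2)))⁻¹ := by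
    rw [Real.rpow_def_of_pos hv, ← Real.exp_neg]
    congr 1
    ring
  rw [h1, Real.inv_rpow hb.le, Real.mul_rpow hv.le hb.le, mul_inv]

theorem aH_eq (D : CountData m v k) (σ : ℕ × ℕ) (l : ℕ) :
    aH D σ l ^ 2 + ((m : ℝ) + 1) * aH D σ l =
      ((v * D.b0) ^ ((2 : ℝ) / ((m : ℝ) + 2)))⁻¹ * homeLev D σ (l - 1) := by
  have hv := D.v_pos
  have hb : 0 < D.b0 := by linarith [D.b0_gt]
  have h1 := expo_eq (D := (m : ℝ) + 1) (ρ := (v * D.b0) ^ ((1 : ℝ) / ((m : ℝ) + 2)))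
    (by positivity) (lab_nonneg D σ (l - 1))
  have h2 : ((v * D.b0) ^ ((1 : ℝ) / ((m : ℝ) + 2))) ^ 2 =
      (v * D.b0) ^ ((2 : ℝ) / ((m : ℝ) + 2)) := by
    rw [← Real.rpow_natCast, ← Real.rpow_mul (by positivity)]
    congr 1
    push_cast
    ring
  unfold aH homeExp
  rw [h1, h2]
  unfold homeLev
  rw [div_eq_inv_mul]
  ring

/-- the hypothesis `ha` of `exists_mixData` -/
theorem lam_le (D : CountData m v k) (σ : ℕ × ℕ) (l : ℕ) {ε : ℝ} (hε : 0 ≤ ε) :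
    0 ≤ aH D σ l + ε ∧
      Real.exp (2 * (-Real.log v / ((m : ℝ) + 2))) * LamH D σ (epsH D ε) l ≤
        (aH D σ l + ε) ^ 2 + ((m : ℝ) + 1) * (aH D σ l + ε) := by
  have ha := aH_nonneg D σ l
  refine ⟨by linarith, ?_⟩
  have hv := D.v_pos
  have hb : 0 < D.b0 := by linarith [D.b0_gt]
  have hr : 0 < (v * D.b0) ^ ((2 : ℝ) / ((m : ℝ) + 2)) := Real.rpow_pos_of_pos (by positivity) _
  unfold LamH
  rw [← mul_assoc, exp_mul, mul_add, ← aH_eq]
  have h1 : ((v * D.b0) ^ ((2 : ℝ) / ((m : ℝ) + 2)))⁻¹ * epsH D ε = ε * ((m : ℝ) + 1) := by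
    unfold epsH
    field_simp
  rw [h1]
  nlinarith [mul_nonneg ha hε, sq_nonneg ε]

/-- smaller form margins -/
theorem lam_le' (D : CountData m v k) (σ : ℕ × ℕ) (l : ℕ) {ε εh : ℝ} (hε : 0 ≤ ε)
    (hh : εh ≤ epsH D ε) :
    0 ≤ aH D σ l + ε ∧
      Real.exp (2 * (-Real.log v / ((m : ℝ) + 2))) * LamH D σ εh l ≤
        (aH D σ l + ε) ^ 2 + ((m : ℝ) + 1) * (aH D σ l + ε) := by
  obtain ⟨h1, h2⟩ := lam_le D σ l hε
  refine ⟨h1, le_trans (mul_le_mul_of_nonneg_left ?_ (Real.exp_pos _).le) h2⟩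
  unfold LamH
  have hb : 0 < D.b0 := by linarith [D.b0_gt]
  exact mul_le_mul_of_nonneg_left (by linarith) (Real.rpow_nonneg (by positivity) _)

/-- sector data with the exponents `aH + c` -/
def secD (D : CountData m v k) (σ : ℕ × ℕ) (hσ : σ ∈ D.S) (c : ℝ) (off : ℕ) : SecData where
  N := D.N σ
  i0 := D.i0 σ
  a := fun l => aH D σ l + c
  off := off
  i0_pos := D.i0_pos σ hσ
  i0_le := (D.i0_lt σ hσ).le
  mono := fun _ _ _ hij _ => by
    have := aH_mono D hσ hij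
    linarith

theorem secD_mean (D : CountData m v k) {σ : ℕ × ℕ} (hσ : σ ∈ D.S) (c : ℝ) (off : ℕ) :
    (secD D σ hσ c off).mean =
      (∑ c ∈ Finset.Icc (D.i0 σ - 1) (D.N σ - 1), homeExp m v D.b0 D.e σ c) /
        ((D.N σ : ℝ) - (D.i0 σ : ℝ) + 1) + c := by
  have h1 := D.i0_pos σ hσ
  have h2 := D.i0_lt σ hσ
  have hc : ((D.N σ - D.i0 σ : ℕ) : ℝ) = (D.N σ : ℝ) - (D.i0 σ : ℝ) := by
    rw [Nat.cast_sub h2.le]
  have hpos : 0 < (D.N σ : ℝ) - (D.i0 σ : ℝ) + 1 := by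
    rw [← hc]; positivity
  unfold SecData.mean
  simp only [secD]
  rw [hc, Finset.sum_add_distrib, Finset.sum_const, Finset.card_range, nsmul_eq_mul, add_div]
  congr 1
  · congr 1
    refine Finset.sum_nbij (fun i => D.i0 σ - 1 + i) ?_ ?_ ?_ ?_
    · intro i hi
      rw [Finset.mem_range] at hi
      rw [Finset.mem_Icc]
      omega
    · intro i _ j _ hij
      simp only at hij
      omega
    · intro j hj
      simp only [Finset.coe_Icc, Set.mem_Icc] at hj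
      refine ⟨j - (D.i0 σ - 1), ?_, ?_⟩
      · simp only [Finset.coe_range, Set.mem_Iio]
        omega
      · simp only
        omega
    · intro i _
      unfold aH
      congr 1
      omega
  · push_cast
    rw [hc]
    field_simp

/-- for small `c` all means are `< k` -/
theorem exists_c (D : CountData m v k) : ∃ c0 : ℝ, 0 < c0 ∧ ∀ c ≤ c0, ∀ σ, ∀ hσ : σ ∈ D.S,
    ∀ off, (secD D σ hσ c off).mean < k := by
  classical
  set gap : ℕ × ℕ → ℝ := fun σ => (k : ℝ) -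
    (∑ c ∈ Finset.Icc (D.i0 σ - 1) (D.N σ - 1), homeExp m v D.b0 D.e σ c) /
        ((D.N σ : ℝ) - (D.i0 σ : ℝ) + 1) with hgap
  have hg : ∀ σ ∈ D.S, 0 < gap σ := by
    intro σ hσ
    have h2 := D.i0_lt σ hσ
    have hpos : 0 < (D.N σ : ℝ) - (D.i0 σ : ℝ) + 1 := by
      have : (D.i0 σ : ℝ) < D.N σ := by exact_mod_cast h2
      linarith
    have h3 := D.mean σ hσ
    have h4 : (∑ c ∈ Finset.Icc (D.i0 σ - 1) (D.N σ - 1), homeExp m v D.b0 D.e σ c) /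
        ((D.N σ : ℝ) - (D.i0 σ : ℝ) + 1) < k := by
      rw [div_lt_iff₀ hpos]; exact h3
    simp only [hgap]
    linarith
  obtain ⟨σ0, hσ0, hmin⟩ := D.S.exists_min_image gap D.S_ne
  refine ⟨gap σ0 / 2, by linarith [hg σ0 hσ0], fun c hc σ hσ off => ?_⟩
  rw [secD_mean]
  have h1 := hmin σ hσ
  have h2 := hg σ0 hσ0
  have h3 : gap σ = (k : ℝ) -
    (∑ c ∈ Finset.Icc (D.i0 σ - 1) (D.N σ - 1), homeExp m v D.b0 D.e σ c) /
        ((D.N σ : ℝ) - (D.i0 σ : ℝ) + 1) := rfl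
  linarith

end Crest.Agent.R202.Num
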