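import Crest.Agent.R202.PolyJet
import Crest.Agent.R202.InstForm
import Crest.Agent.R202.ModDef

/-! # Row 202, node CONT (helper557): admissibility and continuity of the forms along a polygon
loop, locally uniformly in `(τ, κ)`. -/

set_option autoImplicit false

open MeasureTheory Set Filter
open scoped Topology ContDiff
open Crest.Agent.R202.Mod Crest.Agent.R202.Clu

namespace Crest.Agent.R202.PL

noncomputable section

/-- comparison of the forms of two data -/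
theorem QF_sub_le {d : ℕ} {σ : ℕ × ℕ} {K b b' e : ℝ} {P P' : ℝ × ℝ → ℝ} (hP : Adm d K P)
    (hP' : Adm d K P') (h1 : ∀ z ∈ Om, |P z - P' z| ≤ e)
    (h2 : ∀ z ∈ Om, |b ^ 2 / P z - b' ^ 2 / P' z| ≤ e) (he : 0 ≤ e) (v : CT.VV σ) :
    |CT.QF d σ b P v v - CT.QF d σ b' P' v v| ≤ e * Mod.href d σ.1 σ.2 v v := by
  have cW := coef_WQ hP b
  have cW' := coef_WQ hP' b'
  have c1 := (coef_WQ (adm_one d) 1).const_mul e
  have e1 : CT.QF d σ b P v v = formW σ.1 σ.2 cW v v := rfl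
  have e2 : CT.QF d σ b' P' v v = formW σ.1 σ.2 cW' v v := rfl
  have e3 : formW σ.1 σ.2 c1 v v = e * Q σ.1 σ.2 (adm_one d) 1 v v := by
    unfold Q
    rw [formW_const_mul]
  have hg := g_nonneg (d := d) v
  have h3 : e * Q σ.1 σ.2 (adm_one d) 1 v v ≤ e * Mod.href d σ.1 σ.2 v v := by
    refine mul_le_mul_of_nonneg_left ?_ he
    rw [href_self_add]
    linarith
  rw [e1, e2, abs_le]
  have k1 : ∀ i, ∀ z ∈ Om, |WQ b P i z - WQ b' P' i z| ≤ e * WQ 1 (fun _ => 1) i z := by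
    intro i z hz
    fin_cases i
    · simp [WQ]
    · simp only [WQ, mul_one]
      exact h1 z hz
    · simp only [WQ, div_one, one_pow, mul_one]
      exact h2 z hz
    · simp only [WQ, sub_self, abs_zero, mul_one]
      exact he
  constructor
  · have h4 : formW σ.1 σ.2 (cW'.sub cW) v v ≤ formW σ.1 σ.2 c1 v v := by
      refine formW_mono (cW'.sub cW) c1 (fun i z hz => ?_) v
      have := (abs_le.1 (k1 i z hz)).1
      linarith
    have h5 := formW_sub cW' cW v v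
    rw [h5, e3] at h4
    linarith
  · have h4 : formW σ.1 σ.2 (cW.sub cW') v v ≤ formW σ.1 σ.2 c1 v v := by
      refine formW_mono (cW.sub cW') c1 (fun i z hz => ?_) v
      exact (abs_le.1 (k1 i z hz)).2
    have h5 := formW_sub cW cW' v v
    rw [h5, e3] at h4
    linarith

theorem div_sub_le {K b b' P P' : ℝ} (hK : 1 ≤ K) (hP : K⁻¹ ≤ P) (hP' : K⁻¹ ≤ P')
    (hP'K : P' ≤ K) :
    |b ^ 2 / P - b' ^ 2 / P'| ≤ K ^ 2 * (|b ^ 2 - b' ^ 2| * K + b' ^ 2 * |P - P'|) := by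
  have hK0 : 0 < K := by linarith
  have hKi : 0 < K⁻¹ := inv_pos.2 hK0
  have h1 : 0 < P := hKi.trans_le hP
  have h2 : 0 < P' := hKi.trans_le hP'
  have e : b ^ 2 / P - b' ^ 2 / P' = (P⁻¹ * P'⁻¹) * ((b ^ 2 - b' ^ 2) * P' - b' ^ 2 * (P - P')) := by
    field_simp; ring
  have i1 : P⁻¹ ≤ K := by rw [inv_le_comm₀ h1 hK0]; exact hP
  have i2 : P'⁻¹ ≤ K := by rw [inv_le_comm₀ h2 hK0]; exact hP'
  have i3 : P⁻¹ * P'⁻¹ ≤ K ^ 2 := by
    rw [sq]
    exact mul_le_mul i1 i2 (inv_pos.2 h2).le hK0.le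
  have i4 : |(b ^ 2 - b' ^ 2) * P' - b' ^ 2 * (P - P')| ≤
      |b ^ 2 - b' ^ 2| * K + b' ^ 2 * |P - P'| := by
    refine (abs_sub _ _).trans ?_
    rw [abs_mul, abs_mul, abs_of_pos h2, abs_of_nonneg (sq_nonneg b')]
    have := mul_le_mul_of_nonneg_left hP'K (abs_nonneg (b ^ 2 - b' ^ 2))
    linarith
  rw [e, abs_mul, abs_of_pos (mul_pos (inv_pos.2 h1) (inv_pos.2 h2))]
  exact mul_le_mul i3 i4 (abs_nonneg _) (by positivity)

section Gen

variable {E : Type*} [AddCommGroup E] [Module ℝ E]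

theorem tele_sub (r : ℕ) (V : ℕ → E) (τ τ0 : ℝ) :
    tele r V τ - tele r V τ0 = ∑ i ∈ Finset.range r,
      (Real.smoothTransition (r * τ - i) - Real.smoothTransition (r * τ0 - i)) •
        (V (i + 1) - V i) := by
  unfold tele
  rw [add_sub_add_left_eq_sub, ← Finset.sum_sub_distrib]
  refine Finset.sum_congr rfl fun i _ => ?_
  rw [sub_smul]

theorem tele_affine (r : ℕ) (A B : ℕ → E) (κ τ : ℝ) :
    tele r (fun i => A i + κ • B i) τ = tele r A τ + κ • tele r B τ := by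
  unfold tele
  rw [smul_add, Finset.smul_sum]
  have h : ∀ i : ℕ, Real.smoothTransition (r * τ - i) •
      (A (i + 1) + κ • B (i + 1) - (A i + κ • B i)) =
      Real.smoothTransition (r * τ - i) • (A (i + 1) - A i) +
      κ • Real.smoothTransition (r * τ - i) • (B (i + 1) - B i) := by
    intro i
    module
  simp only [h, Finset.sum_add_distrib]
  abel

theorem diff_eq (A A0 B B0 : E) (κ κ0 : ℝ) :
    (A + κ • B) - (A0 + κ0 • B0) = (A - A0) + κ • (B - B0) + (κ - κ0) • B0 := by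
  module

theorem lin_sub {F : Type*} [AddCommGroup F] [Module ℝ F] (f : E →ₗ[ℝ] F) (x y : E) :
    f (x - y) = f x - f y := map_sub f x y

omit [Module ℝ E] in
theorem add_sub_canc (x y : E) : x = y + (x - y) := by abel

end Gen

variable {Xa Xb : ℝ}

theorem Gf_sub (G G' : ℕ →₀ TestFn Xa Xb) (z : ℝ × ℝ) : Gf (G - G') z = Gf G z - Gf G' z := by
  rw [← GF_eq_Gf, ← GF_eq_Gf, ← GF_eq_Gf]
  exact lin_sub (E := ℕ →₀ TestFn Xa Xb) (F := ℝ) (GF z.1 (Sch.ee z.2)) G G'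

theorem jetN_sum {ι : Type*} (s : Finset ι) (F : ι → ℕ →₀ TestFn Xa Xb) :
    jetN (∑ i ∈ s, F i) ≤ ∑ i ∈ s, jetN (F i) := by
  classical
  induction s using Finset.induction_on with
  | empty =>
    simp only [Finset.sum_empty]
    have := jetN_smul (0 : ℝ) (0 : ℕ →₀ TestFn Xa Xb)
    rw [zero_smul, abs_zero, zero_mul] at this
    exact this.le
  | insert a s ha ih =>
    rw [Finset.sum_insert ha, Finset.sum_insert ha]
    exact (jetN_add _ _).trans (add_le_add le_rfl ih)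

/-- modulus of continuity of a polygonal path -/
def omg (r : ℕ) (V : ℕ → ℕ →₀ TestFn Xa Xb) (τ0 τ : ℝ) : ℝ :=
  ∑ i ∈ Finset.range r, |Real.smoothTransition (r * τ - i) - Real.smoothTransition (r * τ0 - i)| *
    jetN (V (i + 1) - V i)

theorem omg_cont (r : ℕ) (V : ℕ → ℕ →₀ TestFn Xa Xb) (τ0 : ℝ) : Continuous (omg r V τ0) := by
  unfold omg
  refine continuous_finsetSum _ fun i _ => ?_
  have h : Continuous fun τ : ℝ => Real.smoothTransition (r * τ - i) :=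
    Real.smoothTransition.continuous.comp (by fun_prop)
  exact ((h.sub continuous_const).abs).mul continuous_const

theorem omg_self (r : ℕ) (V : ℕ → ℕ →₀ TestFn Xa Xb) (τ0 : ℝ) : omg r V τ0 τ0 = 0 := by
  unfold omg
  simp

theorem jetN_tele_sub (r : ℕ) (V : ℕ → ℕ →₀ TestFn Xa Xb) (τ τ0 : ℝ) :
    jetN (tele r V τ - tele r V τ0) ≤ omg r V τ0 τ := by
  have e := tele_sub r V τ τ0
  rw [e]
  refine (jetN_sum _ _).trans (Finset.sum_le_sum fun i _ => ?_)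
  rw [jetN_smul]

namespace Polygon

variable {y0 y1 : ℝ} (p : Polygon Xa Xb y0 y1)

theorem G_eq (τ κ : ℝ) : p.G τ κ = tele p.r p.G0 τ + κ • tele p.r p.G1 τ := by
  unfold G V
  exact tele_affine p.r p.G0 p.G1 κ τ

/-- modulus of continuity -/
def mdl (τ0 κ0 : ℝ) (z : ℝ × ℝ) : ℝ :=
  omg p.r p.G0 τ0 z.1 + |z.2| * omg p.r p.G1 τ0 z.1 + |z.2 - κ0| * jetN (tele p.r p.G1 τ0)

theorem mdl_cont (τ0 κ0 : ℝ) : Continuous (p.mdl τ0 κ0) := by
  unfold mdl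
  have h1 := (omg_cont p.r p.G0 τ0).comp (continuous_fst (X := ℝ) (Y := ℝ))
  have h2 := (omg_cont p.r p.G1 τ0).comp (continuous_fst (X := ℝ) (Y := ℝ))
  exact (h1.add (continuous_snd.abs.mul h2)).add
    (((continuous_snd.sub continuous_const).abs).mul continuous_const)

theorem mdl_self (τ0 κ0 : ℝ) : p.mdl τ0 κ0 (τ0, κ0) = 0 := by
  unfold mdl
  simp [omg_self]

theorem jetN_sub_le (τ0 κ0 τ κ : ℝ) : jetN (p.G τ κ - p.G τ0 κ0) ≤ p.mdl τ0 κ0 (τ, κ) := by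
  have e : p.G τ κ - p.G τ0 κ0 = (tele p.r p.G0 τ - tele p.r p.G0 τ0) +
      κ • (tele p.r p.G1 τ - tele p.r p.G1 τ0) + (κ - κ0) • tele p.r p.G1 τ0 := by
    rw [G_eq, G_eq]
    exact diff_eq (E := ℕ →₀ TestFn Xa Xb) _ _ _ _ _ _
  rw [e]
  refine (jetN_add _ _).trans (add_le_add ((jetN_add _ _).trans (add_le_add ?_ ?_)) ?_)
  · exact jetN_tele_sub _ _ _ _
  · rw [jetN_smul]
    exact mul_le_mul_of_nonneg_left (jetN_tele_sub _ _ _ _) (abs_nonneg _)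
  · rw [jetN_smul]

variable (hsm : ∀ κ ∈ Icc (-1 : ℝ) 1, ∀ i ≤ p.r, jetN (p.V κ i) ≤ 1 / 2)

include hsm in
/-- the perturbation stays `≤ 3/4` near the parameter interval -/
theorem jetN_ev (τ0 : ℝ) {κ0 : ℝ} (hκ0 : κ0 ∈ Icc (-1 : ℝ) 1) :
    ∀ᶠ z in 𝓝 (τ0, κ0), jetN (p.G z.1 z.2) ≤ 3 / 4 := by
  have h1 : ∀ᶠ z in 𝓝 (τ0, κ0), p.mdl τ0 κ0 z < 1 / 4 := by
    have := (p.mdl_cont τ0 κ0).tendsto (τ0, κ0)
    rw [p.mdl_self] at this
    exact this.eventually (gt_mem_nhds (by norm_num))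
  filter_upwards [h1] with z hz
  have e : p.G z.1 z.2 = p.G τ0 κ0 + (p.G z.1 z.2 - p.G τ0 κ0) := add_sub_canc (E := ℕ →₀ TestFn Xa Xb) _ _
  rw [e]
  have h2 := p.jetN_le (hsm κ0 hκ0) τ0
  have h3 := p.jetN_sub_le τ0 κ0 z.1 z.2
  have h4 := jetN_add (p.G τ0 κ0) (p.G z.1 z.2 - p.G τ0 κ0)
  linarith

theorem adm_prof' (d : ℕ) {h : ℝ → ℝ} (hm : Measurable h) (h01 : ∀ x ∈ Ioo (0 : ℝ) 1, 0 ≤ h x)
    (h11 : ∀ x ∈ Ioo (0 : ℝ) 1, h x ≤ 1) {b β : ℝ} (hb : 1 ≤ b) (hbβ : b ≤ β)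
    {G : ℕ →₀ TestFn Xa Xb} (hG : jetN G ≤ 3 / 4) : Adm d (β + 4) (prof h b G) := by
  refine ⟨?_, by linarith, fun z hz => ?_, fun z hz => ?_⟩
  · refine Measurable.aestronglyMeasurable ?_
    have := Inst.measurable_Gf G
    unfold prof
    fun_prop
  · have h2 := (abs_le.1 ((Inst.abs_Gf_le G z).trans hG)).1
    have h3 := mul_nonneg (sub_nonneg.2 hb) (h01 z.1 hz.1)
    have h4 : (β + 4)⁻¹ ≤ 1 / 4 := by
      rw [inv_le_comm₀ (by linarith) (by norm_num)]; linarith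
    unfold prof; linarith
  · have h2 := (abs_le.1 ((Inst.abs_Gf_le G z).trans hG)).2
    have h3 := mul_le_mul_of_nonneg_left (h11 z.1 hz.1) (sub_nonneg.2 hb)
    unfold prof; linarith

include hsm in
/-- **(CONT) (1)** -/
theorem adm_ev (hy0 : 1 ≤ y0) {h : ℝ → ℝ} (hm : Measurable h)
    (h0 : ∀ x ∈ Ioo (0 : ℝ) 1, 0 ≤ h x) (h1 : ∀ x ∈ Ioo (0 : ℝ) 1, h x ≤ 1) (d : ℕ) (τ0 : ℝ)
    {κ0 : ℝ} (hκ0 : κ0 ∈ Icc (-1 : ℝ) 1) :
    ∀ᶠ z in 𝓝 (τ0, κ0), Adm d (y1 + 4) (prof h (p.y z.1) (p.G z.1 z.2)) := by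
  filter_upwards [p.jetN_ev hsm τ0 hκ0] with z hz
  exact adm_prof' d hm h0 h1 (hy0.trans (p.y_mem z.1).1) (p.y_mem z.1).2 hz

include hsm in
/-- **(CONT) (2)** -/
theorem form_cont (hy0 : 1 ≤ y0) {h : ℝ → ℝ} (hm : Measurable h)
    (h0 : ∀ x ∈ Ioo (0 : ℝ) 1, 0 ≤ h x) (h1 : ∀ x ∈ Ioo (0 : ℝ) 1, h x ≤ 1) (d : ℕ) (σ : ℕ × ℕ)
    (τ0 : ℝ) {κ0 : ℝ} (hκ0 : κ0 ∈ Icc (-1 : ℝ) 1) {ε : ℝ} (hε : 0 < ε) :
    ∀ᶠ z in 𝓝 (τ0, κ0), ∀ v : CT.VV σ,
      |CT.QF d σ (p.y z.1) (prof h (p.y z.1) (p.G z.1 z.2)) v v -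
        CT.QF d σ (p.y τ0) (prof h (p.y τ0) (p.G τ0 κ0)) v v| ≤
      ε * Mod.href d σ.1 σ.2 v v := by
  have hA := p.adm_ev hsm hy0 hm h0 h1 d τ0 hκ0
  have hA0 := hA.self_of_nhds
  set K := y1 + 4 with hK
  have hK1 : 1 ≤ K := hA0.K_ge
  -- the modulus
  set e0 : ℝ × ℝ → ℝ := fun z => |p.y z.1 - p.y τ0| + p.mdl τ0 κ0 z with he0
  set e1 : ℝ × ℝ → ℝ := fun z =>
    K ^ 2 * (|p.y z.1 ^ 2 - p.y τ0 ^ 2| * K + p.y τ0 ^ 2 * e0 z) with he1
  have hyc : Continuous fun z : ℝ × ℝ => p.y z.1 := p.y_smooth.continuous.comp continuous_fst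
  have c0 : Continuous e0 := ((hyc.sub continuous_const).abs).add (p.mdl_cont τ0 κ0)
  have c1 : Continuous e1 := by
    have := ((hyc.pow 2).sub (continuous_const (y := p.y τ0 ^ 2))).abs
    exact continuous_const.mul ((this.mul continuous_const).add (continuous_const.mul c0))
  have z0 : e0 (τ0, κ0) = 0 := by simp only [he0, sub_self, abs_zero, p.mdl_self, add_zero]
  have z1 : e1 (τ0, κ0) = 0 := by simp only [he1, z0]; simp
  have v0 : ∀ᶠ z in 𝓝 (τ0, κ0), e0 z < ε := by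
    have := c0.tendsto (τ0, κ0)
    rw [z0] at this
    exact this.eventually (gt_mem_nhds hε)
  have v1 : ∀ᶠ z in 𝓝 (τ0, κ0), e1 z < ε := by
    have := c1.tendsto (τ0, κ0)
    rw [z1] at this
    exact this.eventually (gt_mem_nhds hε)
  filter_upwards [hA, v0, v1] with z hz hv0 hv1 v
  have hd : ∀ x ∈ Om, |prof h (p.y z.1) (p.G z.1 z.2) x - prof h (p.y τ0) (p.G τ0 κ0) x| ≤
      e0 z := by
    intro x hx
    have e : prof h (p.y z.1) (p.G z.1 z.2) x - prof h (p.y τ0) (p.G τ0 κ0) x =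
        (p.y z.1 - p.y τ0) * h x.1 + Gf (p.G z.1 z.2 - p.G τ0 κ0) x := by
      rw [Gf_sub]; unfold prof; ring
    rw [e]
    refine (abs_add_le _ _).trans (add_le_add ?_ ?_)
    · rw [abs_mul, abs_of_nonneg (h0 x.1 hx.1)]
      exact mul_le_of_le_one_right (abs_nonneg _) (h1 x.1 hx.1)
    · exact (Inst.abs_Gf_le _ _).trans (p.jetN_sub_le τ0 κ0 z.1 z.2)
  refine QF_sub_le hz hA0 (fun x hx => (hd x hx).trans hv0.le) (fun x hx => ?_) hε.le v
  refine (div_sub_le hK1 (hz.low x hx) (hA0.low x hx) (hA0.up x hx)).trans ?_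
  refine le_trans ?_ hv1.le
  simp only [he1]
  have hK2 : 0 ≤ K ^ 2 := by positivity
  refine mul_le_mul_of_nonneg_left (add_le_add le_rfl ?_) hK2
  exact mul_le_mul_of_nonneg_left (hd x hx) (sq_nonneg _)

end Polygon

end

end Crest.Agent.R202.PL
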