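import Mathlib

/-! # Row 202, node LB / PolyLoop (helper557): from polygons in parameter space to smooth loops

`tele r V τ` runs through the polygon `V 0, V 1, …, V r` (`V : ℕ → E`), flat at the vertices.
`GG η a c X u = ∑ k, c k * (η k X / (1 - X²)) * Re (u ^ a k)`. -/

set_option autoImplicit false

open Set
open scoped ContDiff

namespace Crest.Agent.R202.PL

noncomputable section

/-! ### Telescoping path through a polygon -/

section Tele

variable {E : Type*} [AddCommGroup E] [Module ℝ E]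

/-- the smooth path through the vertices `V 0, …, V r` -/
def tele (r : ℕ) (V : ℕ → E) (τ : ℝ) : E :=
  V 0 + ∑ i ∈ Finset.range r, Real.smoothTransition (r * τ - i) • (V (i + 1) - V i)

/-- index of the edge at time `τ` -/
def eidx (r : ℕ) (τ : ℝ) : ℕ := min ⌊r * τ⌋₊ (r - 1)

/-- position on the edge at time `τ` -/
def epos (r : ℕ) (τ : ℝ) : ℝ := Real.smoothTransition (r * τ - eidx r τ)

theorem epos_mem (r : ℕ) (τ : ℝ) : epos r τ ∈ Icc (0 : ℝ) 1 :=
  ⟨Real.smoothTransition.nonneg _, Real.smoothTransition.le_one _⟩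

theorem eidx_lt {r : ℕ} (hr : 0 < r) (τ : ℝ) : eidx r τ < r := by
  unfold eidx
  omega

omit [Module ℝ E] in
theorem sum_tele (V : ℕ → E) (i : ℕ) :
    V 0 + ∑ j ∈ Finset.range i, (V (j + 1) - V j) = V i := by
  rw [Finset.sum_range_sub]; abel

theorem tele_edge (r : ℕ) (V : ℕ → E) (τ : ℝ) {i : ℕ} (hi : i < r) (h1 : (i : ℝ) ≤ r * τ)
    (h2 : r * τ ≤ i + 1) :
    tele r V τ = V i + Real.smoothTransition (r * τ - i) • (V (i + 1) - V i) := by
  unfold tele
  have hsplit : Finset.range r = Finset.range i ∪ ({i} ∪ Finset.Ico (i + 1) r) := by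
    ext j
    simp only [Finset.mem_union, Finset.mem_range, Finset.mem_singleton, Finset.mem_Ico]
    omega
  rw [hsplit, Finset.sum_union, Finset.sum_union]
  · have e1 : ∑ j ∈ Finset.range i, Real.smoothTransition (r * τ - j) • (V (j + 1) - V j) =
        ∑ j ∈ Finset.range i, (V (j + 1) - V j) := by
      refine Finset.sum_congr rfl fun j hj => ?_
      have hj' : (j : ℝ) + 1 ≤ i := by exact_mod_cast Finset.mem_range.1 hj
      rw [Real.smoothTransition.one_of_one_le (by linarith), one_smul]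
    have e2 : ∑ j ∈ Finset.Ico (i + 1) r, Real.smoothTransition (r * τ - j) • (V (j + 1) - V j)
        = 0 := by
      refine Finset.sum_eq_zero fun j hj => ?_
      have hj' : (i : ℝ) + 1 ≤ j := by exact_mod_cast (Finset.mem_Ico.1 hj).1
      rw [Real.smoothTransition.zero_of_nonpos (by linarith), zero_smul]
    rw [e1, e2, Finset.sum_singleton, add_zero, ← add_assoc, sum_tele]
  · rw [Finset.disjoint_left]
    intro j hj hj'
    rw [Finset.mem_singleton] at hj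
    rw [Finset.mem_Ico] at hj'
    omega
  · rw [Finset.disjoint_left]
    intro j hj hj'
    rw [Finset.mem_range] at hj
    rw [Finset.mem_union, Finset.mem_singleton, Finset.mem_Ico] at hj'
    omega

theorem tele_left (r : ℕ) (V : ℕ → E) {τ : ℝ} (hτ : τ ≤ 0) : tele r V τ = V 0 := by
  unfold tele
  rw [Finset.sum_eq_zero, add_zero]
  intro j _
  rw [Real.smoothTransition.zero_of_nonpos, zero_smul]
  have h1 : (r : ℝ) * τ ≤ 0 := mul_nonpos_of_nonneg_of_nonpos (Nat.cast_nonneg r) hτ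
  have h2 : (0 : ℝ) ≤ j := Nat.cast_nonneg j
  linarith

theorem tele_right (r : ℕ) (V : ℕ → E) {τ : ℝ} (hτ : 1 ≤ τ) : tele r V τ = V r := by
  unfold tele
  rw [← sum_tele V r]
  congr 1
  refine Finset.sum_congr rfl fun j hj => ?_
  have hj' : (j : ℝ) + 1 ≤ r := by exact_mod_cast Finset.mem_range.1 hj
  have h1 : (r : ℝ) ≤ r * τ := le_mul_of_one_le_right (Nat.cast_nonneg r) hτ
  rw [Real.smoothTransition.one_of_one_le (by linarith), one_smul]

/-- every point of the path is a convex combination of two neighbouring vertices -/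
theorem tele_eq {r : ℕ} (hr : 0 < r) (V : ℕ → E) {τ : ℝ} (h0 : 0 ≤ τ) (h1 : τ ≤ 1) :
    tele r V τ = (1 - epos r τ) • V (eidx r τ) + epos r τ • V (eidx r τ + 1) := by
  have hr' : (0 : ℝ) < r := by exact_mod_cast hr
  have hτ : 0 ≤ (r : ℝ) * τ := by positivity
  have a1 : (eidx r τ : ℝ) ≤ r * τ := by
    have : ((eidx r τ : ℕ) : ℝ) ≤ (⌊(r : ℝ) * τ⌋₊ : ℝ) := by
      exact_mod_cast min_le_left _ _
    exact this.trans (Nat.floor_le hτ)
  have a2 : (r : ℝ) * τ ≤ eidx r τ + 1 := by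
    unfold eidx
    rcases le_total ⌊(r : ℝ) * τ⌋₊ (r - 1) with h | h
    · rw [min_eq_left h]
      exact (Nat.lt_floor_add_one _).le
    · rw [min_eq_right h]
      have h3 : ((r - 1 : ℕ) : ℝ) + 1 = r := by
        have : (r - 1) + 1 = r := Nat.succ_pred_eq_of_pos hr
        exact_mod_cast this
      rw [h3]
      nlinarith
  rw [tele_edge r V τ (eidx_lt hr τ) a1 a2]
  unfold epos
  module

/-- TRANSFER: a property which holds on all the edges holds along the path. -/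
theorem tele_forall {r : ℕ} (hr : 0 < r) (V : ℕ → E) (Q : E → Prop)
    (hQ : ∀ i < r, ∀ s ∈ Icc (0 : ℝ) 1, Q ((1 - s) • V i + s • V (i + 1))) (τ : ℝ) :
    Q (tele r V τ) := by
  rcases le_or_gt τ 0 with h0 | h0
  · rw [tele_left r V h0]
    have := hQ 0 hr 0 ⟨le_rfl, zero_le_one⟩
    simpa using this
  rcases le_or_gt 1 τ with h1 | h1
  · rw [tele_right r V h1]
    have h2 := hQ (r - 1) (by omega) 1 ⟨zero_le_one, le_rfl⟩
    have h3 : r - 1 + 1 = r := Nat.succ_pred_eq_of_pos hr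
    rw [h3] at h2
    simpa using h2
  rw [tele_eq hr V h0.le h1.le]
  exact hQ _ (eidx_lt hr τ) _ (epos_mem r τ)

theorem map_tele {E' : Type*} [AddCommGroup E'] [Module ℝ E'] (φ : E →ₗ[ℝ] E') (r : ℕ)
    (V : ℕ → E) (τ : ℝ) : φ (tele r V τ) = tele r (fun i => φ (V i)) τ := by
  unfold tele
  simp [map_sum]

end Tele

section TeleN

variable {E : Type*} [NormedAddCommGroup E] [NormedSpace ℝ E]

/-- joint smoothness when the vertices depend smoothly on a parameter -/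
theorem contDiff_tele {W : Type*} [NormedAddCommGroup W] [NormedSpace ℝ W] (r : ℕ)
    {V : ℕ → W → E} (hV : ∀ i, ContDiff ℝ ∞ (V i)) {g : W → ℝ} (hg : ContDiff ℝ ∞ g) :
    ContDiff ℝ ∞ (fun p : W => tele r (fun i => V i p) (g p)) := by
  unfold tele
  refine (hV 0).add (ContDiff.sum fun i _ => ?_)
  exact (Real.smoothTransition.contDiff.comp
    ((contDiff_const.mul hg).sub contDiff_const)).smul ((hV (i + 1)).sub (hV i))

/-- bounds at the vertices are bounds along the path -/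
theorem norm_tele_le {r : ℕ} (hr : 0 < r) (V : ℕ → E) {B : ℝ} (hB : ∀ i ≤ r, ‖V i‖ ≤ B)
    (τ : ℝ) : ‖tele r V τ‖ ≤ B := by
  refine tele_forall hr V (fun x => ‖x‖ ≤ B) (fun i hi s hs => ?_) τ
  have h1 := hB i hi.le
  have h2 := hB (i + 1) hi
  calc ‖(1 - s) • V i + s • V (i + 1)‖ ≤ ‖(1 - s) • V i‖ + ‖s • V (i + 1)‖ := norm_add_le _ _
    _ = (1 - s) * ‖V i‖ + s * ‖V (i + 1)‖ := by
        rw [norm_smul, norm_smul, Real.norm_eq_abs, Real.norm_eq_abs,
          abs_of_nonneg (by linarith [hs.2]), abs_of_nonneg hs.1]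
    _ ≤ (1 - s) * B + s * B :=
        add_le_add (mul_le_mul_of_nonneg_left h1 (by linarith [hs.2]))
          (mul_le_mul_of_nonneg_left h2 hs.1)
    _ = B := by ring

theorem tele_mem_Icc {r : ℕ} (hr : 0 < r) (V : ℕ → ℝ) {a b : ℝ} (hV : ∀ i ≤ r, V i ∈ Icc a b)
    (τ : ℝ) : tele r V τ ∈ Icc a b := by
  refine tele_forall hr V (fun x => x ∈ Icc a b) (fun i hi s hs => ?_) τ
  have h1 := hV i hi.le
  have h2 := hV (i + 1) hi
  have := (convex_Icc a b) h1 h2 (by linarith [hs.2] : 0 ≤ 1 - s) hs.1 (by ring)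
  simpa using this

end TeleN

/-! ### The cross-section perturbation -/

section GG

variable {M : ℕ}

/-- `η(X) / (1 - X²)` -/
def etaT (η : ℝ → ℝ) (X : ℝ) : ℝ := η X * (1 - X ^ 2)⁻¹

/-- the perturbation `∑ c_k η_k(X) (1-X²)⁻¹ Re (u^{a_k})` -/
def GG (η : Fin M → ℝ → ℝ) (a : Fin M → ℕ) (c : Fin M → ℝ) (X : ℝ) (u : ℂ) : ℝ :=
  ∑ k, c k * (etaT (η k) X * (u ^ a k).re)

theorem contDiff_etaT {η : ℝ → ℝ} {Xa Xb : ℝ} (h0 : 0 < Xa) (hb : Xb < 1) (hη : ContDiff ℝ ∞ η)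
    (hs : ∀ X, X ∉ Icc Xa Xb → η X = 0) : ContDiff ℝ ∞ (etaT η) := by
  rw [contDiff_iff_contDiffAt]
  intro X
  by_cases hX : X ∈ Ioo (0 : ℝ) 1
  · have h1 : (1 : ℝ) - X ^ 2 ≠ 0 := by
      have := hX.1; have := hX.2
      nlinarith
    unfold etaT
    exact hη.contDiffAt.mul ((contDiffAt_const.sub (contDiffAt_id.pow 2)).inv h1)
  · have h2 : ∀ᶠ Y in nhds X, Y ∉ Icc Xa Xb := by
      apply isClosed_Icc.isOpen_compl.mem_nhds
      intro h3
      exact hX ⟨lt_of_lt_of_le h0 h3.1, lt_of_le_of_lt h3.2 hb⟩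
    refine (contDiffAt_const (c := (0 : ℝ))).congr_of_eventuallyEq ?_
    filter_upwards [h2] with Y hY
    unfold etaT
    rw [hs Y hY, zero_mul]

theorem etaT_support {η : ℝ → ℝ} {Xa Xb : ℝ} (hs : ∀ X, X ∉ Icc Xa Xb → η X = 0) {X : ℝ}
    (hX : X ∉ Icc Xa Xb) : etaT η X = 0 := by
  unfold etaT; rw [hs X hX, zero_mul]

theorem GG_support {η : Fin M → ℝ → ℝ} {a : Fin M → ℕ} {Xa Xb : ℝ}
    (hs : ∀ k X, X ∉ Icc Xa Xb → η k X = 0) (c : Fin M → ℝ) {X : ℝ} (hX : X ∉ Icc Xa Xb) (u : ℂ) :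
    GG η a c X u = 0 := by
  unfold GG
  refine Finset.sum_eq_zero fun k _ => ?_
  rw [etaT_support (hs k) hX]; ring

theorem GG_zero (η : Fin M → ℝ → ℝ) (a : Fin M → ℕ) (X : ℝ) (u : ℂ) : GG η a 0 X u = 0 := by
  unfold GG; simp

theorem contDiff_re_pow (a : ℕ) : ContDiff ℝ ∞ (fun u : ℂ => (u ^ a).re) :=
  Complex.reCLM.contDiff.comp (contDiff_id.pow a)

theorem contDiff_GG {W : Type*} [NormedAddCommGroup W] [NormedSpace ℝ W]
    {η : Fin M → ℝ → ℝ} {a : Fin M → ℕ} {Xa Xb : ℝ} (h0 : 0 < Xa) (hb : Xb < 1)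
    (hη : ∀ k, ContDiff ℝ ∞ (η k)) (hs : ∀ k X, X ∉ Icc Xa Xb → η k X = 0)
    {c : W → Fin M → ℝ} (hc : ContDiff ℝ ∞ c) {X : W → ℝ} (hX : ContDiff ℝ ∞ X) {u : W → ℂ}
    (hu : ContDiff ℝ ∞ u) : ContDiff ℝ ∞ (fun p => GG η a (c p) (X p) (u p)) := by
  unfold GG
  refine ContDiff.sum fun k _ => ?_
  exact (contDiff_pi.1 hc k).mul (((contDiff_etaT h0 hb (hη k) (hs k)).comp hX).mul
    ((contDiff_re_pow (a k)).comp hu))

theorem re_exp_pow (a : ℕ) (φ : ℝ) :
    ((Complex.exp ((φ : ℂ) * Complex.I)) ^ a).re = Real.cos (a * φ) := by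
  rw [← Complex.exp_nat_mul]
  have : (a : ℂ) * ((φ : ℂ) * Complex.I) = ((a * φ : ℝ) : ℂ) * Complex.I := by
    push_cast; ring
  rw [this, Complex.exp_ofReal_mul_I_re]

theorem GG_exp (η : Fin M → ℝ → ℝ) (a : Fin M → ℕ) (c : Fin M → ℝ) (X φ : ℝ) :
    GG η a c X (Complex.exp ((φ : ℂ) * Complex.I)) =
      ∑ k, c k * (etaT (η k) X * Real.cos (a k * φ)) := by
  unfold GG
  refine Finset.sum_congr rfl fun k _ => ?_
  rw [re_exp_pow]

theorem abs_re_pow_le {u : ℂ} (hu : ‖u‖ ≤ 1) (a : ℕ) : |(u ^ a).re| ≤ 1 := by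
  calc |(u ^ a).re| ≤ ‖u ^ a‖ := Complex.abs_re_le_norm _
    _ = ‖u‖ ^ a := norm_pow _ _
    _ ≤ 1 := pow_le_one₀ (norm_nonneg _) hu

/-- derivatives of a smooth function with compact support are bounded -/
theorem exists_bound_iteratedDeriv {f : ℝ → ℝ} (hf : ContDiff ℝ ∞ f) {Xa Xb : ℝ}
    (hs : ∀ X, X ∉ Icc Xa Xb → f X = 0) :
    ∃ C, 0 ≤ C ∧ ∀ X, |f X| ≤ C ∧ |deriv f X| ≤ C ∧ |deriv (deriv f) X| ≤ C := by
  have hcs : HasCompactSupport f := HasCompactSupport.intro isCompact_Icc fun X hX => hs X hX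
  have hcs1 : HasCompactSupport (deriv f) := hcs.deriv
  have hcs2 : HasCompactSupport (deriv (deriv f)) := hcs1.deriv
  have hc0 : Continuous f := hf.continuous
  have hd1 : ContDiff ℝ ∞ (deriv f) := (contDiff_infty_iff_deriv.1 hf).2
  have hd2 : ContDiff ℝ ∞ (deriv (deriv f)) := (contDiff_infty_iff_deriv.1 hd1).2
  obtain ⟨C0, h0⟩ := hcs.exists_bound_of_continuous hc0
  obtain ⟨C1, h1⟩ := hcs1.exists_bound_of_continuous hd1.continuous
  obtain ⟨C2, h2⟩ := hcs2.exists_bound_of_continuous hd2.continuous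
  have hC0 : 0 ≤ C0 := (norm_nonneg _).trans (h0 0)
  have hC1 : 0 ≤ C1 := (norm_nonneg _).trans (h1 0)
  have hC2 : 0 ≤ C2 := (norm_nonneg _).trans (h2 0)
  refine ⟨C0 + C1 + C2, by positivity, fun X => ⟨?_, ?_, ?_⟩⟩
  · have := h0 X; rw [Real.norm_eq_abs] at this; linarith
  · have := h1 X; rw [Real.norm_eq_abs] at this; linarith
  · have := h2 X; rw [Real.norm_eq_abs] at this; linarith

/-- the static perturbation in the angular variable -/
def GP (η : Fin M → ℝ → ℝ) (a : Fin M → ℕ) (c : Fin M → ℝ) (X φ : ℝ) : ℝ :=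
  GG η a c X (Complex.exp ((φ : ℂ) * Complex.I))

section Derivs

variable {η : Fin M → ℝ → ℝ} {a : Fin M → ℕ} {Xa Xb : ℝ} (h0 : 0 < Xa) (hb : Xb < 1)
  (hη : ∀ k, ContDiff ℝ ∞ (η k)) (hs : ∀ k X, X ∉ Icc Xa Xb → η k X = 0)

include h0 hb hη hs

theorem hasDerivAt_etaT (k : Fin M) (X : ℝ) :
    HasDerivAt (etaT (η k)) (deriv (etaT (η k)) X) X :=
  ((contDiff_etaT h0 hb (hη k) (hs k)).differentiable (by simp) X).hasDerivAt

theorem hasDerivAt_etaT1 (k : Fin M) (X : ℝ) :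
    HasDerivAt (deriv (etaT (η k))) (deriv (deriv (etaT (η k))) X) X :=
  (((contDiff_infty_iff_deriv.1 (contDiff_etaT h0 hb (hη k) (hs k))).2).differentiable
    (by simp) X).hasDerivAt

/-- `∂_X` of the perturbation at any `u` -/
theorem deriv_GG_X (c : Fin M → ℝ) (u : ℂ) :
    deriv (fun X => GG η a c X u) = fun X => ∑ k, c k * (deriv (etaT (η k)) X * (u ^ a k).re) := by
  funext X
  apply HasDerivAt.deriv
  unfold GG
  refine HasDerivAt.fun_sum fun k _ => ?_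
  exact ((hasDerivAt_etaT h0 hb hη hs k X).mul_const _).const_mul _

theorem deriv_deriv_GG_X (c : Fin M → ℝ) (u : ℂ) :
    deriv (deriv (fun X => GG η a c X u)) =
      fun X => ∑ k, c k * (deriv (deriv (etaT (η k))) X * (u ^ a k).re) := by
  rw [deriv_GG_X h0 hb hη hs]
  funext X
  apply HasDerivAt.deriv
  refine HasDerivAt.fun_sum fun k _ => ?_
  exact ((hasDerivAt_etaT1 h0 hb hη hs k X).mul_const _).const_mul _

omit h0 hb hη hs in
theorem deriv_GP_φ (c : Fin M → ℝ) (X : ℝ) :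
    deriv (fun φ => GP η a c X φ) =
      fun φ => ∑ k, c k * (etaT (η k) X * (-(Real.sin (a k * φ)) * a k)) := by
  funext φ
  apply HasDerivAt.deriv
  have : (fun φ => GP η a c X φ) = fun φ => ∑ k, c k * (etaT (η k) X * Real.cos (a k * φ)) := by
    funext φ; exact GG_exp η a c X φ
  rw [this]
  refine HasDerivAt.fun_sum fun k _ => ?_
  have h1 : HasDerivAt (fun φ : ℝ => (a k : ℝ) * φ) (a k : ℝ) φ := by
    simpa using (hasDerivAt_id φ).const_mul (a k : ℝ)
  exact (h1.cos.const_mul _).const_mul _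

omit h0 hb hη hs in
theorem deriv_deriv_GP_φ (c : Fin M → ℝ) (X : ℝ) :
    deriv (deriv (fun φ => GP η a c X φ)) =
      fun φ => ∑ k, c k * (etaT (η k) X * (-(Real.cos (a k * φ) * a k) * a k)) := by
  rw [deriv_GP_φ]
  funext φ
  apply HasDerivAt.deriv
  refine HasDerivAt.fun_sum fun k _ => ?_
  have h1 : HasDerivAt (fun φ : ℝ => (a k : ℝ) * φ) (a k : ℝ) φ := by
    simpa using (hasDerivAt_id φ).const_mul (a k : ℝ)
  exact ((h1.sin.neg.mul_const _).const_mul _).const_mul _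

/-- all jets of order `≤ 2` of the perturbation are bounded by `C ‖c‖` -/
theorem exists_jet_bound (a : Fin M → ℕ) : ∃ C, 0 ≤ C ∧ ∀ (c : Fin M → ℝ),
    (∀ X u, ‖u‖ ≤ 1 → |GG η a c X u| ≤ C * ‖c‖) ∧
    (∀ X u, ‖u‖ ≤ 1 → |deriv (fun Y => GG η a c Y u) X| ≤ C * ‖c‖) ∧
    (∀ X u, ‖u‖ ≤ 1 → |deriv (deriv (fun Y => GG η a c Y u)) X| ≤ C * ‖c‖) ∧
    (∀ X φ, |deriv (fun ψ => GP η a c X ψ) φ| ≤ C * ‖c‖) ∧
    (∀ X φ, |deriv (deriv (fun ψ => GP η a c X ψ)) φ| ≤ C * ‖c‖) := by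
  have hbd : ∀ k, ∃ C, 0 ≤ C ∧ ∀ X, |etaT (η k) X| ≤ C ∧ |deriv (etaT (η k)) X| ≤ C ∧
      |deriv (deriv (etaT (η k))) X| ≤ C := fun k =>
    exists_bound_iteratedDeriv (contDiff_etaT h0 hb (hη k) (hs k))
      (fun X hX => etaT_support (hs k) hX)
  choose B hB0 hB using hbd
  set C := ∑ k, B k * (1 + (a k : ℝ)) ^ 2 with hC
  have hterm : ∀ k, B k ≤ B k * (1 + (a k : ℝ)) ^ 2 := by
    intro k
    have h1 : (0 : ℝ) ≤ a k := Nat.cast_nonneg _
    nlinarith [hB0 k, mul_nonneg (hB0 k) h1, mul_nonneg (hB0 k) (mul_nonneg h1 h1)]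
  have key : ∀ (c : Fin M → ℝ) (y : Fin M → ℝ), (∀ k, |y k| ≤ B k * (1 + (a k : ℝ)) ^ 2) →
      |∑ k, c k * y k| ≤ C * ‖c‖ := by
    intro c y hy
    calc |∑ k, c k * y k| ≤ ∑ k, |c k * y k| := Finset.abs_sum_le_sum_abs _ _
      _ ≤ ∑ k, (B k * (1 + (a k : ℝ)) ^ 2) * ‖c‖ := by
          refine Finset.sum_le_sum fun k _ => ?_
          rw [abs_mul, mul_comm]
          have h1 : |c k| ≤ ‖c‖ := norm_le_pi_norm c k
          exact mul_le_mul (hy k) h1 (abs_nonneg _) ((hB0 k).trans (hterm k))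
      _ = C * ‖c‖ := by rw [hC, Finset.sum_mul]
  refine ⟨C, Finset.sum_nonneg fun k _ => (hB0 k).trans (hterm k), fun c => ⟨?_, ?_, ?_, ?_, ?_⟩⟩
  · intro X u hu
    refine key c _ fun k => ?_
    rw [abs_mul]
    calc |etaT (η k) X| * |(u ^ a k).re| ≤ B k * 1 :=
          mul_le_mul (hB k X).1 (abs_re_pow_le hu _) (abs_nonneg _) (hB0 k)
      _ ≤ _ := by rw [mul_one]; exact hterm k
  · intro X u hu
    rw [deriv_GG_X h0 hb hη hs]
    refine key c _ fun k => ?_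
    rw [abs_mul]
    calc |deriv (etaT (η k)) X| * |(u ^ a k).re| ≤ B k * 1 :=
          mul_le_mul (hB k X).2.1 (abs_re_pow_le hu _) (abs_nonneg _) (hB0 k)
      _ ≤ _ := by rw [mul_one]; exact hterm k
  · intro X u hu
    rw [deriv_deriv_GG_X h0 hb hη hs]
    refine key c _ fun k => ?_
    rw [abs_mul]
    calc |deriv (deriv (etaT (η k))) X| * |(u ^ a k).re| ≤ B k * 1 :=
          mul_le_mul (hB k X).2.2 (abs_re_pow_le hu _) (abs_nonneg _) (hB0 k)
      _ ≤ _ := by rw [mul_one]; exact hterm k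
  · intro X φ
    rw [deriv_GP_φ]
    refine key c _ fun k => ?_
    have h1 : (0 : ℝ) ≤ a k := Nat.cast_nonneg _
    rw [abs_mul, abs_mul, abs_neg, abs_of_nonneg h1]
    have h2 : |Real.sin (a k * φ)| * a k ≤ 1 * a k :=
      mul_le_mul_of_nonneg_right (Real.abs_sin_le_one _) h1
    calc |etaT (η k) X| * (|Real.sin (a k * φ)| * a k) ≤ B k * (1 * a k) :=
          mul_le_mul (hB k X).1 h2 (by positivity) (hB0 k)
      _ ≤ B k * (1 + (a k : ℝ)) ^ 2 := by
          apply mul_le_mul_of_nonneg_left _ (hB0 k)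
          nlinarith
  · intro X φ
    rw [deriv_deriv_GP_φ]
    refine key c _ fun k => ?_
    have h1 : (0 : ℝ) ≤ a k := Nat.cast_nonneg _
    rw [abs_mul, abs_mul, abs_neg, abs_mul, abs_of_nonneg h1]
    have h2 : |Real.cos (a k * φ)| * a k * a k ≤ 1 * a k * a k := by
      apply mul_le_mul_of_nonneg_right _ h1
      exact mul_le_mul_of_nonneg_right (Real.abs_cos_le_one _) h1
    calc |etaT (η k) X| * (|Real.cos (a k * φ)| * a k * a k) ≤ B k * (1 * a k * a k) :=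
          mul_le_mul (hB k X).1 h2 (by positivity) (hB0 k)
      _ ≤ B k * (1 + (a k : ℝ)) ^ 2 := by
          apply mul_le_mul_of_nonneg_left _ (hB0 k)
          nlinarith

end Derivs

end GG

end

end Crest.Agent.R202.PL
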