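import Mathlib

/-!
Row 202, node PROFILE (P3), file 1: the tip profile `h`.
(helper912)
-/

set_option autoImplicit false
open scoped ContDiff Topology
open Set Filter

namespace Crest.Agent.R202.Prof

noncomputable section

/-- the smooth step -/
def S (x : ℝ) : ℝ := Real.smoothTransition x

theorem S_smooth : ContDiff ℝ ∞ S := Real.smoothTransition.contDiff

theorem S_nonneg (x : ℝ) : 0 ≤ S x := Real.smoothTransition.nonneg x

theorem S_le_one (x : ℝ) : S x ≤ 1 := Real.smoothTransition.le_one x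

theorem S_zero {x : ℝ} (h : x ≤ 0) : S x = 0 := Real.smoothTransition.zero_of_nonpos h

theorem S_one {x : ℝ} (h : 1 ≤ x) : S x = 1 := Real.smoothTransition.one_of_one_le h

theorem S_mono : Monotone S := Real.smoothTransition.monotone

theorem S_diff : Differentiable ℝ S := S_smooth.differentiable (by simp)

/-- its primitive -/
def N (x : ℝ) : ℝ := ∫ t in (0 : ℝ)..x, S t

theorem N_hasDeriv (x : ℝ) : HasDerivAt N (S x) x :=
  intervalIntegral.integral_hasDerivAt_right (S_smooth.continuous.intervalIntegrable _ _)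
    (S_smooth.continuous.stronglyMeasurableAtFilter _ _) S_smooth.continuous.continuousAt

theorem N_deriv : deriv N = S := funext fun x => (N_hasDeriv x).deriv

theorem N_diff : Differentiable ℝ N := fun x => (N_hasDeriv x).differentiableAt

theorem N_smooth : ContDiff ℝ ∞ N := by
  rw [contDiff_infty_iff_deriv]
  exact ⟨N_diff, by rw [N_deriv]; exact S_smooth⟩

theorem N_zero {x : ℝ} (h : x ≤ 0) : N x = 0 := by
  rw [N, intervalIntegral.integral_congr (g := fun _ => (0 : ℝ))]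
  · simp
  · intro t ht
    rw [uIcc_of_ge h] at ht
    exact S_zero ht.2

theorem N_mono : Monotone N :=
  monotone_of_deriv_nonneg N_diff fun x => by rw [N_deriv]; exact S_nonneg x

theorem N_nonneg (x : ℝ) : 0 ≤ N x := by
  rcases le_total x 0 with h | h
  · rw [N_zero h]
  · have := N_mono h
    rwa [N_zero le_rfl] at this

/-- `x - N x` is nondecreasing. -/
theorem sub_N_mono : Monotone (fun x => x - N x) := by
  refine monotone_of_deriv_nonneg (differentiable_id.sub N_diff) fun x => ?_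
  have : HasDerivAt (fun x => x - N x) (1 - S x) x := (hasDerivAt_id x).sub (N_hasDeriv x)
  rw [this.deriv]
  linarith [S_le_one x]

theorem N_le {x : ℝ} (h : 0 ≤ x) : N x ≤ x := by
  have := sub_N_mono h
  simp only [N_zero le_rfl] at this
  linarith

/-- the shift -/
def c0 : ℝ := 1 - N 1

theorem c0_nonneg : 0 ≤ c0 := by
  have := N_le (zero_le_one' ℝ); unfold c0; linarith

theorem c0_le_one : c0 ≤ 1 := by
  have := N_nonneg 1; unfold c0; linarith

theorem N_one {x : ℝ} (h : 1 ≤ x) : N x = x - c0 := by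
  have h1 : N x - N 1 = ∫ t in (1 : ℝ)..x, S t := by
    rw [N, N, intervalIntegral.integral_interval_sub_left
      (S_smooth.continuous.intervalIntegrable _ _) (S_smooth.continuous.intervalIntegrable _ _)]
  have h2 : ∫ t in (1 : ℝ)..x, S t = ∫ t in (1 : ℝ)..x, (1 : ℝ) := by
    apply intervalIntegral.integral_congr
    intro t ht
    rw [uIcc_of_le h] at ht
    exact S_one ht.1
  rw [h2] at h1
  simp at h1
  unfold c0; linarith

theorem le_N (x : ℝ) : x - c0 ≤ N x := by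
  rcases le_total 1 x with h | h
  · rw [N_one h]
  · have := sub_N_mono h
    simp only at this
    unfold c0; linarith

/-- cut-off function of the profile -/
def a0 (X0 : ℝ) (X : ℝ) : ℝ := S ((X - X0) / ((1 - X0) / 2))

/-- the function `w` = smooth minimum of `ε a0` and `1 - X²` -/
def wf (X0 ε : ℝ) (X : ℝ) : ℝ :=
  ε * a0 X0 X - ε / 4 * N ((ε * a0 X0 X - (1 - X ^ 2)) / (ε / 4) + c0)

theorem a0_smooth (X0 : ℝ) : ContDiff ℝ ∞ (a0 X0) :=
  S_smooth.comp ((contDiff_id.sub contDiff_const).div_const _)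

theorem wf_smooth (X0 ε : ℝ) : ContDiff ℝ ∞ (wf X0 ε) := by
  have ha := a0_smooth X0
  unfold wf
  refine (contDiff_const.mul ha).sub (contDiff_const.mul (N_smooth.comp ?_))
  exact (((contDiff_const.mul ha).sub (contDiff_const.sub (contDiff_id.pow 2))).div_const _).add
    contDiff_const

section

variable {X0 ε : ℝ}

theorem a0_zero (h0 : X0 < 1) {X : ℝ} (h : X ≤ X0) : a0 X0 X = 0 :=
  S_zero (div_nonpos_of_nonpos_of_nonneg (by linarith) (by linarith))

theorem a0_one (h0 : X0 < 1) {X : ℝ} (h : (1 + X0) / 2 ≤ X) : a0 X0 X = 1 := by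
  apply S_one
  rw [le_div_iff₀ (by linarith)]; linarith

theorem a0_nonneg (X : ℝ) : 0 ≤ a0 X0 X := S_nonneg _

theorem a0_le_one (X : ℝ) : a0 X0 X ≤ 1 := S_le_one _

theorem a0_mono (h0 : X0 < 1) : Monotone (a0 X0) := by
  intro x y h
  apply S_mono
  have : 0 < (1 - X0) / 2 := by linarith
  gcongr

/-- the argument of `N` -/
def sf (X0 ε : ℝ) (X : ℝ) : ℝ := (ε * a0 X0 X - (1 - X ^ 2)) / (ε / 4) + c0

theorem wf_eq (X : ℝ) : wf X0 ε X = ε * a0 X0 X - ε / 4 * N (sf X0 ε X) := rfl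

theorem wf_low (_hX0 : 0 < X0) (_h0 : X0 < 1) (hε : 0 < ε)
    (hε0 : ε ≤ (1 - ((1 + X0) / 2) ^ 2) / 2) {X : ℝ} (h1 : -((1 + X0) / 2) ≤ X)
    (h2 : X ≤ (1 + X0) / 2) : wf X0 ε X = ε * a0 X0 X := by
  have h3 : X ^ 2 ≤ ((1 + X0) / 2) ^ 2 := by
    apply sq_le_sq'
    · exact h1
    · exact h2
  have h4 : sf X0 ε X ≤ 0 := by
    have h5 : ε * a0 X0 X ≤ ε := mul_le_of_le_one_right hε.le (a0_le_one X)
    have h6 : (ε * a0 X0 X - (1 - X ^ 2)) / (ε / 4) ≤ -4 := by
      rw [div_le_iff₀ (by linarith)]; linarith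
    have := c0_le_one
    unfold sf; linarith
  rw [wf_eq, N_zero h4]; ring

theorem wf_high (_hX0 : 0 < X0) (h0 : X0 < 1) (hε : 0 < ε)
    (hε0 : ε ≤ (1 - ((1 + X0) / 2) ^ 2) / 2) {X : ℝ} (h1 : 0 ≤ X)
    (h2 : 1 - 3 * ε / 4 ≤ X ^ 2) : wf X0 ε X = 1 - X ^ 2 := by
  have h3 : (1 + X0) / 2 ≤ X := by
    apply le_of_sq_le_sq _ h1
    · exact (by nlinarith : ((1 + X0) / 2) ^ 2 ≤ X ^ 2)
  have ha := a0_one h0 h3
  have h4 : 1 ≤ sf X0 ε X := by
    have h6 : 1 ≤ (ε * a0 X0 X - (1 - X ^ 2)) / (ε / 4) := by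
      rw [le_div_iff₀ (by linarith), ha]; linarith
    have := c0_nonneg
    unfold sf; linarith
  rw [wf_eq, N_one h4, sf, ha]
  field_simp
  ring

theorem wf_le_sq (hε : 0 < ε) (X : ℝ) : wf X0 ε X ≤ 1 - X ^ 2 := by
  rw [wf_eq]
  have h1 := le_N (sf X0 ε X)
  have h2 : ε / 4 * ((ε * a0 X0 X - (1 - X ^ 2)) / (ε / 4)) = ε * a0 X0 X - (1 - X ^ 2) := by
    field_simp
  have h3 : sf X0 ε X - c0 = (ε * a0 X0 X - (1 - X ^ 2)) / (ε / 4) := by unfold sf; ring
  rw [h3] at h1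
  have h4 := mul_le_mul_of_nonneg_left h1 (by linarith : 0 ≤ ε / 4)
  linarith

theorem wf_le_a0 (hε : 0 < ε) (X : ℝ) : wf X0 ε X ≤ ε * a0 X0 X := by
  rw [wf_eq]
  have := N_nonneg (sf X0 ε X)
  have : 0 ≤ ε / 4 * N (sf X0 ε X) := by positivity
  linarith

theorem wf_nonneg (hX0 : 0 < X0) (h0 : X0 < 1) (hε : 0 < ε)
    (hε0 : ε ≤ (1 - ((1 + X0) / 2) ^ 2) / 2) {X : ℝ} (h1 : 0 ≤ X) (h2 : X ≤ 1) :
    0 ≤ wf X0 ε X := by
  rcases le_total X ((1 + X0) / 2) with h | h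
  · rw [wf_low hX0 h0 hε hε0 (by linarith) h]
    exact mul_nonneg hε.le (a0_nonneg X)
  · rcases le_total (1 - 3 * ε / 4) (X ^ 2) with h3 | h3
    · rw [wf_high hX0 h0 hε hε0 h1 h3]; nlinarith
    · have ha := a0_one h0 h
      rcases le_total (sf X0 ε X) 0 with h4 | h4
      · rw [wf_eq, N_zero h4, ha]; linarith
      · have h5 := N_le h4
        have h6 : ε / 4 * sf X0 ε X = ε - (1 - X ^ 2) + ε / 4 * c0 := by
          unfold sf; rw [ha]; field_simp
        have h7 := mul_le_mul_of_nonneg_left h5 (by linarith : 0 ≤ ε / 4)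
        have h8 := c0_le_one
        rw [wf_eq, ha]
        nlinarith

/-- derivative of `a0` -/
def a1 (X0 : ℝ) : ℝ → ℝ := deriv (a0 X0)
/-- second derivative of `a0` -/
def a2 (X0 : ℝ) : ℝ → ℝ := deriv (a1 X0)

theorem a0_hasDeriv (X0 X : ℝ) : HasDerivAt (a0 X0) (a1 X0 X) X :=
  ((a0_smooth X0).differentiable (by simp) X).hasDerivAt

theorem a1_smooth (X0 : ℝ) : ContDiff ℝ ∞ (a1 X0) :=
  ((contDiff_infty_iff_deriv.1 (a0_smooth X0)).2)

theorem a2_smooth (X0 : ℝ) : ContDiff ℝ ∞ (a2 X0) :=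
  ((contDiff_infty_iff_deriv.1 (a1_smooth X0)).2)

theorem a1_hasDeriv (X0 X : ℝ) : HasDerivAt (a1 X0) (a2 X0 X) X :=
  ((a1_smooth X0).differentiable (by simp) X).hasDerivAt

theorem a1_nonneg (h0 : X0 < 1) (X : ℝ) : 0 ≤ a1 X0 X := (a0_mono h0).deriv_nonneg

theorem a1_zero (h0 : X0 < 1) {X : ℝ} (h : X ≤ X0) : a1 X0 X = 0 := by
  -- `a1` vanishes for `X < X0` and is continuous
  have h1 : ∀ X < X0, a1 X0 X = 0 := by
    intro X hX
    have h2 : a0 X0 =ᶠ[𝓝 X] fun _ => 0 := by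
      filter_upwards [Iio_mem_nhds hX] with y hy using a0_zero h0 (le_of_lt hy)
    unfold a1
    rw [h2.deriv_eq]; simp
  rcases h.lt_or_eq with h | h
  · exact h1 X h
  · subst h
    have hc : ContinuousWithinAt (a1 X) (Iio X) X := (a1_smooth X).continuous.continuousWithinAt
    have h2 : Tendsto (a1 X) (𝓝[<] X) (𝓝 0) :=
      tendsto_const_nhds.congr' (by
        filter_upwards [self_mem_nhdsWithin] with y hy using (h1 y hy).symm)
    exact tendsto_nhds_unique hc h2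

theorem sf_hasDeriv (_hε : 0 < ε) (X : ℝ) :
    HasDerivAt (sf X0 ε) ((ε * a1 X0 X + 2 * X) / (ε / 4)) X := by
  unfold sf
  have h1 : HasDerivAt (fun X => ε * a0 X0 X - (1 - X ^ 2)) (ε * a1 X0 X + 2 * X) X := by
    have h2 : HasDerivAt (fun X : ℝ => 1 - X ^ 2) (-(2 * X)) X := by
      have := ((hasDerivAt_id X).pow 2).const_sub 1
      simpa using this
    have := ((a0_hasDeriv X0 X).const_mul ε).fun_sub h2
    simpa using this
  exact (h1.div_const _).add_const _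

/-- first derivative of `wf` -/
def w1 (X0 ε X : ℝ) : ℝ := ε * a1 X0 X - S (sf X0 ε X) * (ε * a1 X0 X + 2 * X)

theorem wf_hasDeriv (hε : 0 < ε) (X : ℝ) : HasDerivAt (wf X0 ε) (w1 X0 ε X) X := by
  have h1 := ((N_hasDeriv (sf X0 ε X)).comp X (sf_hasDeriv (X0 := X0) hε X)).const_mul (ε / 4)
  have h2 := ((a0_hasDeriv X0 X).const_mul ε).sub h1
  have h3 : ε * a1 X0 X - ε / 4 * (S (sf X0 ε X) * ((ε * a1 X0 X + 2 * X) / (ε / 4)))
      = w1 X0 ε X := by
    unfold w1; field_simp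
  rw [h3] at h2
  exact h2

theorem w1_le (h0 : X0 < 1) (hε : 0 < ε) {X : ℝ} (hX : 0 ≤ X) : w1 X0 ε X ≤ ε * a1 X0 X := by
  unfold w1
  have h1 := S_nonneg (sf X0 ε X)
  have h2 := a1_nonneg h0 X
  have : 0 ≤ S (sf X0 ε X) * (ε * a1 X0 X + 2 * X) := by positivity
  linarith

/-- second derivative of `wf` -/
def w2 (X0 ε X : ℝ) : ℝ := ε * a2 X0 X
  - (deriv S (sf X0 ε X) * ((ε * a1 X0 X + 2 * X) / (ε / 4)) * (ε * a1 X0 X + 2 * X)
    + S (sf X0 ε X) * (ε * a2 X0 X + 2))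

theorem w1_hasDeriv (hε : 0 < ε) (X : ℝ) : HasDerivAt (w1 X0 ε) (w2 X0 ε X) X := by
  unfold w1
  have h1 : HasDerivAt (fun X => S (sf X0 ε X))
      (deriv S (sf X0 ε X) * ((ε * a1 X0 X + 2 * X) / (ε / 4))) X :=
    (S_diff (sf X0 ε X)).hasDerivAt.comp X (sf_hasDeriv (X0 := X0) hε X)
  have h2 : HasDerivAt (fun X => ε * a1 X0 X + 2 * X) (ε * a2 X0 X + 2) X := by
    have := ((a1_hasDeriv X0 X).const_mul ε).fun_add ((hasDerivAt_id X).const_mul 2)
    simpa using this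
  exact ((a1_hasDeriv X0 X).const_mul ε).sub (h1.mul h2)

theorem w2_le (hε : 0 < ε) (X : ℝ) : w2 X0 ε X ≤ ε * |a2 X0 X| := by
  unfold w2
  have h1 : 0 ≤ deriv S (sf X0 ε X) * ((ε * a1 X0 X + 2 * X) / (ε / 4)) * (ε * a1 X0 X + 2 * X) := by
    have h3 : 0 ≤ deriv S (sf X0 ε X) := S_mono.deriv_nonneg
    have h4 : deriv S (sf X0 ε X) * ((ε * a1 X0 X + 2 * X) / (ε / 4)) * (ε * a1 X0 X + 2 * X)
        = deriv S (sf X0 ε X) * ((ε * a1 X0 X + 2 * X) ^ 2 / (ε / 4)) := by ring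
    rw [h4]; positivity
  have h2 := S_nonneg (sf X0 ε X)
  have h3 := S_le_one (sf X0 ε X)
  have h4 := le_abs_self (a2 X0 X)
  have h5 : (1 - S (sf X0 ε X)) * (ε * a2 X0 X) ≤ ε * |a2 X0 X| := by
    calc (1 - S (sf X0 ε X)) * (ε * a2 X0 X) ≤ (1 - S (sf X0 ε X)) * (ε * |a2 X0 X|) := by
          apply mul_le_mul_of_nonneg_left _ (by linarith)
          exact mul_le_mul_of_nonneg_left h4 hε.le
      _ ≤ 1 * (ε * |a2 X0 X|) := by
          apply mul_le_mul_of_nonneg_right (by linarith) (by positivity)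
      _ = _ := one_mul _
  nlinarith

/-! ### the profile -/

/-- the profile `h` with upper end `X1` -/
def hf (X0 ε X1 : ℝ) (X : ℝ) : ℝ :=
  if X ≤ X0 then 0 else if X1 ≤ X then 1 else wf X0 ε X / (1 - X ^ 2)

set_option maxHeartbeats 1000000 in
theorem exists_profile {X0 : ℝ} (hX0 : 0 < X0) (h01 : X0 < 1) :
    ∃ C > 0, ∃ ε0 > 0, ∀ ε : ℝ, 0 < ε → ε ≤ ε0 →
      ∃ (h : ℝ → ℝ) (X1 : ℝ), X0 < X1 ∧ X1 < 1 ∧ 1 - ε ≤ X1 ^ 2 ∧ ContDiff ℝ ∞ h ∧
        (∀ X ≤ X0, h X = 0) ∧ (∀ X, X1 ≤ X → h X = 1) ∧ (∀ X, 0 ≤ h X) ∧ (∀ X, h X ≤ 1) ∧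
        (∀ X, 0 ≤ X → X ≤ 1 → (1 - X ^ 2) * h X ≤ ε) ∧
        (∀ X, 0 ≤ X → X ≤ 1 → (1 - X ^ 2) * h X ≤ C * ε * X ^ 2) ∧
        (∀ X, 0 ≤ X → X ≤ 1 → deriv (fun X => (1 - X ^ 2) * h X) X ≤ C * ε * X) ∧
        (∀ X, 0 ≤ X → X ≤ 1 → deriv (deriv (fun X => (1 - X ^ 2) * h X)) X ≤ C * ε) := by
  -- bounds on the derivatives of `a0`
  obtain ⟨A1, hA1⟩ := (isCompact_Icc (a := (0 : ℝ)) (b := 1)).exists_bound_of_continuousOn
    (a1_smooth X0).continuous.continuousOn
  obtain ⟨A2, hA2⟩ := (isCompact_Icc (a := (0 : ℝ)) (b := 1)).exists_bound_of_continuousOn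
    (a2_smooth X0).continuous.continuousOn
  have hA1' : 0 ≤ A1 := (norm_nonneg _).trans (hA1 0 (by simp))
  have hA2' : 0 ≤ A2 := (norm_nonneg _).trans (hA2 0 (by simp))
  obtain ⟨C, hCpos, hC1, hC2, hC3⟩ : ∃ C : ℝ, 0 < C ∧ 1 ≤ C * X0 ^ 2 ∧ A1 ≤ C * X0 ∧ A2 ≤ C := by
    have e1 : 0 ≤ 1 / X0 ^ 2 := by positivity
    have e2 : 0 ≤ A1 / X0 := by positivity
    refine ⟨1 / X0 ^ 2 + A1 / X0 + A2, by positivity, ?_, ?_, by linarith⟩
    · calc (1 : ℝ) = 1 / X0 ^ 2 * X0 ^ 2 := by field_simp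
        _ ≤ _ := by
          apply mul_le_mul_of_nonneg_right _ (by positivity)
          linarith
    · calc A1 = A1 / X0 * X0 := by field_simp
        _ ≤ _ := by
          apply mul_le_mul_of_nonneg_right _ hX0.le
          linarith
  have hXm : ((1 + X0) / 2) ^ 2 < 1 := by nlinarith
  refine ⟨C, hCpos, (1 - ((1 + X0) / 2) ^ 2) / 2, by linarith, ?_⟩
  intro ε hε hε0
  set X1 : ℝ := Real.sqrt (1 - ε / 2) with hX1def
  have hε1 : ε < 1 := by
    have : 0 < ((1 + X0) / 2) ^ 2 := by positivity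
    linarith
  have hX1sq : X1 ^ 2 = 1 - ε / 2 := Real.sq_sqrt (by linarith)
  have hX1pos : 0 < X1 := Real.sqrt_pos.2 (by linarith)
  have hX1lt : X1 < 1 := by
    by_contra hcon
    push Not at hcon
    nlinarith
  have hXmX1 : (1 + X0) / 2 < X1 := by
    apply lt_of_pow_lt_pow_left₀ 2 hX1pos.le
    rw [hX1sq]; linarith
  have hX0X1 : X0 < X1 := by linarith
  -- the profile equals `wf / (1 - X²)` on `(0, 1)`
  have hmid : ∀ X, 0 < X → X < 1 → hf X0 ε X1 X = wf X0 ε X / (1 - X ^ 2) := by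
    intro X hX hX'
    unfold hf
    split_ifs with h1 h2
    · rw [wf_low hX0 h01 hε hε0 (by linarith) (by linarith), a0_zero h01 h1]; simp
    · rw [wf_high hX0 h01 hε hε0 hX.le (by nlinarith)]
      rw [div_self]; nlinarith
    · rfl
  have hhigh : ∀ X, Real.sqrt (1 - 3 * ε / 4) ≤ X → hf X0 ε X1 X = 1 := by
    intro X hX
    have h0 : (0 : ℝ) < Real.sqrt (1 - 3 * ε / 4) := Real.sqrt_pos.2 (by linarith)
    have h1 : Real.sqrt (1 - 3 * ε / 4) ^ 2 = 1 - 3 * ε / 4 := Real.sq_sqrt (by linarith)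
    rcases lt_or_ge X 1 with h2 | h2
    · rw [hmid X (by linarith) h2, wf_high hX0 h01 hε hε0 (by linarith) (by
        rw [← h1]; exact pow_le_pow_left₀ h0.le hX 2)]
      rw [div_self]; nlinarith
    · unfold hf
      rw [if_neg (by linarith), if_pos (by linarith)]
  have hlow : ∀ X ≤ X0, hf X0 ε X1 X = 0 := fun X hX => by unfold hf; rw [if_pos hX]
  have hX1' : Real.sqrt (1 - 3 * ε / 4) < X1 := Real.sqrt_lt_sqrt (by linarith) (by linarith)
  -- smoothness
  have hsm : ContDiff ℝ ∞ (hf X0 ε X1) := by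
    rw [contDiff_iff_contDiffAt]
    intro X
    rcases lt_or_ge X X0 with h1 | h1
    · have : hf X0 ε X1 =ᶠ[𝓝 X] fun _ => 0 := by
        filter_upwards [Iio_mem_nhds h1] with y hy using hlow y (le_of_lt hy)
      exact contDiffAt_const.congr_of_eventuallyEq this
    · rcases lt_or_ge X X1 with h2 | h2
      · have h3 : hf X0 ε X1 =ᶠ[𝓝 X] fun y => wf X0 ε y / (1 - y ^ 2) := by
          filter_upwards [Ioo_mem_nhds (show 0 < X by linarith) (show X < 1 by linarith)]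
            with y hy using hmid y hy.1 hy.2
        refine ContDiffAt.congr_of_eventuallyEq ?_ h3
        refine (wf_smooth X0 ε).contDiffAt.div
          (contDiffAt_const.sub (contDiffAt_id.pow 2)) ?_
        nlinarith
      · have : hf X0 ε X1 =ᶠ[𝓝 X] fun _ => 1 := by
          filter_upwards [Ioi_mem_nhds (show Real.sqrt (1 - 3 * ε / 4) < X by linarith)]
            with y hy using hhigh y (le_of_lt hy)
        exact contDiffAt_const.congr_of_eventuallyEq this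
  -- the product with `1 - X²`
  have hprod : ∀ X, -X0 < X → (1 - X ^ 2) * hf X0 ε X1 X = wf X0 ε X := by
    intro X hX
    rcases le_or_gt X X0 with h1 | h1
    · rw [hlow X h1, wf_low hX0 h01 hε hε0 (by linarith) (by linarith), a0_zero h01 h1]; simp
    · rcases lt_or_ge X 1 with h2 | h2
      · rw [hmid X (by linarith) h2, mul_div_cancel₀]
        nlinarith
      · rw [hhigh X (by linarith), wf_high hX0 h01 hε hε0 (by linarith) (by nlinarith)]
        ring
  have hder : ∀ X, -X0 < X → deriv (fun X => (1 - X ^ 2) * hf X0 ε X1 X) X = w1 X0 ε X := by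
    intro X hX
    have h1 : (fun X => (1 - X ^ 2) * hf X0 ε X1 X) =ᶠ[𝓝 X] wf X0 ε := by
      filter_upwards [Ioi_mem_nhds hX] with y hy using hprod y hy
    rw [h1.deriv_eq, (wf_hasDeriv hε X).deriv]
  have hder2 : ∀ X, -X0 < X →
      deriv (deriv (fun X => (1 - X ^ 2) * hf X0 ε X1 X)) X = w2 X0 ε X := by
    intro X hX
    have h1 : deriv (fun X => (1 - X ^ 2) * hf X0 ε X1 X) =ᶠ[𝓝 X] w1 X0 ε := by
      filter_upwards [Ioi_mem_nhds hX] with y hy using hder y hy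
    rw [h1.deriv_eq, (w1_hasDeriv hε X).deriv]
  refine ⟨hf X0 ε X1, X1, hX0X1, hX1lt, by rw [hX1sq]; linarith, hsm, hlow,
    fun X hX => hhigh X (by linarith), ?_, ?_, ?_, ?_, ?_, ?_⟩
  · intro X
    rcases le_or_gt X X0 with h1 | h1
    · rw [hlow X h1]
    · rcases lt_or_ge X 1 with h2 | h2
      · rw [hmid X (by linarith) h2]
        apply div_nonneg (wf_nonneg hX0 h01 hε hε0 (by linarith) h2.le)
        nlinarith
      · rw [hhigh X (by linarith)]; exact zero_le_one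
  · intro X
    rcases le_or_gt X X0 with h1 | h1
    · rw [hlow X h1]; exact zero_le_one
    · rcases lt_or_ge X 1 with h2 | h2
      · rw [hmid X (by linarith) h2]
        rw [div_le_one (by nlinarith)]
        exact wf_le_sq hε X
      · rw [hhigh X (by linarith)]
  · intro X h1 _
    rw [hprod X (by linarith)]
    refine (wf_le_a0 hε X).trans (mul_le_of_le_one_right hε.le (a0_le_one X))
  · intro X h1 _
    rw [hprod X (by linarith)]
    refine (wf_le_a0 hε X).trans ?_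
    rcases le_or_gt X X0 with h2 | h2
    · rw [a0_zero h01 h2, mul_zero]; positivity
    · have h3 : ε * a0 X0 X ≤ ε := mul_le_of_le_one_right hε.le (a0_le_one X)
      have h4 : 1 ≤ C * X ^ 2 := by
        refine hC1.trans ?_
        exact mul_le_mul_of_nonneg_left (pow_le_pow_left₀ hX0.le h2.le 2) hCpos.le
      calc ε * a0 X0 X ≤ ε * 1 := by rw [mul_one]; exact h3
        _ ≤ ε * (C * X ^ 2) := mul_le_mul_of_nonneg_left h4 hε.le
        _ = C * ε * X ^ 2 := by ring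
  · intro X h1 h1'
    rw [hder X (by linarith)]
    refine (w1_le h01 hε h1).trans ?_
    rcases le_or_gt X X0 with h2 | h2
    · rw [a1_zero h01 h2, mul_zero]; positivity
    · have h3 : a1 X0 X ≤ A1 := (le_abs_self _).trans (hA1 X ⟨h1, h1'⟩)
      have h4 : A1 ≤ C * X := hC2.trans (mul_le_mul_of_nonneg_left h2.le hCpos.le)
      calc ε * a1 X0 X ≤ ε * (C * X) := mul_le_mul_of_nonneg_left (h3.trans h4) hε.le
        _ = C * ε * X := by ring
  · intro X h1 h1'
    rw [hder2 X (by linarith)]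
    refine (w2_le hε X).trans ?_
    have h3 : |a2 X0 X| ≤ A2 := hA2 X ⟨h1, h1'⟩
    calc ε * |a2 X0 X| ≤ ε * C := mul_le_mul_of_nonneg_left (h3.trans hC3) hε.le
      _ = C * ε := by ring

end

end

end Crest.Agent.R202.Prof
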