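import Crest.Agent.R202.Prof1
import Crest.Agent.R202.GeoHyp

/-!
Row 202, node PROFILE (P3), file 2: the cone conditions for `P = 1 + (b - 1) h + G`.
(helper912)
-/

set_option autoImplicit false
open scoped ContDiff Topology
open Set Filter
open Crest.Agent.R202.Geo

namespace Crest.Agent.R202.Prof

noncomputable section

/-- What the tip profile satisfies (output of `exists_profile`). -/
structure IsProfile (X0 C ε X1 : ℝ) (h : ℝ → ℝ) : Prop where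
  X0_lt : X0 < X1
  X1_lt : X1 < 1
  X1_sq : 1 - ε ≤ X1 ^ 2
  smooth : ContDiff ℝ ∞ h
  low : ∀ X ≤ X0, h X = 0
  high : ∀ X, X1 ≤ X → h X = 1
  nonneg : ∀ X, 0 ≤ h X
  le_one : ∀ X, h X ≤ 1
  small : ∀ X, 0 ≤ X → X ≤ 1 → (1 - X ^ 2) * h X ≤ ε
  w_le : ∀ X, 0 ≤ X → X ≤ 1 → (1 - X ^ 2) * h X ≤ C * ε * X ^ 2
  w1_le : ∀ X, 0 ≤ X → X ≤ 1 → deriv (fun X => (1 - X ^ 2) * h X) X ≤ C * ε * X
  w2_le : ∀ X, 0 ≤ X → X ≤ 1 → deriv (deriv (fun X => (1 - X ^ 2) * h X)) X ≤ C * ε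

theorem exists_isProfile {X0 : ℝ} (hX0 : 0 < X0) (h01 : X0 < 1) :
    ∃ C > 0, ∃ ε0 > 0, ∀ ε : ℝ, 0 < ε → ε ≤ ε0 → ∃ (h : ℝ → ℝ) (X1 : ℝ),
      IsProfile X0 C ε X1 h := by
  obtain ⟨C, hC, ε0, hε0, H⟩ := exists_profile hX0 h01
  refine ⟨C, hC, ε0, hε0, fun ε h1 h2 => ?_⟩
  obtain ⟨h, X1, a1, a2, a3, a4, a5, a6, a7, a8, a9, a10, a11, a12⟩ := H ε h1 h2
  exact ⟨h, X1, a1, a2, a3, a4, a5, a6, a7, a8, a9, a10, a11, a12⟩

/-- derivatives of `w = (1 - X²) h` -/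
theorem deriv_w {h : ℝ → ℝ} (hh : ContDiff ℝ ∞ h) (X : ℝ) :
    deriv (fun X => (1 - X ^ 2) * h X) X = -2 * X * h X + (1 - X ^ 2) * deriv h X := by
  have h1 : HasDerivAt (fun X : ℝ => 1 - X ^ 2) (-(2 * X)) X := by
    have := ((hasDerivAt_id X).pow 2).const_sub 1
    simpa using this
  have h2 : HasDerivAt h (deriv h X) X := (hh.differentiable (by simp) X).hasDerivAt
  rw [(h1.fun_mul h2).deriv]; ring

theorem deriv2_w {h : ℝ → ℝ} (hh : ContDiff ℝ ∞ h) (X : ℝ) :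
    deriv (deriv (fun X => (1 - X ^ 2) * h X)) X
      = -2 * h X - 4 * X * deriv h X + (1 - X ^ 2) * deriv (deriv h) X := by
  have e : deriv (fun X => (1 - X ^ 2) * h X)
      = fun X => -2 * X * h X + (1 - X ^ 2) * deriv h X := by
    ext X; exact deriv_w hh X
  rw [e]
  have h0 : HasDerivAt (fun X : ℝ => -2 * X) (-2) X := by
    simpa using (hasDerivAt_id X).const_mul (-2)
  have h1 : HasDerivAt (fun X : ℝ => 1 - X ^ 2) (-(2 * X)) X := by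
    have := ((hasDerivAt_id X).pow 2).const_sub 1
    simpa using this
  have h2 : HasDerivAt h (deriv h X) X := (hh.differentiable (by simp) X).hasDerivAt
  have hh' : ContDiff ℝ ∞ (deriv h) := (contDiff_infty_iff_deriv.1 hh).2
  have h3 : HasDerivAt (deriv h) (deriv (deriv h) X) X :=
    (hh'.differentiable (by simp) X).hasDerivAt
  rw [((h0.fun_mul h2).fun_add (h1.fun_mul h3)).deriv]; ring

/-- pointwise bounds on the perturbation `G` and its derivatives -/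
structure SmallJet (η G G1 G2 F1 F2 : ℝ) : Prop where
  g0 : |G| ≤ η
  g1 : |G1| ≤ η
  g2 : |G2| ≤ η
  f1 : |F1| ≤ η
  f2 : |F2| ≤ η

theorem abs_mul_le' {c g k η : ℝ} (hc : |c| ≤ k) (hg : |g| ≤ η) : |c * g| ≤ k * η := by
  rw [abs_mul]
  exact mul_le_mul hc hg (abs_nonneg _) ((abs_nonneg _).trans hc)

theorem AB_le {A B ε η : ℝ} (hA : 0 ≤ A) (hB : 0 ≤ B) (hε : 0 ≤ ε) (hη : 0 ≤ η) :
    A * ε + B * η ≤ (A + B) * (ε + η) := by
  have := mul_nonneg hA hη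
  have := mul_nonneg hB hε
  have : (A + B) * (ε + η) = A * ε + A * η + B * ε + B * η := by ring
  linarith

/-- first part of the constant -/
def cA (m : ℕ) (b1 C : ℝ) : ℝ := (b1 - 1) * (C * (m + 1))
/-- second part of the constant -/
def cB (m : ℕ) (b1 Xa Xb : ℝ) : ℝ :=
  (4 + m * (1 + 1 / Xa)) + 10 * b1 ^ 2 / (1 - Xb ^ 2) + m * b1 / Xa
    + ((m + 1) / Xa ^ 2 + 2 + 1 / Xa)

/-- the constant of the cone condition -/
def cConst (m : ℕ) (b1 C Xa Xb : ℝ) : ℝ := cA m b1 C + cB m b1 Xa Xb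

variable {m : ℕ} {b1 C Xa Xb X0 X1 ε η : ℝ} {h : ℝ → ℝ}

theorem cA_nonneg (hb1 : 1 ≤ b1) (hC : 0 < C) : 0 ≤ cA m b1 C :=
  mul_nonneg (by linarith) (by positivity)

theorem sq_pos' (hXa : 0 < Xa) (hab : Xa ≤ Xb) (hXb : Xb < 1) : 0 < 1 - Xb ^ 2 := by nlinarith

theorem cB_parts (hXa : 0 < Xa) (hab : Xa ≤ Xb) (hXb : Xb < 1) (hb1 : 1 ≤ b1) :
    0 ≤ 4 + (m : ℝ) * (1 + 1 / Xa) ∧ 0 ≤ 10 * b1 ^ 2 / (1 - Xb ^ 2) ∧ 0 ≤ (m : ℝ) * b1 / Xa ∧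
      0 ≤ ((m : ℝ) + 1) / Xa ^ 2 + 2 + 1 / Xa := by
  have h := sq_pos' hXa hab hXb
  refine ⟨by positivity, by positivity, by positivity, by positivity⟩

theorem cB_nonneg (hXa : 0 < Xa) (hab : Xa ≤ Xb) (hXb : Xb < 1) (hb1 : 1 ≤ b1) :
    0 ≤ cB m b1 Xa Xb := by
  obtain ⟨a, b, c, d⟩ := cB_parts (m := m) hXa hab hXb hb1
  unfold cB; linarith

/-- radial estimate -/
theorem rad_aux (hb1 : 1 ≤ b1) (hC : 0 < C) (hε : 0 < ε)
    (hp : IsProfile X0 C ε X1 h) {b : ℝ} (hb : 1 ≤ b) (hb' : b ≤ b1) {X : ℝ} (hX : 0 < X)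
    (hX' : X < 1) :
    -(cA m b1 C * ε) ≤ (b - 1) * (h X + 2 * X * deriv h X - (1 - X ^ 2) * deriv (deriv h) X / 2
        + m * (h X - (1 - X ^ 2) * deriv h X / (2 * X))) := by
  have hm : (0 : ℝ) ≤ m := Nat.cast_nonneg m
  have e1 := hp.w1_le X hX.le hX'.le
  have e2 := hp.w2_le X hX.le hX'.le
  rw [deriv_w hp.smooth] at e1
  rw [deriv2_w hp.smooth] at e2
  have i1 : h X + 2 * X * deriv h X - (1 - X ^ 2) * deriv (deriv h) X / 2 ≥ -(C * ε / 2) := by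
    linarith
  have i2 : h X - (1 - X ^ 2) * deriv h X / (2 * X) ≥ -(C * ε / 2) := by
    have : h X - (1 - X ^ 2) * deriv h X / (2 * X)
        = -((-2 * X * h X + (1 - X ^ 2) * deriv h X) / (2 * X)) := by
      field_simp; ring
    rw [this, ge_iff_le, neg_le_neg_iff, div_le_iff₀ (by linarith)]
    linarith
  have i3 : -(C * (m + 1) * ε) ≤ h X + 2 * X * deriv h X - (1 - X ^ 2) * deriv (deriv h) X / 2
      + m * (h X - (1 - X ^ 2) * deriv h X / (2 * X)) := by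
    have h1 := mul_le_mul_of_nonneg_left i2.le hm
    have h3 : 0 ≤ C * ε := by positivity
    have h4 : 0 ≤ (m : ℝ) * (C * ε) := mul_nonneg hm h3
    have h5 : C * (m + 1) * ε = m * (C * ε) + C * ε := by ring
    have h6 : (m : ℝ) * -(C * ε / 2) = -(m * (C * ε)) / 2 := by ring
    rw [h6] at h1
    linarith
  have i4 := mul_le_mul_of_nonneg_left i3 (by linarith : 0 ≤ b - 1)
  refine le_trans ?_ i4
  have h5 : 0 ≤ C * (m + 1) * ε := by positivity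
  have h6 : (b - 1) * (C * (m + 1) * ε) ≤ (b1 - 1) * (C * (m + 1) * ε) :=
    mul_le_mul_of_nonneg_right (by linarith) h5
  have h7 : cA m b1 C * ε = (b1 - 1) * (C * (m + 1) * ε) := by unfold cA; ring
  rw [h7]; linarith

/-- first perturbation term -/
theorem T1_aux (hXa : 0 < Xa) (hη : 0 ≤ η) {X G G1 G2 F1 F2 : ℝ} (hX : Xa ≤ X)
    (hX' : X < 1) (hJ : SmallJet η G G1 G2 F1 F2) :
    |G + 2 * X * G1 - (1 - X ^ 2) * G2 / 2 + m * (G - (1 - X ^ 2) * G1 / (2 * X))|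
        ≤ (4 + m * (1 + 1 / Xa)) * η := by
  have hX0 : 0 < X := by linarith
  have hm : (0 : ℝ) ≤ m := Nat.cast_nonneg m
  have hX2 : 0 < 1 - X ^ 2 := by nlinarith
  have hX3 : 1 - X ^ 2 ≤ 1 := by nlinarith
  have a1 : |(2 * X) * G1| ≤ 2 * η :=
    abs_mul_le' (by rw [abs_of_pos (by linarith)]; linarith) hJ.g1
  have a2 : |(1 - X ^ 2) / 2 * G2| ≤ 1 * η :=
    abs_mul_le' (by rw [abs_of_pos (by linarith)]; linarith) hJ.g2
  have a3 : |(1 - X ^ 2) / (2 * X) * G1| ≤ 1 / Xa * η := by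
    refine abs_mul_le' ?_ hJ.g1
    rw [abs_of_pos (by positivity)]
    exact div_le_div₀ zero_le_one hX3 hXa (by linarith)
  have a4 : |G - (1 - X ^ 2) / (2 * X) * G1| ≤ (1 + 1 / Xa) * η := by
    calc _ ≤ |G| + |(1 - X ^ 2) / (2 * X) * G1| := abs_sub _ _
      _ ≤ η + 1 / Xa * η := add_le_add hJ.g0 a3
      _ = _ := by ring
  have a5 : |m * (G - (1 - X ^ 2) / (2 * X) * G1)| ≤ m * ((1 + 1 / Xa) * η) :=
    abs_mul_le' (by rw [abs_of_nonneg hm]) a4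
  have e : G + 2 * X * G1 - (1 - X ^ 2) * G2 / 2 + m * (G - (1 - X ^ 2) * G1 / (2 * X))
      = G + (2 * X) * G1 - (1 - X ^ 2) / 2 * G2 + m * (G - (1 - X ^ 2) / (2 * X) * G1) := by ring
  rw [e]
  calc |G + (2 * X) * G1 - (1 - X ^ 2) / 2 * G2 + m * (G - (1 - X ^ 2) / (2 * X) * G1)|
      ≤ |G + (2 * X) * G1 - (1 - X ^ 2) / 2 * G2| + |m * (G - (1 - X ^ 2) / (2 * X) * G1)| :=
        abs_add_le _ _
    _ ≤ (|G + (2 * X) * G1| + |(1 - X ^ 2) / 2 * G2|)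
        + |m * (G - (1 - X ^ 2) / (2 * X) * G1)| := by
          gcongr; exact abs_sub _ _
    _ ≤ ((|G| + |(2 * X) * G1|) + |(1 - X ^ 2) / 2 * G2|)
        + |m * (G - (1 - X ^ 2) / (2 * X) * G1)| := by
          gcongr; exact abs_add_le _ _
    _ ≤ ((η + 2 * η) + 1 * η) + m * ((1 + 1 / Xa) * η) := by
          gcongr; exact hJ.g0
    _ = _ := by ring

/-- angular term -/
theorem T2_aux (hb1 : 1 ≤ b1) (hη : 0 ≤ η) (hη2 : η ≤ 1 / 2) {b : ℝ} (hb : 1 ≤ b)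
    (hb' : b ≤ b1) {X G G1 G2 F1 F2 p : ℝ} (hX : 0 < X) (hXb : X ≤ Xb)
    (hX1 : Xb < 1) (hJ : SmallJet η G G1 G2 F1 F2) (hp1 : 1 / 2 ≤ p) :
    |(F2 / p ^ 2 - 2 * F1 ^ 2 / p ^ 3) / (2 * b⁻¹ ^ 2 * (1 - X ^ 2))|
        ≤ 10 * b1 ^ 2 / (1 - Xb ^ 2) * η := by
  have hb0 : 0 < b := by linarith
  have hp0 : 0 < p := by linarith
  have hXb0 : 0 < 1 - Xb ^ 2 := by nlinarith
  have hX2 : 1 - Xb ^ 2 ≤ 1 - X ^ 2 := by nlinarith
  have hη1 : η ^ 2 ≤ η / 2 := by nlinarith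
  have p2 : (1 / 4 : ℝ) ≤ p ^ 2 := by nlinarith
  have p3 : (1 / 8 : ℝ) ≤ p ^ 3 := by
    calc (1 / 8 : ℝ) = (1 / 2) ^ 3 := by norm_num
      _ ≤ p ^ 3 := pow_le_pow_left₀ (by norm_num) hp1 3
  have a1 : |F2 / p ^ 2| ≤ 4 * η := by
    rw [abs_div, abs_of_pos (by positivity : 0 < p ^ 2), div_le_iff₀ (by positivity)]
    have := hJ.f2
    nlinarith
  have a2 : |2 * F1 ^ 2 / p ^ 3| ≤ 8 * η := by
    rw [abs_div, abs_of_pos (by positivity : 0 < p ^ 3), div_le_iff₀ (by positivity),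
      abs_of_nonneg (by positivity)]
    have : F1 ^ 2 ≤ η ^ 2 := by
      rw [← sq_abs F1]; exact pow_le_pow_left₀ (abs_nonneg _) hJ.f1 2
    nlinarith
  have a3 : |F2 / p ^ 2 - 2 * F1 ^ 2 / p ^ 3| ≤ 12 * η := by
    calc _ ≤ |F2 / p ^ 2| + |2 * F1 ^ 2 / p ^ 3| := abs_sub _ _
      _ ≤ 4 * η + 8 * η := add_le_add a1 a2
      _ = _ := by ring
  have hden : 0 < 2 * b⁻¹ ^ 2 * (1 - X ^ 2) := by
    have : 0 < 1 - X ^ 2 := by linarith
    positivity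
  rw [abs_div, abs_of_pos hden, div_le_iff₀ hden]
  refine a3.trans ?_
  have hb12 : b ^ 2 ≤ b1 ^ 2 := pow_le_pow_left₀ hb0.le hb' 2
  have h6 : 1 ≤ b1 ^ 2 * b⁻¹ ^ 2 := by
    rw [inv_pow, ← div_eq_mul_inv, le_div_iff₀ (by positivity)]; linarith
  have h7 : 1 ≤ (1 - X ^ 2) / (1 - Xb ^ 2) := by
    rw [le_div_iff₀ hXb0]; linarith
  have h8 : 1 ≤ (b1 ^ 2 * b⁻¹ ^ 2) * ((1 - X ^ 2) / (1 - Xb ^ 2)) := one_le_mul_of_one_le_of_one_le h6 h7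
  calc 12 * η ≤ 20 * η * 1 := by linarith
    _ ≤ 20 * η * ((b1 ^ 2 * b⁻¹ ^ 2) * ((1 - X ^ 2) / (1 - Xb ^ 2))) :=
        mul_le_mul_of_nonneg_left h8 (by positivity)
    _ = _ := by ring

theorem T3_aux (hXa : 0 < Xa) (hb1 : 1 ≤ b1) (hη : 0 ≤ η) {b : ℝ} (hb : 1 ≤ b)
    (hb' : b ≤ b1) {X F1 p : ℝ} (hX : Xa ≤ X) (hF : |F1| ≤ η) (hp1 : 1 / 2 ≤ p) :
    |q12 m b⁻¹ X p F1| ≤ m * b1 / Xa * η := by
  have hb0 : 0 < b := by linarith
  have hX0 : 0 < X := by linarith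
  have hp0 : 0 < p := by linarith
  have hm : (0 : ℝ) ≤ m := Nat.cast_nonneg m
  unfold q12
  rw [abs_neg, abs_div, abs_mul, abs_of_nonneg hm,
    abs_of_pos (by positivity : 0 < 2 * b⁻¹ * X * p), div_le_iff₀ (by positivity)]
  have h6 : 1 ≤ (b1 * b⁻¹) * (X / Xa) * (2 * p) := by
    have g1 : 1 ≤ b1 * b⁻¹ := by
      rw [← div_eq_mul_inv, le_div_iff₀ hb0]; linarith
    have g2 : 1 ≤ X / Xa := by rw [le_div_iff₀ hXa]; linarith
    have g3 : 1 ≤ 2 * p := by linarith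
    exact one_le_mul_of_one_le_of_one_le (one_le_mul_of_one_le_of_one_le g1 g2) g3
  calc m * |F1| ≤ m * η * 1 := by
        rw [mul_one]; exact mul_le_mul_of_nonneg_left hF hm
    _ ≤ m * η * ((b1 * b⁻¹) * (X / Xa) * (2 * p)) :=
        mul_le_mul_of_nonneg_left h6 (by positivity)
    _ = _ := by ring

/-- the base condition at a point where `G` lives -/
theorem base_aux (hXa : 0 < Xa) (hab : Xa ≤ Xb) (hXb : Xb < 1) (hb1 : 1 ≤ b1) (hC : 0 < C)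
    (hε : 0 < ε) (hη : 0 ≤ η) (hη2 : η ≤ 1 / 2) (hp : IsProfile X0 C ε X1 h) {b : ℝ}
    (hb : 1 ≤ b) (hb' : b ≤ b1)
    {X G G1 G2 F1 F2 : ℝ} (hX : 0 < X) (hX' : X < 1) (hJ : SmallJet η G G1 G2 F1 F2)
    (hor : (G = 0 ∧ G1 = 0 ∧ G2 = 0 ∧ F1 = 0 ∧ F2 = 0) ∨ (Xa ≤ X ∧ X ≤ Xb)) :
    (m + 1) - cConst m b1 C Xa Xb * (ε + η) ≤
      q11 m b⁻¹ X (1 + (b - 1) * h X + G) ((b - 1) * deriv h X + G1)
        ((b - 1) * deriv (deriv h) X + G2) F1 F2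
      - |q12 m b⁻¹ X (1 + (b - 1) * h X + G) F1| := by
  have hrad := rad_aux (m := m) hb1 hC hε hp hb hb' hX hX'
  have hp1 : 1 / 2 ≤ 1 + (b - 1) * h X + G := by
    have h1 : 0 ≤ (b - 1) * h X := mul_nonneg (by linarith) (hp.nonneg X)
    have h2 := (abs_le.1 (hJ.g0.trans hη2)).1
    linarith
  generalize hpp : 1 + (b - 1) * h X + G = p at hp1 ⊢
  have hq11 : q11 m b⁻¹ X p ((b - 1) * deriv h X + G1) ((b - 1) * deriv (deriv h) X + G2) F1 F2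
      = (m + 1) + (b - 1) * (h X + 2 * X * deriv h X - (1 - X ^ 2) * deriv (deriv h) X / 2
        + m * (h X - (1 - X ^ 2) * deriv h X / (2 * X)))
        + (G + 2 * X * G1 - (1 - X ^ 2) * G2 / 2 + m * (G - (1 - X ^ 2) * G1 / (2 * X)))
        + (F2 / p ^ 2 - 2 * F1 ^ 2 / p ^ 3) / (2 * b⁻¹ ^ 2 * (1 - X ^ 2)) := by
    unfold q11
    rw [← hpp]; ring
  have hAB := AB_le (cA_nonneg (m := m) hb1 hC) (cB_nonneg (m := m) hXa hab hXb hb1) hε.le hη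
  rw [hq11]
  have hcc : cConst m b1 C Xa Xb = cA m b1 C + cB m b1 Xa Xb := rfl
  rw [hcc]
  obtain ⟨p1, p2, p3, p4⟩ := cB_parts (m := m) hXa hab hXb hb1
  rcases hor with ⟨rfl, rfl, rfl, rfl, rfl⟩ | ⟨hXaX, hXXb⟩
  · have hq12 : q12 m b⁻¹ X p 0 = 0 := by unfold q12; simp
    rw [hq12]
    have := mul_nonneg (cB_nonneg (m := m) hXa hab hXb hb1) hη
    simp only [mul_zero, add_zero, zero_div, sub_zero, abs_zero, ne_eq,
      OfNat.ofNat_ne_zero, not_false_eq_true, zero_pow]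
    linarith
  · have T1 := (abs_le.1 (T1_aux (m := m) hXa hη hXaX hX' hJ)).1
    have T2 := (abs_le.1 (T2_aux (Xb := Xb) hb1 hη hη2 hb hb' hX hXXb hXb hJ hp1)).1
    have T3 := T3_aux (m := m) hXa hb1 hη hb hb' hXaX hJ.f1 hp1
    have hBe : cB m b1 Xa Xb * η = (4 + m * (1 + 1 / Xa)) * η + 10 * b1 ^ 2 / (1 - Xb ^ 2) * η
        + m * b1 / Xa * η + ((m + 1) / Xa ^ 2 + 2 + 1 / Xa) * η := by unfold cB; ring
    have := mul_nonneg p4 hη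
    linarith

/-- the fiber condition -/
theorem fiber_aux (hXa : 0 < Xa) (hab : Xa ≤ Xb) (hXb : Xb < 1) (hb1 : 1 ≤ b1) (hC : 0 < C)
    (hε : 0 < ε) (hη : 0 ≤ η) (hm1 : 1 ≤ m)
    (hp : IsProfile X0 C ε X1 h) {b : ℝ} (hb : 1 ≤ b) (hb' : b ≤ b1)
    {X G G1 G2 F1 F2 : ℝ} (hX : 0 < X) (hX' : X < 1) (hJ : SmallJet η G G1 G2 F1 F2)
    (hor : (G = 0 ∧ G1 = 0) ∨ (Xa ≤ X ∧ X ≤ Xb)) :
    (m + 1) - cConst m b1 C Xa Xb * (ε + η) ≤
      qw m X (1 + (b - 1) * h X + G) ((b - 1) * deriv h X + G1) := by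
  have hX2 : 0 < 1 - X ^ 2 := by nlinarith
  have hX3 : 1 - X ^ 2 ≤ 1 := by nlinarith
  have hm : (1 : ℝ) ≤ m := by exact_mod_cast hm1
  have e0 := hp.w_le X hX.le hX'.le
  have e1 := hp.w1_le X hX.le hX'.le
  rw [deriv_w hp.smooth] at e1
  have hq : qw m X (1 + (b - 1) * h X + G) ((b - 1) * deriv h X + G1)
      = (m + 1) - (b - 1) * ((m - 1) * ((1 - X ^ 2) * h X / X ^ 2)
          + (-2 * X * h X + (1 - X ^ 2) * deriv h X) / X)
        - ((m - 1) * (1 - X ^ 2) / X ^ 2 * G - 2 * G + (1 - X ^ 2) / X * G1) := by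
    unfold qw
    field_simp
    ring
  have i1 : (1 - X ^ 2) * h X / X ^ 2 ≤ C * ε := by
    rw [div_le_iff₀ (by positivity)]; exact e0
  have i2 : (-2 * X * h X + (1 - X ^ 2) * deriv h X) / X ≤ C * ε := by
    rw [div_le_iff₀ hX]; exact e1
  have h3 : 0 ≤ C * ε := by positivity
  have i3 : (m - 1) * ((1 - X ^ 2) * h X / X ^ 2)
      + (-2 * X * h X + (1 - X ^ 2) * deriv h X) / X ≤ C * (m + 1) * ε := by
    have h1 := mul_le_mul_of_nonneg_left i1 (by linarith : (0 : ℝ) ≤ m - 1)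
    have h4 : C * (m + 1) * ε = (m - 1) * (C * ε) + C * ε + C * ε := by ring
    linarith
  have h5 : 0 ≤ C * (m + 1) * ε := by positivity
  have i4 : (b - 1) * ((m - 1) * ((1 - X ^ 2) * h X / X ^ 2)
          + (-2 * X * h X + (1 - X ^ 2) * deriv h X) / X) ≤ cA m b1 C * ε := by
    calc _ ≤ (b - 1) * (C * (m + 1) * ε) := mul_le_mul_of_nonneg_left i3 (by linarith)
      _ ≤ (b1 - 1) * (C * (m + 1) * ε) := mul_le_mul_of_nonneg_right (by linarith) h5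
      _ = _ := by unfold cA; ring
  have hAB := AB_le (cA_nonneg (m := m) hb1 hC) (cB_nonneg (m := m) hXa hab hXb hb1) hε.le hη
  have hcc : cConst m b1 C Xa Xb = cA m b1 C + cB m b1 Xa Xb := rfl
  obtain ⟨p1, p2, p3, p4⟩ := cB_parts (m := m) hXa hab hXb hb1
  rw [hq, hcc]
  rcases hor with ⟨rfl, rfl⟩ | ⟨hXaX, hXXb⟩
  · have := mul_nonneg (cB_nonneg (m := m) hXa hab hXb hb1) hη
    simp only [mul_zero, sub_zero, add_zero]
    linarith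
  · have a1 : |(m - 1) * (1 - X ^ 2) / X ^ 2 * G| ≤ (m + 1) / Xa ^ 2 * η := by
      refine abs_mul_le' ?_ hJ.g0
      rw [abs_of_nonneg (div_nonneg (mul_nonneg (by linarith) hX2.le) (by positivity))]
      apply div_le_div₀ (by positivity) _ (by positivity) (pow_le_pow_left₀ hXa.le hXaX 2)
      calc ((m : ℝ) - 1) * (1 - X ^ 2) ≤ (m - 1) * 1 :=
            mul_le_mul_of_nonneg_left hX3 (by linarith)
        _ ≤ m + 1 := by linarith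
    have a2 : |2 * G| ≤ 2 * η := abs_mul_le' (by norm_num) hJ.g0
    have a3 : |(1 - X ^ 2) / X * G1| ≤ 1 / Xa * η := by
      refine abs_mul_le' ?_ hJ.g1
      rw [abs_of_pos (by positivity)]
      exact div_le_div₀ zero_le_one hX3 hXa hXaX
    have b1' := (abs_le.1 a1).2
    have b2' := (abs_le.1 a2).1
    have b3' := (abs_le.1 a3).2
    have hBe : cB m b1 Xa Xb * η = (4 + m * (1 + 1 / Xa)) * η + 10 * b1 ^ 2 / (1 - Xb ^ 2) * η
        + m * b1 / Xa * η + ((m + 1) / Xa ^ 2 * η + 2 * η + 1 / Xa * η) := by unfold cB; ring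
    have r1 := mul_nonneg p1 hη
    have r2 := mul_nonneg p2 hη
    have r3 := mul_nonneg p3 hη
    linarith

end

end Crest.Agent.R202.Prof
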