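import Crest.Agent.R202.Prof2

/-!
Row 202, node PROFILE (P3), file 3: the cone conditions in the form consumed by the schedule:
`P t X u = 1 + (b - 1) h X + G X u` at the frozen time `t`.
(helper912)
-/

set_option autoImplicit false
open scoped ContDiff Topology
open Set Filter
open Crest.Agent.R202.Geo

namespace Crest.Agent.R202.Prof

noncomputable section

/-- `G` in the angular variable. -/
def gA (G : ℝ → ℂ → ℝ) (X φ : ℝ) : ℝ := G X (Complex.exp ((φ : ℂ) * Complex.I))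

/-- `X`-derivative -/
def gX (g : ℝ → ℝ → ℝ) (X φ : ℝ) : ℝ := deriv (fun Y => g Y φ) X
/-- `φ`-derivative -/
def gF (g : ℝ → ℝ → ℝ) (X φ : ℝ) : ℝ := deriv (fun ψ => g X ψ) φ

/-- All derivatives of order at most two needed for the curvature are at most `η`. -/
def Small (η Xa Xb : ℝ) (G : ℝ → ℂ → ℝ) : Prop :=
  ∀ X ∈ Icc Xa Xb, ∀ φ : ℝ, SmallJet η (gA G X φ) (gX (gA G) X φ) (gX (gX (gA G)) X φ)
    (gF (gA G) X φ) (gF (gF (gA G)) X φ)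

theorem gA_smooth {G : ℝ → ℂ → ℝ} (hG : ContDiff ℝ ∞ (fun p : ℝ × ℂ => G p.1 p.2)) :
    ContDiff ℝ ∞ (fun p : ℝ × ℝ => gA G p.1 p.2) := by
  have h1 : ContDiff ℝ ∞ (fun p : ℝ × ℝ => Complex.exp ((p.2 : ℂ) * Complex.I)) := by
    apply ContDiff.cexp
    exact (Complex.ofRealCLM.contDiff.comp contDiff_snd).mul contDiff_const
  exact hG.comp (contDiff_fst.prodMk h1)

theorem gX_smooth {g : ℝ → ℝ → ℝ} (hg : ContDiff ℝ ∞ (fun p : ℝ × ℝ => g p.1 p.2)) :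
    ContDiff ℝ ∞ (fun p : ℝ × ℝ => gX g p.1 p.2) := by
  have h1 : ∀ p : ℝ × ℝ, gX g p.1 p.2 = fderiv ℝ (fun p : ℝ × ℝ => g p.1 p.2) p (1, 0) := by
    intro p
    have h2 : HasDerivAt (fun Y : ℝ => (Y, p.2)) ((1 : ℝ), (0 : ℝ)) p.1 :=
      (hasDerivAt_id p.1).prodMk (hasDerivAt_const _ _)
    have h3 := ((hg.differentiable (by simp)) p).hasFDerivAt.comp_hasDerivAt p.1
      (f := fun Y : ℝ => (Y, p.2)) h2
    exact h3.deriv
  simp only [h1]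
  exact (hg.fderiv_right (m := ∞) (by simp)).clm_apply contDiff_const

theorem gX_hasDeriv {g : ℝ → ℝ → ℝ} (hg : ContDiff ℝ ∞ (fun p : ℝ × ℝ => g p.1 p.2))
    (X φ : ℝ) : HasDerivAt (fun Y => g Y φ) (gX g X φ) X := by
  have h1 : ContDiff ℝ ∞ (fun Y => g Y φ) := hg.comp (contDiff_id.prodMk contDiff_const)
  exact (h1.differentiable (by simp) X).hasDerivAt

variable {m : ℕ} {b1 C Xa Xb X0 X1 ε η : ℝ} {h : ℝ → ℝ}

/-- jets of `P` at a frozen time -/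
theorem jets {P : ℝ → ℝ → ℂ → ℝ} {t b : ℝ} {G : ℝ → ℂ → ℝ} (hh : ContDiff ℝ ∞ h)
    (hG : ContDiff ℝ ∞ (fun p : ℝ × ℂ => G p.1 p.2))
    (hP : ∀ X u, P t X u = 1 + (b - 1) * h X + G X u) (X φ : ℝ) :
    PP P t X φ = 1 + (b - 1) * h X + gA G X φ ∧
    dX (PP P) t X φ = (b - 1) * deriv h X + gX (gA G) X φ ∧
    dX (dX (PP P)) t X φ = (b - 1) * deriv (deriv h) X + gX (gX (gA G)) X φ ∧
    dF (PP P) t X φ = gF (gA G) X φ ∧
    dF (dF (PP P)) t X φ = gF (gF (gA G)) X φ := by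
  have hg := gA_smooth hG
  have hg1 := gX_smooth hg
  have hh' : ContDiff ℝ ∞ (deriv h) := (contDiff_infty_iff_deriv.1 hh).2
  have e0 : ∀ X φ, PP P t X φ = 1 + (b - 1) * h X + gA G X φ := fun X φ => hP X _
  have e1 : ∀ X φ, dX (PP P) t X φ = (b - 1) * deriv h X + gX (gA G) X φ := by
    intro X φ
    unfold dX
    simp only [e0]
    have a1 : HasDerivAt h (deriv h X) X := (hh.differentiable (by simp) X).hasDerivAt
    have := ((a1.const_mul (b - 1)).const_add 1).fun_add (gX_hasDeriv hg X φ)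
    exact this.deriv
  have e2 : ∀ X φ, dX (dX (PP P)) t X φ
      = (b - 1) * deriv (deriv h) X + gX (gX (gA G)) X φ := by
    intro X φ
    rw [dX]
    simp only [e1]
    have a1 : HasDerivAt (deriv h) (deriv (deriv h) X) X :=
      (hh'.differentiable (by simp) X).hasDerivAt
    have := (a1.const_mul (b - 1)).fun_add (gX_hasDeriv hg1 X φ)
    exact this.deriv
  have e3 : ∀ X φ, dF (PP P) t X φ = gF (gA G) X φ := by
    intro X φ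
    unfold dF
    simp only [e0]
    rw [deriv_const_add]; rfl
  have e4 : ∀ X φ, dF (dF (PP P)) t X φ = gF (gF (gA G)) X φ := by
    intro X φ
    rw [dF]
    simp only [e3]; rfl
  exact ⟨e0 X φ, e1 X φ, e2 X φ, e3 X φ, e4 X φ⟩

/-- jets vanish off the support -/
theorem jets_zero {G : ℝ → ℂ → ℝ} (hsupp : ∀ X u, X ∉ Icc Xa Xb → G X u = 0) {X : ℝ}
    (hX : X ∉ Icc Xa Xb) (φ : ℝ) :
    gA G X φ = 0 ∧ gX (gA G) X φ = 0 ∧ gX (gX (gA G)) X φ = 0 ∧ gF (gA G) X φ = 0 ∧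
      gF (gF (gA G)) X φ = 0 := by
  have ho : IsOpen ((Icc Xa Xb)ᶜ : Set ℝ) := isClosed_Icc.isOpen_compl
  have e0 : ∀ X ∉ Icc Xa Xb, ∀ φ, gA G X φ = 0 := fun X hX φ => hsupp X _ hX
  have e1 : ∀ X ∉ Icc Xa Xb, ∀ φ, gX (gA G) X φ = 0 := by
    intro X hX φ
    have : (fun Y => gA G Y φ) =ᶠ[𝓝 X] fun _ => 0 := by
      filter_upwards [ho.mem_nhds hX] with Y hY using e0 Y hY φ
    unfold gX
    rw [this.deriv_eq]; simp
  have e2 : ∀ X ∉ Icc Xa Xb, ∀ φ, gX (gX (gA G)) X φ = 0 := by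
    intro X hX φ
    have : (fun Y => gX (gA G) Y φ) =ᶠ[𝓝 X] fun _ => 0 := by
      filter_upwards [ho.mem_nhds hX] with Y hY using e1 Y hY φ
    rw [gX, this.deriv_eq]; simp
  have e3 : ∀ X ∉ Icc Xa Xb, ∀ φ, gF (gA G) X φ = 0 := by
    intro X hX φ
    have : (fun ψ => gA G X ψ) = fun _ => 0 := by ext ψ; exact e0 X hX ψ
    rw [gF, this]; simp
  have e4 : gF (gF (gA G)) X φ = 0 := by
    have : (fun ψ => gF (gA G) X ψ) = fun _ => 0 := by ext ψ; exact e3 X hX ψ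
    rw [gF, this]; simp
  exact ⟨e0 X hX φ, e1 X hX φ, e2 X hX φ, e3 X hX φ, e4⟩

theorem SmallJet.zero {η : ℝ} (hη : 0 ≤ η) : SmallJet η 0 0 0 0 0 :=
  ⟨by simpa, by simpa, by simpa, by simpa, by simpa⟩

/-- **The cone condition** for a frozen datum `P t X u = 1 + (b - 1) h X + G X u`. -/
theorem cone_frozen (hXa : 0 < Xa) (hab : Xa ≤ Xb) (hXb : Xb < 1) (hb1 : 1 ≤ b1) (hC : 0 < C)
    (hε : 0 < ε) (hη : 0 ≤ η) (hη2 : η ≤ 1 / 2) (hp : IsProfile X0 C ε X1 h)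
    {b : ℝ} (hb : 1 ≤ b) (hb' : b ≤ b1)
    {P : ℝ → ℝ → ℂ → ℝ} {t : ℝ} {G : ℝ → ℂ → ℝ}
    (hG : ContDiff ℝ ∞ (fun p : ℝ × ℂ => G p.1 p.2))
    (hsupp : ∀ X u, X ∉ Icc Xa Xb → G X u = 0) (hsm : Small η Xa Xb G)
    (hP : ∀ X u, P t X u = 1 + (b - 1) * h X + G X u) {X : ℝ} (hX : 0 < X) (hX' : X < 1)
    (φ : ℝ) :
    ((m + 1) - cConst m b1 C Xa Xb * (ε + η) ≤
      q11 m b⁻¹ X (PP P t X φ) (dX (PP P) t X φ) (dX (dX (PP P)) t X φ)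
          (dF (PP P) t X φ) (dF (dF (PP P)) t X φ)
        - |q12 m b⁻¹ X (PP P t X φ) (dF (PP P) t X φ)|) ∧
    (1 ≤ m → (m + 1) - cConst m b1 C Xa Xb * (ε + η) ≤
      qw m X (PP P t X φ) (dX (PP P) t X φ)) := by
  obtain ⟨j0, j1, j2, j3, j4⟩ := jets hp.smooth hG hP X φ
  rw [j0, j1, j2, j3, j4]
  by_cases hXab : X ∈ Icc Xa Xb
  · have hJ := hsm X hXab φ
    exact ⟨base_aux hXa hab hXb hb1 hC hε hη hη2 hp hb hb' hX hX' hJ (Or.inr hXab),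
      fun hm => fiber_aux hXa hab hXb hb1 hC hε hη hm hp hb hb' hX hX' hJ (Or.inr hXab)⟩
  · obtain ⟨z0, z1, z2, z3, z4⟩ := jets_zero hsupp hXab φ
    rw [z0, z1, z2, z3, z4]
    exact ⟨base_aux hXa hab hXb hb1 hC hε hη hη2 hp hb hb' hX hX' (SmallJet.zero hη)
        (Or.inl ⟨rfl, rfl, rfl, rfl, rfl⟩),
      fun hm => fiber_aux hXa hab hXb hb1 hC hε hη hm hp hb hb' hX hX' (SmallJet.zero hη)
        (Or.inl ⟨rfl, rfl⟩)⟩

/-- the version with `b⁻¹ = θ t`, giving `ConeAt` -/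
theorem coneAt_frozen (hXa : 0 < Xa) (hab : Xa ≤ Xb) (hXb : Xb < 1) (hb1 : 1 ≤ b1) (hC : 0 < C)
    (hε : 0 < ε) (hη : 0 ≤ η) (hη2 : η ≤ 1 / 2) (hp : IsProfile X0 C ε X1 h)
    {b : ℝ} (hb : 1 ≤ b) (hb' : b ≤ b1)
    {P : ℝ → ℝ → ℂ → ℝ} {t : ℝ} {G : ℝ → ℂ → ℝ}
    (hG : ContDiff ℝ ∞ (fun p : ℝ × ℂ => G p.1 p.2))
    (hsupp : ∀ X u, X ∉ Icc Xa Xb → G X u = 0) (hsm : Small η Xa Xb G)
    (hP : ∀ X u, P t X u = 1 + (b - 1) * h X + G X u)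
    {s θ : ℝ → ℝ} (hθ : θ t = b⁻¹) {μ : ℝ}
    (hlam : (m + 1) * (1 + μ) * lamSq m s θ t ≤ (m + 1) - cConst m b1 C Xa Xb * (ε + η)) :
    ConeAt m s θ P μ t := by
  refine ⟨fun X φ hX hX' => ?_, fun hm X φ hX hX' => ?_⟩
  · rw [hθ]
    exact hlam.trans (cone_frozen hXa hab hXb hb1 hC hε hη hη2 hp hb hb' hG hsupp hsm hP hX hX' φ).1
  · exact hlam.trans
      ((cone_frozen hXa hab hXb hb1 hC hε hη hη2 hp hb hb' hG hsupp hsm hP hX hX' φ).2 hm)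

end

end Crest.Agent.R202.Prof
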