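import Crest.Agent.R202.Prof3

/-!
Row 202, node PROFILE (P3), file 4: calculus of the smallness condition `Small`, the harmonic
bumps `η(X) Re(u^a)`.
(helper912)
-/

set_option autoImplicit false
open scoped ContDiff Topology
open Set Filter
open Crest.Agent.R202.Geo

namespace Crest.Agent.R202.Prof

noncomputable section

variable {Xa Xb : ℝ}

theorem SmallJet.add {η η' G G1 G2 F1 F2 G' G1' G2' F1' F2' : ℝ}
    (h : SmallJet η G G1 G2 F1 F2) (h' : SmallJet η' G' G1' G2' F1' F2') :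
    SmallJet (η + η') (G + G') (G1 + G1') (G2 + G2') (F1 + F1') (F2 + F2') :=
  ⟨(abs_add_le _ _).trans (add_le_add h.g0 h'.g0), (abs_add_le _ _).trans (add_le_add h.g1 h'.g1),
    (abs_add_le _ _).trans (add_le_add h.g2 h'.g2), (abs_add_le _ _).trans (add_le_add h.f1 h'.f1),
    (abs_add_le _ _).trans (add_le_add h.f2 h'.f2)⟩

theorem SmallJet.smul {η G G1 G2 F1 F2 : ℝ} (h : SmallJet η G G1 G2 F1 F2) (c : ℝ) :
    SmallJet (|c| * η) (c * G) (c * G1) (c * G2) (c * F1) (c * F2) :=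
  ⟨abs_mul_le' le_rfl h.g0, abs_mul_le' le_rfl h.g1, abs_mul_le' le_rfl h.g2,
    abs_mul_le' le_rfl h.f1, abs_mul_le' le_rfl h.f2⟩

theorem SmallJet.mono {η η' G G1 G2 F1 F2 : ℝ} (h : SmallJet η G G1 G2 F1 F2) (hη : η ≤ η') :
    SmallJet η' G G1 G2 F1 F2 :=
  ⟨h.g0.trans hη, h.g1.trans hη, h.g2.trans hη, h.f1.trans hη, h.f2.trans hη⟩

theorem Small.mono {η η' : ℝ} {G : ℝ → ℂ → ℝ} (h : Small η Xa Xb G) (hη : η ≤ η') :
    Small η' Xa Xb G := fun X hX φ => (h X hX φ).mono hη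

theorem Small.congr {η : ℝ} {G G' : ℝ → ℂ → ℝ} (h : Small η Xa Xb G) (he : gA G' = gA G) :
    Small η Xa Xb G' := by
  intro X hX φ
  rw [he]; exact h X hX φ

theorem gF_smooth {g : ℝ → ℝ → ℝ} (hg : ContDiff ℝ ∞ (fun p : ℝ × ℝ => g p.1 p.2)) :
    ContDiff ℝ ∞ (fun p : ℝ × ℝ => gF g p.1 p.2) := by
  have h1 : ∀ p : ℝ × ℝ, gF g p.1 p.2 = fderiv ℝ (fun p : ℝ × ℝ => g p.1 p.2) p (0, 1) := by
    intro p
    have h2 : HasDerivAt (fun Y : ℝ => (p.1, Y)) ((0 : ℝ), (1 : ℝ)) p.2 :=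
      (hasDerivAt_const _ _).prodMk (hasDerivAt_id p.2)
    have h3 := ((hg.differentiable (by simp)) p).hasFDerivAt.comp_hasDerivAt p.2
      (f := fun Y : ℝ => (p.1, Y)) h2
    exact h3.deriv
  simp only [h1]
  exact (hg.fderiv_right (m := ∞) (by simp)).clm_apply contDiff_const

theorem gF_hasDeriv {g : ℝ → ℝ → ℝ} (hg : ContDiff ℝ ∞ (fun p : ℝ × ℝ => g p.1 p.2))
    (X φ : ℝ) : HasDerivAt (fun ψ => g X ψ) (gF g X φ) φ := by
  have h1 : ContDiff ℝ ∞ (fun ψ => g X ψ) := hg.comp (contDiff_const.prodMk contDiff_id)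
  exact (h1.differentiable (by simp) φ).hasDerivAt

theorem gX_add {g g' : ℝ → ℝ → ℝ} (hg : ContDiff ℝ ∞ (fun p : ℝ × ℝ => g p.1 p.2))
    (hg' : ContDiff ℝ ∞ (fun p : ℝ × ℝ => g' p.1 p.2)) :
    gX (fun X φ => g X φ + g' X φ) = fun X φ => gX g X φ + gX g' X φ := by
  ext X φ
  exact ((gX_hasDeriv hg X φ).fun_add (gX_hasDeriv hg' X φ)).deriv

theorem gF_add {g g' : ℝ → ℝ → ℝ} (hg : ContDiff ℝ ∞ (fun p : ℝ × ℝ => g p.1 p.2))
    (hg' : ContDiff ℝ ∞ (fun p : ℝ × ℝ => g' p.1 p.2)) :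
    gF (fun X φ => g X φ + g' X φ) = fun X φ => gF g X φ + gF g' X φ := by
  ext X φ
  exact ((gF_hasDeriv hg X φ).fun_add (gF_hasDeriv hg' X φ)).deriv

theorem gX_smul {g : ℝ → ℝ → ℝ} (c : ℝ) :
    gX (fun X φ => c * g X φ) = fun X φ => c * gX g X φ := by
  ext X φ
  exact deriv_const_mul_field c

theorem gF_smul {g : ℝ → ℝ → ℝ} (c : ℝ) :
    gF (fun X φ => c * g X φ) = fun X φ => c * gF g X φ := by
  ext X φ
  exact deriv_const_mul_field c

theorem Small.add {η η' : ℝ} {G G' : ℝ → ℂ → ℝ} (h : Small η Xa Xb G) (h' : Small η' Xa Xb G')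
    (hG : ContDiff ℝ ∞ (fun p : ℝ × ℂ => G p.1 p.2))
    (hG' : ContDiff ℝ ∞ (fun p : ℝ × ℂ => G' p.1 p.2)) :
    Small (η + η') Xa Xb (fun X u => G X u + G' X u) := by
  intro X hX φ
  have e0 : gA (fun X u => G X u + G' X u) = fun X φ => gA G X φ + gA G' X φ := rfl
  have s := gA_smooth hG
  have s' := gA_smooth hG'
  rw [e0, gX_add s s', gX_add (gX_smooth s) (gX_smooth s'), gF_add s s',
    gF_add (gF_smooth s) (gF_smooth s')]
  exact (h X hX φ).add (h' X hX φ)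

theorem Small.smul {η : ℝ} {G : ℝ → ℂ → ℝ} (h : Small η Xa Xb G) (c : ℝ) :
    Small (|c| * η) Xa Xb (fun X u => c * G X u) := by
  intro X hX φ
  have e0 : gA (fun X u => c * G X u) = fun X φ => c * gA G X φ := rfl
  rw [e0, gX_smul, gX_smul, gF_smul, gF_smul]
  exact (h X hX φ).smul c

theorem Small.zero : Small 0 Xa Xb (fun _ _ => 0) := by
  intro X hX φ
  have e0 : gA (fun _ _ => 0) = fun _ _ => 0 := rfl
  have e1 : gX (fun _ _ => 0) = fun _ _ => 0 := by ext X φ; simp [gX]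
  have e2 : gF (fun _ _ => 0) = fun _ _ => 0 := by ext X φ; simp [gF]
  rw [e0, e1, e1, e2, e2]
  exact SmallJet.zero le_rfl

theorem Small.sum {ι : Type*} (s : Finset ι) {η : ι → ℝ} {G : ι → ℝ → ℂ → ℝ}
    (h : ∀ i ∈ s, Small (η i) Xa Xb (G i))
    (hG : ∀ i ∈ s, ContDiff ℝ ∞ (fun p : ℝ × ℂ => G i p.1 p.2)) :
    Small (∑ i ∈ s, η i) Xa Xb (fun X u => ∑ i ∈ s, G i X u) := by
  classical
  induction s using Finset.induction_on with
  | empty => simpa using Small.zero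
  | insert a s ha ih =>
    simp only [Finset.sum_insert ha]
    refine (h a (by simp)).add (ih (fun i hi => h i (by simp [hi]))
      (fun i hi => hG i (by simp [hi]))) (hG a (by simp)) ?_
    exact ContDiff.sum fun i hi => hG i (by simp [hi])

/-! ### harmonic bumps -/

/-- `η(X) Re(u^a)` -/
def bump (η : ℝ → ℝ) (a : ℕ) (X : ℝ) (u : ℂ) : ℝ := η X * (u ^ a).re

theorem bump_smooth {η : ℝ → ℝ} (hη : ContDiff ℝ ∞ η) (a : ℕ) :
    ContDiff ℝ ∞ (fun p : ℝ × ℂ => bump η a p.1 p.2) :=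
  (hη.comp contDiff_fst).mul (Complex.reCLM.contDiff.comp (contDiff_snd.pow a))

theorem bump_gA (η : ℝ → ℝ) (a : ℕ) (X φ : ℝ) : gA (bump η a) X φ = η X * Real.cos (a * φ) := by
  unfold gA bump
  congr 1
  rw [← Complex.exp_nat_mul]
  have : (a : ℂ) * ((φ : ℂ) * Complex.I) = ((a * φ : ℝ) : ℂ) * Complex.I := by push_cast; ring
  rw [this, Complex.exp_ofReal_mul_I_re]

theorem bump_exists_small {η : ℝ → ℝ} (hη : ContDiff ℝ ∞ η) (a : ℕ) (Xa Xb : ℝ) :
    ∃ K : ℝ, 0 ≤ K ∧ Small K Xa Xb (bump η a) := by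
  have hη1 : ContDiff ℝ ∞ (deriv η) := (contDiff_infty_iff_deriv.1 hη).2
  have hη2 : ContDiff ℝ ∞ (deriv (deriv η)) := (contDiff_infty_iff_deriv.1 hη1).2
  obtain ⟨A0, hA0⟩ := (isCompact_Icc (a := Xa) (b := Xb)).exists_bound_of_continuousOn
    hη.continuous.continuousOn
  obtain ⟨A1, hA1⟩ := (isCompact_Icc (a := Xa) (b := Xb)).exists_bound_of_continuousOn
    hη1.continuous.continuousOn
  obtain ⟨A2, hA2⟩ := (isCompact_Icc (a := Xa) (b := Xb)).exists_bound_of_continuousOn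
    hη2.continuous.continuousOn
  set K : ℝ := |A0| * (1 + a) ^ 2 + |A1| + |A2| with hK
  have ha : (0 : ℝ) ≤ a := Nat.cast_nonneg a
  have hK0 : 0 ≤ K := by positivity
  refine ⟨K, hK0, ?_⟩
  intro X hX φ
  have b0 : |η X| ≤ |A0| := (hA0 X hX).trans (le_abs_self _)
  have b1 : |deriv η X| ≤ |A1| := (hA1 X hX).trans (le_abs_self _)
  have b2 : |deriv (deriv η) X| ≤ |A2| := (hA2 X hX).trans (le_abs_self _)
  have e0 : gA (bump η a) = fun X φ => η X * Real.cos (a * φ) := by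
    ext X φ; exact bump_gA η a X φ
  have e1 : gX (gA (bump η a)) = fun X φ => deriv η X * Real.cos (a * φ) := by
    rw [e0]; ext X φ
    exact ((hη.differentiable (by simp) X).hasDerivAt.mul_const _).deriv
  have e2 : gX (gX (gA (bump η a))) = fun X φ => deriv (deriv η) X * Real.cos (a * φ) := by
    rw [e1]; ext X φ
    exact ((hη1.differentiable (by simp) X).hasDerivAt.mul_const _).deriv
  have hlin : ∀ φ : ℝ, HasDerivAt (fun ψ : ℝ => (a : ℝ) * ψ) a φ := fun φ => by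
    simpa using (hasDerivAt_id φ).const_mul (a : ℝ)
  have e3 : gF (gA (bump η a)) = fun X φ => η X * (-(a * Real.sin (a * φ))) := by
    rw [e0]; ext X φ
    have h2 := ((hlin φ).cos).const_mul (η X)
    rw [gF, h2.deriv]; ring
  have e4 : gF (gF (gA (bump η a))) = fun X φ => η X * (-(a ^ 2 * Real.cos (a * φ))) := by
    rw [e3]; ext X φ
    have h2 := ((((hlin φ).sin).const_mul (a : ℝ)).fun_neg).const_mul (η X)
    rw [gF, h2.deriv]; ring
  have hc : |Real.cos (a * φ)| ≤ 1 := Real.abs_cos_le_one _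
  have hs : |Real.sin (a * φ)| ≤ 1 := Real.abs_sin_le_one _
  have h1a : (1 : ℝ) ≤ (1 + a) ^ 2 := by nlinarith
  have h2a : (a : ℝ) ≤ (1 + a) ^ 2 := by nlinarith
  have h3a : (a : ℝ) ^ 2 ≤ (1 + a) ^ 2 := by nlinarith
  have hK1 : |A0| * (1 + a) ^ 2 ≤ K := by rw [hK]; linarith [abs_nonneg A1, abs_nonneg A2]
  have hK2 : |A1| ≤ K := by
    have : 0 ≤ |A0| * (1 + a) ^ 2 := by positivity
    rw [hK]; linarith [abs_nonneg A2]
  have hK3 : |A2| ≤ K := by
    have : 0 ≤ |A0| * (1 + a) ^ 2 := by positivity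
    rw [hK]; linarith [abs_nonneg A1]
  have m0 : |A0| ≤ K := (le_mul_of_one_le_right (abs_nonneg _) h1a).trans hK1
  refine ⟨?_, ?_, ?_, ?_, ?_⟩
  · rw [e0]
    exact (abs_mul_le' b0 hc).trans (by rw [mul_one]; exact m0)
  · rw [e1]
    exact (abs_mul_le' b1 hc).trans (by rw [mul_one]; exact hK2)
  · rw [e2]
    exact (abs_mul_le' b2 hc).trans (by rw [mul_one]; exact hK3)
  · rw [e3]
    have : |(-(a * Real.sin (a * φ)) : ℝ)| ≤ (1 + a) ^ 2 := by
      rw [abs_neg, abs_mul, abs_of_nonneg ha]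
      nlinarith
    exact (abs_mul_le' b0 this).trans hK1
  · rw [e4]
    have : |(-(a ^ 2 * Real.cos (a * φ)) : ℝ)| ≤ (1 + a) ^ 2 := by
      rw [abs_neg, abs_mul, abs_of_nonneg (by positivity)]
      nlinarith [sq_nonneg (a : ℝ)]
    exact (abs_mul_le' b0 this).trans hK1

/-- a finite family of bumps with small coefficients is small, uniformly -/
theorem bumps_small {ι : Type*} [Fintype ι] {η : ι → ℝ → ℝ} (hη : ∀ i, ContDiff ℝ ∞ (η i))
    (a : ι → ℕ) (Xa Xb : ℝ) :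
    ∃ K : ℝ, 0 < K ∧ ∀ (c : ι → ℝ) (r : ℝ), 0 ≤ r → (∀ i, |c i| ≤ r) →
      Small (K * r) Xa Xb (fun X u => ∑ i, c i * bump (η i) (a i) X u) := by
  choose K hK0 hK using fun i => bump_exists_small (hη i) (a i) Xa Xb
  refine ⟨1 + ∑ i, K i, by have := Finset.sum_nonneg fun i (_ : i ∈ Finset.univ) => hK0 i; linarith, ?_⟩
  intro c r hr hc
  have h1 := Small.sum (Xa := Xa) (Xb := Xb) Finset.univ (η := fun i => |c i| * K i)
    (G := fun i X u => c i * bump (η i) (a i) X u) (fun i _ => (hK i).smul (c i))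
    (fun i _ => contDiff_const.mul (bump_smooth (hη i) (a i)))
  refine h1.mono ?_
  calc ∑ i, |c i| * K i ≤ ∑ i, r * K i :=
        Finset.sum_le_sum fun i _ => mul_le_mul_of_nonneg_right (hc i) (hK0 i)
    _ = (∑ i, K i) * r := by rw [← Finset.mul_sum, mul_comm]
    _ ≤ (1 + ∑ i, K i) * r := mul_le_mul_of_nonneg_right (by linarith) hr

end

end Crest.Agent.R202.Prof
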