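import Crest.Agent.R202.Prof4
import Crest.Agent.R202.SchY

/-!
Row 202, node PROFILE (P3), file 5: exports in the format of the schedule (`Sch.ConeS`, `Sch.Prof`,
`Sch.YLoop`).
(helper912)
-/

set_option autoImplicit false
open scoped ContDiff Topology
open Set Filter
open Crest.Agent.R202.Geo

namespace Crest.Agent.R202.Prof

noncomputable section

variable {m : ℕ} {b1 C Xa Xb X0 X1 ε η : ℝ} {h : ℝ → ℝ}

theorem IsProfile.prof (hp : IsProfile X0 C ε X1 h) : Sch.Prof X0 X1 h :=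
  ⟨hp.smooth, hp.low, hp.high, hp.nonneg, hp.le_one⟩

theorem coneS_frozen (hXa : 0 < Xa) (hab : Xa ≤ Xb) (hXb : Xb < 1) (hb1 : 1 ≤ b1) (hC : 0 < C)
    (hε : 0 < ε) (hη : 0 ≤ η) (hη2 : η ≤ 1 / 2) (hp : IsProfile X0 C ε X1 h)
    {b : ℝ} (hb : 1 ≤ b) (hb' : b ≤ b1) {G : ℝ → ℂ → ℝ}
    (hG : ContDiff ℝ ∞ (fun p : ℝ × ℂ => G p.1 p.2))
    (hsupp : ∀ X u, X ∉ Icc Xa Xb → G X u = 0) (hsm : Small η Xa Xb G) {cc : ℝ}
    (hcc : cc ≤ (m + 1) - cConst m b1 C Xa Xb * (ε + η)) :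
    Sch.ConeS m cc b⁻¹ (fun X u => 1 + (b - 1) * h X + G X u) := by
  have H := fun (X φ : ℝ) (hX : 0 < X) (hX' : X < 1) =>
    cone_frozen (m := m) hXa hab hXb hb1 hC hε hη hη2 hp hb hb' hG hsupp hsm
      (P := fun _ X u => 1 + (b - 1) * h X + G X u) (t := 0) (fun _ _ => rfl) hX hX' φ
  exact ⟨fun X φ hX hX' => hcc.trans (H X φ hX hX').1,
    fun hm X φ hX hX' => hcc.trans ((H X φ hX hX').2 hm)⟩

/-- **EXPORT**: existence of the tip profile with the cone conditions for all small perturbations. -/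
theorem exists_profile_cone (m : ℕ) {b1 X0 Xa Xb e : ℝ} (hX0 : 0 < X0) (h0a : X0 < Xa)
    (hab : Xa ≤ Xb) (hXb : Xb < 1) (hb1 : 1 ≤ b1) (he : 0 < e) :
    ∃ ε0 > 0, ∃ η0 > 0, η0 ≤ 1 / 2 ∧ ∀ ε : ℝ, 0 < ε → ε ≤ ε0 → ∃ (h : ℝ → ℝ) (X1 : ℝ),
      Xb < X1 ∧ X1 < 1 ∧ Sch.Prof X0 X1 h ∧
      (∀ X, 0 ≤ X → X ≤ 1 → (1 - X ^ 2) * h X ≤ ε) ∧
      (∀ b : ℝ, 1 ≤ b → b ≤ b1 → Sch.ConeS m ((m + 1) * (1 - e)) b⁻¹ (Sch.Ptip h b)) ∧
      ∀ b : ℝ, 1 ≤ b → b ≤ b1 → ∀ G : ℝ → ℂ → ℝ,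
        ContDiff ℝ ∞ (fun p : ℝ × ℂ => G p.1 p.2) → (∀ X u, X ∉ Icc Xa Xb → G X u = 0) →
        Small η0 Xa Xb G →
        Sch.ConeS m ((m + 1) * (1 - e)) b⁻¹ (fun X u => 1 + (b - 1) * h X + G X u) := by
  have hXa : 0 < Xa := by linarith
  obtain ⟨C, hC, ε0, hε0, H⟩ := exists_isProfile hX0 (by linarith : X0 < 1)
  have hXb2 : 0 < 1 - Xb ^ 2 := sq_pos' hXa hab hXb
  set K : ℝ := 1 + cConst m b1 C Xa Xb with hK
  have hcn : 0 ≤ cConst m b1 C Xa Xb :=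
    add_nonneg (cA_nonneg hb1 hC) (cB_nonneg hXa hab hXb hb1)
  have hK0 : 0 < K := by linarith
  have hm : (0 : ℝ) ≤ m := Nat.cast_nonneg m
  have hδ : 0 < (m + 1) * e / (2 * K) := by positivity
  refine ⟨min ε0 (min ((m + 1) * e / (2 * K)) ((1 - Xb ^ 2) / 2)), by positivity,
    min ((m + 1) * e / (2 * K)) (1 / 2), by positivity, min_le_right _ _, ?_⟩
  intro ε hε hεle
  obtain ⟨h, X1, hp⟩ := H ε hε (hεle.trans (min_le_left _ _))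
  have hε1 : ε ≤ (m + 1) * e / (2 * K) :=
    hεle.trans ((min_le_right _ _).trans (min_le_left _ _))
  have hε2 : ε ≤ (1 - Xb ^ 2) / 2 :=
    hεle.trans ((min_le_right _ _).trans (min_le_right _ _))
  set η0 : ℝ := min ((m + 1) * e / (2 * K)) (1 / 2) with hη0
  have hη00 : 0 ≤ η0 := by positivity
  have hη01 : η0 ≤ (m + 1) * e / (2 * K) := min_le_left _ _
  have hη02 : η0 ≤ 1 / 2 := min_le_right _ _
  have hcc : (m + 1) * (1 - e) ≤ (m + 1) - cConst m b1 C Xa Xb * (ε + η0) := by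
    have h1 : cConst m b1 C Xa Xb * (ε + η0) ≤ K * (ε + η0) :=
      mul_le_mul_of_nonneg_right (by linarith) (by positivity)
    have h2 : K * (ε + η0) ≤ K * ((m + 1) * e / (2 * K) + (m + 1) * e / (2 * K)) :=
      mul_le_mul_of_nonneg_left (add_le_add hε1 hη01) hK0.le
    have h3 : K * ((m + 1) * e / (2 * K) + (m + 1) * e / (2 * K)) = (m + 1) * e := by
      field_simp; ring
    linarith
  have hmain : ∀ b : ℝ, 1 ≤ b → b ≤ b1 → ∀ G : ℝ → ℂ → ℝ,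
        ContDiff ℝ ∞ (fun p : ℝ × ℂ => G p.1 p.2) → (∀ X u, X ∉ Icc Xa Xb → G X u = 0) →
        Small η0 Xa Xb G →
        Sch.ConeS m ((m + 1) * (1 - e)) b⁻¹ (fun X u => 1 + (b - 1) * h X + G X u) :=
    fun b hb hb' G hG hs hsm =>
      coneS_frozen hXa hab hXb hb1 hC hε hη00 hη02 hp hb hb' hG hs hsm hcc
  refine ⟨h, X1, ?_, hp.X1_lt, hp.prof, hp.small, ?_, hmain⟩
  · have h1 := hp.X1_sq
    have h2 := hp.X0_lt
    nlinarith
  · intro b hb hb'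
    have h1 := hmain b hb hb' (fun _ _ => 0) contDiff_const (fun _ _ _ => rfl)
      (Small.zero.mono hη00)
    have e1 : (fun (X : ℝ) (_ : ℂ) => 1 + (b - 1) * h X + 0) = Sch.Ptip h b := by
      funext X u
      simp [Sch.Ptip]
    rwa [e1] at h1

/-- the same for the loops of the schedule -/
theorem coneS_loop {m : ℕ} {y0 y1 Xa Xb e η0 : ℝ} {h : ℝ → ℝ} (hy0 : 1 ≤ y0)
    (H : ∀ b : ℝ, 1 ≤ b → b ≤ y1 → ∀ G : ℝ → ℂ → ℝ,
        ContDiff ℝ ∞ (fun p : ℝ × ℂ => G p.1 p.2) → (∀ X u, X ∉ Icc Xa Xb → G X u = 0) →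
        Small η0 Xa Xb G →
        Sch.ConeS m ((m + 1) * (1 - e)) b⁻¹ (fun X u => 1 + (b - 1) * h X + G X u))
    (L : Sch.YLoop y0 y1 Xa Xb) {τ k : ℝ}
    (hs : Small η0 Xa Xb (fun X u => L.Gh τ k X u)) :
    Sch.ConeS m ((m + 1) * (1 - e)) (L.y τ)⁻¹
      (fun X u => 1 + (L.y τ - 1) * h X + L.Gh τ k X u) := by
  refine H (L.y τ) (hy0.trans (L.y_mem τ).1) (L.y_mem τ).2 (fun X u => L.Gh τ k X u) ?_ ?_ hs
  · exact L.Gh_smooth.comp (contDiff_const.prodMk (contDiff_const.prodMk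
      (contDiff_fst.prodMk contDiff_snd)))
  · intro X u hX
    exact L.Gh_supp τ k X u hX

end

end Crest.Agent.R202.Prof
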