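import Crest.Agent.R202.Prof5
import Crest.Agent.R202.CThmDef

/-!
Row 202, node PROFILE (P3), file 6: bridge from `CT.JetSmall` to the cone conditions of the
schedule.
(helper912)
-/

set_option autoImplicit false
open scoped ContDiff Topology
open Set Filter
open Crest.Agent.R202.Geo

namespace Crest.Agent.R202.Prof

noncomputable section

theorem small_of_jetSmall {y0 y1 Xa Xb η : ℝ} {L : Sch.YLoop y0 y1 Xa Xb}
    (hJ : CT.JetSmall L η) (τ : ℝ) {κ : ℝ} (hκ : κ ∈ Icc (-1 : ℝ) 1) :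
    Small η Xa Xb (fun X u => L.Gh τ κ X u) := by
  intro X _ φ
  obtain ⟨h0, h1, h2, h3, h4⟩ := hJ τ κ hκ X φ
  exact ⟨h0, h1, h2, h3, h4⟩

/-- **EXPORT**: for the loops of `CThm` and a profile `h` given by this theorem, the hypotheses
`cT`, `cL` of `Sch.exists_mainY` hold. -/
theorem exists_profile_loops (m : ℕ) {y0 y1 X0 Xa Xb e : ℝ} (hX0 : 0 < X0) (h0a : X0 < Xa)
    (hab : Xa ≤ Xb) (hXb : Xb < 1) (hy0 : 1 ≤ y0) (hy01 : y0 ≤ y1) (he : 0 < e) :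
    ∃ η0 > 0, ∃ ε0 > 0, ∀ ε : ℝ, 0 < ε → ε ≤ ε0 → ∃ (h : ℝ → ℝ) (X1 : ℝ),
      Xb < X1 ∧ X1 < 1 ∧ Sch.Prof X0 X1 h ∧
      (∀ X ∈ Icc (0 : ℝ) 1, h X * (1 - X ^ 2) ≤ ε) ∧
      (∀ y ∈ Icc 1 y0, Sch.ConeS m ((m + 1) * (1 - e)) y⁻¹ (Sch.Ptip h y)) ∧
      ∀ L : Sch.YLoop y0 y1 Xa Xb, CT.JetSmall L η0 →
        ∀ τ ∈ Icc (0 : ℝ) 1, ∀ κ ∈ Icc (-1 : ℝ) 1,
          Sch.ConeS m ((m + 1) * (1 - e)) (L.y τ)⁻¹
            (fun X u => 1 + (L.y τ - 1) * h X + L.Gh τ κ X u) := by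
  obtain ⟨ε0, hε0, η0, hη0, _, H⟩ := exists_profile_cone m hX0 h0a hab hXb
    (hy0.trans hy01) he
  refine ⟨η0, hη0, ε0, hε0, fun ε h1 h2 => ?_⟩
  obtain ⟨h, X1, a1, a2, a3, a4, a5, a6⟩ := H ε h1 h2
  refine ⟨h, X1, a1, a2, a3, fun X hX => ?_, fun y hy => a5 y hy.1 (hy.2.trans hy01), ?_⟩
  · rw [mul_comm]; exact a4 X hX.1 hX.2
  · intro L hL τ _ κ hκ
    exact coneS_loop hy0 a6 L (small_of_jetSmall hL τ hκ)

/-- **EXPORT** in the format of `CT.CThm`: a sequence of sharper and sharper tips. -/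
theorem exists_profile_seq (m : ℕ) {y0 y1 X0 Xa Xb e : ℝ} (hX0 : 0 < X0) (h0a : X0 < Xa)
    (hab : Xa ≤ Xb) (hXb : Xb < 1) (hy0 : 1 ≤ y0) (hy01 : y0 ≤ y1) (he : 0 < e) :
    ∃ η0 > 0, ∃ (hs : ℕ → ℝ → ℝ) (X1 : ℕ → ℝ) (ε : ℕ → ℝ), Tendsto ε atTop (𝓝 0) ∧ ∀ n,
      Xb < X1 n ∧ X1 n < 1 ∧ Sch.Prof X0 (X1 n) (hs n) ∧
      (∀ X ∈ Icc (0 : ℝ) 1, hs n X * (1 - X ^ 2) ≤ ε n) ∧
      (∀ y ∈ Icc 1 y0, Sch.ConeS m ((m + 1) * (1 - e)) y⁻¹ (Sch.Ptip (hs n) y)) ∧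
      ∀ L : Sch.YLoop y0 y1 Xa Xb, CT.JetSmall L η0 →
        ∀ τ ∈ Icc (0 : ℝ) 1, ∀ κ ∈ Icc (-1 : ℝ) 1,
          Sch.ConeS m ((m + 1) * (1 - e)) (L.y τ)⁻¹
            (fun X u => 1 + (L.y τ - 1) * hs n X + L.Gh τ κ X u) := by
  obtain ⟨η0, hη0, ε0, hε0, H⟩ := exists_profile_loops m hX0 h0a hab hXb hy0 hy01 he
  have hpos : ∀ n : ℕ, 0 < ε0 / ((n : ℝ) + 1) := fun n => by positivity
  have hle : ∀ n : ℕ, ε0 / ((n : ℝ) + 1) ≤ ε0 := fun n =>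
    div_le_self hε0.le (by have : (0 : ℝ) ≤ n := Nat.cast_nonneg n; linarith)
  choose hs X1 h1 h2 h3 h4 h5 h6 using fun n : ℕ => H (ε0 / ((n : ℝ) + 1)) (hpos n) (hle n)
  refine ⟨η0, hη0, hs, X1, fun n => ε0 / ((n : ℝ) + 1), ?_, fun n =>
    ⟨h1 n, h2 n, h3 n, h4 n, h5 n, h6 n⟩⟩
  have h := tendsto_one_div_add_atTop_nhds_zero_nat (𝕜 := ℝ)
  have h' := h.const_mul ε0
  simpa [div_eq_mul_inv] using h'

/-- the numerical condition of `Sch.exists_mainY` -/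
theorem numeric (m : ℕ) {v y1 : ℝ} (hv : 0 < v) (hy1 : 0 < y1) (hvy : v * y1 < 1) :
    ∃ μ > 0, ∃ δ > 0, ∃ e > 0, (1 + μ) * Real.exp (-2 * (-Real.log v / ((m : ℝ) + 2) - δ))
      * y1 ^ ((2 : ℝ) / ((m : ℝ) + 2)) ≤ 1 - e := by
  have hD : (0 : ℝ) < (m : ℝ) + 2 := by positivity
  set q : ℝ := (v * y1) ^ ((2 : ℝ) / ((m : ℝ) + 2)) with hq
  have hq0 : 0 < q := Real.rpow_pos_of_pos (by positivity) _
  have hq1 : q < 1 := Real.rpow_lt_one (by positivity) hvy (by positivity)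
  have hkey : ∀ δ : ℝ, Real.exp (-2 * (-Real.log v / ((m : ℝ) + 2) - δ))
      * y1 ^ ((2 : ℝ) / ((m : ℝ) + 2)) = Real.exp (2 * δ) * q := by
    intro δ
    rw [hq, Real.mul_rpow hv.le hy1.le, Real.rpow_def_of_pos hv, ← mul_assoc, ← Real.exp_add]
    congr 2
    field_simp
    ring
  set R : ℝ := (1 + q) / (2 * q) with hR
  have hR1 : 1 < R := by rw [hR, lt_div_iff₀ (by positivity)]; linarith
  have hlog : 0 < Real.log R := Real.log_pos hR1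
  have hsq : Real.exp (2 * (Real.log R / 4)) = Real.sqrt R := by
    rw [Real.sqrt_eq_rpow, Real.rpow_def_of_pos (by linarith)]
    congr 1; ring
  have hs1 : 1 < Real.sqrt R := by
    rw [show (1 : ℝ) = Real.sqrt 1 by simp]
    exact Real.sqrt_lt_sqrt zero_le_one hR1
  refine ⟨Real.sqrt R - 1, by linarith, Real.log R / 4, by positivity, (1 - q) / 2, by linarith, ?_⟩
  rw [mul_assoc, hkey, hsq]
  have h1 : (1 + (Real.sqrt R - 1)) * (Real.sqrt R * q) = (Real.sqrt R * Real.sqrt R) * q := by ring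
  rw [h1, Real.mul_self_sqrt (by linarith), hR]
  have h2 : (1 + q) / (2 * q) * q = (1 + q) / 2 := by field_simp
  rw [h2]; linarith

end

end Crest.Agent.R202.Prof
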