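import Crest.Agent.R202.GeoRicThm

/-!
Row 202, Part D: `Geo.ricThm (m) : RicThm m` is in `GeoRicThm.lean`; this file only re-exports it.
-/
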