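import Crest.Agent.R202.SchRate

/-! # Row 202, module SCH, part 4: the assembled family satisfies 580's hypotheses (helper821)

`exists_main`: for an installation path and finitely many loops of admissible data satisfying the
static cone condition, the assembled family is a `Geo.Fam`, and at every time it is in
`DefPhase` or `RoundPhase`, for `A` large; rates `≤ C / A`.
-/

set_option autoImplicit false

open MeasureTheory Set Filter
open scoped Topology ContDiff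

namespace Crest.Agent.R202.Sch

noncomputable section

/-! ### The static cone condition -/

/-- The cone condition with right hand side `cc` for a single (frozen) datum `θ, P(X,u)`. -/
structure ConeS (m : ℕ) (cc θ : ℝ) (P : ℝ → ℂ → ℝ) : Prop where
  base : ∀ X φ : ℝ, 0 < X → X < 1 →
    cc ≤ Geo.q11 m θ X (P X (ee φ)) (deriv (fun Y => P Y (ee φ)) X)
          (deriv (fun Z => deriv (fun Y => P Y (ee φ)) Z) X)
          (deriv (fun ψ => P X (ee ψ)) φ)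
          (deriv (fun χ => deriv (fun ψ => P X (ee ψ)) χ) φ)
        - |Geo.q12 m θ X (P X (ee φ)) (deriv (fun ψ => P X (ee ψ)) φ)|
  fiber : 1 ≤ m → ∀ X φ : ℝ, 0 < X → X < 1 →
    cc ≤ Geo.qw m X (P X (ee φ)) (deriv (fun Y => P Y (ee φ)) X)

theorem ConeS.mono {m : ℕ} {cc cc' θ : ℝ} {P : ℝ → ℂ → ℝ} (h : ConeS m cc θ P) (hc : cc' ≤ cc) :
    ConeS m cc' θ P :=
  ⟨fun X φ h0 h1 => hc.trans (h.base X φ h0 h1), fun hm X φ h0 h1 => hc.trans (h.fiber hm X φ h0 h1)⟩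

/-- `ConeAt` at time `t` only sees the frozen datum. -/
theorem coneAt_of_coneS {m : ℕ} {s θ : ℝ → ℝ} {P : ℝ → ℝ → ℂ → ℝ} {μ t cc : ℝ}
    (h : ConeS m cc (θ t) (P t)) (hc : (m + 1) * (1 + μ) * Geo.lamSq m s θ t ≤ cc) :
    Geo.ConeAt m s θ P μ t :=
  ⟨fun X φ h0 h1 => hc.trans (h.base X φ h0 h1), fun hm X φ h0 h1 => hc.trans (h.fiber hm X φ h0 h1)⟩

theorem coneS_of_coneAt {m : ℕ} {s θ : ℝ → ℝ} {P : ℝ → ℝ → ℂ → ℝ} {μ t : ℝ}
    (h : Geo.ConeAt m s θ P μ t) :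
    ConeS m ((m + 1) * (1 + μ) * Geo.lamSq m s θ t) (θ t) (P t) :=
  ⟨fun X φ h0 h1 => h.base X φ h0 h1, fun hm X φ h0 h1 => h.fiber hm X φ h0 h1⟩

/-- the right hand side of the cone condition when `s = σ` -/
def cst (m : ℕ) (μ σ θ : ℝ) : ℝ :=
  (m + 1) * (1 + μ) * (Real.exp (-2 * σ) * θ ^ (-(2 : ℝ) / ((m : ℝ) + 2)))

/-! ### Local representation at all times -/

variable {θ₀ : ℝ} {P₀ : ℝ → ℂ → ℝ}

/-- `th` of an installation path as a function of `(τ, κ)` -/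
def Inst.T (I : Inst θ₀ P₀) (p : ℝ × ℝ) : ℝ := I.th p.1
/-- `P` of an installation path as a function on `E4` -/
def Inst.F (I : Inst θ₀ P₀) (p : E4) : ℝ := I.P p.1 p.2.2.1 p.2.2.2
/-- `th` of a loop -/
def Loop.T (L : Loop θ₀ P₀) (p : ℝ × ℝ) : ℝ := L.th p.1 p.2
/-- `P` of a loop -/
def Loop.F (L : Loop θ₀ P₀) (p : E4) : ℝ := L.P p.1 p.2.1 p.2.2.1 p.2.2.2

theorem Inst.T_smooth (I : Inst θ₀ P₀) : ContDiff ℝ ∞ I.T := I.smooth_th.comp contDiff_fst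
theorem Inst.F_smooth (I : Inst θ₀ P₀) : ContDiff ℝ ∞ I.F :=
  I.smooth_P.comp (contDiff_fst.prodMk (contDiff_snd.comp contDiff_snd))
theorem Loop.T_smooth (L : Loop θ₀ P₀) : ContDiff ℝ ∞ L.T := L.smooth_th
theorem Loop.F_smooth (L : Loop θ₀ P₀) : ContDiff ℝ ∞ L.F := L.smooth_P

variable (I : Inst θ₀ P₀) (G : ℕ → Loop θ₀ P₀) (κ : ℕ → ℝ) {A : ℝ}

theorem one_div_Tg_le (hA : 0 < A) (q : ℕ) : 1 / Tg A q ≤ 1 / A := by
  apply one_div_le_one_div_of_le hA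
  unfold Tg
  have : (1 : ℝ) ≤ ((q : ℝ) + 1) ^ 3 := one_le_pow₀ (by linarith [Nat.cast_nonneg (α := ℝ) q])
  nlinarith

/-- near every time the data are a member of the installation path or of a loop, with an explicit
slope -/
theorem rep_all (hA : 0 < A) (t : ℝ) :
    ∃ c ∈ Icc (0 : ℝ) 1, ∃ σ : ℝ, 0 ≤ σ ∧ σ ≤ 1 / A ∧
      (σ = 0 ∨ (A ≤ t ∧ t ≤ 2 * A ∧ σ = 1 / A) ∨ ∃ q, A ≤ t ∧ t ≤ hs A (q + 1) ∧ σ = 1 / Tg A q) ∧
      (Rep (thS A I G κ) (PS A I G κ) t I.T I.F 0 c σ ∨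
        ∃ q, Rep (thS A I G κ) (PS A I G κ) t (G q).T (G q).F (κ q) c σ) := by
  have hA' : 0 ≤ 1 / A := (one_div_pos.2 hA).le
  rcases lt_or_ge t A with h | h
  · refine ⟨0, ⟨le_rfl, zero_le_one⟩, 0, le_rfl, hA', Or.inl rfl, Or.inl ?_⟩
    filter_upwards [gt_mem_nhds h] with t' ht'
    rw [thS_round I G κ hA ht'.le]
    refine ⟨by simp [Inst.T, I.th_left 0 le_rfl], fun X u => ?_⟩
    rw [PS_round I G κ hA ht'.le]
    simp [Inst.F, I.P_left 0 _ _ le_rfl]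
  rcases le_or_gt t (2 * A) with h2 | h2
  · refine ⟨(t - A) / A, ⟨div_nonneg (by linarith) hA.le, (div_le_one hA).2 (by linarith)⟩,
      1 / A, hA', le_rfl, Or.inr (Or.inl ⟨h, h2, rfl⟩), Or.inl ?_⟩
    have : ∀ᶠ t' in 𝓝 t, t' < he A 0 :=
      gt_mem_nhds (by rw [he_eq, hs_zero]; linarith [Th_pos hA 0])
    filter_upwards [this] with t' ht'
    have e : (t - A) / A + 1 / A * (t' - t) = (t' - A) / A := by field_simp; ring
    rw [e]
    exact ⟨thS_inst I G κ hA ht'.le, fun X u => PS_inst I G κ hA ht'.le X u⟩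
  · obtain ⟨q, h1, h2⟩ : ∃ q, hs A q < t ∧ t ≤ hs A (q + 1) := by
      obtain ⟨q, h3, h4⟩ := exists_slot hA h2.le
      rcases h3.lt_or_eq with h5 | h5
      · exact ⟨q, h5, h4.le⟩
      · cases q with
        | zero => rw [hs_zero] at h5; linarith
        | succ k => exact ⟨k, by rw [← h5]; exact hs_strictMono hA (Nat.lt_succ_self k), h5.ge⟩
    rcases lt_or_ge t (he A q) with h3 | h3
    · refine ⟨0, ⟨le_rfl, zero_le_one⟩, 0, le_rfl, hA', Or.inl rfl, Or.inr ⟨q, ?_⟩⟩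
      filter_upwards [lt_mem_nhds h1, gt_mem_nhds h3] with t' h4 h5
      rw [zero_mul, add_zero]
      refine ⟨?_, fun X u => ?_⟩
      · rw [thS_home I G κ hA h4.le h5.le]
        exact ((G q).th_left _ _ le_rfl).symm
      · rw [PS_home I G κ hA h4.le h5.le X u]
        exact ((G q).P_left _ _ _ _ le_rfl).symm
    · refine ⟨(t - he A q) / Tg A q, ⟨div_nonneg (by linarith) (Tg_pos hA q).le,
        (div_le_one (Tg_pos hA q)).2 (by rw [hs_succ] at h2; linarith)⟩,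
        1 / Tg A q, (one_div_pos.2 (Tg_pos hA q)).le, one_div_Tg_le hA q,
        Or.inr (Or.inr ⟨q, h, h2, rfl⟩), Or.inr ⟨q, ?_⟩⟩
      filter_upwards [lt_mem_nhds h1, gt_mem_nhds (h2.trans_lt (hs_lt_he hA (q + 1)))]
        with t' h4 h5
      have hT := (Tg_pos hA q).ne'
      have e : (t - he A q) / Tg A q + 1 / Tg A q * (t' - t) = (t' - he A q) / Tg A q := by
        field_simp; ring
      rw [e]
      exact ⟨thS_gate I G κ hA h4.le h5.le, fun X u => PS_gate I G κ hA h4.le h5.le X u⟩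

/-! ### The main theorem -/

/-- uniform bounds for an installation path and finitely many loops -/
theorem exists_unif {X0 X1 : ℝ} {ι : Type*} [Finite ι] (L : ι → Loop θ₀ P₀)
    (hI : ∀ τ ∈ Icc (0 : ℝ) 1, Datum X0 X1 (I.th τ) (I.P τ))
    (hL : ∀ i, ∀ τ ∈ Icc (0 : ℝ) 1, ∀ k ∈ Icc (-1 : ℝ) 1,
      Datum X0 X1 ((L i).th τ k) ((L i).P τ k)) (K0 : ℝ) :
    ∃ K C : ℝ, 0 < K ∧ K0 ≤ K ∧ 0 ≤ C ∧ Bd I.T I.F K C ∧ ∀ i, Bd (L i).T (L i).F K C := by
  classical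
  have := Fintype.ofFinite ι
  obtain ⟨K1, C1, hK1, hB1⟩ := exists_Bd I.T_smooth I.F_smooth
    (fun c hc κ _ => (hI c hc).θ_pos) (fun p hp => (hI p.1 hp.1).P_pos _ _)
  have h2 : ∀ i, ∃ K C, 0 < K ∧ Bd (L i).T (L i).F K C := fun i =>
    exists_Bd (L i).T_smooth (L i).F_smooth
      (fun c hc κ hκ => (hL i c hc κ hκ).θ_pos) (fun p hp => (hL i p.1 hp.1 p.2.1 hp.2.1).P_pos _ _)
  choose K2 C2 hK2 hB2 using h2
  have hC1 := hB1.C_nonneg
  have hC2 : ∀ i, 0 ≤ C2 i := fun i => (hB2 i).C_nonneg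
  have s1 : 0 ≤ ∑ i, K2 i := Finset.sum_nonneg fun i _ => (hK2 i).le
  have s2 : 0 ≤ ∑ i, C2 i := Finset.sum_nonneg fun i _ => hC2 i
  refine ⟨K1 + ∑ i, K2 i + |K0|, C1 + ∑ i, C2 i, by positivity, ?_, by positivity, ?_, fun i => ?_⟩
  · linarith [le_abs_self K0]
  · exact hB1.mono hK1 (by linarith [abs_nonneg K0]) (by linarith)
  · have e1 : K2 i ≤ ∑ i, K2 i :=
      Finset.single_le_sum (f := K2) (fun i _ => (hK2 i).le) (Finset.mem_univ i)
    have e2 : C2 i ≤ ∑ i, C2 i :=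
      Finset.single_le_sum (f := C2) (fun i _ => hC2 i) (Finset.mem_univ i)
    exact (hB2 i).mono (hK2 i) (by linarith [abs_nonneg K0]) (by linarith)

/-- **Main theorem of the module.**  `K`, `C` depend only on the paths; `A0` also on `c`. -/
theorem exists_main {m : ℕ} {μ sI δ X0 X1 : ℝ} (hμ : 0 ≤ μ) (hsI : 0 < sI) (hδ : 0 < δ)
    (h0 : 0 < X0) (h01 : X0 < X1) (h1 : X1 < 1)
    {ι : Type*} [Finite ι] (L : ι → Loop θ₀ P₀)
    (hI : ∀ τ ∈ Icc (0 : ℝ) 1, Datum X0 X1 (I.th τ) (I.P τ))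
    (hL : ∀ i, ∀ τ ∈ Icc (0 : ℝ) 1, ∀ k ∈ Icc (-1 : ℝ) 1,
      Datum X0 X1 ((L i).th τ k) ((L i).P τ k))
    (cI : ∀ τ ∈ Icc (0 : ℝ) 1, ConeS m (cst m μ (sI - δ) (I.th τ)) (I.th τ) (I.P τ))
    (cL : ∀ i, ∀ τ ∈ Icc (0 : ℝ) 1, ∀ k ∈ Icc (-1 : ℝ) 1,
      ConeS m (cst m μ (sI - δ) ((L i).th τ k)) ((L i).th τ k) ((L i).P τ k)) :
    ∃ K C : ℝ, 1 ≤ K ∧ 0 ≤ C ∧ ∀ c : ℝ, 0 < c → ∃ A0 : ℝ, 1 ≤ A0 ∧ ∀ A : ℝ, A0 ≤ A →
      ∀ (j : ℕ → ι) (κ : ℕ → ℝ), (∀ q, κ q ∈ Icc (-1 : ℝ) 1) →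
        Geo.Fam (sf sI) (thS A I (fun q => L (j q)) κ) (PS A I (fun q => L (j q)) κ) 0 X0 X1 ∧
        (∀ t, Geo.RateAt (sf sI) (thS A I (fun q => L (j q)) κ)
          (PS A I (fun q => L (j q)) κ) K (C / A) t) ∧
        (∀ t, A ≤ t → Geo.DefPhase m (sf sI) (thS A I (fun q => L (j q)) κ)
          (PS A I (fun q => L (j q)) κ) K μ c t) ∧
        (∀ t, t < A → Geo.RoundPhase (sf sI) (thS A I (fun q => L (j q)) κ)
          (PS A I (fun q => L (j q)) κ) t) := by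
  obtain ⟨K, C, hK, hK0, hC, bI, bL⟩ := exists_unif I L hI hL (max sI 1)
  refine ⟨K, C, (le_max_right _ _).trans hK0, hC, fun c hc => ?_⟩
  obtain ⟨A0, hA0, hmain⟩ := exists_A hsI hc C hδ
  refine ⟨A0, hA0, fun A hA j κ hκ => ?_⟩
  obtain ⟨hs1, hs2, hs3⟩ := hmain A hA
  have hA1 : 1 ≤ A := hA0.trans hA
  have hAp : 0 < A := by linarith
  have hsabs : ∀ t, |sf sI t| ≤ K := fun t => by
    rw [abs_of_nonneg (sf_nonneg hsI t)]
    exact (sf_lt hsI t).le.trans ((le_max_left _ _).trans hK0)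
  have hfam := fam I (fun q => L (j q)) κ (sI := sI) h0 h01 h1 hAp hκ hI (fun q => hL (j q))
  -- rates with an explicit slope
  have hrate : ∀ t, ∃ σ, 0 ≤ σ ∧ σ ≤ 1 / A ∧ (σ = 0 ∨ (A ≤ t ∧ t ≤ 2 * A ∧ σ = 1 / A) ∨
      ∃ q, A ≤ t ∧ t ≤ hs A (q + 1) ∧ σ = 1 / Tg A q) ∧
      Geo.RateAt (sf sI) (thS A I (fun q => L (j q)) κ)
        (PS A I (fun q => L (j q)) κ) K (C * σ) t := by
    intro t
    obtain ⟨c', hc', σ, hσ0, hσ1, hσ2, hr⟩ := rep_all I (fun q => L (j q)) κ hAp t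
    have hσ : σ ∈ Icc (0 : ℝ) 1 := ⟨hσ0, hσ1.trans ((div_le_one hAp).2 hA1)⟩
    refine ⟨σ, hσ0, hσ1, hσ2, ?_⟩
    rcases hr with hr | ⟨q, hr⟩
    · exact hr.rateAt I.T_smooth I.F_smooth bI (hsabs t) hc' ⟨by norm_num, by norm_num⟩ hσ
    · exact hr.rateAt (L (j q)).T_smooth (L (j q)).F_smooth (bL (j q)) (hsabs t) hc' (hκ q) hσ
  refine ⟨hfam, fun t => ?_, fun t ht => ?_, fun t ht => ?_⟩
  · obtain ⟨σ, hσ0, hσ1, _, hR⟩ := hrate t
    have hle : C * σ ≤ C / A := by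
      rw [div_eq_mul_one_div]; exact mul_le_mul_of_nonneg_left hσ1 hC
    exact
      { hR with
        θ_t := hR.θ_t.trans hle
        θ_tt := hR.θ_tt.trans hle
        P_t := fun X φ h0 h1 => (hR.P_t X φ h0 h1).trans hle
        P_tt := fun X φ h0 h1 => (hR.P_tt X φ h0 h1).trans hle
        P_tX := fun X φ h0 h1 => (hR.P_tX X φ h0 h1).trans hle
        P_tφ := fun X φ h0 h1 => (hR.P_tφ X φ h0 h1).trans hle }
  · obtain ⟨σ, hσ0, hσ1, hσ2, hR⟩ := hrate t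
    have hcone := forall_datum I (fun q => L (j q)) κ hAp hκ
      (D := fun θ P => 0 < θ ∧ ConeS m (cst m μ (sI - δ) θ) θ P)
      (fun τ hτ => ⟨(hI τ hτ).θ_pos, cI τ hτ⟩)
      (fun q τ hτ k hk => ⟨(hL (j q) τ hτ k hk).θ_pos, cL (j q) τ hτ k hk⟩) t
    refine
      { cone := coneAt_of_coneS hcone.2 ?_
        rate := ⟨C * σ, mul_nonneg hC hσ0, ?_, hR⟩
        s1_nonneg := deriv_sf_nonneg hsI t
        s1_le := (hs1 t ht).2.1
        s2 := (hs1 t ht).2.2 }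
    · unfold Geo.lamSq cst
      have hm : (0 : ℝ) ≤ (m + 1) * (1 + μ) := by positivity
      refine mul_le_mul_of_nonneg_left ?_ hm
      refine mul_le_mul_of_nonneg_right ?_ (Real.rpow_nonneg hcone.1.le _)
      exact Real.exp_le_exp.2 (by linarith [(hs1 t ht).1])
    · rcases hσ2 with h | ⟨_, h5, h6⟩ | ⟨q, _, h5, h6⟩
      · rw [h]
        simp only [mul_zero, ne_eq, OfNat.ofNat_ne_zero, not_false_eq_true, zero_pow]
        exact mul_nonneg hc.le (deriv_sf_nonneg hsI t)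
      · rw [h6, mul_one_div]; exact hs2 t ht h5
      · rw [h6, mul_one_div]; exact hs3 q t ht h5
  · refine ⟨⟨A, ht, fun τ hτ => thS_round I _ κ hAp hτ, fun τ hτ X u => PS_round I _ κ hAp hτ X u⟩,
      sf_nonneg hsI t, deriv_sf_nonneg hsI t, deriv_sf_le hsI t, ?_⟩
    rcases le_or_gt t 0 with h | h
    · have h1 : deriv (sf sI) t = 0 := by
        rw [deriv_sf]
        simp only [fw_zero h, mul_zero]
      have h2 : 0 ≤ deriv (deriv (sf sI)) t := by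
        rw [deriv2_sf]
        have h3 := deriv_st_nonneg t
        have h4 : Real.smoothTransition t = 0 := Real.smoothTransition.zero_of_nonpos h
        rw [h4]
        have := gw_pos (aw sI) t
        have := lw_pos hsI
        simp only [zero_mul, add_zero]
        positivity
      rw [h1]; simpa using h2
    · have h2 := deriv2_sf_ge hsI h
      have h3 := deriv_sf_nonneg hsI t
      linarith

end

end Crest.Agent.R202.Sch
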