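import Crest.Agent.R202.SchPath
import Crest.Agent.R202.GeoHyp

/-! # Row 202, module SCH, part 3: rates and jet bounds (helper821)

For jointly smooth `th (τ, κ)`, `P (τ, κ, X, u)` the derivatives entering `Geo.RateAt` are bounded
uniformly for `τ ∈ [0,1]`, `κ ∈ [-1,1]`, `X ∈ [0,1]`, `|u| = 1`; running through the data with slope
`σ ≤ 1` multiplies the time derivatives by `σ`.
-/

set_option autoImplicit false

open MeasureTheory Set Filter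
open scoped Topology ContDiff

namespace Crest.Agent.R202.Sch

noncomputable section

/-! ### Partial derivatives of functions on `ℝ × ℝ × ℝ × ℂ` -/

/-- the parameter space `(τ, κ, X, u)` -/
abbrev E4 := ℝ × ℝ × ℝ × ℂ

/-- `∂/∂τ` -/
def pT (F : E4 → ℝ) (p : E4) : ℝ := fderiv ℝ F p (1, 0, 0, 0)

/-- `∂/∂X` -/
def pX (F : E4 → ℝ) (p : E4) : ℝ := fderiv ℝ F p (0, 0, 1, 0)

/-- `∂/∂φ` for `u = e^{iφ}` -/
def pF (F : E4 → ℝ) (p : E4) : ℝ := fderiv ℝ F p (0, 0, 0, Complex.I * p.2.2.2)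

theorem pT_smooth {F : E4 → ℝ} (h : ContDiff ℝ ∞ F) : ContDiff ℝ ∞ (pT F) :=
  (h.fderiv_right (m := ∞) (by norm_num)).clm_apply contDiff_const

theorem pX_smooth {F : E4 → ℝ} (h : ContDiff ℝ ∞ F) : ContDiff ℝ ∞ (pX F) :=
  (h.fderiv_right (m := ∞) (by norm_num)).clm_apply contDiff_const

theorem pF_smooth {F : E4 → ℝ} (h : ContDiff ℝ ∞ F) : ContDiff ℝ ∞ (pF F) := by
  refine (h.fderiv_right (m := ∞) (by norm_num)).clm_apply ?_
  refine contDiff_const.prodMk (contDiff_const.prodMk (contDiff_const.prodMk ?_))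
  exact contDiff_const.mul (contDiff_snd.comp (contDiff_snd.comp contDiff_snd))

theorem hasDerivAt_line {F : E4 → ℝ} (h : ContDiff ℝ ∞ F) {g : ℝ → E4} {g' : E4} {t : ℝ}
    (hg : HasDerivAt g g' t) : HasDerivAt (fun s => F (g s)) (fderiv ℝ F (g t) g') t :=
  ((h.differentiable (by norm_num)) (g t)).hasFDerivAt.comp_hasDerivAt t hg

/-- `e^{iφ}` -/
def ee (φ : ℝ) : ℂ := Complex.exp ((φ : ℂ) * Complex.I)

theorem hasDerivAt_ee (φ : ℝ) : HasDerivAt ee (Complex.I * ee φ) φ := by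
  have h1 : HasDerivAt (fun φ : ℝ => (φ : ℂ) * Complex.I) (1 * Complex.I) φ :=
    (Complex.ofRealCLM.hasDerivAt (x := φ)).mul_const Complex.I
  have h2 := h1.cexp
  unfold ee
  convert h2 using 1
  ring

theorem norm_ee (φ : ℝ) : ‖ee φ‖ = 1 := Complex.norm_exp_ofReal_mul_I φ

theorem deriv_tau {F : E4 → ℝ} (h : ContDiff ℝ ∞ F) (c σ t κ X : ℝ) (u : ℂ) (t' : ℝ) :
    deriv (fun s : ℝ => F (c + σ * (s - t), κ, X, u)) t' = σ * pT F (c + σ * (t' - t), κ, X, u) := by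
  have hg : HasDerivAt (fun s : ℝ => ((c + σ * (s - t), κ, X, u) : E4)) (σ • (1, 0, 0, 0)) t' := by
    have h1 : HasDerivAt (fun s : ℝ => c + σ * (s - t)) σ t' := by
      have := ((((hasDerivAt_id t').sub_const t).const_mul σ).const_add c)
      simpa using this
    have h2 := h1.prodMk (hasDerivAt_const t' ((κ, X, u) : ℝ × ℝ × ℂ))
    convert h2 using 1
    simp [Prod.smul_mk]
  have := (hasDerivAt_line h hg).deriv
  rw [this, map_smul, smul_eq_mul]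
  rfl

theorem deriv_XX {F : E4 → ℝ} (h : ContDiff ℝ ∞ F) (τ κ X : ℝ) (u : ℂ) :
    deriv (fun Y : ℝ => F (τ, κ, Y, u)) X = pX F (τ, κ, X, u) := by
  have hg : HasDerivAt (fun s : ℝ => ((τ, κ, s, u) : E4)) (0, 0, 1, 0) X :=
    (hasDerivAt_const X τ).prodMk ((hasDerivAt_const X κ).prodMk
      ((hasDerivAt_id X).prodMk (hasDerivAt_const X u)))
  exact (hasDerivAt_line h hg).deriv

theorem deriv_phi {F : E4 → ℝ} (h : ContDiff ℝ ∞ F) (τ κ X φ : ℝ) :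
    deriv (fun ψ : ℝ => F (τ, κ, X, ee ψ)) φ = pF F (τ, κ, X, ee φ) := by
  have hg : HasDerivAt (fun s : ℝ => ((τ, κ, X, ee s) : E4)) (0, 0, 0, Complex.I * ee φ) φ :=
    (hasDerivAt_const φ τ).prodMk ((hasDerivAt_const φ κ).prodMk
      ((hasDerivAt_const φ X).prodMk (hasDerivAt_ee φ)))
  exact (hasDerivAt_line h hg).deriv

/-! ### Uniform bounds -/

/-- the compact set of parameters -/
def S4 : Set E4 := Icc (0 : ℝ) 1 ×ˢ Icc (-1 : ℝ) 1 ×ˢ Icc (0 : ℝ) 1 ×ˢ Metric.sphere (0 : ℂ) 1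

theorem isCompact_S4 : IsCompact S4 :=
  isCompact_Icc.prod (isCompact_Icc.prod (isCompact_Icc.prod (isCompact_sphere _ _)))

theorem mem_S4 {c κ X φ : ℝ} (hc : c ∈ Icc (0 : ℝ) 1) (hκ : κ ∈ Icc (-1 : ℝ) 1)
    (h0 : 0 < X) (h1 : X < 1) : ((c, κ, X, ee φ) : E4) ∈ S4 :=
  ⟨hc, hκ, ⟨h0.le, h1.le⟩, by simp [norm_ee]⟩

/-- bounds `C` for the `τ`-derivatives, `K` for the data themselves -/
structure Bd (th : ℝ × ℝ → ℝ) (F : E4 → ℝ) (K C : ℝ) : Prop where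
  C_nonneg : 0 ≤ C
  th_low : ∀ c ∈ Icc (0 : ℝ) 1, ∀ κ ∈ Icc (-1 : ℝ) 1, K⁻¹ ≤ th (c, κ)
  low : ∀ p ∈ S4, K⁻¹ ≤ F p
  up : ∀ p ∈ S4, F p ≤ K
  bX : ∀ p ∈ S4, |pX F p| ≤ K
  bF : ∀ p ∈ S4, |pF F p| ≤ K
  th1 : ∀ c ∈ Icc (0 : ℝ) 1, ∀ κ ∈ Icc (-1 : ℝ) 1, |deriv (fun s => th (s, κ)) c| ≤ C
  th2 : ∀ c ∈ Icc (0 : ℝ) 1, ∀ κ ∈ Icc (-1 : ℝ) 1,
    |deriv (deriv (fun s => th (s, κ))) c| ≤ C
  bT : ∀ p ∈ S4, |pT F p| ≤ C
  bTT : ∀ p ∈ S4, |pT (pT F) p| ≤ C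
  bXT : ∀ p ∈ S4, |pX (pT F) p| ≤ C
  bFT : ∀ p ∈ S4, |pF (pT F) p| ≤ C

theorem Bd.mono {th : ℝ × ℝ → ℝ} {F : E4 → ℝ} {K C K' C' : ℝ} (h : Bd th F K C) (hK : 0 < K)
    (hK' : K ≤ K') (hC' : C ≤ C') : Bd th F K' C' where
  C_nonneg := h.C_nonneg.trans hC'
  th_low c hc κ hκ := (inv_anti₀ hK hK').trans (h.th_low c hc κ hκ)
  low p hp := (inv_anti₀ hK hK').trans (h.low p hp)
  up p hp := (h.up p hp).trans hK'
  bX p hp := (h.bX p hp).trans hK'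
  bF p hp := (h.bF p hp).trans hK'
  th1 c hc κ hκ := (h.th1 c hc κ hκ).trans hC'
  th2 c hc κ hκ := (h.th2 c hc κ hκ).trans hC'
  bT p hp := (h.bT p hp).trans hC'
  bTT p hp := (h.bTT p hp).trans hC'
  bXT p hp := (h.bXT p hp).trans hC'
  bFT p hp := (h.bFT p hp).trans hC'

/-- first `τ`-derivative of `th` as a smooth function -/
theorem th_deriv {th : ℝ × ℝ → ℝ} (h : ContDiff ℝ ∞ th) (κ c : ℝ) :
    deriv (fun s => th (s, κ)) c = fderiv ℝ th (c, κ) (1, 0) := by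
  have hg : HasDerivAt (fun s : ℝ => ((s, κ) : ℝ × ℝ)) (1, 0) c :=
    (hasDerivAt_id c).prodMk (hasDerivAt_const c κ)
  exact (((h.differentiable (by norm_num)) (c, κ)).hasFDerivAt.comp_hasDerivAt c hg).deriv

theorem th_deriv_smooth {th : ℝ × ℝ → ℝ} (h : ContDiff ℝ ∞ th) :
    ContDiff ℝ ∞ (fun p : ℝ × ℝ => fderiv ℝ th p (1, 0)) :=
  (h.fderiv_right (m := ∞) (by norm_num)).clm_apply contDiff_const

theorem bound_S4 {f : E4 → ℝ} (h : Continuous f) : ∃ C, ∀ p ∈ S4, |f p| ≤ C :=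
  isCompact_S4.exists_bound_of_continuousOn h.continuousOn

theorem bound_S2 {f : ℝ × ℝ → ℝ} (h : Continuous f) :
    ∃ C, ∀ c ∈ Icc (0 : ℝ) 1, ∀ κ ∈ Icc (-1 : ℝ) 1, |f (c, κ)| ≤ C := by
  obtain ⟨C, hC⟩ := (isCompact_Icc.prod isCompact_Icc :
    IsCompact (Icc (0 : ℝ) 1 ×ˢ Icc (-1 : ℝ) 1)).exists_bound_of_continuousOn h.continuousOn
  exact ⟨C, fun c hc κ hκ => hC (c, κ) ⟨hc, hκ⟩⟩

theorem exists_Bd {th : ℝ × ℝ → ℝ} {F : E4 → ℝ} (hth : ContDiff ℝ ∞ th) (hF : ContDiff ℝ ∞ F)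
    (hth0 : ∀ c ∈ Icc (0 : ℝ) 1, ∀ κ ∈ Icc (-1 : ℝ) 1, 0 < th (c, κ))
    (hF0 : ∀ p ∈ S4, 0 < F p) : ∃ K C, 0 < K ∧ Bd th F K C := by
  obtain ⟨k1, h1⟩ : ∃ C, ∀ c ∈ Icc (0 : ℝ) 1, ∀ κ ∈ Icc (-1 : ℝ) 1, (th (c, κ))⁻¹ ≤ C := by
    have hc : ContinuousOn (fun p : ℝ × ℝ => (th p)⁻¹) (Icc (0 : ℝ) 1 ×ˢ Icc (-1 : ℝ) 1) :=
      hth.continuous.continuousOn.inv₀ fun p hp => (hth0 p.1 hp.1 p.2 hp.2).ne'
    obtain ⟨C, hC⟩ := (isCompact_Icc.prod isCompact_Icc :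
      IsCompact (Icc (0 : ℝ) 1 ×ˢ Icc (-1 : ℝ) 1)).exists_bound_of_continuousOn hc
    exact ⟨C, fun c hc κ hκ => (le_abs_self _).trans (hC (c, κ) ⟨hc, hκ⟩)⟩
  obtain ⟨k2, h2⟩ : ∃ C, ∀ p ∈ S4, (F p)⁻¹ ≤ C := by
    have hc : ContinuousOn (fun p : E4 => (F p)⁻¹) S4 :=
      hF.continuous.continuousOn.inv₀ fun p hp => (hF0 p hp).ne'
    obtain ⟨C, hC⟩ := isCompact_S4.exists_bound_of_continuousOn hc
    exact ⟨C, fun p hp => (le_abs_self _).trans (hC p hp)⟩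
  obtain ⟨k3, h3⟩ := bound_S4 hF.continuous
  obtain ⟨k4, h4⟩ := bound_S4 (pX_smooth hF).continuous
  obtain ⟨k5, h5⟩ := bound_S4 (pF_smooth hF).continuous
  obtain ⟨c1, g1⟩ := bound_S2 (th_deriv_smooth hth).continuous
  obtain ⟨c2, g2⟩ := bound_S2 (th_deriv_smooth (th_deriv_smooth hth)).continuous
  obtain ⟨c3, g3⟩ := bound_S4 (pT_smooth hF).continuous
  obtain ⟨c4, g4⟩ := bound_S4 (pT_smooth (pT_smooth hF)).continuous
  obtain ⟨c5, g5⟩ := bound_S4 (pX_smooth (pT_smooth hF)).continuous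
  obtain ⟨c6, g6⟩ := bound_S4 (pF_smooth (pT_smooth hF)).continuous
  have H : ∀ x : ℝ, x ≤ |x| := le_abs_self
  have H0 : ∀ x : ℝ, 0 ≤ |x| := abs_nonneg
  refine ⟨1 + |k1| + |k2| + |k3| + |k4| + |k5|, |c1| + |c2| + |c3| + |c4| + |c5| + |c6|,
    by positivity, by positivity, ?_, ?_, ?_, ?_, ?_, ?_, ?_, ?_, ?_, ?_, ?_⟩
  · intro c hc κ hκ
    have h := hth0 c hc κ hκ
    rw [inv_le_comm₀ (by positivity) h]
    refine (h1 c hc κ hκ).trans ?_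
    linarith [H k1, H0 k2, H0 k3, H0 k4, H0 k5]
  · intro p hp
    rw [inv_le_comm₀ (by positivity) (hF0 p hp)]
    refine (h2 p hp).trans ?_
    linarith [H0 k1, H k2, H0 k3, H0 k4, H0 k5]
  · intro p hp
    refine (H _).trans ((h3 p hp).trans ?_)
    linarith [H0 k1, H0 k2, H k3, H0 k4, H0 k5]
  · intro p hp
    refine (h4 p hp).trans ?_
    linarith [H0 k1, H0 k2, H0 k3, H k4, H0 k5]
  · intro p hp
    refine (h5 p hp).trans ?_
    linarith [H0 k1, H0 k2, H0 k3, H0 k4, H k5]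
  · intro c hc κ hκ
    rw [th_deriv hth]
    refine (g1 c hc κ hκ).trans ?_
    linarith [H c1, H0 c2, H0 c3, H0 c4, H0 c5, H0 c6]
  · intro c hc κ hκ
    have e : deriv (fun s => th (s, κ)) = fun s => fderiv ℝ th (s, κ) (1, 0) := by
      funext s; exact th_deriv hth κ s
    rw [e, th_deriv (th_deriv_smooth hth)]
    refine (g2 c hc κ hκ).trans ?_
    linarith [H0 c1, H c2, H0 c3, H0 c4, H0 c5, H0 c6]
  · intro p hp
    refine (g3 p hp).trans ?_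
    linarith [H0 c1, H0 c2, H c3, H0 c4, H0 c5, H0 c6]
  · intro p hp
    refine (g4 p hp).trans ?_
    linarith [H0 c1, H0 c2, H0 c3, H c4, H0 c5, H0 c6]
  · intro p hp
    refine (g5 p hp).trans ?_
    linarith [H0 c1, H0 c2, H0 c3, H0 c4, H c5, H0 c6]
  · intro p hp
    refine (g6 p hp).trans ?_
    linarith [H0 c1, H0 c2, H0 c3, H0 c4, H0 c5, H c6]

/-! ### From a local representation to `Geo.RateAt` -/

/-- near `t` the data `θ, P` are `th, F` run with slope `σ` from the point `c`. -/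
def Rep (θ : ℝ → ℝ) (P : ℝ → ℝ → ℂ → ℝ) (t : ℝ) (th : ℝ × ℝ → ℝ) (F : E4 → ℝ) (κ c σ : ℝ) :
    Prop :=
  ∀ᶠ t' in 𝓝 t, θ t' = th (c + σ * (t' - t), κ) ∧
    ∀ X u, P t' X u = F (c + σ * (t' - t), κ, X, u)

variable {θ : ℝ → ℝ} {P : ℝ → ℝ → ℂ → ℝ} {t : ℝ} {th : ℝ × ℝ → ℝ} {F : E4 → ℝ} {κ c σ : ℝ}

theorem Rep.theta (h : Rep θ P t th F κ c σ) : θ t = th (c, κ) := by
  have := h.self_of_nhds.1
  simpa using this

theorem Rep.P_eq (h : Rep θ P t th F κ c σ) (X : ℝ) (u : ℂ) : P t X u = F (c, κ, X, u) := by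
  have := h.self_of_nhds.2 X u
  simpa using this

theorem Rep.dT_ev (h : Rep θ P t th F κ c σ) (hF : ContDiff ℝ ∞ F) :
    ∀ᶠ t' in 𝓝 t, ∀ X φ, Geo.dT (Geo.PP P) t' X φ =
      σ * pT F (c + σ * (t' - t), κ, X, ee φ) := by
  filter_upwards [h.eventually_nhds] with t' ht' X φ
  have e : (fun τ => Geo.PP P τ X φ) =ᶠ[𝓝 t'] fun s => F (c + σ * (s - t), κ, X, ee φ) := by
    filter_upwards [ht'] with s hs
    exact hs.2 X _
  unfold Geo.dT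
  rw [e.deriv_eq, deriv_tau hF]

theorem Rep.dT_eq (h : Rep θ P t th F κ c σ) (hF : ContDiff ℝ ∞ F) (X φ : ℝ) :
    Geo.dT (Geo.PP P) t X φ = σ * pT F (c, κ, X, ee φ) := by
  have := (h.dT_ev hF).self_of_nhds X φ
  simpa using this

theorem Rep.dTT_eq (h : Rep θ P t th F κ c σ) (hF : ContDiff ℝ ∞ F) (X φ : ℝ) :
    Geo.dT (Geo.dT (Geo.PP P)) t X φ = σ ^ 2 * pT (pT F) (c, κ, X, ee φ) := by
  have e : (fun τ => Geo.dT (Geo.PP P) τ X φ) =ᶠ[𝓝 t]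
      fun s => σ * pT F (c + σ * (s - t), κ, X, ee φ) := by
    filter_upwards [h.dT_ev hF] with s hs
    exact hs X φ
  have e2 : Geo.dT (Geo.dT (Geo.PP P)) t X φ = deriv (fun τ => Geo.dT (Geo.PP P) τ X φ) t := rfl
  rw [e2, e.deriv_eq, deriv_const_mul_field, deriv_tau (pT_smooth hF)]
  simp
  ring

theorem Rep.dXT_eq (h : Rep θ P t th F κ c σ) (hF : ContDiff ℝ ∞ F) (X φ : ℝ) :
    Geo.dX (Geo.dT (Geo.PP P)) t X φ = σ * pX (pT F) (c, κ, X, ee φ) := by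
  have e : (fun Y => Geo.dT (Geo.PP P) t Y φ) = fun Y => σ * pT F (c, κ, Y, ee φ) := by
    funext Y; exact h.dT_eq hF Y φ
  have e2 : Geo.dX (Geo.dT (Geo.PP P)) t X φ = deriv (fun Y => Geo.dT (Geo.PP P) t Y φ) X := rfl
  rw [e2, e, deriv_const_mul_field, deriv_XX (pT_smooth hF)]

theorem Rep.dFT_eq (h : Rep θ P t th F κ c σ) (hF : ContDiff ℝ ∞ F) (X φ : ℝ) :
    Geo.dF (Geo.dT (Geo.PP P)) t X φ = σ * pF (pT F) (c, κ, X, ee φ) := by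
  have e : (fun ψ => Geo.dT (Geo.PP P) t X ψ) = fun ψ => σ * pT F (c, κ, X, ee ψ) := by
    funext ψ; exact h.dT_eq hF X ψ
  have e2 : Geo.dF (Geo.dT (Geo.PP P)) t X φ = deriv (fun ψ => Geo.dT (Geo.PP P) t X ψ) φ := rfl
  rw [e2, e, deriv_const_mul_field, deriv_phi (pT_smooth hF)]

theorem Rep.dX_eq (h : Rep θ P t th F κ c σ) (hF : ContDiff ℝ ∞ F) (X φ : ℝ) :
    Geo.dX (Geo.PP P) t X φ = pX F (c, κ, X, ee φ) := by
  have e : (fun Y => Geo.PP P t Y φ) = fun Y => F (c, κ, Y, ee φ) := by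
    funext Y; exact h.P_eq Y _
  have e2 : Geo.dX (Geo.PP P) t X φ = deriv (fun Y => Geo.PP P t Y φ) X := rfl
  rw [e2, e, deriv_XX hF]

theorem Rep.dF_eq (h : Rep θ P t th F κ c σ) (hF : ContDiff ℝ ∞ F) (X φ : ℝ) :
    Geo.dF (Geo.PP P) t X φ = pF F (c, κ, X, ee φ) := by
  have e : (fun ψ => Geo.PP P t X ψ) = fun ψ => F (c, κ, X, ee ψ) := by
    funext ψ; exact h.P_eq X _
  have e2 : Geo.dF (Geo.PP P) t X φ = deriv (fun ψ => Geo.PP P t X ψ) φ := rfl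
  rw [e2, e, deriv_phi hF]

theorem deriv_affine {f : ℝ → ℝ} (hf : Differentiable ℝ f) (c σ t t' : ℝ) :
    deriv (fun s => f (c + σ * (s - t))) t' = σ * deriv f (c + σ * (t' - t)) := by
  have h1 : HasDerivAt (fun s : ℝ => c + σ * (s - t)) σ t' := by
    have := ((((hasDerivAt_id t').sub_const t).const_mul σ).const_add c)
    simpa using this
  have := ((hf (c + σ * (t' - t))).hasDerivAt.comp t' h1).deriv
  rw [mul_comm]
  exact this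

theorem Rep.th1_eq (h : Rep θ P t th F κ c σ) (hth : ContDiff ℝ ∞ th) :
    deriv θ t = σ * deriv (fun s => th (s, κ)) c := by
  have hs : ContDiff ℝ ∞ (fun s : ℝ => th (s, κ)) := hth.comp (contDiff_id.prodMk contDiff_const)
  have e : θ =ᶠ[𝓝 t] fun s => (fun s => th (s, κ)) (c + σ * (s - t)) := by
    filter_upwards [h] with s hs
    exact hs.1
  rw [e.deriv_eq, deriv_affine (hs.differentiable (by norm_num))]
  simp

theorem Rep.th2_eq (h : Rep θ P t th F κ c σ) (hth : ContDiff ℝ ∞ th) :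
    deriv (deriv θ) t = σ ^ 2 * deriv (deriv (fun s => th (s, κ))) c := by
  have hs : ContDiff ℝ ∞ (fun s : ℝ => th (s, κ)) := hth.comp (contDiff_id.prodMk contDiff_const)
  have hs' : ContDiff ℝ ∞ (deriv (fun s : ℝ => th (s, κ))) :=
    (contDiff_succ_iff_deriv (n := ∞).1 (by simpa using hs)).2.2
  have e : deriv θ =ᶠ[𝓝 t] fun s => σ * (deriv (fun s => th (s, κ))) (c + σ * (s - t)) := by
    filter_upwards [h.eventually_nhds] with s hs1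
    have e : θ =ᶠ[𝓝 s] fun s => (fun s => th (s, κ)) (c + σ * (s - t)) := by
      filter_upwards [hs1] with s hs
      exact hs.1
    rw [e.deriv_eq, deriv_affine (hs.differentiable (by norm_num))]
  rw [e.deriv_eq, deriv_const_mul_field, deriv_affine (hs'.differentiable (by norm_num))]
  simp
  ring

/-- THE RATES -/
theorem Rep.rateAt {s : ℝ → ℝ} {K C : ℝ} (h : Rep θ P t th F κ c σ) (hth : ContDiff ℝ ∞ th)
    (hF : ContDiff ℝ ∞ F) (hB : Bd th F K C) (hs : |s t| ≤ K)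
    (hc : c ∈ Icc (0 : ℝ) 1) (hκ : κ ∈ Icc (-1 : ℝ) 1) (hσ : σ ∈ Icc (0 : ℝ) 1) :
    Geo.RateAt s θ P K (C * σ) t := by
  have hC := hB.C_nonneg
  have hσ2 : σ ^ 2 ≤ σ := by nlinarith [hσ.1, hσ.2]
  have b1 : ∀ x, |x| ≤ C → |σ * x| ≤ C * σ := by
    intro x hx
    rw [abs_mul, abs_of_nonneg hσ.1, mul_comm]
    exact mul_le_mul_of_nonneg_right hx hσ.1
  have b2 : ∀ x, |x| ≤ C → |σ ^ 2 * x| ≤ C * σ := by
    intro x hx
    rw [abs_mul, abs_of_nonneg (sq_nonneg σ), mul_comm]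
    exact (mul_le_mul_of_nonneg_right hx (sq_nonneg σ)).trans
      (mul_le_mul_of_nonneg_left hσ2 hC)
  constructor
  · rw [h.theta]; exact hB.th_low c hc κ hκ
  · exact hs
  · intro X φ h0 h1
    unfold Geo.PP
    rw [h.P_eq]; exact hB.low _ (mem_S4 hc hκ h0 h1)
  · intro X φ h0 h1
    unfold Geo.PP
    rw [h.P_eq]; exact hB.up _ (mem_S4 hc hκ h0 h1)
  · intro X φ h0 h1
    rw [h.dX_eq hF]; exact hB.bX _ (mem_S4 hc hκ h0 h1)
  · intro X φ h0 h1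
    rw [h.dF_eq hF]; exact hB.bF _ (mem_S4 hc hκ h0 h1)
  · rw [h.th1_eq hth]; exact b1 _ (hB.th1 c hc κ hκ)
  · rw [h.th2_eq hth]; exact b2 _ (hB.th2 c hc κ hκ)
  · intro X φ h0 h1
    rw [h.dT_eq hF]; exact b1 _ (hB.bT _ (mem_S4 hc hκ h0 h1))
  · intro X φ h0 h1
    rw [h.dTT_eq hF]; exact b2 _ (hB.bTT _ (mem_S4 hc hκ h0 h1))
  · intro X φ h0 h1
    rw [h.dXT_eq hF]; exact b1 _ (hB.bXT _ (mem_S4 hc hκ h0 h1))
  · intro X φ h0 h1
    rw [h.dFT_eq hF]; exact b1 _ (hB.bFT _ (mem_S4 hc hκ h0 h1))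

end

end Crest.Agent.R202.Sch
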