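import Mathlib
import Crest.Agent.R202.SchGeo
import Crest.Agent.R202.Prof5

/-!
Row 202 (helper523): the geometric half of the construction in final form: profile (helper912),
schedule (helper821), geometry; order of choices `η0, ε0`, loops, `ε`, `h, X1`, `A0`, `A`, `κ`.
-/

set_option autoImplicit false

open scoped ContDiff
open Set Filter Topology
open Crest.GeometryTopology.CoordMetric

namespace Crest.Agent.R202.Sch

open Geo

/-- the numbers `μ, δ, e` -/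
theorem exists_numbers {m : ℕ} {v b1 : ℝ} (hv : 0 < v) (hb1 : 0 < b1) (hvb : v * b1 < 1) :
    ∃ μ δ e : ℝ, 0 < μ ∧ 0 < δ ∧ 0 < e ∧
      (1 + μ) * Real.exp (-2 * (-Real.log v / ((m : ℝ) + 2) - δ))
        * b1 ^ ((2 : ℝ) / ((m : ℝ) + 2)) ≤ 1 - e := by
  have hM : (0 : ℝ) < (m : ℝ) + 2 := by positivity
  set w : ℝ := (v * b1) ^ ((2 : ℝ) / ((m : ℝ) + 2)) with hw
  have hw0 : 0 < w := Real.rpow_pos_of_pos (by positivity) _
  have hw1 : w < 1 := Real.rpow_lt_one (by positivity) hvb (by positivity)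
  set r : ℝ := Real.sqrt ((1 + w) / (2 * w)) with hr
  have hr2 : r ^ 2 = (1 + w) / (2 * w) := Real.sq_sqrt (by positivity)
  have hr1 : 1 < r := by
    rw [hr, Real.lt_sqrt (by norm_num), one_pow, lt_div_iff₀ (by positivity)]
    linarith
  refine ⟨r - 1, Real.log r / 2, (1 - w) / 2, by linarith, ?_, by linarith, ?_⟩
  · have := Real.log_pos hr1
    linarith
  · have hr0 : 0 < r := by linarith
    have e1 : Real.exp (-2 * (-Real.log v / ((m : ℝ) + 2) - Real.log r / 2))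
        = v ^ ((2 : ℝ) / ((m : ℝ) + 2)) * r := by
      have : -2 * (-Real.log v / ((m : ℝ) + 2) - Real.log r / 2)
          = Real.log v * (2 / ((m : ℝ) + 2)) + Real.log r := by ring
      rw [this, Real.exp_add, Real.exp_log hr0, Real.rpow_def_of_pos hv]
    rw [e1]
    have e2 : (1 + (r - 1)) * (v ^ ((2 : ℝ) / ((m : ℝ) + 2)) * r) * b1 ^ ((2 : ℝ) / ((m : ℝ) + 2))
        = r ^ 2 * w := by
      rw [hw, Real.mul_rpow hv.le hb1.le]; ring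
    rw [e2, hr2]
    apply le_of_eq
    field_simp
    ring

/-- **The geometric half, final form.** -/
theorem geo_top {m : ℕ} (hR : RicThm m) {v b0 b1 X0 Xa Xb : ℝ} (hv : 0 < v) (hv1 : v < 1)
    (hvb : v * b1 < 1) (hb0 : 1 ≤ b0) (hb01 : b0 ≤ b1) (hX0 : 0 < X0) (h0a : X0 < Xa)
    (hab : Xa ≤ Xb) (hXb : Xb < 1) :
    ∃ ε0 > 0, ∃ η0 > 0, ∀ {ι : Type} [Finite ι] (L : ι → YLoop b0 b1 Xa Xb),
      (∀ i, ∀ τ ∈ Icc (0 : ℝ) 1, ∀ k ∈ Icc (-1 : ℝ) 1,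
        R202.Prof.Small η0 Xa Xb (fun X u => (L i).Gh τ k X u)) →
      ∀ ε : ℝ, 0 < ε → ε ≤ ε0 → ∃ (h : ℝ → ℝ) (X1 : ℝ) (hp : Prof X0 X1 h),
        Xb < X1 ∧ X1 < 1 ∧ (∀ X, 0 ≤ X → X ≤ 1 → (1 - X ^ 2) * h X ≤ ε) ∧
        ∃ K C : ℝ, 1 ≤ K ∧ 0 ≤ C ∧ ∃ A0 : ℝ, 1 ≤ A0 ∧ ∀ A : ℝ, A0 ≤ A →
          ∀ (j : ℕ → ι) (κ : ℕ → ℝ), (∀ q, κ q ∈ Icc (-1 : ℝ) 1) →
            (∀ N : ℕ, ∃ q, N ≤ q ∧ ∃ τ ∈ Icc (0 : ℝ) 1, b0 < (L (j q)).y τ) →
            Fam (sf (-Real.log v / ((m : ℝ) + 2))) (thY A hp hb0 L j κ) (PY A hp hb0 L j κ)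
              0 X0 X1 ∧
            (∀ t, RateAt (sf (-Real.log v / ((m : ℝ) + 2))) (thY A hp hb0 L j κ)
              (PY A hp hb0 L j κ) K (C / A) t) ∧
            Main.GeoOut m v (gfam (sf (-Real.log v / ((m : ℝ) + 2))) (thY A hp hb0 L j κ)
              (PY A hp hb0 L j κ)) := by
  obtain ⟨μ, δ, e, hμ, hδ, he, hnum⟩ := exists_numbers (m := m) hv (by linarith : 0 < b1) hvb
  obtain ⟨ε0, hε0, η0, hη0, -, H⟩ := R202.Prof.exists_profile_cone m hX0 h0a hab hXb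
    (hb0.trans hb01) he
  refine ⟨ε0, hε0, η0, hη0, ?_⟩
  intro ι _ L hL ε hε hεle
  obtain ⟨h, X1, hbX1, hX1, hp, hsm, hT, hG⟩ := H ε hε hεle
  refine ⟨h, X1, hp, hbX1, hX1, hsm, ?_⟩
  exact sched_geoOut hR hμ hv hv1 hδ hX0 h0a hab hbX1 hX1 hp hb0 hnum L
    (fun y hy => hT y hy.1 (hy.2.trans hb01)) hb01
    (fun i τ hτ k hk => R202.Prof.coneS_loop hb0 hG (L i) (hL i τ hτ k hk))

end Crest.Agent.R202.Sch
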