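import Mathlib
import Crest.Agent.R202.SpinOde

/-!
# Row 202, PART C0: the two-variable model of one sector (helper98)

`(x, φ) ∈ (0,1) × (0,π)`, measure `x^d dx dφ`, `d = n - 3`; sector `(q, par)`, `par = true` is the
sine sector.  `Core q par u`: the admissible functions.  `ip`, `Qf`: L² product and Dirichlet form
of the cross-section with `b = 1/θ` and profile `P`.  `psi`: the spindle eigenfunctions.
-/

set_option autoImplicit false

open MeasureTheory Set Filter Topology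
open scoped Real

noncomputable section

namespace Crest.Agent.R202.Sec

/-- the domain `(0,1) × (0,π)` -/
def Om : Set (ℝ × ℝ) := Ioo (0 : ℝ) 1 ×ˢ Ioo (0 : ℝ) π

/-- `∫∫ f x^d dx dφ` -/
def I2 (d : ℕ) (f : ℝ → ℝ → ℝ) : ℝ := ∫ p in Om, f p.1 p.2 * p.1 ^ d

/-- partial derivative in `x` -/
def dx (u : ℝ → ℝ → ℝ) (x φ : ℝ) : ℝ := deriv (fun s => u s φ) x

/-- partial derivative in `φ` -/
def dp (u : ℝ → ℝ → ℝ) (x φ : ℝ) : ℝ := deriv (fun s => u x s) φ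

/-- admissible functions of the sector `(q, par)` -/
structure Core (q : ℕ) (par : Bool) (u : ℝ → ℝ → ℝ) : Prop where
  cd : ContDiffOn ℝ 1 (fun p : ℝ × ℝ => u p.1 p.2) (Ioo (0 : ℝ) 1 ×ˢ univ)
  bdd : ∃ C : ℝ, 0 ≤ C ∧ ∀ x ∈ Ioo (0 : ℝ) 1, ∀ φ : ℝ,
    |u x φ| ≤ C ∧ √(1 - x ^ 2) * |dx u x φ| ≤ C ∧ |dp u x φ| ≤ C * √(1 - x ^ 2) ∧
      (q ≠ 0 → |u x φ| ≤ C * x)
  par_zero : par = true → ∀ x ∈ Ioo (0 : ℝ) 1, u x 0 = 0 ∧ u x π = 0

/-- L² product -/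
def ip (d : ℕ) (u v : ℝ → ℝ → ℝ) : ℝ := I2 d fun x φ => u x φ * v x φ

/-- the integrand of the Dirichlet form -/
def qd (d q : ℕ) (b : ℝ) (P u v : ℝ → ℝ → ℝ) (x φ : ℝ) : ℝ :=
  P x φ * (1 - x ^ 2) * dx u x φ * dx v x φ +
    b ^ 2 * (P x φ * (1 - x ^ 2))⁻¹ * dp u x φ * dp v x φ +
    E0 d q * (x ^ 2)⁻¹ * u x φ * v x φ

/-- Dirichlet form of the cross-section: `b = 1/θ`, profile `P` (`F = (1-x²) P`) -/
def Qf (d q : ℕ) (b : ℝ) (P u v : ℝ → ℝ → ℝ) : ℝ := I2 d (qd d q b P u v)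

/-- the trigonometric factor: `cos (m φ)` or `sin (m φ)` -/
def trig (par : Bool) (m : ℕ) (φ : ℝ) : ℝ := if par then Real.sin (m * φ) else Real.cos (m * φ)

/-- its derivative -/
def dtrig (par : Bool) (m : ℕ) (φ : ℝ) : ℝ :=
  if par then m * Real.cos (m * φ) else -(m * Real.sin (m * φ))

/-- spindle eigenfunction with label `k = (m, j)`, `μ = b m` (not normalised) -/
def psi (d q : ℕ) (par : Bool) (b : ℝ) (k : ℕ × ℕ) (x φ : ℝ) : ℝ :=
  Rj d q (b * k.1) k.2 x * trig par k.1 φ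

/-- profiles with `K⁻¹ ≤ P ≤ K` -/
structure Prof (K : ℝ) (P : ℝ → ℝ → ℝ) : Prop where
  one_le : 1 ≤ K
  meas : Measurable (Function.uncurry P)
  low : ∀ x ∈ Ioo (0 : ℝ) 1, ∀ φ, K⁻¹ ≤ P x φ
  up : ∀ x ∈ Ioo (0 : ℝ) 1, ∀ φ, P x φ ≤ K

/-! ## calculus of core functions -/

theorem measurableSet_Om : MeasurableSet Om := measurableSet_Ioo.prod measurableSet_Ioo

theorem isOpen_strip : IsOpen (Ioo (0 : ℝ) 1 ×ˢ (univ : Set ℝ)) := isOpen_Ioo.prod isOpen_univ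

theorem Om_subset : Om ⊆ Ioo (0 : ℝ) 1 ×ˢ (univ : Set ℝ) := prod_mono_right (subset_univ _)

theorem volume_Om_lt_top : volume Om < ⊤ := by
  rw [Om, Measure.volume_eq_prod, Measure.prod_prod]
  simp only [Real.volume_Ioo]
  exact ENNReal.mul_lt_top ENNReal.ofReal_lt_top ENNReal.ofReal_lt_top

variable {q : ℕ} {par : Bool} {u v : ℝ → ℝ → ℝ}

theorem hasDerivAt_dx_of {u : ℝ → ℝ → ℝ}
    (hu : ContDiffOn ℝ 1 (fun p : ℝ × ℝ => u p.1 p.2) (Ioo (0 : ℝ) 1 ×ˢ univ))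
    {x : ℝ} (hx : x ∈ Ioo (0 : ℝ) 1) (φ : ℝ) :
    HasDerivAt (fun s => u s φ) (fderiv ℝ (fun p : ℝ × ℝ => u p.1 p.2) (x, φ) (1, 0)) x := by
  have h1 : DifferentiableAt ℝ (fun p : ℝ × ℝ => u p.1 p.2) (x, φ) :=
    (hu.differentiableOn one_ne_zero).differentiableAt (isOpen_strip.mem_nhds ⟨hx, mem_univ _⟩)
  have h2 : HasDerivAt (fun s : ℝ => (s, φ)) ((1 : ℝ), (0 : ℝ)) x :=
    (hasDerivAt_id x).prodMk (hasDerivAt_const x φ)
  exact h1.hasFDerivAt.comp_hasDerivAt x h2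

theorem hasDerivAt_dp_of {u : ℝ → ℝ → ℝ}
    (hu : ContDiffOn ℝ 1 (fun p : ℝ × ℝ => u p.1 p.2) (Ioo (0 : ℝ) 1 ×ˢ univ))
    {x : ℝ} (hx : x ∈ Ioo (0 : ℝ) 1) (φ : ℝ) :
    HasDerivAt (fun s => u x s) (fderiv ℝ (fun p : ℝ × ℝ => u p.1 p.2) (x, φ) (0, 1)) φ := by
  have h1 : DifferentiableAt ℝ (fun p : ℝ × ℝ => u p.1 p.2) (x, φ) :=
    (hu.differentiableOn one_ne_zero).differentiableAt (isOpen_strip.mem_nhds ⟨hx, mem_univ _⟩)
  have h2 : HasDerivAt (fun s : ℝ => (x, s)) ((0 : ℝ), (1 : ℝ)) φ :=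
    (hasDerivAt_const φ x).prodMk (hasDerivAt_id φ)
  exact h1.hasFDerivAt.comp_hasDerivAt φ h2

namespace Core

theorem hasDerivAt_x (hu : Core q par u) {x : ℝ} (hx : x ∈ Ioo (0 : ℝ) 1) (φ : ℝ) :
    HasDerivAt (fun s => u s φ) (dx u x φ) x := by
  have h := hasDerivAt_dx_of hu.cd hx φ
  rw [dx, h.deriv]; exact h

theorem hasDerivAt_p (hu : Core q par u) {x : ℝ} (hx : x ∈ Ioo (0 : ℝ) 1) (φ : ℝ) :
    HasDerivAt (fun s => u x s) (dp u x φ) φ := by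
  have h := hasDerivAt_dp_of hu.cd hx φ
  rw [dp, h.deriv]; exact h

theorem dx_eq (hu : Core q par u) {x : ℝ} (hx : x ∈ Ioo (0 : ℝ) 1) (φ : ℝ) :
    dx u x φ = fderiv ℝ (fun p : ℝ × ℝ => u p.1 p.2) (x, φ) (1, 0) :=
  (hasDerivAt_dx_of hu.cd hx φ).deriv

theorem dp_eq (hu : Core q par u) {x : ℝ} (hx : x ∈ Ioo (0 : ℝ) 1) (φ : ℝ) :
    dp u x φ = fderiv ℝ (fun p : ℝ × ℝ => u p.1 p.2) (x, φ) (0, 1) :=
  (hasDerivAt_dp_of hu.cd hx φ).deriv

theorem continuousOn (hu : Core q par u) :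
    ContinuousOn (fun p : ℝ × ℝ => u p.1 p.2) (Ioo (0 : ℝ) 1 ×ˢ univ) := hu.cd.continuousOn

theorem continuousOn_fderiv (hu : Core q par u) (w : ℝ × ℝ) :
    ContinuousOn (fun p : ℝ × ℝ => fderiv ℝ (fun p : ℝ × ℝ => u p.1 p.2) p w)
      (Ioo (0 : ℝ) 1 ×ˢ univ) :=
  (hu.cd.continuousOn_fderiv_of_isOpen isOpen_strip le_rfl).clm_apply continuousOn_const

theorem continuousOn_dx (hu : Core q par u) :
    ContinuousOn (fun p : ℝ × ℝ => dx u p.1 p.2) (Ioo (0 : ℝ) 1 ×ˢ univ) :=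
  (hu.continuousOn_fderiv (1, 0)).congr fun p hp => hu.dx_eq hp.1 p.2

theorem continuousOn_dp (hu : Core q par u) :
    ContinuousOn (fun p : ℝ × ℝ => dp u p.1 p.2) (Ioo (0 : ℝ) 1 ×ˢ univ) :=
  (hu.continuousOn_fderiv (0, 1)).congr fun p hp => hu.dp_eq hp.1 p.2

theorem aesm (hu : Core q par u) :
    AEStronglyMeasurable (fun p : ℝ × ℝ => u p.1 p.2) (volume.restrict Om) :=
  (hu.continuousOn.mono Om_subset).aestronglyMeasurable measurableSet_Om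

theorem aesm_dx (hu : Core q par u) :
    AEStronglyMeasurable (fun p : ℝ × ℝ => dx u p.1 p.2) (volume.restrict Om) :=
  (hu.continuousOn_dx.mono Om_subset).aestronglyMeasurable measurableSet_Om

theorem aesm_dp (hu : Core q par u) :
    AEStronglyMeasurable (fun p : ℝ × ℝ => dp u p.1 p.2) (volume.restrict Om) :=
  (hu.continuousOn_dp.mono Om_subset).aestronglyMeasurable measurableSet_Om

theorem dx_add (hu : Core q par u) (hv : Core q par v) {x : ℝ} (hx : x ∈ Ioo (0 : ℝ) 1) (φ : ℝ) :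
    dx (u + v) x φ = dx u x φ + dx v x φ :=
  ((hu.hasDerivAt_x hx φ).add (hv.hasDerivAt_x hx φ)).deriv

theorem dp_add (hu : Core q par u) (hv : Core q par v) {x : ℝ} (hx : x ∈ Ioo (0 : ℝ) 1) (φ : ℝ) :
    dp (u + v) x φ = dp u x φ + dp v x φ :=
  ((hu.hasDerivAt_p hx φ).add (hv.hasDerivAt_p hx φ)).deriv

theorem _root_.Crest.Agent.R202.Sec.dx_smul (c : ℝ) (u : ℝ → ℝ → ℝ) (x φ : ℝ) :
    dx (c • u) x φ = c * dx u x φ := by
  unfold dx
  exact deriv_const_mul_field (u := c) (v := fun s => u s φ)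

theorem _root_.Crest.Agent.R202.Sec.dp_smul (c : ℝ) (u : ℝ → ℝ → ℝ) (x φ : ℝ) :
    dp (c • u) x φ = c * dp u x φ := by
  unfold dp
  exact deriv_const_mul_field (u := c) (v := fun s => u x s)

theorem zero : Core q par 0 where
  cd := contDiffOn_const
  bdd := ⟨0, le_rfl, fun x _ φ => by simp [dx, dp]⟩
  par_zero := fun _ x _ => by simp

theorem add (hu : Core q par u) (hv : Core q par v) : Core q par (u + v) where
  cd := hu.cd.add hv.cd
  bdd := by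
    obtain ⟨C, hC, h⟩ := hu.bdd
    obtain ⟨D, hD, k⟩ := hv.bdd
    refine ⟨C + D, by positivity, fun x hx φ => ?_⟩
    obtain ⟨h1, h2, h3, h4⟩ := h x hx φ
    obtain ⟨k1, k2, k3, k4⟩ := k x hx φ
    refine ⟨(abs_add_le _ _).trans (add_le_add h1 k1), ?_, ?_, fun hq => ?_⟩
    · rw [hu.dx_add hv hx]
      calc √(1 - x ^ 2) * |dx u x φ + dx v x φ|
          ≤ √(1 - x ^ 2) * (|dx u x φ| + |dx v x φ|) := by gcongr; exact abs_add_le _ _
        _ = √(1 - x ^ 2) * |dx u x φ| + √(1 - x ^ 2) * |dx v x φ| := by ring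
        _ ≤ C + D := add_le_add h2 k2
    · rw [hu.dp_add hv hx]
      calc |dp u x φ + dp v x φ| ≤ |dp u x φ| + |dp v x φ| := abs_add_le _ _
        _ ≤ C * √(1 - x ^ 2) + D * √(1 - x ^ 2) := add_le_add h3 k3
        _ = (C + D) * √(1 - x ^ 2) := by ring
    · calc |(u + v) x φ| ≤ |u x φ| + |v x φ| := abs_add_le _ _
        _ ≤ C * x + D * x := add_le_add (h4 hq) (k4 hq)
        _ = (C + D) * x := by ring
  par_zero := fun hp x hx => by
    have h1 := hu.par_zero hp x hx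
    have h2 := hv.par_zero hp x hx
    simp [h1.1, h1.2, h2.1, h2.2]

theorem smul (hu : Core q par u) (c : ℝ) : Core q par (c • u) where
  cd := hu.cd.const_smul c
  bdd := by
    obtain ⟨C, hC, h⟩ := hu.bdd
    refine ⟨|c| * C, by positivity, fun x hx φ => ?_⟩
    obtain ⟨h1, h2, h3, h4⟩ := h x hx φ
    refine ⟨?_, ?_, ?_, fun hq => ?_⟩
    · show |c * u x φ| ≤ _
      rw [abs_mul]; gcongr
    · rw [dx_smul, abs_mul]
      calc √(1 - x ^ 2) * (|c| * |dx u x φ|) = |c| * (√(1 - x ^ 2) * |dx u x φ|) := by ring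
        _ ≤ |c| * C := by gcongr
    · rw [dp_smul, abs_mul, mul_assoc]; gcongr
    · show |c * u x φ| ≤ _
      rw [abs_mul, mul_assoc]; gcongr; exact h4 hq
  par_zero := fun hp x hx => by
    have h1 := hu.par_zero hp x hx
    simp [h1.1, h1.2]

end Core

/-- the space of admissible functions -/
def coreSub (q : ℕ) (par : Bool) : Submodule ℝ (ℝ → ℝ → ℝ) where
  carrier := {u | Core q par u}
  zero_mem' := Core.zero
  add_mem' := fun hu hv => hu.add hv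
  smul_mem' := fun c _ hu => hu.smul c

theorem mem_coreSub : u ∈ coreSub q par ↔ Core q par u := Iff.rfl

/-! ## integrability -/

theorem one_sub_sq_pos' {x : ℝ} (hx : x ∈ Ioo (0 : ℝ) 1) : 0 < 1 - x ^ 2 := by
  have := hx.1; have := hx.2; nlinarith

/-- bounded measurable functions are integrable on `Om` -/
theorem integrableOn_of_bdd {f : ℝ × ℝ → ℝ} {C : ℝ}
    (hf : AEStronglyMeasurable f (volume.restrict Om)) (hC : ∀ p ∈ Om, |f p| ≤ C) :
    IntegrableOn f Om := by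
  have : IsFiniteMeasure (volume.restrict Om) := ⟨by
    rw [Measure.restrict_apply_univ]; exact volume_Om_lt_top⟩
  refine Integrable.of_bound hf C ?_
  filter_upwards [ae_restrict_mem measurableSet_Om] with p hp
  simpa [Real.norm_eq_abs] using hC p hp

theorem aesm_pow (d : ℕ) : AEStronglyMeasurable (fun p : ℝ × ℝ => p.1 ^ d) (volume.restrict Om) :=
  (by fun_prop : Continuous fun p : ℝ × ℝ => p.1 ^ d).aestronglyMeasurable

theorem integrableOn_ip (d : ℕ) (hu : Core q par u) (hv : Core q par v) :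
    IntegrableOn (fun p : ℝ × ℝ => u p.1 p.2 * v p.1 p.2 * p.1 ^ d) Om := by
  obtain ⟨C, hC, h⟩ := hu.bdd
  obtain ⟨D, hD, k⟩ := hv.bdd
  refine integrableOn_of_bdd (C := C * D) ((hu.aesm.mul hv.aesm).mul (aesm_pow d)) fun p hp => ?_
  have h1 := (h p.1 hp.1 p.2).1
  have h2 := (k p.1 hp.1 p.2).1
  have h3 : |p.1 ^ d| ≤ 1 := by
    rw [abs_of_nonneg (pow_nonneg hp.1.1.le _)]
    exact pow_le_one₀ hp.1.1.le hp.1.2.le
  rw [abs_mul, abs_mul]
  calc |u p.1 p.2| * |v p.1 p.2| * |p.1 ^ d| ≤ C * D * 1 := by gcongr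
    _ = C * D := mul_one _

theorem E0_zero (d : ℕ) : E0 d 0 = 0 := by simp [E0]

/-- pointwise bound of the density of the form -/
theorem Core.qd_bound (d : ℕ) (hu : Core q par u) (hv : Core q par v) (b : ℝ) {K : ℝ} {P : ℝ → ℝ → ℝ}
    (hP : Prof K P) : ∃ C : ℝ, 0 ≤ C ∧ ∀ x ∈ Ioo (0 : ℝ) 1, ∀ φ, |qd d q b P u v x φ| ≤ C := by
  obtain ⟨C, hC, h⟩ := hu.bdd
  obtain ⟨D, hD, k⟩ := hv.bdd
  have hK : 0 < K := lt_of_lt_of_le one_pos hP.one_le
  have hE := E0_nonneg d q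
  refine ⟨K * (C * D) + b ^ 2 * K * (C * D) + E0 d q * (C * D), by positivity, fun x hx φ => ?_⟩
  obtain ⟨h1, h2, h3, h4⟩ := h x hx φ
  obtain ⟨k1, k2, k3, k4⟩ := k x hx φ
  have hF := one_sub_sq_pos' hx
  have hsp : 0 < √(1 - x ^ 2) := Real.sqrt_pos.2 hF
  have hs : √(1 - x ^ 2) * √(1 - x ^ 2) = 1 - x ^ 2 := Real.mul_self_sqrt hF.le
  generalize √(1 - x ^ 2) = s at h2 h3 k2 k3 hsp hs
  have hPl := hP.low x hx φ
  have hPu := hP.up x hx φ
  have hPp : 0 < P x φ := lt_of_lt_of_le (inv_pos.2 hK) hPl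
  have e1 : |P x φ * (1 - x ^ 2) * dx u x φ * dx v x φ| ≤ K * (C * D) := by
    have : P x φ * (1 - x ^ 2) * dx u x φ * dx v x φ =
        P x φ * ((s * dx u x φ) * (s * dx v x φ)) := by
      rw [← hs]; ring
    rw [this, abs_mul, abs_mul, abs_mul s, abs_mul s, abs_of_pos hPp, abs_of_pos hsp]
    gcongr
  have e2 : |b ^ 2 * (P x φ * (1 - x ^ 2))⁻¹ * dp u x φ * dp v x φ| ≤ b ^ 2 * K * (C * D) := by
    have h5 : |b ^ 2 * (P x φ * (1 - x ^ 2))⁻¹ * dp u x φ * dp v x φ| =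
        b ^ 2 * ((P x φ)⁻¹ * (1 - x ^ 2)⁻¹ * (|dp u x φ| * |dp v x φ|)) := by
      rw [mul_inv, abs_mul, abs_mul, abs_mul, abs_of_nonneg (sq_nonneg b),
        abs_of_pos (mul_pos (inv_pos.2 hPp) (inv_pos.2 hF))]
      ring
    rw [h5]
    have h6 : (P x φ)⁻¹ ≤ K := by
      rw [inv_le_comm₀ hPp hK]; exact hPl
    have h7 : |dp u x φ| * |dp v x φ| ≤ C * D * (1 - x ^ 2) := by
      calc |dp u x φ| * |dp v x φ| ≤ (C * s) * (D * s) := by gcongr
        _ = C * D * (1 - x ^ 2) := by rw [← hs]; ring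
    calc b ^ 2 * ((P x φ)⁻¹ * (1 - x ^ 2)⁻¹ * (|dp u x φ| * |dp v x φ|))
        ≤ b ^ 2 * (K * (1 - x ^ 2)⁻¹ * (C * D * (1 - x ^ 2))) := by
          have : 0 ≤ (1 - x ^ 2)⁻¹ := (inv_pos.2 hF).le
          gcongr
      _ = b ^ 2 * K * (C * D) := by field_simp
  have e3 : |E0 d q * (x ^ 2)⁻¹ * u x φ * v x φ| ≤ E0 d q * (C * D) := by
    rcases Nat.eq_zero_or_pos q with hq | hq
    · rw [hq, E0_zero]; simp
    · have hx2 : 0 < x ^ 2 := pow_pos hx.1 2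
      have h8 := h4 (by omega)
      have h9 := k4 (by omega)
      rw [abs_mul, abs_mul, abs_mul, abs_of_nonneg hE, abs_of_pos (inv_pos.2 hx2)]
      calc E0 d q * (x ^ 2)⁻¹ * |u x φ| * |v x φ| ≤ E0 d q * (x ^ 2)⁻¹ * (C * x) * (D * x) := by
            have : 0 ≤ E0 d q * (x ^ 2)⁻¹ := by positivity
            have hxx : 0 ≤ C * x := mul_nonneg hC hx.1.le
            gcongr
        _ = E0 d q * (C * D) * ((x ^ 2)⁻¹ * x ^ 2) := by ring
        _ = E0 d q * (C * D) := by rw [inv_mul_cancel₀ hx2.ne', mul_one]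
  unfold qd
  calc |P x φ * (1 - x ^ 2) * dx u x φ * dx v x φ +
        b ^ 2 * (P x φ * (1 - x ^ 2))⁻¹ * dp u x φ * dp v x φ +
        E0 d q * (x ^ 2)⁻¹ * u x φ * v x φ|
      ≤ _ := (abs_add_le _ _).trans (add_le_add (abs_add_le _ _) le_rfl)
    _ ≤ _ := add_le_add (add_le_add e1 e2) e3

theorem Core.qd_aesm (d : ℕ) (hu : Core q par u) (hv : Core q par v) (b : ℝ) {K : ℝ}
    {P : ℝ → ℝ → ℝ} (hP : Prof K P) :
    AEStronglyMeasurable (fun p : ℝ × ℝ => qd d q b P u v p.1 p.2) (volume.restrict Om) := by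
  have hPm : AEStronglyMeasurable (fun p : ℝ × ℝ => P p.1 p.2) (volume.restrict Om) :=
    hP.meas.aestronglyMeasurable
  have h1 : AEStronglyMeasurable (fun p : ℝ × ℝ => (1 - p.1 ^ 2 : ℝ)) (volume.restrict Om) :=
    (by fun_prop : Continuous fun p : ℝ × ℝ => (1 - p.1 ^ 2 : ℝ)).aestronglyMeasurable
  have h2 : AEStronglyMeasurable (fun p : ℝ × ℝ => (P p.1 p.2 * (1 - p.1 ^ 2))⁻¹)
      (volume.restrict Om) := (hPm.mul h1).aemeasurable.inv.aestronglyMeasurable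
  have h3 : AEStronglyMeasurable (fun p : ℝ × ℝ => (p.1 ^ 2)⁻¹) (volume.restrict Om) :=
    (by fun_prop : Measurable fun p : ℝ × ℝ => (p.1 ^ 2)⁻¹).aestronglyMeasurable
  unfold qd
  exact ((((hPm.mul h1).mul hu.aesm_dx).mul hv.aesm_dx).add
    (((aestronglyMeasurable_const.mul h2).mul hu.aesm_dp).mul hv.aesm_dp)).add
    (((aestronglyMeasurable_const.mul h3).mul hu.aesm).mul hv.aesm)

theorem integrableOn_Qf (d : ℕ) (hu : Core q par u) (hv : Core q par v) (b : ℝ) {K : ℝ}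
    {P : ℝ → ℝ → ℝ} (hP : Prof K P) :
    IntegrableOn (fun p : ℝ × ℝ => qd d q b P u v p.1 p.2 * p.1 ^ d) Om := by
  obtain ⟨C, hC, h⟩ := hu.qd_bound d hv b hP
  refine integrableOn_of_bdd (C := C) ((hu.qd_aesm d hv b hP).mul (aesm_pow d)) fun p hp => ?_
  have h3 : |p.1 ^ d| ≤ 1 := by
    rw [abs_of_nonneg (pow_nonneg hp.1.1.le _)]
    exact pow_le_one₀ hp.1.1.le hp.1.2.le
  rw [abs_mul]
  calc |qd d q b P u v p.1 p.2| * |p.1 ^ d| ≤ C * 1 := by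
        gcongr; exact h p.1 hp.1 p.2
    _ = C := mul_one _

/-! ## bilinearity -/

theorem ip_comm (d : ℕ) (u v : ℝ → ℝ → ℝ) : ip d u v = ip d v u := by
  unfold ip I2; congr 1; ext p; ring

theorem ip_add_left (d : ℕ) {w : ℝ → ℝ → ℝ} (hu : Core q par u) (hv : Core q par v)
    (hw : Core q par w) : ip d (u + v) w = ip d u w + ip d v w := by
  unfold ip I2
  rw [← integral_add (integrableOn_ip d hu hw) (integrableOn_ip d hv hw)]
  congr 1; ext p; simp only [Pi.add_apply]; ring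

theorem ip_smul_left (d : ℕ) (c : ℝ) (u v : ℝ → ℝ → ℝ) : ip d (c • u) v = c * ip d u v := by
  unfold ip I2
  rw [← integral_const_mul]
  congr 1; ext p; simp only [Pi.smul_apply, smul_eq_mul]; ring

theorem ip_self_nonneg (d : ℕ) (u : ℝ → ℝ → ℝ) : 0 ≤ ip d u u := by
  unfold ip I2
  refine setIntegral_nonneg measurableSet_Om fun p hp => ?_
  exact mul_nonneg (mul_self_nonneg _) (pow_nonneg hp.1.1.le _)

theorem Qf_comm (d q : ℕ) (b : ℝ) (P u v : ℝ → ℝ → ℝ) : Qf d q b P u v = Qf d q b P v u := by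
  unfold Qf I2 qd; congr 1; ext p; ring

theorem Qf_add_left (d : ℕ) {w : ℝ → ℝ → ℝ} (hu : Core q par u) (hv : Core q par v)
    (hw : Core q par w) (b : ℝ) {K : ℝ} {P : ℝ → ℝ → ℝ} (hP : Prof K P) :
    Qf d q b P (u + v) w = Qf d q b P u w + Qf d q b P v w := by
  unfold Qf I2
  rw [← integral_add (integrableOn_Qf d hu hw b hP) (integrableOn_Qf d hv hw b hP)]
  refine setIntegral_congr_fun measurableSet_Om fun p hp => ?_
  simp only [qd, hu.dx_add hv hp.1, hu.dp_add hv hp.1, Pi.add_apply]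
  ring

theorem Qf_smul_left (d q : ℕ) (b : ℝ) (P : ℝ → ℝ → ℝ) (c : ℝ) (u v : ℝ → ℝ → ℝ) :
    Qf d q b P (c • u) v = c * Qf d q b P u v := by
  unfold Qf I2
  rw [← integral_const_mul]
  congr 1; ext p
  simp only [qd, dx_smul, dp_smul, Pi.smul_apply, smul_eq_mul]; ring

theorem qd_self_nonneg (d q : ℕ) (b : ℝ) {K : ℝ} {P : ℝ → ℝ → ℝ} (hP : Prof K P)
    (u : ℝ → ℝ → ℝ) {x : ℝ} (hx : x ∈ Ioo (0 : ℝ) 1) (φ : ℝ) : 0 ≤ qd d q b P u u x φ := by
  have hK : 0 < K := lt_of_lt_of_le one_pos hP.one_le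
  have hPp : 0 < P x φ := lt_of_lt_of_le (inv_pos.2 hK) (hP.low x hx φ)
  have hF := one_sub_sq_pos' hx
  have hE := E0_nonneg d q
  have e1 : 0 ≤ P x φ * (1 - x ^ 2) * (dx u x φ) ^ 2 := by positivity
  have e2 : 0 ≤ b ^ 2 * (P x φ * (1 - x ^ 2))⁻¹ * (dp u x φ) ^ 2 := by positivity
  have e3 : 0 ≤ E0 d q * (x ^ 2)⁻¹ * (u x φ) ^ 2 := by positivity
  unfold qd
  nlinarith

theorem Qf_self_nonneg (d q : ℕ) (b : ℝ) {K : ℝ} {P : ℝ → ℝ → ℝ} (hP : Prof K P)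
    (u : ℝ → ℝ → ℝ) : 0 ≤ Qf d q b P u u := by
  unfold Qf I2
  refine setIntegral_nonneg measurableSet_Om fun p hp => ?_
  exact mul_nonneg (qd_self_nonneg d q b hP u hp.1 p.2) (pow_nonneg hp.1.1.le _)

theorem Prof.one : Prof 1 (fun _ _ => 1) where
  one_le := le_rfl
  meas := measurable_const
  low := fun _ _ _ => by simp
  up := fun _ _ _ => le_rfl

end Crest.Agent.R202.Sec
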