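import Mathlib
import Crest.Agent.R202.SignPatch
import Crest.Agent.R202.CThmDef
import Crest.Agent.R202.Fou5
import Crest.Agent.R202.Model3

/-!
Row 202 (helper523): definiteness of `g`, the reduced space, `SepP` as `SepA`, and the field
`sign` of `COut` from local separation and a trial frame on the window.
-/

set_option autoImplicit false

open MeasureTheory Set Filter
open scoped Topology ContDiff
open Crest.Agent.R202.Mod Crest.Agent.R202.Sch Crest.Agent.R202.Main Crest.Agent.R202.CT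

noncomputable section

namespace Crest.Agent.R202.Sign

/-- a radial function which vanishes in `L²(0,1)` is zero -/
theorem isRad_eq_zero {q m d : ℕ} {R : ℝ → ℝ} (hR : IsRad q m R)
    (h : ∫ x in Ioo (0 : ℝ) 1, x ^ d * (R x * R x) = 0) : R = 0 := by
  have hcont : ContinuousOn R (Ioo (0 : ℝ) 1) := fun x hx =>
    (hR.diff x (by nlinarith [hx.1, hx.2])).continuousAt.continuousWithinAt
  have hf : ContinuousOn (fun x : ℝ => x ^ d * (R x * R x)) (Ioo (0 : ℝ) 1) :=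
    (continuous_pow d).continuousOn.mul (hcont.mul hcont)
  obtain ⟨C, hC⟩ := hR.bd
  have hint : IntegrableOn (fun x : ℝ => x ^ d * (R x * R x)) (Ioo (0 : ℝ) 1) := by
    refine Integrable.mono' (integrable_const (|C| * |C|))
      (hf.aestronglyMeasurable measurableSet_Ioo) ?_
    refine (ae_restrict_iff' measurableSet_Ioo).2 (Eventually.of_forall fun x hx => ?_)
    have h1 : |R x| ≤ |C| := ((hC x (by nlinarith [hx.1, hx.2])).1).trans (le_abs_self C)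
    have h2 : |x ^ d| ≤ 1 := by
      rw [abs_pow, abs_of_pos hx.1]; exact pow_le_one₀ hx.1.le hx.2.le
    rw [Real.norm_eq_abs, abs_mul, abs_mul]
    calc |x ^ d| * (|R x| * |R x|) ≤ 1 * (|C| * |C|) :=
          mul_le_mul h2 (mul_le_mul h1 h1 (abs_nonneg _) (abs_nonneg _)) (by positivity)
            zero_le_one
      _ = |C| * |C| := one_mul _
  have hnn : 0 ≤ᵐ[volume.restrict (Ioo (0 : ℝ) 1)] fun x : ℝ => x ^ d * (R x * R x) :=
    (ae_restrict_iff' measurableSet_Ioo).2 (Eventually.of_forall fun x hx =>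
      mul_nonneg (pow_nonneg hx.1.le d) (mul_self_nonneg _))
  have hae := (setIntegral_eq_zero_iff_of_nonneg_ae hnn hint).1 h
  have heq := Measure.eqOn_open_of_ae_eq hae isOpen_Ioo hf continuousOn_const
  have h01 : ∀ x ∈ Ioo (0 : ℝ) 1, R x = 0 := by
    intro x hx
    have h1 : x ^ d * (R x * R x) = 0 := heq hx
    have h2 : x ^ d ≠ 0 := pow_ne_zero _ hx.1.ne'
    exact mul_self_eq_zero.1 ((mul_eq_zero.1 h1).resolve_left h2)
  funext x
  rcases le_or_gt 1 (x ^ 2) with h1 | h1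
  · exact hR.off x h1
  · rcases lt_trichotomy x 0 with hx | hx | hx
    · have h2 := hR.par (-x)
      rw [neg_neg, h01 (-x) ⟨by linarith, by nlinarith⟩, mul_zero] at h2
      exact h2
    · subst hx
      have hc : ContinuousAt R 0 := (hR.diff 0 (by norm_num)).continuousAt
      have h2 : Tendsto R (𝓝[>] (0 : ℝ)) (𝓝 (R 0)) := hc.continuousWithinAt
      have h3 : Tendsto R (𝓝[>] (0 : ℝ)) (𝓝 0) := by
        refine tendsto_const_nhds.congr' ?_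
        filter_upwards [Ioo_mem_nhdsGT (zero_lt_one' ℝ)] with x hx
        exact (h01 x hx).symm
      exact tendsto_nhds_unique h2 h3
    · exact h01 x ⟨hx, by nlinarith⟩

/-- `g` is positive definite on `VS` -/
theorem g_posDef (d : ℕ) {q par : ℕ} (v : VS q par) (hv : v ≠ 0) : 0 < g d q par v v := by
  refine lt_of_le_of_ne (g_nonneg v) fun h0 => hv ?_
  have h1 := g_eq_sum d v v
  rw [← h0] at h1
  have hterm : ∀ m ∈ (v : ℕ →₀ (ℝ → ℝ)).support, 0 ≤ Fou.ntrg m * ∫ x in Ioo (0 : ℝ) 1,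
      x ^ d * ((v : ℕ →₀ (ℝ → ℝ)) m x * (v : ℕ →₀ (ℝ → ℝ)) m x) := fun m _ =>
    mul_nonneg (Fou.ntrg_pos m).le (setIntegral_nonneg measurableSet_Ioo fun x hx =>
      mul_nonneg (pow_nonneg hx.1.le d) (mul_self_nonneg _))
  have h2 := (Finset.sum_eq_zero_iff_of_nonneg hterm).1 h1.symm
  apply Subtype.ext
  ext1 m
  by_cases hm : m ∈ (v : ℕ →₀ (ℝ → ℝ)).support
  · have h3 := (mul_eq_zero.1 (h2 m hm)).resolve_left (Fou.ntrg_pos m).ne'
    exact isRad_eq_zero (isRad_coe v m) h3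
  · have : (v : ℕ →₀ (ℝ → ℝ)) m = 0 := by simpa using hm
    rw [this]; rfl

/-- the reduced space as a submodule -/
def redS (d : ℕ) (σ : ℕ × ℕ) : Submodule ℝ (VV σ) where
  carrier := {v | Reduced d σ v}
  zero_mem' := fun _ => by
    show g d σ.1 σ.2 0 (pol σ.1 σ.2 0 0) = 0
    simp
  add_mem' := fun {u v} hu hv hσ => by
    have h1 : g d σ.1 σ.2 u (pol σ.1 σ.2 0 0) = 0 := hu hσ
    have h2 : g d σ.1 σ.2 v (pol σ.1 σ.2 0 0) = 0 := hv hσ
    show g d σ.1 σ.2 (u + v) (pol σ.1 σ.2 0 0) = 0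
    rw [map_add, LinearMap.add_apply, h1, h2, add_zero]
  smul_mem' := fun c {v} hv hσ => by
    have h2 : g d σ.1 σ.2 v (pol σ.1 σ.2 0 0) = 0 := hv hσ
    show g d σ.1 σ.2 (c • v) (pol σ.1 σ.2 0 0) = 0
    rw [map_smul, LinearMap.smul_apply, h2, smul_zero]

theorem mem_redS {d : ℕ} {σ : ℕ × ℕ} {v : VV σ} : v ∈ redS d σ ↔ Reduced d σ v := Iff.rfl

theorem amb_g (d : ℕ) (σ : ℕ × ℕ) : Amb (V := VV σ) (redS d σ) (g d σ.1 σ.2) where
  symm := g_symm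
  pos v _ hv := g_posDef d v hv

/-- `SepP` is `SepA` for polynomial frames -/
theorem sepP_iff {d : ℕ} {σ : ℕ × ℕ} {l : ℕ} {p : Fin l → VV σ} {A B b : ℝ}
    {P : ℝ × ℝ → ℝ} (a : Bil (VV σ)) (ha : ∀ u v, a u v = QF d σ b P u v) :
    SepP d σ l p A B b P ↔ (∀ i, p i ∈ Pol σ.1 σ.2) ∧ SepA (redS d σ) (g d σ.1 σ.2) a p A B := by
  constructor
  · intro h
    refine ⟨h.pol, h.red, h.li, h.lt, fun w hw => ?_, fun v hv h0 => ?_⟩
    · rw [ha]; exact h.le w hw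
    · rw [ha]; exact h.ge v hv h0
  · rintro ⟨hp, h⟩
    refine ⟨hp, h.red, h.li, h.lt, fun w hw => ?_, fun v hv h0 => ?_⟩
    · rw [← ha]; exact h.le w hw
    · rw [← ha]; exact h.ge v hv h0

/-- **The field `sign`** from local separation and a trial frame on the window. -/
theorem sign_of_window {d : ℕ} {σ : ℕ × ℕ} {l : ℕ} (y : ℝ → ℝ) (P : ℝ → ℝ × ℝ → ℝ)
    (a : ℝ → Bil (VV σ)) (ha : ∀ t ∈ Icc (0 : ℝ) 1, ∀ u v, a t u v = QF d σ (y t) (P t) u v)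
    (hloc : ∀ t0 ∈ Icc (0 : ℝ) 1, ∃ (p : Fin l → VV σ) (A B : ℝ),
      ∀ᶠ t in 𝓝[Icc (0 : ℝ) 1] t0, SepP d σ l p A B (y t) (P t))
    {s1 : ℝ} (hs0 : 0 ≤ s1) (hs1 : s1 ≤ 1 / 2) (hpal : ∀ t ∈ Icc 0 s1, a (1 - t) = a t)
    (e : ℝ → Fin l → VV σ)
    (hsep : ∀ t ∈ Icc s1 (1 - s1), ∃ A B, SepA (redS d σ) (g d σ.1 σ.2) (a t) (e t) A B)
    (hc : ∀ i v, ContinuousOn (fun t => g d σ.1 σ.2 (e t i) v) (Icc s1 (1 - s1)))
    (C : Matrix (Fin l) (Fin l) ℝ) (hC : ∀ j, e (1 - s1) j = ∑ i, C i j • e s1 i) :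
    ∃ (r : ℕ) (t : ℕ → ℝ) (f : ℕ → Fin l → VV σ) (A B : ℕ → ℝ), 0 < r ∧ Monotone t ∧ t 0 = 0 ∧
      t r = 1 ∧ f r = f 0 ∧
      (∀ i < r, ∀ τ ∈ Icc (t i) (t (i + 1)), SepP d σ l (f i) (A i) (B i) (y τ) (P τ)) ∧
      0 < C.det * ∏ i ∈ Finset.range r,
        (Matrix.of fun a b => gF d σ (f i a) (f (i + 1) b)).det := by
  have hsymm : ∀ t ∈ Icc (0 : ℝ) 1, ∀ x y, a t x y = a t y x := by
    intro t ht u v
    rw [ha t ht, ha t ht]
    exact fW_symm _ _ _ _ _ _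
  obtain ⟨r, t, f, A, B, hr, hm, h0, h1, hfr, hP0, hsepf, hsign⟩ :=
    sign_patch (P0 := fun p : Fin l → VV σ => ∀ i, p i ∈ Pol σ.1 σ.2) (amb_g d σ) hsymm
      (fun t0 ht0 => by
        obtain ⟨p, A, B, hev⟩ := hloc t0 ht0
        have hmem : ∀ᶠ t in 𝓝[Icc (0 : ℝ) 1] t0, t ∈ Icc (0 : ℝ) 1 := self_mem_nhdsWithin
        refine ⟨p, A, B, ?_, ?_⟩
        · exact (hev.self_of_nhdsWithin ht0).pol
        · filter_upwards [hev, hmem] with t ht htm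
          exact ((sepP_iff (a t) (ha t htm)).1 ht).2)
      hs0 hs1 hpal e hsep hc C hC
  refine ⟨r, t, f, A, B, hr, hm, h0, h1, hfr, fun i hi τ hτ => ?_, hsign⟩
  have hmem : τ ∈ Icc (0 : ℝ) 1 := by
    constructor
    · have := hm (Nat.zero_le i)
      rw [h0] at this
      exact this.trans hτ.1
    · have := hm (Nat.succ_le_of_lt hi)
      rw [h1] at this
      exact hτ.2.trans this
  exact (sepP_iff (a τ) (ha τ hmem)).2 ⟨hP0 i, hsepf i hi τ hτ⟩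

/-- the field `sign` of `COut`, given the field `sep` for the designated cut at `κ = ±1` -/
theorem sign_of_sep {m : ℕ} {v : ℝ} {k : ℕ} {D : CountData m v k} {Xa Xb : ℝ}
    (L : Gate D → YLoop D.b0 D.b1 Xa Xb) (h : ℝ → ℝ) (j : Gate D) (κ : ℝ)
    (hloc : ∀ τ0 ∈ Icc (0 : ℝ) 1, ∃ (p : Fin j.1.2 → VV j.1.1) (A B : ℝ), ∀ᶠ z in 𝓝 (τ0, κ),
      SepP m j.1.1 j.1.2 p A B ((L j).y z.1) (PF h ((L j).y z.1) ((L j).Gh z.1 z.2)))
    (a : ℝ → Bil (VV j.1.1)) (ha : ∀ t ∈ Icc (0 : ℝ) 1, ∀ u v, a t u v =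
      QF m j.1.1 ((L j).y t) (PF h ((L j).y t) ((L j).Gh t κ)) u v)
    {s1 : ℝ} (hs0 : 0 ≤ s1) (hs1 : s1 ≤ 1 / 2) (hpal : ∀ t ∈ Icc 0 s1, a (1 - t) = a t)
    (e : ℝ → Fin j.1.2 → VV j.1.1)
    (hsep : ∀ t ∈ Icc s1 (1 - s1), ∃ A B,
      SepA (redS m j.1.1) (g m j.1.1.1 j.1.1.2) (a t) (e t) A B)
    (hc : ∀ i v, ContinuousOn (fun t => g m j.1.1.1 j.1.1.2 (e t i) v) (Icc s1 (1 - s1)))
    (C : Matrix (Fin j.1.2) (Fin j.1.2) ℝ) (hC : ∀ j, e (1 - s1) j = ∑ i, C i j • e s1 i)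
    (hCκ : 0 < κ * C.det) :
    ∃ (r : ℕ) (t : ℕ → ℝ) (f : ℕ → Fin j.1.2 → VV j.1.1) (A B : ℕ → ℝ),
      0 < r ∧ Monotone t ∧ t 0 = 0 ∧ t r = 1 ∧ f r = f 0 ∧
      (∀ i < r, ∀ τ ∈ Icc (t i) (t (i + 1)),
        SepP m j.1.1 j.1.2 (f i) (A i) (B i) ((L j).y τ) (PF h ((L j).y τ) ((L j).Gh τ κ))) ∧
      0 < κ * ∏ i ∈ Finset.range r,
        (Matrix.of fun a b => gF m j.1.1 (f i a) (f (i + 1) b)).det := by
  obtain ⟨r, t, f, A, B, hr, hm, h0, h1, hfr, hsepf, hsign⟩ :=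
    sign_of_window (fun τ => (L j).y τ) (fun τ => PF h ((L j).y τ) ((L j).Gh τ κ)) a ha
      (fun τ0 hτ0 => by
        obtain ⟨p, A, B, hev⟩ := hloc τ0 hτ0
        refine ⟨p, A, B, ?_⟩
        have h2 : Tendsto (fun τ : ℝ => (τ, κ)) (𝓝[Icc (0 : ℝ) 1] τ0) (𝓝 (τ0, κ)) := by
          have h3 : ContinuousAt (fun τ : ℝ => (τ, κ)) τ0 := by fun_prop
          exact h3.tendsto.mono_left nhdsWithin_le_nhds
        exact h2.eventually hev)
      hs0 hs1 hpal e hsep hc C hC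
  refine ⟨r, t, f, A, B, hr, hm, h0, h1, hfr, hsepf, ?_⟩
  have h3 := mul_pos hCκ hsign
  set pd := ∏ i ∈ Finset.range r, (Matrix.of fun a b => gF m j.1.1 (f i a) (f (i + 1) b)).det
    with hpd
  have h4 : κ * C.det * (C.det * pd) = (κ * pd) * C.det ^ 2 := by ring
  rw [h4] at h3
  exact pos_of_mul_sq h3

end Crest.Agent.R202.Sign
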