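import Mathlib

/-!
# Row 202, PART SP: abstract spectral library (forms with compact resolvent)

`PCO R`: `R` is a compact symmetric positive definite operator on a real Hilbert space.
`EigSeq R`: sorted spectral data of such an operator.  `PCO.exists_eigSeq`.
-/

set_option autoImplicit false

open Filter Topology Module
open scoped InnerProductSpace NNReal ENNReal

noncomputable section

namespace Crest.Agent.R202.Sp

variable {H : Type*} [NormedAddCommGroup H] [InnerProductSpace ℝ H]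

/-- compact, symmetric, positive definite operators -/
structure PCO (R : H →L[ℝ] H) : Prop where
  cpt : IsCompactOperator R
  symm : ∀ x y, ⟪R x, y⟫_ℝ = ⟪x, R y⟫_ℝ
  pos : ∀ x, x ≠ 0 → 0 < ⟪R x, x⟫_ℝ

/-- sorted spectral data: `τ` decreases to `0`, `e` is a Hilbert basis of eigenvectors -/
structure EigSeq (R : H →L[ℝ] H) where
  τ : ℕ → ℝ
  anti : Antitone τ
  pos : ∀ k, 0 < τ k
  lim : Tendsto τ atTop (𝓝 0)
  e : HilbertBasis ℕ ℝ H
  eig : ∀ k, R (e k) = τ k • e k

/-- the top eigenvalue of a compact symmetric positive definite operator -/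
theorem PCO.hasEigenvalue_norm {E : Type*} [NormedAddCommGroup E] [InnerProductSpace ℝ E]
    [CompleteSpace E] [Nontrivial E] {T : E →L[ℝ] E} (hc : IsCompactOperator T)
    (hs : ∀ x y, ⟪T x, y⟫_ℝ = ⟪x, T y⟫_ℝ) (hp : ∀ x, x ≠ 0 → 0 < ⟪T x, x⟫_ℝ) :
    ∃ x : E, ‖x‖ = 1 ∧ T x = ‖T‖ • x := by
  have hT0 : T ≠ 0 := by
    obtain ⟨x, hx⟩ := exists_ne (0 : E)
    intro h
    have := hp x hx
    rw [h] at this
    simp at this
  have hsym : (T : E →ₗ[ℝ] E).IsSymmetric := fun x y => hs x y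
  have hsa : IsSelfAdjoint T := (ContinuousLinearMap.isSelfAdjoint_iff_isSymmetric).2 hsym
  have hsr : spectralRadius ℝ T = ‖T‖₊ := T.spectralRadius_eq_nnnorm hsa
  have hne : (spectrum ℝ T).Nonempty := by
    by_contra hcon
    rw [Set.not_nonempty_iff_eq_empty] at hcon
    have : spectralRadius ℝ T = 0 := by
      unfold spectralRadius
      rw [hcon]
      simp
    rw [this] at hsr
    have h0 : ‖T‖₊ = 0 := by exact_mod_cast hsr.symm
    exact hT0 (by simpa using h0)
  obtain ⟨μ, hμ, hμn⟩ := spectrum.exists_nnnorm_eq_spectralRadius_of_nonempty hne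
  rw [hsr] at hμn
  have hμn' : ‖μ‖ = ‖T‖ := by
    have : ‖μ‖₊ = ‖T‖₊ := by exact_mod_cast hμn
    exact congrArg NNReal.toReal this
  have hTn : 0 < ‖T‖ := norm_pos_iff.2 hT0
  have hμ0 : μ ≠ 0 := by
    intro h
    rw [h, norm_zero] at hμn'
    linarith
  have hev := (hc.hasEigenvalue_iff_mem_spectrum hμ0).2 hμ
  obtain ⟨v, hv⟩ := hev.exists_hasEigenvector
  have hv0 : v ≠ 0 := hv.2
  have hTv : T v = μ • v := hv.apply_eq_smul
  have hμpos : 0 < μ := by
    have h1 := hp v hv0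
    rw [hTv, inner_smul_left, real_inner_self_eq_norm_sq] at h1
    have h2 : 0 < ‖v‖ ^ 2 := by positivity
    simp at h1
    by_contra hcon
    push Not at hcon
    nlinarith
  have hμT : μ = ‖T‖ := by rw [← hμn', Real.norm_of_nonneg hμpos.le]
  refine ⟨(‖v‖)⁻¹ • v, ?_, ?_⟩
  · rw [norm_smul, norm_inv, norm_norm, inv_mul_cancel₀ (norm_ne_zero_iff.2 hv0)]
  · rw [map_smul, hTv, hμT, smul_comm]

/-- the step of the recursion: a top eigenvector in an invariant closed subspace -/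
theorem PCO.exists_top [CompleteSpace H] {R : H →L[ℝ] H} (h : PCO R) (K : Submodule ℝ H)
    (hK : IsClosed (K : Set H)) (hinv : ∀ x ∈ K, R x ∈ K) (hne : K ≠ ⊥) :
    ∃ (x : H) (t : ℝ), x ∈ K ∧ ‖x‖ = 1 ∧ 0 < t ∧ R x = t • x ∧
      ∀ y ∈ K, ‖R y‖ ≤ t * ‖y‖ := by
  haveI : CompleteSpace K := hK.completeSpace_coe
  haveI : Nontrivial K := (Submodule.nontrivial_iff_ne_bot).2 hne
  set T : K →L[ℝ] K := R.restrict hinv with hT
  have hTc : IsCompactOperator T := by
    have := (h.cpt).restrict (V := K) hinv hK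
    exact this
  have hTapp : ∀ x : K, ((T x : K) : H) = R x := fun x => rfl
  obtain ⟨x, hx1, hx2⟩ := PCO.hasEigenvalue_norm (T := T) hTc
    (fun x y => by
      rw [Submodule.coe_inner, Submodule.coe_inner, hTapp, hTapp]
      exact h.symm _ _)
    (fun x hx => by
      rw [Submodule.coe_inner, hTapp]
      exact h.pos _ (by simpa using hx))
  have hx0 : (x : H) ≠ 0 := by
    intro h0
    have : x = 0 := by exact_mod_cast h0
    rw [this, norm_zero] at hx1
    exact zero_ne_one hx1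
  have hRx : R (x : H) = ‖T‖ • (x : H) := by
    rw [← hTapp, hx2]; rfl
  have hpos : 0 < ‖T‖ := by
    have h1 := h.pos _ hx0
    rw [hRx, inner_smul_left, real_inner_self_eq_norm_sq] at h1
    have h2 : 0 < ‖(x : H)‖ ^ 2 := by positivity
    simp at h1
    rcases (norm_nonneg T).lt_or_eq with h3 | h3
    · exact h3
    · rw [← h3] at h1; simp at h1
  refine ⟨x, ‖T‖, x.2, by simpa using hx1, hpos, hRx, fun y hy => ?_⟩
  have := T.le_opNorm ⟨y, hy⟩
  simpa [hTapp] using this

section build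

variable [CompleteSpace H] {R : H →L[ℝ] H} (h : PCO R) (hinf : ¬ FiniteDimensional ℝ H)

/-- orthogonal complement of a finite set of eigenvectors is invariant -/
theorem PCO.invariant {R : H →L[ℝ] H} (h : PCO R) {s : Set H}
    (hs : ∀ x ∈ s, ∃ t : ℝ, R x = t • x) :
    ∀ x ∈ (Submodule.span ℝ s)ᗮ, R x ∈ (Submodule.span ℝ s)ᗮ := by
  intro x hx
  rw [Submodule.mem_orthogonal] at hx ⊢
  intro u hu
  induction hu using Submodule.span_induction with
  | mem y hy =>
    obtain ⟨t, ht⟩ := hs y hy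
    rw [← h.symm, ht, inner_smul_left, hx y (Submodule.subset_span hy), mul_zero]
  | zero => simp
  | add y z _ _ hy hz => rw [inner_add_left, hy, hz, add_zero]
  | smul c y _ hy => rw [inner_smul_left, hy, mul_zero]

theorem orth_ne_bot {s : Set H} (hfin : s.Finite) (hinf : ¬ FiniteDimensional ℝ H) :
    (Submodule.span ℝ s)ᗮ ≠ ⊥ := by
  intro hb
  haveI : FiniteDimensional ℝ (Submodule.span ℝ s) := FiniteDimensional.span_of_finite ℝ hfin
  have htop : Submodule.span ℝ s = ⊤ := (Submodule.orthogonal_eq_bot_iff).1 hb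
  apply hinf
  rw [htop] at this
  exact (LinearEquiv.ofTop (⊤ : Submodule ℝ H) rfl).finiteDimensional

/-- one step: given finitely many eigenvectors, choose the next -/
def PCO.next (h : PCO R) (hinf : ¬ FiniteDimensional ℝ H) (l : List (H × ℝ)) : H × ℝ := by
  classical
  exact if hl : ∀ p ∈ l, R p.1 = p.2 • p.1 then
    let K := (Submodule.span ℝ {x | ∃ p ∈ l, x = p.1})ᗮ
    have hne : K ≠ ⊥ := orth_ne_bot (by
      have : {x | ∃ p ∈ l, x = p.1} = (fun p : H × ℝ => p.1) '' {p | p ∈ l} := by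
        ext x; constructor
        · rintro ⟨p, hp, rfl⟩; exact ⟨p, hp, rfl⟩
        · rintro ⟨p, hp, rfl⟩; exact ⟨p, hp, rfl⟩
      rw [this]
      exact (List.finite_toSet l).image _) hinf
    have hex := h.exists_top K (Submodule.isClosed_orthogonal _)
      (h.invariant (by rintro x ⟨p, hp, rfl⟩; exact ⟨p.2, hl p hp⟩)) hne
    (hex.choose, hex.choose_spec.choose)
  else (0, 0)

theorem PCO.next_spec (h : PCO R) (hinf : ¬ FiniteDimensional ℝ H) (l : List (H × ℝ))
    (hl : ∀ p ∈ l, R p.1 = p.2 • p.1) :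
    (∀ p ∈ l, ⟪p.1, (h.next hinf l).1⟫_ℝ = 0) ∧ ‖(h.next hinf l).1‖ = 1 ∧
      0 < (h.next hinf l).2 ∧ R (h.next hinf l).1 = (h.next hinf l).2 • (h.next hinf l).1 ∧
      ∀ y, (∀ p ∈ l, ⟪p.1, y⟫_ℝ = 0) → ‖R y‖ ≤ (h.next hinf l).2 * ‖y‖ := by
  classical
  have hne : (Submodule.span ℝ {x | ∃ p ∈ l, x = p.1})ᗮ ≠ ⊥ := orth_ne_bot (by
      have : {x | ∃ p ∈ l, x = p.1} = (fun p : H × ℝ => p.1) '' {p | p ∈ l} := by
        ext x; constructor
        · rintro ⟨p, hp, rfl⟩; exact ⟨p, hp, rfl⟩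
        · rintro ⟨p, hp, rfl⟩; exact ⟨p, hp, rfl⟩
      rw [this]
      exact (List.finite_toSet l).image _) hinf
  have hex := h.exists_top (Submodule.span ℝ {x | ∃ p ∈ l, x = p.1})ᗮ
      (Submodule.isClosed_orthogonal _)
      (h.invariant (by rintro x ⟨p, hp, rfl⟩; exact ⟨p.2, hl p hp⟩)) hne
  have hn : h.next hinf l = (hex.choose, hex.choose_spec.choose) := by
    unfold PCO.next
    rw [dif_pos hl]
  obtain ⟨h1, h2, h3, h4, h5⟩ := hex.choose_spec.choose_spec
  rw [hn]
  refine ⟨fun p hp => ?_, h2, h3, h4, fun y hy => h5 y ?_⟩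
  · exact (Submodule.mem_orthogonal _ _).1 h1 _ (Submodule.subset_span ⟨p, hp, rfl⟩)
  · rw [Submodule.mem_orthogonal]
    intro u hu
    induction hu using Submodule.span_induction with
    | mem z hz => obtain ⟨p, hp, rfl⟩ := hz; exact hy p hp
    | zero => simp
    | add y z _ _ hy hz => rw [inner_add_left, hy, hz, add_zero]
    | smul c y _ hy => rw [inner_smul_left, hy, mul_zero]

/-- the list of the first `n` eigenpairs -/
def PCO.lst (h : PCO R) (hinf : ¬ FiniteDimensional ℝ H) : ℕ → List (H × ℝ)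
  | 0 => []
  | n + 1 => h.next hinf (PCO.lst h hinf n) :: PCO.lst h hinf n

theorem PCO.lst_spec (h : PCO R) (hinf : ¬ FiniteDimensional ℝ H) (n : ℕ) :
    ∀ p ∈ h.lst hinf n, R p.1 = p.2 • p.1 := by
  induction n with
  | zero => intro p hp; simp [PCO.lst] at hp
  | succ n ih =>
    intro p hp
    simp only [PCO.lst, List.mem_cons] at hp
    rcases hp with rfl | hp
    · exact (h.next_spec hinf _ ih).2.2.2.1
    · exact ih p hp

theorem PCO.mem_lst (h : PCO R) (hinf : ¬ FiniteDimensional ℝ H) {m n : ℕ} (hmn : m < n) :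
    h.next hinf (h.lst hinf m) ∈ h.lst hinf n := by
  induction n with
  | zero => omega
  | succ n ih =>
    simp only [PCO.lst, List.mem_cons]
    rcases Nat.lt_succ_iff_lt_or_eq.1 hmn with h1 | h1
    · exact Or.inr (ih h1)
    · exact Or.inl (by rw [h1])

theorem PCO.lst_mem (h : PCO R) (hinf : ¬ FiniteDimensional ℝ H) {n : ℕ} {p : H × ℝ}
    (hp : p ∈ h.lst hinf n) : ∃ m < n, p = h.next hinf (h.lst hinf m) := by
  induction n with
  | zero => simp [PCO.lst] at hp
  | succ n ih =>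
    simp only [PCO.lst, List.mem_cons] at hp
    rcases hp with rfl | hp
    · exact ⟨n, Nat.lt_succ_self n, rfl⟩
    · obtain ⟨m, hm, rfl⟩ := ih hp
      exact ⟨m, by omega, rfl⟩

/-- **Spectral theorem, sorted form.** -/
theorem PCO.exists_eigSeq (h : PCO R) (hinf : ¬ FiniteDimensional ℝ H) :
    Nonempty (EigSeq R) := by
  classical
  set f : ℕ → H × ℝ := fun n => h.next hinf (h.lst hinf n) with hf
  have hs := fun n => h.next_spec hinf (h.lst hinf n) (h.lst_spec hinf n)
  have horth : ∀ m n, m < n → ⟪(f m).1, (f n).1⟫_ℝ = 0 := fun m n hmn =>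
    (hs n).1 _ (h.mem_lst hinf hmn)
  have hnorm : ∀ n, ‖(f n).1‖ = 1 := fun n => (hs n).2.1
  have hpos : ∀ n, 0 < (f n).2 := fun n => (hs n).2.2.1
  have heig : ∀ n, R (f n).1 = (f n).2 • (f n).1 := fun n => (hs n).2.2.2.1
  have hbd : ∀ n y, (∀ m < n, ⟪(f m).1, y⟫_ℝ = 0) → ‖R y‖ ≤ (f n).2 * ‖y‖ := by
    intro n y hy
    refine (hs n).2.2.2.2 y fun p hp => ?_
    obtain ⟨m, hm, rfl⟩ := h.lst_mem hinf hp
    exact hy m hm
  have hon : Orthonormal ℝ (fun n => (f n).1) := by
    refine ⟨hnorm, fun m n hmn => ?_⟩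
    rcases lt_or_gt_of_ne hmn with h1 | h1
    · exact horth m n h1
    · show ⟪(f m).1, (f n).1⟫_ℝ = 0
      rw [real_inner_comm]; exact horth n m h1
  have hanti : Antitone (fun n => (f n).2) := by
    refine antitone_nat_of_succ_le fun n => ?_
    have h1 := hbd n (f (n + 1)).1 (fun m hm => horth m (n + 1) (by omega))
    rw [heig, norm_smul, hnorm, mul_one, mul_one, Real.norm_of_nonneg (hpos _).le] at h1
    exact h1
  have hlim : Tendsto (fun n => (f n).2) atTop (𝓝 0) := by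
    have hbdd : BddBelow (Set.range fun n => (f n).2) := ⟨0, by
      rintro _ ⟨n, rfl⟩; exact (hpos n).le⟩
    have hconv := tendsto_atTop_ciInf hanti hbdd
    set L := ⨅ n, (f n).2 with hL
    have hL0 : 0 ≤ L := le_ciInf fun n => (hpos n).le
    rcases hL0.lt_or_eq with hL1 | hL1
    swap
    · rw [← hL1] at hconv; exact hconv
    exfalso
    -- compactness
    obtain ⟨K, hK, hK'⟩ := h.cpt.image_closedBall_subset_compact 1
    obtain ⟨y, -, ψ, hψ, hψy⟩ := hK.tendsto_subseq (x := fun n => R (f n).1)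
      (fun n => hK' ⟨(f n).1, by simp [hnorm], rfl⟩)
    have hcau := hψy.cauchySeq
    rw [Metric.cauchySeq_iff'] at hcau
    obtain ⟨N, hN⟩ := hcau L hL1
    have h1 := hN (N + 1) (by omega)
    have hlt : ψ N < ψ (N + 1) := hψ (Nat.lt_succ_self N)
    have h2 : ‖R (f (ψ (N + 1))).1 - R (f (ψ N)).1‖ ^ 2 = (f (ψ (N + 1))).2 ^ 2 + (f (ψ N)).2 ^ 2 := by
      rw [heig, heig, @norm_sub_sq_real, norm_smul, norm_smul, hnorm, hnorm, inner_smul_left,
        inner_smul_right, real_inner_comm, horth _ _ hlt]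
      simp
    have h3 : L ≤ (f (ψ N)).2 := ciInf_le hbdd _
    have h4 : dist (R (f (ψ (N + 1))).1) (R (f (ψ N)).1) < L := h1
    rw [dist_eq_norm] at h4
    have h5 : ‖R (f (ψ (N + 1))).1 - R (f (ψ N)).1‖ ^ 2 < L ^ 2 := by
      apply pow_lt_pow_left₀ h4 (norm_nonneg _) (by norm_num)
    have h6 : L ^ 2 ≤ (f (ψ N)).2 ^ 2 := pow_le_pow_left₀ hL0 h3 2
    have h7 := sq_nonneg (f (ψ (N + 1))).2
    linarith
  have hcomp : (Submodule.span ℝ (Set.range fun n => (f n).1))ᗮ = ⊥ := by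
    rw [Submodule.eq_bot_iff]
    intro y hy
    rw [Submodule.mem_orthogonal] at hy
    have hy' : ∀ m, ⟪(f m).1, y⟫_ℝ = 0 := fun m => hy _ (Submodule.subset_span ⟨m, rfl⟩)
    have h1 : ∀ n, ‖R y‖ ≤ (f n).2 * ‖y‖ := fun n => hbd n y fun m _ => hy' m
    have h2 : ‖R y‖ ≤ 0 * ‖y‖ := le_of_tendsto_of_tendsto tendsto_const_nhds
      (hlim.mul_const ‖y‖) (Filter.Eventually.of_forall h1)
    have h3 : R y = 0 := by
      rw [zero_mul] at h2
      exact norm_le_zero_iff.1 h2
    by_contra hy0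
    have := h.pos y hy0
    rw [h3, inner_zero_left] at this
    exact lt_irrefl _ this
  refine ⟨⟨fun n => (f n).2, hanti, hpos, hlim, HilbertBasis.mkOfOrthogonalEqBot hon hcomp, ?_⟩⟩
  intro k
  rw [HilbertBasis.coe_mkOfOrthogonalEqBot]
  exact heig k

end build

end Crest.Agent.R202.Sp
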