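import Mathlib
import Crest.Agent.R202.SpDefs

/-!
# Row 202, PART SP: forms with compact resolvent, eigenbasis, min-max, continuity
-/

set_option autoImplicit false
set_option linter.style.haveILetI false

open Filter Topology Module
open scoped InnerProductSpace NNReal ENNReal

noncomputable section

namespace Crest.Agent.R202.Sp

variable {H : Type*} [NormedAddCommGroup H] [InnerProductSpace ℝ H]
variable {V : Type*} [NormedAddCommGroup V] [InnerProductSpace ℝ V]

/-- a nonnegative symmetric bounded form on `V`, coercive relative to `j : V → H` -/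
structure CForm (j : V →L[ℝ] H) where
  a : V →L[ℝ] V →L[ℝ] ℝ
  symm : ∀ u v, a u v = a v u
  nonneg : ∀ v, 0 ≤ a v v
  c : ℝ
  c_pos : 0 < c
  coer : ∀ v, c * ‖v‖ ^ 2 ≤ a v v + ‖j v‖ ^ 2

/-- sorted spectral data of a form -/
structure FormSeq {j : V →L[ℝ] H} (A : CForm j) where
  lam : ℕ → ℝ
  mono : Monotone lam
  nonneg : ∀ k, 0 ≤ lam k
  lim : Tendsto lam atTop atTop
  e : HilbertBasis ℕ ℝ H
  ev : ℕ → V
  j_ev : ∀ k, j (ev k) = e k
  eig : ∀ k v, A.a (ev k) v = lam k * ⟪e k, j v⟫_ℝ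

namespace CForm

variable {j : V →L[ℝ] H} (A : CForm j)

/-- the Gram form `<ju,jv>` -/
def gram (j : V →L[ℝ] H) : V →L[ℝ] V →L[ℝ] ℝ :=
  LinearMap.mkContinuous₂ (LinearMap.mk₂ ℝ (fun u v => ⟪j u, j v⟫_ℝ)
    (fun u u' v => by simp [inner_add_left]) (fun c u v => by simp [inner_smul_left])
    (fun u v v' => by simp [inner_add_right]) (fun c u v => by simp [inner_smul_right]))
    (‖j‖ ^ 2) (fun u v => by
      simp only [LinearMap.mk₂_apply]
      calc ‖⟪j u, j v⟫_ℝ‖ ≤ ‖j u‖ * ‖j v‖ := norm_inner_le_norm _ _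
        _ ≤ (‖j‖ * ‖u‖) * (‖j‖ * ‖v‖) := by gcongr <;> exact j.le_opNorm _
        _ = ‖j‖ ^ 2 * ‖u‖ * ‖v‖ := by ring)

theorem gram_apply (j : V →L[ℝ] H) (u v : V) : gram j u v = ⟪j u, j v⟫_ℝ := rfl

/-- the shifted form `B(u,v) = a(u,v) + <ju,jv>` -/
def B : V →L[ℝ] V →L[ℝ] ℝ := A.a + gram j

theorem B_apply (u v : V) : A.B u v = A.a u v + ⟪j u, j v⟫_ℝ := rfl

theorem B_symm (u v : V) : A.B u v = A.B v u := by
  rw [B_apply, B_apply, A.symm, real_inner_comm]

theorem B_self (v : V) : A.B v v = A.a v v + ‖j v‖ ^ 2 := by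
  rw [B_apply, real_inner_self_eq_norm_sq]

theorem B_nonneg (v : V) : 0 ≤ A.B v v := by
  rw [B_self]; have := A.nonneg v; positivity

theorem coer' (v : V) : A.c * ‖v‖ ^ 2 ≤ A.B v v := by
  rw [B_self]; exact A.coer v

theorem coercive : IsCoercive A.B :=
  ⟨A.c, A.c_pos, fun v => by have := A.coer' v; nlinarith [this]⟩

variable [CompleteSpace H] [CompleteSpace V]

/-- the solution operator `T : H → V`, `B(T f, v) = <f, j v>` -/
def T : H →L[ℝ] V :=
  (A.coercive.continuousLinearEquivOfBilin.symm : V →L[ℝ] V).comp (ContinuousLinearMap.adjoint j)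

theorem B_T (f : H) (v : V) : A.B (A.T f) v = ⟪f, j v⟫_ℝ := by
  rw [← A.coercive.continuousLinearEquivOfBilin_apply]
  simp only [T, ContinuousLinearMap.comp_apply, ContinuousLinearEquiv.coe_coe,
    ContinuousLinearEquiv.apply_symm_apply]
  rw [ContinuousLinearMap.adjoint_inner_left]

/-- the resolvent on `H` -/
def R : H →L[ℝ] H := j.comp A.T

theorem R_apply (f : H) : A.R f = j (A.T f) := rfl

theorem inner_R (f g : H) : ⟪A.R f, g⟫_ℝ = A.B (A.T f) (A.T g) := by
  rw [A.B_symm, B_T, R_apply, real_inner_comm]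

theorem pco (hc : IsCompactOperator j) (hd : DenseRange j) : PCO A.R where
  cpt := hc.comp_clm A.T
  symm x y := by rw [inner_R, real_inner_comm, inner_R, B_symm]
  pos x hx := by
    rw [inner_R]
    have hT : A.T x ≠ 0 := by
      intro h0
      apply hx
      have h1 : ∀ v, ⟪x, j v⟫_ℝ = 0 := fun v => by rw [← A.B_T, h0]; simp
      have h2 : ∀ y, ⟪x, y⟫_ℝ = 0 := by
        intro y
        have : IsClosed {y : H | ⟪x, y⟫_ℝ = 0} :=
          isClosed_eq (by fun_prop) continuous_const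
        exact hd.induction_on y this h1
      exact inner_self_eq_zero.1 (h2 x)
    have h3 := A.coer' (A.T x)
    have h4 : 0 < A.c * ‖A.T x‖ ^ 2 := by
      have := A.c_pos
      have : 0 < ‖A.T x‖ := norm_pos_iff.2 hT
      positivity
    linarith

/-- **existence of the sorted eigenbasis of a form** -/
theorem exists_formSeq (hc : IsCompactOperator j) (hd : DenseRange j)
    (hinf : ¬ FiniteDimensional ℝ H) : Nonempty (FormSeq A) := by
  obtain ⟨E⟩ := (A.pco hc hd).exists_eigSeq hinf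
  have hR : ∀ k, ⟪A.R (E.e k), E.e k⟫_ℝ = E.τ k := by
    intro k
    rw [E.eig, inner_smul_left, real_inner_self_eq_norm_sq, E.e.orthonormal.1 k]
    simp
  have hτ1 : ∀ k, E.τ k ≤ 1 := by
    intro k
    have h1 : A.B (A.T (E.e k)) (A.T (E.e k)) = E.τ k := by rw [← inner_R, hR]
    have h2 : ‖A.R (E.e k)‖ ^ 2 ≤ E.τ k := by
      rw [← h1, B_self, R_apply]
      linarith [A.nonneg (A.T (E.e k))]
    rw [E.eig, norm_smul, E.e.orthonormal.1 k, mul_one, Real.norm_of_nonneg (E.pos k).le] at h2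
    nlinarith [E.pos k]
  refine ⟨⟨fun k => (E.τ k)⁻¹ - 1, ?_, ?_, ?_, E.e, fun k => (E.τ k)⁻¹ • A.T (E.e k), ?_, ?_⟩⟩
  · intro k l hkl
    have := inv_anti₀ (E.pos l) (E.anti hkl)
    simp only
    linarith
  · intro k
    have := one_le_inv_iff₀.2 ⟨E.pos k, hτ1 k⟩
    linarith
  · have h1 : Tendsto (fun k => (E.τ k)⁻¹) atTop atTop := by
      refine Filter.Tendsto.comp tendsto_inv_nhdsGT_zero (tendsto_nhdsWithin_iff.2 ⟨E.lim, ?_⟩)
      exact Filter.Eventually.of_forall fun k => E.pos k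
    exact tendsto_atTop_add_const_right _ _ h1
  · intro k
    rw [map_smul]
    have := E.eig k
    rw [R_apply] at this
    rw [this, smul_smul, inv_mul_cancel₀ (E.pos k).ne', one_smul]
  · intro k v
    have h1 := A.B_T (E.e k) v
    have h2 : A.B ((E.τ k)⁻¹ • A.T (E.e k)) v = (E.τ k)⁻¹ * ⟪E.e k, j v⟫_ℝ := by
      rw [map_smul, _root_.smul_apply, h1, smul_eq_mul]
    rw [B_apply] at h2
    have h3 : j ((E.τ k)⁻¹ • A.T (E.e k)) = E.e k := by
      rw [map_smul]
      have := E.eig k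
      rw [R_apply] at this
      rw [this, smul_smul, inv_mul_cancel₀ (E.pos k).ne', one_smul]
    rw [h3] at h2
    linarith

end CForm

/-! ### Parseval -/

theorem hasSum_sq_repr (e : HilbertBasis ℕ ℝ H) (x : H) :
    HasSum (fun k => ⟪e k, x⟫_ℝ ^ 2) (‖x‖ ^ 2) := by
  have h := e.hasSum_inner_mul_inner x x
  rw [real_inner_self_eq_norm_sq] at h
  refine h.congr_fun ?_ |> fun h => h
  intro k
  rw [real_inner_comm x (e k)]
  ring

namespace FormSeq

variable {j : V →L[ℝ] H} {A : CForm j} (S : FormSeq A)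

theorem a_ev_ev (k l : ℕ) : A.a (S.ev k) (S.ev l) = if k = l then S.lam k else 0 := by
  rw [S.eig, S.j_ev]
  have := S.e.orthonormal
  rw [orthonormal_iff_ite] at this
  rw [this]
  split_ifs <;> simp

/-- partial sums of the expansion in `V` -/
def psum (v : V) (n : ℕ) : V := ∑ k ∈ Finset.range n, ⟪S.e k, j v⟫_ℝ • S.ev k

theorem j_psum (v : V) (n : ℕ) :
    j (S.psum v n) = ∑ k ∈ Finset.range n, ⟪S.e k, j v⟫_ℝ • S.e k := by
  simp [psum, map_sum, S.j_ev]

theorem B_ev (k : ℕ) (v : V) : A.B (S.ev k) v = (S.lam k + 1) * ⟪S.e k, j v⟫_ℝ := by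
  rw [A.B_apply, S.eig, S.j_ev]; ring

theorem inner_e_psum (v : V) (n k : ℕ) :
    ⟪S.e k, j (S.psum v n)⟫_ℝ = if k < n then ⟪S.e k, j v⟫_ℝ else 0 := by
  rw [j_psum, inner_sum]
  have := S.e.orthonormal
  rw [orthonormal_iff_ite] at this
  simp_rw [inner_smul_right, this]
  simp

theorem B_psum (v w : V) (n : ℕ) :
    A.B (S.psum v n) w = ∑ k ∈ Finset.range n, (S.lam k + 1) * (⟪S.e k, j v⟫_ℝ * ⟪S.e k, j w⟫_ℝ) := by
  simp only [psum, map_sum, map_smul, _root_.sum_apply, _root_.smul_apply,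
    smul_eq_mul]
  refine Finset.sum_congr rfl fun k _ => ?_
  rw [B_ev]; ring

theorem B_sub_psum (v : V) (n : ℕ) :
    A.B (v - S.psum v n) (v - S.psum v n)
      = A.B v v - ∑ k ∈ Finset.range n, (S.lam k + 1) * ⟪S.e k, j v⟫_ℝ ^ 2 := by
  have h1 : A.B (S.psum v n) v = ∑ k ∈ Finset.range n, (S.lam k + 1) * ⟪S.e k, j v⟫_ℝ ^ 2 := by
    rw [B_psum]; refine Finset.sum_congr rfl fun k _ => by ring
  have h2 : A.B (S.psum v n) (S.psum v n)
      = ∑ k ∈ Finset.range n, (S.lam k + 1) * ⟪S.e k, j v⟫_ℝ ^ 2 := by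
    rw [B_psum]; refine Finset.sum_congr rfl fun k hk => ?_
    rw [inner_e_psum, if_pos (Finset.mem_range.1 hk)]; ring
  have h3 : A.B (v - S.psum v n) (v - S.psum v n)
      = A.B v v - A.B v (S.psum v n) - A.B (S.psum v n) v + A.B (S.psum v n) (S.psum v n) := by
    simp only [map_sub, _root_.sub_apply]; ring
  rw [h3, A.B_symm v (S.psum v n), h1, h2]; ring

theorem sum_le_B (v : V) (n : ℕ) :
    ∑ k ∈ Finset.range n, (S.lam k + 1) * ⟪S.e k, j v⟫_ℝ ^ 2 ≤ A.B v v := by
  have h1 := S.B_sub_psum v n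
  have h2 := A.B_nonneg (v - S.psum v n)
  linarith

theorem summable_B (v : V) : Summable fun k => (S.lam k + 1) * ⟪S.e k, j v⟫_ℝ ^ 2 := by
  refine summable_of_sum_range_le (c := A.B v v) (fun k => ?_) (fun n => S.sum_le_B v n)
  have := S.nonneg k
  positivity

variable [CompleteSpace V]

theorem tendsto_psum (hj : Function.Injective j) (v : V) :
    Tendsto (S.psum v) atTop (𝓝 v) := by
  -- Cauchy in V
  have hcau : CauchySeq (S.psum v) := by
    rw [Metric.cauchySeq_iff']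
    intro ε hε
    have hsum := (S.summable_B v).hasSum.tendsto_sum_nat.cauchySeq
    rw [Metric.cauchySeq_iff'] at hsum
    obtain ⟨N, hN⟩ := hsum (A.c * ε ^ 2) (by have := A.c_pos; positivity)
    refine ⟨N, fun n hn => ?_⟩
    have h1 := hN n hn
    have h2 : S.psum v n - S.psum v N = S.psum (v - S.psum v N) n := by
      rw [psum, psum, psum, sub_eq_iff_eq_add]
      have hsplit : ∑ k ∈ Finset.range N, ⟪S.e k, j v⟫_ℝ • S.ev k
          = ∑ k ∈ Finset.range n, (if k < N then ⟪S.e k, j v⟫_ℝ else 0) • S.ev k := by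
        rw [← Finset.sum_subset (Finset.range_subset_range.2 hn)]
        · refine Finset.sum_congr rfl fun k hk => ?_
          rw [if_pos (Finset.mem_range.1 hk)]
        · intro k _ hk
          rw [if_neg (by simpa using hk), zero_smul]
      have hrw : ∀ k, ⟪S.e k, j (v - ∑ k ∈ Finset.range N, ⟪S.e k, j v⟫_ℝ • S.ev k)⟫_ℝ
          = ⟪S.e k, j v⟫_ℝ - (if k < N then ⟪S.e k, j v⟫_ℝ else 0) := by
        intro k
        have := S.inner_e_psum v N k
        rw [psum] at this
        rw [map_sub, inner_sub_right, this]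
      rw [hsplit, ← Finset.sum_add_distrib]
      refine Finset.sum_congr rfl fun k _ => ?_
      rw [← hsplit, hrw, ← add_smul]
      congr 1
      ring
    have h3 : A.c * ‖S.psum v n - S.psum v N‖ ^ 2
        ≤ ∑ k ∈ Finset.range n, (S.lam k + 1) * ⟪S.e k, j v⟫_ℝ ^ 2
          - ∑ k ∈ Finset.range N, (S.lam k + 1) * ⟪S.e k, j v⟫_ℝ ^ 2 := by
      have h4 := A.coer' (S.psum v n - S.psum v N)
      have h5 : A.B (S.psum v n - S.psum v N) (S.psum v n - S.psum v N)
          = A.B (S.psum v n) (S.psum v n) - A.B (S.psum v N) (S.psum v n)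
            - A.B (S.psum v N) (S.psum v n) + A.B (S.psum v N) (S.psum v N) := by
        simp only [map_sub, _root_.sub_apply]
        rw [A.B_symm (S.psum v n) (S.psum v N)]; ring
      have h6 : A.B (S.psum v N) (S.psum v n)
          = ∑ k ∈ Finset.range N, (S.lam k + 1) * ⟪S.e k, j v⟫_ℝ ^ 2 := by
        rw [B_psum]; refine Finset.sum_congr rfl fun k hk => ?_
        rw [inner_e_psum, if_pos (lt_of_lt_of_le (Finset.mem_range.1 hk) hn)]; ring
      have h7 : ∀ m, A.B (S.psum v m) (S.psum v m)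
          = ∑ k ∈ Finset.range m, (S.lam k + 1) * ⟪S.e k, j v⟫_ℝ ^ 2 := by
        intro m
        rw [B_psum]; refine Finset.sum_congr rfl fun k hk => ?_
        rw [inner_e_psum, if_pos (Finset.mem_range.1 hk)]; ring
      rw [h5, h6, h7, h7] at h4
      linarith
    rw [Real.dist_eq] at h1
    have h8 : A.c * ‖S.psum v n - S.psum v N‖ ^ 2 < A.c * ε ^ 2 :=
      lt_of_le_of_lt (h3.trans (le_abs_self _)) h1
    have h9 : ‖S.psum v n - S.psum v N‖ ^ 2 < ε ^ 2 := lt_of_mul_lt_mul_left h8 A.c_pos.le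
    rw [dist_eq_norm]
    exact lt_of_pow_lt_pow_left₀ 2 hε.le h9
  obtain ⟨w, hw⟩ := cauchySeq_tendsto_of_complete hcau
  have h1 : Tendsto (fun n => j (S.psum v n)) atTop (𝓝 (j w)) := (j.continuous.tendsto _).comp hw
  have h2 : Tendsto (fun n => j (S.psum v n)) atTop (𝓝 (j v)) := by
    have := (S.e.hasSum_repr (j v)).tendsto_sum_nat
    refine this.congr fun n => ?_
    rw [j_psum]
    refine Finset.sum_congr rfl fun k _ => ?_
    rw [S.e.repr_apply_apply]
  have h3 : w = v := hj (tendsto_nhds_unique h1 h2)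
  rw [h3] at hw
  exact hw

theorem hasSum_B (hj : Function.Injective j) (v : V) :
    HasSum (fun k => (S.lam k + 1) * ⟪S.e k, j v⟫_ℝ ^ 2) (A.B v v) := by
  have h1 := (S.summable_B v).hasSum
  have h2 : Tendsto (fun n => A.B (S.psum v n) v) atTop (𝓝 (A.B v v)) := by
    have h3 : Continuous fun u : V => A.B u v := by fun_prop
    exact (h3.tendsto v).comp (S.tendsto_psum hj v)
  have h3 : Tendsto (fun n => ∑ k ∈ Finset.range n, (S.lam k + 1) * ⟪S.e k, j v⟫_ℝ ^ 2) atTop
      (𝓝 (A.B v v)) := by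
    refine h2.congr fun n => ?_
    rw [B_psum]; refine Finset.sum_congr rfl fun k _ => by ring
  have h4 := tendsto_nhds_unique h1.tendsto_sum_nat h3
  rw [h4] at h1
  exact h1

/-- **form Parseval** -/
theorem hasSum_a (hj : Function.Injective j) (v : V) :
    HasSum (fun k => S.lam k * ⟪S.e k, j v⟫_ℝ ^ 2) (A.a v v) := by
  have h1 := (S.hasSum_B hj v).sub (hasSum_sq_repr S.e (j v))
  have h2 : A.B v v - ‖j v‖ ^ 2 = A.a v v := by rw [A.B_self]; ring
  rw [h2] at h1
  refine h1.congr_fun ?_ |> fun h => h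
  intro k
  ring

end FormSeq

end Crest.Agent.R202.Sp
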