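import Crest.Agent.R202.SpinOde
import Crest.Agent.R202.SpinOps

/-! Row 202, PART C1 (helper816): orthogonality and Parseval for the radial functions. -/

set_option autoImplicit false

namespace Crest.Agent.R202

open MeasureTheory Set Polynomial Filter Topology

theorem Rj_mul_Rj {d : ℕ} (d1 q d2 q' : ℕ) {μ : ℝ} (i j : ℕ) {x : ℝ} (hx : x ∈ Ioo (lft d) 1) :
    Rj d1 q μ i x * Rj d2 q' μ j x =
      (1 - x ^ 2) ^ μ * ((jQ d1 q μ i).eval x * (jQ d2 q' μ j).eval x) := by
  have h := one_sub_sq_pos hx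
  unfold Rj
  have : (1 - x ^ 2) ^ μ = (1 - x ^ 2) ^ (μ / 2) * (1 - x ^ 2) ^ (μ / 2) := by
    rw [← Real.rpow_add h]; congr 1; ring
  rw [this]; ring

/-- Lagrange identity, integrated. -/
theorem lagrange {d q q' : ℕ} {μ : ℝ} (hμ : 0 ≤ μ) (hE : E0 d q = E0 d q') (i j : ℕ) :
    (Ej d q' μ j - Ej d q μ i) *
      ∫ x in Ioo (lft d) 1, x ^ d * (Rj d q μ i x * Rj d q' μ j x) = 0 := by
  set A := jQ d q μ i with hA
  set B := jQ d q' μ j with hB
  have hμ1 : (1 : ℝ) ≤ μ + 1 := by linarith
  have hab : lft d ≤ 1 := (lft_lt_one d).le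
  have hcA : ∀ x, HasDerivAt (fun x : ℝ => (derivative A).eval x * B.eval x -
      A.eval x * (derivative B).eval x)
      ((derivative (derivative A)).eval x * B.eval x -
        A.eval x * (derivative (derivative B)).eval x) x := by
    intro x
    have h := (((derivative A).hasDerivAt x).mul (B.hasDerivAt x)).sub
      ((A.hasDerivAt x).mul ((derivative B).hasDerivAt x))
    exact h.congr_deriv (by ring)
  have hcont : Continuous fun x : ℝ => (1 - x ^ 2) ^ (μ + 1) * (x ^ d *
      ((derivative A).eval x * B.eval x - A.eval x * (derivative B).eval x)) := by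
    apply Continuous.mul
    · exact Continuous.rpow_const (by fun_prop) (fun x => Or.inr (by linarith))
    · apply Continuous.mul (by fun_prop)
      exact (((derivative A).continuous.mul B.continuous).sub
        (A.continuous.mul (derivative B).continuous))
  have hint : Continuous fun x : ℝ => (Ej d q' μ j - Ej d q μ i) *
      (x ^ d * ((1 - x ^ 2) ^ μ * (A.eval x * B.eval x))) := by
    apply Continuous.mul continuous_const
    apply Continuous.mul (by fun_prop)
    apply Continuous.mul
    · exact Continuous.rpow_const (by fun_prop) (fun x => Or.inr hμ)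
    · exact A.continuous.mul B.continuous
  have hftc := integral_eq_of_hasDerivAt_off_countable_of_le
    (fun x : ℝ => (1 - x ^ 2) ^ (μ + 1) * (x ^ d *
      ((derivative A).eval x * B.eval x - A.eval x * (derivative B).eval x)))
    (fun x : ℝ => (Ej d q' μ j - Ej d q μ i) *
      (x ^ d * ((1 - x ^ 2) ^ μ * (A.eval x * B.eval x)))) hab (countable_singleton (0 : ℝ))
    hcont.continuousOn (by
      intro x hx
      have hx0 : x ≠ 0 := by simpa using hx.2
      have hpos := one_sub_sq_pos hx.1
      have hne : (1 - x ^ 2) ≠ 0 := hpos.ne'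
      have h1 : HasDerivAt (fun x : ℝ => 1 - x ^ 2) (-(2 * x)) x := by
        have := (hasDerivAt_pow 2 x).const_sub 1
        simpa using this
      have h2 := h1.rpow_const (p := μ + 1) (Or.inr hμ1)
      have h3 := h2.mul ((hasDerivAt_pow d x).mul (hcA x))
      refine h3.congr_deriv ?_
      have hd : (d : ℝ) * x ^ (d - 1) = (d : ℝ) * x ^ d / x := by
        rcases d with _ | d
        · simp
        · rw [Nat.add_sub_cancel, pow_succ]; field_simp
      rw [Pi.mul_apply]
      rw [hd, Real.rpow_add_one hne, add_sub_cancel_right]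
      have oA := jQ_ode_eval d q μ i x
      have oB := jQ_ode_eval d q' μ j x
      rw [← hA] at oA
      rw [← hB, ← hE] at oB
      set w := (1 - x ^ 2) ^ μ
      have hA2 : (derivative (derivative A)).eval x =
          ((E0 d q - (Ej d q μ i - μ ^ 2 - μ * (1 + d)) * x ^ 2) * A.eval x -
            d * x * (1 - x ^ 2) * (derivative A).eval x +
            2 * (μ + 1) * x ^ 3 * (derivative A).eval x) / (x ^ 2 * (1 - x ^ 2)) := by
        rw [eq_div_iff (mul_ne_zero (pow_ne_zero 2 hx0) hne)]
        linear_combination oA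
      have hB2 : (derivative (derivative B)).eval x =
          ((E0 d q - (Ej d q' μ j - μ ^ 2 - μ * (1 + d)) * x ^ 2) * B.eval x -
            d * x * (1 - x ^ 2) * (derivative B).eval x +
            2 * (μ + 1) * x ^ 3 * (derivative B).eval x) / (x ^ 2 * (1 - x ^ 2)) := by
        rw [eq_div_iff (mul_ne_zero (pow_ne_zero 2 hx0) hne)]
        linear_combination oB
      rw [hA2, hB2]
      field_simp
      ring)
    (hint.intervalIntegrable _ _)
  rw [intervalIntegral.integral_of_le hab, integral_Ioc_eq_integral_Ioo] at hftc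
  have e : ∫ x in Ioo (lft d) 1, x ^ d * (Rj d q μ i x * Rj d q' μ j x) =
      ∫ x in Ioo (lft d) 1, x ^ d * ((1 - x ^ 2) ^ μ * (A.eval x * B.eval x)) := by
    apply setIntegral_congr_fun measurableSet_Ioo
    intro x hx
    simp only
    rw [Rj_mul_Rj (d := d) d q d q' i j hx]
  rw [e, ← integral_const_mul, hftc]
  have z1 : (1 - (1 : ℝ) ^ 2) ^ (μ + 1) = 0 := by
    rw [one_pow, sub_self]; exact Real.zero_rpow (by linarith)
  simp only [z1, zero_mul, zero_sub, neg_eq_zero]
  by_cases hd : d = 0
  · subst hd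
    rw [lft_zero]
    have : (1 - (-1 : ℝ) ^ 2) ^ (μ + 1) = 0 := by
      rw [neg_one_sq, sub_self]; exact Real.zero_rpow (by linarith)
    rw [this, zero_mul]
  · rw [lft_pos hd]
    simp [hd]

/-- the square of the norm of `R_j` in `L²(x^d dx)`. -/
noncomputable def nj (d q : ℕ) (μ : ℝ) (j : ℕ) : ℝ :=
  ∫ x in Ioo (lft d) 1, x ^ d * Rj d q μ j x ^ 2

theorem Rj_cont (d q : ℕ) {μ : ℝ} (hμ : 0 ≤ μ) (j : ℕ) : Continuous (Rj d q μ j) := by
  unfold Rj
  apply Continuous.mul
  · exact Continuous.rpow_const (by fun_prop) (fun x => Or.inr (by linarith))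
  · exact (jQ d q μ j).continuous

theorem jQ_ne_zero (d q : ℕ) (μ : ℝ) (j : ℕ) : jQ d q μ j ≠ 0 := by
  intro h
  have h1 := jp_eval_zero d q μ j
  unfold jQ at h
  have h2 := (mul_eq_zero.mp h).resolve_left (pow_ne_zero _ X_ne_zero)
  have h3 := congrArg (fun p : ℝ[X] => p.eval 0) h2
  simp only [eval_comp, eval_pow, eval_X, eval_zero, ne_eq, OfNat.ofNat_ne_zero,
    not_false_eq_true, zero_pow] at h3
  rw [h1] at h3
  exact one_ne_zero h3

theorem nj_pos (d q : ℕ) {μ : ℝ} (hμ : 0 ≤ μ) (j : ℕ) : 0 < nj d q μ j := by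
  unfold nj
  have hc : Continuous fun x : ℝ => x ^ d * Rj d q μ j x ^ 2 :=
    (continuous_pow d).mul ((Rj_cont d q hμ j).pow 2)
  have hint : IntegrableOn (fun x : ℝ => x ^ d * Rj d q μ j x ^ 2) (Ioo (lft d) 1) :=
    (hc.continuousOn.integrableOn_Icc (a := lft d) (b := 1)).mono_set Ioo_subset_Icc_self
  rw [setIntegral_pos_iff_support_of_nonneg_ae]
  · -- the support contains all but finitely many points
    have hfin : {x : ℝ | (jQ d q μ j).eval x = 0}.Finite := by
      apply ((jQ d q μ j).roots.toFinset.finite_toSet).subset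
      intro x hx
      simp only [Finset.mem_coe, Multiset.mem_toFinset]
      exact (mem_roots (jQ_ne_zero d q μ j)).mpr hx
    have hsub : Ioo (lft d) 1 \ {x : ℝ | (jQ d q μ j).eval x = 0} ⊆
        Function.support (fun x : ℝ => x ^ d * Rj d q μ j x ^ 2) ∩ Ioo (lft d) 1 := by
      intro x hx
      refine ⟨?_, hx.1⟩
      rw [Function.mem_support]
      have h1 := pow_pos_of_mem hx.1
      have h2 : (0 : ℝ) < (1 - x ^ 2) ^ (μ / 2) := Real.rpow_pos_of_pos (one_sub_sq_pos hx.1) _
      have h3 : (jQ d q μ j).eval x ≠ 0 := hx.2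
      unfold Rj
      positivity
    have hm := measure_mono (μ := volume) hsub
    refine lt_of_lt_of_le ?_ hm
    rw [measure_sdiff_null (hfin.measure_zero volume)]
    simp [Real.volume_Ioo, lft_lt_one]
  · filter_upwards [ae_restrict_mem measurableSet_Ioo] with x hx
    exact mul_nonneg (pow_nonneg_of_mem hx) (sq_nonneg _)
  · exact hint

theorem ortho (d q : ℕ) {μ : ℝ} (hμ : 0 ≤ μ) {i j : ℕ} (hij : i ≠ j) :
    ∫ x in Ioo (lft d) 1, x ^ d * (Rj d q μ i x * Rj d q μ j x) = 0 := by
  have h := lagrange (d := d) (q := q) (q' := q) hμ rfl i j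
  have : Ej d q μ j - Ej d q μ i ≠ 0 :=
    sub_ne_zero.mpr ((Ej_strictMono d q hμ).injective.ne hij.symm)
  exact (mul_eq_zero.mp h).resolve_left this

theorem ortho_three {q q' : ℕ} (hq : q ≤ 1) (hq' : q' ≤ 1) {μ : ℝ} (hμ : 0 ≤ μ) {i j : ℕ}
    (hij : 2 * i + q ≠ 2 * j + q') :
    ∫ x in Ioo (-1 : ℝ) 1, Rj 0 q μ i x * Rj 0 q' μ j x = 0 := by
  have h := lagrange (d := 0) (q := q) (q' := q') hμ (by rw [E0_three hq, E0_three hq']) i j
  have hne : Ej 0 q' μ j - Ej 0 q μ i ≠ 0 := by
    unfold Ej aj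
    intro hcon
    set a : ℝ := μ + 2 * j + q' with ha
    set b : ℝ := μ + 2 * i + q with hb
    have h1 : (a - b) * (a + b + 1) = 0 := by
      push_cast at hcon
      linear_combination hcon
    have ha0 : 0 ≤ a := by rw [ha]; positivity
    have hb0 : 0 ≤ b := by rw [hb]; positivity
    have h2 : a = b := by
      have := (mul_eq_zero.mp h1).resolve_right (by positivity)
      linarith
    apply hij
    have h3 : (2 * (i : ℝ) + q) = 2 * j + q' := by rw [ha, hb] at h2; linarith
    exact_mod_cast h3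
  have h2 := (mul_eq_zero.mp h).resolve_left hne
  rw [lft_zero] at h2
  simpa using h2

end Crest.Agent.R202
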