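import Crest.Agent.R202.SpinEn

/-! Row 202, PART C1 (helper816): weak form of the eigenvalue equation and the energy Bessel
inequality. -/

set_option autoImplicit false

namespace Crest.Agent.R202

open MeasureTheory Set Polynomial Filter Topology
open scoped ContDiff

/-- the tip weight. -/
noncomputable def Jt (μ : ℝ) (x : ℝ) : ℝ := if μ = 0 then 0 else (1 - x ^ 2) ^ (μ - 1)

theorem Jt_int {μ : ℝ} (hμ : 0 ≤ μ) (d : ℕ) : IntegrableOn (fun x => x ^ d * Jt μ x)
    (Ioo (lft d) 1) := by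
  rcases hμ.eq_or_lt with h0 | h0
  · have : (fun x : ℝ => x ^ d * Jt μ x) = fun _ => (0 : ℝ) := by
      ext x; unfold Jt; rw [if_pos h0.symm, mul_zero]
    rw [this]; exact integrableOn_zero
  · have hi := (integrableOn_tip h0 d).mul_continuousOn_of_subset
      (continuous_pow d).continuousOn measurableSet_Ioo isCompact_Icc Ioo_subset_Icc_self
    refine hi.congr_fun ?_ measurableSet_Ioo
    intro x _
    unfold Jt
    simp only
    rw [if_neg h0.ne', mul_comm]

theorem Jt_nonneg {d : ℕ} (μ : ℝ) {x : ℝ} (hx : x ∈ Ioo (lft d) 1) : 0 ≤ Jt μ x := by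
  unfold Jt
  split_ifs
  · exact le_rfl
  · exact Real.rpow_nonneg (one_sub_sq_pos hx).le _

theorem tip_aux {d : ℕ} {μ : ℝ} (hμ : 0 ≤ μ) {x : ℝ} (hx : x ∈ Ioo (lft d) 1) (s : ℝ) :
    μ * (1 - x ^ 2) ^ (μ / 2) * |s| / (1 - x ^ 2) ≤
      (Jt μ x + μ ^ 2 / (1 - x ^ 2) * s ^ 2) / 2 := by
  have hr := one_sub_sq_pos hx
  rcases hμ.eq_or_lt with h0 | h0
  · subst h0
    unfold Jt
    simp
  · unfold Jt
    rw [if_neg h0.ne']
    have h1 := w_sq μ hx
    have h2 := w_pred μ hx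
    have h3 : (1 - x ^ 2) ^ (μ - 1) = ((1 - x ^ 2) ^ (μ / 2)) ^ 2 / (1 - x ^ 2) := by
      rw [h1, ← h2]; field_simp
    rw [h3]
    set w := (1 - x ^ 2) ^ (μ / 2)
    set r := 1 - x ^ 2
    have : (w ^ 2 / r + μ ^ 2 / r * s ^ 2) / 2 = ((w ^ 2 + μ ^ 2 * s ^ 2) / 2) / r := by
      field_simp
    rw [this]
    apply div_le_div_of_nonneg_right _ hr.le
    nlinarith [sq_nonneg (w - μ * |s|), sq_abs s]

theorem w_le_one {d : ℕ} {μ : ℝ} (hμ : 0 ≤ μ) {x : ℝ} (hx : x ∈ Ioo (lft d) 1) :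
    (1 - x ^ 2) ^ (μ / 2) ≤ 1 :=
  Real.rpow_le_one (one_sub_sq_pos hx).le (by nlinarith [sq_nonneg x]) (by linarith)

theorem boundary_bound {d q : ℕ} (hadm : d = 0 → q ≤ 1) {μ : ℝ} (hμ : 0 ≤ μ) (j : ℕ) :
    ∃ C : ℝ, 0 ≤ C ∧ ∀ x ∈ Ioo (lft d) 1, ∀ s : ℝ,
      |Flj d q μ j x * s / ((x - lft d) * (1 - x))| ≤
        C * (x ^ d + x ^ d * s ^ 2 + x ^ d * (μ ^ 2 / (1 - x ^ 2)) * s ^ 2 +
          x ^ d * (E0 d q / x ^ 2) * s ^ 2 + x ^ d * Jt μ x) := by
  obtain ⟨M, hM0, hM⟩ := jQ_bounds d q μ j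
  have hE0 := E0_nonneg d q
  have hinv : 0 ≤ 1 / E0 d q := by positivity
  refine ⟨2 * M * (1 + 1 / E0 d q), by positivity, fun x hx s => ?_⟩
  obtain ⟨b1, b2, b3, b4⟩ := hM x (Ioo_sub_Icc d hx)
  have hr := one_sub_sq_pos hx
  have ht := pow_nonneg_of_mem hx
  have hw0 : 0 ≤ (1 - x ^ 2) ^ (μ / 2) := Real.rpow_nonneg hr.le _
  have hw1 := w_le_one hμ hx
  have hJ := Jt_nonneg μ hx
  have htip := tip_aux hμ hx s
  have hx1 : |x| ≤ 1 := abs_le.mpr (Ioo_sub_Icc d hx)
  have hA : 0 ≤ μ ^ 2 / (1 - x ^ 2) * s ^ 2 := by positivity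
  have hB : 0 ≤ E0 d q / x ^ 2 * s ^ 2 := by positivity
  -- the bound of the derivative times `s`
  have hdR : |dRj d q μ j x * s| ≤ |(derivative (jQ d q μ j)).eval x| * |s| +
      M * |x| * ((Jt μ x + μ ^ 2 / (1 - x ^ 2) * s ^ 2) / 2) := by
    have e : dRj d q μ j x * s = (1 - x ^ 2) ^ (μ / 2) * ((derivative (jQ d q μ j)).eval x * s) -
        (μ * (1 - x ^ 2) ^ (μ / 2) / (1 - x ^ 2)) * (x * ((jQ d q μ j).eval x * s)) := by
      unfold dRj; ring
    rw [e]
    refine (abs_sub _ _).trans (add_le_add ?_ ?_)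
    · rw [abs_mul, abs_of_nonneg hw0, abs_mul]
      exact mul_le_of_le_one_left (by positivity) hw1
    · have p1 : 0 ≤ μ * (1 - x ^ 2) ^ (μ / 2) / (1 - x ^ 2) := by positivity
      rw [abs_mul, abs_of_nonneg p1, abs_mul, abs_mul]
      calc μ * (1 - x ^ 2) ^ (μ / 2) / (1 - x ^ 2) * (|x| * (|(jQ d q μ j).eval x| * |s|))
          ≤ μ * (1 - x ^ 2) ^ (μ / 2) / (1 - x ^ 2) * (|x| * (M * |s|)) := by gcongr
        _ = M * |x| * (μ * (1 - x ^ 2) ^ (μ / 2) * |s| / (1 - x ^ 2)) := by ring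
        _ ≤ _ := by gcongr
  have habs : |s| ≤ (1 + s ^ 2) / 2 := by nlinarith [sq_nonneg (|s| - 1), sq_abs s]
  by_cases hd : d = 0
  · subst hd
    have e : Flj 0 q μ j x * s / ((x - lft 0) * (1 - x)) = dRj 0 q μ j x * s := by
      unfold Flj
      have h1 : (x - lft 0) * (1 - x) = 1 - x ^ 2 := by rw [lft_zero]; ring
      rw [h1, pow_zero, one_mul]
      field_simp
    rw [e]
    refine hdR.trans ?_
    rw [pow_zero]
    simp only [one_mul]
    have h2 : M * |x| * ((Jt μ x + μ ^ 2 / (1 - x ^ 2) * s ^ 2) / 2) ≤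
        M * ((Jt μ x + μ ^ 2 / (1 - x ^ 2) * s ^ 2) / 2) := by
      apply mul_le_mul_of_nonneg_right _ (by positivity)
      exact mul_le_of_le_one_right hM0 hx1
    have h3 : |(derivative (jQ 0 q μ j)).eval x| * |s| ≤ M * ((1 + s ^ 2) / 2) :=
      mul_le_mul b2 habs (abs_nonneg _) hM0
    have h4 : M * (1 + s ^ 2 + μ ^ 2 / (1 - x ^ 2) * s ^ 2 + E0 0 q / x ^ 2 * s ^ 2 + Jt μ x) ≤
        2 * M * (1 + 1 / E0 0 q) * (1 + s ^ 2 + μ ^ 2 / (1 - x ^ 2) * s ^ 2 +
          E0 0 q / x ^ 2 * s ^ 2 + Jt μ x) := by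
      apply mul_le_mul_of_nonneg_right _ (by positivity)
      nlinarith [mul_nonneg hM0 hinv]
    refine le_trans ?_ h4
    have p2 := mul_nonneg hM0 (sq_nonneg s)
    have p3 := mul_nonneg hM0 hA
    have p4 := mul_nonneg hM0 hB
    have p5 := mul_nonneg hM0 hJ
    nlinarith
  · have h0 := lft_pos hd
    have hx0 : 0 < x := by
      have := hx.1
      rwa [h0] at this
    have hax : |x| = x := abs_of_pos hx0
    have e : Flj d q μ j x * s / ((x - lft d) * (1 - x)) =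
        x ^ d * (1 + x) / x * (dRj d q μ j x * s) := by
      unfold Flj
      rw [h0, sub_zero]
      have h1 : 1 - x ≠ 0 := by
        have := hx.2
        exact (sub_pos.mpr this).ne'
      field_simp
      ring
    rw [e, abs_mul]
    have hpos : 0 ≤ x ^ d * (1 + x) / x := by positivity
    rw [abs_of_nonneg hpos]
    have hle : x ^ d * (1 + x) / x ≤ 2 * x ^ d / x := by
      apply div_le_div_of_nonneg_right _ hx0.le
      nlinarith [hx.2]
    -- first part divided by x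
    have hfirst : |(derivative (jQ d q μ j)).eval x| * |s| / x ≤
        M * (1 + 1 / E0 d q) * (1 + s ^ 2 + E0 d q / x ^ 2 * s ^ 2) / 2 := by
      by_cases hq : q = 0
      · have h5 := b4 hq
        rw [hax] at h5
        have h6 : |(derivative (jQ d q μ j)).eval x| * |s| / x ≤ M * |s| := by
          rw [div_le_iff₀ hx0]
          calc |(derivative (jQ d q μ j)).eval x| * |s| ≤ M * x * |s| := by gcongr
            _ = M * |s| * x := by ring
        refine h6.trans ?_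
        have h7 : M * |s| ≤ M * ((1 + s ^ 2) / 2) := by gcongr
        refine h7.trans ?_
        have p1 := mul_nonneg hM0 hinv
        have p2 := mul_nonneg p1 (sq_nonneg s)
        have p3 := mul_nonneg hM0 hB
        have p4 := mul_nonneg p1 hB
        nlinarith
      · have hEpos : 0 < E0 d q := by
          unfold E0
          have h5 : (1 : ℝ) ≤ q := by exact_mod_cast Nat.one_le_iff_ne_zero.mpr hq
          have h6 : (1 : ℝ) ≤ d := by exact_mod_cast Nat.one_le_iff_ne_zero.mpr hd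
          have : (0 : ℝ) < (q : ℝ) + d - 1 := by linarith
          positivity
        have h6 : |(derivative (jQ d q μ j)).eval x| * |s| / x ≤ M * (|s| / x) := by
          rw [mul_div_assoc]
          gcongr
        refine h6.trans ?_
        have h7 : |s| / x ≤ (1 + s ^ 2 / x ^ 2) / 2 := by
          have : s ^ 2 / x ^ 2 = (|s| / x) ^ 2 := by rw [div_pow, sq_abs]
          rw [this]
          nlinarith [sq_nonneg (|s| / x - 1)]
        have h8 : s ^ 2 / x ^ 2 = 1 / E0 d q * (E0 d q / x ^ 2 * s ^ 2) := by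
          field_simp
        have h9 : M * (|s| / x) ≤ M * ((1 + 1 / E0 d q * (E0 d q / x ^ 2 * s ^ 2)) / 2) := by
          rw [← h8]; gcongr
        refine h9.trans ?_
        have p1 := mul_nonneg hM0 hinv
        have p2 := mul_nonneg p1 (sq_nonneg s)
        have p3 := mul_nonneg hM0 hB
        have p4 := mul_nonneg p1 hB
        have p5 := mul_nonneg hM0 (sq_nonneg s)
        nlinarith
    calc x ^ d * (1 + x) / x * |dRj d q μ j x * s|
        ≤ 2 * x ^ d / x * (|(derivative (jQ d q μ j)).eval x| * |s| +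
          M * |x| * ((Jt μ x + μ ^ 2 / (1 - x ^ 2) * s ^ 2) / 2)) := by gcongr
      _ = 2 * x ^ d * (|(derivative (jQ d q μ j)).eval x| * |s| / x) +
          x ^ d * (M * (Jt μ x + μ ^ 2 / (1 - x ^ 2) * s ^ 2)) := by
          rw [hax]; field_simp
      _ ≤ 2 * x ^ d * (M * (1 + 1 / E0 d q) * (1 + s ^ 2 + E0 d q / x ^ 2 * s ^ 2) / 2) +
          x ^ d * (M * (Jt μ x + μ ^ 2 / (1 - x ^ 2) * s ^ 2)) := by gcongr
      _ ≤ _ := by
          have p1 := mul_nonneg hM0 hinv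
          have p2 : 0 ≤ M * (1 + 1 / E0 d q) * (1 + s ^ 2 + E0 d q / x ^ 2 * s ^ 2) := by positivity
          have p3 : 0 ≤ M * (Jt μ x + μ ^ 2 / (1 - x ^ 2) * s ^ 2) := by positivity
          have p4 : 0 ≤ M * (1 / E0 d q) * (Jt μ x + μ ^ 2 / (1 - x ^ 2) * s ^ 2) := by positivity
          have : 2 * M * (1 + 1 / E0 d q) * (x ^ d + x ^ d * s ^ 2 +
              x ^ d * (μ ^ 2 / (1 - x ^ 2)) * s ^ 2 +
              x ^ d * (E0 d q / x ^ 2) * s ^ 2 + x ^ d * Jt μ x) =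
              x ^ d * (2 * (M * (1 + 1 / E0 d q) * (1 + s ^ 2 + E0 d q / x ^ 2 * s ^ 2)) +
                2 * (M * (Jt μ x + μ ^ 2 / (1 - x ^ 2) * s ^ 2)) +
                2 * (M * (1 / E0 d q) * (Jt μ x + μ ^ 2 / (1 - x ^ 2) * s ^ 2))) := by ring
          rw [this]
          have : 2 * x ^ d * (M * (1 + 1 / E0 d q) * (1 + s ^ 2 + E0 d q / x ^ 2 * s ^ 2) / 2) +
              x ^ d * (M * (Jt μ x + μ ^ 2 / (1 - x ^ 2) * s ^ 2)) =
              x ^ d * ((M * (1 + 1 / E0 d q) * (1 + s ^ 2 + E0 d q / x ^ 2 * s ^ 2)) +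
                (M * (Jt μ x + μ ^ 2 / (1 - x ^ 2) * s ^ 2))) := by ring
          rw [this]
          apply mul_le_mul_of_nonneg_left _ ht
          linarith

theorem Flj_contDiffOn {d q : ℕ} (μ : ℝ) (j : ℕ) :
    ContDiffOn ℝ ∞ (Flj d q μ j) (Ioo (lft d) 1) := by
  have hp : ∀ p : ℝ[X], ContDiff ℝ ∞ fun x : ℝ => p.eval x := fun p => by
    simpa using (Polynomial.contDiff_aeval (𝕜 := ℝ) p ∞)
  have hne : ∀ x ∈ Ioo (lft d) 1, (1 : ℝ) - x ^ 2 ≠ 0 := fun x hx => (one_sub_sq_pos hx).ne'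
  unfold Flj dRj
  apply ContDiffOn.mul
  · fun_prop
  · apply ContDiffOn.mul
    · exact ContDiffOn.rpow_const_of_ne (by fun_prop) hne
    · apply ContDiffOn.sub (hp _).contDiffOn
      apply ContDiffOn.mul _ (hp _).contDiffOn
      exact ContDiffOn.div (by fun_prop) (by fun_prop) hne

/-- weak form of the eigenvalue equation. -/
theorem weak_form {d q : ℕ} (hadm : d = 0 → q ≤ 1) {μ : ℝ} (hμ : 0 ≤ μ) (j : ℕ)
    {S g : ℝ → ℝ} (hS : FinEn d q μ S g) :
    en d q μ (Rj d q μ j) (dRj d q μ j) S g = Ej d q μ j * coef d q μ j S := by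
  have hR := Rj_finEn hadm hμ j
  have c0 := hR.c0 hS
  have c1 := hR.c1 hS
  have c2 := hR.c2 hS
  have c3 := hR.c3 hS
  have h2 : IntegrableOn (fun x => ((μ ^ 2 / (1 - x ^ 2) + E0 d q / x ^ 2 - Ej d q μ j) *
      (x ^ d * Rj d q μ j x)) * S x) (Ioo (lft d) 1) := by
    have h := (c2.add c3).sub (c0.const_mul (Ej d q μ j))
    refine h.congr_fun ?_ measurableSet_Ioo
    intro x _
    simp only [Pi.add_apply, Pi.sub_apply]
    ring
  have h1 : IntegrableOn (fun x => Flj d q μ j x * g x) (Ioo (lft d) 1) := by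
    refine c1.congr_fun ?_ measurableSet_Ioo
    intro x _
    simp only [Flj]
    ring
  have h3 : IntegrableOn (fun x => Flj d q μ j x * S x / ((x - lft d) * (1 - x)))
      (Ioo (lft d) 1) := by
    obtain ⟨C, hC0, hC⟩ := boundary_bound hadm hμ j
    have hdom : IntegrableOn (fun x => C * (x ^ d + x ^ d * S x ^ 2 +
        x ^ d * (μ ^ 2 / (1 - x ^ 2)) * S x ^ 2 +
          x ^ d * (E0 d q / x ^ 2) * S x ^ 2 + x ^ d * Jt μ x)) (Ioo (lft d) 1) :=
      (((((integrableOn_cont (continuous_pow d)).add hS.i0).add hS.i2).add hS.i3).add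
        (Jt_int hμ d)).const_mul C
    refine Integrable.mono' hdom ?_ ?_
    · have m1 : AEStronglyMeasurable (Flj d q μ j) (volume.restrict (Ioo (lft d) 1)) :=
        (Flj_contDiffOn μ j).continuousOn.aestronglyMeasurable measurableSet_Ioo
      have m2 : Measurable fun x : ℝ => ((x - lft d) * (1 - x))⁻¹ := by fun_prop
      have m3 := (m1.mul hS.mS).mul (m2.aestronglyMeasurable (μ := volume.restrict (Ioo (lft d) 1)))
      exact m3.congr (by filter_upwards with x; simp [div_eq_mul_inv])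
    · filter_upwards [ae_restrict_mem measurableSet_Ioo] with x hx
      exact hC x hx (S x)
  have hparts := weak_parts (Fl' := fun x => (μ ^ 2 / (1 - x ^ 2) + E0 d q / x ^ 2 - Ej d q μ j) *
      (x ^ d * Rj d q μ j x)) hS.w (Flj_contDiffOn μ j)
    (fun x hx => Flj_hasDerivAt' hadm μ j hx) h1 h2 h3
  have c23 : IntegrableOn (fun x => x ^ d * (μ ^ 2 / (1 - x ^ 2)) * (Rj d q μ j x * S x) +
        x ^ d * (E0 d q / x ^ 2) * (Rj d q μ j x * S x)) (Ioo (lft d) 1) := c2.add c3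
  have c0' : IntegrableOn (fun x => Ej d q μ j * (x ^ d * (S x * Rj d q μ j x)))
      (Ioo (lft d) 1) := by
    have h : IntegrableOn (fun x => Ej d q μ j * (x ^ d * (Rj d q μ j x * S x)))
      (Ioo (lft d) 1) := c0.const_mul (Ej d q μ j)
    refine h.congr_fun ?_ measurableSet_Ioo
    intro x _
    simp only
    ring
  have e1 : en d q μ (Rj d q μ j) (dRj d q μ j) S g =
      (∫ x in Ioo (lft d) 1, Flj d q μ j x * g x) +
      ∫ x in Ioo (lft d) 1, (x ^ d * (μ ^ 2 / (1 - x ^ 2)) * (Rj d q μ j x * S x) +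
        x ^ d * (E0 d q / x ^ 2) * (Rj d q μ j x * S x)) := by
    rw [← integral_add h1 c23]
    unfold en
    apply setIntegral_congr_fun measurableSet_Ioo
    intro x _
    simp only [den, Flj]
    ring
  have e2 : ∫ x in Ioo (lft d) 1, ((μ ^ 2 / (1 - x ^ 2) + E0 d q / x ^ 2 - Ej d q μ j) *
      (x ^ d * Rj d q μ j x)) * S x =
      (∫ x in Ioo (lft d) 1, (x ^ d * (μ ^ 2 / (1 - x ^ 2)) * (Rj d q μ j x * S x) +
        x ^ d * (E0 d q / x ^ 2) * (Rj d q μ j x * S x))) - Ej d q μ j * coef d q μ j S := by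
    unfold coef
    rw [← integral_const_mul, ← integral_sub c23 c0']
    apply setIntegral_congr_fun measurableSet_Ioo
    intro x _
    simp only
    ring
  rw [e1, hparts, e2]
  ring

end Crest.Agent.R202
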