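import Crest.Agent.R202.SpinForm

/-! Row 202, PART C1 (helper816): finite energy pairs and the weak form of the eigenvalue
equation. -/

set_option autoImplicit false

namespace Crest.Agent.R202

open MeasureTheory Set Polynomial Filter Topology
open scoped ContDiff

/-- finite energy pairs `(S, g)`, `g` the weak derivative of `S`. -/
structure FinEn (d q : ℕ) (μ : ℝ) (S g : ℝ → ℝ) : Prop where
  mS : AEStronglyMeasurable S (volume.restrict (Ioo (lft d) 1))
  mg : AEStronglyMeasurable g (volume.restrict (Ioo (lft d) 1))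
  i0 : IntegrableOn (fun x => x ^ d * S x ^ 2) (Ioo (lft d) 1)
  i1 : IntegrableOn (fun x => x ^ d * (1 - x ^ 2) * g x ^ 2) (Ioo (lft d) 1)
  i2 : IntegrableOn (fun x => x ^ d * (μ ^ 2 / (1 - x ^ 2)) * S x ^ 2) (Ioo (lft d) 1)
  i3 : IntegrableOn (fun x => x ^ d * (E0 d q / x ^ 2) * S x ^ 2) (Ioo (lft d) 1)
  w : WeakDerivOn (lft d) 1 S g

theorem poly_bound (p : ℝ[X]) : ∃ M : ℝ, 0 ≤ M ∧ ∀ x ∈ Icc (-1 : ℝ) 1, |p.eval x| ≤ M := by
  obtain ⟨M, hM⟩ := (isCompact_Icc (a := (-1 : ℝ)) (b := 1)).exists_bound_of_continuousOn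
    p.continuous.continuousOn
  exact ⟨max M 0, le_max_right _ _, fun x hx => (hM x hx).trans (le_max_left _ _)⟩

theorem jQ_bounds (d q : ℕ) (μ : ℝ) (j : ℕ) : ∃ M : ℝ, 0 ≤ M ∧ ∀ x ∈ Icc (-1 : ℝ) 1,
    |(jQ d q μ j).eval x| ≤ M ∧ |(derivative (jQ d q μ j)).eval x| ≤ M ∧
    (q ≠ 0 → |(jQ d q μ j).eval x| ≤ M * |x|) ∧
    (q = 0 → |(derivative (jQ d q μ j)).eval x| ≤ M * |x|) := by
  obtain ⟨M1, h1, h1'⟩ := poly_bound (jQ d q μ j)
  obtain ⟨M2, h2, h2'⟩ := poly_bound (derivative (jQ d q μ j))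
  obtain ⟨M3, h3, h3'⟩ := poly_bound (X ^ (q - 1) * (jp d q μ j).comp (X ^ 2))
  obtain ⟨M4, h4, h4'⟩ := poly_bound (C 2 * (derivative (jp d q μ j)).comp (X ^ 2))
  refine ⟨M1 + M2 + M3 + M4, by positivity, fun x hx => ⟨?_, ?_, ?_, ?_⟩⟩
  · linarith [h1' x hx]
  · linarith [h2' x hx]
  · intro hq
    have e : jQ d q μ j = X * (X ^ (q - 1) * (jp d q μ j).comp (X ^ 2)) := by
      unfold jQ
      rw [← mul_assoc, ← pow_succ']
      congr 2
      omega
    have e2 : (jQ d q μ j).eval x = x * (X ^ (q - 1) * (jp d q μ j).comp (X ^ 2)).eval x := by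
      rw [e, eval_mul, eval_X]
    rw [e2, abs_mul, mul_comm]
    exact mul_le_mul_of_nonneg_right (by linarith [h3' x hx]) (abs_nonneg _)
  · intro hq
    have e : derivative (jQ d q μ j) = X * (C 2 * (derivative (jp d q μ j)).comp (X ^ 2)) := by
      unfold jQ
      rw [hq, pow_zero, one_mul, derivative_comp, derivative_X_pow]
      simp only [Nat.cast_ofNat, map_ofNat, Nat.add_one_sub_one, pow_one]
      ring
    have e2 : (derivative (jQ d q μ j)).eval x =
        x * (C 2 * (derivative (jp d q μ j)).comp (X ^ 2)).eval x := by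
      rw [e, eval_mul, eval_X]
    rw [e2, abs_mul, mul_comm]
    exact mul_le_mul_of_nonneg_right (by linarith [h4' x hx]) (abs_nonneg _)

theorem Ioo_sub_Icc (d : ℕ) : Ioo (lft d) 1 ⊆ Icc (-1 : ℝ) 1 := fun _ hx =>
  ⟨(neg_one_le_lft d).trans hx.1.le, hx.2.le⟩

theorem integrableOn_cont {d : ℕ} {f : ℝ → ℝ} (hf : Continuous f) :
    IntegrableOn f (Ioo (lft d) 1) :=
  (hf.continuousOn.integrableOn_Icc (a := lft d) (b := 1)).mono_set Ioo_subset_Icc_self

theorem w_cont {μ : ℝ} (hμ : 0 ≤ μ) : Continuous fun x : ℝ => (1 - x ^ 2) ^ μ :=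
  Continuous.rpow_const (by fun_prop) (fun _ => Or.inr hμ)

theorem w_sq {d : ℕ} (μ : ℝ) {x : ℝ} (hx : x ∈ Ioo (lft d) 1) :
    ((1 - x ^ 2) ^ (μ / 2)) ^ 2 = (1 - x ^ 2) ^ μ := by
  have h := one_sub_sq_pos hx
  rw [sq, ← Real.rpow_add h]; congr 1; ring

theorem w_pred {d : ℕ} (μ : ℝ) {x : ℝ} (hx : x ∈ Ioo (lft d) 1) :
    (1 - x ^ 2) ^ (μ - 1) * (1 - x ^ 2) = (1 - x ^ 2) ^ μ := by
  have h := one_sub_sq_pos hx
  rw [Real.rpow_sub_one h.ne']
  field_simp

theorem Rj_finEn {d q : ℕ} (hadm : d = 0 → q ≤ 1) {μ : ℝ} (hμ : 0 ≤ μ) (j : ℕ) :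
    FinEn d q μ (Rj d q μ j) (dRj d q μ j) := by
  have hcQ := (jQ d q μ j).continuous
  have hcQ' := (derivative (jQ d q μ j)).continuous
  have hdc : ContinuousOn (dRj d q μ j) (Ioo (lft d) 1) := by
    unfold dRj
    apply ContinuousOn.mul
    · exact (w_cont (by linarith)).continuousOn
    · apply ContinuousOn.sub hcQ'.continuousOn
      apply ContinuousOn.mul _ hcQ.continuousOn
      apply ContinuousOn.div (by fun_prop) (by fun_prop)
      intro x hx
      exact (one_sub_sq_pos hx).ne'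
  refine ⟨(Rj_cont d q hμ j).aestronglyMeasurable, hdc.aestronglyMeasurable measurableSet_Ioo,
    integrableOn_cont ((continuous_pow d).mul ((Rj_cont d q hμ j).pow 2)), ?_, ?_, ?_,
    weakDeriv_of_hasDerivAt (fun x hx => Rj_hasDerivAt d q μ j (one_sub_sq_pos hx)) hdc⟩
  · rcases hμ.eq_or_lt with h0 | h0
    · subst h0
      have hc : Continuous fun x : ℝ => x ^ d * (1 - x ^ 2) *
          (derivative (jQ d q 0 j)).eval x ^ 2 := by fun_prop
      refine (integrableOn_cont hc).congr_fun ?_ measurableSet_Ioo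
      intro x hx
      simp only [dRj]
      simp
    · have hc : Continuous fun x : ℝ => x ^ d * ((1 - x ^ 2) *
          (derivative (jQ d q μ j)).eval x - μ * x * (jQ d q μ j).eval x) ^ 2 := by fun_prop
      have hi := (integrableOn_tip h0 d).mul_continuousOn_of_subset hc.continuousOn
        measurableSet_Ioo isCompact_Icc Ioo_subset_Icc_self
      refine hi.congr_fun ?_ measurableSet_Ioo
      intro x hx
      simp only [dRj]
      have h1 := w_sq μ hx
      have h2 := w_pred μ hx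
      have h3 := (one_sub_sq_pos hx).ne'
      rw [mul_pow, h1, ← h2]
      field_simp
  · rcases hμ.eq_or_lt with h0 | h0
    · subst h0
      have : (fun x : ℝ => x ^ d * ((0 : ℝ) ^ 2 / (1 - x ^ 2)) * Rj d q 0 j x ^ 2) =
          fun _ => (0 : ℝ) := by ext x; simp
      rw [this]
      exact integrableOn_zero
    · have hc : Continuous fun x : ℝ => μ ^ 2 * (x ^ d * (jQ d q μ j).eval x ^ 2) := by fun_prop
      have hi := (integrableOn_tip h0 d).mul_continuousOn_of_subset hc.continuousOn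
        measurableSet_Ioo isCompact_Icc Ioo_subset_Icc_self
      refine hi.congr_fun ?_ measurableSet_Ioo
      intro x hx
      simp only [Rj]
      have h1 := w_sq μ hx
      have h2 := w_pred μ hx
      have h3 := (one_sub_sq_pos hx).ne'
      rw [mul_pow, h1, ← h2]
      field_simp
  · by_cases hE : E0 d q = 0
    · have : (fun x : ℝ => x ^ d * (E0 d q / x ^ 2) * Rj d q μ j x ^ 2) =
          fun _ => (0 : ℝ) := by ext x; rw [hE]; simp
      rw [this]
      exact integrableOn_zero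
    · have hd : d ≠ 0 := by
        intro hd
        subst hd
        exact hE (E0_three (hadm rfl))
      have hq : q ≠ 0 := by
        intro hq
        apply hE
        rw [hq]; simp [E0]
      have hc : Continuous fun x : ℝ => E0 d q * (x ^ d * ((1 - x ^ 2) ^ μ *
          (X ^ (q - 1) * (jp d q μ j).comp (X ^ 2)).eval x ^ 2)) := by
        have h1 := w_cont hμ
        have h2 := (X ^ (q - 1) * (jp d q μ j).comp (X ^ 2) : ℝ[X]).continuous
        exact continuous_const.mul ((continuous_pow d).mul (h1.mul (h2.pow 2)))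
      refine (integrableOn_cont hc).congr_fun ?_ measurableSet_Ioo
      intro x hx
      simp only [Rj]
      have h1 := w_sq μ hx
      have hx0 : x ≠ 0 := by
        have := hx.1
        rw [lft_pos hd] at this
        exact this.ne'
      have e : jQ d q μ j = X * (X ^ (q - 1) * (jp d q μ j).comp (X ^ 2)) := by
        unfold jQ
        rw [← mul_assoc, ← pow_succ']
        congr 2
        omega
      have e2 : (jQ d q μ j).eval x = x * (X ^ (q - 1) * (jp d q μ j).comp (X ^ 2)).eval x := by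
        rw [e, eval_mul, eval_X]
      rw [mul_pow, h1, e2]
      field_simp

theorem int_mul {s : Set ℝ} (hs : MeasurableSet s) {W S T : ℝ → ℝ}
    (hW : AEStronglyMeasurable W (volume.restrict s)) (hW0 : ∀ x ∈ s, 0 ≤ W x)
    (mS : AEStronglyMeasurable S (volume.restrict s))
    (mT : AEStronglyMeasurable T (volume.restrict s))
    (h1 : IntegrableOn (fun x => W x * S x ^ 2) s)
    (h2 : IntegrableOn (fun x => W x * T x ^ 2) s) :
    IntegrableOn (fun x => W x * (S x * T x)) s := by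
  refine Integrable.mono' (h1.add h2) (hW.mul (mS.mul mT)) ?_
  filter_upwards [ae_restrict_mem hs] with x hx
  have h0 := hW0 x hx
  simp only [Pi.add_apply]
  rw [Real.norm_eq_abs, abs_mul, abs_of_nonneg h0, ← mul_add]
  apply mul_le_mul_of_nonneg_left _ h0
  rw [abs_mul]
  nlinarith [sq_nonneg (|S x| - |T x|), sq_abs (S x), sq_abs (T x), sq_nonneg (S x),
    sq_nonneg (T x)]

section
variable {d q : ℕ} {μ : ℝ} {S g T h : ℝ → ℝ}

theorem meas_aux1 (d : ℕ) : AEStronglyMeasurable (fun x : ℝ => x ^ d * (1 - x ^ 2))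
    (volume.restrict (Ioo (lft d) 1)) := by
  have : Measurable fun x : ℝ => x ^ d * (1 - x ^ 2) := by fun_prop
  exact this.aestronglyMeasurable

theorem meas_aux2 (d : ℕ) (μ : ℝ) : AEStronglyMeasurable
    (fun x : ℝ => x ^ d * (μ ^ 2 / (1 - x ^ 2))) (volume.restrict (Ioo (lft d) 1)) := by
  have : Measurable fun x : ℝ => x ^ d * (μ ^ 2 / (1 - x ^ 2)) := by fun_prop
  exact this.aestronglyMeasurable

theorem meas_aux3 (d : ℕ) (e : ℝ) : AEStronglyMeasurable
    (fun x : ℝ => x ^ d * (e / x ^ 2)) (volume.restrict (Ioo (lft d) 1)) := by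
  have : Measurable fun x : ℝ => x ^ d * (e / x ^ 2) := by fun_prop
  exact this.aestronglyMeasurable

theorem FinEn.c0 (hS : FinEn d q μ S g) (hT : FinEn d q μ T h) :
    IntegrableOn (fun x => x ^ d * (S x * T x)) (Ioo (lft d) 1) :=
  int_mul measurableSet_Ioo (continuous_pow d).aestronglyMeasurable
    (fun _ hx => pow_nonneg_of_mem hx) hS.mS hT.mS hS.i0 hT.i0

theorem FinEn.c1 (hS : FinEn d q μ S g) (hT : FinEn d q μ T h) :
    IntegrableOn (fun x => x ^ d * (1 - x ^ 2) * (g x * h x)) (Ioo (lft d) 1) :=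
  int_mul measurableSet_Ioo (meas_aux1 d)
    (fun _ hx => mul_nonneg (pow_nonneg_of_mem hx) (one_sub_sq_pos hx).le) hS.mg hT.mg hS.i1 hT.i1

theorem FinEn.c2 (hS : FinEn d q μ S g) (hT : FinEn d q μ T h) :
    IntegrableOn (fun x => x ^ d * (μ ^ 2 / (1 - x ^ 2)) * (S x * T x)) (Ioo (lft d) 1) :=
  int_mul measurableSet_Ioo (meas_aux2 d μ)
    (fun _ hx => mul_nonneg (pow_nonneg_of_mem hx)
      (div_nonneg (sq_nonneg _) (one_sub_sq_pos hx).le)) hS.mS hT.mS hS.i2 hT.i2

theorem FinEn.c3 (hS : FinEn d q μ S g) (hT : FinEn d q μ T h) :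
    IntegrableOn (fun x => x ^ d * (E0 d q / x ^ 2) * (S x * T x)) (Ioo (lft d) 1) :=
  int_mul measurableSet_Ioo (meas_aux3 d _)
    (fun _ hx => mul_nonneg (pow_nonneg_of_mem hx)
      (div_nonneg (E0_nonneg d q) (sq_nonneg _))) hS.mS hT.mS hS.i3 hT.i3

end

/-- the density of the energy form. -/
noncomputable def den (d q : ℕ) (μ : ℝ) (x s g t h : ℝ) : ℝ :=
  x ^ d * (1 - x ^ 2) * (g * h) + x ^ d * (μ ^ 2 / (1 - x ^ 2)) * (s * t) +
    x ^ d * (E0 d q / x ^ 2) * (s * t)

/-- the energy form. -/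
noncomputable def en (d q : ℕ) (μ : ℝ) (S g T h : ℝ → ℝ) : ℝ :=
  ∫ x in Ioo (lft d) 1, den d q μ x (S x) (g x) (T x) (h x)

theorem den_comm (d q : ℕ) (μ x s g t h : ℝ) : den d q μ x s g t h = den d q μ x t h s g := by
  unfold den; ring

theorem en_comm (d q : ℕ) (μ : ℝ) (S g T h : ℝ → ℝ) : en d q μ S g T h = en d q μ T h S g := by
  unfold en
  simp_rw [den_comm d q μ _ (S _)]

theorem den_nonneg {d q : ℕ} {μ : ℝ} {x : ℝ} (hx : x ∈ Ioo (lft d) 1) (s g : ℝ) :
    0 ≤ den d q μ x s g s g := by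
  unfold den
  have h1 := pow_nonneg_of_mem hx
  have h2 := one_sub_sq_pos hx
  have h3 := E0_nonneg d q
  have h4 := mul_self_nonneg s
  have h5 := mul_self_nonneg g
  positivity

theorem FinEn.int_den {d q : ℕ} {μ : ℝ} {S g T h : ℝ → ℝ} (hS : FinEn d q μ S g)
    (hT : FinEn d q μ T h) :
    IntegrableOn (fun x => den d q μ x (S x) (g x) (T x) (h x)) (Ioo (lft d) 1) :=
  ((hS.c1 hT).add (hS.c2 hT)).add (hS.c3 hT)

end Crest.Agent.R202
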