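import Crest.Agent.R202.SpinBessel

/-! Row 202, PART C1 (helper816): energy Bessel inequality and the lower bound of the energy. -/

set_option autoImplicit false

namespace Crest.Agent.R202

open MeasureTheory Set Polynomial Filter Topology

theorem coef_Rj (d q : ℕ) {μ : ℝ} (hμ : 0 ≤ μ) (i j : ℕ) :
    coef d q μ j (Rj d q μ i) = if i = j then nj d q μ j else 0 := by
  unfold coef
  split_ifs with h
  · subst h
    unfold nj
    congr 1
    ext x
    ring
  · exact ortho d q hμ h

theorem den_sum (d q : ℕ) (μ x : ℝ) (N : ℕ) (c s g : ℕ → ℝ) (t h : ℝ) :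
    den d q μ x (∑ j ∈ Finset.range N, c j * s j) (∑ j ∈ Finset.range N, c j * g j) t h =
      ∑ j ∈ Finset.range N, c j * den d q μ x (s j) (g j) t h := by
  induction N with
  | zero => simp [den]
  | succ N ih =>
    rw [Finset.sum_range_succ, Finset.sum_range_succ, Finset.sum_range_succ, ← ih]
    unfold den; ring

theorem en_sum {d q : ℕ} {μ : ℝ} (N : ℕ) (c : ℕ → ℝ) {s g : ℕ → ℝ → ℝ} {T h : ℝ → ℝ}
    (hs : ∀ j, FinEn d q μ (s j) (g j)) (hT : FinEn d q μ T h) :
    en d q μ (fun x => ∑ j ∈ Finset.range N, c j * s j x)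
      (fun x => ∑ j ∈ Finset.range N, c j * g j x) T h =
      ∑ j ∈ Finset.range N, c j * en d q μ (s j) (g j) T h := by
  unfold en
  simp_rw [den_sum d q μ _ N c]
  rw [integral_finsetSum]
  · simp_rw [integral_const_mul]
  · intro j _
    exact ((hs j).int_den hT).const_mul (c j)

theorem WeakDerivOn.sum {a b : ℝ} {s g : ℕ → ℝ → ℝ} (hs : ∀ j, WeakDerivOn a b (s j) (g j))
    (his : ∀ j, IntegrableOn (s j) (Ioo a b)) (hig : ∀ j, LocallyIntegrableOn (g j) (Ioo a b))
    (N : ℕ) (c : ℕ → ℝ) :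
    WeakDerivOn a b (fun x => ∑ j ∈ Finset.range N, c j * s j x)
      (fun x => ∑ j ∈ Finset.range N, c j * g j x) := by
  intro φ hφ hφc hφs
  have i1 : ∀ j, IntegrableOn (fun x => s j x * deriv φ x) (Ioo a b) := by
    intro j
    have hc : Continuous (deriv φ) := hφ.continuous_deriv (by simp)
    exact (his j).mul_continuousOn_of_subset hc.continuousOn measurableSet_Ioo isCompact_Icc
      Ioo_subset_Icc_self
  have i2 : ∀ j, IntegrableOn (fun x => g j x * φ x) (Ioo a b) := by
    intro j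
    have h1 : IntegrableOn (g j) (tsupport φ) :=
      (hig j).integrableOn_compact_subset hφs hφc
    have h2 : IntegrableOn (fun x => g j x * φ x) (tsupport φ) :=
      h1.mul_continuousOn hφ.continuous.continuousOn hφc
    have h3 : Integrable (fun x => g j x * φ x) := by
      rw [← integrableOn_univ]
      exact h2.of_forall_sdiff_eq_zero MeasurableSet.univ (by
        intro x hx
        rw [image_eq_zero_of_notMem_tsupport hx.2, mul_zero])
    exact h3.integrableOn
  have e1 : ∀ x, (∑ j ∈ Finset.range N, c j * s j x) * deriv φ x =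
      ∑ j ∈ Finset.range N, c j * (s j x * deriv φ x) := by
    intro x
    rw [Finset.sum_mul]
    exact Finset.sum_congr rfl fun j _ => by ring
  have e2 : ∀ x, (∑ j ∈ Finset.range N, c j * g j x) * φ x =
      ∑ j ∈ Finset.range N, c j * (g j x * φ x) := by
    intro x
    rw [Finset.sum_mul]
    exact Finset.sum_congr rfl fun j _ => by ring
  simp_rw [e1, e2]
  rw [integral_finsetSum _ (fun j _ => (i1 j).const_mul (c j)),
    integral_finsetSum _ (fun j _ => (i2 j).const_mul (c j)), ← Finset.sum_neg_distrib]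
  apply Finset.sum_congr rfl
  intro j _
  rw [integral_const_mul, integral_const_mul, hs j φ hφ hφc hφs]
  ring

theorem en_self_Rj_sum {d q : ℕ} (hadm : d = 0 → q ≤ 1) {μ : ℝ} (hμ : 0 ≤ μ) (N : ℕ)
    (c : ℕ → ℝ) :
    (∫ x in Ioo (lft d) 1, den d q μ x (∑ j ∈ Finset.range N, c j * Rj d q μ j x)
      (∑ j ∈ Finset.range N, c j * dRj d q μ j x) (∑ j ∈ Finset.range N, c j * Rj d q μ j x)
      (∑ j ∈ Finset.range N, c j * dRj d q μ j x)) =
      ∑ j ∈ Finset.range N, c j ^ 2 * Ej d q μ j * nj d q μ j := by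
  have hR := fun j => Rj_finEn (q := q) hadm hμ j
  simp_rw [den_sum d q μ _ N c]
  simp_rw [den_comm d q μ _ (Rj d q μ _ _) (dRj d q μ _ _), den_sum d q μ _ N c]
  rw [integral_finsetSum]
  · apply Finset.sum_congr rfl
    intro j hj
    rw [integral_const_mul, integral_finsetSum]
    · simp_rw [integral_const_mul]
      have : ∀ i, ∫ x in Ioo (lft d) 1, den d q μ x (Rj d q μ i x) (dRj d q μ i x)
          (Rj d q μ j x) (dRj d q μ j x) = Ej d q μ i * coef d q μ i (Rj d q μ j) :=
        fun i => weak_form hadm hμ i (hR j)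
      simp_rw [this, coef_Rj d q hμ]
      rw [Finset.sum_eq_single_of_mem j hj]
      · simp; ring
      · intro b _ hb
        simp [hb.symm]
    · intro i _
      exact ((hR i).int_den (hR j)).const_mul (c i)
  · intro j _
    apply Integrable.const_mul
    apply integrable_finsetSum
    intro i _
    exact ((hR i).int_den (hR j)).const_mul (c i)

/-- energy Bessel inequality. -/
theorem en_bessel {d q : ℕ} (hadm : d = 0 → q ≤ 1) {μ : ℝ} (hμ : 0 ≤ μ) {S g : ℝ → ℝ}
    (hS : FinEn d q μ S g) (N : ℕ) :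
    ∑ j ∈ Finset.range N, Ej d q μ j * (coef d q μ j S ^ 2 / nj d q μ j) ≤ en d q μ S g S g := by
  have hR := fun j => Rj_finEn (q := q) hadm hμ j
  set c : ℕ → ℝ := fun j => coef d q μ j S / nj d q μ j with hc
  have hnj : ∀ j, nj d q μ j ≠ 0 := fun j => (nj_pos d q hμ j).ne'
  set T : ℝ → ℝ := fun x => ∑ j ∈ Finset.range N, c j * Rj d q μ j x with hT
  set h : ℝ → ℝ := fun x => ∑ j ∈ Finset.range N, c j * dRj d q μ j x with hh
  have e1 : en d q μ T h S g =
      ∑ j ∈ Finset.range N, Ej d q μ j * (coef d q μ j S ^ 2 / nj d q μ j) := by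
    rw [hT, hh, en_sum N c hR hS]
    apply Finset.sum_congr rfl
    intro j _
    rw [weak_form hadm hμ j hS, hc]
    ring
  have e2 : ∫ x in Ioo (lft d) 1, den d q μ x (T x) (h x) (T x) (h x) =
      ∑ j ∈ Finset.range N, Ej d q μ j * (coef d q μ j S ^ 2 / nj d q μ j) := by
    rw [hT, hh]
    simp only
    rw [en_self_Rj_sum hadm hμ N c]
    apply Finset.sum_congr rfl
    intro j _
    rw [hc]
    have := hnj j
    field_simp
  have i1 : IntegrableOn (fun x => den d q μ x (T x) (h x) (S x) (g x)) (Ioo (lft d) 1) := by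
    rw [hT, hh]
    simp_rw [den_sum d q μ _ N c]
    apply integrable_finsetSum
    intro j _
    exact ((hR j).int_den hS).const_mul (c j)
  have i2 : IntegrableOn (fun x => den d q μ x (T x) (h x) (T x) (h x)) (Ioo (lft d) 1) := by
    rw [hT, hh]
    simp_rw [den_sum d q μ _ N c]
    apply integrable_finsetSum
    intro j _
    apply Integrable.const_mul
    simp_rw [den_comm d q μ _ (Rj d q μ _ _) (dRj d q μ _ _), den_sum d q μ _ N c]
    apply integrable_finsetSum
    intro i _
    exact ((hR i).int_den (hR j)).const_mul (c i)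
  have i0 := hS.int_den hS
  have hnn : 0 ≤ ∫ x in Ioo (lft d) 1, den d q μ x (S x - T x) (g x - h x) (S x - T x)
      (g x - h x) := by
    apply setIntegral_nonneg measurableSet_Ioo
    intro x hx
    exact den_nonneg hx _ _
  have e3 : ∫ x in Ioo (lft d) 1, den d q μ x (S x - T x) (g x - h x) (S x - T x)
      (g x - h x) = en d q μ S g S g - 2 * en d q μ T h S g +
      ∫ x in Ioo (lft d) 1, den d q μ x (T x) (h x) (T x) (h x) := by
    unfold en
    rw [← integral_const_mul, ← integral_sub i0 (i1.const_mul 2), ← integral_add (by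
      exact i0.sub (i1.const_mul 2)) i2]
    apply setIntegral_congr_fun measurableSet_Ioo
    intro x _
    simp only [den]
    ring
  rw [e3, e1, e2] at hnn
  linarith

theorem FinEn.memLp {d q : ℕ} {μ : ℝ} {S g : ℝ → ℝ} (hS : FinEn d q μ S g) :
    MemLp (fun x => Real.sqrt (x ^ d) * S x) 2 (volume.restrict (Ioo (lft d) 1)) := by
  have hm : AEStronglyMeasurable (fun x => Real.sqrt (x ^ d) * S x)
      (volume.restrict (Ioo (lft d) 1)) :=
    ((continuous_pow d).sqrt.aestronglyMeasurable).mul hS.mS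
  rw [memLp_two_iff_integrable_sq hm]
  refine hS.i0.congr_fun ?_ measurableSet_Ioo
  intro x hx
  simp only
  rw [mul_pow, Real.sq_sqrt (pow_nonneg_of_mem hx)]

theorem parseval_sq {d q : ℕ} (hadm : d = 0 → q ≤ 1) {μ : ℝ} (hμ : 0 ≤ μ) {S g : ℝ → ℝ}
    (hS : FinEn d q μ S g) (hp : ParOK d q S) :
    HasSum (fun j => coef d q μ j S ^ 2 / nj d q μ j)
      (∫ x in Ioo (lft d) 1, x ^ d * S x ^ 2) := by
  have h := parseval hadm hμ hS.memLp hS.memLp hp
  simpa only [← sq] using h

/-- the lower bound of the energy. -/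
theorem en_lower {d q : ℕ} (hadm : d = 0 → q ≤ 1) {μ : ℝ} (hμ : 0 ≤ μ) {S g : ℝ → ℝ}
    (hS : FinEn d q μ S g) (hp : ParOK d q S) (N : ℕ) :
    (∑ j ∈ Finset.range N, Ej d q μ j * (coef d q μ j S ^ 2 / nj d q μ j)) +
      Ej d q μ N * ((∫ x in Ioo (lft d) 1, x ^ d * S x ^ 2) -
        ∑ j ∈ Finset.range N, coef d q μ j S ^ 2 / nj d q μ j) ≤ en d q μ S g S g := by
  have hsum := (parseval_sq hadm hμ hS hp).tendsto_sum_nat
  set b : ℕ → ℝ := fun j => coef d q μ j S ^ 2 / nj d q μ j with hb
  have hb0 : ∀ j, 0 ≤ b j := fun j => div_nonneg (sq_nonneg _) (nj_pos d q hμ j).le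
  have hmono := (Ej_strictMono d q hμ).monotone
  have key : ∀ M, N ≤ M → (∑ j ∈ Finset.range N, Ej d q μ j * b j) +
      Ej d q μ N * ((∑ j ∈ Finset.range M, b j) - ∑ j ∈ Finset.range N, b j) ≤
      en d q μ S g S g := by
    intro M hM
    refine le_trans ?_ (en_bessel hadm hμ hS M)
    have h1 : ∑ j ∈ Finset.range M, Ej d q μ j * (coef d q μ j S ^ 2 / nj d q μ j) =
        (∑ j ∈ Finset.range N, Ej d q μ j * b j) + ∑ j ∈ Finset.Ico N M, Ej d q μ j * b j :=
      (Finset.sum_range_add_sum_Ico _ hM).symm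
    have h2 : (∑ j ∈ Finset.range M, b j) - ∑ j ∈ Finset.range N, b j =
        ∑ j ∈ Finset.Ico N M, b j := by
      rw [← Finset.sum_range_add_sum_Ico _ hM]; ring
    rw [h1, h2, Finset.mul_sum]
    have h3 : ∑ j ∈ Finset.Ico N M, Ej d q μ N * b j ≤ ∑ j ∈ Finset.Ico N M, Ej d q μ j * b j := by
      apply Finset.sum_le_sum
      intro j hj
      exact mul_le_mul_of_nonneg_right (hmono (Finset.mem_Ico.mp hj).1) (hb0 j)
    linarith
  have hlim : Tendsto (fun M => (∑ j ∈ Finset.range N, Ej d q μ j * b j) +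
      Ej d q μ N * ((∑ j ∈ Finset.range M, b j) - ∑ j ∈ Finset.range N, b j)) atTop
      (𝓝 ((∑ j ∈ Finset.range N, Ej d q μ j * b j) +
      Ej d q μ N * ((∫ x in Ioo (lft d) 1, x ^ d * S x ^ 2) - ∑ j ∈ Finset.range N, b j))) :=
    ((hsum.sub_const _).const_mul _).const_add _
  exact le_of_tendsto hlim (by filter_upwards [eventually_ge_atTop N] with M hM using key M hM)

end Crest.Agent.R202
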