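import Mathlib

/-! Row 202, PART C1 (helper816): the Jacobi-type polynomials of the ideal spindle operator. -/

set_option autoImplicit false

namespace Crest.Agent.R202

open Polynomial

/-- `κ_i = 2 i (2 i + d + 2 q + 2 μ + 1)`. -/
noncomputable def kap (d q : ℕ) (μ : ℝ) (i : ℕ) : ℝ :=
  2 * i * (2 * i + d + 2 * q + 2 * μ + 1)

/-- coefficients of the `j`-th polynomial, normalised by `P_j(0) = 1`. -/
noncomputable def jc (d q : ℕ) (μ : ℝ) (j : ℕ) : ℕ → ℝ
  | 0 => 1
  | i + 1 => jc d q μ j i * (kap d q μ i - kap d q μ j) / (2 * (i + 1) * (2 * i + d + 2 * q + 1))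

/-- the `j`-th polynomial (in the variable `y = x²`). -/
noncomputable def jp (d q : ℕ) (μ : ℝ) (j : ℕ) : ℝ[X] :=
  ∑ i ∈ Finset.range (j + 1), C (jc d q μ j i) * X ^ i

theorem jc_zero (d q : ℕ) (μ : ℝ) (j : ℕ) : jc d q μ j 0 = 1 := rfl

theorem jc_succ (d q : ℕ) (μ : ℝ) (j i : ℕ) :
    jc d q μ j (i + 1) =
      jc d q μ j i * (kap d q μ i - kap d q μ j) / (2 * (i + 1) * (2 * i + d + 2 * q + 1)) := rfl

theorem jc_recur (d q : ℕ) (μ : ℝ) (j i : ℕ) :
    2 * ((i : ℝ) + 1) * (2 * i + d + 2 * q + 1) * jc d q μ j (i + 1) =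
      (kap d q μ i - kap d q μ j) * jc d q μ j i := by
  rw [jc_succ]
  have h1 : (0 : ℝ) < 2 * ((i : ℝ) + 1) := by positivity
  have h2 : (0 : ℝ) < 2 * (i : ℝ) + d + 2 * q + 1 := by positivity
  field_simp

theorem jc_eq_zero (d q : ℕ) (μ : ℝ) (j : ℕ) : ∀ i, j < i → jc d q μ j i = 0 := by
  intro i hi
  induction i with
  | zero => omega
  | succ i ih =>
    rw [jc_succ]
    rcases Nat.lt_or_ge j i with h | h
    · rw [ih h]; simp
    · have : i = j := by omega
      subst this
      simp

theorem kap_strictMono (d q : ℕ) {μ : ℝ} (hμ : 0 ≤ μ) : StrictMono (kap d q μ) := by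
  apply strictMono_nat_of_lt_succ
  intro i
  unfold kap
  push_cast
  have h1 : (0 : ℝ) ≤ (i : ℝ) := by positivity
  have h2 : (0 : ℝ) ≤ (d : ℝ) := by positivity
  have h3 : (0 : ℝ) ≤ (q : ℝ) := by positivity
  nlinarith

theorem kap_nonneg (d q : ℕ) {μ : ℝ} (hμ : 0 ≤ μ) (i : ℕ) : 0 ≤ kap d q μ i := by
  unfold kap; positivity

theorem jc_ne_zero (d q : ℕ) {μ : ℝ} (hμ : 0 ≤ μ) (j : ℕ) : ∀ i, i ≤ j → jc d q μ j i ≠ 0 := by
  intro i hi
  induction i with
  | zero => rw [jc_zero]; exact one_ne_zero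
  | succ i ih =>
    rw [jc_succ]
    have h0 := ih (by omega)
    have h1 : kap d q μ i < kap d q μ j := kap_strictMono d q hμ (by omega)
    have h2 : (0 : ℝ) < 2 * ((i : ℝ) + 1) * (2 * i + d + 2 * q + 1) := by positivity
    have h3 : kap d q μ i - kap d q μ j ≠ 0 := (sub_neg.mpr h1).ne
    exact div_ne_zero (mul_ne_zero h0 h3) h2.ne'

theorem jp_coeff (d q : ℕ) (μ : ℝ) (j i : ℕ) : (jp d q μ j).coeff i = jc d q μ j i := by
  unfold jp
  rw [finsetSum_coeff]
  simp only [coeff_C_mul, coeff_X_pow]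
  by_cases h : i < j + 1
  · rw [Finset.sum_eq_single_of_mem i (Finset.mem_range.mpr h)]
    · simp
    · intro b _ hb
      simp [Ne.symm hb]
  · rw [jc_eq_zero d q μ j i (by omega)]
    apply Finset.sum_eq_zero
    intro b hb
    have : b < j + 1 := Finset.mem_range.mp hb
    have : i ≠ b := by omega
    simp [this]

theorem jp_natDegree (d q : ℕ) {μ : ℝ} (hμ : 0 ≤ μ) (j : ℕ) : (jp d q μ j).natDegree = j := by
  apply le_antisymm
  · rw [natDegree_le_iff_coeff_eq_zero]
    intro i hi
    rw [jp_coeff]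
    exact jc_eq_zero d q μ j i hi
  · apply le_natDegree_of_ne_zero
    rw [jp_coeff]
    exact jc_ne_zero d q hμ j j le_rfl

theorem jp_eval_zero (d q : ℕ) (μ : ℝ) (j : ℕ) : (jp d q μ j).eval 0 = 1 := by
  rw [← coeff_zero_eq_eval_zero, jp_coeff, jc_zero]

/-- the differential equation of `P_j`, as an identity of polynomials. -/
theorem jp_ode (d q : ℕ) (μ : ℝ) (j : ℕ) :
    C 4 * (X * (1 - X)) * derivative (derivative (jp d q μ j)) +
      C 2 * (C ((d : ℝ) + 2 * q + 1) * (1 - X) - C (2 * (μ + 1)) * X) * derivative (jp d q μ j) +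
      C (kap d q μ j) * jp d q μ j = 0 := by
  ext i
  have e1 : C 4 * (X * (1 - X)) * derivative (derivative (jp d q μ j)) =
      C 4 * (X * derivative (derivative (jp d q μ j))) -
        C 4 * (X * (X * derivative (derivative (jp d q μ j)))) := by ring
  have e2 : C 2 * (C ((d : ℝ) + 2 * q + 1) * (1 - X) - C (2 * (μ + 1)) * X) *
        derivative (jp d q μ j) =
      C (2 * ((d : ℝ) + 2 * q + 1)) * derivative (jp d q μ j) -
        C (2 * ((d : ℝ) + 2 * q + 1) + 2 * (2 * (μ + 1))) * (X * derivative (jp d q μ j)) := by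
    simp only [C_add, C_mul]
    ring
  rw [e1, e2]
  simp only [coeff_add, coeff_sub, coeff_C_mul, coeff_zero]
  rcases i with _ | _ | i
  · simp only [coeff_X_mul_zero, coeff_derivative, jp_coeff]
    have h := jc_recur d q μ j 0
    unfold kap at h ⊢
    push_cast at h ⊢
    linear_combination h
  · simp only [coeff_X_mul, coeff_X_mul_zero, coeff_derivative, jp_coeff]
    have h := jc_recur d q μ j 1
    unfold kap at h ⊢
    push_cast at h ⊢
    linear_combination h
  · simp only [coeff_X_mul, coeff_derivative, jp_coeff]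
    have h := jc_recur d q μ j (i + 2)
    unfold kap at h ⊢
    push_cast at h ⊢
    linear_combination h

/-- `P_j(1) ≠ 0`. -/
theorem jp_eval_one_ne_zero (d q : ℕ) {μ : ℝ} (hμ : 0 ≤ μ) (j : ℕ) :
    (jp d q μ j).eval 1 ≠ 0 := by
  intro h1
  set P := jp d q μ j with hP
  set T := P.comp (X + C 1) with hT
  have hdT : derivative T = (derivative P).comp (X + C 1) := by
    rw [hT, derivative_comp]; simp
  have hddT : derivative (derivative T) = (derivative (derivative P)).comp (X + C 1) := by
    rw [hdT, derivative_comp]; simp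
  have hode := congrArg (fun Q : ℝ[X] => Q.comp (X + C 1)) (jp_ode d q μ j)
  simp only [add_comp, mul_comp, sub_comp, C_comp, X_comp, one_comp, zero_comp] at hode
  rw [← hP, ← hT, ← hdT, ← hddT] at hode
  have hrec : ∀ i : ℕ, 4 * ((i : ℝ) + 1) * (i + μ + 1) * T.coeff (i + 1) =
      (kap d q μ j - kap d q μ i) * T.coeff i := by
    intro i
    have e1 : C 4 * ((X + C 1) * (1 - (X + C 1))) * derivative (derivative T) =
        -(C 4 * (X * (X * derivative (derivative T)))) - C 4 * (X * derivative (derivative T)) := by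
      simp only [C_1]; ring
    have e2 : C 2 * (C ((d : ℝ) + 2 * q + 1) * (1 - (X + C 1)) - C (2 * (μ + 1)) * (X + C 1)) *
          derivative T =
        -(C (2 * ((d : ℝ) + 2 * q + 1) + 2 * (2 * (μ + 1))) * (X * derivative T)) -
          C (2 * (2 * (μ + 1))) * derivative T := by
      simp only [C_add, C_mul, C_1]
      ring
    rw [e1, e2] at hode
    have hc := congrArg (fun Q : ℝ[X] => Q.coeff i) hode
    simp only [coeff_add, coeff_sub, coeff_neg, coeff_C_mul, coeff_zero] at hc
    rcases i with _ | _ | i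
    · simp only [coeff_X_mul_zero, coeff_derivative] at hc
      unfold kap at hc ⊢
      push_cast at hc ⊢
      linear_combination -hc
    · simp only [coeff_X_mul, coeff_X_mul_zero, coeff_derivative] at hc
      unfold kap at hc ⊢
      push_cast at hc ⊢
      linear_combination -hc
    · simp only [coeff_X_mul, coeff_derivative] at hc
      unfold kap at hc ⊢
      push_cast at hc ⊢
      linear_combination -hc
  have hz : ∀ i, T.coeff i = 0 := by
    intro i
    induction i with
    | zero => rw [coeff_zero_eq_eval_zero, hT, eval_comp]; simpa using h1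
    | succ i ih =>
      have h := hrec i
      rw [ih, mul_zero] at h
      have hpos : (0 : ℝ) < 4 * ((i : ℝ) + 1) * (i + μ + 1) := by positivity
      exact (mul_eq_zero.mp h).resolve_left hpos.ne'
  have hT0 : T = 0 := by ext i; simpa using hz i
  have hP0 : P = 0 := by
    have : T.comp (X - C 1) = P := by
      rw [hT, comp_assoc]; simp
    rw [← this, hT0, zero_comp]
  have := jp_eval_zero d q μ j
  rw [← hP, hP0] at this
  simp at this

end Crest.Agent.R202
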