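import Mathlib

/-!
# Row 202, TRI: continuous maps into a normed space are uniformly approximated by
combinations of finitely many elements of a dense submodule with continuous coefficients.
-/

set_option autoImplicit false

open Filter Topology

noncomputable section

namespace Crest.Agent.R202.Tri

/-- `f : K → E` continuous on a compact space, every value is a limit of elements of `F`:
uniform approximation by `∑ i, ρ i k • p i` with `p i ∈ F` fixed and `ρ i` continuous. -/
theorem exists_frame_approx {K E : Type*} [TopologicalSpace K] [CompactSpace K]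
    [SeminormedAddCommGroup E] [NormedSpace ℝ E] (f : K → E) (hf : Continuous f)
    (F : Submodule ℝ E) (hF : ∀ k, f k ∈ closure (F : Set E)) {ε : ℝ} (hε : 0 < ε) :
    ∃ (n : ℕ) (p : Fin n → E) (ρ : Fin n → K → ℝ), (∀ i, p i ∈ F) ∧ (∀ i, Continuous (ρ i)) ∧
      (∀ i k, 0 ≤ ρ i k) ∧ (∀ k, ∑ i, ρ i k = 1) ∧ ∀ k, ‖f k - ∑ i, ρ i k • p i‖ < ε := by
  classical
  have hp : ∀ k0 : K, ∃ p ∈ F, ‖f k0 - p‖ < ε := by
    intro k0
    obtain ⟨p, hp, hd⟩ := Metric.mem_closure_iff.1 (hF k0) ε hε
    exact ⟨p, hp, by rwa [dist_eq_norm] at hd⟩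
  choose p hpF hpε using hp
  set U : K → Set K := fun k0 => {k | ‖f k - p k0‖ < ε} with hU
  have hUo : ∀ k0, IsOpen (U k0) := fun k0 =>
    isOpen_lt (by fun_prop) continuous_const
  obtain ⟨t, ht⟩ := isCompact_univ.elim_finite_subcover U hUo
    (fun k _ => Set.mem_iUnion.2 ⟨k, hpε k⟩)
  -- enumerate `t`
  set n := t.card with hn
  set en : Fin n ≃ t := (Fintype.equivFinOfCardEq (by simp [hn])).symm with hen
  set w : Fin n → K → ℝ := fun i k => max 0 (ε - ‖f k - p (en i)‖) with hw
  have hw0 : ∀ i k, 0 ≤ w i k := fun i k => le_max_left _ _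
  have hwc : ∀ i, Continuous (w i) := fun i => by
    have : Continuous fun k => ‖f k - p (en i)‖ := by fun_prop
    exact continuous_const.max (continuous_const.sub this)
  set W : K → ℝ := fun k => ∑ i, w i k with hW
  have hWc : Continuous W := continuous_finsetSum _ fun i _ => hwc i
  have hWpos : ∀ k, 0 < W k := by
    intro k
    have hk := ht (Set.mem_univ k)
    simp only [Set.mem_iUnion] at hk
    obtain ⟨k0, hk0, hk1⟩ := hk
    refine Finset.sum_pos' (fun i _ => hw0 i k) ⟨en.symm ⟨k0, hk0⟩, Finset.mem_univ _, ?_⟩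
    simp only [hw, Equiv.apply_symm_apply]
    exact lt_max_of_lt_right (by have : ‖f k - p k0‖ < ε := hk1; linarith)
  refine ⟨n, fun i => p (en i), fun i k => w i k / W k, fun i => hpF _,
    fun i => (hwc i).div hWc fun k => (hWpos k).ne', fun i k => div_nonneg (hw0 i k) (hWpos k).le,
    fun k => ?_, fun k => ?_⟩
  · rw [← Finset.sum_div, div_self (hWpos k).ne']
  · have hsum : ∑ i, w i k / W k = 1 := by rw [← Finset.sum_div, div_self (hWpos k).ne']
    have h1 : f k - ∑ i, (w i k / W k) • p (en i) = ∑ i, (w i k / W k) • (f k - p (en i)) := by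
      simp_rw [smul_sub]
      rw [Finset.sum_sub_distrib, ← Finset.sum_smul, hsum, one_smul]
    rw [h1]
    refine lt_of_le_of_lt (norm_sum_le _ _) ?_
    have h2 : ∀ i, ‖(w i k / W k) • (f k - p (en i))‖ ≤ (w i k / W k) * ε := by
      intro i
      rw [norm_smul, Real.norm_of_nonneg (div_nonneg (hw0 i k) (hWpos k).le)]
      rcases (hw0 i k).eq_or_lt with h | h
      · rw [← h]; simp
      · apply mul_le_mul_of_nonneg_left _ (div_nonneg (hw0 i k) (hWpos k).le)
        have : 0 < ε - ‖f k - p (en i)‖ := by
          by_contra hc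
          push Not at hc
          have : w i k = 0 := max_eq_left hc
          linarith
        linarith
    have h3 : ∃ i, 0 < w i k := by
      by_contra hc
      push Not at hc
      have : W k ≤ 0 := Finset.sum_nonpos fun i _ => hc i
      linarith [hWpos k]
    obtain ⟨i0, hi0⟩ := h3
    calc ∑ i, ‖(w i k / W k) • (f k - p (en i))‖ < ∑ i, (w i k / W k) * ε := by
          refine Finset.sum_lt_sum (fun i _ => h2 i) ⟨i0, Finset.mem_univ _, ?_⟩
          rw [norm_smul, Real.norm_of_nonneg (div_nonneg (hw0 i0 k) (hWpos k).le)]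
          apply mul_lt_mul_of_pos_left _ (div_pos hi0 (hWpos k))
          by_contra hc
          push Not at hc
          have : w i0 k = 0 := max_eq_left (by linarith)
          linarith
      _ = ε := by rw [← Finset.sum_mul, hsum, one_mul]

end Crest.Agent.R202.Tri
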